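import Vale.Agent.P237.Defs
import Vale.Agent.P237.Statement

/-!
# P237, all dimensions: constants and profiles
-/

open MeasureTheory Metric Set Module

namespace Vale.Agent.P237.AllN

variable {V : Type*} [NormedAddCommGroup V] [InnerProductSpace ℝ V] [FiniteDimensional ℝ V]
  [MeasurableSpace V] [BorelSpace V]

/-- the integrals `∫_{-1}^1 (1-y²)^(k/2) dy` -/
noncomputable def aInt (k : ℕ) : ℝ := ∫ y in (-1 : ℝ)..1, Real.sqrt (1 - y ^ 2) ^ k

/-- Petty's constant -/
noncomputable def RC (n : ℕ) : ℝ :=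
  Statement.kappa (n - 1) ^ n * Statement.kappa n ^ (2 - (n : ℤ))

/-- The profile: the `m`-th root of the volume of the slices (`m` the dimension of `u^⊥`). -/
noncomputable def prof (K : Set V) (u : V) (m : ℕ) (y : ℝ) : ℝ :=
  vol (slice K u y) ^ (1 / (m : ℝ))

omit [FiniteDimensional ℝ V] [MeasurableSpace V] [BorelSpace V] in
theorem finrank_perp_gen {m : ℕ} (hd : finrank ℝ V = m + 1) {u : V} (hu : ‖u‖ = 1) :
    finrank ℝ ((ℝ ∙ u)ᗮ : Submodule ℝ V) = m := by
  have hu0 : u ≠ 0 := by
    rintro rfl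
    simp at hu
  have : Fact (finrank ℝ V = m + 1) := ⟨hd⟩
  exact Submodule.finrank_orthogonal_span_singleton hu0

end Vale.Agent.P237.AllN
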