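import Vale.Agent.P237.ShadowPi
import Vale.Agent.P237.AllN.DefsN

/-!
# P237, all dimensions: the profile of a symmetric body
-/

open MeasureTheory Metric Set Module
open scoped Pointwise

namespace Vale.Agent.P237.AllN

variable {V : Type*} [NormedAddCommGroup V] [InnerProductSpace ℝ V] [FiniteDimensional ℝ V]
  [MeasurableSpace V] [BorelSpace V]

theorem prof_nonneg (K : Set V) (u : V) (m : ℕ) (y : ℝ) : 0 ≤ prof K u m y :=
  Real.rpow_nonneg (vol_nonneg _) _

theorem prof_even {K : Set V} (hK : IsSymBody K) {u : V} (hu : ‖u‖ = 1) (m : ℕ) (y : ℝ) :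
    prof K u m (-y) = prof K u m y := by
  unfold prof
  rw [slice_vol_even hK hu]

theorem prof_pow {m : ℕ} (hm : 1 ≤ m) (K : Set V) (u : V) (y : ℝ) :
    prof K u m y ^ m = vol (slice K u y) := by
  unfold prof
  rw [← Real.rpow_natCast, ← Real.rpow_mul (vol_nonneg _)]
  have hm' : (m : ℝ) ≠ 0 := by positivity
  rw [one_div, inv_mul_cancel₀ hm', Real.rpow_one]

theorem vol_empty_eq_zero : vol (∅ : Set V) = 0 := by
  unfold vol
  simp

theorem prof_eq_zero_of_lt {K : Set V} (hK : IsCompact K) {u : V} (hu : ‖u‖ = 1) {m : ℕ}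
    (hm : 1 ≤ m) {y : ℝ} (hy : supp K u < y) : prof K u m y = 0 := by
  unfold prof
  rw [slice_eq_empty hK hu hy, vol_empty_eq_zero]
  have hm' : (m : ℝ) ≠ 0 := by positivity
  exact Real.zero_rpow (by positivity)

theorem prof_eq_zero {K : Set V} (hK : IsSymBody K) {u : V} (hu : ‖u‖ = 1) {m : ℕ}
    (hm : 1 ≤ m) {y : ℝ} (hy : y ∉ Icc (-supp K u) (supp K u)) : prof K u m y = 0 := by
  rcases lt_or_ge (supp K u) y with h | h
  · exact prof_eq_zero_of_lt hK.compact hu hm h
  · rw [← prof_even hK hu]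
    refine prof_eq_zero_of_lt hK.compact hu hm ?_
    by_contra h'
    exact hy ⟨by linarith [not_lt.1 h'], h⟩

theorem prof_combo {m : ℕ} (hm : 1 ≤ m) (hd : finrank ℝ V = m + 1) {K : Set V}
    (hK : IsSymBody K) {u : V} (hu : ‖u‖ = 1) {y z a b : ℝ}
    (hy : y ∈ Icc (-supp K u) (supp K u)) (hz : z ∈ Icc (-supp K u) (supp K u))
    (ha : 0 ≤ a) (hb : 0 ≤ b) (hab : a + b = 1) :
    a * prof K u m y + b * prof K u m z ≤ prof K u m (a * y + b * z) := by
  have h2 := finrank_perp_gen hd hu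
  have hKc := hK.compact
  have hm' : (m : ℝ) ≠ 0 := by positivity
  have bm := brunn_minkowski (V := ((ℝ ∙ u)ᗮ : Submodule ℝ V))
    ((slice_isCompact hKc u y).smul a) ((slice_isCompact hKc u z).smul b)
    ((slice_nonempty hK hu hy).smul_set) ((slice_nonempty hK hu hz).smul_set) (by omega)
  rw [h2, vol_smul_set, vol_smul_set, h2, abs_of_nonneg ha, abs_of_nonneg hb,
    Real.mul_rpow (by positivity) (vol_nonneg _), Real.mul_rpow (by positivity) (vol_nonneg _)]
    at bm
  have e : ∀ t : ℝ, 0 ≤ t → (t ^ m) ^ ((1 : ℝ) / m) = t := by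
    intro t ht
    rw [← Real.rpow_natCast, ← Real.rpow_mul ht, mul_one_div_cancel hm', Real.rpow_one]
  rw [e a ha, e b hb] at bm
  refine bm.trans ?_
  unfold prof
  exact Real.rpow_le_rpow (vol_nonneg _)
    (vol_mono (slice_isCompact hKc u _) (slice_combo_subset hK.convex u y z ha hb hab))
    (by positivity)

theorem prof_concave {m : ℕ} (hm : 1 ≤ m) (hd : finrank ℝ V = m + 1) {K : Set V}
    (hK : IsSymBody K) {u : V} (hu : ‖u‖ = 1) :
    ConcaveOn ℝ (Icc (-supp K u) (supp K u)) (prof K u m) := by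
  refine ⟨convex_Icc _ _, ?_⟩
  intro y hy z hz a b ha hb hab
  simp only [smul_eq_mul]
  exact prof_combo hm hd hK hu hy hz ha hb hab

theorem prof_antitone {m : ℕ} (hm : 1 ≤ m) (hd : finrank ℝ V = m + 1) {K : Set V}
    (hK : IsSymBody K) {u : V} (hu : ‖u‖ = 1) :
    AntitoneOn (prof K u m) (Icc 0 (supp K u)) := by
  apply antitone_of_combo
  intro y hy a b ha hb hab
  have hpos := supp_pos hK hu
  have h := prof_combo hm hd hK hu (y := y) (z := -y) ⟨by linarith [hy.1], hy.2⟩
    ⟨by linarith [hy.2], by linarith [hy.1]⟩ ha hb hab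
  rwa [prof_even hK hu, ← add_mul, hab, one_mul] at h

theorem prof_le_prof_zero {m : ℕ} (hm : 1 ≤ m) (hd : finrank ℝ V = m + 1) {K : Set V}
    (hK : IsSymBody K) {u : V} (hu : ‖u‖ = 1) (y : ℝ) : prof K u m y ≤ prof K u m 0 := by
  by_cases hy : y ∈ Icc (-supp K u) (supp K u)
  · have h := prof_combo hm hd hK hu (y := y) (z := -y) (a := 1 / 2) (b := 1 / 2) hy
      ⟨by linarith [hy.2], by linarith [hy.1]⟩ (by norm_num) (by norm_num) (by norm_num)
    have e : (1 / 2 : ℝ) * y + 1 / 2 * -y = 0 := by ring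
    rw [prof_even hK hu, e] at h
    linarith
  · rw [prof_eq_zero hK hu hm hy]
    exact prof_nonneg _ _ _ _

theorem prof_monotone_neg {m : ℕ} (hm : 1 ≤ m) (hd : finrank ℝ V = m + 1) {K : Set V}
    (hK : IsSymBody K) {u : V} (hu : ‖u‖ = 1) :
    MonotoneOn (prof K u m) (Icc (-supp K u) 0) := by
  intro y hy z hz hyz
  rw [← prof_even hK hu m y, ← prof_even hK hu m z]
  exact prof_antitone hm hd hK hu ⟨by linarith [hz.2], by linarith [hz.1]⟩
    ⟨by linarith [hy.2], by linarith [hy.1]⟩ (by linarith)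

theorem prof_pow_intervalIntegrable {m : ℕ} (hm : 1 ≤ m) (hd : finrank ℝ V = m + 1) {K : Set V}
    (hK : IsSymBody K) {u : V} (hu : ‖u‖ = 1) (k : ℕ) :
    IntervalIntegrable (fun y => prof K u m y ^ k) volume (-supp K u) (supp K u) := by
  have hpos := supp_pos hK hu
  refine IntervalIntegrable.trans (b := 0) ?_ ?_
  · refine MonotoneOn.intervalIntegrable ?_
    rw [uIcc_of_le (by linarith)]
    intro y hy z hz hyz
    exact pow_le_pow_left₀ (prof_nonneg _ _ _ _) (prof_monotone_neg hm hd hK hu hy hz hyz) k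
  · refine AntitoneOn.intervalIntegrable ?_
    rw [uIcc_of_le hpos.le]
    intro y hy z hz hyz
    exact pow_le_pow_left₀ (prof_nonneg _ _ _ _) (prof_antitone hm hd hK hu hy hz hyz) k

theorem prof_pow_eq_indicator {m : ℕ} (hm : 1 ≤ m) {K : Set V}
    (hK : IsSymBody K) {u : V} (hu : ‖u‖ = 1) {k : ℕ} (hk : 1 ≤ k) :
    (fun y => prof K u m y ^ k) =
      (Icc (-supp K u) (supp K u)).indicator (fun y => prof K u m y ^ k) := by
  funext y
  by_cases hy : y ∈ Icc (-supp K u) (supp K u)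
  · rw [indicator_of_mem hy]
  · rw [indicator_of_notMem hy, prof_eq_zero hK hu hm hy, zero_pow (by omega)]

theorem prof_pow_integrable {m : ℕ} (hm : 1 ≤ m) (hd : finrank ℝ V = m + 1) {K : Set V}
    (hK : IsSymBody K) {u : V} (hu : ‖u‖ = 1) {k : ℕ} (hk : 1 ≤ k) :
    Integrable (fun y => prof K u m y ^ k) := by
  have hpos := supp_pos hK hu
  rw [prof_pow_eq_indicator hm hK hu hk, integrable_indicator_iff measurableSet_Icc]
  exact (intervalIntegrable_iff_integrableOn_Icc_of_le (by linarith)).1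
    (prof_pow_intervalIntegrable hm hd hK hu k)

/-- the integral over the line is the integral over `[-h, h]` (also used for `k < m`) -/
theorem integral_prof_pow {m : ℕ} (hm : 1 ≤ m) {K : Set V}
    (hK : IsSymBody K) {u : V} (hu : ‖u‖ = 1) {k : ℕ} (hk : 1 ≤ k) :
    ∫ y : ℝ, prof K u m y ^ k = ∫ y in (-supp K u)..(supp K u), prof K u m y ^ k := by
  rw [intervalIntegral.integral_of_le
    (by linarith [supp_pos hK hu]), ← integral_Icc_eq_integral_Ioc]
  refine (setIntegral_eq_integral_of_forall_compl_eq_zero fun y hy => ?_).symm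
  rw [prof_eq_zero hK hu hm hy, zero_pow (by omega)]

theorem vol_eq_integral_prof {m : ℕ} (hm : 1 ≤ m) {K : Set V}
    (hK : IsSymBody K) {u : V} (hu : ‖u‖ = 1) :
    vol K = ∫ y : ℝ, prof K u m y ^ m := by
  rw [vol_eq_integral_slice hK.compact hu]
  refine integral_congr_ae (Filter.Eventually.of_forall fun y => ?_)
  simp only [prof_pow hm]

theorem vol_eq_intervalIntegral_prof {m : ℕ} (hm : 1 ≤ m) {K : Set V}
    (hK : IsSymBody K) {u : V} (hu : ‖u‖ = 1) :
    vol K = ∫ y in (-supp K u)..(supp K u), prof K u m y ^ m := by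
  rw [vol_eq_integral_prof hm hK hu, integral_prof_pow hm hK hu hm]

omit [FiniteDimensional ℝ V] [MeasurableSpace V] [BorelSpace V] in
/-- a small ball around an interior point of `K` gives a slice with nonempty interior -/
theorem exists_ball_slice {K : Set V} (hK : IsSymBody K) (u : V) :
    ∃ r > 0, closedBall (0 : ((ℝ ∙ u)ᗮ : Submodule ℝ V)) r ⊆ slice K u 0 := by
  have h0 : (0 : V) ∈ interior K := by
    obtain ⟨x, hx⟩ := hK.int
    have hc : Convex ℝ (interior K) := hK.convex.interior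
    have hn : -x ∈ interior K := by
      rw [mem_interior] at hx ⊢
      obtain ⟨t, htK, hto, hxt⟩ := hx
      refine ⟨-t, ?_, hto.neg, Set.neg_mem_neg.2 hxt⟩
      intro y hy
      have := hK.symm _ (htK (Set.mem_neg.1 hy))
      rwa [neg_neg] at this
    have h := hc hx hn (by norm_num : (0 : ℝ) ≤ 1 / 2) (by norm_num : (0 : ℝ) ≤ 1 / 2)
      (by norm_num)
    rw [smul_neg, add_neg_cancel] at h
    exact h
  obtain ⟨ε, hε, hb⟩ := Metric.mem_nhds_iff.1 (mem_interior_iff_mem_nhds.1 h0)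
  refine ⟨ε / 2, by positivity, ?_⟩
  intro z hz
  show (z : V) + (0 : ℝ) • u ∈ K
  apply hb
  rw [mem_closedBall_zero_iff, Submodule.coe_norm] at hz
  rw [zero_smul, add_zero, mem_ball_zero_iff]
  linarith

theorem prof_zero_pos {m : ℕ} {K : Set V} (hK : IsSymBody K) (u : V) :
    0 < prof K u m 0 := by
  obtain ⟨r, hr, hb⟩ := exists_ball_slice hK u
  unfold prof
  refine Real.rpow_pos_of_pos ?_ _
  unfold vol
  refine ENNReal.toReal_pos ?_ (slice_isCompact hK.compact u 0).measure_lt_top.ne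
  have h1 : 0 < volume (ball (0 : ((ℝ ∙ u)ᗮ : Submodule ℝ V)) r) := measure_ball_pos _ _ hr
  exact (lt_of_lt_of_le h1 (measure_mono (ball_subset_closedBall.trans hb))).ne'

theorem prof_pos {m : ℕ} (hm : 1 ≤ m) (hd : finrank ℝ V = m + 1) {K : Set V}
    (hK : IsSymBody K) {u : V} (hu : ‖u‖ = 1) {y : ℝ}
    (hy : y ∈ Ioo (-supp K u) (supp K u)) : 0 < prof K u m y := by
  have hpos := supp_pos hK hu
  set h := supp K u with hh
  -- first for `0 ≤ y`
  have key : ∀ t : ℝ, 0 ≤ t → t < h → 0 < prof K u m t := by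
    intro t ht0 ht
    have hc := prof_combo hm hd hK hu (y := 0) (z := h) (a := (h - t) / h) (b := t / h)
      ⟨by linarith, hpos.le⟩ ⟨by linarith, le_refl _⟩
      (div_nonneg (by linarith) hpos.le) (div_nonneg ht0 hpos.le) (by field_simp; ring)
    have e : (h - t) / h * 0 + t / h * h = t := by field_simp; ring
    rw [e] at hc
    have h1 : 0 < (h - t) / h * prof K u m 0 :=
      mul_pos (div_pos (by linarith) hpos) (prof_zero_pos hK u)
    have h2 : 0 ≤ t / h * prof K u m h :=
      mul_nonneg (div_nonneg ht0 hpos.le) (prof_nonneg _ _ _ _)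
    linarith
  rcases le_total 0 y with h0 | h0
  · exact key y h0 hy.2
  · rw [← prof_even hK hu]
    exact key (-y) (by linarith) (by linarith [hy.1])

end Vale.Agent.P237.AllN
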