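import Vale.Agent.P237.ShadowPi
import Vale.Agent.P237.AllN.DefsN

/-!
# P237-N-B1: a lower bound for the shadows of the projection body, general dimension
-/

open MeasureTheory Metric Set Module
open scoped Pointwise

namespace Vale.Agent.P237.AllN

variable {V : Type*} [NormedAddCommGroup V] [InnerProductSpace ℝ V] [FiniteDimensional ℝ V]
  [MeasurableSpace V] [BorelSpace V]

theorem rpow_scale {d : ℕ} (hd : 0 < d) {a v : ℝ} (ha : 0 ≤ a) (hv : 0 ≤ v) :
    (|a| ^ d * v) ^ ((1 : ℝ) / d) = a * v ^ ((1 : ℝ) / d) := by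
  rw [abs_of_nonneg ha, Real.mul_rpow (by positivity) hv, one_div,
    Real.pow_rpow_inv_natCast ha (by omega)]

/-- The symmetric combination of a compact set and its reflection has at least the same
volume. -/
theorem vol_le_of_combo (hd : 0 < finrank ℝ V) {A C : Set V} (hA : IsCompact A)
    (hne : A.Nonempty) (hC : IsCompact C) {a b : ℝ} (ha : 0 ≤ a) (hb : 0 ≤ b) (hab : a + b = 1)
    (hsub : a • A + b • (-A) ⊆ C) : vol A ≤ vol C := by
  have bm := brunn_minkowski (hA.smul a) (hA.neg.smul b) hne.smul_set hne.neg.smul_set hd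
  rw [vol_smul_set, vol_smul_set, rpow_scale hd ha (vol_nonneg _),
    rpow_scale hd hb (vol_nonneg _)] at bm
  have e : vol (-A) = vol A := by
    unfold vol
    rw [Measure.measure_neg]
  rw [e, ← add_mul, hab, one_mul] at bm
  have h1 : vol (a • A + b • -A) ≤ vol C := vol_mono hC hsub
  have hp : (0 : ℝ) < (1 : ℝ) / finrank ℝ V := by
    have : (0 : ℝ) < finrank ℝ V := by exact_mod_cast hd
    positivity
  exact ((Real.rpow_le_rpow_iff (vol_nonneg _) (vol_nonneg _) hp).1 bm).trans h1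

theorem vol_slice_antitone {m : ℕ} (hm : 1 ≤ m) (hd : finrank ℝ V = m + 1) {K : Set V}
    (hK : IsSymBody K) {u : V} (hu : ‖u‖ = 1) :
    AntitoneOn (fun y => vol (slice K u y)) (Icc 0 (supp K u)) := by
  apply antitone_of_combo
  intro y hy a b ha hb hab
  have h2 := finrank_perp_gen hd hu
  have hpos := supp_pos hK hu
  have hne1 : (slice K u y).Nonempty := slice_nonempty hK hu ⟨by linarith [hy.1], hy.2⟩
  refine vol_le_of_combo (by omega) (slice_isCompact hK.compact u y) hne1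
    (slice_isCompact hK.compact u _) ha hb hab ?_
  rw [← slice_neg hK.symm]
  exact slice_combo_subset hK.convex u y (-y) ha hb hab

theorem beta_slice_antitone_gen {m : ℕ} (hm : 2 ≤ m) (hd : finrank ℝ V = m + 1) {K : Set V}
    (hK : IsSymBody K) {u : V} (hu : ‖u‖ = 1) (w : ((ℝ ∙ u)ᗮ : Submodule ℝ V)) :
    AntitoneOn (fun y => beta (slice K u y) w) (Icc 0 (supp K u)) := by
  by_cases hw : w = 0
  · subst hw
    intro y _ z _ _
    simp only [beta_zero, le_refl]
  have h2 := finrank_perp_gen hd hu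
  apply antitone_of_combo
  intro y hy a b ha hb hab
  have hpos := supp_pos hK hu
  have hne1 : (slice K u y).Nonempty := slice_nonempty hK hu ⟨by linarith [hy.1], hy.2⟩
  have hc1 := slice_isCompact hK.compact u y
  have hc3 := slice_isCompact hK.compact u (a * y + b * (-y))
  rw [beta_eq_norm_mul hc1 (slice_convex hK.convex u y) hw,
    beta_eq_norm_mul hc3 (slice_convex hK.convex u _) hw]
  refine mul_le_mul_of_nonneg_left ?_ (norm_nonneg _)
  set e := ‖w‖⁻¹ • w with he
  have he1 : ‖e‖ = 1 := norm_unit hw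
  obtain ⟨k, rfl⟩ : ∃ k, m = k + 1 := ⟨m - 1, by omega⟩
  have h3 := finrank_perp_gen h2 he1
  set P := (ℝ ∙ e)ᗮ.orthogonalProjectionOnto with hP
  have hcont : Continuous P := ContinuousLinearMap.continuous _
  have key := vol_le_of_combo (V := ((ℝ ∙ e)ᗮ : Submodule ℝ ((ℝ ∙ u)ᗮ : Submodule ℝ V)))
    (A := P '' slice K u y) (C := P '' slice K u (a * y + b * (-y))) (a := a) (b := b)
    (by omega) (hc1.image hcont) (hne1.image _) (hc3.image hcont) ha hb hab ?_
  · exact key
  · have hsub := slice_combo_subset hK.convex u y (-y) ha hb hab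
    rw [slice_neg hK.symm] at hsub
    rintro _ ⟨_, ⟨_, ⟨p, hp, rfl⟩, rfl⟩, _, ⟨q, hq, rfl⟩, rfl⟩
    obtain ⟨q', hq', hqe⟩ := Set.mem_neg.1 hq
    refine ⟨a • p + b • (-q'), hsub (add_mem_add (smul_mem_smul_set hp)
      (smul_mem_smul_set (Set.neg_mem_neg.2 hq'))), ?_⟩
    have : q = -P q' := by rw [hqe, neg_neg]
    rw [this, map_add, map_smul, map_smul, map_neg]

/-- A convex compact set with empty interior has zero volume. -/
theorem vol_eq_zero_of_interior {S : Set V} (hS : IsCompact S) (hc : Convex ℝ S)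
    (hi : ¬ (interior S).Nonempty) : vol S = 0 := by
  unfold vol
  have h1 : volume (frontier S) = 0 := hc.addHaar_frontier volume
  have h2 : S ⊆ frontier S := by
    rw [not_nonempty_iff_eq_empty] at hi
    rw [frontier, hi, hS.isClosed.closure_eq, sdiff_empty]
  rw [measure_mono_null h2 h1, ENNReal.toReal_zero]

theorem exists_T {m : ℕ} (hm : 2 ≤ m) (hd : finrank ℝ V = m) {R : ℝ} (hR : 0 ≤ R)
    (hP : ∀ S : Set V, IsBody S → R * vol S ^ (m - 1) ≤ vol (projBody S))
    {S : Set V} (hS : IsCompact S) (hc : Convex ℝ S) :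
    ∃ T : Set V, IsCompact T ∧ T.Nonempty ∧ (∀ z ∈ T, ∀ w, inner ℝ z w ≤ beta S w) ∧
      R ^ ((1 : ℝ) / m) * (vol S ^ ((1 : ℝ) / m)) ^ (m - 1) ≤ vol T ^ ((1 : ℝ) / m) := by
  have hmR : (m : ℝ) ≠ 0 := by
    have : (0 : ℝ) < m := by exact_mod_cast (by omega : 0 < m)
    exact this.ne'
  by_cases hi : (interior S).Nonempty
  · have hB : IsBody S := ⟨hc, hS, hi⟩
    have hPi := projBody_isSymBody hB
    refine ⟨projBody S, hPi.compact, hPi.int.mono interior_subset, ?_, ?_⟩
    · intro z hz w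
      rw [projBody_eq_wulff hS hc] at hz
      exact hz w
    · have h1 := hP S hB
      have h2 : (R * vol S ^ (m - 1)) ^ ((1 : ℝ) / m) ≤ vol (projBody S) ^ ((1 : ℝ) / m) :=
        Real.rpow_le_rpow (mul_nonneg hR (pow_nonneg (vol_nonneg _) _)) h1 (by positivity)
      refine le_trans (le_of_eq ?_) h2
      rw [Real.mul_rpow hR (pow_nonneg (vol_nonneg _) _)]
      congr 1
      rw [← Real.rpow_natCast, ← Real.rpow_natCast, ← Real.rpow_mul (vol_nonneg _),
        ← Real.rpow_mul (vol_nonneg _), mul_comm]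
  · refine ⟨{0}, isCompact_singleton, singleton_nonempty _, ?_, ?_⟩
    · rintro z rfl w
      rw [inner_zero_left]
      exact beta_nonneg hS hc w
    · rw [vol_eq_zero_of_interior hS hc hi, Real.zero_rpow (by positivity),
        zero_pow (by omega), mul_zero]
      exact Real.rpow_nonneg (vol_nonneg _) _

/-- The key inequality with `N` slices. -/
theorem root_vol_ge {m : ℕ} (hm : 2 ≤ m) (hd : finrank ℝ V = m + 1) {K : Set V}
    (hK : IsSymBody K) {u : V} (hu : ‖u‖ = 1) {R : ℝ} (hR : 0 ≤ R)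
    (hP : ∀ S : Set ((ℝ ∙ u)ᗮ : Submodule ℝ V), IsBody S →
      R * vol S ^ (m - 1) ≤ vol (projBody S))
    {D : Set ((ℝ ∙ u)ᗮ : Submodule ℝ V)} (hDc : IsCompact D)
    (hD : D = {z | ∀ w : ((ℝ ∙ u)ᗮ : Submodule ℝ V), inner ℝ z w ≤ beta K (w : V)})
    {N : ℕ} (hN : 0 < N) :
    R ^ ((1 : ℝ) / m) * (∫ y : ℝ, prof K u m y ^ (m - 1)) ≤
      vol D ^ ((1 : ℝ) / m) +
        2 * (supp K u / N) * (R ^ ((1 : ℝ) / m) * prof K u m 0 ^ (m - 1)) := by
  have h2 := finrank_perp_gen hd hu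
  have hKc := hK.compact
  have hpos := supp_pos hK hu
  set h := supp K u with hh
  have hN' : (0 : ℝ) < N := by exact_mod_cast hN
  set c : ℝ := h / N with hc
  have hcpos : 0 < c := by positivity
  have hm0 : m - 1 ≠ 0 := by omega
  have hmpos : 0 < m := by omega
  set S : Fin N → Set ((ℝ ∙ u)ᗮ : Submodule ℝ V) := fun j => slice K u (c * ((j : ℕ) + 1)) with hS
  have hSc : ∀ j, IsCompact (S j) := fun j => slice_isCompact hKc u _
  have hSconv : ∀ j, Convex ℝ (S j) := fun j => slice_convex hK.convex u _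
  choose T hTc hTne hTb hTvol using fun j => exists_T hm h2 hR hP (hSc j) (hSconv j)
  -- D contains the scaled Minkowski sum
  have hsub : (2 * c) • ∑ j, T j ⊆ D := by
    rintro _ ⟨z, hz, rfl⟩
    rw [hD]
    intro w
    obtain ⟨g, hg, rfl⟩ := (Set.mem_fintype_sum _ _).1 hz
    show inner ℝ ((2 * c) • ∑ j, g j) w ≤ beta K (w : V)
    rw [real_inner_smul_left, sum_inner, beta_eq_integral_slice hKc hu w]
    have hRl := riemann_lower (f := fun y => beta (slice K u y) w) hpos
      (beta_slice_antitone_gen hm hd hK hu w)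
      (fun y hy => by
        show beta (slice K u y) w = 0
        rw [slice_eq_empty hKc hu hy, beta_empty])
      (fun y => by
        show beta (slice K u (-y)) w = beta (slice K u y) w
        rw [slice_neg hK.symm, beta_neg_set]) hN
    refine le_trans ?_ hRl
    exact mul_le_mul_of_nonneg_left (Finset.sum_le_sum fun j _ => hTb j (g j) (hg j) w)
      (by positivity)
  have hsumc : IsCompact (∑ j, T j) := isCompact_sum hTc
  have hvol2 : 2 * c * vol (∑ j, T j) ^ ((1 : ℝ) / m) ≤ vol D ^ ((1 : ℝ) / m) := by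
    have h3 := vol_mono hDc hsub
    rw [vol_smul_set, h2] at h3
    have h4 := Real.rpow_le_rpow (by positivity [vol_nonneg (∑ j, T j)]) h3
      (by positivity : (0 : ℝ) ≤ (1 : ℝ) / m)
    rwa [rpow_scale hmpos (by positivity) (vol_nonneg _)] at h4
  have hbm := bm_sum (V := ((ℝ ∙ u)ᗮ : Submodule ℝ V)) hTc hTne (by omega)
  rw [h2] at hbm
  have hs1 : ∑ j, R ^ ((1 : ℝ) / m) * (vol (S j) ^ ((1 : ℝ) / m)) ^ (m - 1) ≤
      vol (∑ j, T j) ^ ((1 : ℝ) / m) :=
    (Finset.sum_le_sum fun j _ => hTvol j).trans hbm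
  have hU := riemann_upper (f := fun y => prof K u m y ^ (m - 1)) hpos
      (fun y hy z hz hyz => by
        show prof K u m z ^ (m - 1) ≤ prof K u m y ^ (m - 1)
        refine pow_le_pow_left₀ (Real.rpow_nonneg (vol_nonneg _) _) ?_ _
        exact Real.rpow_le_rpow (vol_nonneg _)
          (vol_slice_antitone (by omega) hd hK hu hy hz hyz) (by positivity))
      (pow_nonneg (Real.rpow_nonneg (vol_nonneg _) _) _)
      (fun y hy => by
        show prof K u m y ^ (m - 1) = 0
        unfold prof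
        rw [slice_eq_empty hKc hu hy]
        have e : vol (∅ : Set ((ℝ ∙ u)ᗮ : Submodule ℝ V)) = 0 := by simp [vol]
        rw [e, Real.zero_rpow (by positivity), zero_pow hm0])
      (fun y => by
        show prof K u m (-y) ^ (m - 1) = prof K u m y ^ (m - 1)
        unfold prof
        rw [slice_vol_even hK hu]) hN
  rw [← Finset.mul_sum] at hs1
  have hRr : 0 ≤ R ^ ((1 : ℝ) / m) := Real.rpow_nonneg hR _
  have hU' : (∫ y : ℝ, prof K u m y ^ (m - 1)) ≤ 2 * c * (prof K u m 0 ^ (m - 1) +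
      ∑ j, (vol (S j) ^ ((1 : ℝ) / m)) ^ (m - 1)) := hU
  have h5 : 2 * c * (R ^ ((1 : ℝ) / m) * ∑ j, (vol (S j) ^ ((1 : ℝ) / m)) ^ (m - 1)) ≤
      2 * c * vol (∑ j, T j) ^ ((1 : ℝ) / m) :=
    mul_le_mul_of_nonneg_left hs1 (by positivity)
  have h6 := mul_le_mul_of_nonneg_left hU' hRr
  calc _ ≤ _ := h6
    _ = 2 * c * (R ^ ((1 : ℝ) / m) * ∑ j, (vol (S j) ^ ((1 : ℝ) / m)) ^ (m - 1)) +
        2 * c * (R ^ ((1 : ℝ) / m) * prof K u m 0 ^ (m - 1)) := by ring
    _ ≤ _ := by linarith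

theorem shadow_projBody_ge_gen {m : ℕ} (hm : 2 ≤ m) (hd : finrank ℝ V = m + 1) {K : Set V}
    (hK : IsSymBody K) {u : V} (hu : ‖u‖ = 1) {R : ℝ} (hR : 0 ≤ R)
    (hP : ∀ S : Set ((ℝ ∙ u)ᗮ : Submodule ℝ V), IsBody S →
      R * vol S ^ (m - 1) ≤ vol (projBody S)) :
    R * (∫ y : ℝ, prof K u m y ^ (m - 1)) ^ m ≤ shadow (projBody K) u := by
  have hKc := hK.compact
  have hPi := projBody_isSymBody hK.toIsBody
  have hD : (ℝ ∙ u)ᗮ.orthogonalProjectionOnto '' (projBody K) =
      {z | ∀ w : ((ℝ ∙ u)ᗮ : Submodule ℝ V), inner ℝ z w ≤ beta K (w : V)} := by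
    rw [projBody_eq_wulff hKc hK.convex]
    refine wulff_proj (fun t v ht => ?_) (beta_add_le hKc hK.convex) _
    rw [beta_smul hKc hK.convex, abs_of_nonneg ht]
  have hDc : IsCompact ((ℝ ∙ u)ᗮ.orthogonalProjectionOnto '' (projBody K)) :=
    hPi.compact.image (ContinuousLinearMap.continuous _)
  have hRr : 0 ≤ R ^ ((1 : ℝ) / m) := Real.rpow_nonneg hR _
  have hp0 : 0 ≤ prof K u m 0 ^ (m - 1) := pow_nonneg (Real.rpow_nonneg (vol_nonneg _) _) _
  have hsh : 0 ≤ shadow (projBody K) u := shadow_nonneg _ _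
  have key : R ^ ((1 : ℝ) / m) * (∫ y : ℝ, prof K u m y ^ (m - 1)) ≤
      shadow (projBody K) u ^ ((1 : ℝ) / m) := by
    refine le_of_forall_pos_le_add fun ε hε => ?_
    set C : ℝ := 2 * supp K u * (R ^ ((1 : ℝ) / m) * prof K u m 0 ^ (m - 1)) with hC
    have hnn : 0 ≤ C / ε := by
      have := supp_pos hK hu
      positivity
    obtain ⟨N, hN⟩ := exists_nat_gt (C / ε)
    have hN' : (0 : ℝ) < N := hnn.trans_lt hN
    have hN0 : 0 < N := by exact_mod_cast hN'
    have h1 := root_vol_ge hm hd hK hu hR hP hDc hD hN0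
    have h3 : 2 * (supp K u / N) * (R ^ ((1 : ℝ) / m) * prof K u m 0 ^ (m - 1)) ≤ ε := by
      rw [div_lt_iff₀ hε] at hN
      have : 2 * (supp K u / N) * (R ^ ((1 : ℝ) / m) * prof K u m 0 ^ (m - 1)) = C / N := by
        rw [hC]
        ring
      rw [this, div_le_iff₀ hN']
      linarith
    have e : vol ((ℝ ∙ u)ᗮ.orthogonalProjectionOnto '' (projBody K)) = shadow (projBody K) u := rfl
    rw [e] at h1
    linarith
  have hI : 0 ≤ ∫ y : ℝ, prof K u m y ^ (m - 1) :=
    integral_nonneg fun y => pow_nonneg (Real.rpow_nonneg (vol_nonneg _) _) _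
  have hm0 : m ≠ 0 := by omega
  have h7 := pow_le_pow_left₀ (mul_nonneg hRr hI) key m
  rw [mul_pow, one_div, Real.rpow_inv_natCast_pow hR hm0, Real.rpow_inv_natCast_pow hsh hm0] at h7
  exact h7

end Vale.Agent.P237.AllN
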