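import Vale.Agent.P237.AllN.ConstN
import Vale.Agent.P237.AllN.ProfN
import Vale.Agent.P237.AllN.ShadowN
import Vale.Agent.P237.Main
import Vale.Agent.P237.Final3

/-!
# P237, all dimensions: imports
-/
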