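import Vale.Agent.P237.AllN.TransDefs
import Vale.Agent.P237.Alm.Prof

/-!
# P237, all dimensions: the transport of the ball law to the law of a profile
-/

open MeasureTheory Metric Set Module Filter Topology

namespace Vale.Agent.P237.AllN

/-- integrands of the two laws -/
structure TrGood (f : ℝ → ℝ) : Prop where
  anti : AntitoneOn f (Icc 0 1)
  cont : ContinuousOn f (Ioo 0 1)
  pos : ∀ x ∈ Ioo (0 : ℝ) 1, 0 < f x

/-- primitive -/
noncomputable def trP (f : ℝ → ℝ) (y : ℝ) : ℝ := ∫ t in (0 : ℝ)..y, f t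

theorem TrGood.ii {f : ℝ → ℝ} (hf : TrGood f) {a b : ℝ} (ha : a ∈ Icc (0 : ℝ) 1)
    (hb : b ∈ Icc (0 : ℝ) 1) : IntervalIntegrable f volume a b := by
  apply AntitoneOn.intervalIntegrable
  exact hf.anti.mono (uIcc_subset_Icc ha hb)

theorem trn_mem0 : (0 : ℝ) ∈ Icc (0 : ℝ) 1 := ⟨le_rfl, zero_le_one⟩

theorem trn_mem1 : (1 : ℝ) ∈ Icc (0 : ℝ) 1 := ⟨zero_le_one, le_rfl⟩

theorem TrGood.sub {f : ℝ → ℝ} (hf : TrGood f) {a b : ℝ} (ha : a ∈ Icc (0 : ℝ) 1)
    (hb : b ∈ Icc (0 : ℝ) 1) : trP f b - trP f a = ∫ t in a..b, f t := by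
  unfold trP
  rw [intervalIntegral.integral_interval_sub_left (hf.ii trn_mem0 hb) (hf.ii trn_mem0 ha)]

theorem TrGood.strict {f : ℝ → ℝ} (hf : TrGood f) : StrictMonoOn (trP f) (Icc 0 1) := by
  intro x hx y hy hxy
  have h := hf.sub hx hy
  have h2 : 0 < ∫ t in x..y, f t := by
    apply intervalIntegral.intervalIntegral_pos_of_pos_on (hf.ii hx hy) _ hxy
    intro t ht
    exact hf.pos t ⟨lt_of_le_of_lt hx.1 ht.1, lt_of_lt_of_le ht.2 hy.2⟩
  linarith only [h, h2]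

theorem TrGood.der {f : ℝ → ℝ} (hf : TrGood f) {y : ℝ} (hy : y ∈ Ioo (0 : ℝ) 1) :
    HasDerivAt (trP f) (f y) y := by
  apply intervalIntegral.integral_hasDerivAt_right (hf.ii trn_mem0 (Ioo_subset_Icc_self hy))
  · exact hf.cont.stronglyMeasurableAtFilter isOpen_Ioo y hy
  · exact hf.cont.continuousAt (isOpen_Ioo.mem_nhds hy)

theorem TrGood.pcont {f : ℝ → ℝ} (hf : TrGood f) : ContinuousOn (trP f) (Icc 0 1) := by
  have h := intervalIntegral.continuousOn_primitive_interval (μ := volume) (f := f) (a := 0) (b := 1)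
    (by
      rw [uIcc_of_le zero_le_one]
      have h := hf.ii trn_mem0 trn_mem1
      rwa [intervalIntegrable_iff_integrableOn_Icc_of_le zero_le_one] at h)
  rwa [uIcc_of_le zero_le_one] at h

theorem trn_zero (f : ℝ → ℝ) : trP f 0 = 0 := by
  unfold trP
  exact intervalIntegral.integral_same

theorem TrGood.pos1 {f : ℝ → ℝ} (hf : TrGood f) : 0 < trP f 1 := by
  have h := hf.strict trn_mem0 trn_mem1 zero_lt_one
  rwa [trn_zero] at h

theorem TrGood.exists_inv {f : ℝ → ℝ} (hf : TrGood f) : ∃ K : ℝ → ℝ,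
    (∀ z ∈ Ioo (0 : ℝ) (trP f 1), K z ∈ Ioo (0 : ℝ) 1 ∧ trP f (K z) = z) ∧
    (∀ y ∈ Ioo (0 : ℝ) 1, K (trP f y) = y) ∧
    ∀ z ∈ Ioo (0 : ℝ) (trP f 1), HasDerivAt K (f (K z))⁻¹ z := by
  have h1 : ∀ z, ∃ y, z ∈ Ioo (0 : ℝ) (trP f 1) → y ∈ Ioo (0 : ℝ) 1 ∧ trP f y = z := by
    intro z
    by_cases hz : z ∈ Ioo (0 : ℝ) (trP f 1)
    · have h := intermediate_value_Ioo zero_le_one hf.pcont
      rw [trn_zero] at h
      obtain ⟨y, hy, hy2⟩ := h hz
      exact ⟨y, fun _ => ⟨hy, hy2⟩⟩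
    · exact ⟨0, fun h => absurd h hz⟩
  choose K hK using h1
  have hR : ∀ y ∈ Ioo (0 : ℝ) 1, trP f y ∈ Ioo (0 : ℝ) (trP f 1) := by
    intro y hy
    have a1 := hf.strict trn_mem0 (Ioo_subset_Icc_self hy) hy.1
    have a2 := hf.strict (Ioo_subset_Icc_self hy) trn_mem1 hy.2
    rw [trn_zero] at a1
    exact ⟨a1, a2⟩
  have hL : ∀ y ∈ Ioo (0 : ℝ) 1, K (trP f y) = y := by
    intro y hy
    have h := hK _ (hR y hy)
    exact hf.strict.injOn (Ioo_subset_Icc_self h.1) (Ioo_subset_Icc_self hy) h.2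
  have hmono : StrictMonoOn K (Ioo 0 (trP f 1)) := by
    intro z hz w hw hzw
    by_contra hcon
    push Not at hcon
    have h1 := hK z hz
    have h2 := hK w hw
    have h3 := hf.strict.monotoneOn (Ioo_subset_Icc_self h2.1) (Ioo_subset_Icc_self h1.1) hcon
    rw [h1.2, h2.2] at h3
    exact absurd hzw (not_lt.2 h3)
  refine ⟨K, hK, hL, ?_⟩
  intro z hz
  have hKz := hK z hz
  have hcont : ContinuousAt K z := by
    apply hmono.continuousAt_of_image_mem_nhds (isOpen_Ioo.mem_nhds hz)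
    apply Filter.mem_of_superset (isOpen_Ioo.mem_nhds hKz.1)
    intro y hy
    exact ⟨trP f y, hR y hy, hL y hy⟩
  apply HasDerivAt.of_local_left_inverse hcont (hf.der hKz.1) (hf.pos _ hKz.1).ne'
  filter_upwards [isOpen_Ioo.mem_nhds hz] with w hw
  exact (hK w hw).2

theorem TrGood.avg {f : ℝ → ℝ} (hf : TrGood f) {y : ℝ} (hy : y ∈ Icc (0 : ℝ) 1) :
    y * trP f 1 ≤ trP f y := by
  have h1 := hf.sub hy trn_mem1
  have h2 : ∫ t in y..1, f t ≤ (1 - y) * f y := by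
    have h := intervalIntegral.integral_mono_on hy.2 (hf.ii hy trn_mem1)
      (intervalIntegrable_const (c := f y))
      (fun t ht => hf.anti hy ⟨hy.1.trans ht.1, ht.2⟩ ht.1)
    rwa [intervalIntegral.integral_const, smul_eq_mul] at h
  have h3 : y * f y ≤ trP f y := by
    have h := intervalIntegral.integral_mono_on hy.1
      (intervalIntegrable_const (c := f y)) (hf.ii trn_mem0 hy)
      (fun t ht => hf.anti ⟨ht.1, ht.2.trans hy.2⟩ hy ht.2)
    rw [intervalIntegral.integral_const, smul_eq_mul, sub_zero] at h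
    exact h
  have h4 : 0 ≤ 1 - y := by linarith only [hy.2]
  have h5 := mul_le_mul_of_nonneg_left h2 hy.1
  have h6 := mul_le_mul_of_nonneg_left h3 h4
  rw [← h1] at h5
  linarith only [h5, h6]

theorem TrGood.le_zero {f : ℝ → ℝ} (hf : TrGood f) {y : ℝ} (hy : y ∈ Icc (0 : ℝ) 1) :
    trP f y ≤ y * f 0 := by
  have h := intervalIntegral.integral_mono_on hy.1 (hf.ii trn_mem0 hy)
    (intervalIntegrable_const (c := f 0))
    (fun t ht => hf.anti trn_mem0 ⟨ht.1, ht.2.trans hy.2⟩ ht.1)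
  rw [intervalIntegral.integral_const, smul_eq_mul, sub_zero] at h
  exact h

theorem trGood_prof (m : ℕ) {r : ℝ → ℝ} (hr : IsProf r) : TrGood (fun t => r t ^ m) where
  anti := by
    intro x hx y hy hxy
    exact pow_le_pow_left₀ (Alm.prof_nn hr hy) (Alm.prof_anti hr hx hy hxy) m
  cont := by
    have h := (Alm.prof_cont hr).mono (s := Ioo (-1) 1) (t := Ioo 0 1)
      (Ioo_subset_Ioo (by norm_num) le_rfl)
    exact h.pow m
  pos := fun x hx => pow_pos (Alm.prof_pos' hr ⟨hx.1.le, hx.2⟩) m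

theorem trn_sq_nonneg (x : ℝ) : 0 ≤ sq x := Real.sqrt_nonneg _

theorem trn_sq_pos {x : ℝ} (hx : x ∈ Ioo (0 : ℝ) 1) : 0 < sq x := by
  apply Real.sqrt_pos.2
  have h : x ^ 2 < 1 := by
    have := hx.1
    have := hx.2
    nlinarith only [hx.1, hx.2]
  linarith only [h]

theorem trn_sq_sq {x : ℝ} (hx : x ∈ Icc (0 : ℝ) 1) : sq x ^ 2 = 1 - x ^ 2 := by
  apply Real.sq_sqrt
  nlinarith only [hx.1, hx.2]

theorem trn_sq_cont : Continuous sq := by
  unfold sq
  fun_prop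

theorem trn_sq_anti : AntitoneOn sq (Icc 0 1) := by
  intro x hx y hy hxy
  apply Real.sqrt_le_sqrt
  nlinarith only [hx.1, hxy]

theorem trGood_sq (m : ℕ) : TrGood (fun t => sq t ^ m) where
  anti := by
    intro x hx y hy hxy
    exact pow_le_pow_left₀ (trn_sq_nonneg y) (trn_sq_anti hx hy hxy) m
  cont := (trn_sq_cont.pow m).continuousOn
  pos := fun x hx => pow_pos (trn_sq_pos hx) m

theorem trn_sq_zero : sq 0 = 1 := by
  simp [sq]

theorem exists_trans {m : ℕ} (hm : 1 ≤ m) {r : ℝ → ℝ} (hr : IsProf r) :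
    ∃ τ τ' T : ℝ → ℝ, IsTrans m r τ τ' T := by
  have hF := trGood_prof m hr
  have hG := trGood_sq m
  set F : ℝ → ℝ := trP (fun t => r t ^ m) with hFdef
  set G : ℝ → ℝ := trP (fun t => sq t ^ m) with hGdef
  have hA : 0 < F 1 := hF.pos1
  have hB : 0 < G 1 := hG.pos1
  obtain ⟨K, hK1, hK2, hK3⟩ := hF.exists_inv
  obtain ⟨L, hL1, hL2, hL3⟩ := hG.exists_inv
  have hFR : ∀ y ∈ Ioo (0 : ℝ) 1, F y ∈ Ioo (0 : ℝ) (F 1) := by
    intro y hy
    have a1 := hF.strict trn_mem0 (Ioo_subset_Icc_self hy) hy.1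
    have a2 := hF.strict (Ioo_subset_Icc_self hy) trn_mem1 hy.2
    rw [trn_zero] at a1
    exact ⟨a1, a2⟩
  have hGR : ∀ y ∈ Ioo (0 : ℝ) 1, G y ∈ Ioo (0 : ℝ) (G 1) := by
    intro y hy
    have a1 := hG.strict trn_mem0 (Ioo_subset_Icc_self hy) hy.1
    have a2 := hG.strict (Ioo_subset_Icc_self hy) trn_mem1 hy.2
    rw [trn_zero] at a1
    exact ⟨a1, a2⟩
  have e1 : ∀ x ∈ Ioo (0 : ℝ) 1, G x * (F 1 / G 1) ∈ Ioo (0 : ℝ) (F 1) := by
    intro x hx
    have h := hGR x hx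
    refine ⟨mul_pos h.1 (div_pos hA hB), ?_⟩
    have h2 : G x * (F 1 / G 1) < G 1 * (F 1 / G 1) := mul_lt_mul_of_pos_right h.2 (div_pos hA hB)
    rwa [mul_div_cancel₀ _ hB.ne'] at h2
  have e2 : ∀ y ∈ Ioo (0 : ℝ) 1, F y * (G 1 / F 1) ∈ Ioo (0 : ℝ) (G 1) := by
    intro x hx
    have h := hFR x hx
    refine ⟨mul_pos h.1 (div_pos hB hA), ?_⟩
    have h2 : F x * (G 1 / F 1) < F 1 * (G 1 / F 1) := mul_lt_mul_of_pos_right h.2 (div_pos hB hA)
    rwa [mul_div_cancel₀ _ hA.ne'] at h2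
  have hmem : ∀ x ∈ Ioo (0 : ℝ) 1, K (G x * (F 1 / G 1)) ∈ Ioo (0 : ℝ) 1 :=
    fun x hx => (hK1 _ (e1 x hx)).1
  have hFτ : ∀ x ∈ Ioo (0 : ℝ) 1, F (K (G x * (F 1 / G 1))) = G x * (F 1 / G 1) :=
    fun x hx => (hK1 _ (e1 x hx)).2
  have hTmem : ∀ x ∈ Ioo (0 : ℝ) 1, L (F x * (G 1 / F 1)) ∈ Ioo (0 : ℝ) 1 :=
    fun x hx => (hL1 _ (e2 x hx)).1
  have hGT : ∀ x ∈ Ioo (0 : ℝ) 1, G (L (F x * (G 1 / F 1))) = F x * (G 1 / F 1) :=
    fun x hx => (hL1 _ (e2 x hx)).2
  have hder : ∀ x ∈ Ioo (0 : ℝ) 1, HasDerivAt (fun x => K (G x * (F 1 / G 1)))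
      ((r (K (G x * (F 1 / G 1))) ^ m)⁻¹ * (sq x ^ m * (F 1 / G 1))) x := by
    intro x hx
    have h1 := hK3 _ (e1 x hx)
    have h2 := (hG.der hx).mul_const (F 1 / G 1)
    exact h1.comp x h2
  have hrpos : ∀ x ∈ Ioo (0 : ℝ) 1, 0 < r x := fun x hx => Alm.prof_pos' hr ⟨hx.1.le, hx.2⟩
  have hright : ∀ y ∈ Ioo (0 : ℝ) 1,
      K (G (L (F y * (G 1 / F 1))) * (F 1 / G 1)) = y := by
    intro y hy
    rw [hGT y hy]
    have e : F y * (G 1 / F 1) * (F 1 / G 1) = F y := by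
      field_simp
    rw [e]
    exact hK2 y hy
  refine ⟨fun x => K (G x * (F 1 / G 1)),
    fun x => (r (K (G x * (F 1 / G 1))) ^ m)⁻¹ * (sq x ^ m * (F 1 / G 1)),
    fun y => L (F y * (G 1 / F 1)), hmem, hder, ?_, ?_, hTmem, ?_, hright, ?_, ?_, ?_⟩
  · intro x hx
    have h1 := pow_pos (hrpos _ (hmem x hx)) m
    have h2 := pow_pos (trn_sq_pos hx) m
    have h3 := div_pos hA hB
    positivity
  · have h1 : ContinuousOn (fun x => K (G x * (F 1 / G 1))) (Ioo 0 1) :=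
      fun x hx => (hder x hx).continuousAt.continuousWithinAt
    have h2 : ContinuousOn (fun x => r (K (G x * (F 1 / G 1))) ^ m) (Ioo 0 1) :=
      hF.cont.comp h1 hmem
    apply ContinuousOn.mul
    · exact h2.inv₀ (fun x hx => (pow_pos (hrpos _ (hmem x hx)) m).ne')
    · exact ((trn_sq_cont.pow m).mul continuous_const).continuousOn
  · intro x hx
    show L (F (K (G x * (F 1 / G 1))) * (G 1 / F 1)) = x
    rw [hFτ x hx]
    have e : G x * (F 1 / G 1) * (G 1 / F 1) = G x := by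
      field_simp
    rw [e]
    exact hL2 x hx
  · intro y hy
    have h1 := hL3 _ (e2 y hy)
    have h2 := (hF.der hy).mul_const (G 1 / F 1)
    have h3 := h1.comp y h2
    simp only [hright y hy]
    refine h3.congr_deriv ?_
    rw [mul_inv, inv_inv, mul_inv, inv_div]
    ring
  · intro x hx
    have h1 := hFτ x hx
    show F (K (G x * (F 1 / G 1))) * G 1 = G x * F 1
    rw [h1]
    field_simp
  · intro x hx
    show (r (K (G x * (F 1 / G 1))) ^ m)⁻¹ * (sq x ^ m * (F 1 / G 1)) *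
      r (K (G x * (F 1 / G 1))) ^ m * G 1 = sq x ^ m * F 1
    have h1 := (pow_pos (hrpos _ (hmem x hx)) m).ne'
    generalize r (K (G x * (F 1 / G 1))) ^ m = R at h1
    field_simp

theorem IsTrans.mono {m : ℕ} {r τ τ' T : ℝ → ℝ} (h : IsTrans m r τ τ' T) :
    StrictMonoOn τ (Ioo 0 1) := by
  apply strictMonoOn_of_deriv_pos (convex_Ioo 0 1)
  · exact fun x hx => (h.der x hx).continuousAt.continuousWithinAt
  · intro x hx
    rw [interior_Ioo] at hx
    rw [(h.der x hx).deriv]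
    exact h.pos x hx

/-- change of variables -/
theorem IsTrans.integral {m : ℕ} (hm : 1 ≤ m) {r τ τ' T : ℝ → ℝ} (hr : IsProf r)
    (h : IsTrans m r τ τ' T) {F : ℝ → ℝ} (hF : ContinuousOn F (Ioo 0 1)) {α β : ℝ} (h0 : 0 < α)
    (h1 : α ≤ β) (h2 : β < 1) :
    (∫ y in (τ α)..(τ β), F y * r y ^ m) * (∫ t in (0 : ℝ)..1, sq t ^ m) =
      (∫ x in α..β, F (τ x) * sq x ^ m) * ∫ t in (0 : ℝ)..1, r t ^ m := by
  have hsub : uIcc α β ⊆ Ioo 0 1 := by
    rw [uIcc_of_le h1]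
    exact fun x hx => ⟨lt_of_lt_of_le h0 hx.1, lt_of_le_of_lt hx.2 h2⟩
  have hτc : ContinuousOn τ (Ioo 0 1) := fun x hx => (h.der x hx).continuousAt.continuousWithinAt
  have key := intervalIntegral.integral_comp_mul_deriv'' (f := τ) (f' := τ')
    (g := fun y => F y * r y ^ m) (a := α) (b := β) (hτc.mono hsub)
    (fun x hx => by
      have hx2 : x ∈ Ioo (0 : ℝ) 1 := by
        apply hsub
        rw [uIcc_of_le h1]
        rw [min_eq_left h1, max_eq_right h1] at hx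
        exact Ioo_subset_Icc_self hx
      exact (h.der x hx2).hasDerivWithinAt)
    (h.cont.mono hsub)
    ((hF.mul (trGood_prof m hr).cont).mono (by
      rintro _ ⟨x, hx, rfl⟩
      exact h.mem x (hsub hx)))
  rw [← key, ← intervalIntegral.integral_mul_const, ← intervalIntegral.integral_mul_const]
  apply intervalIntegral.integral_congr
  intro x hx
  have e := h.eqn x (hsub hx)
  simp only [Function.comp_apply]
  have e2 : F (τ x) * r (τ x) ^ m * τ' x * (∫ t in (0 : ℝ)..1, sq t ^ m) =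
      F (τ x) * (τ' x * r (τ x) ^ m * (∫ t in (0 : ℝ)..1, sq t ^ m)) := by ring
  rw [e2, e]
  ring

/-- comparison near `0` (true on all of `(0,1)`) -/
theorem IsTrans.near_zero {m : ℕ} (hm : 1 ≤ m) {r τ τ' T : ℝ → ℝ} (hr : IsProf r)
    (h : IsTrans m r τ τ' T) : ∃ C : ℝ, 0 < C ∧ ∀ x ∈ Ioo (0 : ℝ) 1, x ≤ C * τ x ∧ τ x ≤ C * x := by
  have hF := trGood_prof m hr
  have hG := trGood_sq m
  have hA := hF.pos1
  have hB := hG.pos1
  have hr0 : 0 < r 0 ^ m := pow_pos (hr.pos 0 ⟨by norm_num, by norm_num⟩) m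
  set A := trP (fun t => r t ^ m) 1 with hAdef
  set B := trP (fun t => sq t ^ m) 1 with hBdef
  refine ⟨r 0 ^ m / A + 1 / B, by positivity, ?_⟩
  intro x hx
  have hτ := h.mem x hx
  have hmass : trP (fun t => r t ^ m) (τ x) * B = trP (fun t => sq t ^ m) x * A := h.mass x hx
  have a1 := hF.avg (Ioo_subset_Icc_self hτ)
  have a2 := hF.le_zero (Ioo_subset_Icc_self hτ)
  have b1 := hG.avg (Ioo_subset_Icc_self hx)
  have b2 := hG.le_zero (Ioo_subset_Icc_self hx)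
  simp only [trn_sq_zero, one_pow, mul_one] at b2
  rw [← hAdef] at a1
  rw [← hBdef] at b1
  constructor
  · have c1 : x * B * A ≤ τ x * r 0 ^ m * B := by
      calc x * B * A ≤ trP (fun t => sq t ^ m) x * A := mul_le_mul_of_nonneg_right b1 hA.le
        _ = trP (fun t => r t ^ m) (τ x) * B := hmass.symm
        _ ≤ τ x * r 0 ^ m * B := mul_le_mul_of_nonneg_right a2 hB.le
    have c2 : x * A ≤ τ x * r 0 ^ m := by
      have e : x * A * B ≤ τ x * r 0 ^ m * B := by linarith only [c1, mul_right_comm x B A]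
      exact le_of_mul_le_mul_right e hB
    have c3 : x ≤ r 0 ^ m / A * τ x := by
      rw [div_mul_eq_mul_div, le_div_iff₀ hA]
      linarith only [c2, mul_comm (τ x) (r 0 ^ m)]
    have c4 : 0 ≤ 1 / B * τ x := mul_nonneg (by positivity) hτ.1.le
    linarith only [c3, c4, add_mul (r 0 ^ m / A) (1 / B) (τ x)]
  · have c1 : τ x * A * B ≤ x * A := by
      calc τ x * A * B ≤ trP (fun t => r t ^ m) (τ x) * B := mul_le_mul_of_nonneg_right a1 hB.le
        _ = trP (fun t => sq t ^ m) x * A := hmass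
        _ ≤ x * A := mul_le_mul_of_nonneg_right b2 hA.le
    have c2 : τ x * B ≤ x := by
      have e : τ x * B * A ≤ x * A := by linarith only [c1, mul_right_comm (τ x) A B]
      exact le_of_mul_le_mul_right e hA
    have c3 : τ x ≤ 1 / B * x := by
      rw [div_mul_eq_mul_div, one_mul, le_div_iff₀ hB]
      exact c2
    have c4 : 0 ≤ r 0 ^ m / A * x := mul_nonneg (by positivity) hx.1.le
    linarith only [c3, c4, add_mul (r 0 ^ m / A) (1 / B) x]

/-- `τ` is below the transport to the uniform law -/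
theorem IsTrans.le_cyl {m : ℕ} (hm : 1 ≤ m) {r τ τ' T : ℝ → ℝ} (hr : IsProf r)
    (h : IsTrans m r τ τ' T) : ∀ x ∈ Ioo (0 : ℝ) 1,
      τ x * (∫ t in (0 : ℝ)..1, sq t ^ m) ≤ ∫ t in (0 : ℝ)..x, sq t ^ m := by
  intro x hx
  have hF := trGood_prof m hr
  have hG := trGood_sq m
  have hA := hF.pos1
  have hB := hG.pos1
  have hτ := h.mem x hx
  have hmass : trP (fun t => r t ^ m) (τ x) * trP (fun t => sq t ^ m) 1 =
    trP (fun t => sq t ^ m) x * trP (fun t => r t ^ m) 1 := h.mass x hx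
  have a1 := hF.avg (Ioo_subset_Icc_self hτ)
  show τ x * trP (fun t => sq t ^ m) 1 ≤ trP (fun t => sq t ^ m) x
  have c1 := mul_le_mul_of_nonneg_right a1 hB.le
  rw [hmass] at c1
  have e : τ x * trP (fun t => sq t ^ m) 1 * trP (fun t => r t ^ m) 1 ≤
      trP (fun t => sq t ^ m) x * trP (fun t => r t ^ m) 1 := by
    linarith only [c1, mul_right_comm (τ x) (trP (fun t => sq t ^ m) 1) (trP (fun t => r t ^ m) 1)]
  exact le_of_mul_le_mul_right e hA

theorem trn_pow_int (m : ℕ) (a : ℝ) :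
    ∫ t in a..1, (1 - t) ^ m = (1 - a) ^ (m + 1) / ((m : ℝ) + 1) := by
  have h := intervalIntegral.integral_comp_sub_left (a := a) (b := 1) (fun u : ℝ => u ^ m) (1 : ℝ)
  simp only [sub_self] at h
  rw [h, integral_pow]
  simp

theorem trn_cone_int {m : ℕ} {a : ℝ} (ha : a < 1) {r : ℝ → ℝ} (hr : IsProf r) (ha0 : 0 ≤ a) :
    (1 - a) * r a ^ m / ((m : ℝ) + 1) ≤ ∫ t in a..1, r t ^ m := by
  have hd : 0 < 1 - a := by linarith only [ha]
  have hma : a ∈ Icc (0 : ℝ) 1 := ⟨ha0, ha.le⟩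
  have h1 : ∀ t ∈ Icc a 1, (r a / (1 - a) * (1 - t)) ^ m ≤ r t ^ m := by
    intro t ht
    have hra : 0 ≤ r a := Alm.prof_nn hr hma
    have h2 : r a / (1 - a) * (1 - t) ≤ r t := by
      have m1 : a ∈ Icc (-1 : ℝ) 1 := ⟨by linarith only [ha0], ha.le⟩
      have m2 : (1 : ℝ) ∈ Icc (-1 : ℝ) 1 := ⟨by norm_num, le_rfl⟩
      have p1 : 0 ≤ (1 - t) / (1 - a) := div_nonneg (by linarith only [ht.2]) hd.le
      have p2 : 0 ≤ (t - a) / (1 - a) := div_nonneg (by linarith only [ht.1]) hd.le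
      have hc := hr.conc.2 m1 m2 p1 p2 (by field_simp; ring)
      simp only [smul_eq_mul] at hc
      have e : (1 - t) / (1 - a) * a + (t - a) / (1 - a) * 1 = t := by
        field_simp
        ring
      rw [e] at hc
      have e2 : r a / (1 - a) * (1 - t) = (1 - t) / (1 - a) * r a := by ring
      rw [e2]
      have h3 := mul_nonneg p2 hr.nonneg
      linarith only [hc, h3]
    apply pow_le_pow_left₀ _ h2
    exact mul_nonneg (div_nonneg hra hd.le) (by linarith only [ht.2])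
  have h2 : ∫ t in a..1, (r a / (1 - a) * (1 - t)) ^ m = (1 - a) * r a ^ m / ((m : ℝ) + 1) := by
    have hne : (1 - a) ≠ 0 := hd.ne'
    simp only [mul_pow]
    rw [intervalIntegral.integral_const_mul, trn_pow_int, div_pow, pow_succ]
    field_simp
  rw [← h2]
  apply intervalIntegral.integral_mono_on ha.le
  · apply Continuous.intervalIntegrable
    fun_prop
  · exact (trGood_prof m hr).ii hma trn_mem1
  · exact h1

/-- mass bounds near `1` -/
theorem IsTrans.near_one {m : ℕ} (hm : 1 ≤ m) {r τ τ' T : ℝ → ℝ} (hr : IsProf r)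
    (h : IsTrans m r τ τ' T) : ∃ C : ℝ, 0 < C ∧ ∀ x ∈ Ioo (0 : ℝ) 1,
      (1 - τ x) * r (τ x) ^ m ≤ C * sq x ^ (m + 2) ∧
      (1 - τ x) ^ (m + 1) ≤ C * sq x ^ (m + 2) := by
  have hF := trGood_prof m hr
  have hG := trGood_sq m
  have hA := hF.pos1
  have hB := hG.pos1
  have hr0 : 0 < r 0 ^ m := pow_pos (hr.pos 0 ⟨by norm_num, by norm_num⟩) m
  set A := trP (fun t => r t ^ m) 1 with hAdef
  set B := trP (fun t => sq t ^ m) 1 with hBdef
  have hm1 : (0 : ℝ) < (m : ℝ) + 1 := by positivity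
  refine ⟨((m : ℝ) + 1) * A / B + ((m : ℝ) + 1) * A / (B * r 0 ^ m), by positivity, ?_⟩
  intro x hx
  have hτ := h.mem x hx
  have hmass : trP (fun t => r t ^ m) (τ x) * B = trP (fun t => sq t ^ m) x * A := h.mass x hx
  have s1 := hF.sub (Ioo_subset_Icc_self hτ) trn_mem1
  have s2 := hG.sub (Ioo_subset_Icc_self hx) trn_mem1
  rw [← hAdef] at s1
  rw [← hBdef] at s2
  have hsq : 0 ≤ sq x ^ (m + 2) := pow_nonneg (trn_sq_nonneg x) _
  have tail : ∫ t in x..1, sq t ^ m ≤ sq x ^ (m + 2) := by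
    have h1 := intervalIntegral.integral_mono_on hx.2.le (hG.ii (Ioo_subset_Icc_self hx) trn_mem1)
      (intervalIntegrable_const (c := sq x ^ m))
      (fun t ht => hG.anti (Ioo_subset_Icc_self hx) ⟨hx.1.le.trans ht.1, ht.2⟩ ht.1)
    rw [intervalIntegral.integral_const, smul_eq_mul] at h1
    have h2 : 1 - x ≤ sq x ^ 2 := by
      rw [trn_sq_sq (Ioo_subset_Icc_self hx)]
      nlinarith only [hx.1, hx.2]
    have h3 := mul_le_mul_of_nonneg_right h2 (pow_nonneg (trn_sq_nonneg x) m)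
    calc ∫ t in x..1, sq t ^ m ≤ (1 - x) * sq x ^ m := h1
      _ ≤ sq x ^ 2 * sq x ^ m := h3
      _ = sq x ^ (m + 2) := by ring
  have key : (∫ t in (τ x)..1, r t ^ m) * B ≤ sq x ^ (m + 2) * A := by
    rw [← s1]
    have e : (A - trP (fun t => r t ^ m) (τ x)) * B = (B - trP (fun t => sq t ^ m) x) * A := by
      linarith only [hmass, sub_mul A (trP (fun t => r t ^ m) (τ x)) B,
        sub_mul B (trP (fun t => sq t ^ m) x) A, mul_comm A B]
    rw [e, s2]
    exact mul_le_mul_of_nonneg_right tail hA.le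
  have hC1 : 0 ≤ ((m : ℝ) + 1) * A / B * sq x ^ (m + 2) := by positivity
  have hC2 : 0 ≤ ((m : ℝ) + 1) * A / (B * r 0 ^ m) * sq x ^ (m + 2) := by positivity
  constructor
  · have c1 := trn_cone_int (m := m) hτ.2 hr hτ.1.le
    have c2 := mul_le_mul_of_nonneg_right c1 hB.le
    have c3 : (1 - τ x) * r (τ x) ^ m ≤ ((m : ℝ) + 1) * A / B * sq x ^ (m + 2) := by
      have c4 := c2.trans key
      rw [div_mul_eq_mul_div, div_le_iff₀ hm1] at c4
      rw [div_mul_eq_mul_div, le_div_iff₀ hB]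
      linarith only [c4, mul_comm (sq x ^ (m + 2) * A) ((m : ℝ) + 1),
        mul_assoc ((m : ℝ) + 1) A (sq x ^ (m + 2)), mul_comm A (sq x ^ (m + 2)),
        congrArg (fun z => ((m : ℝ) + 1) * z) (mul_comm A (sq x ^ (m + 2)))]
    linarith only [c3, hC2, add_mul (((m : ℝ) + 1) * A / B)
      (((m : ℝ) + 1) * A / (B * r 0 ^ m)) (sq x ^ (m + 2))]
  · have c1 : r 0 ^ m * (1 - τ x) ^ (m + 1) / ((m : ℝ) + 1) ≤ ∫ t in (τ x)..1, r t ^ m := by
      have h1 : ∀ t ∈ Icc (τ x) 1, (r 0 * (1 - t)) ^ m ≤ r t ^ m := by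
        intro t ht
        have ht0 : 0 ≤ t := hτ.1.le.trans ht.1
        have m1 : (0 : ℝ) ∈ Icc (-1 : ℝ) 1 := ⟨by norm_num, by norm_num⟩
        have m2 : (1 : ℝ) ∈ Icc (-1 : ℝ) 1 := ⟨by norm_num, le_rfl⟩
        have hc := hr.conc.2 m1 m2 (by linarith only [ht.2] : (0 : ℝ) ≤ 1 - t) ht0 (by ring)
        simp only [smul_eq_mul, mul_zero, mul_one, zero_add] at hc
        have h3 := mul_nonneg ht0 hr.nonneg
        apply pow_le_pow_left₀
        · exact mul_nonneg (hr.pos 0 ⟨by norm_num, by norm_num⟩).le (by linarith only [ht.2])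
        · linarith only [hc, h3, mul_comm (r 0) (1 - t)]
      have h2 : ∫ t in (τ x)..1, (r 0 * (1 - t)) ^ m =
          r 0 ^ m * (1 - τ x) ^ (m + 1) / ((m : ℝ) + 1) := by
        simp only [mul_pow]
        rw [intervalIntegral.integral_const_mul, trn_pow_int, mul_div_assoc]
      rw [← h2]
      apply intervalIntegral.integral_mono_on hτ.2.le
      · apply Continuous.intervalIntegrable
        fun_prop
      · exact hF.ii (Ioo_subset_Icc_self hτ) trn_mem1
      · exact h1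
    have c2 := (mul_le_mul_of_nonneg_right c1 hB.le).trans key
    have c3 : (1 - τ x) ^ (m + 1) ≤ ((m : ℝ) + 1) * A / (B * r 0 ^ m) * sq x ^ (m + 2) := by
      rw [div_mul_eq_mul_div, div_le_iff₀ hm1] at c2
      rw [div_mul_eq_mul_div, le_div_iff₀ (mul_pos hB hr0)]
      have e1 : (1 - τ x) ^ (m + 1) * (B * r 0 ^ m) = r 0 ^ m * (1 - τ x) ^ (m + 1) * B := by ring
      have e2 : ((m : ℝ) + 1) * A * sq x ^ (m + 2) = sq x ^ (m + 2) * A * ((m : ℝ) + 1) := by ring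
      rw [e1, e2]
      exact c2
    linarith only [c3, hC1, add_mul (((m : ℝ) + 1) * A / B)
      (((m : ℝ) + 1) * A / (B * r 0 ^ m)) (sq x ^ (m + 2))]

end Vale.Agent.P237.AllN
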