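import Vale.Agent.P237.AllN.Brid2
import Vale.Agent.P237.AllN.TransN

/-!
# P237, all dimensions: the pairs of the f-chart certificate and their derivatives
-/

open MeasureTheory Metric Set Module Filter Topology

namespace Vale.Agent.P237.AllN

/-- `l = log(τ/x)` -/
noncomputable def lf (τ : ℝ → ℝ) (x : ℝ) : ℝ := Real.log (τ x / x)

/-- `u = x τ'/τ - 1` -/
noncomputable def uf (τ τ' : ℝ → ℝ) (x : ℝ) : ℝ := x * τ' x / τ x - 1

/-- derivative of `bk` -/
noncomputable def bkd (m : ℕ) (y : ℝ) : ℝ :=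
  ((bg y - bgm m) + ((m : ℝ) + 2) * y * bk m y) / sq y ^ 2

/-- plain pair, constant part -/
noncomputable def prc (m : ℕ) (τ : ℝ → ℝ) (x : ℝ) : ℝ :=
  bc0 (sq x) (lf τ x) - τ x * bk m (τ x)

/-- plain pair, slope -/
noncomputable def prp (m : ℕ) (τ : ℝ → ℝ) (x : ℝ) : ℝ :=
  τ x * bM0 (sq x) (lf τ x) + bk m (τ x)

/-- derivative of `prc` -/
noncomputable def prc' (m : ℕ) (τ τ' : ℝ → ℝ) (x : ℝ) : ℝ :=
  (-(x / sq x ^ 3) + (uf τ τ' x / x) * (1 / sq x ^ 3 - 3 / sq x + 2) +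
    lf τ x * (3 * x / sq x ^ 5 - 3 * x / sq x ^ 3)) -
  (τ' x * bk m (τ x) + τ x * (bkd m (τ x) * τ' x))

/-- derivative of `prp` -/
noncomputable def prp' (m : ℕ) (τ τ' : ℝ → ℝ) (x : ℝ) : ℝ :=
  (τ' x * bM0 (sq x) (lf τ x) + τ x * ((1 + 2 * sq x) * x / (sq x ^ 3 * (1 + sq x) ^ 2) -
    (uf τ τ' x / x) / sq x ^ 3 - 3 * lf τ x * x / sq x ^ 5)) + bkd m (τ x) * τ' x

section

variable {m : ℕ} {r τ τ' T : ℝ → ℝ} {x : ℝ}

theorem tr_pos (h : IsTrans m r τ τ' T) (hx : x ∈ Ioo (0 : ℝ) 1) : 0 < τ x := (h.mem x hx).1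

theorem mem_neg {x : ℝ} (hx : x ∈ Ioo (0 : ℝ) 1) : x ∈ Ioo (-1 : ℝ) 1 := ⟨by linarith [hx.1], hx.2⟩

theorem uf_pos (h : IsTrans m r τ τ' T) (hx : x ∈ Ioo (0 : ℝ) 1) : 0 < 1 + uf τ τ' x := by
  unfold uf
  have h1 := tr_pos h hx
  have h2 := h.pos x hx
  have h3 := hx.1
  have : 0 < x * τ' x / τ x := by positivity
  linarith

theorem tau'_eq (h : IsTrans m r τ τ' T) (hx : x ∈ Ioo (0 : ℝ) 1) :
    τ' x = τ x * (1 + uf τ τ' x) / x := by
  unfold uf
  have h1 := (tr_pos h hx).ne'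
  have h3 := hx.1.ne'
  field_simp
  ring

theorem exp_lf (h : IsTrans m r τ τ' T) (hx : x ∈ Ioo (0 : ℝ) 1) :
    Real.exp (lf τ x) = τ x / x := by
  unfold lf
  rw [Real.exp_log (div_pos (tr_pos h hx) hx.1)]

theorem lf_hasDerivAt (h : IsTrans m r τ τ' T) (hx : x ∈ Ioo (0 : ℝ) 1) :
    HasDerivAt (lf τ) (uf τ τ' x / x) x := by
  have h1 := tr_pos h hx
  have h3 := hx.1
  have e := (((h.der x hx).div (hasDerivAt_id x) h3.ne')).log (div_pos h1 h3).ne'
  refine e.congr_deriv ?_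
  unfold uf
  simp only [id, Pi.div_apply]
  field_simp

theorem sqx_pos (hx : x ∈ Ioo (0 : ℝ) 1) : 0 < sq x := br_sq_pos (mem_neg hx)

theorem sqx_sq (hx : x ∈ Ioo (0 : ℝ) 1) : x ^ 2 = 1 - sq x ^ 2 := by
  rw [br_sq_sq ⟨by linarith [hx.1], hx.2.le⟩]; ring

theorem sqx_der (hx : x ∈ Ioo (0 : ℝ) 1) : HasDerivAt sq (-x / sq x) x :=
  br_sq_hasDerivAt (mem_neg hx)

theorem bk_comp_der (h : IsTrans m r τ τ' T) (hx : x ∈ Ioo (0 : ℝ) 1) :
    HasDerivAt (fun x => bk m (τ x)) (bkd m (τ x) * τ' x) x :=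
  (bk_hasDerivAt m (mem_neg (h.mem x hx))).comp x (h.der x hx)

theorem bc0_der (h : IsTrans m r τ τ' T) (hx : x ∈ Ioo (0 : ℝ) 1) :
    HasDerivAt (fun x => bc0 (sq x) (lf τ x))
      (-(x / sq x ^ 3) + (uf τ τ' x / x) * (1 / sq x ^ 3 - 3 / sq x + 2) +
        lf τ x * (3 * x / sq x ^ 5 - 3 * x / sq x ^ 3)) x := by
  have hs := sqx_pos hx
  have hd := sqx_der hx
  have hl := lf_hasDerivAt h hx
  have e1 : HasDerivAt (fun x => 1 / sq x) (x / sq x ^ 3) x := by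
    refine ((hasDerivAt_const x (1 : ℝ)).div hd hs.ne').congr_deriv ?_
    field_simp
    ring
  have e3 : HasDerivAt (fun x => 1 / sq x ^ 3) (3 * x / sq x ^ 5) x := by
    refine ((hasDerivAt_const x (1 : ℝ)).div (hd.pow 3) (pow_pos hs 3).ne').congr_deriv ?_
    simp only [Pi.pow_apply]
    push_cast
    field_simp
    ring
  have e1' : HasDerivAt (fun x => 3 / sq x) (3 * (x / sq x ^ 3)) x := by
    have := e1.const_mul 3
    refine this.congr_of_eventuallyEq ?_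
    filter_upwards with t
    ring
  have e := (e1.sub_const 1).neg.add (hl.mul ((e3.sub e1').add_const 2))
  refine e.congr_deriv ?_
  simp only [Pi.sub_apply]
  ring

theorem bM0_der (h : IsTrans m r τ τ' T) (hx : x ∈ Ioo (0 : ℝ) 1) :
    HasDerivAt (fun x => τ x * bM0 (sq x) (lf τ x))
      (τ' x * bM0 (sq x) (lf τ x) + τ x * ((1 + 2 * sq x) * x / (sq x ^ 3 * (1 + sq x) ^ 2) -
        (uf τ τ' x / x) / sq x ^ 3 - 3 * lf τ x * x / sq x ^ 5)) x := by
  have hs := sqx_pos hx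
  have hd := sqx_der hx
  have hl := lf_hasDerivAt h hx
  have e1 : HasDerivAt (fun x => 1 / (sq x * (1 + sq x)))
      ((1 + 2 * sq x) * x / (sq x ^ 3 * (1 + sq x) ^ 2)) x := by
    refine ((hasDerivAt_const x (1 : ℝ)).div (hd.mul (hd.const_add 1))
      (mul_pos hs (by linarith : 0 < 1 + sq x)).ne').congr_deriv ?_
    simp only [Pi.mul_apply]
    field_simp
    ring
  have e2 : HasDerivAt (fun x => lf τ x / sq x ^ 3)
      ((uf τ τ' x / x) / sq x ^ 3 + 3 * lf τ x * x / sq x ^ 5) x := by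
    refine (hl.div (hd.pow 3) (pow_pos hs 3).ne').congr_deriv ?_
    simp only [Pi.pow_apply]
    push_cast
    field_simp
    ring
  have e := (h.der x hx).mul (e1.sub e2)
  refine e.congr_deriv ?_
  unfold bM0
  simp only [Pi.sub_apply]
  ring

theorem prc_der (h : IsTrans m r τ τ' T) (hx : x ∈ Ioo (0 : ℝ) 1) :
    HasDerivAt (prc m τ) (prc' m τ τ' x) x :=
  (bc0_der h hx).sub ((h.der x hx).mul (bk_comp_der h hx))

theorem prp_der (h : IsTrans m r τ τ' T) (hx : x ∈ Ioo (0 : ℝ) 1) :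
    HasDerivAt (prp m τ) (prp' m τ τ' x) x :=
  (bM0_der h hx).add (bk_comp_der h hx)

/-! ### continuity -/

theorem tau_cont (h : IsTrans m r τ τ' T) : ContinuousOn τ (Ioo 0 1) :=
  fun x hx => (h.der x hx).continuousAt.continuousWithinAt

theorem lf_cont (h : IsTrans m r τ τ' T) : ContinuousOn (lf τ) (Ioo 0 1) :=
  fun x hx => (lf_hasDerivAt h hx).continuousAt.continuousWithinAt

theorem uf_cont (h : IsTrans m r τ τ' T) : ContinuousOn (uf τ τ') (Ioo 0 1) := by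
  unfold uf
  exact ((continuousOn_id.mul h.cont).div (tau_cont h) fun x hx => (tr_pos h hx).ne').sub
    continuousOn_const

theorem bk_tau_cont (h : IsTrans m r τ τ' T) : ContinuousOn (fun x => bk m (τ x)) (Ioo 0 1) :=
  fun x hx => (bk_comp_der h hx).continuousAt.continuousWithinAt

theorem bkd_tau_cont (h : IsTrans m r τ τ' T) : ContinuousOn (fun x => bkd m (τ x)) (Ioo 0 1) := by
  unfold bkd
  have h1 := tau_cont h
  apply ContinuousOn.div
  · exact ((bg_cont.comp_continuousOn h1).sub continuousOn_const).add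
      ((continuousOn_const.mul h1).mul (bk_tau_cont h))
  · exact (br_sq_cont.comp_continuousOn h1).pow 2
  · intro x hx
    exact (pow_pos (sqx_pos (h.mem x hx)) 2).ne'

omit x in
theorem sq_ne (x : ℝ) (hx : x ∈ Ioo (0 : ℝ) 1) (k : ℕ) : sq x ^ k ≠ 0 := (pow_pos (sqx_pos hx) k).ne'

theorem prc'_cont (h : IsTrans m r τ τ' T) : ContinuousOn (prc' m τ τ') (Ioo 0 1) := by
  have h1 := tau_cont h
  have h2 := h.cont
  have h3 := lf_cont h
  have h4 := uf_cont h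
  have h5 := bk_tau_cont h
  have h6 := bkd_tau_cont h
  have hs : ContinuousOn sq (Ioo (0 : ℝ) 1) := br_sq_cont.continuousOn
  have hid : ContinuousOn (fun x : ℝ => x) (Ioo (0 : ℝ) 1) := continuousOn_id
  have i3 : ContinuousOn (fun x => 1 / sq x ^ 3) (Ioo (0 : ℝ) 1) :=
    continuousOn_const.div (hs.pow 3) fun x hx => sq_ne x hx 3
  have i1 : ContinuousOn (fun x => 3 / sq x) (Ioo (0 : ℝ) 1) :=
    continuousOn_const.div hs fun x hx => (sqx_pos hx).ne'
  have j1 : ContinuousOn (fun x => x / sq x ^ 3) (Ioo (0 : ℝ) 1) :=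
    hid.div (hs.pow 3) fun x hx => sq_ne x hx 3
  have j2 : ContinuousOn (fun x => 3 * x / sq x ^ 5) (Ioo (0 : ℝ) 1) :=
    (continuousOn_const.mul hid).div (hs.pow 5) fun x hx => sq_ne x hx 5
  have j3 : ContinuousOn (fun x => 3 * x / sq x ^ 3) (Ioo (0 : ℝ) 1) :=
    (continuousOn_const.mul hid).div (hs.pow 3) fun x hx => sq_ne x hx 3
  have j4 : ContinuousOn (fun x => uf τ τ' x / x) (Ioo (0 : ℝ) 1) :=
    h4.div hid fun x hx => hx.1.ne'
  unfold prc'
  exact ((j1.neg.add (j4.mul ((i3.sub i1).add continuousOn_const))).add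
    (h3.mul (j2.sub j3))).sub ((h2.mul h5).add (h1.mul (h6.mul h2)))

theorem prp'_cont (h : IsTrans m r τ τ' T) : ContinuousOn (prp' m τ τ') (Ioo 0 1) := by
  have h1 := tau_cont h
  have h2 := h.cont
  have h3 := lf_cont h
  have h4 := uf_cont h
  have h6 := bkd_tau_cont h
  have hs : ContinuousOn sq (Ioo (0 : ℝ) 1) := br_sq_cont.continuousOn
  have hid : ContinuousOn (fun x : ℝ => x) (Ioo (0 : ℝ) 1) := continuousOn_id
  have j4 : ContinuousOn (fun x => uf τ τ' x / x) (Ioo (0 : ℝ) 1) :=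
    h4.div hid fun x hx => hx.1.ne'
  have k1 : ContinuousOn (fun x => bM0 (sq x) (lf τ x)) (Ioo (0 : ℝ) 1) := by
    unfold bM0
    exact (continuousOn_const.div (hs.mul (continuousOn_const.add hs)) fun x hx => by
      have h7 := sqx_pos hx
      exact (mul_pos h7 (by linarith : 0 < 1 + sq x)).ne').sub
        (h3.div (hs.pow 3) fun x hx => sq_ne x hx 3)
  have k2 : ContinuousOn (fun x => (1 + 2 * sq x) * x / (sq x ^ 3 * (1 + sq x) ^ 2))
      (Ioo (0 : ℝ) 1) := by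
    apply ContinuousOn.div
    · exact (continuousOn_const.add (continuousOn_const.mul hs)).mul hid
    · exact (hs.pow 3).mul ((continuousOn_const.add hs).pow 2)
    · intro x hx
      have h7 := sqx_pos hx
      exact (mul_pos (pow_pos h7 3) (pow_pos (by linarith : 0 < 1 + sq x) 2)).ne'
  have k3 : ContinuousOn (fun x => (uf τ τ' x / x) / sq x ^ 3) (Ioo (0 : ℝ) 1) :=
    j4.div (hs.pow 3) fun x hx => sq_ne x hx 3
  have k4 : ContinuousOn (fun x => 3 * lf τ x * x / sq x ^ 5) (Ioo (0 : ℝ) 1) :=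
    ((continuousOn_const.mul h3).mul hid).div (hs.pow 5) fun x hx => sq_ne x hx 5
  unfold prp'
  exact ((h2.mul k1).add (h1.mul ((k2.sub k3).sub k4))).add (h6.mul h2)

/-! ### value of the plain pair -/

theorem phi_value (h : IsTrans m r τ τ' T) (hx : x ∈ Ioo (0 : ℝ) 1) :
    ((m : ℝ) + 1) * (-(τ x * bk m (τ x))) +
      (τ x * (-(τ' x * bk m (τ x) + τ x * (bkd m (τ x) * τ' x))) + bkd m (τ x) * τ' x) / τ' x =
    bg (τ x) - bgm m := by
  have h1 := (h.pos x hx).ne'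
  have ht := h.mem x hx
  have hs := sqx_pos ht
  have hss := sqx_sq ht
  have e : bkd m (τ x) * sq (τ x) ^ 2 = (bg (τ x) - bgm m) + ((m : ℝ) + 2) * τ x * bk m (τ x) := by
    unfold bkd
    field_simp
  have e2 : (τ x * (-(τ' x * bk m (τ x) + τ x * (bkd m (τ x) * τ' x))) + bkd m (τ x) * τ' x) / τ' x
      = -(τ x * bk m (τ x)) + bkd m (τ x) * (1 - τ x ^ 2) := by
    field_simp
    ring
  rw [e2, show 1 - τ x ^ 2 = sq (τ x) ^ 2 by rw [hss]; ring, e]
  ring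

/-- value of the plain pair times `s` -/
theorem plain_value (h : IsTrans m r τ τ' T) (hx : x ∈ Ioo (0 : ℝ) 1) :
    sq x * (((m : ℝ) + 1) * prc m τ x + (τ x * prc' m τ τ' x + prp' m τ τ' x) / τ' x) =
    ((-((m : ℝ) + 1) + ((m : ℝ) + 2) * sq x - sq x ^ 2 / (1 + sq x)) +
      lf τ x * (((m : ℝ) - 3) * (x ^ 2 / sq x ^ 2) - (2 * (m : ℝ) + 3) + 2 * ((m : ℝ) + 1) * sq x) -
      (2 * (1 - sq x ^ 2 / (1 + sq x)) - 3 * (x ^ 2 / sq x ^ 2) * lf τ x) *
        (uf τ τ' x / (1 + uf τ τ' x))) + sq x * (bg (τ x) - bgm m) := by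
  rw [← bri_base (m := (m : ℝ)) (sqx_pos hx) hx.1 (sqx_sq hx) (uf_pos h hx) (tr_pos h hx)
    (tau'_eq h hx), ← phi_value h hx]
  have h1 := (h.pos x hx).ne'
  unfold prc prc' prp'
  field_simp
  ring

end

end Vale.Agent.P237.AllN
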