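import Vale.Agent.P237.AllN.LStarZ

/-!
# P237, all dimensions: numerical bounds for `∫₀¹ s^m`
-/

open MeasureTheory Metric Set Module Filter Topology Real

namespace Vale.Agent.P237.AllN

theorem ls_Z41 : ∫ t in (0 : ℝ)..1, sq t ^ 41 = 67282234305 * π / 1099511627776 := by
  rw [ls_Zrec 39, ls_Z39]
  norm_num
  ring

theorem ls_Z42 : ∫ t in (0 : ℝ)..1, sq t ^ 42 = 549755813888 / 2893136075115 := by
  rw [ls_Zrec 40, ls_Z40]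
  norm_num

theorem ls_Z43 : ∫ t in (0 : ℝ)..1, sq t ^ 43 = 263012370465 * π / 4398046511104 := by
  rw [ls_Zrec 41, ls_Z41]
  norm_num
  ring

theorem ls_Z44 : ∫ t in (0 : ℝ)..1, sq t ^ 44 = 2199023255552 / 11835556670925 := by
  rw [ls_Zrec 42, ls_Z42]
  norm_num

theorem ls_Z45 : ∫ t in (0 : ℝ)..1, sq t ^ 45 = 514589420475 * π / 8796093022208 := by
  rw [ls_Zrec 43, ls_Z43]
  norm_num
  ring

theorem ls_Z46 : ∫ t in (0 : ℝ)..1, sq t ^ 46 = 4398046511104 / 24185702762325 := by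
  rw [ls_Zrec 44, ls_Z44]
  norm_num

theorem ls_Z47 : ∫ t in (0 : ℝ)..1, sq t ^ 47 = 8061900920775 * π / 140737488355328 := by
  rw [ls_Zrec 45, ls_Z45]
  norm_num
  ring

theorem ls_Z48 : ∫ t in (0 : ℝ)..1, sq t ^ 48 = 70368744177664 / 395033145117975 := by
  rw [ls_Zrec 46, ls_Z46]
  norm_num

theorem ls_hi41 : ∫ t in (0 : ℝ)..1, sq t ^ 41 ≤ ((1922430 : ℤ) : ℝ) / lsD := by
  rw [ls_Z41, lsD_cast]
  push_cast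
  linarith [pi_lt_d6]

theorem ls_lo41 : ((1922429 : ℤ) : ℝ) / lsD ≤ ∫ t in (0 : ℝ)..1, sq t ^ 41 := by
  rw [ls_Z41, lsD_cast]
  push_cast
  linarith [pi_gt_d6]

theorem ls_hi42 : ∫ t in (0 : ℝ)..1, sq t ^ 42 ≤ ((1900208 : ℤ) : ℝ) / lsD := by
  rw [ls_Z42, lsD_cast]
  push_cast
  norm_num

theorem ls_lo42 : ((1900207 : ℤ) : ℝ) / lsD ≤ ∫ t in (0 : ℝ)..1, sq t ^ 42 := by
  rw [ls_Z42, lsD_cast]
  push_cast
  norm_num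

theorem ls_hi43 : ∫ t in (0 : ℝ)..1, sq t ^ 43 ≤ ((1878739 : ℤ) : ℝ) / lsD := by
  rw [ls_Z43, lsD_cast]
  push_cast
  linarith only [pi_lt_d6]

theorem ls_lo43 : ((1878737 : ℤ) : ℝ) / lsD ≤ ∫ t in (0 : ℝ)..1, sq t ^ 43 := by
  rw [ls_Z43, lsD_cast]
  push_cast
  linarith [pi_gt_d6]

theorem ls_hi44 : ∫ t in (0 : ℝ)..1, sq t ^ 44 ≤ ((1857981 : ℤ) : ℝ) / lsD := by
  rw [ls_Z44, lsD_cast]
  push_cast
  norm_num

theorem ls_lo44 : ((1857980 : ℤ) : ℝ) / lsD ≤ ∫ t in (0 : ℝ)..1, sq t ^ 44 := by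
  rw [ls_Z44, lsD_cast]
  push_cast
  norm_num

theorem ls_hi45 : ∫ t in (0 : ℝ)..1, sq t ^ 45 ≤ ((1837897 : ℤ) : ℝ) / lsD := by
  rw [ls_Z45, lsD_cast]
  push_cast
  linarith [pi_lt_d6]

theorem ls_lo45 : ((1837895 : ℤ) : ℝ) / lsD ≤ ∫ t in (0 : ℝ)..1, sq t ^ 45 := by
  rw [ls_Z45, lsD_cast]
  push_cast
  linarith [pi_gt_d6]

theorem ls_hi46 : ∫ t in (0 : ℝ)..1, sq t ^ 46 ≤ ((1818449 : ℤ) : ℝ) / lsD := by
  rw [ls_Z46, lsD_cast]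
  push_cast
  norm_num

theorem ls_lo46 : ((1818448 : ℤ) : ℝ) / lsD ≤ ∫ t in (0 : ℝ)..1, sq t ^ 46 := by
  rw [ls_Z46, lsD_cast]
  push_cast
  norm_num

theorem ls_hi47 : ∫ t in (0 : ℝ)..1, sq t ^ 47 ≤ ((1799607 : ℤ) : ℝ) / lsD := by
  rw [ls_Z47, lsD_cast]
  push_cast
  linarith [pi_lt_d6]

theorem ls_lo47 : ((1799606 : ℤ) : ℝ) / lsD ≤ ∫ t in (0 : ℝ)..1, sq t ^ 47 := by
  rw [ls_Z47, lsD_cast]
  push_cast
  (clear * -; linarith [pi_gt_d6])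

theorem ls_hi48 : ∫ t in (0 : ℝ)..1, sq t ^ 48 ≤ ((1781338 : ℤ) : ℝ) / lsD := by
  rw [ls_Z48, lsD_cast]
  push_cast
  norm_num

theorem ls_lo48 : ((1781337 : ℤ) : ℝ) / lsD ≤ ∫ t in (0 : ℝ)..1, sq t ^ 48 := by
  rw [ls_Z48, lsD_cast]
  push_cast
  norm_num

end Vale.Agent.P237.AllN
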