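import Vale.Agent.P237.AllN.LStarC
import Vale.Agent.P237.AllN.LStarZ2
import Vale.Agent.P237.AllN.Brid3

/-!
# P237, all dimensions: a priori steps, `39 ≤ m ≤ 47`
-/

open MeasureTheory Metric Set Module Filter Topology Real

namespace Vale.Agent.P237.AllN

/-- nodes -/
def sn39_0 : List (ℤ × ℤ × ℤ) :=
    [(660, 641873, 1055000), (681, 661107, 1087968), (704, 682048, 1122585),
     (729, 704661, 1160500), (756, 728901, 1201710), (786, 755608, 1246218),
     (819, 784702, 1295671), (856, 816956, 1350070), (897, 852230, 1411062),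
     (944, 892043, 1478648), (997, 936111, 1556125), (1059, 986508, 1643492),
     (1132, 1044191, 1745695), (1219, 1110513, 1866031), (1282, 1156842, 2009445)]

/-- cells -/
def sc39_0 : List (ℤ × ℤ) :=
    [(8916000, 10000000), (9511000, 5494000), (9879000, 3693000), (10000000, 3236000)]

theorem sS39_0 : tStep (tAo 19 1969319) 16484375 1282 640 sn39_0 = true := by decide +kernel

theorem sC39_0 : tCells 39 1969317 1994087 (1000 * 640, 1055000) (sn39_0.map Prod.snd) 0 sc39_0 = true := by
  decide +kernel

/-- nodes -/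
def sn39_1 : List (ℤ × ℤ × ℤ) :=
    [(1294, 1165502, 1910910), (1309, 1176252, 1930302), (1327, 1189042, 1952678),
     (1347, 1203111, 1979530), (1371, 1219796, 2009364), (1399, 1238989, 2045166),
     (1432, 1261227, 2086934), (1472, 1287627, 2136162), (1520, 1318498, 2195831),
     (1579, 1355229, 2267434), (1653, 1399400, 2355446), (1747, 1452461, 2465835),
     (1870, 1516776, 2606058), (2036, 1594554, 2789541), (2272, 1688072, 3037168),
     (2631, 1795591, 3389218), (3074, 1880902, 3924750), (3411, 1919779, 4585588),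
     (3679, 1939414, 5088302), (3890, 1949805, 5488086), (4054, 1955580, 5802842),
     (4180, 1958950, 6047486), (4277, 1961031, 6235445), (4351, 1962364, 6380143),
     (4404, 1963199, 6490531)]

/-- cells -/
def sc39_1 : List (ℤ × ℤ) :=
    [(7939000, 10000000), (7970000, 9859000), (8002000, 9712000), (8035000, 9561000),
     (8070000, 9405000), (8108000, 9240000), (8149000, 9062000), (8194000, 8869000),
     (8245000, 8659000), (8305000, 8421000), (8379000, 8143000), (8475000, 7802000),
     (8601000, 7366000), (8743000, 6805000), (8884000, 6195000), (9035000, 5620000),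
     (9220000, 5049000), (9472000, 4432000), (9798000, 3774000), (9977000, 3289000),
     (10000000, 3208000)]

theorem sS39_1 : tStep (tAo 19 1969319) 14917333 4404 1281 sn39_1 = true := by decide +kernel

theorem sC39_1 : tCells 39 1969317 1994087 (0, 1) (sn39_1.map Prod.snd) 0 sc39_1 = true := by
  decide +kernel

/-- nodes -/
def sn39_2 : List (ℤ × ℤ × ℤ) :=
    [(4509, 1964598, 6835917), (4591, 1965487, 7000488), (4654, 1966065, 7127798),
     (4702, 1966453, 7225609), (4739, 1966723, 7300132), (4768, 1966919, 7357577),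
     (4790, 1967058, 7402601), (4804, 1967144, 7436757)]

/-- cells -/
def sc39_2 : List (ℤ × ℤ) :=
    [(7916000, 10000000), (7924000, 9968000), (7933000, 9930000), (7943000, 9888000),
     (7954000, 9840000), (7966000, 9788000), (7980000, 9731000), (7996000, 9665000),
     (8014000, 9590000), (8035000, 9504000), (8060000, 9405000), (8090000, 9288000),
     (8127000, 9146000), (8175000, 8972000), (8240000, 8748000), (8334000, 8444000),
     (8468000, 8009000), (8727000, 7397000), (10000000, 6262000)]

theorem sS39_2 : tStep (tAo 19 1969319) 15525590 4804 4403 sn39_2 = true := by decide +kernel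

theorem sC39_2 : tCells 39 1969317 1994087 (0, 1) (sn39_2.map Prod.snd) 0 sc39_2 = true := by
  decide +kernel

theorem steps39 {r τ τ' T : ℝ → ℝ} (hr : IsProf r) (h : IsTrans 39 r τ τ' T)
    (hN : (∫ y in (-1 : ℝ)..1, r y ^ (39 - 1)) ^ 39 * aInt 39 ^ (39 - 1) ≤
      aInt (39 - 1) ^ 39 * (∫ y in (-1 : ℝ)..1, r y ^ 39) ^ (39 - 1)) {x : ℝ}
    (hx : x ∈ Ioo (0 : ℝ) 1) : ApBox3 (((39 : ℕ) : ℝ) * x ^ 2) (lf τ x) := by
  have hτ := h.mem x hx
  have hx0 := hx.1
  have hA : ∀ n a : ℤ, (tAo 19 1969319) n a = true → 0 ≤ n → n ≤ 10000 →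
      ∫ t in (0 : ℝ)..((n : ℝ) / 10000), sq t ^ 39 ≤ (a : ℝ) / lsD :=
    (fun n a h0 h1 h2 => tAo_sound (h := 19) (zh := 1969319) ls_hi39 h1 h2 h0)
  refine ⟨fun h1 => ?_, fun h0 h1 => ?_, fun h0 h1 => ?_⟩
  · have hlt := ls_lt_of (m := 39) (n := 1282) hx0 (by norm_num) h1 (by norm_num)
    exact ls_log_of hx0 hτ.1 (by norm_num) (ls_step0 (m := 39) (by norm_num) (z := 1969317) (z' := 1994087)
      (by norm_num) ls_lo39 ls_hi38 hA (by simp [sc39_0]) (n0 := 640) (nend := 1282) (c := 16484375)
      (u0 := 1055000) (by norm_num) (by norm_num) (by norm_num) (by norm_num) sS39_0 sC39_0 hr h hN hx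
      hlt) (by rw [lsD_cast]; norm_num)
  · have hlt := ls_lt_of (m := 39) (n := 4404) hx0 (by norm_num) h1 (by norm_num)
    have hge := ls_ge_of (m := 39) (n := 1281) hx0 (by norm_num) h0 (by norm_num)
    exact ls_log_of hx0 hτ.1 (by norm_num) (ls_step (m := 39) (by norm_num) (z := 1969317) (z' := 1994087)
      (by norm_num) ls_lo39 ls_hi38 hA (by simp [sc39_1]) (n0 := 1281) (nend := 4404) (c := 14917333)
      (by norm_num) sS39_1 sC39_1 hr h hN hx hge hlt) (by rw [lsD_cast]; norm_num)
  · have hlt := ls_lt_of (m := 39) (n := 4804) hx0 (by norm_num) h1 (by norm_num)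
    have hge := ls_ge_of (m := 39) (n := 4403) hx0 (by norm_num) h0 (by norm_num)
    exact ls_log_of hx0 hτ.1 (by norm_num) (ls_step (m := 39) (by norm_num) (z := 1969317) (z' := 1994087)
      (by norm_num) ls_lo39 ls_hi38 hA (by simp [sc39_2]) (n0 := 4403) (nend := 4804) (c := 15525590)
      (by norm_num) sS39_2 sC39_2 hr h hN hx hge hlt) (by rw [lsD_cast]; norm_num)

/-- nodes -/
def sn40_0 : List (ℤ × ℤ × ℤ) :=
    [(651, 633044, 1041812), (672, 652280, 1073132), (694, 672316, 1107750),
     (718, 694033, 1144015), (745, 718286, 1183578), (774, 744117, 1228085),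
     (806, 772351, 1275890), (842, 803764, 1328640), (882, 838221, 1387984),
     (927, 876402, 1453921), (979, 919728, 1528101), (1039, 968621, 1613820),
     (1109, 1024123, 1712726), (1193, 1088453, 1828117), (1265, 1141556, 1966585)]

/-- cells -/
def sc40_0 : List (ℤ × ℤ) :=
    [(8932000, 10000000), (9519000, 5470000), (9880000, 3658000), (10000000, 3199000)]

theorem sS40_0 : tStep (tAe 20) 16484375 1265 632 sn40_0 = true := by decide +kernel

theorem sC40_0 : tCells 40 1945450 1969319 (1000 * 632, 1041812) (sn40_0.map Prod.snd) 0 sc40_0 = true := by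
  decide +kernel

/-- nodes -/
def sn40_1 : List (ℤ × ℤ × ℤ) :=
    [(1277, 1150220, 1885550), (1292, 1160975, 1904943), (1309, 1173061, 1927319),
     (1329, 1187140, 1952678), (1352, 1203144, 1982513), (1379, 1221674, 2016823),
     (1411, 1243274, 2057100), (1449, 1268412, 2104835), (1495, 1298093, 2161521),
     (1552, 1333729, 2230141), (1622, 1375757, 2315170), (1711, 1426427, 2419591),
     (1827, 1487849, 2552355), (1983, 1562345, 2725396), (2203, 1652213, 2958107),
     (2533, 1756521, 3286288), (3001, 1852474, 3778560), (3341, 1893589, 4476691),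
     (3612, 1914323, 4983880), (3825, 1925230, 5388140), (3991, 1931283, 5705879),
     (4119, 1934813, 5953507), (4217, 1936972, 6144449), (4291, 1938339, 6290639),
     (4349, 1939271, 6401027)]

/-- cells -/
def sc40_1 : List (ℤ × ℤ) :=
    [(7964000, 10000000), (7993000, 9861000), (8023000, 9722000), (8055000, 9578000),
     (8088000, 9425000), (8123000, 9267000), (8161000, 9100000), (8202000, 8920000),
     (8247000, 8725000), (8298000, 8512000), (8359000, 8271000), (8435000, 7985000),
     (8537000, 7632000), (8668000, 7164000), (8794000, 6578000), (8919000, 6035000),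
     (9051000, 5522000), (9206000, 5017000), (9436000, 4484000), (9754000, 3841000),
     (9960000, 3296000), (10000000, 3172000)]

theorem sS40_1 : tStep (tAe 20) 14917333 4349 1264 sn40_1 = true := by decide +kernel

theorem sC40_1 : tCells 40 1945450 1969319 (0, 1) (sn40_1.map Prod.snd) 0 sc40_1 = true := by
  decide +kernel

/-- nodes -/
def sn40_2 : List (ℤ × ℤ × ℤ) :=
    [(4455, 1940701, 6750526), (4537, 1941598, 6916650), (4600, 1942182, 7043960),
     (4648, 1942573, 7141771), (4684, 1942838, 7216294), (4712, 1943029, 7272186),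
     (4733, 1943164, 7315658), (4744, 1943232, 7348261)]

/-- cells -/
def sc40_2 : List (ℤ × ℤ) :=
    [(7944000, 10000000), (7954000, 9957000), (7965000, 9909000), (7977000, 9856000),
     (7990000, 9799000), (8005000, 9736000), (8022000, 9664000), (8041000, 9583000),
     (8063000, 9492000), (8088000, 9387000), (8118000, 9267000), (8154000, 9124000),
     (8199000, 8953000), (8259000, 8739000), (8344000, 8455000), (8462000, 8056000),
     (8660000, 7508000), (10000000, 6613000)]

theorem sS40_2 : tStep (tAe 20) 15525590 4744 4348 sn40_2 = true := by decide +kernel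

theorem sC40_2 : tCells 40 1945450 1969319 (0, 1) (sn40_2.map Prod.snd) 0 sc40_2 = true := by
  decide +kernel

theorem steps40 {r τ τ' T : ℝ → ℝ} (hr : IsProf r) (h : IsTrans 40 r τ τ' T)
    (hN : (∫ y in (-1 : ℝ)..1, r y ^ (40 - 1)) ^ 40 * aInt 40 ^ (40 - 1) ≤
      aInt (40 - 1) ^ 40 * (∫ y in (-1 : ℝ)..1, r y ^ 40) ^ (40 - 1)) {x : ℝ}
    (hx : x ∈ Ioo (0 : ℝ) 1) : ApBox3 (((40 : ℕ) : ℝ) * x ^ 2) (lf τ x) := by
  have hτ := h.mem x hx
  have hx0 := hx.1
  have hA : ∀ n a : ℤ, (tAe 20) n a = true → 0 ≤ n → n ≤ 10000 →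
      ∫ t in (0 : ℝ)..((n : ℝ) / 10000), sq t ^ 40 ≤ (a : ℝ) / lsD :=
    (fun n a h0 h1 h2 => tAe_sound (h := 20) h1 h2 h0)
  refine ⟨fun h1 => ?_, fun h0 h1 => ?_, fun h0 h1 => ?_⟩
  · have hlt := ls_lt_of (m := 40) (n := 1265) hx0 (by norm_num) h1 (by norm_num)
    exact ls_log_of hx0 hτ.1 (by norm_num) (ls_step0 (m := 40) (by norm_num) (z := 1945450) (z' := 1969319)
      (by norm_num) ls_lo40 ls_hi39 hA (by simp [sc40_0]) (n0 := 632) (nend := 1265) (c := 16484375)
      (u0 := 1041812) (by norm_num) (by norm_num) (by norm_num) (by norm_num) sS40_0 sC40_0 hr h hN hx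
      hlt) (by rw [lsD_cast]; norm_num)
  · have hlt := ls_lt_of (m := 40) (n := 4349) hx0 (by norm_num) h1 (by norm_num)
    have hge := ls_ge_of (m := 40) (n := 1264) hx0 (by norm_num) h0 (by norm_num)
    exact ls_log_of hx0 hτ.1 (by norm_num) (ls_step (m := 40) (by norm_num) (z := 1945450) (z' := 1969319)
      (by norm_num) ls_lo40 ls_hi39 hA (by simp [sc40_1]) (n0 := 1264) (nend := 4349) (c := 14917333)
      (by norm_num) sS40_1 sC40_1 hr h hN hx hge hlt) (by rw [lsD_cast]; norm_num)
  · have hlt := ls_lt_of (m := 40) (n := 4744) hx0 (by norm_num) h1 (by norm_num)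
    have hge := ls_ge_of (m := 40) (n := 4348) hx0 (by norm_num) h0 (by norm_num)
    exact ls_log_of hx0 hτ.1 (by norm_num) (ls_step (m := 40) (by norm_num) (z := 1945450) (z' := 1969319)
      (by norm_num) ls_lo40 ls_hi39 hA (by simp [sc40_2]) (n0 := 4348) (nend := 4744) (c := 15525590)
      (by norm_num) sS40_2 sC40_2 hr h hN hx hge hlt) (by rw [lsD_cast]; norm_num)

/-- nodes -/
def sn41_0 : List (ℤ × ℤ × ℤ) :=
    [(640, 622608, 1028625), (658, 639115, 1055000), (677, 656453, 1084671),
     (697, 674605, 1115992), (719, 694451, 1148960), (742, 715061, 1185226),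
     (767, 737300, 1223140), (795, 761999, 1264351), (825, 788212, 1310507),
     (858, 816738, 1359960), (895, 848327, 1414359), (937, 883663, 1475351),
     (984, 922529, 1544585), (1038, 966272, 1622062), (1100, 1015256, 1711078),
     (1173, 1071175, 1813281), (1250, 1128038, 1933617)]

/-- cells -/
def sc41_0 : List (ℤ × ℤ) :=
    [(8938000, 10000000), (9518000, 5485000), (9884000, 3642000), (10000000, 3162000)]

theorem sS41_0 : tStep (tAo 20 1922430) 16484375 1250 624 sn41_0 = true := by decide +kernel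

theorem sC41_0 : tCells 41 1922429 1945451 (1000 * 624, 1028625) (sn41_0.map Prod.snd) 0 sc41_0 = true := by
  decide +kernel

/-- nodes -/
def sn41_1 : List (ℤ × ℤ × ℤ) :=
    [(1263, 1137419, 1863174), (1280, 1149590, 1884059), (1300, 1163769, 1909418),
     (1323, 1179885, 1939253), (1351, 1199230, 1973563), (1385, 1222312, 2015331),
     (1426, 1249549, 2066050), (1477, 1282509, 2127211), (1541, 1322421, 2203290),
     (1623, 1371191, 2298761), (1731, 1431372, 2421083), (1878, 1505955, 2582190),
     (2088, 1598265, 2801475), (2410, 1709593, 3114739), (2956, 1828936, 3595077),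
     (3303, 1871177, 4409563), (3574, 1891836, 4927195), (3785, 1902569, 5331454),
     (3948, 1908476, 5646210), (4073, 1911912, 5889363), (4168, 1914006, 6075829),
     (4241, 1915358, 6217544), (4295, 1916232, 6326440)]

/-- cells -/
def sc41_1 : List (ℤ × ℤ) :=
    [(7989000, 10000000), (8019000, 9859000), (8050000, 9713000), (8082000, 9562000),
     (8115000, 9407000), (8150000, 9248000), (8187000, 9078000), (8227000, 8900000),
     (8271000, 8708000), (8321000, 8497000), (8379000, 8258000), (8450000, 7982000),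
     (8534000, 7647000), (8614000, 7255000), (8691000, 6887000), (8766000, 6540000),
     (8840000, 6209000), (8914000, 5891000), (8991000, 5583000), (9074000, 5274000),
     (9168000, 4958000), (9288000, 4622000), (9475000, 4235000), (9769000, 3737000),
     (9963000, 3249000), (10000000, 3135000)]

theorem sS41_1 : tStep (tAo 20 1922430) 14917333 4295 1249 sn41_1 = true := by decide +kernel

theorem sC41_1 : tCells 41 1922429 1945451 (0, 1) (sn41_1.map Prod.snd) 0 sc41_1 = true := by
  decide +kernel

/-- nodes -/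
def sn41_2 : List (ℤ × ℤ × ℤ) :=
    [(4400, 1917663, 6666688), (4481, 1918560, 6831259), (4543, 1919142, 6957016),
     (4590, 1919530, 7053275), (4626, 1919799, 7126245), (4653, 1919986, 7182137),
     (4673, 1920117, 7224057), (4686, 1920198, 7255108)]

/-- cells -/
def sc41_2 : List (ℤ × ℤ) :=
    [(7967000, 10000000), (7975000, 9966000), (7984000, 9927000), (7994000, 9883000),
     (8005000, 9834000), (8017000, 9781000), (8030000, 9723000), (8044000, 9659000),
     (8060000, 9592000), (8078000, 9514000), (8099000, 9427000), (8123000, 9325000),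
     (8151000, 9209000), (8185000, 9074000), (8227000, 8910000), (8281000, 8708000),
     (8356000, 8449000), (8462000, 8091000), (8623000, 7591000), (9129000, 6847000),
     (10000000, 4758000)]

theorem sS41_2 : tStep (tAo 20 1922430) 15525590 4686 4294 sn41_2 = true := by decide +kernel

theorem sC41_2 : tCells 41 1922429 1945451 (0, 1) (sn41_2.map Prod.snd) 0 sc41_2 = true := by
  decide +kernel

theorem steps41 {r τ τ' T : ℝ → ℝ} (hr : IsProf r) (h : IsTrans 41 r τ τ' T)
    (hN : (∫ y in (-1 : ℝ)..1, r y ^ (41 - 1)) ^ 41 * aInt 41 ^ (41 - 1) ≤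
      aInt (41 - 1) ^ 41 * (∫ y in (-1 : ℝ)..1, r y ^ 41) ^ (41 - 1)) {x : ℝ}
    (hx : x ∈ Ioo (0 : ℝ) 1) : ApBox3 (((41 : ℕ) : ℝ) * x ^ 2) (lf τ x) := by
  have hτ := h.mem x hx
  have hx0 := hx.1
  have hA : ∀ n a : ℤ, (tAo 20 1922430) n a = true → 0 ≤ n → n ≤ 10000 →
      ∫ t in (0 : ℝ)..((n : ℝ) / 10000), sq t ^ 41 ≤ (a : ℝ) / lsD :=
    (fun n a h0 h1 h2 => tAo_sound (h := 20) (zh := 1922430) ls_hi41 h1 h2 h0)
  refine ⟨fun h1 => ?_, fun h0 h1 => ?_, fun h0 h1 => ?_⟩
  · have hlt := ls_lt_of (m := 41) (n := 1250) hx0 (by norm_num) h1 (by norm_num)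
    exact ls_log_of hx0 hτ.1 (by norm_num) (ls_step0 (m := 41) (by norm_num) (z := 1922429) (z' := 1945451)
      (by norm_num) ls_lo41 ls_hi40 hA (by simp [sc41_0]) (n0 := 624) (nend := 1250) (c := 16484375)
      (u0 := 1028625) (by norm_num) (by norm_num) (by norm_num) (by norm_num) sS41_0 sC41_0 hr h hN hx
      hlt) (by rw [lsD_cast]; norm_num)
  · have hlt := ls_lt_of (m := 41) (n := 4295) hx0 (by norm_num) h1 (by norm_num)
    have hge := ls_ge_of (m := 41) (n := 1249) hx0 (by norm_num) h0 (by norm_num)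
    exact ls_log_of hx0 hτ.1 (by norm_num) (ls_step (m := 41) (by norm_num) (z := 1922429) (z' := 1945451)
      (by norm_num) ls_lo41 ls_hi40 hA (by simp [sc41_1]) (n0 := 1249) (nend := 4295) (c := 14917333)
      (by norm_num) sS41_1 sC41_1 hr h hN hx hge hlt) (by rw [lsD_cast]; norm_num)
  · have hlt := ls_lt_of (m := 41) (n := 4686) hx0 (by norm_num) h1 (by norm_num)
    have hge := ls_ge_of (m := 41) (n := 4294) hx0 (by norm_num) h0 (by norm_num)
    exact ls_log_of hx0 hτ.1 (by norm_num) (ls_step (m := 41) (by norm_num) (z := 1922429) (z' := 1945451)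
      (by norm_num) ls_lo41 ls_hi40 hA (by simp [sc41_2]) (n0 := 4294) (nend := 4686) (c := 15525590)
      (by norm_num) sS41_2 sC41_2 hr h hN hx hge hlt) (by rw [lsD_cast]; norm_num)

/-- nodes -/
def sn42_0 : List (ℤ × ℤ × ℤ) :=
    [(633, 615665, 1017085), (650, 631255, 1043460), (668, 647683, 1071484),
     (688, 665838, 1101156), (709, 684788, 1134125), (732, 705407, 1168742),
     (757, 727652, 1206656), (784, 751478, 1247867), (814, 777703, 1292375),
     (847, 806238, 1341828), (883, 836985, 1396226), (924, 871501, 1455570),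
     (970, 909571, 1523156), (1022, 951747, 1598984), (1083, 1000022, 1684703),
     (1154, 1054526, 1785257), (1235, 1114421, 1902296)]

/-- cells -/
def sc42_0 : List (ℤ × ℤ) :=
    [(8945000, 10000000), (9514000, 5496000), (9878000, 3634000), (10000000, 3131000)]

theorem sS42_0 : tStep (tAe 21) 16484375 1235 617 sn42_0 = true := by decide +kernel

theorem sC42_0 : tCells 42 1900207 1922430 (1000 * 617, 1017085) (sn42_0.map Prod.snd) 0 sc42_0 = true := by
  decide +kernel

/-- nodes -/
def sn42_1 : List (ℤ × ℤ × ℤ) :=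
    [(1248, 1123803, 1840798), (1264, 1135261, 1861683), (1283, 1148739, 1885550),
     (1305, 1164171, 1913893), (1332, 1182852, 1946711), (1364, 1204625, 1986988),
     (1403, 1230614, 2034724), (1451, 1261775, 2092901), (1511, 1299435, 2164505),
     (1588, 1345657, 2254009), (1689, 1402691, 2368872), (1825, 1473095, 2519537),
     (2018, 1560716, 2722413), (2309, 1667213, 3010317), (2791, 1785567, 3444412),
     (3165, 1839180, 4163427), (3455, 1864701, 4721335), (3682, 1877760, 5153938),
     (3857, 1884788, 5492562), (3992, 1888824, 5753615), (4095, 1891252, 5954999),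
     (4173, 1892777, 6108647), (4244, 1893962, 6225003)]

/-- cells -/
def sc42_1 : List (ℤ × ℤ) :=
    [(8006000, 10000000), (8029000, 9891000), (8052000, 9778000), (8076000, 9665000),
     (8101000, 9547000), (8127000, 9424000), (8154000, 9297000), (8182000, 9165000),
     (8212000, 9028000), (8244000, 8881000), (8279000, 8725000), (8318000, 8555000),
     (8362000, 8366000), (8413000, 8153000), (8475000, 7908000), (8556000, 7612000),
     (8670000, 7229000), (8796000, 6699000), (8915000, 6133000), (9032000, 5620000),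
     (9152000, 5145000), (9287000, 4695000), (9468000, 4242000), (9754000, 3740000),
     (9956000, 3234000), (10000000, 3101000)]

theorem sS42_1 : tStep (tAe 21) 14917333 4244 1234 sn42_1 = true := by decide +kernel

theorem sC42_1 : tCells 42 1900207 1922430 (0, 1) (sn42_1.map Prod.snd) 0 sc42_1 = true := by
  decide +kernel

/-- nodes -/
def sn42_2 : List (ℤ × ℤ × ℤ) :=
    [(4346, 1895373, 6587507), (4425, 1896265, 6747421), (4486, 1896850, 6870073),
     (4533, 1897247, 6964779), (4569, 1897522, 7037749), (4596, 1897714, 7093642),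
     (4617, 1897854, 7135561), (4630, 1897937, 7168164)]

/-- cells -/
def sc42_2 : List (ℤ × ℤ) :=
    [(7993000, 10000000), (8003000, 9955000), (8014000, 9906000), (8026000, 9852000),
     (8039000, 9793000), (8053000, 9729000), (8068000, 9660000), (8085000, 9586000),
     (8104000, 9503000), (8125000, 9410000), (8149000, 9307000), (8177000, 9189000),
     (8210000, 9052000), (8250000, 8891000), (8300000, 8696000), (8368000, 8453000),
     (8465000, 8124000), (8605000, 7659000), (8910000, 6999000), (10000000, 5641000)]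

theorem sS42_2 : tStep (tAe 21) 15525590 4630 4243 sn42_2 = true := by decide +kernel

theorem sC42_2 : tCells 42 1900207 1922430 (0, 1) (sn42_2.map Prod.snd) 0 sc42_2 = true := by
  decide +kernel

theorem steps42 {r τ τ' T : ℝ → ℝ} (hr : IsProf r) (h : IsTrans 42 r τ τ' T)
    (hN : (∫ y in (-1 : ℝ)..1, r y ^ (42 - 1)) ^ 42 * aInt 42 ^ (42 - 1) ≤
      aInt (42 - 1) ^ 42 * (∫ y in (-1 : ℝ)..1, r y ^ 42) ^ (42 - 1)) {x : ℝ}
    (hx : x ∈ Ioo (0 : ℝ) 1) : ApBox3 (((42 : ℕ) : ℝ) * x ^ 2) (lf τ x) := by
  have hτ := h.mem x hx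
  have hx0 := hx.1
  have hA : ∀ n a : ℤ, (tAe 21) n a = true → 0 ≤ n → n ≤ 10000 →
      ∫ t in (0 : ℝ)..((n : ℝ) / 10000), sq t ^ 42 ≤ (a : ℝ) / lsD :=
    (fun n a h0 h1 h2 => tAe_sound (h := 21) h1 h2 h0)
  refine ⟨fun h1 => ?_, fun h0 h1 => ?_, fun h0 h1 => ?_⟩
  · have hlt := ls_lt_of (m := 42) (n := 1235) hx0 (by norm_num) h1 (by norm_num)
    exact ls_log_of hx0 hτ.1 (by norm_num) (ls_step0 (m := 42) (by norm_num) (z := 1900207) (z' := 1922430)
      (by norm_num) ls_lo42 ls_hi41 hA (by simp [sc42_0]) (n0 := 617) (nend := 1235) (c := 16484375)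
      (u0 := 1017085) (by norm_num) (by norm_num) (by norm_num) (by norm_num) sS42_0 sC42_0 hr h hN hx
      hlt) (by rw [lsD_cast]; norm_num)
  · have hlt := ls_lt_of (m := 42) (n := 4244) hx0 (by norm_num) h1 (by norm_num)
    have hge := ls_ge_of (m := 42) (n := 1234) hx0 (by norm_num) h0 (by norm_num)
    exact ls_log_of hx0 hτ.1 (by norm_num) (ls_step (m := 42) (by norm_num) (z := 1900207) (z' := 1922430)
      (by norm_num) ls_lo42 ls_hi41 hA (by simp [sc42_1]) (n0 := 1234) (nend := 4244) (c := 14917333)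
      (by norm_num) sS42_1 sC42_1 hr h hN hx hge hlt) (by rw [lsD_cast]; norm_num)
  · have hlt := ls_lt_of (m := 42) (n := 4630) hx0 (by norm_num) h1 (by norm_num)
    have hge := ls_ge_of (m := 42) (n := 4243) hx0 (by norm_num) h0 (by norm_num)
    exact ls_log_of hx0 hτ.1 (by norm_num) (ls_step (m := 42) (by norm_num) (z := 1900207) (z' := 1922430)
      (by norm_num) ls_lo42 ls_hi41 hA (by simp [sc42_2]) (n0 := 4243) (nend := 4630) (c := 15525590)
      (by norm_num) sS42_2 sC42_2 hr h hN hx hge hlt) (by rw [lsD_cast]; norm_num)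

/-- nodes -/
def sn43_0 : List (ℤ × ℤ × ℤ) :=
    [(627, 609840, 1003898), (647, 628166, 1033570), (668, 647298, 1066539),
     (691, 668119, 1101156), (716, 690590, 1139070), (743, 714663, 1180281),
     (773, 741167, 1224789), (806, 770016, 1274242), (843, 801968, 1328640),
     (885, 837718, 1389632), (933, 877874, 1458867), (988, 922936, 1537992),
     (1052, 974046, 1628656), (1129, 1033580, 1734156), (1220, 1101081, 1861085)]

/-- cells -/
def sc43_0 : List (ℤ × ℤ) :=
    [(8946000, 10000000), (9502000, 5531000), (9858000, 3647000), (9995000, 3110000),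
     (10000000, 3063000)]

theorem sS43_0 : tStep (tAo 21 1878739) 16484375 1220 609 sn43_0 = true := by decide +kernel

theorem sC43_0 : tCells 43 1878737 1900208 (1000 * 609, 1003898) (sn43_0.map Prod.snd) 0 sc43_0 = true := by
  decide +kernel

/-- nodes -/
def sn43_1 : List (ℤ × ℤ × ℤ) :=
    [(1232, 1109746, 1818422), (1247, 1120499, 1837815), (1265, 1133287, 1860191),
     (1286, 1148046, 1887042), (1311, 1165390, 1918369), (1341, 1185877, 1955662),
     (1378, 1210652, 2000414), (1423, 1240045, 2055608), (1480, 1276107, 2122736),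
     (1552, 1319781, 2207765), (1646, 1373644, 2315170), (1772, 1440267, 2455393),
     (1948, 1522846, 2643351), (2209, 1623943, 2905896), (2632, 1740049, 3295238),
     (3034, 1807109, 3926242), (3342, 1838057, 4525918), (3582, 1853553, 4985372),
     (3769, 1861833, 5343388), (3912, 1866468, 5622342), (4022, 1869240, 5835660),
     (4106, 1870972, 5999751), (4170, 1872099, 6125056), (4194, 1872483, 6220527)]

/-- cells -/
def sc43_1 : List (ℤ × ℤ) :=
    [(8040000, 10000000), (8073000, 9836000), (8107000, 9672000), (8141000, 9503000),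
     (8176000, 9334000), (8213000, 9160000), (8252000, 8977000), (8293000, 8784000),
     (8338000, 8582000), (8388000, 8361000), (8445000, 8116000), (8513000, 7839000),
     (8601000, 7510000), (8715000, 7090000), (8842000, 6556000), (8972000, 5982000),
     (9116000, 5422000), (9271000, 4848000), (9452000, 4299000), (9722000, 3769000),
     (9942000, 3245000), (10000000, 3071000)]

theorem sS43_1 : tStep (tAo 21 1878739) 14917333 4194 1219 sn43_1 = true := by decide +kernel

theorem sC43_1 : tCells 43 1878737 1900208 (0, 1) (sn43_1.map Prod.snd) 0 sc43_1 = true := by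
  decide +kernel

/-- nodes -/
def sn43_2 : List (ℤ × ℤ × ℤ) :=
    [(4295, 1873894, 6509879), (4374, 1874793, 6668240), (4435, 1875383, 6790893),
     (4481, 1875775, 6885599), (4516, 1876045, 6957016), (4543, 1876238, 7011356),
     (4564, 1876380, 7053275), (4575, 1876451, 7085879)]

/-- cells -/
def sc43_2 : List (ℤ × ℤ) :=
    [(8015000, 10000000), (8023000, 9961000), (8032000, 9921000), (8042000, 9876000),
     (8052000, 9826000), (8063000, 9776000), (8075000, 9722000), (8088000, 9662000),
     (8102000, 9597000), (8117000, 9528000), (8134000, 9453000), (8153000, 9369000),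
     (8175000, 9274000), (8200000, 9165000), (8229000, 9041000), (8263000, 8898000),
     (8305000, 8730000), (8359000, 8523000), (8435000, 8258000), (8542000, 7887000),
     (8708000, 7371000), (9420000, 6589000), (10000000, 3853000)]

theorem sS43_2 : tStep (tAo 21 1878739) 15525590 4575 4193 sn43_2 = true := by decide +kernel

theorem sC43_2 : tCells 43 1878737 1900208 (0, 1) (sn43_2.map Prod.snd) 0 sc43_2 = true := by
  decide +kernel

theorem steps43 {r τ τ' T : ℝ → ℝ} (hr : IsProf r) (h : IsTrans 43 r τ τ' T)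
    (hN : (∫ y in (-1 : ℝ)..1, r y ^ (43 - 1)) ^ 43 * aInt 43 ^ (43 - 1) ≤
      aInt (43 - 1) ^ 43 * (∫ y in (-1 : ℝ)..1, r y ^ 43) ^ (43 - 1)) {x : ℝ}
    (hx : x ∈ Ioo (0 : ℝ) 1) : ApBox3 (((43 : ℕ) : ℝ) * x ^ 2) (lf τ x) := by
  have hτ := h.mem x hx
  have hx0 := hx.1
  have hA : ∀ n a : ℤ, (tAo 21 1878739) n a = true → 0 ≤ n → n ≤ 10000 →
      ∫ t in (0 : ℝ)..((n : ℝ) / 10000), sq t ^ 43 ≤ (a : ℝ) / lsD :=
    (fun n a h0 h1 h2 => tAo_sound (h := 21) (zh := 1878739) ls_hi43 h1 h2 h0)
  refine ⟨fun h1 => ?_, fun h0 h1 => ?_, fun h0 h1 => ?_⟩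
  · have hlt := ls_lt_of (m := 43) (n := 1220) hx0 (by norm_num) h1 (by norm_num)
    exact ls_log_of hx0 hτ.1 (by norm_num) (ls_step0 (m := 43) (by norm_num) (z := 1878737) (z' := 1900208)
      (by norm_num) ls_lo43 ls_hi42 hA (by simp [sc43_0]) (n0 := 609) (nend := 1220) (c := 16484375)
      (u0 := 1003898) (by norm_num) (by norm_num) (by norm_num) (by norm_num) sS43_0 sC43_0 hr h hN hx
      hlt) (by rw [lsD_cast]; norm_num)
  · have hlt := ls_lt_of (m := 43) (n := 4194) hx0 (by norm_num) h1 (by norm_num)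
    have hge := ls_ge_of (m := 43) (n := 1219) hx0 (by norm_num) h0 (by norm_num)
    exact ls_log_of hx0 hτ.1 (by norm_num) (ls_step (m := 43) (by norm_num) (z := 1878737) (z' := 1900208)
      (by norm_num) ls_lo43 ls_hi42 hA (by simp [sc43_1]) (n0 := 1219) (nend := 4194) (c := 14917333)
      (by norm_num) sS43_1 sC43_1 hr h hN hx hge hlt) (by rw [lsD_cast]; norm_num)
  · have hlt := ls_lt_of (m := 43) (n := 4575) hx0 (by norm_num) h1 (by norm_num)
    have hge := ls_ge_of (m := 43) (n := 4193) hx0 (by norm_num) h0 (by norm_num)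
    exact ls_log_of hx0 hτ.1 (by norm_num) (ls_step (m := 43) (by norm_num) (z := 1878737) (z' := 1900208)
      (by norm_num) ls_lo43 ls_hi42 hA (by simp [sc43_2]) (n0 := 4193) (nend := 4575) (c := 15525590)
      (by norm_num) sS43_2 sC43_2 hr h hN hx hge hlt) (by rw [lsD_cast]; norm_num)

/-- nodes -/
def sn44_0 : List (ℤ × ℤ × ℤ) :=
    [(621, 603857, 994007), (640, 621263, 1023679), (661, 640393, 1055000),
     (684, 661209, 1089617), (709, 683673, 1127531), (736, 707736, 1168742),
     (766, 734226, 1213250), (799, 763054, 1262703), (836, 794979, 1317101),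
     (878, 830690, 1378093), (926, 870793, 1447328), (981, 915780, 1526453),
     (1045, 966785, 1617117), (1122, 1026164, 1722617), (1207, 1089107, 1849546)]

/-- cells -/
def sc44_0 : List (ℤ × ℤ) :=
    [(8962000, 10000000), (9512000, 5503000), (9863000, 3611000), (9996000, 3075000),
     (10000000, 3030000)]

theorem sS44_0 : tStep (tAe 22) 16484375 1207 603 sn44_0 = true := by decide +kernel

theorem sC44_0 : tCells 44 1857980 1878739 (1000 * 603, 994007) (sn44_0.map Prod.snd) 0 sc44_0 = true := by
  decide +kernel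

/-- nodes -/
def sn44_1 : List (ℤ × ℤ × ℤ) :=
    [(1219, 1097767, 1799030), (1234, 1108514, 1818422), (1252, 1121293, 1840798),
     (1273, 1136040, 1867650), (1298, 1153367, 1898976), (1328, 1173830, 1936269),
     (1365, 1198569, 1981021), (1410, 1227910, 2036215), (1466, 1263273, 2103343),
     (1538, 1306855, 2186881), (1631, 1360011, 2294285), (1756, 1425915, 2433017),
     (1931, 1507725, 2619483), (2192, 1608234, 2880537), (2615, 1723096, 3269879),
     (3010, 1788072, 3900882), (3313, 1818151, 4490117), (3549, 1833237, 4942112),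
     (3732, 1841285, 5294161), (3873, 1845837, 5567148), (3981, 1848553, 5777483),
     (4063, 1850244, 5938590), (4126, 1851357, 6060912), (4146, 1851680, 6154891)]

/-- cells -/
def sc44_1 : List (ℤ × ℤ) :=
    [(8063000, 10000000), (8096000, 9831000), (8130000, 9665000), (8165000, 9494000),
     (8201000, 9318000), (8238000, 9137000), (8276000, 8952000), (8317000, 8762000),
     (8361000, 8557000), (8409000, 8338000), (8464000, 8100000), (8529000, 7829000),
     (8611000, 7511000), (8719000, 7113000), (8844000, 6600000), (8971000, 6023000),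
     (9109000, 5465000), (9256000, 4899000), (9423000, 4358000), (9671000, 3839000),
     (9916000, 3294000), (9999000, 3047000), (10000000, 3030000)]

theorem sS44_1 : tStep (tAe 22) 14917333 4146 1206 sn44_1 = true := by decide +kernel

theorem sC44_1 : tCells 44 1857980 1878739 (0, 1) (sn44_1.map Prod.snd) 0 sc44_1 = true := by
  decide +kernel

/-- nodes -/
def sn44_2 : List (ℤ × ℤ × ℤ) :=
    [(4246, 1853094, 6435357), (4324, 1853994, 6592165), (4384, 1854583, 6713265),
     (4430, 1854981, 6806418), (4465, 1855255, 6877836), (4492, 1855451, 6932175),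
     (4512, 1855588, 6974095), (4523, 1855661, 7005146)]

/-- cells -/
def sc44_2 : List (ℤ × ℤ) :=
    [(8040000, 10000000), (8051000, 9947000), (8062000, 9892000), (8074000, 9836000),
     (8087000, 9776000), (8101000, 9710000), (8116000, 9640000), (8132000, 9564000),
     (8150000, 9484000), (8169000, 9393000), (8190000, 9298000), (8214000, 9192000),
     (8242000, 9072000), (8274000, 8932000), (8312000, 8772000), (8360000, 8582000),
     (8423000, 8343000), (8512000, 8031000), (8637000, 7594000), (8872000, 6989000),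
     (10000000, 5897000)]

theorem sS44_2 : tStep (tAe 22) 15525590 4523 4145 sn44_2 = true := by decide +kernel

theorem sC44_2 : tCells 44 1857980 1878739 (0, 1) (sn44_2.map Prod.snd) 0 sc44_2 = true := by
  decide +kernel

theorem steps44 {r τ τ' T : ℝ → ℝ} (hr : IsProf r) (h : IsTrans 44 r τ τ' T)
    (hN : (∫ y in (-1 : ℝ)..1, r y ^ (44 - 1)) ^ 44 * aInt 44 ^ (44 - 1) ≤
      aInt (44 - 1) ^ 44 * (∫ y in (-1 : ℝ)..1, r y ^ 44) ^ (44 - 1)) {x : ℝ}
    (hx : x ∈ Ioo (0 : ℝ) 1) : ApBox3 (((44 : ℕ) : ℝ) * x ^ 2) (lf τ x) := by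
  have hτ := h.mem x hx
  have hx0 := hx.1
  have hA : ∀ n a : ℤ, (tAe 22) n a = true → 0 ≤ n → n ≤ 10000 →
      ∫ t in (0 : ℝ)..((n : ℝ) / 10000), sq t ^ 44 ≤ (a : ℝ) / lsD :=
    (fun n a h0 h1 h2 => tAe_sound (h := 22) h1 h2 h0)
  refine ⟨fun h1 => ?_, fun h0 h1 => ?_, fun h0 h1 => ?_⟩
  · have hlt := ls_lt_of (m := 44) (n := 1207) hx0 (by norm_num) h1 (by norm_num)
    exact ls_log_of hx0 hτ.1 (by norm_num) (ls_step0 (m := 44) (by norm_num) (z := 1857980) (z' := 1878739)
      (by norm_num) ls_lo44 ls_hi43 hA (by simp [sc44_0]) (n0 := 603) (nend := 1207) (c := 16484375)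
      (u0 := 994007) (by norm_num) (by norm_num) (by norm_num) (by norm_num) sS44_0 sC44_0 hr h hN hx
      hlt) (by rw [lsD_cast]; norm_num)
  · have hlt := ls_lt_of (m := 44) (n := 4146) hx0 (by norm_num) h1 (by norm_num)
    have hge := ls_ge_of (m := 44) (n := 1206) hx0 (by norm_num) h0 (by norm_num)
    exact ls_log_of hx0 hτ.1 (by norm_num) (ls_step (m := 44) (by norm_num) (z := 1857980) (z' := 1878739)
      (by norm_num) ls_lo44 ls_hi43 hA (by simp [sc44_1]) (n0 := 1206) (nend := 4146) (c := 14917333)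
      (by norm_num) sS44_1 sC44_1 hr h hN hx hge hlt) (by rw [lsD_cast]; norm_num)
  · have hlt := ls_lt_of (m := 44) (n := 4523) hx0 (by norm_num) h1 (by norm_num)
    have hge := ls_ge_of (m := 44) (n := 4145) hx0 (by norm_num) h0 (by norm_num)
    exact ls_log_of hx0 hτ.1 (by norm_num) (ls_step (m := 44) (by norm_num) (z := 1857980) (z' := 1878739)
      (by norm_num) ls_lo44 ls_hi43 hA (by simp [sc44_2]) (n0 := 4145) (nend := 4523) (c := 15525590)
      (by norm_num) sS44_2 sC44_2 hr h hN hx hge hlt) (by rw [lsD_cast]; norm_num)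

/-- nodes -/
def sn45_0 : List (ℤ × ℤ × ℤ) :=
    [(614, 597128, 982468), (633, 614534, 1012140), (653, 632754, 1043460),
     (675, 652671, 1076429), (699, 674248, 1112695), (725, 697438, 1152257),
     (754, 723072, 1195117), (786, 751064, 1242921), (822, 782175, 1295671),
     (862, 816258, 1355015), (908, 854798, 1420953), (961, 898304, 1496781),
     (1023, 947933, 1584148), (1096, 1004556, 1686351), (1193, 1076649, 1806687)]

/-- cells -/
def sc45_0 : List (ℤ × ℤ) :=
    [(8960000, 10000000), (9498000, 5552000), (9842000, 3633000), (9992000, 3060000),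
     (10000000, 2998000)]

theorem sS45_0 : tStep (tAo 22 1837897) 16484375 1193 596 sn45_0 = true := by decide +kernel

theorem sC45_0 : tCells 45 1837895 1857981 (1000 * 596, 982468) (sn45_0.map Prod.snd) 0 sc45_0 = true := by
  decide +kernel

/-- nodes -/
def sn45_1 : List (ℤ × ℤ × ℤ) :=
    [(1204, 1084593, 1778146), (1218, 1094633, 1796046), (1235, 1106721, 1816931),
     (1255, 1120794, 1842290), (1279, 1137469, 1872125), (1308, 1157308, 1907926),
     (1343, 1180796, 1951187), (1386, 1208968, 2003397), (1439, 1242646, 2067542),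
     (1506, 1283560, 2146604), (1593, 1333915, 2246550), (1709, 1396206, 2376331),
     (1870, 1473630, 2549372), (2107, 1569322, 2789541), (2483, 1681041, 3143082),
     (2905, 1759148, 3703973), (3220, 1793735, 4333485), (3467, 1810976, 4803381),
     (3659, 1820059, 5171839), (3806, 1825095, 5458252), (3919, 1828078, 5677536),
     (4005, 1829922, 5846102), (4071, 1831125, 5974391), (4100, 1831600, 6072846)]

/-- cells -/
def sc45_1 : List (ℤ × ℤ) :=
    [(8085000, 10000000), (8119000, 9827000), (8153000, 9654000), (8188000, 9481000),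
     (8223000, 9303000), (8260000, 9125000), (8298000, 8938000), (8338000, 8745000),
     (8381000, 8543000), (8427000, 8327000), (8479000, 8096000), (8539000, 7836000),
     (8613000, 7539000), (8710000, 7175000), (8827000, 6705000), (8941000, 6153000),
     (9058000, 5636000), (9188000, 5133000), (9360000, 4617000), (9563000, 4023000),
     (9833000, 3480000), (9980000, 3068000), (10000000, 2999000)]

theorem sS45_1 : tStep (tAo 22 1837897) 14917333 4100 1192 sn45_1 = true := by decide +kernel

theorem sC45_1 : tCells 45 1837895 1857981 (0, 1) (sn45_1.map Prod.snd) 0 sc45_1 = true := by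
  decide +kernel

/-- nodes -/
def sn45_2 : List (ℤ × ℤ × ℤ) :=
    [(4200, 1833023, 6363939), (4277, 1833916, 6520747), (4337, 1834509, 6640294),
     (4382, 1834900, 6733448), (4417, 1835176, 6803313), (4443, 1835366, 6857653),
     (4463, 1835504, 6898019), (4473, 1835571, 6929070)]

/-- cells -/
def sc45_2 : List (ℤ × ℤ) :=
    [(8060000, 10000000), (8069000, 9955000), (8079000, 9909000), (8089000, 9858000),
     (8100000, 9807000), (8111000, 9751000), (8123000, 9695000), (8136000, 9634000),
     (8150000, 9568000), (8165000, 9496000), (8181000, 9420000), (8199000, 9339000),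
     (8219000, 9247000), (8241000, 9146000), (8266000, 9034000), (8295000, 8907000),
     (8329000, 8761000), (8371000, 8589000), (8424000, 8377000), (8497000, 8111000),
     (8599000, 7747000), (8755000, 7243000), (9310000, 6490000), (10000000, 4184000)]

theorem sS45_2 : tStep (tAo 22 1837897) 15525590 4473 4099 sn45_2 = true := by decide +kernel

theorem sC45_2 : tCells 45 1837895 1857981 (0, 1) (sn45_2.map Prod.snd) 0 sc45_2 = true := by
  decide +kernel

theorem steps45 {r τ τ' T : ℝ → ℝ} (hr : IsProf r) (h : IsTrans 45 r τ τ' T)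
    (hN : (∫ y in (-1 : ℝ)..1, r y ^ (45 - 1)) ^ 45 * aInt 45 ^ (45 - 1) ≤
      aInt (45 - 1) ^ 45 * (∫ y in (-1 : ℝ)..1, r y ^ 45) ^ (45 - 1)) {x : ℝ}
    (hx : x ∈ Ioo (0 : ℝ) 1) : ApBox3 (((45 : ℕ) : ℝ) * x ^ 2) (lf τ x) := by
  have hτ := h.mem x hx
  have hx0 := hx.1
  have hA : ∀ n a : ℤ, (tAo 22 1837897) n a = true → 0 ≤ n → n ≤ 10000 →
      ∫ t in (0 : ℝ)..((n : ℝ) / 10000), sq t ^ 45 ≤ (a : ℝ) / lsD :=
    (fun n a h0 h1 h2 => tAo_sound (h := 22) (zh := 1837897) ls_hi45 h1 h2 h0)
  refine ⟨fun h1 => ?_, fun h0 h1 => ?_, fun h0 h1 => ?_⟩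
  · have hlt := ls_lt_of (m := 45) (n := 1193) hx0 (by norm_num) h1 (by norm_num)
    exact ls_log_of hx0 hτ.1 (by norm_num) (ls_step0 (m := 45) (by norm_num) (z := 1837895) (z' := 1857981)
      (by norm_num) ls_lo45 ls_hi44 hA (by simp [sc45_0]) (n0 := 596) (nend := 1193) (c := 16484375)
      (u0 := 982468) (by norm_num) (by norm_num) (by norm_num) (by norm_num) sS45_0 sC45_0 hr h hN hx
      hlt) (by rw [lsD_cast]; norm_num)
  · have hlt := ls_lt_of (m := 45) (n := 4100) hx0 (by norm_num) h1 (by norm_num)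
    have hge := ls_ge_of (m := 45) (n := 1192) hx0 (by norm_num) h0 (by norm_num)
    exact ls_log_of hx0 hτ.1 (by norm_num) (ls_step (m := 45) (by norm_num) (z := 1837895) (z' := 1857981)
      (by norm_num) ls_lo45 ls_hi44 hA (by simp [sc45_1]) (n0 := 1192) (nend := 4100) (c := 14917333)
      (by norm_num) sS45_1 sC45_1 hr h hN hx hge hlt) (by rw [lsD_cast]; norm_num)
  · have hlt := ls_lt_of (m := 45) (n := 4473) hx0 (by norm_num) h1 (by norm_num)
    have hge := ls_ge_of (m := 45) (n := 4099) hx0 (by norm_num) h0 (by norm_num)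
    exact ls_log_of hx0 hτ.1 (by norm_num) (ls_step (m := 45) (by norm_num) (z := 1837895) (z' := 1857981)
      (by norm_num) ls_lo45 ls_hi44 hA (by simp [sc45_2]) (n0 := 4099) (nend := 4473) (c := 15525590)
      (by norm_num) sS45_2 sC45_2 hr h hN hx hge hlt) (by rw [lsD_cast]; norm_num)

/-- nodes -/
def sn46_0 : List (ℤ × ℤ × ℤ) :=
    [(606, 589345, 970929), (624, 605842, 998953), (644, 624073, 1028625),
     (666, 644001, 1061593), (690, 665588, 1097859), (716, 688787, 1137421),
     (744, 713549, 1180281), (775, 740687, 1226437), (810, 770965, 1277539),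
     (849, 804237, 1335234), (894, 841998, 1399523), (945, 883950, 1473703),
     (1005, 932114, 1557773), (1076, 987386, 1656679), (1162, 1051744, 1773718),
     (1180, 1064847, 1915484)]

/-- cells -/
def sc46_0 : List (ℤ × ℤ) :=
    [(8983000, 10000000), (9518000, 5490000), (9857000, 3573000), (9994000, 3020000),
     (10000000, 2967000)]

theorem sS46_0 : tStep (tAe 23) 16484375 1180 589 sn46_0 = true := by decide +kernel

theorem sC46_0 : tCells 46 1818448 1837897 (1000 * 589, 970929) (sn46_0.map Prod.snd) 0 sc46_0 = true := by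
  decide +kernel

/-- nodes -/
def sn46_1 : List (ℤ × ℤ × ℤ) :=
    [(1191, 1072790, 1758753), (1205, 1082830, 1776654), (1222, 1094915, 1797538),
     (1242, 1108984, 1822898), (1266, 1125652, 1852732), (1294, 1144801, 1888534),
     (1328, 1167621, 1930302), (1370, 1195150, 1981021), (1422, 1228219, 2043674),
     (1488, 1268565, 2121244), (1573, 1317844, 2219699), (1687, 1379212, 2346496),
     (1845, 1455466, 2516554), (2076, 1549322, 2752247), (2442, 1659445, 3096838),
     (2870, 1739710, 3642812), (3184, 1774391, 4281274), (3429, 1791575, 4749678),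
     (3619, 1800612, 5115153), (3765, 1805645, 5398582), (3877, 1808620, 5616375),
     (3962, 1810456, 5783450), (4027, 1811650, 5910247), (4055, 1812114, 6007209)]

/-- cells -/
def sc46_1 : List (ℤ × ℤ) :=
    [(8107000, 10000000), (8142000, 9820000), (8177000, 9640000), (8213000, 9460000),
     (8249000, 9275000), (8286000, 9090000), (8325000, 8900000), (8366000, 8700000),
     (8409000, 8491000), (8456000, 8272000), (8508000, 8034000), (8568000, 7771000),
     (8641000, 7470000), (8737000, 7107000), (8847000, 6637000), (8954000, 6112000),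
     (9063000, 5620000), (9183000, 5143000), (9333000, 4655000), (9522000, 4113000),
     (9783000, 3563000), (9963000, 3089000), (10000000, 2970000)]

theorem sS46_1 : tStep (tAe 23) 14917333 4055 1179 sn46_1 = true := by decide +kernel

theorem sC46_1 : tCells 46 1818448 1837897 (0, 1) (sn46_1.map Prod.snd) 0 sc46_1 = true := by
  decide +kernel

/-- nodes -/
def sn46_2 : List (ℤ × ℤ × ℤ) :=
    [(4154, 1813538, 6294074), (4231, 1814442, 6449330), (4290, 1815031, 6568877),
     (4335, 1815427, 6660478), (4369, 1815699, 6730343), (4395, 1815892, 6783130),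
     (4415, 1816032, 6823496), (4424, 1816093, 6854547)]

/-- cells -/
def sc46_2 : List (ℤ × ℤ) :=
    [(8082000, 10000000), (8092000, 9949000), (8103000, 9898000), (8114000, 9841000),
     (8126000, 9784000), (8139000, 9722000), (8153000, 9655000), (8167000, 9583000),
     (8182000, 9511000), (8199000, 9434000), (8217000, 9347000), (8237000, 9254000),
     (8259000, 9151000), (8284000, 9038000), (8312000, 8910000), (8344000, 8767000),
     (8383000, 8603000), (8431000, 8404000), (8494000, 8160000), (8583000, 7841000),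
     (8708000, 7395000), (8956000, 6778000), (10000000, 5611000)]

theorem sS46_2 : tStep (tAe 23) 15525590 4424 4054 sn46_2 = true := by decide +kernel

theorem sC46_2 : tCells 46 1818448 1837897 (0, 1) (sn46_2.map Prod.snd) 0 sc46_2 = true := by
  decide +kernel

theorem steps46 {r τ τ' T : ℝ → ℝ} (hr : IsProf r) (h : IsTrans 46 r τ τ' T)
    (hN : (∫ y in (-1 : ℝ)..1, r y ^ (46 - 1)) ^ 46 * aInt 46 ^ (46 - 1) ≤
      aInt (46 - 1) ^ 46 * (∫ y in (-1 : ℝ)..1, r y ^ 46) ^ (46 - 1)) {x : ℝ}
    (hx : x ∈ Ioo (0 : ℝ) 1) : ApBox3 (((46 : ℕ) : ℝ) * x ^ 2) (lf τ x) := by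
  have hτ := h.mem x hx
  have hx0 := hx.1
  have hA : ∀ n a : ℤ, (tAe 23) n a = true → 0 ≤ n → n ≤ 10000 →
      ∫ t in (0 : ℝ)..((n : ℝ) / 10000), sq t ^ 46 ≤ (a : ℝ) / lsD :=
    (fun n a h0 h1 h2 => tAe_sound (h := 23) h1 h2 h0)
  refine ⟨fun h1 => ?_, fun h0 h1 => ?_, fun h0 h1 => ?_⟩
  · have hlt := ls_lt_of (m := 46) (n := 1180) hx0 (by norm_num) h1 (by norm_num)
    exact ls_log_of hx0 hτ.1 (by norm_num) (ls_step0 (m := 46) (by norm_num) (z := 1818448) (z' := 1837897)
      (by norm_num) ls_lo46 ls_hi45 hA (by simp [sc46_0]) (n0 := 589) (nend := 1180) (c := 16484375)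
      (u0 := 970929) (by norm_num) (by norm_num) (by norm_num) (by norm_num) sS46_0 sC46_0 hr h hN hx
      hlt) (by rw [lsD_cast]; norm_num)
  · have hlt := ls_lt_of (m := 46) (n := 4055) hx0 (by norm_num) h1 (by norm_num)
    have hge := ls_ge_of (m := 46) (n := 1179) hx0 (by norm_num) h0 (by norm_num)
    exact ls_log_of hx0 hτ.1 (by norm_num) (ls_step (m := 46) (by norm_num) (z := 1818448) (z' := 1837897)
      (by norm_num) ls_lo46 ls_hi45 hA (by simp [sc46_1]) (n0 := 1179) (nend := 4055) (c := 14917333)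
      (by norm_num) sS46_1 sC46_1 hr h hN hx hge hlt) (by rw [lsD_cast]; norm_num)
  · have hlt := ls_lt_of (m := 46) (n := 4424) hx0 (by norm_num) h1 (by norm_num)
    have hge := ls_ge_of (m := 46) (n := 4054) hx0 (by norm_num) h0 (by norm_num)
    exact ls_log_of hx0 hτ.1 (by norm_num) (ls_step (m := 46) (by norm_num) (z := 1818448) (z' := 1837897)
      (by norm_num) ls_lo46 ls_hi45 hA (by simp [sc46_2]) (n0 := 4054) (nend := 4424) (c := 15525590)
      (by norm_num) sS46_2 sC46_2 hr h hN hx hge hlt) (by rw [lsD_cast]; norm_num)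

/-- nodes -/
def sn47_0 : List (ℤ × ℤ × ℤ) :=
    [(600, 583548, 961039), (618, 600043, 989062), (638, 618269, 1018734),
     (659, 637289, 1051703), (682, 657978, 1086320), (707, 680292, 1124234),
     (735, 705064, 1165445), (766, 732210, 1211601), (800, 761635, 1262703),
     (839, 794923, 1318750), (883, 831863, 1383039), (933, 873022, 1455570),
     (992, 920429, 1537992), (1062, 974987, 1635250), (1146, 1037952, 1750640),
     (1167, 1053255, 1889109)]

/-- cells -/
def sc47_0 : List (ℤ × ℤ) :=
    [(8995000, 10000000), (9523000, 5475000), (9857000, 3549000), (9994000, 2991000),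
     (10000000, 2937000)]

theorem sS47_0 : tStep (tAo 23 1799607) 16484375 1167 583 sn47_0 = true := by decide +kernel

theorem sC47_0 : tCells 47 1799606 1818449 (1000 * 583, 961039) (sn47_0.map Prod.snd) 0 sc47_0 = true := by
  decide +kernel

/-- nodes -/
def sn47_1 : List (ℤ × ℤ × ℤ) :=
    [(1178, 1061201, 1739361), (1192, 1071242, 1757261), (1208, 1082621, 1778146),
     (1227, 1095997, 1802013), (1250, 1111991, 1830356), (1277, 1130489, 1864666),
     (1310, 1152687, 1904943), (1350, 1178984, 1954170), (1400, 1210911, 2013839),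
     (1463, 1249639, 2088426), (1544, 1296969, 2182405), (1652, 1355777, 2303236),
     (1801, 1428960, 2464343), (2017, 1519295, 2686611), (2355, 1626556, 3008826),
     (2817, 1718282, 3513031), (3132, 1754245, 4202212), (3379, 1772096, 4672108),
     (3571, 1781460, 5040566), (3718, 1786634, 5326979), (3831, 1789688, 5546264),
     (3917, 1791571, 5714830), (3983, 1792796, 5843119), (4012, 1793280, 5941573)]

/-- cells -/
def sc47_1 : List (ℤ × ℤ) :=
    [(8126000, 10000000), (8160000, 9825000), (8194000, 9648000), (8228000, 9471000),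
     (8263000, 9294000), (8299000, 9112000), (8336000, 8925000), (8374000, 8734000),
     (8414000, 8537000), (8457000, 8331000), (8504000, 8110000), (8557000, 7869000),
     (8619000, 7599000), (8697000, 7286000), (8789000, 6896000), (8878000, 6443000),
     (8965000, 6016000), (9053000, 5611000), (9146000, 5218000), (9252000, 4825000),
     (9391000, 4409000), (9595000, 3927000), (9852000, 3379000), (9984000, 2995000),
     (10000000, 2937000)]

theorem sS47_1 : tStep (tAo 23 1799607) 14917333 4012 1166 sn47_1 = true := by decide +kernel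

theorem sC47_1 : tCells 47 1799606 1818449 (0, 1) (sn47_1.map Prod.snd) 0 sc47_1 = true := by
  decide +kernel

/-- nodes -/
def sn47_2 : List (ℤ × ℤ × ℤ) :=
    [(4104, 1794621, 6227314), (4177, 1795499, 6371702), (4234, 1796087, 6485038),
     (4278, 1796488, 6573534), (4312, 1796769, 6641847), (4339, 1796976, 6694634),
     (4360, 1797128, 6736553), (4376, 1797238, 6769157)]

/-- cells -/
def sc47_2 : List (ℤ × ℤ) :=
    [(8101000, 10000000), (8110000, 9955000), (8119000, 9908000), (8129000, 9861000),
     (8139000, 9809000), (8150000, 9757000), (8161000, 9700000), (8173000, 9643000),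
     (8186000, 9580000), (8200000, 9512000), (8215000, 9439000), (8231000, 9361000),
     (8248000, 9278000), (8267000, 9190000), (8288000, 9091000), (8311000, 8982000),
     (8337000, 8863000), (8367000, 8728000), (8403000, 8573000), (8447000, 8388000),
     (8504000, 8161000), (8585000, 7869000), (8699000, 7457000), (8894000, 6886000),
     (10000000, 5941000)]

theorem sS47_2 : tStep (tAo 23 1799607) 15525590 4376 4011 sn47_2 = true := by decide +kernel

theorem sC47_2 : tCells 47 1799606 1818449 (0, 1) (sn47_2.map Prod.snd) 0 sc47_2 = true := by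
  decide +kernel

theorem steps47 {r τ τ' T : ℝ → ℝ} (hr : IsProf r) (h : IsTrans 47 r τ τ' T)
    (hN : (∫ y in (-1 : ℝ)..1, r y ^ (47 - 1)) ^ 47 * aInt 47 ^ (47 - 1) ≤
      aInt (47 - 1) ^ 47 * (∫ y in (-1 : ℝ)..1, r y ^ 47) ^ (47 - 1)) {x : ℝ}
    (hx : x ∈ Ioo (0 : ℝ) 1) : ApBox3 (((47 : ℕ) : ℝ) * x ^ 2) (lf τ x) := by
  have hτ := h.mem x hx
  have hx0 := hx.1
  have hA : ∀ n a : ℤ, (tAo 23 1799607) n a = true → 0 ≤ n → n ≤ 10000 →
      ∫ t in (0 : ℝ)..((n : ℝ) / 10000), sq t ^ 47 ≤ (a : ℝ) / lsD :=
    (fun n a h0 h1 h2 => tAo_sound (h := 23) (zh := 1799607) ls_hi47 h1 h2 h0)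
  refine ⟨fun h1 => ?_, fun h0 h1 => ?_, fun h0 h1 => ?_⟩
  · have hlt := ls_lt_of (m := 47) (n := 1167) hx0 (by norm_num) h1 (by norm_num)
    exact ls_log_of hx0 hτ.1 (by norm_num) (ls_step0 (m := 47) (by norm_num) (z := 1799606) (z' := 1818449)
      (by norm_num) ls_lo47 ls_hi46 hA (by simp [sc47_0]) (n0 := 583) (nend := 1167) (c := 16484375)
      (u0 := 961039) (by norm_num) (by norm_num) (by norm_num) (by norm_num) sS47_0 sC47_0 hr h hN hx
      hlt) (by rw [lsD_cast]; norm_num)
  · have hlt := ls_lt_of (m := 47) (n := 4012) hx0 (by norm_num) h1 (by norm_num)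
    have hge := ls_ge_of (m := 47) (n := 1166) hx0 (by norm_num) h0 (by norm_num)
    exact ls_log_of hx0 hτ.1 (by norm_num) (ls_step (m := 47) (by norm_num) (z := 1799606) (z' := 1818449)
      (by norm_num) ls_lo47 ls_hi46 hA (by simp [sc47_1]) (n0 := 1166) (nend := 4012) (c := 14917333)
      (by norm_num) sS47_1 sC47_1 hr h hN hx hge hlt) (by rw [lsD_cast]; norm_num)
  · have hlt := ls_lt_of (m := 47) (n := 4376) hx0 (by norm_num) h1 (by norm_num)
    have hge := ls_ge_of (m := 47) (n := 4011) hx0 (by norm_num) h0 (by norm_num)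
    exact ls_log_of hx0 hτ.1 (by norm_num) (ls_step (m := 47) (by norm_num) (z := 1799606) (z' := 1818449)
      (by norm_num) ls_lo47 ls_hi46 hA (by simp [sc47_2]) (n0 := 4011) (nend := 4376) (c := 15525590)
      (by norm_num) sS47_2 sC47_2 hr h hN hx hge hlt) (by rw [lsD_cast]; norm_num)

end Vale.Agent.P237.AllN
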