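import Vale.Agent.P237.AllN.ApStA
import Vale.Agent.P237.AllN.ApStB

/-!
# P237, all dimensions: the a priori box for `27 ≤ m ≤ 47`
-/

open MeasureTheory Metric Set Module Filter Topology Real

namespace Vale.Agent.P237.AllN

/-- **A priori steps**, `27 ≤ m ≤ 47`, in terms of `q = m x²`. -/
theorem IsTrans.apBox3 {m : ℕ} (hm27 : 27 ≤ m) (hm47 : m ≤ 47) {r τ τ' T : ℝ → ℝ} (hr : IsProf r)
    (h : IsTrans m r τ τ' T)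
    (hN : (∫ y in (-1 : ℝ)..1, r y ^ (m - 1)) ^ m * aInt m ^ (m - 1) ≤
      aInt (m - 1) ^ m * (∫ y in (-1 : ℝ)..1, r y ^ m) ^ (m - 1))
    {x : ℝ} (hx : x ∈ Ioo (0 : ℝ) 1) : ApBox3 ((m : ℝ) * x ^ 2) (lf τ x) := by
  interval_cases m
  · exact steps27 hr h hN hx
  · exact steps28 hr h hN hx
  · exact steps29 hr h hN hx
  · exact steps30 hr h hN hx
  · exact steps31 hr h hN hx
  · exact steps32 hr h hN hx
  · exact steps33 hr h hN hx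
  · exact steps34 hr h hN hx
  · exact steps35 hr h hN hx
  · exact steps36 hr h hN hx
  · exact steps37 hr h hN hx
  · exact steps38 hr h hN hx
  · exact steps39 hr h hN hx
  · exact steps40 hr h hN hx
  · exact steps41 hr h hN hx
  · exact steps42 hr h hN hx
  · exact steps43 hr h hN hx
  · exact steps44 hr h hN hx
  · exact steps45 hr h hN hx
  · exact steps46 hr h hN hx
  · exact steps47 hr h hN hx

section
variable {m : ℕ} {r τ τ' T : ℝ → ℝ} {x : ℝ}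

/-- `l ≤ 1/2` for `√m x ≤ 4/5` -/
theorem IsTrans.ap_half (hm27 : 27 ≤ m) (hm47 : m ≤ 47) (hr : IsProf r)
    (h : IsTrans m r τ τ' T)
    (hN : (∫ y in (-1 : ℝ)..1, r y ^ (m - 1)) ^ m * aInt m ^ (m - 1) ≤
      aInt (m - 1) ^ m * (∫ y in (-1 : ℝ)..1, r y ^ m) ^ (m - 1))
    (hx : x ∈ Ioo (0 : ℝ) 1) (hq : (m : ℝ) * x ^ 2 ≤ 16 / 25) : lf τ x ≤ 1 / 2 :=
  (h.apBox3 hm27 hm47 hr hN hx).1 hq

/-- `l ≤ 2/5` for `4/5 ≤ √m x ≤ 11/4` -/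
theorem IsTrans.ap_twofifth (hm27 : 27 ≤ m) (hm47 : m ≤ 47) (hr : IsProf r)
    (h : IsTrans m r τ τ' T)
    (hN : (∫ y in (-1 : ℝ)..1, r y ^ (m - 1)) ^ m * aInt m ^ (m - 1) ≤
      aInt (m - 1) ^ m * (∫ y in (-1 : ℝ)..1, r y ^ m) ^ (m - 1))
    (hx : x ∈ Ioo (0 : ℝ) 1) (hq0 : 16 / 25 ≤ (m : ℝ) * x ^ 2)
    (hq : (m : ℝ) * x ^ 2 ≤ 121 / 16) : lf τ x ≤ 2 / 5 :=
  (h.apBox3 hm27 hm47 hr hN hx).2.1 hq0 hq

/-- `l ≤ 11/25` for `11/4 ≤ √m x ≤ 3` -/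
theorem IsTrans.ap_last (hm27 : 27 ≤ m) (hm47 : m ≤ 47) (hr : IsProf r)
    (h : IsTrans m r τ τ' T)
    (hN : (∫ y in (-1 : ℝ)..1, r y ^ (m - 1)) ^ m * aInt m ^ (m - 1) ≤
      aInt (m - 1) ^ m * (∫ y in (-1 : ℝ)..1, r y ^ m) ^ (m - 1))
    (hx : x ∈ Ioo (0 : ℝ) 1) (hq0 : 121 / 16 ≤ (m : ℝ) * x ^ 2)
    (hq : (m : ℝ) * x ^ 2 ≤ 9) : lf τ x ≤ 11 / 25 :=
  (h.apBox3 hm27 hm47 hr hN hx).2.2 hq0 hq

end

end Vale.Agent.P237.AllN
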