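import Vale.Agent.P237.AllN.LStarC
import Vale.Agent.P237.AllN.LStarZ2
import Vale.Agent.P237.AllN.Brid3

/-!
# P237, all dimensions: one more a priori step, m = 27, m = 28, m = 29, m = 30
-/

open MeasureTheory Metric Set Module Filter Topology Real

namespace Vale.Agent.P237.AllN

/-- nodes -/
def sqn27 : List (ℤ × ℤ × ℤ) :=
    [(5419, 2343701, 8134468), (5522, 2344541, 8329683), (5606, 2345101, 8488007),
     (5676, 2345494, 8617126), (5734, 2345776, 8724724), (5774, 2345949, 8813878)]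

/-- cells -/
def sqc27 : List (ℤ × ℤ) :=
    [(7514000, 10000000), (7536000, 9946000), (7572000, 9860000), (7633000, 9720000),
     (7735000, 9484000), (7905000, 9092000), (8386000, 8449000), (10000000, 6733000)]

theorem sqS27 : tStep (tAo 13 2347493) 15371256 5774 5292 sqn27 = true := by decide +kernel

theorem sqC27 : tCells 27 2347491 2389779 (0, 1) (sqn27.map Prod.snd) 0 sqc27 = true := by
  decide +kernel

theorem sq27 {r τ τ' T : ℝ → ℝ} (hr : IsProf r) (h : IsTrans 27 r τ τ' T)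
    (hN : (∫ y in (-1 : ℝ)..1, r y ^ (27 - 1)) ^ 27 * aInt 27 ^ (27 - 1) ≤
      aInt (27 - 1) ^ 27 * (∫ y in (-1 : ℝ)..1, r y ^ 27) ^ (27 - 1)) {x : ℝ}
    (hx : x ∈ Ioo (0 : ℝ) 1) (h0 : 121 / 16 ≤ ((27 : ℕ) : ℝ) * x ^ 2)
    (h1 : ((27 : ℕ) : ℝ) * x ^ 2 ≤ 9) : lf τ x ≤ 43 / 100 := by
  have hτ := h.mem x hx
  have hx0 := hx.1
  have hA : ∀ n a : ℤ, (tAo 13 2347493) n a = true → 0 ≤ n → n ≤ 10000 →
      ∫ t in (0 : ℝ)..((n : ℝ) / 10000), sq t ^ 27 ≤ (a : ℝ) / lsD :=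
    (fun n a h0 h1 h2 => tAo_sound (h := 13) (zh := 2347493) ls_hi27 h1 h2 h0)
  have hlt := ls_lt_of (m := 27) (n := 5774) hx0 (by norm_num) h1 (by norm_num)
  have hge := ls_ge_of (m := 27) (n := 5292) hx0 (by norm_num) h0 (by norm_num)
  exact ls_log_of hx0 hτ.1 (by norm_num) (ls_step (m := 27) (by norm_num) (z := 2347491) (z' := 2389779)
    (by norm_num) ls_lo27 ls_hi26 hA (by simp [sqc27]) (n0 := 5292) (nend := 5774) (c := 15371256)
    (by norm_num) sqS27 sqC27 hr h hN hx hge hlt) (by rw [lsD_cast]; norm_num)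

/-- nodes -/
def sqn28 : List (ℤ × ℤ × ℤ) :=
    [(5312, 2303316, 7988441), (5404, 2304123, 8165211), (5479, 2304673, 8306626),
     (5540, 2305059, 8421911), (5590, 2305338, 8515675), (5631, 2305544, 8592532),
     (5670, 2305723, 8655554)]

/-- cells -/
def sqc28 : List (ℤ × ℤ) :=
    [(7553000, 10000000), (7567000, 9962000), (7589000, 9907000), (7624000, 9819000),
     (7683000, 9681000), (7784000, 9448000), (7945000, 9052000), (8325000, 8430000),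
     (10000000, 7026000)]

theorem sqS28 : tStep (tAe 14) 15371256 5670 5197 sqn28 = true := by decide +kernel

theorem sqC28 : tCells 28 2307372 2347493 (0, 1) (sqn28.map Prod.snd) 0 sqc28 = true := by
  decide +kernel

theorem sq28 {r τ τ' T : ℝ → ℝ} (hr : IsProf r) (h : IsTrans 28 r τ τ' T)
    (hN : (∫ y in (-1 : ℝ)..1, r y ^ (28 - 1)) ^ 28 * aInt 28 ^ (28 - 1) ≤
      aInt (28 - 1) ^ 28 * (∫ y in (-1 : ℝ)..1, r y ^ 28) ^ (28 - 1)) {x : ℝ}
    (hx : x ∈ Ioo (0 : ℝ) 1) (h0 : 121 / 16 ≤ ((28 : ℕ) : ℝ) * x ^ 2)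
    (h1 : ((28 : ℕ) : ℝ) * x ^ 2 ≤ 9) : lf τ x ≤ 43 / 100 := by
  have hτ := h.mem x hx
  have hx0 := hx.1
  have hA : ∀ n a : ℤ, (tAe 14) n a = true → 0 ≤ n → n ≤ 10000 →
      ∫ t in (0 : ℝ)..((n : ℝ) / 10000), sq t ^ 28 ≤ (a : ℝ) / lsD :=
    (fun n a h0 h1 h2 => tAe_sound (h := 14) h1 h2 h0)
  have hlt := ls_lt_of (m := 28) (n := 5670) hx0 (by norm_num) h1 (by norm_num)
  have hge := ls_ge_of (m := 28) (n := 5197) hx0 (by norm_num) h0 (by norm_num)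
  exact ls_log_of hx0 hτ.1 (by norm_num) (ls_step (m := 28) (by norm_num) (z := 2307372) (z' := 2347493)
    (by norm_num) ls_lo28 ls_hi27 hA (by simp [sqc28]) (n0 := 5197) (nend := 5670) (c := 15371256)
    (by norm_num) sqS28 sqC28 hr h hN hx hge hlt) (by rw [lsD_cast]; norm_num)

/-- nodes -/
def sqn29 : List (ℤ × ℤ × ℤ) :=
    [(5206, 2264990, 7848563), (5288, 2265754, 8002275), (5355, 2266286, 8128320),
     (5410, 2266669, 8231307), (5455, 2266949, 8315849), (5492, 2267159, 8385020),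
     (5523, 2267321, 8441893), (5548, 2267444, 8489544), (5571, 2267551, 8527972)]

/-- cells -/
def sqc29 : List (ℤ × ℤ) :=
    [(7587000, 10000000), (7590000, 9991000), (7594000, 9979000), (7600000, 9963000),
     (7609000, 9938000), (7622000, 9902000), (7641000, 9849000), (7670000, 9773000),
     (7717000, 9656000), (7798000, 9466000), (7929000, 9142000), (8163000, 8623000),
     (10000000, 7717000)]

theorem sqS29 : tStep (tAo 14 2269243) 15371256 5571 5106 sqn29 = true := by decide +kernel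

theorem sqC29 : tCells 29 2269241 2307373 (0, 1) (sqn29.map Prod.snd) 0 sqc29 = true := by
  decide +kernel

theorem sq29 {r τ τ' T : ℝ → ℝ} (hr : IsProf r) (h : IsTrans 29 r τ τ' T)
    (hN : (∫ y in (-1 : ℝ)..1, r y ^ (29 - 1)) ^ 29 * aInt 29 ^ (29 - 1) ≤
      aInt (29 - 1) ^ 29 * (∫ y in (-1 : ℝ)..1, r y ^ 29) ^ (29 - 1)) {x : ℝ}
    (hx : x ∈ Ioo (0 : ℝ) 1) (h0 : 121 / 16 ≤ ((29 : ℕ) : ℝ) * x ^ 2)
    (h1 : ((29 : ℕ) : ℝ) * x ^ 2 ≤ 9) : lf τ x ≤ 43 / 100 := by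
  have hτ := h.mem x hx
  have hx0 := hx.1
  have hA : ∀ n a : ℤ, (tAo 14 2269243) n a = true → 0 ≤ n → n ≤ 10000 →
      ∫ t in (0 : ℝ)..((n : ℝ) / 10000), sq t ^ 29 ≤ (a : ℝ) / lsD :=
    (fun n a h0 h1 h2 => tAo_sound (h := 14) (zh := 2269243) ls_hi29 h1 h2 h0)
  have hlt := ls_lt_of (m := 29) (n := 5571) hx0 (by norm_num) h1 (by norm_num)
  have hge := ls_ge_of (m := 29) (n := 5106) hx0 (by norm_num) h0 (by norm_num)
  exact ls_log_of hx0 hτ.1 (by norm_num) (ls_step (m := 29) (by norm_num) (z := 2269241) (z' := 2307373)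
    (by norm_num) ls_lo29 ls_hi28 hA (by simp [sqc29]) (n0 := 5106) (nend := 5571) (c := 15371256)
    (by norm_num) sqS29 sqC29 hr h hN hx hge hlt) (by rw [lsD_cast]; norm_num)

/-- nodes -/
def sqn30 : List (ℤ × ℤ × ℤ) :=
    [(5126, 2228615, 7716370), (5210, 2229410, 7879305), (5277, 2229950, 8008424),
     (5331, 2230331, 8111411), (5373, 2230596, 8194416), (5407, 2230794, 8258975),
     (5434, 2230940, 8311238), (5455, 2231048, 8352740), (5472, 2231131, 8385020),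
     (5478, 2231160, 8411151)]

/-- cells -/
def sqc30 : List (ℤ × ℤ) :=
    [(7629000, 10000000), (7635000, 9980000), (7644000, 9955000), (7656000, 9918000),
     (7673000, 9868000), (7697000, 9798000), (7732000, 9700000), (7786000, 9556000),
     (7872000, 9335000), (8004000, 8985000), (8244000, 8453000), (10000000, 7512000)]

theorem sqS30 : tStep (tAe 15) 15371256 5478 5020 sqn30 = true := by decide +kernel

theorem sqC30 : tCells 30 2232941 2269243 (0, 1) (sqn30.map Prod.snd) 0 sqc30 = true := by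
  decide +kernel

theorem sq30 {r τ τ' T : ℝ → ℝ} (hr : IsProf r) (h : IsTrans 30 r τ τ' T)
    (hN : (∫ y in (-1 : ℝ)..1, r y ^ (30 - 1)) ^ 30 * aInt 30 ^ (30 - 1) ≤
      aInt (30 - 1) ^ 30 * (∫ y in (-1 : ℝ)..1, r y ^ 30) ^ (30 - 1)) {x : ℝ}
    (hx : x ∈ Ioo (0 : ℝ) 1) (h0 : 121 / 16 ≤ ((30 : ℕ) : ℝ) * x ^ 2)
    (h1 : ((30 : ℕ) : ℝ) * x ^ 2 ≤ 9) : lf τ x ≤ 43 / 100 := by
  have hτ := h.mem x hx
  have hx0 := hx.1
  have hA : ∀ n a : ℤ, (tAe 15) n a = true → 0 ≤ n → n ≤ 10000 →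
      ∫ t in (0 : ℝ)..((n : ℝ) / 10000), sq t ^ 30 ≤ (a : ℝ) / lsD :=
    (fun n a h0 h1 h2 => tAe_sound (h := 15) h1 h2 h0)
  have hlt := ls_lt_of (m := 30) (n := 5478) hx0 (by norm_num) h1 (by norm_num)
  have hge := ls_ge_of (m := 30) (n := 5020) hx0 (by norm_num) h0 (by norm_num)
  exact ls_log_of hx0 hτ.1 (by norm_num) (ls_step (m := 30) (by norm_num) (z := 2232941) (z' := 2269243)
    (by norm_num) ls_lo30 ls_hi29 hA (by simp [sqc30]) (n0 := 5020) (nend := 5478) (c := 15371256)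
    (by norm_num) sqS30 sqC30 hr h hN hx hge hlt) (by rw [lsD_cast]; norm_num)

/-- `l ≤ 43/100` for `11/4 ≤ √m x ≤ 3`, `27 ≤ m ≤ 30` -/
theorem IsTrans.ap_last' {m : ℕ} (hm27 : 27 ≤ m) (hm30 : m ≤ 30) {r τ τ' T : ℝ → ℝ}
    (hr : IsProf r) (h : IsTrans m r τ τ' T)
    (hN : (∫ y in (-1 : ℝ)..1, r y ^ (m - 1)) ^ m * aInt m ^ (m - 1) ≤
      aInt (m - 1) ^ m * (∫ y in (-1 : ℝ)..1, r y ^ m) ^ (m - 1)) {x : ℝ}
    (hx : x ∈ Ioo (0 : ℝ) 1) (hq0 : 121 / 16 ≤ (m : ℝ) * x ^ 2)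
    (hq : (m : ℝ) * x ^ 2 ≤ 9) : lf τ x ≤ 43 / 100 := by
  interval_cases m
  · exact sq27 hr h hN hx hq0 hq
  · exact sq28 hr h hN hx hq0 hq
  · exact sq29 hr h hN hx hq0 hq
  · exact sq30 hr h hN hx hq0 hq

end Vale.Agent.P237.AllN
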