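import Vale.Agent.P237.AllN.LStarC
import Vale.Agent.P237.AllN.LStarZ2
import Vale.Agent.P237.AllN.Brid3

/-!
# P237, all dimensions: a priori steps, `27 ≤ m ≤ 38`
-/

open MeasureTheory Metric Set Module Filter Topology Real

namespace Vale.Agent.P237.AllN

/-- nodes -/
def sn27_0 : List (ℤ × ℤ × ℤ) :=
    [(796, 774202, 1267648), (825, 800732, 1312156), (857, 829808, 1359960),
     (892, 861362, 1412710), (930, 895318, 1470406), (972, 932470, 1533046),
     (1019, 973556, 1602281), (1072, 1019246, 1679757), (1132, 1070121, 1767125),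
     (1201, 1127468, 1866031), (1281, 1192342, 1979773), (1376, 1267038, 2111648),
     (1491, 1353920, 2268250), (1540, 1389727, 2457820)]

/-- cells -/
def sc27_0 : List (ℤ × ℤ) :=
    [(8709000, 10000000), (9457000, 5726000), (9911000, 4143000), (10000000, 3811000)]

theorem sS27_0 : tStep (tAo 13 2347493) 16484375 1540 769 sn27_0 = true := by decide +kernel

theorem sC27_0 : tCells 27 2347491 2389779 (1000 * 769, 1267648) (sn27_0.map Prod.snd) 0 sc27_0 = true := by
  decide +kernel

/-- nodes -/
def sn27_1 : List (ℤ × ℤ × ℤ) :=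
    [(1558, 1402695, 2295777), (1579, 1417698, 2324120), (1603, 1434676, 2355446),
     (1631, 1454256, 2391248), (1663, 1476331, 2433017), (1700, 1501452, 2480752),
     (1743, 1530100, 2535946), (1794, 1563309, 2600091), (1855, 1601931, 2676169),
     (1928, 1646569, 2767165), (2017, 1698654, 2876061), (2128, 1760019, 3008826),
     (2270, 1832748, 3174408), (2457, 1918825, 3386234), (2713, 2019516, 3665188),
     (3083, 2132951, 4047072), (3582, 2235423, 4599013), (3972, 2284510, 5343388),
     (4292, 2310172, 5925164), (4551, 2323941, 6402519), (4758, 2331605, 6788878),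
     (4923, 2336087, 7097667), (5054, 2338829, 7343803), (5157, 2340567, 7539220),
     (5238, 2341714, 7692868), (5293, 2342396, 7813699)]

/-- cells -/
def sc27_1 : List (ℤ × ℤ) :=
    [(7540000, 10000000), (7588000, 9845000), (7649000, 9658000), (7726000, 9423000),
     (7833000, 9127000), (7989000, 8720000), (8198000, 8136000), (8426000, 7380000),
     (8664000, 6601000), (8956000, 5857000), (9390000, 5072000), (9834000, 4234000),
     (10000000, 3833000)]

theorem sS27_1 : tStep (tAo 13 2347493) 14917333 5293 1539 sn27_1 = true := by decide +kernel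

theorem sC27_1 : tCells 27 2347491 2389779 (0, 1) (sn27_1.map Prod.snd) 0 sc27_1 = true := by
  decide +kernel

/-- nodes -/
def sn27_2 : List (ℤ × ℤ × ℤ) :=
    [(5444, 2343922, 8216142), (5570, 2344874, 8452131), (5675, 2345489, 8647753),
     (5774, 2345949, 8810772)]

/-- cells -/
def sc27_2 : List (ℤ × ℤ) :=
    [(7516000, 10000000), (7543000, 9938000), (7589000, 9833000), (7677000, 9654000),
     (7822000, 9315000), (8138000, 8761000), (10000000, 7594000)]

theorem sS27_2 : tStep (tAo 13 2347493) 15525590 5774 5292 sn27_2 = true := by decide +kernel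

theorem sC27_2 : tCells 27 2347491 2389779 (0, 1) (sn27_2.map Prod.snd) 0 sc27_2 = true := by
  decide +kernel

theorem steps27 {r τ τ' T : ℝ → ℝ} (hr : IsProf r) (h : IsTrans 27 r τ τ' T)
    (hN : (∫ y in (-1 : ℝ)..1, r y ^ (27 - 1)) ^ 27 * aInt 27 ^ (27 - 1) ≤
      aInt (27 - 1) ^ 27 * (∫ y in (-1 : ℝ)..1, r y ^ 27) ^ (27 - 1)) {x : ℝ}
    (hx : x ∈ Ioo (0 : ℝ) 1) : ApBox3 (((27 : ℕ) : ℝ) * x ^ 2) (lf τ x) := by
  have hτ := h.mem x hx
  have hx0 := hx.1
  have hA : ∀ n a : ℤ, (tAo 13 2347493) n a = true → 0 ≤ n → n ≤ 10000 →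
      ∫ t in (0 : ℝ)..((n : ℝ) / 10000), sq t ^ 27 ≤ (a : ℝ) / lsD :=
    (fun n a h0 h1 h2 => tAo_sound (h := 13) (zh := 2347493) ls_hi27 h1 h2 h0)
  refine ⟨fun h1 => ?_, fun h0 h1 => ?_, fun h0 h1 => ?_⟩
  · have hlt := ls_lt_of (m := 27) (n := 1540) hx0 (by norm_num) h1 (by norm_num)
    exact ls_log_of hx0 hτ.1 (by norm_num) (ls_step0 (m := 27) (by norm_num) (z := 2347491) (z' := 2389779)
      (by norm_num) ls_lo27 ls_hi26 hA (by simp [sc27_0]) (n0 := 769) (nend := 1540) (c := 16484375)
      (u0 := 1267648) (by norm_num) (by norm_num) (by norm_num) (by norm_num) sS27_0 sC27_0 hr h hN hx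
      hlt) (by rw [lsD_cast]; norm_num)
  · have hlt := ls_lt_of (m := 27) (n := 5293) hx0 (by norm_num) h1 (by norm_num)
    have hge := ls_ge_of (m := 27) (n := 1539) hx0 (by norm_num) h0 (by norm_num)
    exact ls_log_of hx0 hτ.1 (by norm_num) (ls_step (m := 27) (by norm_num) (z := 2347491) (z' := 2389779)
      (by norm_num) ls_lo27 ls_hi26 hA (by simp [sc27_1]) (n0 := 1539) (nend := 5293) (c := 14917333)
      (by norm_num) sS27_1 sC27_1 hr h hN hx hge hlt) (by rw [lsD_cast]; norm_num)
  · have hlt := ls_lt_of (m := 27) (n := 5774) hx0 (by norm_num) h1 (by norm_num)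
    have hge := ls_ge_of (m := 27) (n := 5292) hx0 (by norm_num) h0 (by norm_num)
    exact ls_log_of hx0 hτ.1 (by norm_num) (ls_step (m := 27) (by norm_num) (z := 2347491) (z' := 2389779)
      (by norm_num) ls_lo27 ls_hi26 hA (by simp [sc27_2]) (n0 := 5292) (nend := 5774) (c := 15525590)
      (by norm_num) sS27_2 sC27_2 hr h hN hx hge hlt) (by rw [lsD_cast]; norm_num)

/-- nodes -/
def sn28_0 : List (ℤ × ℤ × ℤ) :=
    [(781, 759289, 1244570), (809, 784911, 1287429), (840, 813087, 1333585),
     (874, 843753, 1384687), (911, 876833, 1440734), (952, 913123, 1501726),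
     (998, 953365, 1569312), (1049, 997373, 1645140), (1107, 1046616, 1729210),
     (1173, 1101570, 1824820), (1250, 1164169, 1933617), (1341, 1235966, 2060546),
     (1451, 1319469, 2210554), (1512, 1364177, 2391882)]

/-- cells -/
def sc28_0 : List (ℤ × ℤ) :=
    [(8735000, 10000000), (9467000, 5687000), (9910000, 4087000), (10000000, 3749000)]

theorem sS28_0 : tStep (tAe 14) 16484375 1512 755 sn28_0 = true := by decide +kernel

theorem sC28_0 : tCells 28 2307372 2347493 (1000 * 755, 1244570) (sn28_0.map Prod.snd) 0 sc28_0 = true := by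
  decide +kernel

/-- nodes -/
def sn28_1 : List (ℤ × ℤ × ℤ) :=
    [(1535, 1380733, 2254009), (1563, 1400662, 2289810), (1597, 1424527, 2331579),
     (1637, 1452131, 2382298), (1686, 1485243, 2441967), (1746, 1524727, 2515062),
     (1821, 1572426, 2604566), (1916, 1630190, 2716446), (2040, 1701109, 2858161),
     (2208, 1789146, 3043135), (2445, 1897929, 3293747), (2802, 2029672, 3647287),
     (3394, 2174973, 4179836), (3841, 2238202, 5062942), (4190, 2268171, 5729747),
     (4466, 2283383, 6250362), (4683, 2291524, 6662080), (4854, 2296156, 6985787),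
     (4988, 2298923, 7240873), (5093, 2300659, 7440765), (5174, 2301779, 7597397),
     (5198, 2302078, 7718228)]

/-- cells -/
def sc28_1 : List (ℤ × ℤ) :=
    [(7577000, 10000000), (7616000, 9867000), (7663000, 9712000), (7720000, 9527000),
     (7793000, 9303000), (7895000, 9017000), (8040000, 8622000), (8221000, 8069000),
     (8392000, 7398000), (8559000, 6792000), (8730000, 6232000), (8922000, 5701000),
     (9175000, 5167000), (9588000, 4579000), (9920000, 3946000), (10000000, 3747000)]

theorem sS28_1 : tStep (tAe 14) 14917333 5198 1511 sn28_1 = true := by decide +kernel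

theorem sC28_1 : tCells 28 2307372 2347493 (0, 1) (sn28_1.map Prod.snd) 0 sc28_1 = true := by
  decide +kernel

/-- nodes -/
def sn28_2 : List (ℤ × ℤ × ℤ) :=
    [(5333, 2303514, 8068649), (5444, 2304428, 8279797), (5535, 2305029, 8452131),
     (5611, 2305446, 8593414), (5670, 2305723, 8711408)]

/-- cells -/
def sc28_2 : List (ℤ × ℤ) :=
    [(7577000, 10000000), (7630000, 9867000), (7716000, 9657000), (7854000, 9318000),
     (8112000, 8780000), (10000000, 7799000)]

theorem sS28_2 : tStep (tAe 14) 15525590 5670 5197 sn28_2 = true := by decide +kernel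

theorem sC28_2 : tCells 28 2307372 2347493 (0, 1) (sn28_2.map Prod.snd) 0 sc28_2 = true := by
  decide +kernel

theorem steps28 {r τ τ' T : ℝ → ℝ} (hr : IsProf r) (h : IsTrans 28 r τ τ' T)
    (hN : (∫ y in (-1 : ℝ)..1, r y ^ (28 - 1)) ^ 28 * aInt 28 ^ (28 - 1) ≤
      aInt (28 - 1) ^ 28 * (∫ y in (-1 : ℝ)..1, r y ^ 28) ^ (28 - 1)) {x : ℝ}
    (hx : x ∈ Ioo (0 : ℝ) 1) : ApBox3 (((28 : ℕ) : ℝ) * x ^ 2) (lf τ x) := by
  have hτ := h.mem x hx
  have hx0 := hx.1
  have hA : ∀ n a : ℤ, (tAe 14) n a = true → 0 ≤ n → n ≤ 10000 →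
      ∫ t in (0 : ℝ)..((n : ℝ) / 10000), sq t ^ 28 ≤ (a : ℝ) / lsD :=
    (fun n a h0 h1 h2 => tAe_sound (h := 14) h1 h2 h0)
  refine ⟨fun h1 => ?_, fun h0 h1 => ?_, fun h0 h1 => ?_⟩
  · have hlt := ls_lt_of (m := 28) (n := 1512) hx0 (by norm_num) h1 (by norm_num)
    exact ls_log_of hx0 hτ.1 (by norm_num) (ls_step0 (m := 28) (by norm_num) (z := 2307372) (z' := 2347493)
      (by norm_num) ls_lo28 ls_hi27 hA (by simp [sc28_0]) (n0 := 755) (nend := 1512) (c := 16484375)
      (u0 := 1244570) (by norm_num) (by norm_num) (by norm_num) (by norm_num) sS28_0 sC28_0 hr h hN hx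
      hlt) (by rw [lsD_cast]; norm_num)
  · have hlt := ls_lt_of (m := 28) (n := 5198) hx0 (by norm_num) h1 (by norm_num)
    have hge := ls_ge_of (m := 28) (n := 1511) hx0 (by norm_num) h0 (by norm_num)
    exact ls_log_of hx0 hτ.1 (by norm_num) (ls_step (m := 28) (by norm_num) (z := 2307372) (z' := 2347493)
      (by norm_num) ls_lo28 ls_hi27 hA (by simp [sc28_1]) (n0 := 1511) (nend := 5198) (c := 14917333)
      (by norm_num) sS28_1 sC28_1 hr h hN hx hge hlt) (by rw [lsD_cast]; norm_num)
  · have hlt := ls_lt_of (m := 28) (n := 5670) hx0 (by norm_num) h1 (by norm_num)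
    have hge := ls_ge_of (m := 28) (n := 5197) hx0 (by norm_num) h0 (by norm_num)
    exact ls_log_of hx0 hτ.1 (by norm_num) (ls_step (m := 28) (by norm_num) (z := 2307372) (z' := 2347493)
      (by norm_num) ls_lo28 ls_hi27 hA (by simp [sc28_2]) (n0 := 5197) (nend := 5670) (c := 15525590)
      (by norm_num) sS28_2 sC28_2 hr h hN hx hge hlt) (by rw [lsD_cast]; norm_num)

/-- nodes -/
def sn29_0 : List (ℤ × ℤ × ℤ) :=
    [(768, 746914, 1223140), (796, 772531, 1266000), (826, 799794, 1312156),
     (859, 829555, 1361609), (895, 861742, 1416007), (935, 897150, 1475351),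
     (979, 935654, 1541289), (1029, 978822, 1613820), (1085, 1026402, 1696242),
     (1149, 1079748, 1788554), (1224, 1140808, 1894054), (1312, 1210373, 2017687),
     (1418, 1291066, 2162750), (1486, 1340990, 2337484)]

/-- cells -/
def sc29_0 : List (ℤ × ℤ) :=
    [(8757000, 10000000), (9473000, 5657000), (9906000, 4039000), (10000000, 3691000)]

theorem sS29_0 : tStep (tAo 14 2269243) 16484375 1486 742 sn29_0 = true := by decide +kernel

theorem sC29_0 : tCells 29 2269241 2307373 (1000 * 742, 1223140) (sn29_0.map Prod.snd) 0 sc29_0 = true := by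
  decide +kernel

/-- nodes -/
def sn29_1 : List (ℤ × ℤ × ℤ) :=
    [(1508, 1356828, 2215223), (1535, 1376053, 2249533), (1567, 1398534, 2289810),
     (1605, 1424797, 2337546), (1651, 1455957, 2394231), (1708, 1493600, 2462851),
     (1779, 1538979, 2547880), (1869, 1594081, 2653793), (1986, 1661652, 2788049),
     (2143, 1745141, 2962582), (2363, 1848530, 3196784), (2690, 1974320, 3524965),
     (3223, 2116622, 4012762), (3692, 2191211, 4807856), (4053, 2225638, 5507479),
     (4338, 2242907, 6045995), (4562, 2252055, 6471139), (4737, 2257172, 6805287),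
     (4874, 2260208, 7066340), (4981, 2262098, 7270708), (5063, 2263304, 7430323),
     (5107, 2263876, 7552645)]

/-- cells -/
def sc29_1 : List (ℤ × ℤ) :=
    [(7618000, 10000000), (7656000, 9865000), (7699000, 9712000), (7750000, 9539000),
     (7813000, 9334000), (7894000, 9082000), (8007000, 8761000), (8164000, 8317000),
     (8352000, 7714000), (8548000, 7016000), (8752000, 6329000), (8967000, 5673000),
     (9234000, 5061000), (9643000, 4442000), (9939000, 3843000), (10000000, 3684000)]

theorem sS29_1 : tStep (tAo 14 2269243) 14917333 5107 1485 sn29_1 = true := by decide +kernel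

theorem sC29_1 : tCells 29 2269241 2307373 (0, 1) (sn29_1.map Prod.snd) 0 sc29_1 = true := by
  decide +kernel

/-- nodes -/
def sn29_2 : List (ℤ × ℤ × ℤ) :=
    [(5246, 2265379, 7927366), (5359, 2266316, 8144724), (5449, 2266913, 8320163),
     (5522, 2267316, 8459893), (5571, 2267551, 8573230)]

/-- cells -/
def sc29_2 : List (ℤ × ℤ) :=
    [(7603000, 10000000), (7629000, 9926000), (7666000, 9821000), (7723000, 9672000),
     (7815000, 9442000), (7958000, 9074000), (8252000, 8509000), (10000000, 7383000)]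

theorem sS29_2 : tStep (tAo 14 2269243) 15525590 5571 5106 sn29_2 = true := by decide +kernel

theorem sC29_2 : tCells 29 2269241 2307373 (0, 1) (sn29_2.map Prod.snd) 0 sc29_2 = true := by
  decide +kernel

theorem steps29 {r τ τ' T : ℝ → ℝ} (hr : IsProf r) (h : IsTrans 29 r τ τ' T)
    (hN : (∫ y in (-1 : ℝ)..1, r y ^ (29 - 1)) ^ 29 * aInt 29 ^ (29 - 1) ≤
      aInt (29 - 1) ^ 29 * (∫ y in (-1 : ℝ)..1, r y ^ 29) ^ (29 - 1)) {x : ℝ}
    (hx : x ∈ Ioo (0 : ℝ) 1) : ApBox3 (((29 : ℕ) : ℝ) * x ^ 2) (lf τ x) := by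
  have hτ := h.mem x hx
  have hx0 := hx.1
  have hA : ∀ n a : ℤ, (tAo 14 2269243) n a = true → 0 ≤ n → n ≤ 10000 →
      ∫ t in (0 : ℝ)..((n : ℝ) / 10000), sq t ^ 29 ≤ (a : ℝ) / lsD :=
    (fun n a h0 h1 h2 => tAo_sound (h := 14) (zh := 2269243) ls_hi29 h1 h2 h0)
  refine ⟨fun h1 => ?_, fun h0 h1 => ?_, fun h0 h1 => ?_⟩
  · have hlt := ls_lt_of (m := 29) (n := 1486) hx0 (by norm_num) h1 (by norm_num)
    exact ls_log_of hx0 hτ.1 (by norm_num) (ls_step0 (m := 29) (by norm_num) (z := 2269241) (z' := 2307373)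
      (by norm_num) ls_lo29 ls_hi28 hA (by simp [sc29_0]) (n0 := 742) (nend := 1486) (c := 16484375)
      (u0 := 1223140) (by norm_num) (by norm_num) (by norm_num) (by norm_num) sS29_0 sC29_0 hr h hN hx
      hlt) (by rw [lsD_cast]; norm_num)
  · have hlt := ls_lt_of (m := 29) (n := 5107) hx0 (by norm_num) h1 (by norm_num)
    have hge := ls_ge_of (m := 29) (n := 1485) hx0 (by norm_num) h0 (by norm_num)
    exact ls_log_of hx0 hτ.1 (by norm_num) (ls_step (m := 29) (by norm_num) (z := 2269241) (z' := 2307373)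
      (by norm_num) ls_lo29 ls_hi28 hA (by simp [sc29_1]) (n0 := 1485) (nend := 5107) (c := 14917333)
      (by norm_num) sS29_1 sC29_1 hr h hN hx hge hlt) (by rw [lsD_cast]; norm_num)
  · have hlt := ls_lt_of (m := 29) (n := 5571) hx0 (by norm_num) h1 (by norm_num)
    have hge := ls_ge_of (m := 29) (n := 5106) hx0 (by norm_num) h0 (by norm_num)
    exact ls_log_of hx0 hτ.1 (by norm_num) (ls_step (m := 29) (by norm_num) (z := 2269241) (z' := 2307373)
      (by norm_num) ls_lo29 ls_hi28 hA (by simp [sc29_2]) (n0 := 5106) (nend := 5571) (c := 15525590)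
      (by norm_num) sS29_2 sC29_2 hr h hN hx hge hlt) (by rw [lsD_cast]; norm_num)

/-- nodes -/
def sn30_0 : List (ℤ × ℤ × ℤ) :=
    [(755, 733988, 1203359), (782, 758693, 1244570), (811, 785052, 1289078),
     (843, 813921, 1336882), (878, 845229, 1389632), (916, 878891, 1447328),
     (959, 916558, 1509968), (1007, 958051, 1580851), (1061, 1004009, 1659976),
     (1123, 1055797, 1748992), (1195, 1114575, 1851195), (1279, 1181225, 1969882),
     (1380, 1258514, 2108351), (1461, 1318173, 2274843)]

/-- cells -/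
def sc30_0 : List (ℤ × ℤ) :=
    [(8782000, 10000000), (9484000, 5617000), (9907000, 3985000), (10000000, 3634000)]

theorem sS30_0 : tStep (tAe 15) 16484375 1461 730 sn30_0 = true := by decide +kernel

theorem sC30_0 : tCells 30 2232941 2269243 (1000 * 730, 1203359) (sn30_0.map Prod.snd) 0 sc30_0 = true := by
  decide +kernel

/-- nodes -/
def sn30_1 : List (ℤ × ℤ × ℤ) :=
    [(1482, 1333295, 2177930), (1508, 1351819, 2210748), (1539, 1373615, 2249533),
     (1576, 1399214, 2295777), (1621, 1429734, 2350971), (1676, 1466115, 2418099),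
     (1744, 1509684, 2500145), (1830, 1562537, 2601582), (1941, 1627030, 2729871),
     (2090, 1707024, 2895454), (2298, 1806287, 3117722), (2605, 1927570, 3428003),
     (3099, 2066622, 3885965), (3581, 2149044, 4622881), (3948, 2186388, 5341896),
     (4237, 2204978, 5889363), (4463, 2214740, 6320473), (4640, 2220198, 6657605),
     (4778, 2223417, 6921642), (4885, 2225404, 7127501), (4968, 2226687, 7287117),
     (5021, 2227404, 7410931)]

/-- cells -/
def sc30_1 : List (ℤ × ℤ) :=
    [(7661000, 10000000), (7702000, 9848000), (7749000, 9679000), (7804000, 9486000),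
     (7870000, 9261000), (7953000, 8993000), (8068000, 8658000), (8225000, 8199000),
     (8404000, 7585000), (8588000, 6911000), (8795000, 6255000), (9025000, 5577000),
     (9305000, 4919000), (9708000, 4283000), (9960000, 3738000), (10000000, 3625000)]

theorem sS30_1 : tStep (tAe 15) 14917333 5021 1460 sn30_1 = true := by decide +kernel

theorem sC30_1 : tCells 30 2232941 2269243 (0, 1) (sn30_1.map Prod.snd) 0 sc30_1 = true := by
  decide +kernel

/-- nodes -/
def sn30_2 : List (ℤ × ℤ × ℤ) :=
    [(5158, 2228935, 7793846), (5268, 2229882, 8008099), (5355, 2230486, 8178880),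
     (5424, 2230887, 8313953), (5478, 2231160, 8421080)]

/-- cells -/
def sc30_2 : List (ℤ × ℤ) :=
    [(7637000, 10000000), (7655000, 9947000), (7681000, 9872000), (7718000, 9765000),
     (7775000, 9613000), (7864000, 9380000), (7999000, 9017000), (8254000, 8473000),
     (10000000, 7474000)]

theorem sS30_2 : tStep (tAe 15) 15525590 5478 5020 sn30_2 = true := by decide +kernel

theorem sC30_2 : tCells 30 2232941 2269243 (0, 1) (sn30_2.map Prod.snd) 0 sc30_2 = true := by
  decide +kernel

theorem steps30 {r τ τ' T : ℝ → ℝ} (hr : IsProf r) (h : IsTrans 30 r τ τ' T)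
    (hN : (∫ y in (-1 : ℝ)..1, r y ^ (30 - 1)) ^ 30 * aInt 30 ^ (30 - 1) ≤
      aInt (30 - 1) ^ 30 * (∫ y in (-1 : ℝ)..1, r y ^ 30) ^ (30 - 1)) {x : ℝ}
    (hx : x ∈ Ioo (0 : ℝ) 1) : ApBox3 (((30 : ℕ) : ℝ) * x ^ 2) (lf τ x) := by
  have hτ := h.mem x hx
  have hx0 := hx.1
  have hA : ∀ n a : ℤ, (tAe 15) n a = true → 0 ≤ n → n ≤ 10000 →
      ∫ t in (0 : ℝ)..((n : ℝ) / 10000), sq t ^ 30 ≤ (a : ℝ) / lsD :=
    (fun n a h0 h1 h2 => tAe_sound (h := 15) h1 h2 h0)
  refine ⟨fun h1 => ?_, fun h0 h1 => ?_, fun h0 h1 => ?_⟩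
  · have hlt := ls_lt_of (m := 30) (n := 1461) hx0 (by norm_num) h1 (by norm_num)
    exact ls_log_of hx0 hτ.1 (by norm_num) (ls_step0 (m := 30) (by norm_num) (z := 2232941) (z' := 2269243)
      (by norm_num) ls_lo30 ls_hi29 hA (by simp [sc30_0]) (n0 := 730) (nend := 1461) (c := 16484375)
      (u0 := 1203359) (by norm_num) (by norm_num) (by norm_num) (by norm_num) sS30_0 sC30_0 hr h hN hx
      hlt) (by rw [lsD_cast]; norm_num)
  · have hlt := ls_lt_of (m := 30) (n := 5021) hx0 (by norm_num) h1 (by norm_num)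
    have hge := ls_ge_of (m := 30) (n := 1460) hx0 (by norm_num) h0 (by norm_num)
    exact ls_log_of hx0 hτ.1 (by norm_num) (ls_step (m := 30) (by norm_num) (z := 2232941) (z' := 2269243)
      (by norm_num) ls_lo30 ls_hi29 hA (by simp [sc30_1]) (n0 := 1460) (nend := 5021) (c := 14917333)
      (by norm_num) sS30_1 sC30_1 hr h hN hx hge hlt) (by rw [lsD_cast]; norm_num)
  · have hlt := ls_lt_of (m := 30) (n := 5478) hx0 (by norm_num) h1 (by norm_num)
    have hge := ls_ge_of (m := 30) (n := 5020) hx0 (by norm_num) h0 (by norm_num)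
    exact ls_log_of hx0 hτ.1 (by norm_num) (ls_step (m := 30) (by norm_num) (z := 2232941) (z' := 2269243)
      (by norm_num) ls_lo30 ls_hi29 hA (by simp [sc30_2]) (n0 := 5020) (nend := 5478) (c := 15525590)
      (by norm_num) sS30_2 sC30_2 hr h hN hx hge hlt) (by rw [lsD_cast]; norm_num)

/-- nodes -/
def sn31_0 : List (ℤ × ℤ × ℤ) :=
    [(742, 721629, 1183578), (768, 745424, 1223140), (796, 770885, 1266000),
     (827, 798867, 1312156), (861, 829300, 1363257), (898, 862104, 1419304),
     (939, 898058, 1480296), (985, 937883, 1547882), (1037, 982227, 1623710),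
     (1096, 1031639, 1709429), (1165, 1088165, 1806687), (1246, 1152719, 1920429),
     (1343, 1227361, 2053953), (1437, 1296827, 2213851)]

/-- cells -/
def sc31_0 : List (ℤ × ℤ) :=
    [(8790000, 10000000), (9482000, 5629000), (9900000, 3953000), (10000000, 3583000)]

theorem sS31_0 : tStep (tAo 15 2198329) 16484375 1437 718 sn31_0 = true := by decide +kernel

theorem sC31_0 : tCells 31 2198327 2232942 (1000 * 718, 1183578) (sn31_0.map Prod.snd) 0 sc31_0 = true := by
  decide +kernel

/-- nodes -/
def sn31_1 : List (ℤ × ℤ × ℤ) :=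
    [(1454, 1309082, 2142129), (1475, 1324088, 2168980), (1499, 1341058, 2200306),
     (1527, 1360614, 2236108), (1560, 1383323, 2277876), (1599, 1409685, 2327103),
     (1646, 1440767, 2385281), (1703, 1477447, 2455393), (1773, 1520960, 2540421),
     (1860, 1572679, 2644843), (1972, 1635405, 2774623), (2119, 1711197, 2941698),
     (2320, 1803082, 3160982), (2609, 1912604, 3460821), (3056, 2035380, 3891932),
     (3510, 2113437, 4558736), (3868, 2150742, 5235983), (4154, 2169688, 5770024),
     (4379, 2179702, 6196660), (4555, 2185293, 6532300), (4692, 2188583, 6794845),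
     (4797, 2190594, 6999212), (4878, 2191889, 7155844), (4940, 2192749, 7276675)]

/-- cells -/
def sc31_1 : List (ℤ × ℤ) :=
    [(7688000, 10000000), (7717000, 9889000), (7750000, 9767000), (7788000, 9629000),
     (7832000, 9471000), (7884000, 9288000), (7949000, 9072000), (8035000, 8804000),
     (8156000, 8451000), (8316000, 7963000), (8504000, 7331000), (8700000, 6620000),
     (8933000, 5927000), (9202000, 5188000), (9593000, 4484000), (9914000, 3805000),
     (10000000, 3579000)]

theorem sS31_1 : tStep (tAo 15 2198329) 14917333 4940 1436 sn31_1 = true := by decide +kernel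

theorem sC31_1 : tCells 31 2198327 2232942 (0, 1) (sn31_1.map Prod.snd) 0 sc31_1 = true := by
  decide +kernel

/-- nodes -/
def sn31_2 : List (ℤ × ℤ × ℤ) :=
    [(5066, 2194194, 7668088), (5166, 2195096, 7865263), (5245, 2195681, 8020519),
     (5307, 2196074, 8143171), (5356, 2196346, 8239430), (5389, 2196513, 8315506)]

/-- cells -/
def sc31_2 : List (ℤ × ℤ) :=
    [(7675000, 10000000), (7693000, 9943000), (7717000, 9868000), (7749000, 9767000),
     (7794000, 9634000), (7862000, 9446000), (7967000, 9163000), (8129000, 8730000),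
     (8515000, 8071000), (10000000, 6580000)]

theorem sS31_2 : tStep (tAo 15 2198329) 15525590 5389 4939 sn31_2 = true := by decide +kernel

theorem sC31_2 : tCells 31 2198327 2232942 (0, 1) (sn31_2.map Prod.snd) 0 sc31_2 = true := by
  decide +kernel

theorem steps31 {r τ τ' T : ℝ → ℝ} (hr : IsProf r) (h : IsTrans 31 r τ τ' T)
    (hN : (∫ y in (-1 : ℝ)..1, r y ^ (31 - 1)) ^ 31 * aInt 31 ^ (31 - 1) ≤
      aInt (31 - 1) ^ 31 * (∫ y in (-1 : ℝ)..1, r y ^ 31) ^ (31 - 1)) {x : ℝ}
    (hx : x ∈ Ioo (0 : ℝ) 1) : ApBox3 (((31 : ℕ) : ℝ) * x ^ 2) (lf τ x) := by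
  have hτ := h.mem x hx
  have hx0 := hx.1
  have hA : ∀ n a : ℤ, (tAo 15 2198329) n a = true → 0 ≤ n → n ≤ 10000 →
      ∫ t in (0 : ℝ)..((n : ℝ) / 10000), sq t ^ 31 ≤ (a : ℝ) / lsD :=
    (fun n a h0 h1 h2 => tAo_sound (h := 15) (zh := 2198329) ls_hi31 h1 h2 h0)
  refine ⟨fun h1 => ?_, fun h0 h1 => ?_, fun h0 h1 => ?_⟩
  · have hlt := ls_lt_of (m := 31) (n := 1437) hx0 (by norm_num) h1 (by norm_num)
    exact ls_log_of hx0 hτ.1 (by norm_num) (ls_step0 (m := 31) (by norm_num) (z := 2198327) (z' := 2232942)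
      (by norm_num) ls_lo31 ls_hi30 hA (by simp [sc31_0]) (n0 := 718) (nend := 1437) (c := 16484375)
      (u0 := 1183578) (by norm_num) (by norm_num) (by norm_num) (by norm_num) sS31_0 sC31_0 hr h hN hx
      hlt) (by rw [lsD_cast]; norm_num)
  · have hlt := ls_lt_of (m := 31) (n := 4940) hx0 (by norm_num) h1 (by norm_num)
    have hge := ls_ge_of (m := 31) (n := 1436) hx0 (by norm_num) h0 (by norm_num)
    exact ls_log_of hx0 hτ.1 (by norm_num) (ls_step (m := 31) (by norm_num) (z := 2198327) (z' := 2232942)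
      (by norm_num) ls_lo31 ls_hi30 hA (by simp [sc31_1]) (n0 := 1436) (nend := 4940) (c := 14917333)
      (by norm_num) sS31_1 sC31_1 hr h hN hx hge hlt) (by rw [lsD_cast]; norm_num)
  · have hlt := ls_lt_of (m := 31) (n := 5389) hx0 (by norm_num) h1 (by norm_num)
    have hge := ls_ge_of (m := 31) (n := 4939) hx0 (by norm_num) h0 (by norm_num)
    exact ls_log_of hx0 hτ.1 (by norm_num) (ls_step (m := 31) (by norm_num) (z := 2198327) (z' := 2232942)
      (by norm_num) ls_lo31 ls_hi30 hA (by simp [sc31_2]) (n0 := 4939) (nend := 5389) (c := 15525590)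
      (by norm_num) sS31_2 sC31_2 hr h hN hx hge hlt) (by rw [lsD_cast]; norm_num)

/-- nodes -/
def sn32_0 : List (ℤ × ℤ × ℤ) :=
    [(730, 709742, 1165445), (755, 732625, 1203359), (782, 757184, 1244570),
     (812, 784275, 1289078), (845, 813832, 1338531), (881, 845773, 1392929),
     (921, 880881, 1452273), (966, 919882, 1518210), (1016, 962577, 1592390),
     (1073, 1010400, 1674812), (1139, 1064601, 1768773), (1216, 1126183, 1877570),
     (1308, 1197337, 2004500), (1415, 1276649, 2156156)]

/-- cells -/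
def sc32_0 : List (ℤ × ℤ) :=
    [(8792000, 10000000), (9463000, 5662000), (9886000, 3951000), (10000000, 3536000)]

theorem sS32_0 : tStep (tAe 16) 16484375 1415 707 sn32_0 = true := by decide +kernel

theorem sC32_0 : tCells 32 2165276 2198329 (1000 * 707, 1165445) (sn32_0.map Prod.snd) 0 sc32_0 = true := by
  decide +kernel

/-- nodes -/
def sn32_1 : List (ℤ × ℤ × ℤ) :=
    [(1429, 1286746, 2109310), (1446, 1298918, 2131686), (1465, 1312406, 2157046),
     (1487, 1327872, 2185389), (1512, 1345246, 2218207), (1541, 1365133, 2255500),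
     (1575, 1388080, 2298761), (1614, 1413909, 2349479), (1660, 1443695, 2407657),
     (1715, 1478337, 2476277), (1781, 1518508, 2558322), (1862, 1565718, 2656777),
     (1963, 1621360, 2777607), (2092, 1687268, 2928272), (2262, 1765458, 3120706),
     (2494, 1856925, 3374300), (2829, 1960539, 3720382), (3294, 2057474, 4220113),
     (3657, 2104041, 4913769), (3954, 2128482, 5455268), (4193, 2141652, 5898313),
     (4383, 2149037, 6254837), (4533, 2153377, 6538267), (4650, 2156030, 6762027),
     (4742, 2157741, 6936559), (4813, 2158866, 7073799), (4862, 2159554, 7179712)]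

/-- cells -/
def sc32_1 : List (ℤ × ℤ) :=
    [(7733000, 10000000), (7772000, 9848000), (7816000, 9681000), (7866000, 9494000),
     (7924000, 9283000), (7994000, 9038000), (8083000, 8744000), (8205000, 8373000),
     (8370000, 7872000), (8567000, 7211000), (8763000, 6457000), (8980000, 5760000),
     (9284000, 5070000), (9701000, 4290000), (9957000, 3650000), (10000000, 3519000)]

theorem sS32_1 : tStep (tAe 16) 14917333 4862 1414 sn32_1 = true := by decide +kernel

theorem sC32_1 : tCells 32 2165276 2198329 (0, 1) (sn32_1.map Prod.snd) 0 sc32_1 = true := by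
  decide +kernel

/-- nodes -/
def sn32_2 : List (ℤ × ℤ × ℤ) :=
    [(4986, 2161016, 7546989), (5084, 2161929, 7741059), (5161, 2162521, 7893209),
     (5220, 2162910, 8012756), (5267, 2163184, 8104357), (5304, 2163380, 8177328)]

/-- cells -/
def sc32_2 : List (ℤ × ℤ) :=
    [(7708000, 10000000), (7721000, 9954000), (7738000, 9899000), (7760000, 9826000),
     (7790000, 9732000), (7831000, 9605000), (7891000, 9431000), (7983000, 9177000),
     (8120000, 8790000), (8375000, 8220000), (10000000, 7192000)]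

theorem sS32_2 : tStep (tAe 16) 15525590 5304 4861 sn32_2 = true := by decide +kernel

theorem sC32_2 : tCells 32 2165276 2198329 (0, 1) (sn32_2.map Prod.snd) 0 sc32_2 = true := by
  decide +kernel

theorem steps32 {r τ τ' T : ℝ → ℝ} (hr : IsProf r) (h : IsTrans 32 r τ τ' T)
    (hN : (∫ y in (-1 : ℝ)..1, r y ^ (32 - 1)) ^ 32 * aInt 32 ^ (32 - 1) ≤
      aInt (32 - 1) ^ 32 * (∫ y in (-1 : ℝ)..1, r y ^ 32) ^ (32 - 1)) {x : ℝ}
    (hx : x ∈ Ioo (0 : ℝ) 1) : ApBox3 (((32 : ℕ) : ℝ) * x ^ 2) (lf τ x) := by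
  have hτ := h.mem x hx
  have hx0 := hx.1
  have hA : ∀ n a : ℤ, (tAe 16) n a = true → 0 ≤ n → n ≤ 10000 →
      ∫ t in (0 : ℝ)..((n : ℝ) / 10000), sq t ^ 32 ≤ (a : ℝ) / lsD :=
    (fun n a h0 h1 h2 => tAe_sound (h := 16) h1 h2 h0)
  refine ⟨fun h1 => ?_, fun h0 h1 => ?_, fun h0 h1 => ?_⟩
  · have hlt := ls_lt_of (m := 32) (n := 1415) hx0 (by norm_num) h1 (by norm_num)
    exact ls_log_of hx0 hτ.1 (by norm_num) (ls_step0 (m := 32) (by norm_num) (z := 2165276) (z' := 2198329)
      (by norm_num) ls_lo32 ls_hi31 hA (by simp [sc32_0]) (n0 := 707) (nend := 1415) (c := 16484375)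
      (u0 := 1165445) (by norm_num) (by norm_num) (by norm_num) (by norm_num) sS32_0 sC32_0 hr h hN hx
      hlt) (by rw [lsD_cast]; norm_num)
  · have hlt := ls_lt_of (m := 32) (n := 4862) hx0 (by norm_num) h1 (by norm_num)
    have hge := ls_ge_of (m := 32) (n := 1414) hx0 (by norm_num) h0 (by norm_num)
    exact ls_log_of hx0 hτ.1 (by norm_num) (ls_step (m := 32) (by norm_num) (z := 2165276) (z' := 2198329)
      (by norm_num) ls_lo32 ls_hi31 hA (by simp [sc32_1]) (n0 := 1414) (nend := 4862) (c := 14917333)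
      (by norm_num) sS32_1 sC32_1 hr h hN hx hge hlt) (by rw [lsD_cast]; norm_num)
  · have hlt := ls_lt_of (m := 32) (n := 5304) hx0 (by norm_num) h1 (by norm_num)
    have hge := ls_ge_of (m := 32) (n := 4861) hx0 (by norm_num) h0 (by norm_num)
    exact ls_log_of hx0 hτ.1 (by norm_num) (ls_step (m := 32) (by norm_num) (z := 2165276) (z' := 2198329)
      (by norm_num) ls_lo32 ls_hi31 hA (by simp [sc32_2]) (n0 := 4861) (nend := 5304) (c := 15525590)
      (by norm_num) sS32_2 sC32_2 hr h hN hx hge hlt) (by rw [lsD_cast]; norm_num)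

/-- nodes -/
def sn33_0 : List (ℤ × ℤ × ℤ) :=
    [(719, 699236, 1147312), (744, 722118, 1185226), (771, 746672, 1226437),
     (800, 772857, 1270945), (832, 801516, 1318750), (867, 832573, 1371500),
     (906, 866812, 1429195), (949, 904099, 1493484), (998, 945973, 1564367),
     (1054, 993000, 1645140), (1118, 1045619, 1737453), (1193, 1105698, 1842953),
     (1283, 1175447, 1966585), (1393, 1257089, 2114945)]

/-- cells -/
def sc33_0 : List (ℤ × ℤ) :=
    [(8804000, 10000000), (9459000, 5662000), (9875000, 3929000), (10000000, 3491000)]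

theorem sS33_0 : tStep (tAo 16 2133672) 16484375 1393 696 sn33_0 = true := by decide +kernel

theorem sC33_0 : tCells 33 2133671 2165277 (1000 * 696, 1147312) (sn33_0.map Prod.snd) 0 sc33_0 = true := by
  decide +kernel

/-- nodes -/
def sn33_1 : List (ℤ × ℤ × ℤ) :=
    [(1409, 1268625, 2076492), (1428, 1282211, 2101852), (1450, 1297788, 2130195),
     (1476, 1315982, 2163013), (1506, 1336684, 2201798), (1542, 1361113, 2246550),
     (1585, 1389696, 2300252), (1637, 1423391, 2364397), (1700, 1462930, 2441967),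
     (1779, 1510512, 2535946), (1879, 1567552, 2653793), (2009, 1636402, 2802966),
     (2185, 1720219, 2996892), (2433, 1820706, 3259437), (2807, 1936686, 3629387),
     (3306, 2036398, 4187295), (3674, 2079839, 4931670), (3967, 2101635, 5480628),
     (4199, 2113116, 5917706), (4380, 2119441, 6263788), (4520, 2123111, 6533791),
     (4628, 2125353, 6742634), (4711, 2126783, 6903741), (4774, 2127721, 7027555),
     (4788, 2127914, 7121534)]

/-- cells -/
def sc33_1 : List (ℤ × ℤ) :=
    [(7761000, 10000000), (7793000, 9872000), (7828000, 9733000), (7866000, 9582000),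
     (7909000, 9418000), (7958000, 9233000), (8017000, 9022000), (8090000, 8770000),
     (8188000, 8460000), (8321000, 8049000), (8480000, 7499000), (8636000, 6862000),
     (8796000, 6265000), (8977000, 5690000), (9227000, 5098000), (9587000, 4410000),
     (9904000, 3735000), (10000000, 3481000)]

theorem sS33_1 : tStep (tAo 16 2133672) 14917333 4788 1392 sn33_1 = true := by decide +kernel

theorem sC33_1 : tCells 33 2133671 2165277 (0, 1) (sn33_1.map Prod.snd) 0 sc33_1 = true := by
  decide +kernel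

/-- nodes -/
def sn33_2 : List (ℤ × ℤ × ℤ) :=
    [(4902, 2129290, 7432099), (4993, 2130172, 7610644), (5064, 2130748, 7751927),
     (5120, 2131142, 7862158), (5164, 2131418, 7949102), (5198, 2131612, 8017414),
     (5223, 2131745, 8070201)]

/-- cells -/
def sc33_2 : List (ℤ × ℤ) :=
    [(7741000, 10000000), (7753000, 9959000), (7768000, 9907000), (7787000, 9842000),
     (7811000, 9759000), (7843000, 9655000), (7887000, 9517000), (7950000, 9327000),
     (8046000, 9057000), (8188000, 8647000), (8460000, 8049000), (10000000, 6941000)]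

theorem sS33_2 : tStep (tAo 16 2133672) 15525590 5223 4787 sn33_2 = true := by decide +kernel

theorem sC33_2 : tCells 33 2133671 2165277 (0, 1) (sn33_2.map Prod.snd) 0 sc33_2 = true := by
  decide +kernel

theorem steps33 {r τ τ' T : ℝ → ℝ} (hr : IsProf r) (h : IsTrans 33 r τ τ' T)
    (hN : (∫ y in (-1 : ℝ)..1, r y ^ (33 - 1)) ^ 33 * aInt 33 ^ (33 - 1) ≤
      aInt (33 - 1) ^ 33 * (∫ y in (-1 : ℝ)..1, r y ^ 33) ^ (33 - 1)) {x : ℝ}
    (hx : x ∈ Ioo (0 : ℝ) 1) : ApBox3 (((33 : ℕ) : ℝ) * x ^ 2) (lf τ x) := by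
  have hτ := h.mem x hx
  have hx0 := hx.1
  have hA : ∀ n a : ℤ, (tAo 16 2133672) n a = true → 0 ≤ n → n ≤ 10000 →
      ∫ t in (0 : ℝ)..((n : ℝ) / 10000), sq t ^ 33 ≤ (a : ℝ) / lsD :=
    (fun n a h0 h1 h2 => tAo_sound (h := 16) (zh := 2133672) ls_hi33 h1 h2 h0)
  refine ⟨fun h1 => ?_, fun h0 h1 => ?_, fun h0 h1 => ?_⟩
  · have hlt := ls_lt_of (m := 33) (n := 1393) hx0 (by norm_num) h1 (by norm_num)
    exact ls_log_of hx0 hτ.1 (by norm_num) (ls_step0 (m := 33) (by norm_num) (z := 2133671) (z' := 2165277)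
      (by norm_num) ls_lo33 ls_hi32 hA (by simp [sc33_0]) (n0 := 696) (nend := 1393) (c := 16484375)
      (u0 := 1147312) (by norm_num) (by norm_num) (by norm_num) (by norm_num) sS33_0 sC33_0 hr h hN hx
      hlt) (by rw [lsD_cast]; norm_num)
  · have hlt := ls_lt_of (m := 33) (n := 4788) hx0 (by norm_num) h1 (by norm_num)
    have hge := ls_ge_of (m := 33) (n := 1392) hx0 (by norm_num) h0 (by norm_num)
    exact ls_log_of hx0 hτ.1 (by norm_num) (ls_step (m := 33) (by norm_num) (z := 2133671) (z' := 2165277)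
      (by norm_num) ls_lo33 ls_hi32 hA (by simp [sc33_1]) (n0 := 1392) (nend := 4788) (c := 14917333)
      (by norm_num) sS33_1 sC33_1 hr h hN hx hge hlt) (by rw [lsD_cast]; norm_num)
  · have hlt := ls_lt_of (m := 33) (n := 5223) hx0 (by norm_num) h1 (by norm_num)
    have hge := ls_ge_of (m := 33) (n := 4787) hx0 (by norm_num) h0 (by norm_num)
    exact ls_log_of hx0 hτ.1 (by norm_num) (ls_step (m := 33) (by norm_num) (z := 2133671) (z' := 2165277)
      (by norm_num) ls_lo33 ls_hi32 hA (by simp [sc33_2]) (n0 := 4787) (nend := 5223) (c := 15525590)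
      (by norm_num) sS33_2 sC33_2 hr h hN hx hge hlt) (by rw [lsD_cast]; norm_num)

/-- nodes -/
def sn34_0 : List (ℤ × ℤ × ℤ) :=
    [(704, 684691, 1129179), (725, 703941, 1160500), (747, 724000, 1195117),
     (771, 745755, 1231382), (797, 769168, 1270945), (825, 794196, 1313804),
     (855, 820793, 1359960), (888, 849781, 1409414), (925, 881938, 1463812),
     (966, 917133, 1524804), (1011, 955214, 1592390), (1062, 997658, 1666570),
     (1120, 1044974, 1750640), (1187, 1098328, 1846250), (1265, 1158620, 1956695),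
     (1372, 1238030, 2085273)]

/-- cells -/
def sc34_0 : List (ℤ × ℤ) :=
    [(8821000, 10000000), (9465000, 5645000), (9874000, 3892000), (10000000, 3445000)]

theorem sS34_0 : tStep (tAe 17) 16484375 1372 685 sn34_0 = true := by decide +kernel

theorem sC34_0 : tCells 34 2103411 2133672 (1000 * 685, 1129179) (sn34_0.map Prod.snd) 0 sc34_0 = true := by
  decide +kernel

/-- nodes -/
def sn34_1 : List (ℤ × ℤ × ℤ) :=
    [(1389, 1250287, 2045166), (1410, 1265290, 2072017), (1435, 1282950, 2103343),
     (1465, 1303855, 2140637), (1501, 1328522, 2185389), (1545, 1358046, 2239091),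
     (1599, 1393336, 2304727), (1666, 1435665, 2385281), (1752, 1487623, 2485227),
     (1864, 1551281, 2613516), (2016, 1630467, 2780590), (2230, 1728207, 3007334),
     (2553, 1847065, 3326565), (3088, 1978797, 3808395), (3499, 2037613, 4606472),
     (3818, 2065522, 5219574), (4068, 2079732, 5695437), (4263, 2087400, 6068371),
     (4414, 2091770, 6359259), (4530, 2094387, 6584510), (4619, 2096033, 6757551),
     (4688, 2097123, 6890316), (4717, 2097537, 6993245)]

/-- cells -/
def sc34_1 : List (ℤ × ℤ) :=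
    [(7798000, 10000000), (7834000, 9851000), (7872000, 9693000), (7914000, 9526000),
     (7960000, 9342000), (8013000, 9141000), (8075000, 8910000), (8151000, 8641000),
     (8252000, 8314000), (8389000, 7884000), (8542000, 7312000), (8687000, 6693000),
     (8829000, 6133000), (8977000, 5616000), (9146000, 5121000), (9380000, 4618000),
     (9736000, 4054000), (9962000, 3533000), (10000000, 3421000)]

theorem sS34_1 : tStep (tAe 17) 14917333 4717 1371 sn34_1 = true := by decide +kernel

theorem sC34_1 : tCells 34 2103411 2133672 (0, 1) (sn34_1.map Prod.snd) 0 sc34_1 = true := by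
  decide +kernel

/-- nodes -/
def sn34_2 : List (ℤ × ℤ × ℤ) :=
    [(4820, 2098822, 7321868), (4904, 2099680, 7483334), (4971, 2100260, 7613749),
     (5024, 2100661, 7717770), (5066, 2100946, 7800056), (5100, 2101157, 7865263),
     (5127, 2101313, 7918050), (5145, 2101412, 7959969)]

/-- cells -/
def sc34_2 : List (ℤ × ℤ) :=
    [(7778000, 10000000), (7795000, 9939000), (7816000, 9864000), (7842000, 9772000),
     (7875000, 9657000), (7917000, 9513000), (7975000, 9328000), (8061000, 9075000),
     (8192000, 8702000), (8410000, 8139000), (10000000, 7225000)]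

theorem sS34_2 : tStep (tAe 17) 15525590 5145 4716 sn34_2 = true := by decide +kernel

theorem sC34_2 : tCells 34 2103411 2133672 (0, 1) (sn34_2.map Prod.snd) 0 sc34_2 = true := by
  decide +kernel

theorem steps34 {r τ τ' T : ℝ → ℝ} (hr : IsProf r) (h : IsTrans 34 r τ τ' T)
    (hN : (∫ y in (-1 : ℝ)..1, r y ^ (34 - 1)) ^ 34 * aInt 34 ^ (34 - 1) ≤
      aInt (34 - 1) ^ 34 * (∫ y in (-1 : ℝ)..1, r y ^ 34) ^ (34 - 1)) {x : ℝ}
    (hx : x ∈ Ioo (0 : ℝ) 1) : ApBox3 (((34 : ℕ) : ℝ) * x ^ 2) (lf τ x) := by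
  have hτ := h.mem x hx
  have hx0 := hx.1
  have hA : ∀ n a : ℤ, (tAe 17) n a = true → 0 ≤ n → n ≤ 10000 →
      ∫ t in (0 : ℝ)..((n : ℝ) / 10000), sq t ^ 34 ≤ (a : ℝ) / lsD :=
    (fun n a h0 h1 h2 => tAe_sound (h := 17) h1 h2 h0)
  refine ⟨fun h1 => ?_, fun h0 h1 => ?_, fun h0 h1 => ?_⟩
  · have hlt := ls_lt_of (m := 34) (n := 1372) hx0 (by norm_num) h1 (by norm_num)
    exact ls_log_of hx0 hτ.1 (by norm_num) (ls_step0 (m := 34) (by norm_num) (z := 2103411) (z' := 2133672)
      (by norm_num) ls_lo34 ls_hi33 hA (by simp [sc34_0]) (n0 := 685) (nend := 1372) (c := 16484375)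
      (u0 := 1129179) (by norm_num) (by norm_num) (by norm_num) (by norm_num) sS34_0 sC34_0 hr h hN hx
      hlt) (by rw [lsD_cast]; norm_num)
  · have hlt := ls_lt_of (m := 34) (n := 4717) hx0 (by norm_num) h1 (by norm_num)
    have hge := ls_ge_of (m := 34) (n := 1371) hx0 (by norm_num) h0 (by norm_num)
    exact ls_log_of hx0 hτ.1 (by norm_num) (ls_step (m := 34) (by norm_num) (z := 2103411) (z' := 2133672)
      (by norm_num) ls_lo34 ls_hi33 hA (by simp [sc34_1]) (n0 := 1371) (nend := 4717) (c := 14917333)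
      (by norm_num) sS34_1 sC34_1 hr h hN hx hge hlt) (by rw [lsD_cast]; norm_num)
  · have hlt := ls_lt_of (m := 34) (n := 5145) hx0 (by norm_num) h1 (by norm_num)
    have hge := ls_ge_of (m := 34) (n := 4716) hx0 (by norm_num) h0 (by norm_num)
    exact ls_log_of hx0 hτ.1 (by norm_num) (ls_step (m := 34) (by norm_num) (z := 2103411) (z' := 2133672)
      (by norm_num) ls_lo34 ls_hi33 hA (by simp [sc34_2]) (n0 := 4716) (nend := 5145) (c := 15525590)
      (by norm_num) sS34_2 sC34_2 hr h hN hx hge hlt) (by rw [lsD_cast]; norm_num)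

/-- nodes -/
def sn35_0 : List (ℤ × ℤ × ℤ) :=
    [(698, 678797, 1114343), (721, 699852, 1150609), (746, 722600, 1188523),
     (773, 747000, 1229734), (803, 773902, 1274242), (836, 803231, 1323695),
     (873, 835777, 1378093), (914, 871410, 1439085), (960, 910831, 1506671),
     (1012, 954658, 1582500), (1072, 1004222, 1668218), (1142, 1060633, 1767125),
     (1225, 1125474, 1882515), (1325, 1200533, 2019335), (1353, 1220935, 2184179)]

/-- cells -/
def sc35_0 : List (ℤ × ℤ) :=
    [(8847000, 10000000), (9481000, 5593000), (9879000, 3838000), (10000000, 3398000)]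

theorem sS35_0 : tStep (tAo 17 2074404) 16484375 1353 676 sn35_0 = true := by decide +kernel

theorem sC35_0 : tCells 35 2074402 2103412 (1000 * 676, 1114343) (sn35_0.map Prod.snd) 0 sc35_0 = true := by
  decide +kernel

/-- nodes -/
def sn35_1 : List (ℤ × ℤ × ℤ) :=
    [(1370, 1233188, 2016823), (1391, 1248184, 2043674), (1416, 1265833, 2075001),
     (1445, 1286029, 2112294), (1480, 1310003, 2155554), (1523, 1338854, 2207765),
     (1576, 1373493, 2271909), (1642, 1415198, 2350971), (1726, 1465970, 2449426),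
     (1836, 1528547, 2574731), (1984, 1605788, 2738822), (2193, 1701580, 2959598),
     (2507, 1817929, 3271371), (3026, 1947689, 3739775), (3437, 2007785, 4513984),
     (3755, 2036136, 5127087), (4004, 2050533, 5601458), (4197, 2058248, 5972900),
     (4347, 2062662, 6260804), (4462, 2065300, 6484564), (4550, 2066955, 6656113),
     (4617, 2068033, 6787386), (4649, 2068498, 6887332)]

/-- cells -/
def sc35_1 : List (ℤ × ℤ) :=
    [(7829000, 10000000), (7864000, 9851000), (7901000, 9694000), (7941000, 9529000),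
     (7985000, 9351000), (8034000, 9156000), (8090000, 8939000), (8157000, 8692000),
     (8241000, 8398000), (8355000, 8033000), (8503000, 7544000), (8655000, 6925000),
     (8800000, 6315000), (8946000, 5764000), (9104000, 5249000), (9302000, 4746000),
     (9623000, 4214000), (9913000, 3618000), (10000000, 3386000)]

theorem sS35_1 : tStep (tAo 17 2074404) 14917333 4649 1352 sn35_1 = true := by decide +kernel

theorem sC35_1 : tCells 35 2074402 2103412 (0, 1) (sn35_1.map Prod.snd) 0 sc35_1 = true := by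
  decide +kernel

/-- nodes -/
def sn35_2 : List (ℤ × ℤ × ℤ) :=
    [(4763, 2069922, 7216294), (4853, 2070824, 7394838), (4922, 2071403, 7534568),
     (4975, 2071790, 7641695), (5016, 2072058, 7723981), (5047, 2072244, 7787635),
     (5071, 2072380, 7835765)]

/-- cells -/
def sc35_2 : List (ℤ × ℤ) :=
    [(7801000, 10000000), (7807000, 9976000), (7814000, 9949000), (7822000, 9918000),
     (7832000, 9882000), (7844000, 9837000), (7858000, 9784000), (7876000, 9721000),
     (7898000, 9641000), (7926000, 9542000), (7962000, 9418000), (8012000, 9258000),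
     (8085000, 9036000), (8191000, 8714000), (8352000, 8250000), (8752000, 7557000),
     (10000000, 5942000)]

theorem sS35_2 : tStep (tAo 17 2074404) 15525590 5071 4648 sn35_2 = true := by decide +kernel

theorem sC35_2 : tCells 35 2074402 2103412 (0, 1) (sn35_2.map Prod.snd) 0 sc35_2 = true := by
  decide +kernel

theorem steps35 {r τ τ' T : ℝ → ℝ} (hr : IsProf r) (h : IsTrans 35 r τ τ' T)
    (hN : (∫ y in (-1 : ℝ)..1, r y ^ (35 - 1)) ^ 35 * aInt 35 ^ (35 - 1) ≤
      aInt (35 - 1) ^ 35 * (∫ y in (-1 : ℝ)..1, r y ^ 35) ^ (35 - 1)) {x : ℝ}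
    (hx : x ∈ Ioo (0 : ℝ) 1) : ApBox3 (((35 : ℕ) : ℝ) * x ^ 2) (lf τ x) := by
  have hτ := h.mem x hx
  have hx0 := hx.1
  have hA : ∀ n a : ℤ, (tAo 17 2074404) n a = true → 0 ≤ n → n ≤ 10000 →
      ∫ t in (0 : ℝ)..((n : ℝ) / 10000), sq t ^ 35 ≤ (a : ℝ) / lsD :=
    (fun n a h0 h1 h2 => tAo_sound (h := 17) (zh := 2074404) ls_hi35 h1 h2 h0)
  refine ⟨fun h1 => ?_, fun h0 h1 => ?_, fun h0 h1 => ?_⟩
  · have hlt := ls_lt_of (m := 35) (n := 1353) hx0 (by norm_num) h1 (by norm_num)
    exact ls_log_of hx0 hτ.1 (by norm_num) (ls_step0 (m := 35) (by norm_num) (z := 2074402) (z' := 2103412)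
      (by norm_num) ls_lo35 ls_hi34 hA (by simp [sc35_0]) (n0 := 676) (nend := 1353) (c := 16484375)
      (u0 := 1114343) (by norm_num) (by norm_num) (by norm_num) (by norm_num) sS35_0 sC35_0 hr h hN hx
      hlt) (by rw [lsD_cast]; norm_num)
  · have hlt := ls_lt_of (m := 35) (n := 4649) hx0 (by norm_num) h1 (by norm_num)
    have hge := ls_ge_of (m := 35) (n := 1352) hx0 (by norm_num) h0 (by norm_num)
    exact ls_log_of hx0 hτ.1 (by norm_num) (ls_step (m := 35) (by norm_num) (z := 2074402) (z' := 2103412)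
      (by norm_num) ls_lo35 ls_hi34 hA (by simp [sc35_1]) (n0 := 1352) (nend := 4649) (c := 14917333)
      (by norm_num) sS35_1 sC35_1 hr h hN hx hge hlt) (by rw [lsD_cast]; norm_num)
  · have hlt := ls_lt_of (m := 35) (n := 5071) hx0 (by norm_num) h1 (by norm_num)
    have hge := ls_ge_of (m := 35) (n := 4648) hx0 (by norm_num) h0 (by norm_num)
    exact ls_log_of hx0 hτ.1 (by norm_num) (ls_step (m := 35) (by norm_num) (z := 2074402) (z' := 2103412)
      (by norm_num) ls_lo35 ls_hi34 hA (by simp [sc35_2]) (n0 := 4648) (nend := 5071) (c := 15525590)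
      (by norm_num) sS35_2 sC35_2 hr h hN hx hge hlt) (by rw [lsD_cast]; norm_num)

/-- nodes -/
def sn36_0 : List (ℤ × ℤ × ℤ) :=
    [(687, 668006, 1097859), (710, 689067, 1132476), (735, 711820, 1170390),
     (762, 736222, 1211601), (791, 762231, 1256109), (823, 790680, 1303914),
     (859, 822362, 1356664), (899, 857149, 1416007), (944, 895745, 1481945),
     (995, 938771, 1556125), (1053, 986745, 1640195), (1121, 1041646, 1735804),
     (1201, 1104304, 1847898), (1298, 1177373, 1979773), (1334, 1203659, 2139671)]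

/-- cells -/
def sc36_0 : List (ℤ × ℤ) :=
    [(8865000, 10000000), (9488000, 5568000), (9878000, 3801000), (10000000, 3356000)]

theorem sS36_0 : tStep (tAe 18) 16484375 1334 666 sn36_0 = true := by decide +kernel

theorem sC36_0 : tCells 36 2046562 2074404 (1000 * 666, 1097859) (sn36_0.map Prod.snd) 0 sc36_0 = true := by
  decide +kernel

/-- nodes -/
def sn36_1 : List (ℤ × ℤ × ℤ) :=
    [(1350, 1215195, 1988480), (1370, 1229487, 2013839), (1394, 1246448, 2043674),
     (1422, 1265975, 2079476), (1456, 1289304, 2121244), (1497, 1316877, 2171963),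
     (1547, 1349667, 2233124), (1610, 1389670, 2307711), (1690, 1438345, 2401690),
     (1794, 1498069, 2521029), (1933, 1571647, 2676169), (2128, 1663063, 2883520),
     (2418, 1774800, 3174408), (2889, 1902061, 3607011), (3319, 1972040, 4309617),
     (3649, 2004390, 4951062), (3907, 2020611, 5443334), (4108, 2029248, 5828202),
     (4263, 2034100, 6128040), (4382, 2036980, 6359259), (4474, 2038793, 6536775),
     (4544, 2039964, 6674014), (4584, 2040561, 6778436)]

/-- cells -/
def sc36_1 : List (ℤ × ℤ) :=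
    [(7862000, 10000000), (7900000, 9835000), (7940000, 9663000), (7982000, 9482000),
     (8028000, 9292000), (8079000, 9085000), (8137000, 8856000), (8205000, 8596000),
     (8290000, 8294000), (8405000, 7919000), (8552000, 7420000), (8706000, 6798000),
     (8869000, 6174000), (9043000, 5553000), (9232000, 4952000), (9487000, 4387000),
     (9821000, 3803000), (9985000, 3386000), (10000000, 3330000)]

theorem sS36_1 : tStep (tAe 18) 14917333 4584 1333 sn36_1 = true := by decide +kernel

theorem sC36_1 : tCells 36 2046562 2074404 (0, 1) (sn36_1.map Prod.snd) 0 sc36_1 = true := by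
  decide +kernel

/-- nodes -/
def sn36_2 : List (ℤ × ℤ × ℤ) :=
    [(4697, 2042001, 7115377), (4785, 2042902, 7292369), (4853, 2043487, 7428994),
     (4905, 2043876, 7534568), (4946, 2044152, 7615301), (4976, 2044338, 7678956),
     (5001, 2044483, 7725533)]

/-- cells -/
def sc36_2 : List (ℤ × ℤ) :=
    [(7832000, 10000000), (7839000, 9972000), (7847000, 9940000), (7856000, 9903000),
     (7867000, 9863000), (7880000, 9813000), (7895000, 9754000), (7913000, 9686000),
     (7935000, 9604000), (7963000, 9504000), (7998000, 9378000), (8045000, 9220000),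
     (8111000, 9008000), (8209000, 8712000), (8351000, 8276000), (8635000, 7653000),
     (10000000, 6458000)]

theorem sS36_2 : tStep (tAe 18) 15525590 5001 4583 sn36_2 = true := by decide +kernel

theorem sC36_2 : tCells 36 2046562 2074404 (0, 1) (sn36_2.map Prod.snd) 0 sc36_2 = true := by
  decide +kernel

theorem steps36 {r τ τ' T : ℝ → ℝ} (hr : IsProf r) (h : IsTrans 36 r τ τ' T)
    (hN : (∫ y in (-1 : ℝ)..1, r y ^ (36 - 1)) ^ 36 * aInt 36 ^ (36 - 1) ≤
      aInt (36 - 1) ^ 36 * (∫ y in (-1 : ℝ)..1, r y ^ 36) ^ (36 - 1)) {x : ℝ}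
    (hx : x ∈ Ioo (0 : ℝ) 1) : ApBox3 (((36 : ℕ) : ℝ) * x ^ 2) (lf τ x) := by
  have hτ := h.mem x hx
  have hx0 := hx.1
  have hA : ∀ n a : ℤ, (tAe 18) n a = true → 0 ≤ n → n ≤ 10000 →
      ∫ t in (0 : ℝ)..((n : ℝ) / 10000), sq t ^ 36 ≤ (a : ℝ) / lsD :=
    (fun n a h0 h1 h2 => tAe_sound (h := 18) h1 h2 h0)
  refine ⟨fun h1 => ?_, fun h0 h1 => ?_, fun h0 h1 => ?_⟩
  · have hlt := ls_lt_of (m := 36) (n := 1334) hx0 (by norm_num) h1 (by norm_num)
    exact ls_log_of hx0 hτ.1 (by norm_num) (ls_step0 (m := 36) (by norm_num) (z := 2046562) (z' := 2074404)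
      (by norm_num) ls_lo36 ls_hi35 hA (by simp [sc36_0]) (n0 := 666) (nend := 1334) (c := 16484375)
      (u0 := 1097859) (by norm_num) (by norm_num) (by norm_num) (by norm_num) sS36_0 sC36_0 hr h hN hx
      hlt) (by rw [lsD_cast]; norm_num)
  · have hlt := ls_lt_of (m := 36) (n := 4584) hx0 (by norm_num) h1 (by norm_num)
    have hge := ls_ge_of (m := 36) (n := 1333) hx0 (by norm_num) h0 (by norm_num)
    exact ls_log_of hx0 hτ.1 (by norm_num) (ls_step (m := 36) (by norm_num) (z := 2046562) (z' := 2074404)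
      (by norm_num) ls_lo36 ls_hi35 hA (by simp [sc36_1]) (n0 := 1333) (nend := 4584) (c := 14917333)
      (by norm_num) sS36_1 sC36_1 hr h hN hx hge hlt) (by rw [lsD_cast]; norm_num)
  · have hlt := ls_lt_of (m := 36) (n := 5001) hx0 (by norm_num) h1 (by norm_num)
    have hge := ls_ge_of (m := 36) (n := 4583) hx0 (by norm_num) h0 (by norm_num)
    exact ls_log_of hx0 hτ.1 (by norm_num) (ls_step (m := 36) (by norm_num) (z := 2046562) (z' := 2074404)
      (by norm_num) ls_lo36 ls_hi35 hA (by simp [sc36_2]) (n0 := 4583) (nend := 5001) (c := 15525590)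
      (by norm_num) sS36_2 sC36_2 hr h hN hx hge hlt) (by rw [lsD_cast]; norm_num)

/-- nodes -/
def sn37_0 : List (ℤ × ℤ × ℤ) :=
    [(678, 659374, 1083023), (700, 679520, 1117640), (724, 701366, 1153906),
     (750, 724873, 1193468), (779, 750893, 1236328), (810, 778465, 1284132),
     (845, 809287, 1335234), (884, 843233, 1392929), (927, 880157, 1457218),
     (976, 921568, 1528101), (1032, 967995, 1608875), (1097, 1020637, 1701187),
     (1174, 1081200, 1808335), (1267, 1151648, 1935265), (1316, 1187544, 2088570)]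

/-- cells -/
def sc37_0 : List (ℤ × ℤ) :=
    [(8883000, 10000000), (9497000, 5541000), (9879000, 3762000), (10000000, 3314000)]

theorem sS37_0 : tStep (tAo 18 2019814) 16484375 1316 657 sn37_0 = true := by decide +kernel

theorem sC37_0 : tCells 37 2019813 2046563 (1000 * 657, 1083023) (sn37_0.map Prod.snd) 0 sc37_0 = true := by
  decide +kernel

/-- nodes -/
def sn37_1 : List (ℤ × ℤ × ℤ) :=
    [(1331, 1198361, 1961629), (1350, 1211946, 1985497), (1373, 1228217, 2013839),
     (1400, 1247071, 2048149), (1432, 1269070, 2088426), (1471, 1295372, 2136162),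
     (1519, 1326967, 2194339), (1579, 1365251, 2265942), (1655, 1411803, 2355446),
     (1753, 1468621, 2468818), (1884, 1538945, 2615008), (2066, 1626139, 2810425),
     (2334, 1733271, 3081920), (2762, 1857421, 3481705), (3212, 1937930, 4120167),
     (3552, 1974105, 4791447), (3818, 1992070, 5298636), (4024, 2001487, 5695437),
     (4184, 2006770, 6002734), (4307, 2009882, 6241412), (4401, 2011804, 6424895),
     (4473, 2013049, 6565118), (4521, 2013782, 6672523)]

/-- cells -/
def sc37_1 : List (ℤ × ℤ) :=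
    [(7887000, 10000000), (7921000, 9851000), (7956000, 9694000), (7994000, 9534000),
     (8035000, 9359000), (8080000, 9171000), (8130000, 8966000), (8188000, 8738000),
     (8256000, 8476000), (8341000, 8169000), (8455000, 7790000), (8600000, 7289000),
     (8743000, 6669000), (8892000, 6083000), (9064000, 5508000), (9268000, 4903000),
     (9529000, 4289000), (9848000, 3703000), (9990000, 3330000), (10000000, 3287000)]

theorem sS37_1 : tStep (tAo 18 2019814) 14917333 4521 1315 sn37_1 = true := by decide +kernel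

theorem sC37_1 : tCells 37 2019813 2046563 (0, 1) (sn37_1.map Prod.snd) 0 sc37_1 = true := by
  decide +kernel

/-- nodes -/
def sn37_2 : List (ℤ × ℤ × ℤ) :=
    [(4628, 2015170, 7017566), (4712, 2016054, 7185243), (4777, 2016633, 7315658),
     (4827, 2017023, 7416574), (4865, 2017291, 7494202), (4895, 2017486, 7553199),
     (4918, 2017626, 7599776), (4932, 2017708, 7635485)]

/-- cells -/
def sc37_2 : List (ℤ × ℤ) :=
    [(7863000, 10000000), (7872000, 9962000), (7883000, 9920000), (7895000, 9869000),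
     (7909000, 9814000), (7925000, 9750000), (7944000, 9676000), (7966000, 9589000),
     (7993000, 9488000), (8027000, 9364000), (8070000, 9208000), (8128000, 9012000),
     (8213000, 8747000), (8334000, 8363000), (8535000, 7821000), (10000000, 6944000)]

theorem sS37_2 : tStep (tAo 18 2019814) 15525590 4932 4520 sn37_2 = true := by decide +kernel

theorem sC37_2 : tCells 37 2019813 2046563 (0, 1) (sn37_2.map Prod.snd) 0 sc37_2 = true := by
  decide +kernel

theorem steps37 {r τ τ' T : ℝ → ℝ} (hr : IsProf r) (h : IsTrans 37 r τ τ' T)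
    (hN : (∫ y in (-1 : ℝ)..1, r y ^ (37 - 1)) ^ 37 * aInt 37 ^ (37 - 1) ≤
      aInt (37 - 1) ^ 37 * (∫ y in (-1 : ℝ)..1, r y ^ 37) ^ (37 - 1)) {x : ℝ}
    (hx : x ∈ Ioo (0 : ℝ) 1) : ApBox3 (((37 : ℕ) : ℝ) * x ^ 2) (lf τ x) := by
  have hτ := h.mem x hx
  have hx0 := hx.1
  have hA : ∀ n a : ℤ, (tAo 18 2019814) n a = true → 0 ≤ n → n ≤ 10000 →
      ∫ t in (0 : ℝ)..((n : ℝ) / 10000), sq t ^ 37 ≤ (a : ℝ) / lsD :=
    (fun n a h0 h1 h2 => tAo_sound (h := 18) (zh := 2019814) ls_hi37 h1 h2 h0)
  refine ⟨fun h1 => ?_, fun h0 h1 => ?_, fun h0 h1 => ?_⟩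
  · have hlt := ls_lt_of (m := 37) (n := 1316) hx0 (by norm_num) h1 (by norm_num)
    exact ls_log_of hx0 hτ.1 (by norm_num) (ls_step0 (m := 37) (by norm_num) (z := 2019813) (z' := 2046563)
      (by norm_num) ls_lo37 ls_hi36 hA (by simp [sc37_0]) (n0 := 657) (nend := 1316) (c := 16484375)
      (u0 := 1083023) (by norm_num) (by norm_num) (by norm_num) (by norm_num) sS37_0 sC37_0 hr h hN hx
      hlt) (by rw [lsD_cast]; norm_num)
  · have hlt := ls_lt_of (m := 37) (n := 4521) hx0 (by norm_num) h1 (by norm_num)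
    have hge := ls_ge_of (m := 37) (n := 1315) hx0 (by norm_num) h0 (by norm_num)
    exact ls_log_of hx0 hτ.1 (by norm_num) (ls_step (m := 37) (by norm_num) (z := 2019813) (z' := 2046563)
      (by norm_num) ls_lo37 ls_hi36 hA (by simp [sc37_1]) (n0 := 1315) (nend := 4521) (c := 14917333)
      (by norm_num) sS37_1 sC37_1 hr h hN hx hge hlt) (by rw [lsD_cast]; norm_num)
  · have hlt := ls_lt_of (m := 37) (n := 4932) hx0 (by norm_num) h1 (by norm_num)
    have hge := ls_ge_of (m := 37) (n := 4520) hx0 (by norm_num) h0 (by norm_num)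
    exact ls_log_of hx0 hτ.1 (by norm_num) (ls_step (m := 37) (by norm_num) (z := 2019813) (z' := 2046563)
      (by norm_num) ls_lo37 ls_hi36 hA (by simp [sc37_2]) (n0 := 4520) (nend := 4932) (c := 15525590)
      (by norm_num) sS37_2 sC37_2 hr h hN hx hge hlt) (by rw [lsD_cast]; norm_num)

/-- nodes -/
def sn38_0 : List (ℤ × ℤ × ℤ) :=
    [(668, 649569, 1068187), (690, 669720, 1101156), (713, 690662, 1137421),
     (738, 713276, 1175335), (766, 738416, 1216546), (796, 765123, 1262703),
     (830, 795098, 1312156), (867, 827351, 1368203), (909, 863485, 1429195),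
     (956, 903297, 1498429), (1010, 948199, 1575906), (1073, 999406, 1664921),
     (1147, 1057873, 1768773), (1236, 1125696, 1890757), (1298, 1171283, 2037468)]

/-- cells -/
def sc38_0 : List (ℤ × ℤ) :=
    [(8902000, 10000000), (9507000, 5509000), (9881000, 3721000), (10000000, 3273000)]

theorem sS38_0 : tStep (tAe 19) 16484375 1298 648 sn38_0 = true := by decide +kernel

theorem sC38_0 : tCells 38 1994086 2019814 (1000 * 648, 1068187) (sn38_0.map Prod.snd) 0 sc38_0 = true := by
  decide +kernel

/-- nodes -/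
def sn38_1 : List (ℤ × ℤ × ℤ) :=
    [(1311, 1180666, 1934778), (1327, 1192129, 1955662), (1345, 1204912, 1979530),
     (1366, 1219676, 2006381), (1391, 1237039, 2037707), (1420, 1256889, 2075001),
     (1455, 1280427, 2118261), (1497, 1308064, 2170471), (1547, 1340095, 2233124),
     (1609, 1378494, 2307711), (1686, 1424142, 2400198), (1785, 1479514, 2515062),
     (1915, 1546598, 2662743), (2092, 1627888, 2856669), (2346, 1725294, 3120706),
     (2736, 1835438, 3499606), (3158, 1911097, 4081382), (3490, 1947234, 4710893),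
     (3754, 1965583, 5206149), (3961, 1975319, 5599966), (4122, 1980771, 5908755),
     (4246, 1983980, 6148924), (4341, 1985961, 6333899), (4413, 1987228, 6475614),
     (4462, 1987988, 6583019)]

/-- cells -/
def sc38_1 : List (ℤ × ℤ) :=
    [(7916000, 10000000), (7950000, 9843000), (7986000, 9685000), (8024000, 9517000),
     (8065000, 9340000), (8109000, 9150000), (8158000, 8946000), (8213000, 8720000),
     (8278000, 8467000), (8358000, 8169000), (8463000, 7807000), (8599000, 7337000),
     (8753000, 6743000), (8911000, 6097000), (9092000, 5475000), (9315000, 4829000),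
     (9627000, 4161000), (9910000, 3518000), (10000000, 3262000)]

theorem sS38_1 : tStep (tAe 19) 14917333 4462 1297 sn38_1 = true := by decide +kernel

theorem sC38_1 : tCells 38 1994086 2019814 (0, 1) (sn38_1.map Prod.snd) 0 sc38_1 = true := by
  decide +kernel

/-- nodes -/
def sn38_2 : List (ℤ × ℤ × ℤ) :=
    [(4568, 1989384, 6925965), (4651, 1990273, 7092089), (4715, 1990853, 7220951),
     (4765, 1991251, 7320315), (4803, 1991523, 7397943), (4832, 1991715, 7456940),
     (4855, 1991858, 7501965), (4867, 1991930, 7537673)]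

/-- cells -/
def sc38_2 : List (ℤ × ℤ) :=
    [(7892000, 10000000), (7902000, 9955000), (7913000, 9909000), (7926000, 9857000),
     (7941000, 9797000), (7958000, 9727000), (7978000, 9647000), (8001000, 9554000),
     (8028000, 9447000), (8061000, 9321000), (8103000, 9168000), (8158000, 8974000),
     (8236000, 8720000), (8349000, 8361000), (8524000, 7847000), (9139000, 7068000),
     (10000000, 4676000)]

theorem sS38_2 : tStep (tAe 19) 15525590 4867 4461 sn38_2 = true := by decide +kernel

theorem sC38_2 : tCells 38 1994086 2019814 (0, 1) (sn38_2.map Prod.snd) 0 sc38_2 = true := by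
  decide +kernel

theorem steps38 {r τ τ' T : ℝ → ℝ} (hr : IsProf r) (h : IsTrans 38 r τ τ' T)
    (hN : (∫ y in (-1 : ℝ)..1, r y ^ (38 - 1)) ^ 38 * aInt 38 ^ (38 - 1) ≤
      aInt (38 - 1) ^ 38 * (∫ y in (-1 : ℝ)..1, r y ^ 38) ^ (38 - 1)) {x : ℝ}
    (hx : x ∈ Ioo (0 : ℝ) 1) : ApBox3 (((38 : ℕ) : ℝ) * x ^ 2) (lf τ x) := by
  have hτ := h.mem x hx
  have hx0 := hx.1
  have hA : ∀ n a : ℤ, (tAe 19) n a = true → 0 ≤ n → n ≤ 10000 →
      ∫ t in (0 : ℝ)..((n : ℝ) / 10000), sq t ^ 38 ≤ (a : ℝ) / lsD :=
    (fun n a h0 h1 h2 => tAe_sound (h := 19) h1 h2 h0)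
  refine ⟨fun h1 => ?_, fun h0 h1 => ?_, fun h0 h1 => ?_⟩
  · have hlt := ls_lt_of (m := 38) (n := 1298) hx0 (by norm_num) h1 (by norm_num)
    exact ls_log_of hx0 hτ.1 (by norm_num) (ls_step0 (m := 38) (by norm_num) (z := 1994086) (z' := 2019814)
      (by norm_num) ls_lo38 ls_hi37 hA (by simp [sc38_0]) (n0 := 648) (nend := 1298) (c := 16484375)
      (u0 := 1068187) (by norm_num) (by norm_num) (by norm_num) (by norm_num) sS38_0 sC38_0 hr h hN hx
      hlt) (by rw [lsD_cast]; norm_num)
  · have hlt := ls_lt_of (m := 38) (n := 4462) hx0 (by norm_num) h1 (by norm_num)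
    have hge := ls_ge_of (m := 38) (n := 1297) hx0 (by norm_num) h0 (by norm_num)
    exact ls_log_of hx0 hτ.1 (by norm_num) (ls_step (m := 38) (by norm_num) (z := 1994086) (z' := 2019814)
      (by norm_num) ls_lo38 ls_hi37 hA (by simp [sc38_1]) (n0 := 1297) (nend := 4462) (c := 14917333)
      (by norm_num) sS38_1 sC38_1 hr h hN hx hge hlt) (by rw [lsD_cast]; norm_num)
  · have hlt := ls_lt_of (m := 38) (n := 4867) hx0 (by norm_num) h1 (by norm_num)
    have hge := ls_ge_of (m := 38) (n := 4461) hx0 (by norm_num) h0 (by norm_num)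
    exact ls_log_of hx0 hτ.1 (by norm_num) (ls_step (m := 38) (by norm_num) (z := 1994086) (z' := 2019814)
      (by norm_num) ls_lo38 ls_hi37 hA (by simp [sc38_2]) (n0 := 4461) (nend := 4867) (c := 15525590)
      (by norm_num) sS38_2 sC38_2 hr h hN hx hge hlt) (by rw [lsD_cast]; norm_num)

end Vale.Agent.P237.AllN
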