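import Mathlib

/-!
# P237, all dimensions: hazard bounds for the marginals of the ball

`J n φ = ∫_φ^{π/2} cos^n` and two lower bounds for it; they are used for the slope bounds of the
monotone transport between the marginals of the ball and of a body.
-/

open Real Set MeasureTheory intervalIntegral

namespace Vale.Agent.P237.AllN.Slope

/-- tail integral of `cos ^ n` -/
noncomputable def J (n : ℕ) (φ : ℝ) : ℝ := ∫ t in φ..(π / 2), cos t ^ n

theorem hasDerivAt_J (n : ℕ) (φ : ℝ) : HasDerivAt (J n) (-(cos φ ^ n)) φ := by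
  have hc : Continuous fun t : ℝ => cos t ^ n := by fun_prop
  have h : HasDerivAt (fun u => ∫ t in (π / 2)..u, cos t ^ n) (cos φ ^ n) φ :=
    hc.integral_hasStrictDerivAt (π / 2) φ |>.hasDerivAt
  have e : J n = fun u => -∫ t in (π / 2)..u, cos t ^ n := by
    funext u
    unfold J
    rw [intervalIntegral.integral_symm]
  rw [e]
  exact h.neg

theorem J_pi_div_two (n : ℕ) : J n (π / 2) = 0 := by
  unfold J
  simp

theorem continuous_J (n : ℕ) : Continuous (J n) :=
  continuous_iff_continuousAt.2 fun φ => (hasDerivAt_J n φ).continuousAt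

theorem J_pos (n : ℕ) {φ : ℝ} (h0 : 0 ≤ φ) (h1 : φ < π / 2) : 0 < J n φ := by
  unfold J
  apply intervalIntegral.intervalIntegral_pos_of_pos_on
  · exact (by fun_prop : Continuous fun t : ℝ => cos t ^ n).intervalIntegrable _ _
  · intro t ht
    exact pow_pos (cos_pos_of_mem_Ioo ⟨by linarith only [h0, h1, ht.1], ht.2⟩) n
  · exact h1

/-! ### Wallis -/

theorem J_zero_rec (n : ℕ) : J (n + 2) 0 = ((n : ℝ) + 1) / ((n : ℝ) + 2) * J n 0 := by
  unfold J
  rw [integral_cos_pow]
  simp only [cos_pi_div_two, ne_eq, Nat.add_eq_zero_iff, one_ne_zero, and_false, not_false_eq_true, zero_pow, sin_pi_div_two, mul_one, cos_zero, one_pow, sin_zero, mul_zero, sub_self, zero_div, zero_add]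

theorem J_wallis (n : ℕ) : J n 0 * J (n + 1) 0 = π / (2 * ((n : ℝ) + 1)) := by
  induction n with
  | zero =>
    unfold J
    simp
  | succ n ih =>
    have h2 : (n : ℝ) + 1 ≠ 0 := by positivity
    have h3 : (n : ℝ) + 2 ≠ 0 := by positivity
    have h5 : J (n + 1 + 1) 0 = ((n : ℝ) + 1) / ((n : ℝ) + 2) * J n 0 := J_zero_rec n
    calc J (n + 1) 0 * J (n + 1 + 1) 0
        = ((n : ℝ) + 1) / ((n : ℝ) + 2) * (J n 0 * J (n + 1) 0) := by rw [h5]; ring
      _ = ((n : ℝ) + 1) / ((n : ℝ) + 2) * (π / (2 * ((n : ℝ) + 1))) := by rw [ih]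
      _ = π / (2 * (((n + 1 : ℕ) : ℝ) + 1)) := by
        push_cast
        have h4 : (n : ℝ) + 1 + 1 ≠ 0 := by (clear * -; positivity)
        field_simp
        ring

theorem J_anti (n : ℕ) : J (n + 1) 0 ≤ J n 0 := by
  unfold J
  apply intervalIntegral.integral_mono_on (by positivity)
  · exact (by fun_prop : Continuous fun t : ℝ => cos t ^ (n + 1)).intervalIntegrable _ _
  · exact (by fun_prop : Continuous fun t : ℝ => cos t ^ n).intervalIntegrable _ _
  · intro t ht
    have h0 : 0 ≤ cos t := cos_nonneg_of_mem_Icc ⟨by linarith only [ht.1, pi_pos], ht.2⟩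
    rw [pow_succ]
    have := mul_le_mul_of_nonneg_left (cos_le_one t) (pow_nonneg h0 n)
    linarith only [this]

theorem J_sq_ge (n : ℕ) : π / (2 * ((n : ℝ) + 1)) ≤ J n 0 ^ 2 := by
  rw [← J_wallis, sq]
  have h := J_anti n
  have h0 := J_pos n le_rfl (by positivity : (0 : ℝ) < π / 2)
  exact mul_le_mul_of_nonneg_left h h0.le

theorem J_sq_le (n : ℕ) : J (n + 1) 0 ^ 2 ≤ π / (2 * ((n : ℝ) + 1)) := by
  rw [← J_wallis, sq]
  have h := J_anti n
  have h0 := J_pos (n + 1) le_rfl (by positivity : (0 : ℝ) < π / 2)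
  exact mul_le_mul_of_nonneg_right h h0.le

/-! ### first hazard bound -/

theorem hazard_one (m : ℕ) {φ : ℝ} (h0 : 0 ≤ φ) (h1 : φ ≤ π / 2) :
    (m : ℝ) * (sin φ * cos φ ^ (m + 2)) ≤
      ((m : ℝ) + 1) * (1 + m * sin φ ^ 2) * J (m + 1) φ := by
  set D : ℝ → ℝ := fun t => J (m + 1) t -
    (m : ℝ) / (m + 1) * (sin t * cos t ^ (m + 2) / (1 + m * sin t ^ 2)) with hD
  have hden : ∀ t : ℝ, 0 < 1 + (m : ℝ) * sin t ^ 2 := fun t => by (clear * -; positivity)
  have hm1 : (0 : ℝ) < (m : ℝ) + 1 := by positivity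
  have hder : ∀ t : ℝ, HasDerivAt D (-(cos t ^ (m + 1)) -
      (m : ℝ) / (m + 1) * (((cos t * cos t ^ (m + 2) + sin t * (((m + 2 : ℕ) : ℝ) * cos t ^ (m + 1) * (-sin t))) *
        (1 + m * sin t ^ 2) - (sin t * cos t ^ (m + 2)) * (m * (2 * sin t * cos t))) /
          (1 + m * sin t ^ 2) ^ 2)) t := by
    intro t
    have hs := hasDerivAt_sin t
    have hc := hasDerivAt_cos t
    have e1 := hs.mul (hc.pow (m + 2))
    have e2 : HasDerivAt (fun t : ℝ => 1 + (m : ℝ) * sin t ^ 2) (m * (2 * sin t * cos t)) t := by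
      have := ((hs.pow 2).const_mul (m : ℝ)).const_add 1
      refine this.congr_deriv ?_
      simp only [Nat.cast_ofNat, Nat.add_one_sub_one, pow_one]
    have e3 := (e1.div e2 (hden t).ne').const_mul ((m : ℝ) / (m + 1))
    exact (hasDerivAt_J (m + 1) t).sub e3
  have hanti : AntitoneOn D (Icc φ (π / 2)) := by
    apply antitoneOn_of_deriv_nonpos (convex_Icc _ _)
    · exact fun t _ => (hder t).continuousAt.continuousWithinAt
    · exact fun t _ => (hder t).differentiableAt.differentiableWithinAt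
    · intro t ht
      rw [interior_Icc] at ht
      rw [(hder t).deriv]
      have hct : 0 < cos t := cos_pos_of_mem_Ioo ⟨by linarith only [h0, h1, ht.1], ht.2⟩
      have hcs : cos t ^ 2 = 1 - sin t ^ 2 := by have := sin_sq_add_cos_sq t; linarith only [this]
      have hsl : sin t ^ 2 ≤ 1 := by have := sin_sq_add_cos_sq t; nlinarith only [hcs]
      have key : -(cos t ^ (m + 1)) -
          (m : ℝ) / (m + 1) * (((cos t * cos t ^ (m + 2) + sin t * (((m + 2 : ℕ) : ℝ) * cos t ^ (m + 1) * (-sin t))) *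
          (1 + m * sin t ^ 2) - (sin t * cos t ^ (m + 2)) * (m * (2 * sin t * cos t))) /
          (1 + m * sin t ^ 2) ^ 2) =
          -(cos t ^ (m + 1) * (2 * m + 1 - m * sin t ^ 2)) / ((m + 1) * (1 + m * sin t ^ 2) ^ 2) := by
        have hd := (hden t).ne'
        have hm' := hm1.ne'
        have hp : cos t ^ (m + 2) = cos t ^ (m + 1) * cos t := by ring
        rw [hp]
        have hnum : (cos t * (cos t ^ (m + 1) * cos t) + sin t * (((m + 2 : ℕ) : ℝ) * cos t ^ (m + 1) * (-sin t))) *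
          (1 + m * sin t ^ 2) - (sin t * (cos t ^ (m + 1) * cos t)) * (m * (2 * sin t * cos t)) =
          cos t ^ (m + 1) * (1 - (2 * m + 3) * sin t ^ 2 - m * (m + 1) * (sin t ^ 2) ^ 2) := by
          have e : cos t ^ (m + 1) * ((cos t ^ 2 - ((m : ℝ) + 2) * sin t ^ 2) * (1 + m * sin t ^ 2) -
              2 * m * sin t ^ 2 * cos t ^ 2) = cos t ^ (m + 1) *
              (1 - (2 * m + 3) * sin t ^ 2 - m * (m + 1) * (sin t ^ 2) ^ 2) := by
            rw [hcs]; ring
          rw [← e]
          push_cast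
          ring
        rw [hnum]
        field_simp
        ring
      rw [key]
      apply div_nonpos_of_nonpos_of_nonneg
      · rw [neg_nonpos]
        apply mul_nonneg (pow_nonneg hct.le _)
        have : (0:ℝ) ≤ m := Nat.cast_nonneg m
        nlinarith only [hcs]
      · (clear * -; positivity)
  have hpi : D (π / 2) = 0 := by
    simp only [hD]
    rw [J_pi_div_two]
    simp
  have h := hanti ⟨le_rfl, h1⟩ ⟨h1, le_rfl⟩ h1
  rw [hpi] at h
  simp only [hD] at h
  have hd := hden φ
  have h2 : (m : ℝ) / (m + 1) * (sin φ * cos φ ^ (m + 2) / (1 + m * sin φ ^ 2)) ≤ J (m + 1) φ := by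
    linarith only [h]
  rw [div_mul_div_comm, div_le_iff₀ (by (clear * -; positivity))] at h2
  linarith only [h2]

end Vale.Agent.P237.AllN.Slope
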