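import Vale.Agent.P237.AllN.ConsN
import Vale.Agent.P237.AllN.Slope1
import Vale.Agent.P237.Alm.Prof

/-!
# P237, all dimensions: a priori bound for the transport under the constraint `N ≤ N_B`

Two single-crossing arguments. (1) Among the concave profiles with a given value at `0`, the ratio
`(∫ r^(m-1))^m / (∫ r^m)^(m-1)` is minimal for the profile which is constant and then linear down
to `0` at `1`. (2) Among the concave profiles with a given value at `0` and a given mass, the linear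
one has the largest tails.
-/

open MeasureTheory Metric Set Module Filter Topology

namespace Vale.Agent.P237.AllN

/-! ### The function `W` -/

/-- auxiliary function, `m = k + 2` -/
noncomputable def apW (k : ℕ) (r0 ρ : ℝ) : ℝ :=
  ((k : ℝ) + 2) ^ 2 * r0 * ρ ^ (k + 1) - (((k : ℝ) + 2) ^ 2 - 1) * ρ ^ (k + 2)

theorem apW_hasDerivAt (k : ℕ) (r0 ρ : ℝ) : HasDerivAt (apW k r0)
    (((k : ℝ) + 2) * ((k : ℝ) + 1) * ρ ^ k * (((k : ℝ) + 2) * r0 - ((k : ℝ) + 3) * ρ)) ρ := by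
  unfold apW
  have h1 := ((hasDerivAt_pow (k + 1) ρ).const_mul (((k : ℝ) + 2) ^ 2 * r0)).sub
    ((hasDerivAt_pow (k + 2) ρ).const_mul (((k : ℝ) + 2) ^ 2 - 1))
  refine h1.congr_deriv ?_
  have e1 : k + 1 - 1 = k := by omega
  have e2 : k + 2 - 1 = k + 1 := by omega
  rw [e1, e2]
  push_cast
  ring

theorem apW_cont (k : ℕ) (r0 : ℝ) : Continuous (apW k r0) :=
  continuous_iff_continuousAt.2 fun x => (apW_hasDerivAt k r0 x).continuousAt

theorem apW_mono {k : ℕ} {r0 a b : ℝ} (ha : 0 ≤ a) (hab : a ≤ b)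
    (hb : ((k : ℝ) + 3) * b ≤ ((k : ℝ) + 2) * r0) : apW k r0 a ≤ apW k r0 b := by
  have h : MonotoneOn (apW k r0) (Icc a b) := by
    apply monotoneOn_of_deriv_nonneg (convex_Icc a b) (apW_cont k r0).continuousOn
    · exact fun x _ => (apW_hasDerivAt k r0 x).differentiableAt.differentiableWithinAt
    · intro x hx
      rw [interior_Icc] at hx
      rw [(apW_hasDerivAt k r0 x).deriv]
      have hx0 : 0 ≤ x := ha.trans hx.1.le
      have h1 : ((k : ℝ) + 3) * x ≤ ((k : ℝ) + 3) * b :=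
        mul_le_mul_of_nonneg_left hx.2.le (by (clear * -; positivity))
      exact mul_nonneg (by positivity) (by linarith)
  exact h ⟨le_rfl, hab⟩ ⟨hab, le_rfl⟩ hab

theorem apW_anti {k : ℕ} {r0 a b : ℝ} (ha0 : 0 ≤ a)
    (ha : ((k : ℝ) + 2) * r0 ≤ ((k : ℝ) + 3) * a) (hab : a ≤ b) :
    apW k r0 b ≤ apW k r0 a := by
  have h : AntitoneOn (apW k r0) (Icc a b) := by
    apply antitoneOn_of_deriv_nonpos (convex_Icc a b) (apW_cont k r0).continuousOn
    · exact fun x _ => (apW_hasDerivAt k r0 x).differentiableAt.differentiableWithinAt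
    · intro x hx
      rw [interior_Icc] at hx
      rw [(apW_hasDerivAt k r0 x).deriv]
      have hx0 : 0 ≤ x := ha0.trans hx.1.le
      have h1 : ((k : ℝ) + 3) * a ≤ ((k : ℝ) + 3) * x :=
        mul_le_mul_of_nonneg_left hx.1.le (by positivity)
      exact mul_nonpos_of_nonneg_of_nonpos (by positivity) (by linarith only [ha, h1])
  exact h ⟨le_rfl, hab⟩ ⟨hab, le_rfl⟩ hab

theorem apW_self (k : ℕ) (r0 : ℝ) : apW k r0 r0 = r0 ^ (k + 2) := by
  unfold apW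
  ring

/-! ### Concavity -/

theorem ap_ratio {r : ℝ → ℝ} (hr : IsProf r) {y z : ℝ} (h0 : 0 ≤ y) (hyz : y ≤ z) (hz : z ≤ 1) :
    r y * (1 - z) ≤ r z * (1 - y) := by
  rcases eq_or_lt_of_le (hyz.trans hz) with h | h
  · have h1 : y = 1 := h
    have h2 : z = 1 := le_antisymm hz (h1 ▸ hyz)
    rw [h1, h2]
  · have h1 : 0 < 1 - y := by linarith only [h]
    have ha : 0 ≤ (1 - z) / (1 - y) := div_nonneg (by linarith only [hz]) h1.le
    have hb : 0 ≤ (z - y) / (1 - y) := div_nonneg (by linarith only [hyz]) h1.le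
    have hab : (1 - z) / (1 - y) + (z - y) / (1 - y) = 1 := by
      field_simp
      ring
    have hc := hr.conc.2 (show y ∈ Icc (-1 : ℝ) 1 from ⟨by linarith only [h0], by linarith only [hyz, hz]⟩)
      (show (1 : ℝ) ∈ Icc (-1 : ℝ) 1 from ⟨by norm_num, le_rfl⟩) ha hb hab
    simp only [smul_eq_mul] at hc
    have e : (1 - z) / (1 - y) * y + (z - y) / (1 - y) * 1 = z := by
      field_simp
      ring
    rw [e] at hc
    have h2 : 0 ≤ (z - y) / (1 - y) * r 1 := mul_nonneg (div_nonneg (by linarith only [hyz]) h1.le) hr.nonneg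
    have h3 : (1 - z) / (1 - y) * r y ≤ r z := by linarith only [hc, h2]
    have h4 := mul_le_mul_of_nonneg_right h3 h1.le
    have e2 : (1 - z) / (1 - y) * r y * (1 - y) = r y * (1 - z) := by
      field_simp
    rw [e2] at h4
    exact h4

/-- the comparison profile -/
noncomputable def aph (r0 c y : ℝ) : ℝ := min r0 ((1 - y) / c)

theorem aph_cont (r0 c : ℝ) : Continuous (aph r0 c) := by
  unfold aph
  (clear * -; fun_prop)

theorem aph_int {r0 c : ℝ} (hr0 : 0 < r0) (hc : 0 < c) (hcr : c * r0 ≤ 1) (j : ℕ) :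
    ∫ y in (0 : ℝ)..1, aph r0 c y ^ j =
      (1 - c * r0) * r0 ^ j + c * r0 ^ (j + 1) / ((j : ℝ) + 1) := by
  have hcont : Continuous fun y => aph r0 c y ^ j := (aph_cont r0 c).pow j
  rw [← intervalIntegral.integral_add_adjacent_intervals (b := 1 - c * r0)
    (hcont.intervalIntegrable _ _) (hcont.intervalIntegrable _ _)]
  have hcr0 : 0 < c * r0 := mul_pos hc hr0
  congr 1
  · have h1 : EqOn (fun y => aph r0 c y ^ j) (fun _ => r0 ^ j) (uIcc 0 (1 - c * r0)) := by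
      intro y hy
      rw [uIcc_of_le (by linarith only [hcr])] at hy
      show aph r0 c y ^ j = r0 ^ j
      unfold aph
      rw [min_eq_left]
      rw [le_div_iff₀ hc]
      nlinarith only [hy.2]
    rw [intervalIntegral.integral_congr h1, intervalIntegral.integral_const, smul_eq_mul]
    ring
  · have h1 : EqOn (fun y => aph r0 c y ^ j) (fun y => (fun x => (x / c) ^ j) (1 - y))
        (uIcc (1 - c * r0) 1) := by
      intro y hy
      rw [uIcc_of_le (by linarith only [hcr0])] at hy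
      show aph r0 c y ^ j = ((1 - y) / c) ^ j
      unfold aph
      rw [min_eq_right]
      rw [div_le_iff₀ hc]
      nlinarith only [hy.1]
    rw [intervalIntegral.integral_congr h1, intervalIntegral.integral_comp_sub_left
      (fun x => (x / c) ^ j) 1]
    have e1 : (1 : ℝ) - 1 = 0 := by ring
    have e2 : (1 : ℝ) - (1 - c * r0) = c * r0 := by ring
    rw [e1, e2]
    have e3 : (fun x : ℝ => (x / c) ^ j) = fun x => x ^ j * (c ^ j)⁻¹ := by
      funext x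
      rw [div_pow, div_eq_mul_inv]
    rw [e3, intervalIntegral.integral_mul_const, integral_pow, mul_pow]
    have hcj : c ^ j ≠ 0 := pow_ne_zero _ hc.ne'
    field_simp
    ring

theorem apW_aph_int {k : ℕ} {r0 c : ℝ} (hr0 : 0 < r0) (hc : 0 < c) (hcr : c * r0 ≤ 1) :
    ∫ y in (0 : ℝ)..1, apW k r0 (aph r0 c y) = r0 ^ (k + 2) := by
  unfold apW
  rw [intervalIntegral.integral_sub, intervalIntegral.integral_const_mul,
    intervalIntegral.integral_const_mul, aph_int hr0 hc hcr, aph_int hr0 hc hcr]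
  · push_cast
    have h1 : ((k : ℝ) + 1 + 1) ≠ 0 := by positivity
    have h2 : ((k : ℝ) + 2 + 1) ≠ 0 := by (clear * -; positivity)
    field_simp
    ring
  · exact (((aph_cont r0 c).pow (k + 1)).const_mul _).intervalIntegrable _ _
  · exact (((aph_cont r0 c).pow (k + 2)).const_mul _).intervalIntegrable _ _

/-- **First comparison.** -/
theorem apri_one (k : ℕ) {r : ℝ → ℝ} (hr : IsProf r) :
    r 0 ^ (k + 2) + (((k : ℝ) + 2) ^ 2 - 1) * (∫ y in (0 : ℝ)..1, r y ^ (k + 2)) ≤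
      ((k : ℝ) + 2) ^ 2 * r 0 * ∫ y in (0 : ℝ)..1, r y ^ (k + 1) := by
  have hr0 : 0 < r 0 := hr.pos 0 ⟨by norm_num, by norm_num⟩
  have hanti := Alm.prof_anti hr
  have hW : ∫ y in (0 : ℝ)..1, apW k (r 0) (r y) =
      ((k : ℝ) + 2) ^ 2 * r 0 * (∫ y in (0 : ℝ)..1, r y ^ (k + 1)) -
        (((k : ℝ) + 2) ^ 2 - 1) * ∫ y in (0 : ℝ)..1, r y ^ (k + 2) := by
    unfold apW
    rw [intervalIntegral.integral_sub, intervalIntegral.integral_const_mul,
      intervalIntegral.integral_const_mul]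
    · exact (cn_r_ii hr (k + 1)).const_mul _
    · exact (cn_r_ii hr (k + 2)).const_mul _
  have hWii : IntervalIntegrable (fun y => apW k (r 0) (r y)) volume 0 1 := by
    unfold apW
    exact ((cn_r_ii hr (k + 1)).const_mul _).sub ((cn_r_ii hr (k + 2)).const_mul _)
  suffices h : r 0 ^ (k + 2) ≤ ∫ y in (0 : ℝ)..1, apW k (r 0) (r y) by linarith
  set r0 := r 0 with hr0def
  set ρ : ℝ := ((k : ℝ) + 2) * r0 / ((k : ℝ) + 3) with hρ
  have hk3 : (0 : ℝ) < (k : ℝ) + 3 := by (clear * -; positivity)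
  have hρ0 : 0 < ρ := by (clear * - hr0; positivity)
  have hρe : ((k : ℝ) + 3) * ρ = ((k : ℝ) + 2) * r0 := by
    rw [hρ]
    (clear * - hr0; field_simp)
  have hρr : ρ ≤ r0 := by
    rw [hρ, div_le_iff₀ hk3]
    nlinarith only [hr0]
  set S : Set ℝ := {y ∈ Icc (0 : ℝ) 1 | ρ ≤ r y} with hS
  have hS0 : (0 : ℝ) ∈ S := ⟨⟨le_rfl, zero_le_one⟩, hρr⟩
  have hSb : BddAbove S := ⟨1, fun y hy => hy.1.2⟩
  set ys := sSup S with hys
  have hys0 : 0 ≤ ys := le_csSup hSb hS0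
  have hys1 : ys ≤ 1 := csSup_le ⟨0, hS0⟩ fun y hy => hy.1.2
  rcases eq_or_lt_of_le hys1 with h1 | h1
  · -- `ys = 1`
    have h2 : ∀ y ∈ Ioo (0 : ℝ) 1, ρ ≤ r y := by
      intro y hy
      have h3 : y < sSup S := by rw [← hys, h1]; exact hy.2
      obtain ⟨z, hz, hyz⟩ := exists_lt_of_lt_csSup ⟨0, hS0⟩ h3
      exact hz.2.trans (hanti ⟨hy.1.le, hy.2.le⟩ hz.1 hyz.le)
    have h4 : ∫ y in (0 : ℝ)..1, r0 ^ (k + 2) ≤ ∫ y in (0 : ℝ)..1, apW k r0 (r y) := by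
      apply intervalIntegral.integral_mono_on_of_le_Ioo zero_le_one
        (by simp) hWii
      intro y hy
      rw [← apW_self]
      exact apW_anti (hρ0.le.trans (h2 y hy)) (by nlinarith only [hρe, h2 y hy])
        (Alm.prof_le_zero hr ⟨hy.1.le, hy.2.le⟩)
    rw [intervalIntegral.integral_const, smul_eq_mul, sub_zero, one_mul] at h4
    exact h4
  · -- `ys < 1`
    have h1' : 0 < 1 - ys := by linarith only [h1]
    have hgt : ∀ y ∈ Icc (0 : ℝ) 1, ys < y → r y ≤ ρ := by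
      intro y hy hyy
      by_contra hcon
      push Not at hcon
      have : y ≤ ys := le_csSup hSb ⟨hy, hcon.le⟩
      linarith only [hyy, this]
    -- claim 1
    have c1 : ∀ y ∈ Icc (0 : ℝ) 1, y ≤ ys → r y * (1 - ys) ≤ ρ * (1 - y) := by
      intro y hy hyy
      have hry : 0 ≤ r y := Alm.prof_nn hr hy
      apply le_of_forall_pos_le_add
      intro ε hε
      set δ : ℝ := min ((1 - ys) / 2) (ε / (r0 + 1)) with hδ
      have hδ0 : 0 < δ := lt_min (by linarith only [h1]) (by (clear * - hε hr0; positivity))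
      have hδ1 : δ ≤ (1 - ys) / 2 := min_le_left _ _
      have hδ2 : δ * (r0 + 1) ≤ ε := by
        have := min_le_right ((1 - ys) / 2) (ε / (r0 + 1))
        rw [← hδ, le_div_iff₀ (by positivity)] at this
        exact this
      have h5 := ap_ratio hr hy.1 (show y ≤ ys + δ by linarith only [hyy, hδ0]) (by linarith only [hδ0, hδ1])
      have h6 := hgt (ys + δ) ⟨by linarith only [hys0, hδ0], by linarith only [hδ0, hδ1]⟩ (by linarith only [hδ0])
      have h7 : r y ≤ r0 := Alm.prof_le_zero hr hy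
      have h8 : 0 ≤ 1 - y := by linarith only [hyy, hδ0, hδ1]
      nlinarith only [hδ0, hδ2, h5, h6, h8, hry, hε, h7]
    -- claim 2
    have c2 : ∀ y ∈ Icc (0 : ℝ) 1, ys ≤ y → ρ * (1 - y) ≤ r y * (1 - ys) := by
      intro y hy hyy
      have hry : 0 ≤ r y := Alm.prof_nn hr hy
      apply le_of_forall_pos_le_add
      intro ε hε
      obtain ⟨z, hz, hzz⟩ := exists_lt_of_lt_csSup ⟨0, hS0⟩
        (show ys - ε / (r0 + 1) < sSup S by
          have : 0 < ε / (r0 + 1) := by (clear * - hε hr0; positivity)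
          rw [← hys]; linarith only [this])
      have hzy : z ≤ y := (le_csSup hSb hz).trans hyy
      have h5 := ap_ratio hr hz.1.1 hzy hy.2
      have h6 := hz.2
      have h7 : r y ≤ r0 := Alm.prof_le_zero hr hy
      have h8 : 0 ≤ 1 - y := by linarith only [hy.2]
      have h9 : ε / (r0 + 1) * (r0 + 1) = ε := by (clear * - hr0 hε; field_simp)
      have h10 : 0 < ε / (r0 + 1) := by (clear * - hε hr0; positivity)
      nlinarith only [h5, h9, h10, h6, h8, h7, hzz, hry]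
    have hysmem : ys ∈ Icc (0 : ℝ) 1 := ⟨hys0, hys1⟩
    have e1 : r ys ≤ ρ := by
      have := c1 ys hysmem le_rfl
      exact le_of_mul_le_mul_right this h1'
    have e2 : ρ ≤ r ys := by
      have := c2 ys hysmem le_rfl
      exact le_of_mul_le_mul_right this h1'
    set c : ℝ := (1 - ys) / ρ with hc
    have hc0 : 0 < c := div_pos h1' hρ0
    have hcr : c * r0 ≤ 1 := by
      have h5 := c1 0 ⟨le_rfl, zero_le_one⟩ hys0
      rw [hc, div_mul_eq_mul_div, div_le_one hρ0]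
      nlinarith only [h5]
    have hcρ : c * ρ = 1 - ys := by
      rw [hc]
      (clear * - hρ0 h1; field_simp)
    rw [← apW_aph_int hr0 hc0 hcr (k := k)]
    apply intervalIntegral.integral_mono_on zero_le_one
      (((apW_cont k r0).comp (aph_cont r0 c)).intervalIntegrable _ _) hWii
    intro y hy
    rcases le_total y ys with hyy | hyy
    · have h5 := c1 y hy hyy
      have h6 : ρ ≤ r y := e2.trans (hanti hy hysmem hyy)
      have h7 : r y ≤ aph r0 c y := by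
        unfold aph
        apply le_min (Alm.prof_le_zero hr hy)
        rw [le_div_iff₀ hc0]
        have : r y * (c * ρ) ≤ ρ * (1 - y) := by rw [hcρ]; exact h5
        nlinarith only [this, hρ0]
      exact apW_anti (hρ0.le.trans h6) (by nlinarith only [hρe, h6]) h7
    · have h5 := c2 y hy hyy
      have h6 : r y ≤ ρ := (hanti hysmem hy hyy).trans e1
      have h7 : (1 - y) / c ≤ r y := by
        rw [div_le_iff₀ hc0]
        have : ρ * (1 - y) ≤ r y * (c * ρ) := by rw [hcρ]; exact h5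
        nlinarith only [this, hρ0]
      have h8 : aph r0 c y ≤ r y := (min_le_right _ _).trans h7
      have h9 : 0 ≤ aph r0 c y := le_min hr0.le (div_nonneg (by linarith only [hy.2]) hc0.le)
      exact apW_mono h9 h8 (by nlinarith only [hρe, h6])

/-! ### The linear profile has the largest tails -/

theorem ap_lin_int {κ : ℝ} (hκ : 0 < κ) (m : ℕ) (a b r0 : ℝ) :
    ∫ y in a..b, (r0 * (1 - κ * y)) ^ m =
      r0 ^ m * ((1 - κ * a) ^ (m + 1) - (1 - κ * b) ^ (m + 1)) / (((m : ℝ) + 1) * κ) := by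
  have h : ∀ y : ℝ, HasDerivAt (fun y => -(r0 ^ m * (1 - κ * y) ^ (m + 1) / (((m : ℝ) + 1) * κ)))
      ((r0 * (1 - κ * y)) ^ m) y := by
    intro y
    have h1 : HasDerivAt (fun y : ℝ => 1 - κ * y) (-κ) y := by
      have := ((hasDerivAt_id y).const_mul κ).const_sub 1
      simpa only [id_eq, mul_one] using this
    have h2 := (((h1.pow (m + 1)).const_mul (r0 ^ m)).div_const (((m : ℝ) + 1) * κ)).neg
    refine h2.congr_deriv ?_
    have e : m + 1 - 1 = m := by omega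
    rw [e, mul_pow]
    push_cast
    have hm : ((m : ℝ) + 1) ≠ 0 := by (clear * -; positivity)
    field_simp
  rw [intervalIntegral.integral_eq_sub_of_hasDerivAt (fun y _ => h y)
    ((by fun_prop : Continuous fun y : ℝ => (r0 * (1 - κ * y)) ^ m).intervalIntegrable _ _)]
  ring

theorem apri_two (m : ℕ) {r : ℝ → ℝ} (hr : IsProf r) {κ : ℝ} (hκ : 0 < κ) (hκ1 : κ ≤ 1)
    (hI : (∫ y in (0 : ℝ)..1, r y ^ m) * (((m : ℝ) + 1) * κ) ≤
      r 0 ^ m * (1 - (1 - κ) ^ (m + 1))) {τ : ℝ} (hτ : τ ∈ Ioo (0 : ℝ) 1) :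
    (1 - (1 - κ * τ) ^ (m + 1)) * (∫ y in (0 : ℝ)..1, r y ^ m) ≤
      (1 - (1 - κ) ^ (m + 1)) * ∫ y in (0 : ℝ)..τ, r y ^ m := by
  have hr0 : 0 < r 0 := hr.pos 0 ⟨by norm_num, by norm_num⟩
  have hm0 : (0 : ℝ) < ((m : ℝ) + 1) * κ := by (clear * - hκ; positivity)
  have hmem : ∀ y ∈ Icc (0 : ℝ) 1, y ∈ Icc (-1 : ℝ) 1 := fun y hy => ⟨by linarith only [hy.1], hy.2⟩
  have h01 : (0 : ℝ) ∈ Icc (0 : ℝ) 1 := ⟨le_rfl, zero_le_one⟩
  have h11 : (1 : ℝ) ∈ Icc (0 : ℝ) 1 := ⟨zero_le_one, le_rfl⟩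
  have hτ1 : τ ∈ Icc (0 : ℝ) 1 := ⟨hτ.1.le, hτ.2.le⟩
  set I := ∫ y in (0 : ℝ)..1, r y ^ m with hIdef
  set J := ∫ y in (0 : ℝ)..τ, r y ^ m with hJdef
  have hu0 : 0 ≤ 1 - κ * τ := by nlinarith only [hκ1, hκ, hτ.2]
  have hu1 : 1 - κ * τ ≤ 1 := by nlinarith only [hκ, hτ.1]
  have hv0 : 0 ≤ 1 - κ := by linarith only [hκ1]
  have hvu : 1 - κ ≤ 1 - κ * τ := by nlinarith only [hκ, hτ.2]
  have hpu : (1 - κ * τ) ^ (m + 1) ≤ 1 := pow_le_one₀ hu0 hu1
  have hpv : (1 - κ) ^ (m + 1) ≤ (1 - κ * τ) ^ (m + 1) := pow_le_pow_left₀ hv0 hvu _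
  have hpv1 : (1 - κ) ^ (m + 1) ≤ 1 := hpv.trans hpu
  -- concavity of `r - ρ ℓ`
  have hchord : ∀ y ∈ Icc (0 : ℝ) τ, (1 - y / τ) * r 0 + y / τ * r τ ≤ r y := by
    intro y hy
    have ha : 0 ≤ 1 - y / τ := by
      rw [sub_nonneg, div_le_one hτ.1]
      exact hy.2
    have hb : 0 ≤ y / τ := div_nonneg hy.1 hτ.1.le
    have hc := hr.conc.2 (hmem 0 h01) (hmem τ hτ1) ha hb (by ring)
    simp only [smul_eq_mul] at hc
    have e : (1 - y / τ) * 0 + y / τ * τ = y := by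
      have := hτ.1.ne'
      field_simp
      ring
    rw [e] at hc
    exact hc
  have hspl : I = J + ∫ y in τ..1, r y ^ m := by
    rw [hIdef, hJdef, intervalIntegral.integral_add_adjacent_intervals
      (Alm.prof_pow_ii hr m h01 hτ1) (Alm.prof_pow_ii hr m hτ1 h11)]
  rcases le_total (r 0 * (1 - κ * τ)) (r τ) with hcase | hcase
  · -- case 1
    have h1 : ∀ y ∈ Icc (0 : ℝ) τ, r 0 * (1 - κ * y) ≤ r y := by
      intro y hy
      have h2 := hchord y hy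
      have hb : 0 ≤ y / τ := div_nonneg hy.1 hτ.1.le
      have h3 := mul_le_mul_of_nonneg_left hcase hb
      have e : y / τ * (r 0 * (1 - κ * τ)) = y / τ * r 0 - κ * y * r 0 := by
        have := hτ.1.ne'
        (clear * - this hr0; field_simp)
      linarith
    have h4 : r 0 ^ m * (1 - (1 - κ * τ) ^ (m + 1)) / (((m : ℝ) + 1) * κ) ≤ J := by
      have h5 : ∫ y in (0 : ℝ)..τ, (r 0 * (1 - κ * y)) ^ m ≤ J := by
        apply intervalIntegral.integral_mono_on hτ.1.le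
          ((by fun_prop : Continuous fun y : ℝ => (r 0 * (1 - κ * y)) ^ m).intervalIntegrable _ _)
          (Alm.prof_pow_ii hr m h01 hτ1)
        intro y hy
        apply pow_le_pow_left₀ _ (h1 y hy)
        apply mul_nonneg hr0.le
        nlinarith only [hu0, hκ, hy.2]
      rw [ap_lin_int hκ] at h5
      simpa only [ge_iff_le, mul_zero, sub_zero, one_pow] using h5
    rw [div_le_iff₀ hm0] at h4
    have h6 : 0 ≤ 1 - (1 - κ * τ) ^ (m + 1) := by linarith only [hpu]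
    have h7 : 0 ≤ 1 - (1 - κ) ^ (m + 1) := by linarith only [hpu, hpv]
    have h8 := mul_le_mul_of_nonneg_left hI h6
    have h9 := mul_le_mul_of_nonneg_left h4 h7
    have h10 : (1 - (1 - κ * τ) ^ (m + 1)) * I * (((m : ℝ) + 1) * κ) ≤
        (1 - (1 - κ) ^ (m + 1)) * J * (((m : ℝ) + 1) * κ) := by linarith
    exact le_of_mul_le_mul_right h10 hm0
  · -- case 2
    have hℓ : 0 < r 0 * (1 - κ * τ) := by
      apply mul_pos hr0
      nlinarith only [hκ1, hκ, hτ.2]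
    set ρ : ℝ := r τ / (r 0 * (1 - κ * τ)) with hρ
    have hρ0 : 0 ≤ ρ := div_nonneg (Alm.prof_nn hr hτ1) hℓ.le
    have hρ1 : ρ ≤ 1 := (div_le_one hℓ).2 hcase
    have hρe : ρ * (r 0 * (1 - κ * τ)) = r τ := div_mul_cancel₀ _ hℓ.ne'
    have h1 : ∀ y ∈ Icc (0 : ℝ) τ, ρ * (r 0 * (1 - κ * y)) ≤ r y := by
      intro y hy
      have h2 := hchord y hy
      have ha : 0 ≤ 1 - y / τ := by
        rw [sub_nonneg, div_le_one hτ.1]
        exact hy.2
      rw [← hρe] at h2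
      have h3 : ρ * (r 0 * (1 - κ * y)) ≤
          (1 - y / τ) * r 0 + y / τ * (ρ * (r 0 * (1 - κ * τ))) := by
        have e : y / τ * (ρ * (r 0 * (1 - κ * τ))) = ρ * r 0 * (y / τ) - ρ * r 0 * κ * y := by
          have := hτ.1.ne'
          (clear * - this hr0; field_simp)
        rw [e]
        have h4 : ρ * ((1 - y / τ) * r 0) ≤ 1 * ((1 - y / τ) * r 0) :=
          mul_le_mul_of_nonneg_right hρ1 (mul_nonneg ha hr0.le)
        nlinarith only [h4]
      exact h3.trans h2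
    have h1' : ∀ y ∈ Icc τ 1, r y ≤ ρ * (r 0 * (1 - κ * y)) := by
      intro y hy
      have hy0 : 0 < y := hτ.1.trans_le hy.1
      have ha : 0 ≤ 1 - τ / y := by
        rw [sub_nonneg, div_le_one hy0]
        exact hy.1
      have hb : 0 < τ / y := div_pos hτ.1 hy0
      have hc := hr.conc.2 (hmem 0 h01) (hmem y ⟨hy0.le, hy.2⟩) ha hb.le (by ring)
      simp only [smul_eq_mul] at hc
      have e : (1 - τ / y) * 0 + τ / y * y = τ := by
        field_simp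
        ring
      rw [e, ← hρe] at hc
      have h4 : ρ * ((1 - τ / y) * r 0) ≤ 1 * ((1 - τ / y) * r 0) :=
        mul_le_mul_of_nonneg_right hρ1 (mul_nonneg ha hr0.le)
      have h5 : τ / y * r y ≤ τ / y * (ρ * (r 0 * (1 - κ * y))) := by
        have e2 : τ / y * (ρ * (r 0 * (1 - κ * y))) = ρ * r 0 * (τ / y) - ρ * r 0 * κ * τ := by
          (clear * - hy0 hr0; field_simp)
        rw [e2]
        nlinarith only [hc, h4]
      exact le_of_mul_le_mul_left h5 hb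
    have h4 : ρ ^ m * (r 0 ^ m * (1 - (1 - κ * τ) ^ (m + 1)) / (((m : ℝ) + 1) * κ)) ≤ J := by
      have h5 : ∫ y in (0 : ℝ)..τ, ρ ^ m * (r 0 * (1 - κ * y)) ^ m ≤ J := by
        apply intervalIntegral.integral_mono_on hτ.1.le
          ((by fun_prop : Continuous fun y : ℝ =>
            ρ ^ m * (r 0 * (1 - κ * y)) ^ m).intervalIntegrable _ _)
          (Alm.prof_pow_ii hr m h01 hτ1)
        intro y hy
        rw [← mul_pow]
        apply pow_le_pow_left₀ _ (h1 y hy)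
        apply mul_nonneg hρ0 (mul_nonneg hr0.le _)
        nlinarith only [hu0, hκ, hy.2]
      rw [intervalIntegral.integral_const_mul, ap_lin_int hκ] at h5
      simpa only [ge_iff_le, mul_zero, sub_zero, one_pow] using h5
    have h5 : ∫ y in τ..1, r y ^ m ≤
        ρ ^ m * (r 0 ^ m * ((1 - κ * τ) ^ (m + 1) - (1 - κ) ^ (m + 1)) / (((m : ℝ) + 1) * κ)) := by
      have h6 : ∫ y in τ..1, r y ^ m ≤ ∫ y in τ..1, ρ ^ m * (r 0 * (1 - κ * y)) ^ m := by
        apply intervalIntegral.integral_mono_on hτ.2.le (Alm.prof_pow_ii hr m hτ1 h11)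
          ((by fun_prop : Continuous fun y : ℝ =>
            ρ ^ m * (r 0 * (1 - κ * y)) ^ m).intervalIntegrable _ _)
        intro y hy
        rw [← mul_pow]
        exact pow_le_pow_left₀ (Alm.prof_nn hr ⟨hτ.1.le.trans hy.1, hy.2⟩) (h1' y hy) _
      rw [intervalIntegral.integral_const_mul, ap_lin_int hκ] at h6
      simpa only [ge_iff_le, mul_one] using h6
    rw [hspl]
    have h6 : 0 ≤ 1 - (1 - κ * τ) ^ (m + 1) := by linarith only [hpu]
    have h7 : 0 ≤ (1 - κ * τ) ^ (m + 1) - (1 - κ) ^ (m + 1) := by linarith only [hpv]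
    have h8 := mul_le_mul_of_nonneg_left h5 h6
    have h9 := mul_le_mul_of_nonneg_left h4 h7
    have e : (1 - (1 - κ * τ) ^ (m + 1)) * (ρ ^ m *
        (r 0 ^ m * ((1 - κ * τ) ^ (m + 1) - (1 - κ) ^ (m + 1)) / (((m : ℝ) + 1) * κ))) =
        ((1 - κ * τ) ^ (m + 1) - (1 - κ) ^ (m + 1)) *
        (ρ ^ m * (r 0 ^ m * (1 - (1 - κ * τ) ^ (m + 1)) / (((m : ℝ) + 1) * κ))) := by ring
    rw [e] at h8
    linarith

/-- monotonicity of `(F + m² - 1)^m / F` -/
theorem ap_phi_mono {m : ℕ} {F G : ℝ} (hF : 0 < F) (hFG : F ≤ G)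
    (hG : G ≤ (m : ℝ) + 1) (hm : 2 ≤ m) :
    (G + ((m : ℝ) ^ 2 - 1)) ^ m * F ≤ (F + ((m : ℝ) ^ 2 - 1)) ^ m * G := by
  have hm2 : (2 : ℝ) ≤ m := by exact_mod_cast hm
  have hG0 : 0 < G := hF.trans_le hFG
  have hGA : 0 < G + ((m : ℝ) ^ 2 - 1) := by nlinarith only [hF, hFG, hm2]
  have hFA : 0 < F + ((m : ℝ) ^ 2 - 1) := by nlinarith only [hF, hm2]
  set x : ℝ := (F - G) / (G + ((m : ℝ) ^ 2 - 1)) with hx
  have hx1 : (-2 : ℝ) ≤ x := by
    rw [hx, le_div_iff₀ hGA]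
    nlinarith only [hGA, hFA]
  have hb := one_add_mul_le_pow hx1 m
  have e : 1 + x = (F + ((m : ℝ) ^ 2 - 1)) / (G + ((m : ℝ) ^ 2 - 1)) := by
    rw [hx]
    field_simp
    ring
  rw [e, div_pow] at hb
  have h1 : F / G ≤ 1 + (m : ℝ) * x := by
    have h2 : (m : ℝ) * G ≤ G + ((m : ℝ) ^ 2 - 1) := by nlinarith only [hG, hm2]
    rw [hx, div_le_iff₀ hG0]
    have e3 : (1 + (m : ℝ) * ((F - G) / (G + ((m : ℝ) ^ 2 - 1)))) * G =
        G + (m * G) / (G + ((m : ℝ) ^ 2 - 1)) * (F - G) := by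
      (clear * - hGA hG0; field_simp)
    rw [e3]
    have h4 : (m * G) / (G + ((m : ℝ) ^ 2 - 1)) ≤ 1 := (div_le_one hGA).2 h2
    nlinarith only [hFG, h4]
  have h5 := h1.trans hb
  rw [div_le_div_iff₀ hG0 (pow_pos hGA m)] at h5
  linarith only [h5]

/-- **A priori bound.** -/
theorem apri_front {m : ℕ} (hm : 2 ≤ m) {r : ℝ → ℝ} (hr : IsProf r)
    (hN : (∫ y in (-1 : ℝ)..1, r y ^ (m - 1)) ^ m * aInt m ^ (m - 1) ≤
      aInt (m - 1) ^ m * (∫ y in (-1 : ℝ)..1, r y ^ m) ^ (m - 1))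
    {κ : ℝ} (hκ : 0 < κ) (hκ1 : κ ≤ 1)
    (hnum : (∫ x in (0 : ℝ)..1, sq x ^ (m - 1)) ^ m * (m : ℝ) ^ (2 * m) *
        (((m : ℝ) + 1) * κ / (1 - (1 - κ) ^ (m + 1))) <
      (((m : ℝ) + 1) * κ / (1 - (1 - κ) ^ (m + 1)) + ((m : ℝ) ^ 2 - 1)) ^ m *
        (∫ x in (0 : ℝ)..1, sq x ^ m) ^ (m - 1)) :
    (∫ y in (0 : ℝ)..1, r y ^ m) * (((m : ℝ) + 1) * κ) ≤
      r 0 ^ m * (1 - (1 - κ) ^ (m + 1)) := by
  obtain ⟨k, rfl⟩ : ∃ k, m = k + 2 := ⟨m - 2, by omega⟩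
  have hN2 := cn_half (by omega) hr hN
  have e1 : k + 2 - 1 = k + 1 := by omega
  rw [e1] at hN2 hnum
  have h1 := apri_one k hr
  have hr0 : 0 < r 0 := hr.pos 0 ⟨by norm_num, by norm_num⟩
  have hI := cn_r_pos hr (k + 2)
  have hI1 := cn_r_pos hr (k + 1)
  have hZ := cn_Z_pos (k + 2)
  have hZ1 := cn_Z_pos (k + 1)
  set I := ∫ y in (0 : ℝ)..1, r y ^ (k + 2) with hIdef
  set I1 := ∫ y in (0 : ℝ)..1, r y ^ (k + 1) with hI1def
  set Z := ∫ x in (0 : ℝ)..1, sq x ^ (k + 2) with hZdef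
  set Z1 := ∫ x in (0 : ℝ)..1, sq x ^ (k + 1) with hZ1def
  have hκ2 : 0 < 1 - (1 - κ) ^ (k + 2 + 1) := by
    have : (1 - κ) ^ (k + 2 + 1) < 1 := pow_lt_one₀ (by linarith only [hκ1]) (by linarith only [hκ]) (by omega)
    linarith only [this]
  set G : ℝ := (((k + 2 : ℕ) : ℝ) + 1) * κ / (1 - (1 - κ) ^ (k + 2 + 1)) with hG
  have hG0 : 0 < G := by (clear * - hκ hκ2; positivity)
  have hG1 : G ≤ ((k + 2 : ℕ) : ℝ) + 1 := by
    rw [hG, div_le_iff₀ hκ2]
    have h3 : (1 - κ) ^ (k + 2 + 1) ≤ 1 - κ := by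
      calc (1 - κ) ^ (k + 2 + 1) ≤ (1 - κ) ^ 1 :=
            pow_le_pow_of_le_one (by linarith only [hκ1]) (by linarith only [hκ]) (by omega)
        _ = 1 - κ := pow_one _
    have h4 : (0 : ℝ) < ((k + 2 : ℕ) : ℝ) + 1 := by (clear * -; positivity)
    nlinarith only [h3]
  by_contra hcon
  push Not at hcon
  set F : ℝ := r 0 ^ (k + 2) / I with hF
  have hF0 : 0 < F := by (clear * - hr0 hI; positivity)
  have hFG : F ≤ G := by
    rw [hF, hG, div_le_div_iff₀ hI hκ2]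
    nlinarith only [hcon]
  have h5 := ap_phi_mono hF0 hFG hG1 (by omega)
  have hFI : F * I = r 0 ^ (k + 2) := by
    rw [hF]
    (clear * - hI hr0; field_simp)
  -- `(F + m² - 1) I ≤ m² r0 I1`
  have h6 : (F + (((k + 2 : ℕ) : ℝ) ^ 2 - 1)) * I ≤ (((k + 2 : ℕ) : ℝ)) ^ 2 * (r 0 * I1) := by
    rw [add_mul, hFI]
    push_cast
    linarith only [h1]
  have hk2 : (1 : ℝ) ≤ ((k + 2 : ℕ) : ℝ) ^ 2 := by
    have : (1 : ℝ) ≤ ((k + 2 : ℕ) : ℝ) := by
      exact_mod_cast (show 1 ≤ k + 2 by omega)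
    nlinarith only [this]
  have hA0 : 0 ≤ F + (((k + 2 : ℕ) : ℝ) ^ 2 - 1) := by linarith only [hF0, hk2]
  have h7 := pow_le_pow_left₀ (mul_nonneg hA0 hI.le) h6 (k + 2)
  rw [mul_pow, mul_pow, mul_pow (r 0), ← hFI] at h7
  have h8 : (F + (((k + 2 : ℕ) : ℝ) ^ 2 - 1)) ^ (k + 2) * Z ^ (k + 1) ≤
      (((k + 2 : ℕ) : ℝ) ^ 2) ^ (k + 2) * F * Z1 ^ (k + 2) := by
    have hIm : 0 < I ^ (k + 2) := pow_pos hI _
    have h9 : (F + (((k + 2 : ℕ) : ℝ) ^ 2 - 1)) ^ (k + 2) * Z ^ (k + 1) * I ^ (k + 2) ≤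
        (((k + 2 : ℕ) : ℝ) ^ 2) ^ (k + 2) * F * Z1 ^ (k + 2) * I ^ (k + 2) := by
      calc (F + (((k + 2 : ℕ) : ℝ) ^ 2 - 1)) ^ (k + 2) * Z ^ (k + 1) * I ^ (k + 2)
          = (F + (((k + 2 : ℕ) : ℝ) ^ 2 - 1)) ^ (k + 2) * I ^ (k + 2) * Z ^ (k + 1) := by ring
        _ ≤ (((k + 2 : ℕ) : ℝ) ^ 2) ^ (k + 2) * (F * I * I1 ^ (k + 2)) * Z ^ (k + 1) :=
            mul_le_mul_of_nonneg_right h7 (by (clear * - hZ; positivity))
        _ = (((k + 2 : ℕ) : ℝ) ^ 2) ^ (k + 2) * (F * I) * (I1 ^ (k + 2) * Z ^ (k + 1)) := by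
            ring
        _ ≤ (((k + 2 : ℕ) : ℝ) ^ 2) ^ (k + 2) * (F * I) * (Z1 ^ (k + 2) * I ^ (k + 1)) :=
            mul_le_mul_of_nonneg_left hN2 (by (clear * - hr0 hI; positivity))
        _ = (((k + 2 : ℕ) : ℝ) ^ 2) ^ (k + 2) * F * Z1 ^ (k + 2) * I ^ (k + 2) := by ring
    exact le_of_mul_le_mul_right h9 hIm
  have h10 : (G + (((k + 2 : ℕ) : ℝ) ^ 2 - 1)) ^ (k + 2) * F * Z ^ (k + 1) ≤
      (F + (((k + 2 : ℕ) : ℝ) ^ 2 - 1)) ^ (k + 2) * G * Z ^ (k + 1) :=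
    mul_le_mul_of_nonneg_right h5 (by positivity)
  have h11 : (F + (((k + 2 : ℕ) : ℝ) ^ 2 - 1)) ^ (k + 2) * Z ^ (k + 1) * G ≤
      (((k + 2 : ℕ) : ℝ) ^ 2) ^ (k + 2) * F * Z1 ^ (k + 2) * G :=
    mul_le_mul_of_nonneg_right h8 hG0.le
  have h12 := mul_lt_mul_of_pos_right hnum hF0
  rw [pow_mul] at h12
  nlinarith only [h10, h11, h12]

/-- **A priori bound for the transport**: if `N ≤ N_B` then
`(1 - (1 - κ τ(x))^(m+1)) ∫₀¹ s^m ≤ (1 - (1 - κ)^(m+1)) ∫₀ˣ s^m`. -/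
theorem IsTrans.apri {m : ℕ} (hm : 2 ≤ m) {r τ τ' T : ℝ → ℝ} (hr : IsProf r)
    (h : IsTrans m r τ τ' T)
    (hN : (∫ y in (-1 : ℝ)..1, r y ^ (m - 1)) ^ m * aInt m ^ (m - 1) ≤
      aInt (m - 1) ^ m * (∫ y in (-1 : ℝ)..1, r y ^ m) ^ (m - 1))
    {κ : ℝ} (hκ : 0 < κ) (hκ1 : κ ≤ 1)
    (hnum : (∫ x in (0 : ℝ)..1, sq x ^ (m - 1)) ^ m * (m : ℝ) ^ (2 * m) *
        (((m : ℝ) + 1) * κ / (1 - (1 - κ) ^ (m + 1))) <
      (((m : ℝ) + 1) * κ / (1 - (1 - κ) ^ (m + 1)) + ((m : ℝ) ^ 2 - 1)) ^ m *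
        (∫ x in (0 : ℝ)..1, sq x ^ m) ^ (m - 1)) {x : ℝ} (hx : x ∈ Ioo (0 : ℝ) 1) :
    (1 - (1 - κ * τ x) ^ (m + 1)) * (∫ t in (0 : ℝ)..1, sq t ^ m) ≤
      (1 - (1 - κ) ^ (m + 1)) * ∫ t in (0 : ℝ)..x, sq t ^ m := by
  have hI := apri_front hm hr hN hκ hκ1 hnum
  have h2 := apri_two m hr hκ hκ1 hI (h.mem x hx)
  have hI0 : 0 < ∫ t in (0 : ℝ)..1, r t ^ m := cn_r_pos hr m
  have hZ0 : 0 < ∫ t in (0 : ℝ)..1, sq t ^ m := cn_Z_pos m
  have h3 := h.mass x hx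
  have h4 := mul_le_mul_of_nonneg_right h2 hZ0.le
  refine le_of_mul_le_mul_right ?_ hI0
  calc (1 - (1 - κ * τ x) ^ (m + 1)) * (∫ t in (0 : ℝ)..1, sq t ^ m) *
        ∫ t in (0 : ℝ)..1, r t ^ m
      = (1 - (1 - κ * τ x) ^ (m + 1)) * (∫ t in (0 : ℝ)..1, r t ^ m) *
        ∫ t in (0 : ℝ)..1, sq t ^ m := by ring
    _ ≤ (1 - (1 - κ) ^ (m + 1)) * (∫ t in (0 : ℝ)..τ x, r t ^ m) *
        ∫ t in (0 : ℝ)..1, sq t ^ m := h4
    _ = (1 - (1 - κ) ^ (m + 1)) * ((∫ t in (0 : ℝ)..τ x, r t ^ m) *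
        ∫ t in (0 : ℝ)..1, sq t ^ m) := by ring
    _ = (1 - (1 - κ) ^ (m + 1)) * (∫ t in (0 : ℝ)..x, sq t ^ m) *
        ∫ t in (0 : ℝ)..1, r t ^ m := by rw [h3]; ring

end Vale.Agent.P237.AllN
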