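import Mathlib

/-!
# P237: the one-cell function of the a priori bound for large `m`
-/

namespace Vale.Agent.P237.AllN

/-- `W_p(b) = (1 - e^{-b}) exp(p (1 - b/(e^b - 1)))` -/
noncomputable def aplW (p b : ℝ) : ℝ :=
  (1 - Real.exp (-b)) * Real.exp (p * (1 - b / (Real.exp b - 1)))

end Vale.Agent.P237.AllN
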