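import Vale.Agent.P237.AllN.PolyArith
import Vale.Agent.P237.AllN.ApriW

/-!
# P237, block D: the inequalities (ALPHA) of the a priori steps
-/

open Real

namespace Vale.Agent.P237.AllN

open PolyPos

theorem al_exp_neg {v : ℝ} (h0 : 0 ≤ v) (h1 : v ≤ 16 / 100) :
    1 - v + 47 / 100 * v ^ 2 ≤ exp (-v) := by
  have h := Real.exp_bound (x := -v) (by rw [abs_neg, abs_of_nonneg h0]; linarith only [h1])
    (n := 4) (by norm_num)
  rw [abs_neg, abs_of_nonneg h0] at h
  have h2 := (abs_le.1 h).1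
  simp only [Finset.sum_range_succ, Finset.sum_range_zero, Nat.factorial] at h2
  norm_num at h2
  have h3 : v ^ 3 ≤ 16 / 100 * v ^ 2 := by nlinarith only [h1]
  have h4 : v ^ 4 ≤ (16 / 100) ^ 2 * v ^ 2 := by nlinarith only [h3, h0]
  nlinarith only [h2, h4]

theorem al_exp_three : (2008 / 100 : ℝ) ≤ exp 3 := by
  have := Real.sum_le_exp_of_nonneg (x := 3) (by norm_num) 14
  refine le_trans ?_ this
  norm_num [Finset.sum_range_succ, Nat.factorial]

theorem apl_ge {b : ℝ} (hb : 3 ≤ b) :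
    exp 1 * (1 - (1 + b) * exp (-b) + 47 / 100 * b ^ 2 * exp (-b) ^ 2) ≤ aplW 1 b := by
  unfold aplW
  set q := exp (-b) with hq
  have hq0 : 0 < q := exp_pos _
  have hqe : exp b = 1 / q := by rw [hq, exp_neg]; simp
  have hE : 20 * (b - 2) ≤ exp b := by
    have h1 : exp b = exp 3 * exp (b - 3) := by rw [← exp_add]; ring_nf
    have h2 := add_one_le_exp (b - 3)
    rw [h1]
    calc 20 * (b - 2) ≤ exp 3 * (b - 2) :=
          mul_le_mul_of_nonneg_right (by linarith only [al_exp_three]) (by linarith only [hb])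
      _ ≤ exp 3 * exp (b - 3) := mul_le_mul_of_nonneg_left (by linarith) (exp_pos _).le
  have hqb : b * q ≤ 3 / 20 := by
    rw [hqe, le_div_iff₀ hq0] at hE
    nlinarith only [hE, hb]
  have hq1 : q ≤ 1 / 20 := by nlinarith only [hqb, hb]
  have hq2 : 0 < 1 - q := by linarith
  have hv : b / (exp b - 1) = b * q / (1 - q) := by
    rw [hqe]
    (clear * - hq0 hq2 hb; field_simp)
  have hv0 : 0 ≤ b * q / (1 - q) := by positivity
  have hv1 : b * q / (1 - q) ≤ 16 / 100 := by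
    rw [div_le_iff₀ hq2]; linarith only [hqb, hq1]
  have h1 := al_exp_neg hv0 hv1
  have e1 : exp (1 * (1 - b / (exp b - 1))) = exp 1 * exp (-(b * q / (1 - q))) := by
    rw [hv, ← exp_add]
    ring_nf
  rw [e1]
  have h2 : 1 - (1 + b) * q + 47 / 100 * b ^ 2 * q ^ 2 ≤
      (1 - q) * (1 - b * q / (1 - q) + 47 / 100 * (b * q / (1 - q)) ^ 2) := by
    have e2 : (1 - q) * (1 - b * q / (1 - q) + 47 / 100 * (b * q / (1 - q)) ^ 2) =
        1 - (1 + b) * q + 47 / 100 * b ^ 2 * q ^ 2 / (1 - q) := by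
      field_simp
      ring
    rw [e2]
    have h3 : 47 / 100 * b ^ 2 * q ^ 2 ≤ 47 / 100 * b ^ 2 * q ^ 2 / (1 - q) := by
      rw [le_div_iff₀ hq2]
      nlinarith only [show 0 ≤ 47 / 100 * b ^ 2 * q ^ 2 * q by positivity]
    linarith only [h3]
  calc exp 1 * (1 - (1 + b) * q + 47 / 100 * b ^ 2 * q ^ 2) ≤
        exp 1 * ((1 - q) * (1 - b * q / (1 - q) + 47 / 100 * (b * q / (1 - q)) ^ 2)) :=
        mul_le_mul_of_nonneg_left h2 (exp_pos _).le
    _ ≤ exp 1 * ((1 - q) * exp (-(b * q / (1 - q)))) :=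
        mul_le_mul_of_nonneg_left (mul_le_mul_of_nonneg_left h1 hq2.le) (exp_pos _).le
    _ = (1 - q) * (exp 1 * exp (-(b * q / (1 - q)))) := by ring

/-- the constant: `√(π/2) exp(1/2 - B) ≤ e k` -/
theorem al_const {B k : ℝ}
    (h : 12534 / 10000 * exp (-(1 / 2 + B)) ≤ k) :
    √(π / 2) * exp (1 / 2 - B) ≤ exp 1 * k := by
  have h1 : √(π / 2) ≤ 12534 / 10000 := by
    rw [Real.sqrt_le_left (by norm_num)]
    have := Real.pi_lt_d4
    norm_num at this ⊢
    linarith only [this]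
  have h2 : exp (1 / 2 - B) = exp 1 * exp (-(1 / 2 + B)) := by
    rw [← exp_add]; ring_nf
  rw [h2]
  calc √(π / 2) * (exp 1 * exp (-(1 / 2 + B))) = exp 1 * (√(π / 2) * exp (-(1 / 2 + B))) := by ring
    _ ≤ exp 1 * (12534 / 10000 * exp (-(1 / 2 + B))) :=
        mul_le_mul_of_nonneg_left (mul_le_mul_of_nonneg_right h1 (exp_pos _).le) (exp_pos _).le
    _ ≤ exp 1 * k := mul_le_mul_of_nonneg_left h (exp_pos _).le

theorem al_k {y k : ℝ} {n : ℕ} (hy : 0 ≤ y) (hk : 0 < k)
    (h : 12534 / 10000 ≤ k * ∑ i ∈ Finset.range n, y ^ i / i.factorial) :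
    12534 / 10000 * exp (-y) ≤ k := by
  have h1 := Real.sum_le_exp_of_nonneg hy n
  rw [exp_neg, ← div_eq_mul_inv, div_le_iff₀ (exp_pos y)]
  exact h.trans (mul_le_mul_of_nonneg_left h1 hk.le)

/-- reduction to a polynomial inequality -/
theorem al_red {b X k B Q : ℝ} (hb : 3 ≤ b) (hX : 0 ≤ X)
    (hk : √(π / 2) * exp (1 / 2 - B) ≤ exp 1 * k) (hQ : exp (-b) ≤ Q) (hQ1 : b * Q ≤ 1)
    (h : k * b ≤ X * (1 - (1 + b) * Q + 47 / 100 * b ^ 2 * Q ^ 2)) :
    √(π / 2) * exp (1 / 2 - B) * b ≤ X * aplW 1 b := by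
  have h1 := apl_ge hb
  set q := exp (-b) with hq
  have hq0 : 0 < q := exp_pos _
  have h2 : 1 - (1 + b) * Q + 47 / 100 * b ^ 2 * Q ^ 2 ≤
      1 - (1 + b) * q + 47 / 100 * b ^ 2 * q ^ 2 := by
    have h3 : 47 / 100 * b ^ 2 * (Q ^ 2 - q ^ 2) ≤ (1 + b) * (Q - q) := by
      have e : 47 / 100 * b ^ 2 * (Q ^ 2 - q ^ 2) = (47 / 100 * b * (b * (Q + q))) * (Q - q) := by
        ring
      rw [e]
      apply mul_le_mul_of_nonneg_right _ (by linarith only [hQ])
      have : b * (Q + q) ≤ 2 := by nlinarith only [hQ1, hQ, hb]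
      nlinarith
    linarith only [h3]
  calc √(π / 2) * exp (1 / 2 - B) * b ≤ exp 1 * k * b := mul_le_mul_of_nonneg_right hk (by linarith only [hb])
    _ = exp 1 * (k * b) := by ring
    _ ≤ exp 1 * (X * (1 - (1 + b) * Q + 47 / 100 * b ^ 2 * Q ^ 2)) :=
        mul_le_mul_of_nonneg_left h (exp_pos _).le
    _ ≤ exp 1 * (X * (1 - (1 + b) * q + 47 / 100 * b ^ 2 * q ^ 2)) :=
        mul_le_mul_of_nonneg_left (mul_le_mul_of_nonneg_left h2 hX) (exp_pos _).le
    _ = X * (exp 1 * (1 - (1 + b) * q + 47 / 100 * b ^ 2 * q ^ 2)) := by ring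
    _ ≤ X * aplW 1 b := mul_le_mul_of_nonneg_left h1 hX

/-- upper bound of `exp (-b)` -/
theorem al_q {b b0 E0 : ℝ} (hE : E0 ≤ exp b0) (hE0 : 0 < E0) (hb : b0 ≤ b) :
    exp (-b) ≤ 1 / (E0 * (1 + (b - b0) + (b - b0) ^ 2 / 2 + (b - b0) ^ 3 / 6)) := by
  have ht : 0 ≤ b - b0 := by linarith only [hb]
  have h1 := Real.sum_le_exp_of_nonneg ht 4
  simp only [Finset.sum_range_succ, Finset.sum_range_zero, Nat.factorial] at h1
  norm_num at h1
  have h2 : exp b = exp b0 * exp (b - b0) := by rw [← exp_add]; ring_nf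
  have h3 : 0 < 1 + (b - b0) + (b - b0) ^ 2 / 2 + (b - b0) ^ 3 / 6 := by (clear * - hb; positivity)
  have h4 : E0 * (1 + (b - b0) + (b - b0) ^ 2 / 2 + (b - b0) ^ 3 / 6) ≤ exp b := by
    rw [h2]
    exact mul_le_mul hE h1 h3.le (exp_pos _).le
  rw [exp_neg, ← one_div]
  exact one_div_le_one_div_of_le (by positivity) h4

/-- `600 E0 p(t)`, `E0 = c/100` -/
def alE (c : ℤ) : List ℤ := psm c [6, 6, 3, 1]

theorem ev_alE (c : ℤ) (t : ℝ) :
    ev1 (alE c) t = 600 * ((c : ℝ) / 100 * (1 + t + t ^ 2 / 2 + t ^ 3 / 6)) := by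
  simp only [alE, ev1_psm, ev1_cons, ev1_nil]
  push_cast
  ring

def alQ1 : List ℤ :=
  padd (psm 10000 (pmul [1003, 200] (padd (pmul (alE 2008) (alE 2008))
    (padd (psm (-600) (pmul [4, 1] (alE 2008))) (psm 169200 (ppow [3, 1] 2))))))
  (psm (-(5096 * 528)) (pmul [3, 1] (pmul (alE 2008) (alE 2008))))

set_option maxRecDepth 100000 in
theorem alQ1_nonneg {t : ℝ} (h0 : 0 ≤ t) (h1 : 1000 * t < 1587) : 0 ≤ ev1 alQ1 t :=
  auto1_sound (n := 10) (A := 0) (B := 1587) (D := 1000) (by norm_num) (by (clear * -; decide +kernel))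
    (by push_cast; linarith) (by push_cast; linarith)

/-- the case `19/10 ≤ X ≤ 5/2` -/
theorem apl_alpha1 {X : ℝ} (h1 : 19 / 10 ≤ X) (h2 : X ≤ 5 / 2) :
    √(π / 2) * exp (1 / 2 - 2 / 5) * ((528 * X - 403) / 200) ≤
      X * aplW 1 ((528 * X - 403) / 200) := by
  set b := (528 * X - 403) / 200 with hb
  have hX : X = (200 * b + 403) / 528 := by rw [hb]; ring
  have hb3 : 3 ≤ b := by rw [hb]; linarith only [h1]
  have hb4 : b ≤ 4586 / 1000 := by rw [hb]; linarith only [h2]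
  have hq := al_q al_exp_three (by norm_num) hb3
  have hk : √(π / 2) * exp (1 / 2 - 2 / 5) ≤ exp 1 * (5096 / 10000) := by
    apply al_const
    apply al_k (n := 8) (by norm_num) (by norm_num)
    norm_num [Finset.sum_range_succ, Nat.factorial]
  set t := b - 3 with ht
  have ht0 : 0 ≤ t := by linarith only [h1, hb]
  have hD : 0 < 2008 / 100 * (1 + t + t ^ 2 / 2 + t ^ 3 / 6) := by (clear * - hb3; positivity)
  refine al_red hb3 (by linarith only [h1]) hk hq ?_ ?_
  · rw [mul_one_div, div_le_one hD]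
    nlinarith only [ht0]
  · have hQ := alQ1_nonneg ht0 (by linarith only [h2, hb])
    have hbt : b = 3 + t := by linarith only []
    have hXt : X = (1003 + 200 * t) / 528 := by rw [hX, hbt]; ring
    set D := 2008 / 100 * (1 + t + t ^ 2 / 2 + t ^ 3 / 6) with hD'
    have e : ev1 alQ1 t = (528 * 360000 * 10000 * D ^ 2) *
        (X * (1 - (1 + b) * (1 / D) + 47 / 100 * b ^ 2 * (1 / D) ^ 2) - 5096 / 10000 * b) := by
      simp only [alQ1, ev1_padd, ev1_psm, ev1_pmul, ev1_cons, ev1_nil, ev_alE, ev1_ppow]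
      have hD2 : ((2008 : ℤ) : ℝ) / 100 * (1 + t + t ^ 2 / 2 + t ^ 3 / 6) = D := by
        rw [hD']; norm_num
      rw [hD2, hbt, hXt]
      push_cast
      field_simp
      ring
    rw [e] at hQ
    have := nonneg_of_mul_nonneg_right hQ (by (clear * - hb3; positivity))
    linarith only [this]

def alQ2 : List ℤ :=
  padd (psm 1000000 (pmul [70, 10] (padd (alE 10660) [-3402, -600])))
  (psm (-(4946 * 28)) (pmul [467, 100] (alE 10660)))

def alQ3 : List ℤ :=
  padd (psm 1000000 (pmul [858, 100] (padd (alE 23270) [-3870, -600])))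
  (psm (-(4728 * 312)) (pmul [545, 100] (alE 23270)))

set_option maxRecDepth 100000 in
theorem alQ2_nonneg {t : ℝ} (h0 : 0 ≤ t) (h1 : 1000 * t < 701) : 0 ≤ ev1 alQ2 t :=
  auto1_sound (n := 10) (A := 0) (B := 701) (D := 1000) (by norm_num) (by (clear * -; decide +kernel))
    (by push_cast; linarith) (by push_cast; linarith)

set_option maxRecDepth 100000 in
theorem alQ3_nonneg {t : ℝ} (h0 : 0 ≤ t) (h1 : 1000 * t < 781) : 0 ≤ ev1 alQ3 t :=
  auto1_sound (n := 10) (A := 0) (B := 781) (D := 1000) (by norm_num) (by (clear * -; decide +kernel))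
    (by push_cast; linarith) (by push_cast; linarith)

theorem al_simple {b X k D : ℝ} (hD : 0 < D) (hX : 0 ≤ X)
    (h : 0 ≤ X * (D - (1 + b)) - k * b * D) :
    k * b ≤ X * (1 - (1 + b) * (1 / D) + 47 / 100 * b ^ 2 * (1 / D) ^ 2) := by
  have h1 : 0 ≤ X * (47 / 100 * b ^ 2 * (1 / D) ^ 2) := by (clear * - hX hD; positivity)
  have h2 : k * b ≤ X * (1 - (1 + b) * (1 / D)) := by
    have e : X * (1 - (1 + b) * (1 / D)) - k * b = (X * (D - (1 + b)) - k * b * D) / D := by
      (clear * - hD; field_simp)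
    have : 0 ≤ (X * (D - (1 + b)) - k * b * D) / D := by positivity
    (clear * - e this; linarith)
  have e2 : X * (1 - (1 + b) * (1 / D) + 47 / 100 * b ^ 2 * (1 / D) ^ 2) =
      X * (1 - (1 + b) * (1 / D)) + X * (47 / 100 * b ^ 2 * (1 / D) ^ 2) := by ring
  linarith only [h1, h2]

/-- the case `5/2 ≤ X ≤ 11/4` -/
theorem apl_alpha2 {X : ℝ} (h1 : 5 / 2 ≤ X) (h2 : X ≤ 11 / 4) :
    √(π / 2) * exp (1 / 2 - 43 / 100) * ((280 * X - 233) / 100) ≤
      X * aplW 1 ((280 * X - 233) / 100) := by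
  set b := (280 * X - 233) / 100 with hb
  have hX : X = (100 * b + 233) / 280 := by rw [hb]; ring
  have hb3 : 467 / 100 ≤ b := by rw [hb]; (clear * - h1; linarith)
  have hb4 : b ≤ 537 / 100 := by rw [hb]; linarith only [h2]
  have hE : (10660 / 100 : ℝ) ≤ exp (467 / 100) := by
    have := Real.sum_le_exp_of_nonneg (x := 467 / 100) (by norm_num) 17
    refine le_trans ?_ this
    norm_num [Finset.sum_range_succ, Nat.factorial]
  have hq := al_q hE (by norm_num) hb3
  have hk : √(π / 2) * exp (1 / 2 - 43 / 100) ≤ exp 1 * (4946 / 10000) := by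
    apply al_const
    apply al_k (n := 8) (by norm_num) (by norm_num)
    norm_num [Finset.sum_range_succ, Nat.factorial]
  set t := b - 467 / 100 with ht
  have ht0 : 0 ≤ t := by linarith only [h1, hb, ht]
  have hD : 0 < 10660 / 100 * (1 + t + t ^ 2 / 2 + t ^ 3 / 6) := by (clear * - hb3; positivity)
  refine al_red (by linarith only [h1, hb]) (by linarith only [h1]) hk hq ?_ ?_
  · rw [mul_one_div, div_le_one hD]
    nlinarith only [ht, ht0]
  · have hQ := alQ2_nonneg ht0 (by linarith only [h2, hb, ht])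
    have hbt : b = 467 / 100 + t := by linarith only [ht]
    have hXt : X = (700 + 100 * t) / 280 := by rw [hX, hbt]; ring
    refine al_simple hD (by linarith only [h1]) ?_
    set D := 10660 / 100 * (1 + t + t ^ 2 / 2 + t ^ 3 / 6) with hD'
    have e : ev1 alQ2 t = (28 * 600 * 1000000) * (X * (D - (1 + b)) - 4946 / 10000 * b * D) := by
      simp only [alQ2, ev1_padd, ev1_psm, ev1_pmul, ev1_cons, ev1_nil, ev_alE]
      have hD2 : ((10660 : ℤ) : ℝ) / 100 * (1 + t + t ^ 2 / 2 + t ^ 3 / 6) = D := by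
        rw [hD']; norm_num
      rw [hD2, hbt, hXt]
      push_cast
      ring
    rw [e] at hQ
    exact nonneg_of_mul_nonneg_right hQ (by norm_num)

/-- the case `11/4 ≤ X ≤ 3` -/
theorem apl_alpha3 {X : ℝ} (h1 : 11 / 4 ≤ X) (h2 : X ≤ 3) :
    √(π / 2) * exp (1 / 2 - 19 / 40) * ((312 * X - 313) / 100) ≤
      X * aplW 1 ((312 * X - 313) / 100) := by
  set b := (312 * X - 313) / 100 with hb
  have hX : X = (100 * b + 313) / 312 := by rw [hb]; ring
  have hb3 : 545 / 100 ≤ b := by rw [hb]; linarith only [h1]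
  have hb4 : b ≤ 623 / 100 := by rw [hb]; linarith only [h2]
  have hE : (23270 / 100 : ℝ) ≤ exp (545 / 100) := by
    have := Real.sum_le_exp_of_nonneg (x := 545 / 100) (by norm_num) 19
    refine le_trans ?_ this
    norm_num [Finset.sum_range_succ, Nat.factorial]
  have hq := al_q hE (by norm_num) hb3
  have hk : √(π / 2) * exp (1 / 2 - 19 / 40) ≤ exp 1 * (4728 / 10000) := by
    apply al_const
    apply al_k (n := 8) (by norm_num) (by norm_num)
    norm_num [Finset.sum_range_succ, Nat.factorial]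
  set t := b - 545 / 100 with ht
  have ht0 : 0 ≤ t := by linarith only [h1, hb, ht]
  have hD : 0 < 23270 / 100 * (1 + t + t ^ 2 / 2 + t ^ 3 / 6) := by (clear * - hb3; positivity)
  refine al_red (by linarith only [h1, hb]) (by linarith only [h1]) hk hq ?_ ?_
  · rw [mul_one_div, div_le_one hD]
    nlinarith only [ht, ht0]
  · have hQ := alQ3_nonneg ht0 (by linarith only [h2, hb, ht])
    have hbt : b = 545 / 100 + t := by linarith only [ht]
    have hXt : X = (858 + 100 * t) / 312 := by rw [hX, hbt]; ring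
    refine al_simple hD (by linarith only [h1]) ?_
    set D := 23270 / 100 * (1 + t + t ^ 2 / 2 + t ^ 3 / 6) with hD'
    have e : ev1 alQ3 t = (312 * 600 * 1000000) * (X * (D - (1 + b)) - 4728 / 10000 * b * D) := by
      simp only [alQ3, ev1_padd, ev1_psm, ev1_pmul, ev1_cons, ev1_nil, ev_alE]
      have hD2 : ((23270 : ℤ) : ℝ) / 100 * (1 + t + t ^ 2 / 2 + t ^ 3 / 6) = D := by
        rw [hD']; norm_num
      rw [hD2, hbt, hXt]
      push_cast
      ring
    rw [e] at hQ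
    exact nonneg_of_mul_nonneg_right hQ (by norm_num)

end Vale.Agent.P237.AllN
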