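import Vale.Agent.P237.AllN.PolyPos

/-!
# Arithmetic of integer coefficient lists (one variable), for kernel computation
-/

namespace Vale.Agent.P237.AllN.PolyPos

/-- sum -/
def padd (p q : List ℤ) : List ℤ := addL opsZ p q

/-- scalar multiple -/
def psm (c : ℤ) (p : List ℤ) : List ℤ := p.map fun a => c * a

/-- product -/
def pmul : List ℤ → List ℤ → List ℤ
  | [], _ => []
  | a :: p, q => padd (psm a q) (0 :: pmul p q)

/-- power -/
def ppow (p : List ℤ) : ℕ → List ℤ
  | 0 => [1]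
  | n + 1 => pmul p (ppow p n)

theorem ev1_nil (x : ℝ) : ev1 [] x = 0 := by simp [ev1, evL]

theorem ev1_cons (a : ℤ) (p : List ℤ) (x : ℝ) : ev1 (a :: p) x = a + x * ev1 p x := by
  simp [ev1, evL]

theorem ev1_padd (p q : List ℤ) (x : ℝ) : ev1 (padd p q) x = ev1 p x + ev1 q x :=
  evL_addL lin_opsZ x p q

theorem ev1_psm (c : ℤ) (p : List ℤ) (x : ℝ) : ev1 (psm c p) x = c * ev1 p x :=
  evL_map_smul lin_opsZ x c p

theorem ev1_pmul (p q : List ℤ) (x : ℝ) : ev1 (pmul p q) x = ev1 p x * ev1 q x := by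
  induction p with
  | nil => simp [pmul, ev1_nil]
  | cons a p ih =>
    rw [pmul, ev1_padd, ev1_psm, ev1_cons, ih, ev1_cons]
    push_cast
    ring

theorem ev1_ppow (p : List ℤ) (n : ℕ) (x : ℝ) : ev1 (ppow p n) x = ev1 p x ^ n := by
  induction n with
  | zero => simp [ppow, ev1, evL]
  | succ n ih => rw [ppow, ev1_pmul, ih, pow_succ]; ring

end Vale.Agent.P237.AllN.PolyPos
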