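import Vale.Agent.P237.AllN.PcIn
import Vale.Agent.P237.AllN.PolyArith

/-!
# P237, block D: the a-priori steps for `m ≥ 48`, lemma (BETA)

For `48 ≤ m`, `X = √m x` and the step bounds `b(X)` of the three intervals
`[19/10, 5/2]`, `[5/2, 11/4]`, `[11/4, 3]`,
`(1 - b/(m+1))^(m+1) √(π/(2(m+1))) ((m+2) x²/(1-x²) + 1) ≤ x (1-x²)^{m/2}`.
-/

open Finset

namespace Vale.Agent.P237.AllN

open Alm PolyPos

/-! ### logarithm bounds -/

theorem be_log_le {t : ℝ} (h0 : 0 ≤ t) (h1 : t < 1) :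
    Real.log (1 - t) ≤ -t - t ^ 2 / 2 - t ^ 3 / 3 := by
  have h := Real.hasSum_pow_div_log_of_abs_lt_one (x := t) (by rwa [abs_of_nonneg h0])
  have h2 := h.summable.sum_le_tsum (Finset.range 3) (fun i _ => by (clear * - h0; positivity))
  rw [h.tsum_eq] at h2
  simp only [Finset.sum_range_succ, Finset.sum_range_zero] at h2
  norm_num at h2
  (clear * - h2; linarith)

theorem be_geom {t : ℝ} (h0 : 0 ≤ t) (h1 : t < 1) (k : ℕ) :
    -Real.log (1 - t) ≤ ∑ i ∈ range k, t ^ (i + 1) / ((i : ℝ) + 1) +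
      t ^ (k + 1) / ((k + 1) * (1 - t)) := by
  have h := Real.hasSum_pow_div_log_of_abs_lt_one (x := t) (by rwa [abs_of_nonneg h0])
  have h3 := (hasSum_nat_add_iff' k).2 h
  have h4 := (hasSum_geometric_of_lt_one h0 h1).mul_left (t ^ (k + 1) / ((k : ℝ) + 1))
  have h5 := hasSum_le (f := fun n => t ^ (n + k + 1) / (((n + k : ℕ) : ℝ) + 1))
    (g := fun n => t ^ (k + 1) / ((k : ℝ) + 1) * t ^ n) (fun n => by
      have e : t ^ (k + 1) / ((k : ℝ) + 1) * t ^ n = t ^ (n + k + 1) / ((k : ℝ) + 1) := by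
        rw [show n + k + 1 = (k + 1) + n by ring, pow_add t (k + 1) n]; ring
      rw [e]
      refine div_le_div_of_nonneg_left (by (clear * - h0; positivity)) (by (clear * -; positivity)) ?_
      push_cast
      have : (0 : ℝ) ≤ n := n.cast_nonneg
      linarith only []) h3 h4
  have e2 : t ^ (k + 1) / ((k : ℝ) + 1) * (1 - t)⁻¹ = t ^ (k + 1) / ((k + 1) * (1 - t)) := by
    have : (1 - t) ≠ 0 := by linarith only [h1]
    (clear * - this; field_simp)
  rw [e2] at h5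
  linarith only [h5]

theorem be_log2 {t : ℝ} (h0 : 0 ≤ t) (h1 : t < 1) :
    -Real.log (1 - t) ≤ t + t ^ 2 / 2 + t ^ 3 / (3 * (1 - t)) := by
  have h := be_geom h0 h1 2
  simp only [Finset.sum_range_succ, Finset.sum_range_zero] at h
  norm_num at h
  linarith

theorem be_log3 {t : ℝ} (h0 : 0 ≤ t) (h1 : t < 1) :
    -Real.log (1 - t) ≤ t + t ^ 2 / 2 + t ^ 3 / 3 + t ^ 4 / (4 * (1 - t)) := by
  have h := be_geom h0 h1 3
  simp only [Finset.sum_range_succ, Finset.sum_range_zero] at h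
  norm_num at h
  linarith only [h]

theorem be_log_ge {t : ℝ} (h0 : 0 ≤ t) : t - t ^ 2 / 2 ≤ Real.log (1 + t) := by
  have h := Real.le_log_one_add_of_nonneg h0
  refine le_trans ?_ h
  rw [le_div_iff₀ (by linarith only [h0])]
  nlinarith only [h0]

/-! ### the core estimate -/

/-- reduction to logarithms -/
theorem be_exp {m : ℕ} {x b : ℝ} (hx : 0 < x) (hx1 : x ^ 2 < 1) (hb : b < m + 1)
    (H : (m + 1) * Real.log (1 - b / (m + 1)) + (Real.log (Real.pi / 2) / 2 -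
      Real.log (m + 1) / 2 + (Real.log (1 + (m + 1) * x ^ 2) - Real.log (1 - x ^ 2))) ≤
      Real.log x + m / 2 * Real.log (1 - x ^ 2)) :
    (1 - b / (m + 1)) ^ (m + 1) *
      (Real.sqrt (Real.pi / (2 * (m + 1))) * ((m + 2) * (x ^ 2 / (1 - x ^ 2)) + 1)) ≤
      x * sq x ^ m := by
  have h1z : 0 < 1 - x ^ 2 := by linarith only [hx1]
  have hn0 : (0 : ℝ) < m + 1 := by (clear * -; positivity)
  have hbn : b / (m + 1) < 1 := by rwa [div_lt_one hn0]
  have hsq : sq x ^ m = Real.exp ((m : ℝ) / 2 * Real.log (1 - x ^ 2)) := by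
    rw [sq, Real.sqrt_eq_rpow, ← Real.rpow_natCast, ← Real.rpow_mul h1z.le,
      Real.rpow_def_of_pos h1z]
    congr 1
    ring
  have hRHS : x * sq x ^ m = Real.exp (Real.log x + m / 2 * Real.log (1 - x ^ 2)) := by
    rw [Real.exp_add, Real.exp_log hx, hsq]
  have hA : (1 - b / (m + 1)) ^ (m + 1) =
      Real.exp ((m + 1) * Real.log (1 - b / (m + 1))) := by
    rw [mul_comm, Real.exp_mul, Real.exp_log (by linarith only [hbn]), ← Real.rpow_natCast]
    push_cast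
    rfl
  have hB : Real.sqrt (Real.pi / (2 * (m + 1))) =
      Real.exp (Real.log (Real.pi / 2) / 2 - Real.log (m + 1) / 2) := by
    have hpi : 0 < Real.pi / 2 := by positivity
    rw [show Real.pi / (2 * ((m : ℝ) + 1)) = Real.pi / 2 / (m + 1) by (clear * -; field_simp),
      show Real.log (Real.pi / 2) / 2 - Real.log ((m : ℝ) + 1) / 2 =
        Real.log (Real.pi / 2 / (m + 1)) * (1 / 2) by
        rw [Real.log_div hpi.ne' hn0.ne']; ring,
      Real.exp_mul, Real.exp_log (by (clear * -; positivity)), Real.sqrt_eq_rpow]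
  have hC : ((m : ℝ) + 2) * (x ^ 2 / (1 - x ^ 2)) + 1 =
      Real.exp (Real.log (1 + (m + 1) * x ^ 2) - Real.log (1 - x ^ 2)) := by
    rw [Real.exp_sub, Real.exp_log (by (clear * - hx; positivity)), Real.exp_log h1z]
    field_simp
    ring
  rw [hRHS, hA, hB, hC, ← Real.exp_add, ← Real.exp_add]
  exact Real.exp_le_exp.2 H

/-- `(1 - b/n)^n`, logarithm -/
theorem be_l1 {M b e : ℝ} (hM : 48 ≤ M) (he : e * M = 1) (hb0 : 0 ≤ b) (hb1 : b ≤ 7) :
    (M + 1) * Real.log (1 - b / (M + 1)) ≤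
      -b - b ^ 2 / 2 * (48 / 49 * e) - b ^ 3 / 3 * (48 / 49 * e) ^ 2 := by
  have hn0 : 0 < M + 1 := by linarith
  have hbn : b / (M + 1) < 1 := by rw [div_lt_one hn0]; linarith only [hM, hb1]
  have hbn0 : 0 ≤ b / (M + 1) := by positivity
  have l1 : (M + 1) * Real.log (1 - b / (M + 1)) ≤
      -b - b ^ 2 / 2 * (1 / (M + 1)) - b ^ 3 / 3 * (1 / (M + 1)) ^ 2 := by
    have := mul_le_mul_of_nonneg_left (be_log_le hbn0 hbn) hn0.le
    refine this.trans (le_of_eq ?_)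
    field_simp
  have he0 : 0 < e := by
    by_contra h
    push Not at h
    have : e * M ≤ 0 := mul_nonpos_of_nonpos_of_nonneg h (by linarith only [hM])
    linarith only [he, this]
  have hq : 48 / 49 * e ≤ 1 / (M + 1) := by
    rw [le_div_iff₀ hn0]
    nlinarith only [he, hM]
  have hq0 : 0 ≤ 48 / 49 * e := by positivity
  have h1 : b ^ 2 / 2 * (48 / 49 * e) ≤ b ^ 2 / 2 * (1 / (M + 1)) :=
    mul_le_mul_of_nonneg_left hq (by (clear * -; positivity))
  have h2 : b ^ 3 / 3 * (48 / 49 * e) ^ 2 ≤ b ^ 3 / 3 * (1 / (M + 1)) ^ 2 :=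
    mul_le_mul_of_nonneg_left (pow_le_pow_left₀ hq0 hq 2) (by (clear * - hb0; positivity))
  linarith only [l1, h1, h2]

/-- `log(1 + (m+1) z)` -/
theorem be_l3 {M w z : ℝ} (hw : 0 ≤ w) (hz : 0 ≤ z) (hMz : M * z = w) :
    Real.log (1 + (M + 1) * z) ≤ Real.log (1 + w) + z / (1 + w) := by
  have h1 : 1 + (M + 1) * z = (1 + w) * (1 + z / (1 + w)) := by
    field_simp
    linarith only [hMz]
  rw [h1, Real.log_mul (by positivity) (by positivity)]
  have := Real.log_le_sub_one_of_pos (x := 1 + z / (1 + w)) (by positivity)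
  linarith only [this]

/-- the part without `m` -/
theorem be_l6 {X c0 v0 : ℝ} (hX : 0 < X) (hv0 : 0 < v0)
    (hc0 : v0 ^ 2 * (Real.pi / 2) ≤ Real.exp (2 * c0)) :
    Real.log (Real.pi / 2) / 2 + Real.log (1 + X ^ 2) - Real.log X ≤
      c0 + (X + 1 / X) / v0 - 1 := by
  have hpi : 0 < Real.pi / 2 := by positivity
  have h1 : Real.log v0 * 2 + Real.log (Real.pi / 2) ≤ 2 * c0 := by
    have := Real.log_le_log (by (clear * - hv0; positivity)) hc0
    rw [Real.log_exp, Real.log_mul (by positivity) hpi.ne', Real.log_pow] at this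
    push_cast at this
    linarith only [this]
  have h2 : Real.log (1 + X ^ 2) - Real.log X =
      Real.log ((X + 1 / X) / v0) + Real.log v0 := by
    rw [← Real.log_div (by positivity) hX.ne', ← Real.log_mul (by positivity) hv0.ne']
    congr 1
    field_simp
    ring
  have h3 := Real.log_le_sub_one_of_pos (x := (X + 1 / X) / v0) (by positivity)
  linarith only [h1, h2, h3]

/-- the polynomial in `e = 1/m` -/
theorem be_poly {e P0 A S Q : ℝ} (he0 : 0 ≤ e) (he1 : e ≤ 1 / 48) (hS : 0 ≤ S) (hQ : 0 ≤ Q)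
    (hP0 : P0 ≤ 0) (hP1 : P0 + (A + S / 48 + Q / 48 ^ 2) / 48 ≤ 0) :
    P0 + e * A + e ^ 2 * S + e ^ 3 * Q ≤ 0 := by
  have k1 : e ^ 2 * S ≤ e * (S / 48) := by nlinarith only [he1, mul_nonneg he0 hS]
  have k2 : e ^ 3 * Q ≤ e * (Q / 48 ^ 2) := by
    have h1 : e ^ 2 ≤ 1 / 48 ^ 2 := by nlinarith only [he1, he0]
    nlinarith only [h1, mul_nonneg he0 hQ]
  have a1 : (1 - 48 * e) * P0 ≤ 0 := mul_nonpos_of_nonneg_of_nonpos (by linarith only [he1]) hP0
  have a2 : 48 * e * (P0 + (A + S / 48 + Q / 48 ^ 2) / 48) ≤ 0 :=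
    mul_nonpos_of_nonneg_of_nonpos (by linarith only [he0]) hP1
  linarith

/-- the logarithms of `1 - z` -/
theorem be_l45 {M e w z kap : ℝ} (hM : 0 < M) (hz0 : 0 ≤ z) (hz1 : z < 1) (hz : z = e * w)
    (hMz : M * z = w) (hkz : 1 / (1 - z) ≤ kap) :
    -(M / 2 * Real.log (1 - z)) + -Real.log (1 - z) ≤
      (w / 2 + e * w ^ 2 / 4 + e ^ 2 * w ^ 3 / 6 + e ^ 3 * w ^ 4 / 8 * kap) +
      (e * w + e ^ 2 * w ^ 2 / 2 + e ^ 3 * w ^ 3 / 3 * kap) := by
  have h1z : 0 < 1 - z := by linarith only [hz1]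
  have l4 := be_log2 hz0 hz1
  have l5 := be_log3 hz0 hz1
  have hy : z ^ 3 / (3 * (1 - z)) ≤ z ^ 3 / 3 * kap := by
    rw [show z ^ 3 / (3 * (1 - z)) = z ^ 3 / 3 * (1 / (1 - z)) by field_simp]
    exact mul_le_mul_of_nonneg_left hkz (by (clear * - hz0; positivity))
  have hy' : z ^ 4 / (4 * (1 - z)) ≤ z ^ 4 / 4 * kap := by
    rw [show z ^ 4 / (4 * (1 - z)) = z ^ 4 / 4 * (1 / (1 - z)) by (clear * - h1z; field_simp)]
    exact mul_le_mul_of_nonneg_left hkz (by (clear * -; positivity))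
  have h5 : -Real.log (1 - z) ≤ z + z ^ 2 / 2 + z ^ 3 / 3 + z ^ 4 / 4 * kap := by linarith only [l5, hy']
  have h4 : -Real.log (1 - z) ≤ z + z ^ 2 / 2 + z ^ 3 / 3 * kap := by linarith only [l4, hy]
  have h1 := mul_le_mul_of_nonneg_left h5 (by positivity : 0 ≤ M / 2)
  have h2 : M / 2 * (z + z ^ 2 / 2 + z ^ 3 / 3 + z ^ 4 / 4 * kap) =
      w / 2 + e * w ^ 2 / 4 + e ^ 2 * w ^ 3 / 6 + e ^ 3 * w ^ 4 / 8 * kap := by
    have h3 : M / 2 * (z + z ^ 2 / 2 + z ^ 3 / 3 + z ^ 4 / 4 * kap) =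
      M * z / 2 * (1 + z / 2 + z ^ 2 / 3 + z ^ 3 / 4 * kap) := by ring
    rw [h3, hMz, hz]; ring
  have h2' : z + z ^ 2 / 2 + z ^ 3 / 3 * kap =
      e * w + e ^ 2 * w ^ 2 / 2 + e ^ 3 * w ^ 3 / 3 * kap := by rw [hz]; ring
  linarith only [l4, hy, h1, h2, h2']

/-- all terms but the polynomial inequalities -/
theorem be_core {m : ℕ} (hm : 48 ≤ m) {x X b c0 v0 om kap W : ℝ} (hx : 0 < x) (hX : 0 < X)
    (hXx : X ^ 2 = m * x ^ 2) (hXs : Real.log X = Real.log m / 2 + Real.log x)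
    (hW : X ^ 2 ≤ W) (hW48 : W < 48) (hkap : 1 ≤ kap * (1 - W / 48))
    (hom : X ^ 2 ≤ om * (1 + X ^ 2)) (hb0 : 0 ≤ b) (hb1 : b ≤ 7) (hv0 : 0 < v0)
    (hc0 : v0 ^ 2 * (Real.pi / 2) ≤ Real.exp (2 * c0))
    (hco : 0 ≤ X ^ 4 / 2 + X ^ 6 / 6 + 1 / 4 - 2304 / 7203 * b ^ 3)
    (hP0 : c0 + (X + 1 / X) / v0 - 1 + X ^ 2 / 2 - b ≤ 0)
    (hP1 : c0 + (X + 1 / X) / v0 - 1 + X ^ 2 / 2 - b +
      ((om + X ^ 2 + X ^ 4 / 4 - 1 / 2 - 24 / 49 * b ^ 2) +
        (X ^ 4 / 2 + X ^ 6 / 6 + 1 / 4 - 2304 / 7203 * b ^ 3) / 48 +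
        kap * (X ^ 6 / 3 + X ^ 8 / 8) / 48 ^ 2) / 48 ≤ 0) :
    (1 - b / (m + 1)) ^ (m + 1) *
      (Real.sqrt (Real.pi / (2 * (m + 1))) * ((m + 2) * (x ^ 2 / (1 - x ^ 2)) + 1)) ≤
      x * sq x ^ m := by
  have hm' : (48 : ℝ) ≤ m := by exact_mod_cast hm
  have hM0 : (0 : ℝ) < m := by linarith only [hm']
  obtain ⟨e, he⟩ : ∃ e : ℝ, e = 1 / (m : ℝ) := ⟨_, rfl⟩
  have he0 : 0 < e := by rw [he]; positivity
  have he1 : e ≤ 1 / 48 := he ▸ one_div_le_one_div_of_le (by norm_num) hm'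
  have heM : e * m = 1 := by rw [he]; field_simp
  have hz : x ^ 2 = e * X ^ 2 := by rw [hXx, ← mul_assoc, heM, one_mul]
  have hz0 : 0 < x ^ 2 := by positivity
  have hzW : x ^ 2 ≤ W / 48 := by
    rw [hz]
    have : e * X ^ 2 ≤ 1 / 48 * W := mul_le_mul he1 hW (by positivity) (by norm_num)
    linarith only [this]
  have hz1 : x ^ 2 < 1 := by
    have : W / 48 < 1 := by linarith only [hW48]
    linarith only [hW48, hzW]
  have h1z : 0 < 1 - x ^ 2 := by linarith only [hW48, hzW]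
  have hk0 : 0 < kap := by
    by_contra h
    push Not at h
    have : kap * (1 - W / 48) ≤ 0 := mul_nonpos_of_nonpos_of_nonneg h (by linarith only [hW48])
    linarith only [hkap, this]
  have hkz : 1 / (1 - x ^ 2) ≤ kap := by
    rw [div_le_iff₀ h1z]
    have := mul_le_mul_of_nonneg_left hzW hk0.le
    linarith only [hkap, this]
  refine be_exp hx hz1 (by linarith only [hb1, hm']) ?_
  have l1 := be_l1 hm' heM hb0 hb1
  have l2 : Real.log ((m : ℝ) + 1) = Real.log m + Real.log (1 + e) := by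
    rw [← Real.log_mul hM0.ne' (by (clear * - he0; positivity))]
    congr 1
    rw [mul_add, mul_comm (m : ℝ) e, heM]; ring
  have l2' := be_log_ge he0.le
  have l3 := be_l3 (M := m) (w := X ^ 2) (z := x ^ 2) (by positivity) hz0.le hXx.symm
  have l45 := be_l45 (M := m) (e := e) (w := X ^ 2) (z := x ^ 2) hM0 hz0.le hz1 hz hXx.symm hkz
  have l6 := be_l6 hX hv0 hc0
  have hzw : x ^ 2 / (1 + X ^ 2) ≤ e * om := by
    rw [div_le_iff₀ (by positivity), hz, mul_assoc]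
    exact mul_le_mul_of_nonneg_left hom he0.le
  have key := be_poly (e := e) (Q := kap * (X ^ 6 / 3 + X ^ 8 / 8)) he0.le he1 hco
    (by positivity) hP0 hP1
  have fin : -b - b ^ 2 / 2 * (48 / 49 * e) - b ^ 3 / 3 * (48 / 49 * e) ^ 2 +
      (c0 + (X + 1 / X) / v0 - 1) - (e - e ^ 2 / 2) / 2 + e * om +
      (((X ^ 2) / 2 + e * (X ^ 2) ^ 2 / 4 + e ^ 2 * (X ^ 2) ^ 3 / 6 +
        e ^ 3 * (X ^ 2) ^ 4 / 8 * kap) +
      (e * (X ^ 2) + e ^ 2 * (X ^ 2) ^ 2 / 2 + e ^ 3 * (X ^ 2) ^ 3 / 3 * kap)) =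
      c0 + (X + 1 / X) / v0 - 1 + X ^ 2 / 2 - b +
      e * (om + X ^ 2 + X ^ 4 / 4 - 1 / 2 - 24 / 49 * b ^ 2) +
      e ^ 2 * (X ^ 4 / 2 + X ^ 6 / 6 + 1 / 4 - 2304 / 7203 * b ^ 3) +
      e ^ 3 * (kap * (X ^ 6 / 3 + X ^ 8 / 8)) := by
    ring
  (clear * - hXs l1 l2 l2' l3 l45 l6 hzw key; linarith)

/-! ### the three cases -/

/-- case A, polynomial `co` -/
def beAco : List ℤ := [1290661761, -4630605408, 6066897408, -2649563136, 225093750, 0, 75031250]

set_option maxRecDepth 100000 in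
theorem beAco_nonneg {X : ℝ} (h0 : 19 / 10 ≤ X) (h1 : X ≤ 5 / 2) : 0 ≤ ev1 beAco X :=
  auto1_sound (n := 8) (A := 190) (B := 251) (D := 100) (by norm_num) (by (clear * -; decide +kernel))
    (by push_cast; linarith only [h0]) (by push_cast; linarith only [h1])

/-- case A, polynomial `p0` -/
def beAp0 : List ℤ := [-2500, -14763, 15056, -3325]

set_option maxRecDepth 100000 in
theorem beAp0_nonneg {X : ℝ} (h0 : 19 / 10 ≤ X) (h1 : X ≤ 5 / 2) : 0 ≤ ev1 beAp0 X :=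
  auto1_sound (n := 8) (A := 190) (B := 251) (D := 100) (by norm_num) (by (clear * -; decide +kernel))
    (by push_cast; linarith only [h0]) (by push_cast; linarith only [h1])

/-- case A, polynomial `p1` -/
def beAp1 : List ℤ := [-5689958400000000, -33106568140691712, 32691638829735936, -6895094299508736, 38662425280512, -82114200000000, 0, -1147308726200, 0, -19669772325]

set_option maxRecDepth 100000 in
theorem beAp1_nonneg {X : ℝ} (h0 : 19 / 10 ≤ X) (h1 : X ≤ 5 / 2) : 0 ≤ ev1 beAp1 X :=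
  auto1_sound (n := 8) (A := 190) (B := 251) (D := 100) (by norm_num) (by (clear * -; decide +kernel))
    (by push_cast; linarith only [h0]) (by push_cast; linarith only [h1])

/-- case A -/
theorem be_stepA {m : ℕ} (hm : 48 ≤ m) {x X : ℝ} (hx : 0 < x) (hX : 0 < X)
    (hXx : X ^ 2 = m * x ^ 2) (hXs : Real.log X = Real.log m / 2 + Real.log x)
    (h0 : 19 / 10 ≤ X) (h1 : X ≤ 5 / 2) :
    (1 - ((528 * X - 403) / 200) / (m + 1)) ^ (m + 1) *
      (Real.sqrt (Real.pi / (2 * (m + 1))) * ((m + 2) * (x ^ 2 / (1 - x ^ 2)) + 1)) ≤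
      x * sq x ^ m := by
  have k1 := beAco_nonneg h0 h1
  have k2 := beAp0_nonneg h0 h1
  have k3 := beAp1_nonneg h0 h1
  simp only [beAco, ev1_cons, ev1_nil, beAp0, beAp1] at k1 k2 k3
  push_cast at k1 k2 k3
  have hXX : X * (1 / X) = 1 := by (clear * - hX; field_simp)
  refine be_core hm (c0 := 241 / 200) (v0 := 133 / 50) (om := 863 / 1000) (kap := 5749 / 5000)
    (W := 25 / 4) hx hX hXx hXs (by nlinarith only [h1, hX]) (by norm_num) (by norm_num) (by nlinarith only [h1, hX])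
    (by linarith only [h0]) (by linarith only [h1]) (by norm_num) ?_ ?_ ?_ ?_
  · have h := pin_exp_ge (241 / 200) (by norm_num)
    have hpi := Real.pi_lt_d6
    have h2 : Real.exp (2 * (241 / 200 : ℝ)) = Real.exp (241 / 200) ^ 2 := by
      rw [← Real.exp_nat_mul]; norm_num
    rw [h2]
    have h3 := pow_le_pow_left₀ (by norm_num) h 2
    refine le_trans ?_ h3
    norm_num
    linarith only [hpi]
  · nlinarith only [k1]
  · refine nonpos_of_mul_nonpos_right (a := X) ?_ hX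
    have e : X * (241 / 200 + (X + 1 / X) / (133 / 50) - 1 + X ^ 2 / 2 - ((528 * X - 403) / 200)) =
      X * (241 / 200) + (X ^ 2 + X * (1 / X)) / (133 / 50) - X + X ^ 3 / 2 - X * (((528 * X - 403) / 200)) := by
      ring
    rw [e, hXX]
    (clear * - k2; nlinarith)
  · refine nonpos_of_mul_nonpos_right (a := X) ?_ hX
    have e : X * (241 / 200 + (X + 1 / X) / (133 / 50) - 1 + X ^ 2 / 2 - ((528 * X - 403) / 200) +
      ((863 / 1000 + X ^ 2 + X ^ 4 / 4 - 1 / 2 - 24 / 49 * (((528 * X - 403) / 200)) ^ 2) +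
        (X ^ 4 / 2 + X ^ 6 / 6 + 1 / 4 - 2304 / 7203 * (((528 * X - 403) / 200)) ^ 3) / 48 +
        5749 / 5000 * (X ^ 6 / 3 + X ^ 8 / 8) / 48 ^ 2) / 48) =
      X * (241 / 200) + (X ^ 2 + X * (1 / X)) / (133 / 50) - X + X ^ 3 / 2 - X * (((528 * X - 403) / 200)) +
      X * (((863 / 1000 + X ^ 2 + X ^ 4 / 4 - 1 / 2 - 24 / 49 * (((528 * X - 403) / 200)) ^ 2) +
        (X ^ 4 / 2 + X ^ 6 / 6 + 1 / 4 - 2304 / 7203 * (((528 * X - 403) / 200)) ^ 3) / 48 +
        5749 / 5000 * (X ^ 6 / 3 + X ^ 8 / 8) / 48 ^ 2) / 48) := by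
      ring
    rw [e, hXX]
    nlinarith only [k3]

/-- case B, polynomial `co` -/
def beBco : List ℤ := [1934051403, -6566797440, 7891430400, -3161088000, 225093750, 0, 75031250]

set_option maxRecDepth 100000 in
theorem beBco_nonneg {X : ℝ} (h0 : 5 / 2 ≤ X) (h1 : X ≤ 11 / 4) : 0 ≤ ev1 beBco X :=
  auto1_sound (n := 8) (A := 250) (B := 276) (D := 100) (by norm_num) (by (clear * -; decide +kernel))
    (by push_cast; linarith only [h0]) (by push_cast; linarith only [h1])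

/-- case B, polynomial `p0` -/
def beBp0 : List ℤ := [-200, -1593, 1480, -300]

set_option maxRecDepth 100000 in
theorem beBp0_nonneg {X : ℝ} (h0 : 5 / 2 ≤ X) (h1 : X ≤ 11 / 4) : 0 ≤ ev1 beBp0 X :=
  auto1_sound (n := 8) (A := 250) (B := 276) (D := 100) (by norm_num) (by (clear * -; decide +kernel))
    (by push_cast; linarith only [h0]) (by push_cast; linarith only [h1])

/-- case B, polynomial `p1` -/
def beBp1 : List ℤ := [-177020928000000, -1385791175579136, 1242609851105280, -238150589644800, 1618477056000, -2881200000000, 0, -40316151400, 0, -712556775]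

set_option maxRecDepth 100000 in
theorem beBp1_nonneg {X : ℝ} (h0 : 5 / 2 ≤ X) (h1 : X ≤ 11 / 4) : 0 ≤ ev1 beBp1 X :=
  auto1_sound (n := 8) (A := 250) (B := 276) (D := 100) (by norm_num) (by (clear * -; decide +kernel))
    (by push_cast; linarith only [h0]) (by push_cast; linarith only [h1])

/-- case B -/
theorem be_stepB {m : ℕ} (hm : 48 ≤ m) {x X : ℝ} (hx : 0 < x) (hX : 0 < X)
    (hXx : X ^ 2 = m * x ^ 2) (hXs : Real.log X = Real.log m / 2 + Real.log x)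
    (h0 : 5 / 2 ≤ X) (h1 : X ≤ 11 / 4) :
    (1 - ((280 * X - 233) / 100) / (m + 1)) ^ (m + 1) *
      (Real.sqrt (Real.pi / (2 * (m + 1))) * ((m + 2) * (x ^ 2 / (1 - x ^ 2)) + 1)) ≤
      x * sq x ^ m := by
  have k1 := beBco_nonneg h0 h1
  have k2 := beBp0_nonneg h0 h1
  have k3 := beBp1_nonneg h0 h1
  simp only [beBco, beBp0, beBp1, ev1_cons, ev1_nil] at k1 k2 k3
  push_cast at k1 k2 k3
  have hXX : X * (1 / X) = 1 := by field_simp
  refine be_core hm (c0 := 53 / 40) (v0 := 3) (om := 221 / 250) (kap := 11871 / 10000)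
    (W := 121 / 16) hx hX hXx hXs (by nlinarith only [h1, hX]) (by norm_num) (by norm_num) (by nlinarith only [h1, hX])
    (by (clear * - h0; linarith)) (by linarith) (by norm_num) ?_ ?_ ?_ ?_
  · have h := pin_exp_ge (53 / 40) (by norm_num)
    have hpi := Real.pi_lt_d6
    have h2 : Real.exp (2 * (53 / 40 : ℝ)) = Real.exp (53 / 40) ^ 2 := by
      rw [← Real.exp_nat_mul]; norm_num
    rw [h2]
    have h3 := pow_le_pow_left₀ (by norm_num) h 2
    refine le_trans ?_ h3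
    norm_num
    linarith only [hpi]
  · nlinarith only [k1]
  · refine nonpos_of_mul_nonpos_right (a := X) ?_ hX
    have e : X * (53 / 40 + (X + 1 / X) / (3) - 1 + X ^ 2 / 2 - ((280 * X - 233) / 100)) =
      X * (53 / 40) + (X ^ 2 + X * (1 / X)) / (3) - X + X ^ 3 / 2 - X * (((280 * X - 233) / 100)) := by
      ring
    rw [e, hXX]
    nlinarith only [k2]
  · refine nonpos_of_mul_nonpos_right (a := X) ?_ hX
    have e : X * (53 / 40 + (X + 1 / X) / (3) - 1 + X ^ 2 / 2 - ((280 * X - 233) / 100) +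
      ((221 / 250 + X ^ 2 + X ^ 4 / 4 - 1 / 2 - 24 / 49 * (((280 * X - 233) / 100)) ^ 2) +
        (X ^ 4 / 2 + X ^ 6 / 6 + 1 / 4 - 2304 / 7203 * (((280 * X - 233) / 100)) ^ 3) / 48 +
        11871 / 10000 * (X ^ 6 / 3 + X ^ 8 / 8) / 48 ^ 2) / 48) =
      X * (53 / 40) + (X ^ 2 + X * (1 / X)) / (3) - X + X ^ 3 / 2 - X * (((280 * X - 233) / 100)) +
      X * (((221 / 250 + X ^ 2 + X ^ 4 / 4 - 1 / 2 - 24 / 49 * (((280 * X - 233) / 100)) ^ 2) +
        (X ^ 4 / 2 + X ^ 6 / 6 + 1 / 4 - 2304 / 7203 * (((280 * X - 233) / 100)) ^ 3) / 48 +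
        11871 / 10000 * (X ^ 6 / 3 + X ^ 8 / 8) / 48 ^ 2) / 48) := by
      ring
    rw [e, hXX]
    nlinarith only [k3]

/-- case C, polynomial `co` -/
def beCco : List ℤ := [4528205643, -13204653696, 13162466304, -4373471232, 225093750, 0, 75031250]

set_option maxRecDepth 100000 in
theorem beCco_nonneg {X : ℝ} (h0 : 11 / 4 ≤ X) (h1 : X ≤ 3) : 0 ≤ ev1 beCco X :=
  auto1_sound (n := 8) (A := 275) (B := 301) (D := 100) (by norm_num) (by (clear * -; decide +kernel))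
    (by push_cast; linarith only [h0]) (by push_cast; linarith only [h1])

/-- case C, polynomial `p0` -/
def beCp0 : List ℤ := [-25000, -283843, 226160, -40250]

set_option maxRecDepth 100000 in
theorem beCp0_nonneg {X : ℝ} (h0 : 11 / 4 ≤ X) (h1 : X ≤ 3) : 0 ≤ ev1 beCp0 X :=
  auto1_sound (n := 8) (A := 275) (B := 301) (D := 100) (by norm_num) (by (clear * -; decide +kernel))
    (by push_cast; linarith) (by push_cast; linarith only [h1])

/-- case C, polynomial `p1` -/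
def beCp1 : List ℤ := [-2844979200000000, -31501637109115776, 24027708010217472, -3977566949449728, 38626497921024, -49700700000000, 0, -696660234200, 0, -12744087825]

set_option maxRecDepth 100000 in
theorem beCp1_nonneg {X : ℝ} (h0 : 11 / 4 ≤ X) (h1 : X ≤ 3) : 0 ≤ ev1 beCp1 X :=
  auto1_sound (n := 8) (A := 275) (B := 301) (D := 100) (by norm_num) (by (clear * -; decide +kernel))
    (by push_cast; linarith only [h0]) (by push_cast; linarith only [h1])

/-- case C -/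
theorem be_stepC {m : ℕ} (hm : 48 ≤ m) {x X : ℝ} (hx : 0 < x) (hX : 0 < X)
    (hXx : X ^ 2 = m * x ^ 2) (hXs : Real.log X = Real.log m / 2 + Real.log x)
    (h0 : 11 / 4 ≤ X) (h1 : X ≤ 3) :
    (1 - ((312 * X - 313) / 100) / (m + 1)) ^ (m + 1) *
      (Real.sqrt (Real.pi / (2 * (m + 1))) * ((m + 2) * (x ^ 2 / (1 - x ^ 2)) + 1)) ≤
      x * sq x ^ m := by
  have k1 := beCco_nonneg h0 h1
  have k2 := beCp0_nonneg h0 h1
  have k3 := beCp1_nonneg h0 h1
  simp only [beCco, beCp0, beCp1, ev1_cons, ev1_nil] at k1 k2 k3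
  push_cast at k1 k2 k3
  have hXX : X * (1 / X) = 1 := by field_simp
  refine be_core hm (c0 := 349 / 250) (v0 := 161 / 50) (om := 9 / 10) (kap := 3077 / 2500)
    (W := 9) hx hX hXx hXs (by (clear * - h1 hX; nlinarith)) (by norm_num) (by norm_num) (by nlinarith only [h1, hX])
    (by linarith) (by linarith only [h1]) (by norm_num) ?_ ?_ ?_ ?_
  · have h := pin_exp_ge (349 / 250) (by norm_num)
    have hpi := Real.pi_lt_d6
    have h2 : Real.exp (2 * (349 / 250 : ℝ)) = Real.exp (349 / 250) ^ 2 := by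
      rw [← Real.exp_nat_mul]; norm_num
    rw [h2]
    have h3 := pow_le_pow_left₀ (by norm_num) h 2
    refine le_trans ?_ h3
    norm_num
    linarith only [hpi]
  · nlinarith only [k1]
  · refine nonpos_of_mul_nonpos_right (a := X) ?_ hX
    have e : X * (349 / 250 + (X + 1 / X) / (161 / 50) - 1 + X ^ 2 / 2 - ((312 * X - 313) / 100)) =
      X * (349 / 250) + (X ^ 2 + X * (1 / X)) / (161 / 50) - X + X ^ 3 / 2 - X * (((312 * X - 313) / 100)) := by
      ring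
    rw [e, hXX]
    nlinarith only [k2]
  · refine nonpos_of_mul_nonpos_right (a := X) ?_ hX
    have e : X * (349 / 250 + (X + 1 / X) / (161 / 50) - 1 + X ^ 2 / 2 - ((312 * X - 313) / 100) +
      ((9 / 10 + X ^ 2 + X ^ 4 / 4 - 1 / 2 - 24 / 49 * (((312 * X - 313) / 100)) ^ 2) +
        (X ^ 4 / 2 + X ^ 6 / 6 + 1 / 4 - 2304 / 7203 * (((312 * X - 313) / 100)) ^ 3) / 48 +
        3077 / 2500 * (X ^ 6 / 3 + X ^ 8 / 8) / 48 ^ 2) / 48) =
      X * (349 / 250) + (X ^ 2 + X * (1 / X)) / (161 / 50) - X + X ^ 3 / 2 - X * (((312 * X - 313) / 100)) +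
      X * (((9 / 10 + X ^ 2 + X ^ 4 / 4 - 1 / 2 - 24 / 49 * (((312 * X - 313) / 100)) ^ 2) +
        (X ^ 4 / 2 + X ^ 6 / 6 + 1 / 4 - 2304 / 7203 * (((312 * X - 313) / 100)) ^ 3) / 48 +
        3077 / 2500 * (X ^ 6 / 3 + X ^ 8 / 8) / 48 ^ 2) / 48) := by
      ring
    rw [e, hXX]
    nlinarith only [k3]

/-! ### (L5), in the form needed -/

theorem be_X {m : ℕ} (hm : 48 ≤ m) {x : ℝ} (hx : 0 < x) :
    0 < Real.sqrt m * x ∧ (Real.sqrt m * x) ^ 2 = m * x ^ 2 ∧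
      Real.log (Real.sqrt m * x) = Real.log m / 2 + Real.log x := by
  have hm0 : (0 : ℝ) < m := by
    have : (48 : ℝ) ≤ m := by exact_mod_cast hm
    linarith only [this]
  have hs : 0 < Real.sqrt m := Real.sqrt_pos.2 hm0
  refine ⟨by positivity, ?_, ?_⟩
  · rw [mul_pow, Real.sq_sqrt hm0.le]
  · rw [Real.log_mul hs.ne' hx.ne', Real.log_sqrt hm0.le]

/-- **(L5)(i)** `19 / 10 ≤ √m x ≤ 5 / 2` -/
theorem apl_beta1 {m : ℕ} (hm : 48 ≤ m) {x : ℝ} (hx : 0 < x)
    (h0 : 19 / 10 ≤ Real.sqrt m * x) (h1 : Real.sqrt m * x ≤ 5 / 2) :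
    (1 - ((528 * (Real.sqrt m * x) - 403) / 200) / (m + 1)) ^ (m + 1) *
      (Real.sqrt (Real.pi / (2 * (m + 1))) * ((m + 2) * (x ^ 2 / (1 - x ^ 2)) + 1)) ≤
      x * sq x ^ m := by
  obtain ⟨a, b, c⟩ := be_X hm hx
  exact be_stepA hm hx a b c h0 h1

/-- **(L5)(ii)** `5 / 2 ≤ √m x ≤ 11 / 4` -/
theorem apl_beta2 {m : ℕ} (hm : 48 ≤ m) {x : ℝ} (hx : 0 < x)
    (h0 : 5 / 2 ≤ Real.sqrt m * x) (h1 : Real.sqrt m * x ≤ 11 / 4) :
    (1 - ((280 * (Real.sqrt m * x) - 233) / 100) / (m + 1)) ^ (m + 1) *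
      (Real.sqrt (Real.pi / (2 * (m + 1))) * ((m + 2) * (x ^ 2 / (1 - x ^ 2)) + 1)) ≤
      x * sq x ^ m := by
  obtain ⟨a, b, c⟩ := be_X hm hx
  exact be_stepB hm hx a b c h0 h1

/-- **(L5)(iii)** `11 / 4 ≤ √m x ≤ 3` -/
theorem apl_beta3 {m : ℕ} (hm : 48 ≤ m) {x : ℝ} (hx : 0 < x)
    (h0 : 11 / 4 ≤ Real.sqrt m * x) (h1 : Real.sqrt m * x ≤ 3) :
    (1 - ((312 * (Real.sqrt m * x) - 313) / 100) / (m + 1)) ^ (m + 1) *
      (Real.sqrt (Real.pi / (2 * (m + 1))) * ((m + 2) * (x ^ 2 / (1 - x ^ 2)) + 1)) ≤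
      x * sq x ^ m := by
  obtain ⟨a, b, c⟩ := be_X hm hx
  exact be_stepC hm hx a b c h0 h1

end Vale.Agent.P237.AllN
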