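import Vale.Agent.P237.AllN.ApriR

/-!
# P237: the one-cell a priori bound
-/

open MeasureTheory Metric Set Module Filter Topology

namespace Vale.Agent.P237.AllN

open Alm

theorem apc_log_one_add_le {y : ℝ} (hy : 0 ≤ y) :
    Real.log (1 + y) ≤ y * (2 + y) / (2 * (1 + y)) := by
  have h1 : (0 : ℝ) < 1 + y := by (clear * - hy; linarith)
  have key : MonotoneOn (fun t : ℝ => t * (2 + t) / (2 * (1 + t)) - Real.log (1 + t)) (Ici 0) := by
    have hd : ∀ t ∈ Ici (0 : ℝ), HasDerivAt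
        (fun t : ℝ => t * (2 + t) / (2 * (1 + t)) - Real.log (1 + t))
        (((1 * (2 + t) + t * 1) * (2 * (1 + t)) - t * (2 + t) * (2 * 1)) / (2 * (1 + t)) ^ 2 -
          1 / (1 + t)) t := by
      intro t ht
      have ht' : (0 : ℝ) < 1 + t := by linarith [mem_Ici.1 ht]
      have a1 : HasDerivAt (fun t : ℝ => t * (2 + t)) (1 * (2 + t) + t * 1) t :=
        (hasDerivAt_id t).mul ((hasDerivAt_id t).const_add 2)
      have a2 : HasDerivAt (fun t : ℝ => 2 * (1 + t)) (2 * 1) t :=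
        ((hasDerivAt_id t).const_add 1).const_mul 2
      have a3 : HasDerivAt (fun t : ℝ => Real.log (1 + t)) (1 / (1 + t)) t :=
        ((hasDerivAt_id t).const_add 1).log ht'.ne'
      exact (a1.div a2 (by positivity)).sub a3
    apply monotoneOn_of_deriv_nonneg (convex_Ici 0)
    · intro t ht
      exact (hd t ht).continuousAt.continuousWithinAt
    · intro t ht
      rw [interior_Ici] at ht
      exact (hd t (mem_Ici.2 (le_of_lt ht))).differentiableAt.differentiableWithinAt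
    · intro t ht
      rw [interior_Ici] at ht
      rw [(hd t (mem_Ici.2 (le_of_lt ht))).deriv]
      have ht' : (0 : ℝ) < 1 + t := by linarith [mem_Ioi.1 ht]
      have : ((1 * (2 + t) + t * 1) * (2 * (1 + t)) - t * (2 + t) * (2 * 1)) / (2 * (1 + t)) ^ 2 -
          1 / (1 + t) = t ^ 2 / (2 * (1 + t) ^ 2) := by
        field_simp
        ring
      rw [this]
      (clear * - ht'; positivity)
  have := key (mem_Ici.2 le_rfl) (mem_Ici.2 hy) hy
  simp only [add_zero, Real.log_one, zero_mul, zero_div, sub_zero] at this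
  linarith only [this]

/-- `C_m e^{1/(m+1)} ≤ √(π e/(2m))` -/
theorem aprC_le {m : ℕ} (hm : 2 ≤ m) :
    aprC m * Real.exp (1 / ((m : ℝ) + 1)) ≤ √(Real.pi / 2) * Real.exp (1 / 2) / √(m : ℝ) := by
  have hm0 : (0 : ℝ) < m := by exact_mod_cast (by omega : 0 < m)
  have hm2 : (2 : ℝ) ≤ m := by exact_mod_cast hm
  have hA := Slope.am_pos m
  have hA1 := Slope.am_pos (m - 1)
  have hf := fc_pos m
  have hpi := Real.pi_pos
  set L := Real.log (1 + 1 / (m : ℝ)) with hL
  have hL' : L = Real.log ((m : ℝ) + 1) - Real.log m := by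
    rw [hL, ← Real.log_div (by positivity) hm0.ne']
    congr 1
    field_simp
  -- log of the square identity
  have e1 : 2 * Real.log (Slope.am m) = Real.log (fc m) + (Real.log (Real.pi / 2) -
      Real.log ((m : ℝ) + 1)) := by
    have := congrArg Real.log (fc_mul (m := m) (by omega))
    rw [Real.log_pow, Real.log_mul hf.ne' (by positivity)] at this
    push_cast at this
    rw [this]
    congr 1
    rw [← Real.log_div (by positivity) (by positivity)]
    congr 1
    field_simp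
  have e2 : Real.log (fc m) = Real.log (Slope.am m) - Real.log (Slope.am (m - 1)) := by
    unfold fc
    exact Real.log_div hA.ne' hA1.ne'
  have e3 : Real.log (aprC m) = (m : ℝ) * Real.log (Slope.am (m - 1)) -
      ((m : ℝ) - 1) * Real.log (Slope.am m) := by
    unfold aprC
    rw [Real.log_div (by (clear * - hA1; positivity)) (by positivity), Real.log_pow, Real.log_pow,
      Nat.cast_sub (by omega)]
    push_cast
    ring
  have h4 : -L ≤ 2 * Real.log (fc m) := by
    have h5 := fc_sq_ge (m := m) (by omega)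
    have h6 := Real.log_le_log (by positivity) h5
    rw [Real.log_pow, Real.log_div hm0.ne' (by positivity)] at h6
    push_cast at h6
    rw [hL']
    linarith only [h6]
  have h7 : ((m : ℝ) - 3 / 2) * L ≤ 1 - 2 / ((m : ℝ) + 1) := by
    have h8 := apc_log_one_add_le (y := 1 / (m : ℝ)) (by positivity)
    rw [← hL] at h8
    have h9 : (0 : ℝ) ≤ (m : ℝ) - 3 / 2 := by linarith only [hm2]
    refine (mul_le_mul_of_nonneg_left h8 h9).trans ?_
    have e : 1 / (m : ℝ) * (2 + 1 / (m : ℝ)) / (2 * (1 + 1 / (m : ℝ))) =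
        (2 * (m : ℝ) + 1) / (2 * m * ((m : ℝ) + 1)) := by
      (clear * - hm; field_simp)
    rw [e]
    have e' : 1 - 2 / ((m : ℝ) + 1) - ((m : ℝ) - 3 / 2) * ((2 * (m : ℝ) + 1) /
        (2 * m * ((m : ℝ) + 1))) = (3 / 2) / (2 * m * ((m : ℝ) + 1)) := by
      field_simp
      ring
    have : (0 : ℝ) ≤ (3 / 2) / (2 * m * ((m : ℝ) + 1)) := by positivity
    linarith only [e', this]
  have h10 : Real.log (aprC m) + 1 / ((m : ℝ) + 1) ≤
      1 / 2 * Real.log (Real.pi / 2) + 1 / 2 - 1 / 2 * Real.log m := by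
    have h11 : Real.log (aprC m) = 1 / 2 * (Real.log (Real.pi / 2) - Real.log ((m : ℝ) + 1)) -
        ((m : ℝ) - 1 / 2) * Real.log (fc m) := by
      rw [e3]
      linear_combination (1 / 2 : ℝ) * e1 + (m : ℝ) * e2
    have h12 : -(((m : ℝ) - 1 / 2) * Real.log (fc m)) ≤ ((m : ℝ) - 1 / 2) * (L / 2) := by
      have := mul_le_mul_of_nonneg_left (show -Real.log (fc m) ≤ L / 2 by linarith only [h4])
        (show (0 : ℝ) ≤ (m : ℝ) - 1 / 2 by linarith only [hm2])
      linarith only [this]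
    have h13 : 1 / ((m : ℝ) + 1) = 1 / 2 * (2 / ((m : ℝ) + 1)) := by ring
    rw [h11, h13]
    have : Real.log ((m : ℝ) + 1) = L + Real.log m := by rw [hL']; ring
    rw [this]
    linarith only [h7, h12]
  have hC := aprC_pos m
  have h14 := Real.exp_le_exp.2 h10
  rw [Real.exp_add, Real.exp_log hC] at h14
  refine h14.trans (le_of_eq ?_)
  rw [Real.exp_sub, Real.exp_add]
  have s1 : Real.exp (1 / 2 * Real.log (Real.pi / 2)) = √(Real.pi / 2) := by
    rw [Real.sqrt_eq_rpow, Real.rpow_def_of_pos (by positivity)]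
    congr 1
    ring
  have s2 : Real.exp (1 / 2 * Real.log m) = √(m : ℝ) := by
    rw [Real.sqrt_eq_rpow, Real.rpow_def_of_pos hm0]
    congr 1
    ring
  rw [s1, s2]

theorem aplW_pos {p b : ℝ} (hb : 0 < b) : 0 < aplW p b := by
  unfold aplW
  have : Real.exp (-b) < 1 := Real.exp_lt_one_iff.2 (by linarith only [hb])
  exact mul_pos (by linarith only [this]) (Real.exp_pos _)

theorem aplW_le_exp {p b : ℝ} (hp : 0 ≤ p) (hb : 0 < b) : aplW p b ≤ Real.exp p := by
  unfold aplW
  have h1 : 1 - Real.exp (-b) ≤ 1 := by linarith [Real.exp_pos (-b)]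
  have h2 : 0 < Real.exp b - 1 := by
    have := Real.add_one_lt_exp hb.ne'
    linarith only [hb, this]
  have h3 : Real.exp (p * (1 - b / (Real.exp b - 1))) ≤ Real.exp p := by
    apply Real.exp_le_exp.2
    have : 0 ≤ b / (Real.exp b - 1) := by positivity
    nlinarith only [hp, this]
  have h4 : 0 ≤ 1 - Real.exp (-b) := by
    have : Real.exp (-b) < 1 := Real.exp_lt_one_iff.2 (by linarith)
    linarith
  calc _ ≤ 1 * Real.exp p := mul_le_mul h1 h3 (Real.exp_pos _).le zero_le_one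
    _ = Real.exp p := one_mul _

theorem aplW_one_le {q b : ℝ} (hq0 : 0 ≤ q) (hb : 0 < b) :
    aplW 1 b ≤ aplW (1 - q) b * Real.exp q := by
  unfold aplW
  have h2 : 0 < Real.exp b - 1 := by
    have := Real.add_one_lt_exp hb.ne'
    linarith
  have h4 : 0 ≤ 1 - Real.exp (-b) := by
    have : Real.exp (-b) < 1 := Real.exp_lt_one_iff.2 (by linarith)
    linarith
  rw [mul_assoc, ← Real.exp_add]
  apply mul_le_mul_of_nonneg_left _ h4
  apply Real.exp_le_exp.2
  have : 0 ≤ b / (Real.exp b - 1) := by positivity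
  nlinarith only [hq0, this]

/-- The one-cell bound, on the level of numbers. -/
theorem apr_cell {m : ℕ} (hm : 2 ≤ m) {ω κ t P b₁ : ℝ} (hω0 : 0 ≤ ω) (hω1 : ω ≤ 1)
    (ht0 : 0 ≤ t) (ht1 : t ≤ 1) (hκ : 0 ≤ κ)
    (h1 : κ * (geo m ω / m) ^ m * Slope.am m ^ (m - 1) ≤
      Slope.am (m - 1) ^ m * (geo (m + 1) ω / ((m : ℝ) + 1)) ^ (m - 1))
    (h2 : t * geo (m + 1) (1 - (1 - ω) * t) = geo (m + 1) ω * P)
    (hP0 : 0 ≤ P) (hP1 : P ≤ 1) (hb : Real.exp 1 ≤ b₁) (hbn : b₁ ≤ (m : ℝ) + 1)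
    (hβ : (1 - b₁ / ((m : ℝ) + 1)) ^ (m + 1) ≤ 1 - P) :
    κ * t ≤ √(Real.pi / 2) * Real.exp (1 / 2) / √(m : ℝ) * (b₁ / aplW 1 b₁) := by
  have hm0 : (0 : ℝ) < m := by exact_mod_cast (by omega : 0 < m)
  have hm1 : (0 : ℝ) < (m : ℝ) + 1 := by positivity
  have hb0 : 0 < b₁ := (Real.exp_pos 1).trans_le hb
  set p := (m : ℝ) / ((m : ℝ) + 1) with hp
  have hp0 : 0 ≤ p := by positivity
  have hp1 : p ≤ 1 := by rw [hp, div_le_one hm1]; linarith only []
  have hW := aplW_pos (p := p) hb0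
  have hW1 := aplW_pos (p := 1) hb0
  have hbase : 0 ≤ 1 - b₁ / ((m : ℝ) + 1) := by
    rw [sub_nonneg, div_le_one hm1]; exact hbn
  have hR : 0 ≤ b₁ / aplW p b₁ := by (clear * - hb0 hW; positivity)
  have hWe : aplW p b₁ ≤ b₁ := by
    refine (aplW_le_exp hp0 hb0).trans ((Real.exp_le_exp.2 hp1).trans hb)
  -- `(m+1)(1-θ) ≤ b₁` as soon as `1 - P ≤ θ^(m+1)`
  have hcap : ∀ θ : ℝ, 0 ≤ θ → 1 - P ≤ θ ^ (m + 1) → ((m : ℝ) + 1) * (1 - θ) ≤ b₁ := by
    intro θ hθ0 hθ
    have h3 : 1 - b₁ / ((m : ℝ) + 1) ≤ θ := by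
      by_contra hc
      push Not at hc
      have := pow_lt_pow_left₀ hc hθ0 (n := m + 1) (by omega)
      linarith only [hβ, hθ, this]
    have h4 : ((m : ℝ) + 1) * (1 - θ) ≤ ((m : ℝ) + 1) * (b₁ / ((m : ℝ) + 1)) :=
      mul_le_mul_of_nonneg_left (by linarith only [h3]) hm1.le
    rwa [mul_div_cancel₀ _ hm1.ne'] at h4
  have hred := apr_red (m := m) (by omega) hω0 hω1 ht0 ht1 hκ h1 h2 hR
    (P := P) (hP1.trans (by rw [one_le_div hW]; exact hWe)) ?_ ?_
  · -- conclusion
    refine hred.trans ?_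
    have h5 := aplW_one_le (q := 1 / ((m : ℝ) + 1)) (by positivity) hb0
    have e1 : 1 - 1 / ((m : ℝ) + 1) = p := by rw [hp]; field_simp; ring
    rw [e1] at h5
    have h6 : b₁ / aplW p b₁ ≤ Real.exp (1 / ((m : ℝ) + 1)) * (b₁ / aplW 1 b₁) := by
      rw [mul_div_assoc', div_le_div_iff₀ hW hW1]
      calc b₁ * aplW 1 b₁ ≤ b₁ * (aplW p b₁ * Real.exp (1 / ((m : ℝ) + 1))) :=
            mul_le_mul_of_nonneg_left h5 hb0.le
        _ = _ := by ring
    calc aprC m * (b₁ / aplW p b₁) ≤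
          aprC m * (Real.exp (1 / ((m : ℝ) + 1)) * (b₁ / aplW 1 b₁)) :=
          mul_le_mul_of_nonneg_left h6 (aprC_pos m).le
      _ = aprC m * Real.exp (1 / ((m : ℝ) + 1)) * (b₁ / aplW 1 b₁) := by ring
      _ ≤ _ := mul_le_mul_of_nonneg_right (aprC_le hm) (by (clear * - hb0 hW1; positivity))
  · intro b θ hb' hθ0 hθ1 hθ
    have hσ : 0 < 1 - Real.exp (-b) := by
      have : Real.exp (-b) < 1 := Real.exp_lt_one_iff.2 (by linarith only [hb'])
      linarith only [this]
    rcases le_total b b₁ with hbb | hbb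
    · have h7 : Real.exp (-b) ≤ θ ^ (m + 1) := by
        rw [hθ]
        have : P * (1 - Real.exp (-b)) ≤ 1 * (1 - Real.exp (-b)) :=
          mul_le_mul_of_nonneg_right hP1 hσ.le
        linarith only [this]
      have hθp : 0 < θ := by
        rcases hθ0.eq_or_lt with h0 | h0
        · rw [← h0, zero_pow (by omega)] at h7
          exact absurd h7 (not_le.2 (Real.exp_pos _))
        · exact h0
      have h8 := Real.log_le_log (Real.exp_pos _) h7
      rw [Real.log_exp, Real.log_pow] at h8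
      push_cast at h8
      have h9 : Real.log θ ≤ θ - 1 := Real.log_le_sub_one_of_pos hθp
      have h10 : ((m : ℝ) + 1) * (1 - θ) ≤ b := by nlinarith only [h8, h9]
      refine h10.trans ?_
      rw [div_mul_eq_mul_div, le_div_iff₀ hW]
      exact aplW_div hp0 hp1 hb' hbb
    · have h11 : 1 - P ≤ θ ^ (m + 1) := by
        rw [hθ]
        have : P * (1 - Real.exp (-b)) ≤ P * 1 :=
          mul_le_mul_of_nonneg_left (by linarith only [Real.exp_pos (-b)]) hP0
        linarith only [this]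
      refine (hcap θ hθ0 h11).trans ?_
      rw [div_mul_eq_mul_div, le_div_iff₀ hW]
      exact mul_le_mul_of_nonneg_left (aplW_mono hp0 hb0 hbb) hb0.le
  · intro θ hθ0 hθ1 hθ
    refine (hcap θ hθ0 hθ.ge).trans ?_
    rw [div_mul_eq_mul_div, le_div_iff₀ hW]
    exact mul_le_mul_of_nonneg_left (aplW_le_exp hp0 hb0) hb0.le

end Vale.Agent.P237.AllN
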