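import Vale.Agent.P237.AllN.ApriC

/-!
# P237: a priori bound, central part (comparison with the truncated cylinder)
-/

open MeasureTheory Metric Set Module Filter Topology

namespace Vale.Agent.P237.AllN

open Alm

variable {m : ℕ} {r τ τ' T : ℝ → ℝ} {x : ℝ}

/-- `e^{-v} ≤ 1 - v + v²/2 - v³/6 + v⁴/24` -/
theorem apd_exp_neg_le {v : ℝ} (hv : 0 ≤ v) :
    Real.exp (-v) ≤ 1 - v + v ^ 2 / 2 - v ^ 3 / 6 + v ^ 4 / 24 := by
  have hd : ∀ t : ℝ, HasDerivAt
      (fun t : ℝ => (1 - t + t ^ 2 / 2 - t ^ 3 / 6 + t ^ 4 / 24) * Real.exp t)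
      (((-1 + t - t ^ 2 / 2 + t ^ 3 / 6) * Real.exp t) +
        (1 - t + t ^ 2 / 2 - t ^ 3 / 6 + t ^ 4 / 24) * Real.exp t) t := by
    intro t
    have a1 : HasDerivAt (fun t : ℝ => 1 - t + t ^ 2 / 2 - t ^ 3 / 6 + t ^ 4 / 24)
        (-1 + t - t ^ 2 / 2 + t ^ 3 / 6) t := by
      have b1 := ((hasDerivAt_id t).const_sub 1)
      have b2 := ((hasDerivAt_id t).pow 2).div_const 2
      have b3 := ((hasDerivAt_id t).pow 3).div_const 6
      have b4 := ((hasDerivAt_id t).pow 4).div_const 24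
      have b5 := ((b1.add b2).sub b3).add b4
      refine b5.congr_deriv ?_
      simp only [id]
      norm_num
      ring
    exact a1.mul (Real.hasDerivAt_exp t)
  have key : MonotoneOn
      (fun t : ℝ => (1 - t + t ^ 2 / 2 - t ^ 3 / 6 + t ^ 4 / 24) * Real.exp t) (Ici 0) := by
    apply monotoneOn_of_deriv_nonneg (convex_Ici 0)
    · intro t _
      exact (hd t).continuousAt.continuousWithinAt
    · intro t _
      exact (hd t).differentiableAt.differentiableWithinAt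
    · intro t _
      rw [(hd t).deriv]
      have e : (((-1 + t - t ^ 2 / 2 + t ^ 3 / 6) * Real.exp t) +
        (1 - t + t ^ 2 / 2 - t ^ 3 / 6 + t ^ 4 / 24) * Real.exp t) = t ^ 4 / 24 * Real.exp t := by
        ring
      rw [e]
      (clear * -; positivity)
  have h1 := key (mem_Ici.2 le_rfl) (mem_Ici.2 hv) hv
  simp only [Real.exp_zero] at h1
  rw [Real.exp_neg, inv_le_iff_one_le_mul₀ (Real.exp_pos v)]
  norm_num at h1
  linarith only [h1]

/-- `sq t ^ m ≤ e^{-m t²/2}` -/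
theorem apd_sq_le (m : ℕ) {t : ℝ} (ht : t ∈ Icc (0 : ℝ) 1) :
    sq t ^ m ≤ Real.exp (-((m : ℝ) * t ^ 2 / 2)) := by
  have h1 : sq t ≤ Real.exp (-(t ^ 2 / 2)) := by
    apply le_of_sq_le_sq _ (Real.exp_pos _).le
    rw [pin_sq_sq ht, ← Real.exp_nat_mul]
    have := Real.add_one_le_exp (((2 : ℕ) : ℝ) * -(t ^ 2 / 2))
    push_cast at this ⊢
    linarith only [this]
  have h2 := pow_le_pow_left₀ (cn_sq_nonneg t) h1 m
  rw [← Real.exp_nat_mul] at h2
  refine h2.trans (le_of_eq ?_)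
  congr 1
  ring

/-- `M(w) = 1 - w/6 + w²/40 - w³/336 + w⁴/3456` -/
noncomputable def apM (w : ℝ) : ℝ := 1 - w / 6 + w ^ 2 / 40 - w ^ 3 / 336 + w ^ 4 / 3456

/-- `∫₀ˣ s^m ≤ x M(m x²)` -/
theorem apd_int_le (m : ℕ) (hx0 : 0 ≤ x) (hx1 : x ≤ 1) :
    (∫ t in (0 : ℝ)..x, sq t ^ m) ≤ x * apM ((m : ℝ) * x ^ 2) := by
  have hm : (0 : ℝ) ≤ m := Nat.cast_nonneg m
  have h := pin_P_le (m := m) (x := x) 5
    (fun i => match i with
      | 0 => 1
      | 1 => -((m : ℝ) / 2)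
      | 2 => (m : ℝ) ^ 2 / 8
      | 3 => -((m : ℝ) ^ 3 / 48)
      | 4 => (m : ℝ) ^ 4 / 384
      | _ => 0) hx0 (fun t ht => by
      refine (apd_sq_le m ⟨ht.1, ht.2.trans hx1⟩).trans ?_
      refine (apd_exp_neg_le (by (clear * -; positivity))).trans (le_of_eq ?_)
      simp only [Finset.sum_range_succ, Finset.sum_range_zero]
      ring)
  refine h.trans (le_of_eq ?_)
  congr 1
  unfold apM
  simp only [Finset.sum_range_succ, Finset.sum_range_zero]
  push_cast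
  ring

/-- `(a_{m-1}/a_m)^m ≤ √e` -/
theorem apd_fc_pow (hm : 1 ≤ m) : (1 / fc m) ^ m ≤ Real.exp (1 / 2) := by
  have hm0 : (0 : ℝ) < m := by exact_mod_cast hm
  have hf := fc_pos m
  have h1 := fc_sq_ge hm
  have h2 : 1 / fc m ≤ Real.exp (1 / (2 * (m : ℝ))) := by
    apply le_of_sq_le_sq _ (Real.exp_pos _).le
    rw [div_pow, one_pow, ← Real.exp_nat_mul]
    have h3 : 1 / fc m ^ 2 ≤ 1 + 1 / (m : ℝ) := by
      rw [div_le_iff₀ (by positivity)]
      have e : (m : ℝ) / ((m : ℝ) + 1) * (1 + 1 / (m : ℝ)) = 1 := by field_simp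
      calc (1 : ℝ) = (m : ℝ) / ((m : ℝ) + 1) * (1 + 1 / (m : ℝ)) := e.symm
        _ ≤ fc m ^ 2 * (1 + 1 / (m : ℝ)) := mul_le_mul_of_nonneg_right h1 (by positivity)
        _ = _ := by ring
    have h4 := Real.add_one_le_exp (((2 : ℕ) : ℝ) * (1 / (2 * (m : ℝ))))
    have e2 : ((2 : ℕ) : ℝ) * (1 / (2 * (m : ℝ))) = 1 / (m : ℝ) := by
      push_cast
      field_simp
    rw [e2] at h4 ⊢
    linarith only [h3, h4]
  have h5 := pow_le_pow_left₀ (by positivity) h2 m
  rw [← Real.exp_nat_mul] at h5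
  refine h5.trans (le_of_eq ?_)
  congr 1
  field_simp

/-- limit of `apl_cyl` -/
theorem apd_cyl_inf {p P : ℝ} (hp : 48 / 49 ≤ p) (hp1 : p ≤ 1) (hP0 : 0 ≤ P) (hP : P ≤ 87 / 100) :
    -Real.log (1 - P) ≤ P * Real.exp p := by
  have h1 : Tendsto (fun b : ℝ => -Real.log (1 - P * (1 - Real.exp (-b)))) atTop
      (𝓝 (-Real.log (1 - P * (1 - 0)))) := by
    have h2 : Tendsto (fun b : ℝ => Real.exp (-b)) atTop (𝓝 0) :=
      Real.tendsto_exp_neg_atTop_nhds_zero
    have h3 : Tendsto (fun b : ℝ => 1 - P * (1 - Real.exp (-b))) atTop (𝓝 (1 - P * (1 - 0))) :=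
      ((h2.const_sub 1).const_mul P).const_sub 1
    exact ((Real.continuousAt_log (by norm_num; linarith only [hP])).tendsto.comp h3).neg
  rw [sub_zero, mul_one] at h1
  refine le_of_tendsto h1 ?_
  filter_upwards [eventually_gt_atTop 0] with b hb
  exact (apl_cyl hp hp1 hP0 hP hb).trans
    (mul_le_mul_of_nonneg_left (aplW_le_exp (by linarith only [hp]) hb) hP0)

/-- **central bound** -/
theorem IsTrans.apr_center (hm : 48 ≤ m) (hr : IsProf r) (h : IsTrans m r τ τ' T)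
    (hN : (∫ y in (-1 : ℝ)..1, r y ^ (m - 1)) ^ m * aInt m ^ (m - 1) ≤
      aInt (m - 1) ^ m * (∫ y in (-1 : ℝ)..1, r y ^ m) ^ (m - 1))
    (hx : x ∈ Ioo (0 : ℝ) 1) (hP : (∫ t in (0 : ℝ)..x, sq t ^ m) ≤ 87 / 100 * Slope.am m) :
    τ x ≤ Real.exp (1 / 2) * (x * apM ((m : ℝ) * x ^ 2)) := by
  have hm0 : (0 : ℝ) < m := by exact_mod_cast (by omega : 0 < m)
  have hm48 : (48 : ℝ) ≤ m := by exact_mod_cast hm
  have hm1 : (0 : ℝ) < (m : ℝ) + 1 := by positivity
  have hA := Slope.am_pos m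
  have hA1 := Slope.am_pos (m - 1)
  obtain ⟨ω, κ, hω0, hω1, hκτ, hκ1, e1, e2⟩ := h.trunc (by omega) hr hN hx
  have hτ := h.mem x hx
  have hκ0 : 0 < κ := hτ.1.trans_le hκτ
  set I := ∫ t in (0 : ℝ)..x, sq t ^ m with hI
  have hI0 : 0 < I := pin_P_pos m hx
  set P := I / Slope.am m with hPd
  have hP0 : 0 ≤ P := by (clear * - hI0 hA; positivity)
  have hP87 : P ≤ 87 / 100 := by rw [hPd, div_le_iff₀ hA]; exact hP
  set t := τ x / κ with ht
  have ht0 : 0 ≤ t := by have := hτ.1; (clear * - this hκ0; positivity)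
  have ht1 : t ≤ 1 := (div_le_one hκ0).2 hκτ
  set p := (m : ℝ) / ((m : ℝ) + 1) with hp
  have hp48 : 48 / 49 ≤ p := by rw [hp, div_le_div_iff₀ (by norm_num) hm1]; linarith only [hm48]
  have hp1 : p ≤ 1 := by rw [hp, div_le_one hm1]; linarith only []
  have hlog : ∀ θ : ℝ, 0 < θ → ((m : ℝ) + 1) * (1 - θ) ≤ -Real.log (θ ^ (m + 1)) := by
    intro θ hθ
    rw [Real.log_pow]
    push_cast
    have := Real.log_le_sub_one_of_pos hθ
    nlinarith only [this]
  have h2 : t * geo (m + 1) (1 - (1 - ω) * t) = geo (m + 1) ω * P := by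
    rw [pin_am] at e2
    have e5 : geo (m + 1) ω * P = geo (m + 1) ω * I / Slope.am m := by rw [hPd]; ring
    rw [e5, eq_div_iff hA.ne']
    exact e2
  have hred := apr_red (m := m) (by omega) hω0 hω1 ht0 ht1 hκ0.le (by
      have := e1
      rw [pin_am, pin_am] at this
      exact this) h2 hP0 le_rfl ?_ ?_
  · have e3 : κ * t = τ x := by rw [ht]; (clear * - hκ0; field_simp)
    rw [e3] at hred
    refine hred.trans ?_
    have e4 : aprC m * P = (1 / fc m) ^ m * I := by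
      unfold aprC fc
      rw [hPd, one_div_div, div_pow]
      have e6 : Slope.am m ^ m = Slope.am m ^ (m - 1) * Slope.am m :=
        (pow_sub_one_mul (by omega) _).symm
      have e7 := (pow_pos hA1 m).ne'
      have e8 := (pow_pos hA (m - 1)).ne'
      rw [e6]
      (clear * - hA hI0 e8 e7; field_simp)
    rw [e4]
    have h5 := apd_int_le (x := x) m hx.1.le hx.2.le
    calc (1 / fc m) ^ m * I ≤ Real.exp (1 / 2) * I :=
          mul_le_mul_of_nonneg_right (apd_fc_pow (by omega)) hI0.le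
      _ ≤ _ := mul_le_mul_of_nonneg_left h5 (Real.exp_pos _).le
  · intro b θ hb hθ0 hθ1 hθ
    have hσ : 0 < 1 - Real.exp (-b) := by
      have : Real.exp (-b) < 1 := Real.exp_lt_one_iff.2 (by linarith only [hb])
      linarith only [this]
    have h6 : 0 < θ ^ (m + 1) := by
      rw [hθ]
      have : P * (1 - Real.exp (-b)) ≤ 87 / 100 * 1 :=
        mul_le_mul hP87 (by linarith only [Real.exp_pos (-b)]) hσ.le (by norm_num)
      linarith only [this]
    have hθp : 0 < θ := by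
      rcases hθ0.eq_or_lt with h0 | h0
      · rw [← h0, zero_pow (by omega)] at h6
        exact absurd h6 (lt_irrefl _)
      · exact h0
    have h7 := hlog θ hθp
    rw [hθ] at h7
    exact h7.trans (apl_cyl hp48 hp1 hP0 hP87 hb)
  · intro θ hθ0 hθ1 hθ
    have h6 : 0 < θ ^ (m + 1) := by rw [hθ]; linarith only [hP87]
    have hθp : 0 < θ := by
      rcases hθ0.eq_or_lt with h0 | h0
      · rw [← h0, zero_pow (by omega)] at h6
        exact absurd h6 (lt_irrefl _)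
      · exact h0
    have h7 := hlog θ hθp
    rw [hθ] at h7
    exact h7.trans (apd_cyl_inf hp48 hp1 hP0 hP87)

/-- the mass condition of the central bound holds for `√m x ≤ 36/25` -/
theorem apd_mass (hm : 48 ≤ m) (hx : x ∈ Ioo (0 : ℝ) 1) (hX : (m : ℝ) * x ^ 2 ≤ (36 / 25) ^ 2) :
    (∫ t in (0 : ℝ)..x, sq t ^ m) ≤ 87 / 100 * Slope.am m := by
  have hm48 : (48 : ℝ) ≤ m := by exact_mod_cast hm
  have hm0 : (0 : ℝ) < m := by linarith only [hm48]
  have hs := Real.sqrt_pos.2 hm0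
  have hs2 := Real.sq_sqrt hm0.le
  set x' := (36 / 25) / √(m : ℝ) with hx'
  have hx'0 : 0 < x' := by positivity
  have hx'2 : (m : ℝ) * x' ^ 2 = (36 / 25) ^ 2 := by
    rw [hx', div_pow, hs2]
    field_simp
  have hxx : x ≤ x' := by
    apply le_of_sq_le_sq _ hx'0.le
    have : (m : ℝ) * x ^ 2 ≤ (m : ℝ) * x' ^ 2 := by rw [hx'2]; exact hX
    exact le_of_mul_le_mul_left this hm0
  have hx'1 : x' ≤ 1 := by
    apply le_of_sq_le_sq _ zero_le_one
    have : (m : ℝ) * x' ^ 2 ≤ m * 1 ^ 2 := by rw [hx'2]; norm_num; linarith only [hm48]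
    exact le_of_mul_le_mul_left this hm0
  have h1 : (∫ t in (0 : ℝ)..x, sq t ^ m) ≤ ∫ t in (0 : ℝ)..x', sq t ^ m := by
    rw [← intervalIntegral.integral_add_adjacent_intervals (sl_sq_ii m 0 x) (sl_sq_ii m x x')]
    have : 0 ≤ ∫ t in x..x', sq t ^ m := intervalIntegral.integral_nonneg hxx fun t _ =>
      pow_nonneg (cn_sq_nonneg t) m
    linarith only [this]
  refine h1.trans ((apd_int_le m hx'0.le hx'1).trans ?_)
  rw [hx'2]
  have hA := Slope.am_pos m
  have h2 := fin_am_sq_ge m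
  have hpi := Real.pi_gt_d4
  apply le_of_sq_le_sq _ (by (clear * - hA; positivity))
  have h3 : x' ^ 2 = (36 / 25) ^ 2 / m := by
    rw [eq_div_iff hm0.ne']
    linarith only [hx'2]
  have h4 : apM ((36 / 25) ^ 2) ≤ 7408 / 10000 := by
    unfold apM
    norm_num
  have h5 : 0 ≤ apM ((36 / 25) ^ 2) := by
    unfold apM
    norm_num
  have h6 : apM ((36 / 25) ^ 2) ^ 2 ≤ (7408 / 10000) ^ 2 := pow_le_pow_left₀ h5 h4 2
  rw [mul_pow, mul_pow, h3]
  have h7 : (36 / 25 : ℝ) ^ 2 / m * apM ((36 / 25) ^ 2) ^ 2 ≤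
      (36 / 25 : ℝ) ^ 2 / m * (7408 / 10000) ^ 2 := mul_le_mul_of_nonneg_left h6 (by positivity)
  have h8 : (87 / 100 : ℝ) ^ 2 * (Real.pi / (2 * ((m : ℝ) + 2))) ≤
      (87 / 100) ^ 2 * Slope.am m ^ 2 := mul_le_mul_of_nonneg_left h2 (by positivity)
  refine h7.trans (le_trans ?_ h8)
  rw [div_mul_eq_mul_div, mul_div_assoc', div_le_div_iff₀ hm0 (by positivity)]
  nlinarith only [hm48, hpi]

end Vale.Agent.P237.AllN
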