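import Vale.Agent.P237.AllN.ApriD
import Vale.Agent.P237.AllN.ApriAl
import Vale.Agent.P237.AllN.ApriBe

/-!
# P237: the a priori steps of the transport for `m ≥ 48`

With `X = √m x`: `l ≤ 1/2` for `X ≤ 4/5`, `l ≤ 2/5` for `4/5 ≤ X ≤ 5/2`, `l ≤ 43/100` for
`5/2 ≤ X ≤ 11/4`, `l ≤ 19/40` for `11/4 ≤ X ≤ 3`.
-/

open MeasureTheory Metric Set Module Filter Topology

namespace Vale.Agent.P237.AllN

open Alm

variable {m : ℕ} {r τ τ' T : ℝ → ℝ} {x : ℝ}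

theorem ape_exp_tenth : Real.exp (1 / 10) ≤ 110518 / 100000 := by
  have h := Real.exp_bound' (x := 1 / 10) (by norm_num) (by norm_num) (n := 4) (by norm_num)
  simp only [Finset.sum_range_succ, Finset.sum_range_zero, Nat.factorial] at h
  norm_num at h
  linarith only [h]

theorem ape_lf_le (h : IsTrans m r τ τ' T) (hx : x ∈ Ioo (0 : ℝ) 1) {c : ℝ}
    (hc : τ x ≤ x * Real.exp c) : lf τ x ≤ c := by
  have h1 := (h.mem x hx).1
  have h2 := hx.1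
  unfold lf
  rw [Real.log_le_iff_le_exp (by positivity), div_le_iff₀ h2]
  linarith only [hc]

theorem apM_le {w : ℝ} (h0 : 0 ≤ w) (h1 : w ≤ 10) : apM w ≤ 1 - w / 6 + w ^ 2 / 40 := by
  unfold apM
  have : 0 ≤ w ^ 3 * (1 / 336 - w / 3456) := mul_nonneg (by positivity) (by linarith only [h1])
  linarith

theorem apM_le_one {w : ℝ} (h0 : 0 ≤ w) (h1 : w ≤ 6) : apM w ≤ 1 := by
  have := apM_le h0 (by linarith only [h1])
  nlinarith only [h0, this, h1]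

theorem apM_le_two {w : ℝ} (h0 : (4 / 5) ^ 2 ≤ w) (h1 : w ≤ (36 / 25) ^ 2) :
    apM w ≤ 9036 / 10000 := by
  norm_num at h0 h1
  have := apM_le (w := w) (by linarith only [h0]) (by linarith only [h1])
  nlinarith only [h0, this, h1]

/-- **step 1** -/
theorem IsTrans.apr_step1 (hm : 48 ≤ m) (hr : IsProf r) (h : IsTrans m r τ τ' T)
    (hN : (∫ y in (-1 : ℝ)..1, r y ^ (m - 1)) ^ m * aInt m ^ (m - 1) ≤
      aInt (m - 1) ^ m * (∫ y in (-1 : ℝ)..1, r y ^ m) ^ (m - 1))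
    (hx : x ∈ Ioo (0 : ℝ) 1) (hX : (m : ℝ) * x ^ 2 ≤ (36 / 25) ^ 2) :
    lf τ x ≤ 1 / 2 := by
  have h1 := h.apr_center hm hr hN hx (apd_mass hm hx hX)
  have h2 := apM_le_one (w := (m : ℝ) * x ^ 2) (by (clear * - hm; positivity)) (by norm_num at hX; linarith only [hX])
  refine ape_lf_le h hx (h1.trans ?_)
  have h3 := Real.exp_pos (1 / 2)
  have h4 := hx.1
  calc _ ≤ Real.exp (1 / 2) * (x * 1) := by gcongr
    _ = _ := by ring

/-- **step 2**, `4/5 ≤ X ≤ 36/25` -/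
theorem IsTrans.apr_step2a (hm : 48 ≤ m) (hr : IsProf r) (h : IsTrans m r τ τ' T)
    (hN : (∫ y in (-1 : ℝ)..1, r y ^ (m - 1)) ^ m * aInt m ^ (m - 1) ≤
      aInt (m - 1) ^ m * (∫ y in (-1 : ℝ)..1, r y ^ m) ^ (m - 1))
    (hx : x ∈ Ioo (0 : ℝ) 1) (hX0 : (4 / 5) ^ 2 ≤ (m : ℝ) * x ^ 2)
    (hX : (m : ℝ) * x ^ 2 ≤ (36 / 25) ^ 2) :
    lf τ x ≤ 2 / 5 := by
  have h1 := h.apr_center hm hr hN hx (apd_mass hm hx hX)
  have h2 := apM_le_two hX0 hX
  refine ape_lf_le h hx (h1.trans ?_)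
  have h3 := Real.exp_pos (2 / 5)
  have h4 := hx.1
  have e1 : Real.exp (1 / 2) = Real.exp (2 / 5) * Real.exp (1 / 10) := by
    rw [← Real.exp_add]
    (clear * -; norm_num)
  rw [e1]
  calc Real.exp (2 / 5) * Real.exp (1 / 10) * (x * apM ((m : ℝ) * x ^ 2)) ≤
        Real.exp (2 / 5) * Real.exp (1 / 10) * (x * (9036 / 10000)) := by gcongr
    _ ≤ Real.exp (2 / 5) * (110518 / 100000) * (x * (9036 / 10000)) := by
        have := ape_exp_tenth
        gcongr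
    _ = Real.exp (2 / 5) * x * (110518 / 100000 * (9036 / 10000)) := by ring
    _ ≤ Real.exp (2 / 5) * x * 1 := by
        apply mul_le_mul_of_nonneg_left (by norm_num)
        positivity
    _ = _ := by ring

/-- the value at `X = 36/25` -/
theorem IsTrans.apr_step2b (hm : 48 ≤ m) (hr : IsProf r) (h : IsTrans m r τ τ' T)
    (hN : (∫ y in (-1 : ℝ)..1, r y ^ (m - 1)) ^ m * aInt m ^ (m - 1) ≤
      aInt (m - 1) ^ m * (∫ y in (-1 : ℝ)..1, r y ^ m) ^ (m - 1))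
    (hx : x ∈ Ioo (0 : ℝ) 1) (hX : (m : ℝ) * x ^ 2 = (36 / 25) ^ 2) :
    lf τ x ≤ 1 / 5 := by
  have h1 := h.apr_center hm hr hN hx (apd_mass hm hx hX.le)
  have h2 : apM ((m : ℝ) * x ^ 2) ≤ 740710 / 1000000 := by
    rw [hX]
    unfold apM
    norm_num
  refine ape_lf_le h hx (h1.trans ?_)
  have h3 := Real.exp_pos (1 / 5)
  have h4 := hx.1
  have e1 : Real.exp (1 / 2) = Real.exp (1 / 5) * Real.exp (1 / 10) ^ 3 := by
    rw [← Real.exp_nat_mul, ← Real.exp_add]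
    norm_num
  rw [e1]
  calc Real.exp (1 / 5) * Real.exp (1 / 10) ^ 3 * (x * apM ((m : ℝ) * x ^ 2)) ≤
        Real.exp (1 / 5) * Real.exp (1 / 10) ^ 3 * (x * (740710 / 1000000)) := by gcongr
    _ ≤ Real.exp (1 / 5) * (110518 / 100000) ^ 3 * (x * (740710 / 1000000)) := by
        have := ape_exp_tenth
        (clear * - this h4; gcongr)
    _ = Real.exp (1 / 5) * x * ((110518 / 100000) ^ 3 * (740710 / 1000000)) := by ring
    _ ≤ Real.exp (1 / 5) * x * 1 := by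
        apply mul_le_mul_of_nonneg_left (by norm_num)
        positivity
    _ = _ := by ring

/-- **step 2**, `36/25 ≤ X ≤ 19/10` -/
theorem IsTrans.apr_step2c (hm : 48 ≤ m) (hr : IsProf r) (h : IsTrans m r τ τ' T)
    (hN : (∫ y in (-1 : ℝ)..1, r y ^ (m - 1)) ^ m * aInt m ^ (m - 1) ≤
      aInt (m - 1) ^ m * (∫ y in (-1 : ℝ)..1, r y ^ m) ^ (m - 1))
    (hx : x ∈ Ioo (0 : ℝ) 1) (hX0 : (36 / 25) ^ 2 ≤ (m : ℝ) * x ^ 2)
    (hX : (m : ℝ) * x ^ 2 ≤ (19 / 10) ^ 2) :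
    lf τ x ≤ 2 / 5 := by
  have hm48 : (48 : ℝ) ≤ m := by exact_mod_cast hm
  have hm0 : (0 : ℝ) < m := by linarith only [hm48]
  have hs := Real.sqrt_pos.2 hm0
  have hs2 := Real.sq_sqrt hm0.le
  have hx0 := hx.1
  set y := (36 / 25) / √(m : ℝ) with hy
  have hy0 : 0 < y := by positivity
  have hy2 : (m : ℝ) * y ^ 2 = (36 / 25) ^ 2 := by
    rw [hy, div_pow, hs2]
    field_simp
  have hyx : y ≤ x := by
    apply le_of_sq_le_sq _ hx0.le
    have : (m : ℝ) * y ^ 2 ≤ (m : ℝ) * x ^ 2 := by rw [hy2]; exact hX0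
    exact le_of_mul_le_mul_left this hm0
  have hyI : y ∈ Ioo (0 : ℝ) 1 := ⟨hy0, hyx.trans_lt hx.2⟩
  have h1 := h.apr_step2b hm hr hN hyI hy2
  have h2 := h.apx_arc (by omega) hr hy0 hyx hx.2
  have hk := fin_k_sq (m := m) (by omega)
  set k := (m : ℝ) / (2 * ((m : ℝ) + 1) * Slope.am m) with hkd
  have hA := Slope.am_pos m
  have hk0 : 0 < k := by (clear * - hm hA; positivity)
  have hx2 : x ^ 2 ≤ (19 / 10) ^ 2 / 48 := by
    rw [le_div_iff₀ (by norm_num)]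
    nlinarith only [hX, hm48]
  have hsq : ∀ t ∈ Icc y x, 96 / 100 ≤ sq t := by
    intro t ht
    have ht0 : 0 ≤ t := hy0.le.trans ht.1
    apply le_of_sq_le_sq _ (cn_sq_nonneg t)
    rw [pin_sq_sq ⟨ht0, ht.2.trans hx.2.le⟩]
    have : t ^ 2 ≤ x ^ 2 := pow_le_pow_left₀ ht0 ht.2 2
    norm_num at hx2 ⊢
    linarith only [this, hx2]
  have h3 : Real.arcsin x - Real.arcsin y ≤ 100 / 96 * x - 100 / 96 * y := by
    refine apx_mono (f := Real.arcsin) (g := fun t => 100 / 96 * t)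
      (f' := fun t => 1 / sq t) (g' := fun _ => 100 / 96) hyx
      (fun t ht => apx_arcsin ⟨by linarith only [hy0, ht.1], by linarith only [ht.2, hx.2]⟩)
      (fun t ht => by simpa only [id_eq, mul_one] using (hasDerivAt_id t).const_mul (100 / 96 : ℝ))
      (fun t ht => ?_)
    have h4 := hsq t ht
    rw [div_le_div_iff₀ (by linarith only [h4]) (by norm_num)]
    linarith only [h4]
  have h5 : k * (x - y) ≤ 192 / 1000 := by
    apply le_of_sq_le_sq _ (by norm_num)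
    rw [mul_pow]
    have hpi := Real.pi_gt_d2
    have hxy : (m : ℝ) * (x - y) ^ 2 ≤ (46 / 100) ^ 2 := by
      have e1 : √(m : ℝ) * x ≤ 19 / 10 := by
        apply le_of_sq_le_sq _ (by norm_num)
        rw [mul_pow, hs2]
        exact hX
      have e2 : √(m : ℝ) * y = 36 / 25 := by
        rw [hy]
        field_simp
      have e3 : (m : ℝ) * (x - y) ^ 2 = (√(m : ℝ) * x - √(m : ℝ) * y) ^ 2 := by
        rw [← mul_sub, mul_pow, hs2]
      rw [e3, e2]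
      apply pow_le_pow_left₀ _ (by linarith only [e1])
      rw [← e2, ← mul_sub]
      exact mul_nonneg hs.le (by linarith only [hyx])
    calc k ^ 2 * (x - y) ^ 2 ≤ (m : ℝ) / (2 * Real.pi) * (x - y) ^ 2 :=
          mul_le_mul_of_nonneg_right hk (sq_nonneg _)
      _ = (m : ℝ) * (x - y) ^ 2 / (2 * Real.pi) := by ring
      _ ≤ (46 / 100) ^ 2 / (2 * Real.pi) := by (clear * - hxy; gcongr)
      _ ≤ (192 / 1000) ^ 2 := by
          rw [div_le_iff₀ (by positivity)]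
          nlinarith only [hpi]
  have h6 : k * (Real.arcsin x - Real.arcsin y) ≤ k * (100 / 96 * x - 100 / 96 * y) :=
    mul_le_mul_of_nonneg_left h3 hk0.le
  have e : k * (100 / 96 * x - 100 / 96 * y) = 100 / 96 * (k * (x - y)) := by ring
  rw [e] at h6
  linarith only [h1, h2, h5, h6]

/-- lower bound for the tail from the one-cell inequality -/
theorem ape_tail {θ : ℝ} (hθ : 0 ≤ θ) (hx : x ∈ Ioo (0 : ℝ) 1)
    (hβ : θ * (Real.sqrt (Real.pi / (2 * (m + 1))) * ((m + 2) * (x ^ 2 / (1 - x ^ 2)) + 1)) ≤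
      x * sq x ^ m) :
    θ ≤ 1 - (∫ t in (0 : ℝ)..x, sq t ^ m) / Slope.am m := by
  have hx0 := hx.1
  have hx1 : 0 < 1 - x ^ 2 := by
    have : x ^ 2 < 1 := by nlinarith only [hx0, hx.2]
    linarith only [this]
  have hA := Slope.am_pos m
  have hm0 : (0 : ℝ) ≤ m := Nat.cast_nonneg m
  have h1 : Slope.am m ≤ Real.sqrt (Real.pi / (2 * (m + 1))) :=
    Real.le_sqrt_of_sq_le (fin_am_sq_le m)
  have h2 := pin_tail m hx
  have h3 := pin_split m x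
  rw [pin_am] at h3
  have hs := pin_sq_sq (t := x) ⟨hx.1.le, hx.2.le⟩
  have e1 : ((m : ℝ) + 2) * (x ^ 2 / (1 - x ^ 2)) + 1 =
      (((m : ℝ) + 1) * x ^ 2 + 1) / (1 - x ^ 2) := by
    field_simp
    ring
  rw [e1] at hβ
  set D := ((m : ℝ) + 1) * x ^ 2 + 1 with hD
  have hD0 : 0 < D := by (clear * - hx0; positivity)
  have e2 : sq x ^ (m + 2) = sq x ^ m * (1 - x ^ 2) := by rw [pow_add, hs]
  rw [e2] at h2
  have h4 : θ * Real.sqrt (Real.pi / (2 * (m + 1))) * D ≤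
      D * ∫ t in x..1, sq t ^ m := by
    have h5 := mul_le_mul_of_nonneg_right hβ hx1.le
    have e3 : θ * (Real.sqrt (Real.pi / (2 * (m + 1))) * (D / (1 - x ^ 2))) * (1 - x ^ 2) =
        θ * Real.sqrt (Real.pi / (2 * (m + 1))) * D := by
      (clear * - hx1 hD0; field_simp)
    rw [e3] at h5
    linarith only [h2, h5]
  have h6 : θ * Real.sqrt (Real.pi / (2 * (m + 1))) ≤ ∫ t in x..1, sq t ^ m := by
    have : D * (θ * Real.sqrt (Real.pi / (2 * (m + 1)))) ≤ D * ∫ t in x..1, sq t ^ m := by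
      linarith only [h4]
    exact le_of_mul_le_mul_left this hD0
  have h7 : θ * Slope.am m ≤ θ * Real.sqrt (Real.pi / (2 * (m + 1))) :=
    mul_le_mul_of_nonneg_left h1 hθ
  have h8 : (∫ t in (0 : ℝ)..x, sq t ^ m) / Slope.am m ≤ 1 - θ := by
    rw [div_le_iff₀ hA]
    linarith only [h3, h6, h7]
  linarith only [h8]

/-- one-cell step: the abstract form -/
theorem IsTrans.apr_onecell (hm : 48 ≤ m) (hr : IsProf r) (h : IsTrans m r τ τ' T)
    (hN : (∫ y in (-1 : ℝ)..1, r y ^ (m - 1)) ^ m * aInt m ^ (m - 1) ≤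
      aInt (m - 1) ^ m * (∫ y in (-1 : ℝ)..1, r y ^ m) ^ (m - 1))
    (hx : x ∈ Ioo (0 : ℝ) 1) {b B : ℝ} (hb : Real.exp 1 ≤ b) (hbn : b ≤ (m : ℝ) + 1)
    (hα : √(Real.pi / 2) * Real.exp (1 / 2 - B) * b ≤ √(m : ℝ) * x * aplW 1 b)
    (hβ : (1 - b / (m + 1)) ^ (m + 1) *
      (Real.sqrt (Real.pi / (2 * (m + 1))) * ((m + 2) * (x ^ 2 / (1 - x ^ 2)) + 1)) ≤
      x * sq x ^ m) : lf τ x ≤ B := by
  have hm0 : (0 : ℝ) < m := by exact_mod_cast (by omega : 0 < m)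
  have hm1 : (0 : ℝ) < (m : ℝ) + 1 := by positivity
  have hs := Real.sqrt_pos.2 hm0
  have hA := Slope.am_pos m
  have hb0 : 0 < b := (Real.exp_pos 1).trans_le hb
  have hW := aplW_pos (p := 1) hb0
  obtain ⟨ω, κ, hω0, hω1, hκτ, hκ1, e1, e2⟩ := h.trunc (by omega) hr hN hx
  have hτ := h.mem x hx
  have hκ0 : 0 < κ := hτ.1.trans_le hκτ
  set I := ∫ t in (0 : ℝ)..x, sq t ^ m with hI
  have hI0 : 0 < I := pin_P_pos m hx
  have hIA : I ≤ Slope.am m := by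
    have h3 := pin_split m x
    rw [pin_am] at h3
    have : 0 ≤ ∫ t in x..1, sq t ^ m := intervalIntegral.integral_nonneg hx.2.le fun t _ =>
      pow_nonneg (cn_sq_nonneg t) m
    linarith only [h3, this]
  have hP0 : 0 ≤ I / Slope.am m := by (clear * - hI0 hA; positivity)
  have hP1 : I / Slope.am m ≤ 1 := (div_le_one hA).2 hIA
  have ht0 : 0 ≤ τ x / κ := by have := hτ.1; (clear * - this hκ0; positivity)
  have ht1 : τ x / κ ≤ 1 := (div_le_one hκ0).2 hκτ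
  have h2 : τ x / κ * geo (m + 1) (1 - (1 - ω) * (τ x / κ)) =
      geo (m + 1) ω * (I / Slope.am m) := by
    rw [pin_am] at e2
    have e5 : geo (m + 1) ω * (I / Slope.am m) = geo (m + 1) ω * I / Slope.am m := by ring
    rw [e5, eq_div_iff hA.ne']
    exact e2
  have hbase : 0 ≤ 1 - b / ((m : ℝ) + 1) := by
    rw [sub_nonneg, div_le_one hm1]; exact hbn
  have h3 := apr_cell (m := m) (by omega) hω0 hω1 ht0 ht1 hκ0.le (by
      have := e1
      rw [pin_am, pin_am] at this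
      exact this) h2 hP0 hP1 hb hbn (ape_tail (pow_nonneg hbase _) hx hβ)
  have e3 : κ * (τ x / κ) = τ x := by (clear * - hκ0; field_simp)
  rw [e3] at h3
  refine ape_lf_le h hx (h3.trans ?_)
  have e4 : Real.exp (1 / 2 - B) = Real.exp (1 / 2) / Real.exp B := Real.exp_sub _ _
  rw [e4] at hα
  have hE := Real.exp_pos B
  have h5 : √(Real.pi / 2) * Real.exp (1 / 2) * b ≤ √(m : ℝ) * x * aplW 1 b * Real.exp B := by
    have e6 : √(Real.pi / 2) * (Real.exp (1 / 2) / Real.exp B) * b =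
        √(Real.pi / 2) * Real.exp (1 / 2) * b / Real.exp B := by ring
    rw [e6, div_le_iff₀ hE] at hα
    exact hα
  rw [div_mul_div_comm, div_le_iff₀ (by positivity)]
  calc √(Real.pi / 2) * Real.exp (1 / 2) * b ≤ √(m : ℝ) * x * aplW 1 b * Real.exp B := h5
    _ = _ := by ring

theorem ape_X (hx : x ∈ Ioo (0 : ℝ) 1) {a : ℝ} (ha : 0 ≤ a) :
    (a ^ 2 ≤ (m : ℝ) * x ^ 2 → a ≤ √(m : ℝ) * x) ∧
      ((m : ℝ) * x ^ 2 ≤ a ^ 2 → √(m : ℝ) * x ≤ a) := by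
  have hm0 : (0 : ℝ) ≤ m := Nat.cast_nonneg m
  have e : (√(m : ℝ) * x) ^ 2 = (m : ℝ) * x ^ 2 := by rw [mul_pow, Real.sq_sqrt hm0]
  constructor
  · intro h
    apply le_of_sq_le_sq _ (mul_nonneg (Real.sqrt_nonneg _) hx.1.le)
    rw [e]
    exact h
  · intro h
    apply le_of_sq_le_sq _ ha
    rw [e]
    exact h

theorem IsTrans.apr_step2d (hm : 48 ≤ m) (hr : IsProf r) (h : IsTrans m r τ τ' T)
    (hN : (∫ y in (-1 : ℝ)..1, r y ^ (m - 1)) ^ m * aInt m ^ (m - 1) ≤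
      aInt (m - 1) ^ m * (∫ y in (-1 : ℝ)..1, r y ^ m) ^ (m - 1))
    (hx : x ∈ Ioo (0 : ℝ) 1) (hX0 : (19 / 10) ^ 2 ≤ (m : ℝ) * x ^ 2)
    (hX : (m : ℝ) * x ^ 2 ≤ (5 / 2) ^ 2) :
    lf τ x ≤ 2 / 5 := by
  have hm48 : (48 : ℝ) ≤ m := by exact_mod_cast hm
  have h0 := (ape_X (m := m) hx (by norm_num)).1 hX0
  have h1 := (ape_X (m := m) hx (by norm_num)).2 hX
  have he := Real.exp_one_lt_d9
  exact h.apr_onecell hm hr hN hx (by norm_num at he ⊢; linarith only [h0, he]) (by linarith only [hm48, h1])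
    (apl_alpha1 h0 h1) (apl_beta1 hm hx.1 h0 h1)

/-- **step 3** -/
theorem IsTrans.apr_step3 (hm : 48 ≤ m) (hr : IsProf r) (h : IsTrans m r τ τ' T)
    (hN : (∫ y in (-1 : ℝ)..1, r y ^ (m - 1)) ^ m * aInt m ^ (m - 1) ≤
      aInt (m - 1) ^ m * (∫ y in (-1 : ℝ)..1, r y ^ m) ^ (m - 1))
    (hx : x ∈ Ioo (0 : ℝ) 1) (hX0 : (5 / 2) ^ 2 ≤ (m : ℝ) * x ^ 2)
    (hX : (m : ℝ) * x ^ 2 ≤ (11 / 4) ^ 2) :
    lf τ x ≤ 43 / 100 := by
  have hm48 : (48 : ℝ) ≤ m := by exact_mod_cast hm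
  have h0 := (ape_X (m := m) hx (by norm_num)).1 hX0
  have h1 := (ape_X (m := m) hx (by norm_num)).2 hX
  have he := Real.exp_one_lt_d9
  exact h.apr_onecell hm hr hN hx (by norm_num at he ⊢; (clear * - h0 he; linarith)) (by linarith only [hm48, h1])
    (apl_alpha2 h0 h1) (apl_beta2 hm hx.1 h0 h1)

/-- **step 4** -/
theorem IsTrans.apr_step4 (hm : 48 ≤ m) (hr : IsProf r) (h : IsTrans m r τ τ' T)
    (hN : (∫ y in (-1 : ℝ)..1, r y ^ (m - 1)) ^ m * aInt m ^ (m - 1) ≤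
      aInt (m - 1) ^ m * (∫ y in (-1 : ℝ)..1, r y ^ m) ^ (m - 1))
    (hx : x ∈ Ioo (0 : ℝ) 1) (hX0 : (11 / 4) ^ 2 ≤ (m : ℝ) * x ^ 2)
    (hX : (m : ℝ) * x ^ 2 ≤ 3 ^ 2) :
    lf τ x ≤ 19 / 40 := by
  have hm48 : (48 : ℝ) ≤ m := by exact_mod_cast hm
  have h0 := (ape_X (m := m) hx (by norm_num)).1 hX0
  have h1 := (ape_X (m := m) hx (by norm_num)).2 hX
  have he := Real.exp_one_lt_d9
  exact h.apr_onecell hm hr hN hx (by norm_num at he ⊢; linarith only [h0, he]) (by linarith only [hm48, h1])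
    (apl_alpha3 h0 h1) (apl_beta3 hm hx.1 h0 h1)

/-- **step 2** -/
theorem IsTrans.apr_step2 (hm : 48 ≤ m) (hr : IsProf r) (h : IsTrans m r τ τ' T)
    (hN : (∫ y in (-1 : ℝ)..1, r y ^ (m - 1)) ^ m * aInt m ^ (m - 1) ≤
      aInt (m - 1) ^ m * (∫ y in (-1 : ℝ)..1, r y ^ m) ^ (m - 1))
    (hx : x ∈ Ioo (0 : ℝ) 1) (hX0 : (4 / 5) ^ 2 ≤ (m : ℝ) * x ^ 2)
    (hX : (m : ℝ) * x ^ 2 ≤ (5 / 2) ^ 2) :
    lf τ x ≤ 2 / 5 := by
  rcases le_total ((m : ℝ) * x ^ 2) ((36 / 25) ^ 2) with h1 | h1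
  · exact h.apr_step2a hm hr hN hx hX0 h1
  rcases le_total ((m : ℝ) * x ^ 2) ((19 / 10) ^ 2) with h2 | h2
  · exact h.apr_step2c hm hr hN hx h1 h2
  · exact h.apr_step2d hm hr hN hx h2 hX

end Vale.Agent.P237.AllN
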