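import Vale.Agent.P237.AllN.ApriW

/-!
# P237: analytic lemmas for the a priori bound for large `m`
-/

open Set Filter Topology

namespace Vale.Agent.P237.AllN

theorem aj_exp_sub_pos {t : ℝ} (ht : 0 < t) : 0 < Real.exp t - 1 := by
  have := Real.add_one_lt_exp ht.ne'
  linarith only [ht, this]

/-- `t² e^t ≤ (e^t - 1)²` -/
theorem aj_sinh {t : ℝ} (ht : 0 ≤ t) : t ^ 2 * Real.exp t ≤ (Real.exp t - 1) ^ 2 := by
  have h1 : t / 2 ≤ Real.sinh (t / 2) := Real.self_le_sinh_iff.2 (by linarith)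
  rw [Real.sinh_eq] at h1
  have hE := Real.exp_pos (t / 2)
  have e1 : Real.exp t = Real.exp (t / 2) * Real.exp (t / 2) := by
    rw [← Real.exp_add]
    congr 1
    ring
  have e2 : Real.exp (-(t / 2)) * Real.exp (t / 2) = 1 := by
    rw [← Real.exp_add]
    simp
  have h2 : t * Real.exp (t / 2) ≤ Real.exp t - 1 := by
    have h3 : t ≤ Real.exp (t / 2) - Real.exp (-(t / 2)) := by (clear * - h1; linarith)
    have h4 := mul_le_mul_of_nonneg_right h3 hE.le
    rw [sub_mul, e2, ← e1] at h4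
    exact h4
  have h5 : 0 ≤ t * Real.exp (t / 2) := by (clear * - ht; positivity)
  calc t ^ 2 * Real.exp t = (t * Real.exp (t / 2)) ^ 2 := by rw [e1]; ring
    _ ≤ (Real.exp t - 1) ^ 2 := pow_le_pow_left₀ h5 h2 2

/-- `ψ(t) = 1/(e^t-1) - 1/t` is increasing -/
theorem aj_psi {a b : ℝ} (ha : 0 < a) (hab : a ≤ b) :
    1 / (Real.exp a - 1) - 1 / a ≤ 1 / (Real.exp b - 1) - 1 / b := by
  have hd : ∀ t : ℝ, 0 < t → HasDerivAt (fun t => 1 / (Real.exp t - 1) - 1 / t)
      (-Real.exp t / (Real.exp t - 1) ^ 2 + 1 / t ^ 2) t := by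
    intro t ht
    have h1 := (aj_exp_sub_pos ht).ne'
    have h2 := ((hasDerivAt_const t (1 : ℝ)).div ((Real.hasDerivAt_exp t).sub_const 1) h1).sub
      ((hasDerivAt_const t (1 : ℝ)).div (hasDerivAt_id' t) ht.ne')
    refine h2.congr_deriv ?_
    field_simp
    ring
  have hm : MonotoneOn (fun t => 1 / (Real.exp t - 1) - 1 / t) (Ici a) := by
    apply monotoneOn_of_deriv_nonneg (convex_Ici a)
    · exact fun t ht => (hd t (ha.trans_le ht)).continuousAt.continuousWithinAt
    · intro t ht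
      rw [interior_Ici] at ht
      exact (hd t (ha.trans ht)).differentiableAt.differentiableWithinAt
    · intro t ht
      rw [interior_Ici] at ht
      have ht0 : 0 < t := ha.trans ht
      rw [(hd t ht0).deriv]
      have h1 := aj_exp_sub_pos ht0
      have h2 := aj_sinh ht0.le
      have h3 : Real.exp t / (Real.exp t - 1) ^ 2 ≤ 1 / t ^ 2 := by
        rw [div_le_div_iff₀ (by (clear * - h1; positivity)) (by positivity)]
        linarith only [h2]
      have e : -Real.exp t / (Real.exp t - 1) ^ 2 = -(Real.exp t / (Real.exp t - 1) ^ 2) := by ring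
      rw [e]
      linarith only [h3]
  exact hm (mem_Ici.2 le_rfl) (mem_Ici.2 hab) hab

/-- `h(b) = 1 - b/(e^b-1)` -/
noncomputable def ajh (b : ℝ) : ℝ := 1 - b / (Real.exp b - 1)

theorem ajh_der {b : ℝ} (hb : 0 < b) :
    HasDerivAt ajh ((b * Real.exp b - Real.exp b + 1) / (Real.exp b - 1) ^ 2) b := by
  have h1 := (aj_exp_sub_pos hb).ne'
  have h2 := ((hasDerivAt_id' b).div ((Real.hasDerivAt_exp b).sub_const 1) h1).const_sub 1
  refine h2.congr_deriv ?_
  field_simp
  ring

theorem ajh_num {b : ℝ} : 0 ≤ b * Real.exp b - Real.exp b + 1 := by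
  have h1 := Real.add_one_le_exp (-b)
  have h2 := Real.exp_pos b
  have e : Real.exp (-b) * Real.exp b = 1 := by
    rw [← Real.exp_add]
    simp
  nlinarith only [e, h1, h2]

theorem ajh_nonneg {b : ℝ} (hb : 0 < b) : 0 ≤ ajh b := by
  unfold ajh
  have h1 := aj_exp_sub_pos hb
  have h2 := Real.add_one_le_exp b
  have : b / (Real.exp b - 1) ≤ 1 := by
    rw [div_le_one h1]
    linarith only [h2]
  linarith only [this]

theorem ajh_mono {a b : ℝ} (ha : 0 < a) (hab : a ≤ b) : ajh a ≤ ajh b := by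
  have hm : MonotoneOn ajh (Ici a) := by
    apply monotoneOn_of_deriv_nonneg (convex_Ici a)
    · exact fun t ht => (ajh_der (ha.trans_le ht)).continuousAt.continuousWithinAt
    · intro t ht
      rw [interior_Ici] at ht
      exact (ajh_der (ha.trans ht)).differentiableAt.differentiableWithinAt
    · intro t ht
      rw [interior_Ici] at ht
      have ht0 : 0 < t := ha.trans ht
      rw [(ajh_der ht0).deriv]
      exact div_nonneg ajh_num (sq_nonneg _)
  exact hm (mem_Ici.2 le_rfl) (mem_Ici.2 hab) hab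

theorem aplW_eq (p b : ℝ) : aplW p b = (1 - Real.exp (-b)) * Real.exp (p * ajh b) := rfl

theorem aj_one_sub {b : ℝ} (hb : 0 < b) : 0 < 1 - Real.exp (-b) := by
  have : Real.exp (-b) < 1 := by
    rw [Real.exp_lt_one_iff]
    linarith
  linarith only [this]

/-- **(L1)** -/
theorem apl_jensen {p b : ℝ} (hp0 : 0 < p) (hp1 : p ≤ 1) (hb : 0 < b) :
    p * (1 - Real.exp (-b)) / (1 - Real.exp (-(p * b))) ≤
      Real.exp (-((1 - p) * (1 - b / (Real.exp b - 1)))) := by
  have hpb : 0 < p * b := mul_pos hp0 hb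
  have h1 := aj_one_sub hb
  have h2 := aj_one_sub hpb
  have hd : ∀ t : ℝ, 0 < t → HasDerivAt (fun t => Real.log (1 - Real.exp (-t)) - Real.log t)
      (1 / (Real.exp t - 1) - 1 / t) t := by
    intro t ht
    have h3 := aj_one_sub ht
    have h4 : HasDerivAt (fun t => 1 - Real.exp (-t)) (Real.exp (-t)) t := by
      have := ((hasDerivAt_id' t).fun_neg.exp).const_sub 1
      refine this.congr_deriv ?_
      ring
    have h5 := (h4.log h3.ne').sub (Real.hasDerivAt_log ht.ne')
    refine h5.congr_deriv ?_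
    have e : Real.exp (-t) = 1 / Real.exp t := by rw [Real.exp_neg, one_div]
    have h6 := (Real.exp_pos t).ne'
    have h7 := (aj_exp_sub_pos ht).ne'
    have h8 : Real.exp (-t) / (1 - Real.exp (-t)) = 1 / (Real.exp t - 1) := by
      rw [div_eq_div_iff h3.ne' h7, e]
      field_simp
    rw [h8, one_div t]
  -- the function is above its tangent
  have hd2 : ∀ t : ℝ, 0 < t → HasDerivAt (fun t => (Real.log (1 - Real.exp (-t)) - Real.log t) -
      (1 / (Real.exp b - 1) - 1 / b) * t)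
      (1 / (Real.exp t - 1) - 1 / t - (1 / (Real.exp b - 1) - 1 / b)) t := by
    intro t ht
    have h3 := (hd t ht).sub ((hasDerivAt_id' t).const_mul (1 / (Real.exp b - 1) - 1 / b))
    rw [mul_one] at h3
    exact h3
  have hm : AntitoneOn (fun t => (Real.log (1 - Real.exp (-t)) - Real.log t) -
      (1 / (Real.exp b - 1) - 1 / b) * t) (Icc (p * b) b) := by
    apply antitoneOn_of_deriv_nonpos (convex_Icc _ _)
    · exact fun t ht => (hd2 t (hpb.trans_le ht.1)).continuousAt.continuousWithinAt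
    · intro t ht
      rw [interior_Icc] at ht
      exact (hd2 t (hpb.trans ht.1)).differentiableAt.differentiableWithinAt
    · intro t ht
      rw [interior_Icc] at ht
      rw [(hd2 t (hpb.trans ht.1)).deriv]
      have := aj_psi (hpb.trans ht.1) ht.2.le
      linarith only [this]
  have hle : p * b ≤ b := by nlinarith only [hp1, hb]
  have h3 := hm ⟨le_rfl, hle⟩ ⟨hle, le_rfl⟩ hle
  simp only at h3
  have e1 : Real.log (p * b) = Real.log p + Real.log b := Real.log_mul hp0.ne' hb.ne'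
  have e2 : (1 / (Real.exp b - 1) - 1 / b) * (b - p * b) =
      -((1 - p) * (1 - b / (Real.exp b - 1))) := by
    field_simp
    ring
  have h4 : Real.log (p * (1 - Real.exp (-b)) / (1 - Real.exp (-(p * b)))) ≤
      -((1 - p) * (1 - b / (Real.exp b - 1))) := by
    rw [Real.log_div (mul_pos hp0 h1).ne' h2.ne', Real.log_mul hp0.ne' h1.ne', ← e2]
    rw [e1] at h3
    linarith only [h3]
  rw [← Real.log_le_iff_le_exp (by (clear * - hp0 h1 h2; positivity))]
  exact h4

/-- **(L2a)** -/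
theorem aplW_mono {p a b : ℝ} (hp : 0 ≤ p) (ha : 0 < a) (hab : a ≤ b) : aplW p a ≤ aplW p b := by
  rw [aplW_eq, aplW_eq]
  have h1 := aj_one_sub ha
  have h2 : Real.exp (-b) ≤ Real.exp (-a) := Real.exp_le_exp.2 (by linarith only [hab])
  apply mul_le_mul (by linarith only [h2]) _ (Real.exp_pos _).le (by linarith only [h1, h2])
  exact Real.exp_le_exp.2 (mul_le_mul_of_nonneg_left (ajh_mono ha hab) hp)

/-- **(L2b)** -/
theorem aplW_div {p a b : ℝ} (_hp : 0 ≤ p) (hp1 : p ≤ 1) (ha : 0 < a) (hab : a ≤ b) :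
    a * aplW p b ≤ b * aplW p a := by
  have hb : 0 < b := ha.trans_le hab
  have hd : ∀ t : ℝ, 0 < t → HasDerivAt (fun t => Real.log (1 - Real.exp (-t)) + p * ajh t -
      Real.log t) (1 / (Real.exp t - 1) + p * ((t * Real.exp t - Real.exp t + 1) /
        (Real.exp t - 1) ^ 2) - 1 / t) t := by
    intro t ht
    have h3 := aj_one_sub ht
    have h4 : HasDerivAt (fun t => 1 - Real.exp (-t)) (Real.exp (-t)) t := by
      have := ((hasDerivAt_id' t).fun_neg.exp).const_sub 1
      refine this.congr_deriv ?_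
      ring
    have h5 := ((h4.log h3.ne').add ((ajh_der ht).const_mul p)).sub (Real.hasDerivAt_log ht.ne')
    refine h5.congr_deriv ?_
    have e : Real.exp (-t) = 1 / Real.exp t := by rw [Real.exp_neg, one_div]
    have h6 := (Real.exp_pos t).ne'
    have h7 := (aj_exp_sub_pos ht).ne'
    have h8 : Real.exp (-t) / (1 - Real.exp (-t)) = 1 / (Real.exp t - 1) := by
      rw [div_eq_div_iff h3.ne' h7, e]
      field_simp
    rw [h8, one_div t]
  have hm : AntitoneOn (fun t => Real.log (1 - Real.exp (-t)) + p * ajh t - Real.log t)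
      (Ici a) := by
    apply antitoneOn_of_deriv_nonpos (convex_Ici a)
    · exact fun t ht => (hd t (ha.trans_le ht)).continuousAt.continuousWithinAt
    · intro t ht
      rw [interior_Ici] at ht
      exact (hd t (ha.trans ht)).differentiableAt.differentiableWithinAt
    · intro t ht
      rw [interior_Ici] at ht
      have ht0 : 0 < t := ha.trans ht
      rw [(hd t ht0).deriv]
      have h1 := aj_exp_sub_pos ht0
      have h2 := aj_sinh ht0.le
      have h3 : p * ((t * Real.exp t - Real.exp t + 1) / (Real.exp t - 1) ^ 2) ≤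
          (t * Real.exp t - Real.exp t + 1) / (Real.exp t - 1) ^ 2 := by
        have := div_nonneg (ajh_num (b := t)) (sq_nonneg (Real.exp t - 1))
        nlinarith only [hp1, this]
      have h4 : 1 / (Real.exp t - 1) + (t * Real.exp t - Real.exp t + 1) / (Real.exp t - 1) ^ 2 =
          t * Real.exp t / (Real.exp t - 1) ^ 2 := by
        field_simp
        ring
      have h5 : t * Real.exp t / (Real.exp t - 1) ^ 2 ≤ 1 / t := by
        rw [div_le_div_iff₀ (by positivity) ht0]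
        nlinarith only [h2]
      linarith
  have h1 := hm (mem_Ici.2 le_rfl) (mem_Ici.2 hab) hab
  simp only at h1
  have ea := aj_one_sub ha
  have eb := aj_one_sub hb
  have h2 : Real.log (aplW p b / b) ≤ Real.log (aplW p a / a) := by
    rw [aplW_eq, aplW_eq, Real.log_div (by (clear * - eb; positivity)) hb.ne', Real.log_div (by positivity) ha.ne',
      Real.log_mul eb.ne' (Real.exp_pos _).ne', Real.log_mul ea.ne' (Real.exp_pos _).ne',
      Real.log_exp, Real.log_exp]
    exact h1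
  have pa : 0 < aplW p a := by rw [aplW_eq]; (clear * - ea; positivity)
  have pb : 0 < aplW p b := by rw [aplW_eq]; (clear * - eb; positivity)
  have h3 := (Real.log_le_log_iff (div_pos pb hb) (div_pos pa ha)).1 h2
  rw [div_le_div_iff₀ hb ha] at h3
  linarith only [h3]

/-! ### (L3) -/

/-- Padé bound of the logarithm -/
theorem aj_pade {σ : ℝ} (h0 : 0 ≤ σ) (h1 : σ < 1) :
    σ * (6 - 3 * σ) / (6 - 6 * σ + σ ^ 2) ≤ -Real.log (1 - σ) := by
  have hq : ∀ t ∈ Ico (0 : ℝ) 1, 0 < 6 - 6 * t + t ^ 2 := fun t ht => by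
    nlinarith only [ht.2]
  have hd : ∀ t ∈ Ico (0 : ℝ) 1, HasDerivAt
      (fun t => -Real.log (1 - t) - t * (6 - 3 * t) / (6 - 6 * t + t ^ 2))
      (1 / (1 - t) - (36 - 36 * t + 12 * t ^ 2) / (6 - 6 * t + t ^ 2) ^ 2) t := by
    intro t ht
    have h2 : 1 - t ≠ 0 := by linarith only [ht.2]
    have h3 := hq t ht
    have a1 : HasDerivAt (fun t : ℝ => 1 - t) (-1) t := by
      simpa only using (hasDerivAt_id' t).const_sub 1
    have a2 : HasDerivAt (fun t : ℝ => t * (6 - 3 * t)) (6 - 6 * t) t := by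
      refine ((hasDerivAt_id' t).mul (((hasDerivAt_id' t).const_mul 3).const_sub 6)).congr_deriv ?_
      ring
    have a3 : HasDerivAt (fun t : ℝ => 6 - 6 * t + t ^ 2) (-6 + 2 * t) t := by
      have a4 : HasDerivAt (fun t : ℝ => t ^ 2) (2 * t) t := by simpa only [Nat.cast_ofNat, Nat.add_one_sub_one, pow_one] using hasDerivAt_pow 2 t
      refine ((((hasDerivAt_id' t).const_mul 6).const_sub 6).add a4).congr_deriv ?_
      ring
    refine ((a1.log h2).neg.sub (a2.div a3 h3.ne')).congr_deriv ?_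
    have h3' := h3.ne'
    field_simp
    ring
  have hm : MonotoneOn (fun t => -Real.log (1 - t) - t * (6 - 3 * t) / (6 - 6 * t + t ^ 2))
      (Ico (0 : ℝ) 1) := by
    apply monotoneOn_of_deriv_nonneg (convex_Ico 0 1)
    · exact fun t ht => (hd t ht).continuousAt.continuousWithinAt
    · intro t ht
      rw [interior_Ico] at ht
      exact (hd t ⟨ht.1.le, ht.2⟩).differentiableAt.differentiableWithinAt
    · intro t ht
      rw [interior_Ico] at ht
      rw [(hd t ⟨ht.1.le, ht.2⟩).deriv]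
      have h3 := hq t ⟨ht.1.le, ht.2⟩
      have h4 : 0 < 1 - t := by linarith only [ht.2]
      have h5 : (36 - 36 * t + 12 * t ^ 2) / (6 - 6 * t + t ^ 2) ^ 2 ≤ 1 / (1 - t) := by
        rw [div_le_div_iff₀ (by (clear * - h3; positivity)) h4]
        nlinarith only []
      linarith only [h5]
  have h2 := hm ⟨le_rfl, zero_lt_one⟩ ⟨h0, h1⟩ h0
  simp only at h2
  norm_num at h2
  linarith only [h2]

/-- the polynomial inequality behind (L3) -/
theorem aj_poly {σ : ℝ} (h0 : 0 ≤ σ) (h1 : σ ≤ 1) :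
    (6 - 6 * σ + σ ^ 2) ^ 4 ≤
    ((6 - 6 * σ + σ ^ 2) ^ 3 + (48 / 49 * (σ * (3 - 2 * σ))) * (6 - 6 * σ + σ ^ 2) ^ 2 +
      (48 / 49 * (σ * (3 - 2 * σ))) ^ 2 / 2 * (6 - 6 * σ + σ ^ 2) +
      (48 / 49 * (σ * (3 - 2 * σ))) ^ 3 / 6) *
      ((6 - 6 * σ + σ ^ 2) + 48 / 49 * (σ * (3 - σ))) * (1 - 87 / 100 * σ) := by
  have h2 : 0 ≤ 1 - σ := by linarith
  have e : ((6 - 6 * σ + σ ^ 2) ^ 3 + (48 / 49 * (σ * (3 - 2 * σ))) * (6 - 6 * σ + σ ^ 2) ^ 2 +
      (48 / 49 * (σ * (3 - 2 * σ))) ^ 2 / 2 * (6 - 6 * σ + σ ^ 2) +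
      (48 / 49 * (σ * (3 - 2 * σ))) ^ 3 / 6) *
      ((6 - 6 * σ + σ ^ 2) + 48 / 49 * (σ * (3 - σ))) * (1 - 87 / 100 * σ) -
      (6 - 6 * σ + σ ^ 2) ^ 4 = σ * (173988/1225 * (σ ^ 0 * (1 - σ) ^ 8) +
      33899472/60025 * (σ ^ 1 * (1 - σ) ^ 7) +
      2700129168/2941225 * (σ ^ 2 * (1 - σ) ^ 6) +
      113477694552/144120025 * (σ ^ 3 * (1 - σ) ^ 5) +
      1135081026/2941225 * (σ ^ 4 * (1 - σ) ^ 4) +
      15795147636/144120025 * (σ ^ 5 * (1 - σ) ^ 3) +
      2431308132/144120025 * (σ ^ 6 * (1 - σ) ^ 2) +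
      160816662/144120025 * (σ ^ 7 * (1 - σ) ^ 1) +
      735909/115296020 * (σ ^ 8 * (1 - σ) ^ 0)) := by
    ring
  have h3 : 0 ≤ σ * (173988/1225 * (σ ^ 0 * (1 - σ) ^ 8) +
      33899472/60025 * (σ ^ 1 * (1 - σ) ^ 7) +
      2700129168/2941225 * (σ ^ 2 * (1 - σ) ^ 6) +
      113477694552/144120025 * (σ ^ 3 * (1 - σ) ^ 5) +
      1135081026/2941225 * (σ ^ 4 * (1 - σ) ^ 4) +
      15795147636/144120025 * (σ ^ 5 * (1 - σ) ^ 3) +
      2431308132/144120025 * (σ ^ 6 * (1 - σ) ^ 2) +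
      160816662/144120025 * (σ ^ 7 * (1 - σ) ^ 1) +
      735909/115296020 * (σ ^ 8 * (1 - σ) ^ 0)) := by
    (clear * - h0 h1; positivity)
  (clear * - h3; linarith)

/-- the derivative condition of (L3) -/
theorem aj_cond {p b : ℝ} (hp : 48 / 49 ≤ p) (hp1 : p ≤ 1) (hb : 0 < b) :
    1 ≤ Real.exp (p * ajh b) * (1 + p * (b / (1 - Real.exp (-b)) - 1)) *
      (1 - 87 / 100 * (1 - Real.exp (-b))) := by
  obtain ⟨σ, hσ⟩ : ∃ σ : ℝ, σ = 1 - Real.exp (-b) := ⟨_, rfl⟩
  have hσ0 : 0 < σ := by rw [hσ]; exact aj_one_sub hb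
  have hσ1 : σ < 1 := by
    rw [hσ]
    (clear * -; linarith [Real.exp_pos (-b)])
  have hb' : b = -Real.log (1 - σ) := by
    rw [hσ, sub_sub_cancel, Real.log_exp, neg_neg]
  have hpade := aj_pade hσ0.le hσ1
  rw [← hb'] at hpade
  rw [← hσ]
  set d := 6 - 6 * σ + σ ^ 2 with hd
  have hd0 : 0 < d := by rw [hd]; nlinarith only [hσ1]
  -- `l = b/σ`
  obtain ⟨l, hl⟩ : ∃ l : ℝ, l = b / σ := ⟨_, rfl⟩
  obtain ⟨l0, hl0⟩ : ∃ l0 : ℝ, l0 = (6 - 3 * σ) / d := ⟨_, rfl⟩
  have hll : l0 ≤ l := by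
    rw [hl, hl0, le_div_iff₀ hσ0]
    calc (6 - 3 * σ) / d * σ = σ * (6 - 3 * σ) / d := by ring
      _ ≤ b := hpade
  have hl01 : 1 ≤ l0 := by
    rw [hl0, le_div_iff₀ hd0, hd]
    nlinarith only [hσ0, hσ1]
  have hσl : (1 - σ) * l ≤ 1 := by
    have h1 : (1 - σ) * b ≤ σ := by
      have h2 := Real.add_one_le_exp b
      have h3 : 1 - σ = Real.exp (-b) := by rw [hσ]; ring
      have h4 : Real.exp (-b) * Real.exp b = 1 := by rw [← Real.exp_add]; simp
      have h5 := mul_le_mul_of_nonneg_left h2 (Real.exp_pos (-b)).le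
      rw [h4] at h5
      rw [h3, hσ]
      linarith only [h5]
    rw [hl, ← mul_div_assoc, div_le_one hσ0]
    exact h1
  have hh : ajh b = 1 - (1 - σ) * l := by
    unfold ajh
    have h1 := (aj_exp_sub_pos hb).ne'
    have h3 : 1 - σ = Real.exp (-b) := by rw [hσ]; ring
    have h4 : Real.exp (-b) * Real.exp b = 1 := by rw [← Real.exp_add]; simp
    have h5 : σ * Real.exp b = Real.exp b - 1 := by
      rw [hσ]
      linear_combination (-1 : ℝ) * h4
    rw [h3, hl]
    congr 1
    rw [← mul_div_assoc, div_eq_div_iff h1 hσ0.ne']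
    linear_combination (b * Real.exp (-b)) * h5 - (b * σ) * h4
  rw [← hl, hh]
  have hp0 : 0 < p := by linarith only [hp]
  -- replace `l` by `l0`
  have hA : 0 < 1 + p * (l0 - 1) := by nlinarith only [hl01, hp]
  have s1 : Real.exp (p * (1 - (1 - σ) * l0)) * (1 + p * (l0 - 1)) ≤
      Real.exp (p * (1 - (1 - σ) * l)) * (1 + p * (l - 1)) := by
    have e1 : Real.exp (p * (1 - (1 - σ) * l)) =
        Real.exp (p * (1 - (1 - σ) * l0)) * Real.exp (-(p * (1 - σ) * (l - l0))) := by
      rw [← Real.exp_add]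
      congr 1
      ring
    rw [e1, mul_assoc]
    apply mul_le_mul_of_nonneg_left _ (Real.exp_pos _).le
    have h1 := Real.add_one_le_exp (-(p * (1 - σ) * (l - l0)))
    have h2 : 0 ≤ 1 + p * (l - 1) := by nlinarith only [hll, hA, hp]
    have h3 := mul_le_mul_of_nonneg_right h1 h2
    have h4 : (1 - σ) * (1 + p * (l - 1)) ≤ 1 := by nlinarith only [hσl, hp, hp1, hσ0]
    have h5 : 0 ≤ p * (l - l0) := mul_nonneg hp0.le (by linarith only [hll])
    have h6 := mul_le_mul_of_nonneg_left h4 h5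
    linarith
  -- replace `p` by `48/49`
  have hh0 : 0 ≤ 1 - (1 - σ) * l0 := by
    have := mul_le_mul_of_nonneg_left hll (by linarith only [hσ1] : 0 ≤ 1 - σ)
    linarith only [hσl, this]
  have s2 : Real.exp (48 / 49 * (1 - (1 - σ) * l0)) * (1 + 48 / 49 * (l0 - 1)) ≤
      Real.exp (p * (1 - (1 - σ) * l0)) * (1 + p * (l0 - 1)) := by
    apply mul_le_mul _ _ (by nlinarith only [hl01]) (Real.exp_pos _).le
    · exact Real.exp_le_exp.2 (mul_le_mul_of_nonneg_right hp hh0)
    · have := mul_le_mul_of_nonneg_right hp (by linarith only [hl01] : 0 ≤ l0 - 1)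
      linarith only [this]
  -- Taylor
  have e2 : 1 - (1 - σ) * l0 = σ * (3 - 2 * σ) / d := by
    rw [hl0, eq_div_iff hd0.ne']
    have : (6 - 3 * σ) / d * d = 6 - 3 * σ := div_mul_cancel₀ _ hd0.ne'
    linear_combination (-(1 - σ)) * this + hd
  have e3 : 1 + 48 / 49 * (l0 - 1) = (d + 48 / 49 * (σ * (3 - σ))) / d := by
    rw [hl0, eq_div_iff hd0.ne']
    have : (6 - 3 * σ) / d * d = 6 - 3 * σ := div_mul_cancel₀ _ hd0.ne'
    linear_combination (48 / 49) * this - (48 / 49) * hd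
  set y := 48 / 49 * (1 - (1 - σ) * l0) with hy
  have hy0 : 0 ≤ y := by rw [hy]; (clear * - hh0; positivity)
  have s3 : 1 + y + y ^ 2 / 2 + y ^ 3 / 6 ≤ Real.exp y := by
    have h1 := Real.sum_le_exp_of_nonneg hy0 4
    simp only [Finset.sum_range_succ, Finset.sum_range_zero, Nat.factorial] at h1
    norm_num at h1
    (clear * - h1; linarith)
  have hy2 : y = 48 / 49 * (σ * (3 - 2 * σ)) / d := by rw [hy, e2]; ring
  have s4 : (1 + y + y ^ 2 / 2 + y ^ 3 / 6) * (1 + 48 / 49 * (l0 - 1)) ≤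
      Real.exp (p * (1 - (1 - σ) * l)) * (1 + p * (l - 1)) := by
    refine le_trans ?_ (s2.trans s1)
    exact mul_le_mul_of_nonneg_right s3 (by nlinarith only [hl01])
  have hP : 0 < 1 - 87 / 100 * σ := by linarith only [hσ1]
  refine le_trans ?_ (mul_le_mul_of_nonneg_right s4 hP.le)
  have h7 := aj_poly hσ0.le hσ1.le
  rw [← hd] at h7
  rw [e3, hy2]
  have e4 : (1 + 48 / 49 * (σ * (3 - 2 * σ)) / d + (48 / 49 * (σ * (3 - 2 * σ)) / d) ^ 2 / 2 +
      (48 / 49 * (σ * (3 - 2 * σ)) / d) ^ 3 / 6) * ((d + 48 / 49 * (σ * (3 - σ))) / d) *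
      (1 - 87 / 100 * σ) =
      ((d ^ 3 + (48 / 49 * (σ * (3 - 2 * σ))) * d ^ 2 +
      (48 / 49 * (σ * (3 - 2 * σ))) ^ 2 / 2 * d + (48 / 49 * (σ * (3 - 2 * σ))) ^ 3 / 6) *
      (d + 48 / 49 * (σ * (3 - σ))) * (1 - 87 / 100 * σ)) / d ^ 4 := by
    (clear * - hd0; field_simp)
  rw [e4, le_div_iff₀ (by (clear * - hd0; positivity)), one_mul]
  exact h7

/-- (L3) for the largest `P` -/
theorem apl_cyl_top {p b : ℝ} (hp : 48 / 49 ≤ p) (hp1 : p ≤ 1) (hb : 0 < b) :
    -Real.log (1 - 87 / 100 * (1 - Real.exp (-b))) ≤ 87 / 100 * aplW p b := by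
  have hp0 : 0 < p := by linarith
  have hd : ∀ t : ℝ, 0 < t → HasDerivAt
      (fun t => 87 / 100 * ((1 - Real.exp (-t)) * Real.exp (p * ajh t)) +
        Real.log (1 - 87 / 100 * (1 - Real.exp (-t))))
      (87 / 100 * (Real.exp (-t) * Real.exp (p * ajh t) + (1 - Real.exp (-t)) *
        (Real.exp (p * ajh t) * (p * ((t * Real.exp t - Real.exp t + 1) /
          (Real.exp t - 1) ^ 2)))) +
        -(87 / 100 * Real.exp (-t)) / (1 - 87 / 100 * (1 - Real.exp (-t)))) t := by
    intro t ht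
    have h4 : HasDerivAt (fun t => 1 - Real.exp (-t)) (Real.exp (-t)) t := by
      have := ((hasDerivAt_id' t).fun_neg.exp).const_sub 1
      refine this.congr_deriv ?_
      ring
    have h5 : 1 - 87 / 100 * (1 - Real.exp (-t)) ≠ 0 := by
      have := Real.exp_pos (-t)
      have : 0 < 1 - 87 / 100 * (1 - Real.exp (-t)) := by linarith only [this]
      exact this.ne'
    exact ((h4.mul ((ajh_der ht).const_mul p).exp).const_mul (87 / 100)).add
      (((h4.const_mul (87 / 100)).const_sub 1).log h5)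
  have hnn : ∀ t : ℝ, 0 < t → 0 ≤
      87 / 100 * (Real.exp (-t) * Real.exp (p * ajh t) + (1 - Real.exp (-t)) *
        (Real.exp (p * ajh t) * (p * ((t * Real.exp t - Real.exp t + 1) /
          (Real.exp t - 1) ^ 2)))) +
        -(87 / 100 * Real.exp (-t)) / (1 - 87 / 100 * (1 - Real.exp (-t))) := by
    intro t ht
    have h1 := aj_cond hp hp1 ht
    have hE := Real.exp_pos (-t)
    have hσ := aj_one_sub ht
    have hexp := aj_exp_sub_pos ht
    have hD : 0 < 1 - 87 / 100 * (1 - Real.exp (-t)) := by linarith only [hE]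
    have e1 : (t * Real.exp t - Real.exp t + 1) / (Real.exp t - 1) ^ 2 =
        Real.exp (-t) * (t / (1 - Real.exp (-t)) - 1) / (1 - Real.exp (-t)) := by
      have e : Real.exp (-t) = 1 / Real.exp t := by rw [Real.exp_neg, one_div]
      have h6 := (Real.exp_pos t).ne'
      have h7 : 1 - 1 / Real.exp t = (Real.exp t - 1) / Real.exp t := by (clear * - h6 hexp; field_simp)
      rw [e, h7]
      field_simp
      ring
    have e2 : 87 / 100 * (Real.exp (-t) * Real.exp (p * ajh t) + (1 - Real.exp (-t)) *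
        (Real.exp (p * ajh t) * (p * ((t * Real.exp t - Real.exp t + 1) /
          (Real.exp t - 1) ^ 2)))) +
        -(87 / 100 * Real.exp (-t)) / (1 - 87 / 100 * (1 - Real.exp (-t))) =
        87 / 100 * Real.exp (-t) * ((Real.exp (p * ajh t) *
          (1 + p * (t / (1 - Real.exp (-t)) - 1)) * (1 - 87 / 100 * (1 - Real.exp (-t))) - 1) /
          (1 - 87 / 100 * (1 - Real.exp (-t)))) := by
      have h8 := hσ.ne'
      have h9 := hD.ne'
      have e3 : (1 - Real.exp (-t)) * (Real.exp (p * ajh t) * (p *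
          (Real.exp (-t) * (t / (1 - Real.exp (-t)) - 1) / (1 - Real.exp (-t))))) =
          Real.exp (p * ajh t) * p * Real.exp (-t) * (t / (1 - Real.exp (-t)) - 1) := by
        (clear * - h8 hp; field_simp)
      rw [e1, e3, sub_div, mul_div_cancel_right₀ _ h9]
      ring
    rw [e2]
    apply mul_nonneg (by positivity)
    exact div_nonneg (by linarith only [h1]) hD.le
  have hm : MonotoneOn (fun t => 87 / 100 * ((1 - Real.exp (-t)) * Real.exp (p * ajh t)) +
        Real.log (1 - 87 / 100 * (1 - Real.exp (-t)))) (Ioi 0) := by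
    apply monotoneOn_of_deriv_nonneg (convex_Ioi 0)
    · exact fun t ht => (hd t ht).continuousAt.continuousWithinAt
    · intro t ht
      rw [interior_Ioi] at ht
      exact (hd t ht).differentiableAt.differentiableWithinAt
    · intro t ht
      rw [interior_Ioi] at ht
      rw [(hd t ht).deriv]
      exact hnn t ht
  have hlim : Tendsto (fun ε : ℝ => Real.log (1 - 87 / 100 * (1 - Real.exp (-ε)))) (𝓝[>] 0)
      (𝓝 0) := by
    have hc : ContinuousAt (fun ε : ℝ => Real.log (1 - 87 / 100 * (1 - Real.exp (-ε)))) 0 := by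
      apply ContinuousAt.log
      · (clear * -; fun_prop)
      · simp
    have h1 := hc.tendsto
    simp only [neg_zero, Real.exp_zero, sub_self, mul_zero, sub_zero, Real.log_one] at h1
    exact h1.mono_left nhdsWithin_le_nhds
  have h0 : 0 ≤ 87 / 100 * ((1 - Real.exp (-b)) * Real.exp (p * ajh b)) +
        Real.log (1 - 87 / 100 * (1 - Real.exp (-b))) := by
    apply le_of_tendsto hlim
    filter_upwards [Ioo_mem_nhdsGT hb] with ε hε
    have h1 := hm (mem_Ioi.2 hε.1) (mem_Ioi.2 hb) hε.2.le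
    simp only at h1
    have h2 : 0 ≤ 87 / 100 * ((1 - Real.exp (-ε)) * Real.exp (p * ajh ε)) := by
      have := aj_one_sub hε.1
      (clear * - this; positivity)
    linarith only [h1, h2]
  rw [aplW_eq]
  linarith only [h0]

/-- **(L3)** -/
theorem apl_cyl {p P b : ℝ} (hp : 48 / 49 ≤ p) (hp1 : p ≤ 1) (hP0 : 0 ≤ P) (hP : P ≤ 87 / 100)
    (hb : 0 < b) : -Real.log (1 - P * (1 - Real.exp (-b))) ≤ P * aplW p b := by
  have h1 := apl_cyl_top hp hp1 hb
  have hσ := aj_one_sub hb
  have hσ1 : 1 - Real.exp (-b) < 1 := by linarith only [Real.exp_pos (-b)]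
  set σ := 1 - Real.exp (-b) with hσd
  -- concavity of the logarithm
  have hconc := strictConcaveOn_log_Ioi.concaveOn
  have hx : (1 - 87 / 100 * σ) ∈ Ioi (0 : ℝ) := by
    rw [mem_Ioi]
    linarith only [hσ1]
  have ht0 : 0 ≤ P / (87 / 100) := by (clear * - hP0; positivity)
  have ht1 : P / (87 / 100) ≤ 1 := by
    rw [div_le_one (by norm_num)]
    exact hP
  have h2 := hconc.2 hx (mem_Ioi.2 zero_lt_one) ht0 (by linarith only [hP] : 0 ≤ 1 - P / (87 / 100))
    (by ring)
  simp only [smul_eq_mul, Real.log_one, mul_zero, add_zero] at h2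
  have e : P / (87 / 100) * (1 - 87 / 100 * σ) + (1 - P / (87 / 100)) * 1 = 1 - P * σ := by ring
  rw [e] at h2
  have h3 := mul_le_mul_of_nonneg_left h1 ht0
  have e2 : P / (87 / 100) * (87 / 100 * aplW p b) = P * aplW p b := by ring
  rw [e2] at h3
  linarith only [h2, h3]

end Vale.Agent.P237.AllN
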