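import Vale.Agent.P237.AllN.TransDefs
import Vale.Agent.P237.Alm.Prof

/-!
# P237, all dimensions: the constraint in transport form
-/

open MeasureTheory Metric Set Module Filter Topology

namespace Vale.Agent.P237.AllN

open Vale.Agent.P237.Alm

theorem cn_even_int {f : ℝ → ℝ} (hf : ∀ x, f (-x) = f x)
    (hi : IntervalIntegrable f volume 0 1) :
    ∫ x in (-1 : ℝ)..1, f x = 2 * ∫ x in (0 : ℝ)..1, f x := by
  have h1 : ∫ x in (-1 : ℝ)..0, f x = ∫ x in (0 : ℝ)..1, f x := by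
    have := intervalIntegral.integral_comp_neg (a := (0 : ℝ)) (b := 1) f
    rw [neg_zero] at this
    rw [← this]
    exact intervalIntegral.integral_congr fun x _ => hf x
  have h2 : IntervalIntegrable f volume (-1) 0 := by
    have := (IntervalIntegrable.iff_comp_neg (f := f) (a := 0) (b := 1)).mp hi
    rw [neg_zero] at this
    have h3 : (fun x => f (-x)) = f := funext hf
    rw [h3] at this
    exact this.symm
  rw [← intervalIntegral.integral_add_adjacent_intervals h2 hi, h1]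
  ring

theorem cn_sq_cont : Continuous sq := by
  unfold sq
  fun_prop

theorem cn_sq_nonneg (x : ℝ) : 0 ≤ sq x := Real.sqrt_nonneg _

theorem cn_sq_pos {x : ℝ} (hx : x ∈ Ioo (-1 : ℝ) 1) : 0 < sq x := by
  unfold sq
  apply Real.sqrt_pos.2
  nlinarith [hx.1, hx.2]

theorem cn_sq_le_one (x : ℝ) : sq x ≤ 1 := by
  unfold sq
  rw [Real.sqrt_le_one]
  nlinarith [sq_nonneg x]

theorem cn_sq_even (x : ℝ) : sq (-x) = sq x := by
  unfold sq
  rw [neg_sq]

theorem cn_sq_pow_ii (k : ℕ) (a b : ℝ) : IntervalIntegrable (fun x => sq x ^ k) volume a b :=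
  (cn_sq_cont.pow k).intervalIntegrable a b

theorem cn_aInt (k : ℕ) : aInt k = 2 * ∫ x in (0 : ℝ)..1, sq x ^ k := by
  refine (cn_even_int (f := fun y => sq y ^ k) (fun x => ?_) (cn_sq_pow_ii k 0 1))
  show sq (-x) ^ k = sq x ^ k
  rw [cn_sq_even]

theorem cn_Z_pos (k : ℕ) : 0 < ∫ x in (0 : ℝ)..1, sq x ^ k :=
  intervalIntegral.intervalIntegral_pos_of_pos_on (cn_sq_pow_ii k 0 1)
    (fun x hx => pow_pos (cn_sq_pos ⟨by linarith [hx.1], hx.2⟩) k) zero_lt_one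

theorem cn_r_ii {r : ℝ → ℝ} (hr : IsProf r) (k : ℕ) :
    IntervalIntegrable (fun x => r x ^ k) volume 0 1 :=
  prof_pow_ii hr k ⟨le_rfl, zero_le_one⟩ ⟨zero_le_one, le_rfl⟩

theorem cn_r_pos {r : ℝ → ℝ} (hr : IsProf r) (k : ℕ) : 0 < ∫ x in (0 : ℝ)..1, r x ^ k :=
  intervalIntegral.intervalIntegral_pos_of_pos_on (cn_r_ii hr k)
    (fun x hx => pow_pos (hr.pos x ⟨by linarith [hx.1], hx.2⟩) k) zero_lt_one

theorem cn_r_even {r : ℝ → ℝ} (hr : IsProf r) (k : ℕ) :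
    ∫ x in (-1 : ℝ)..1, r x ^ k = 2 * ∫ x in (0 : ℝ)..1, r x ^ k :=
  cn_even_int (f := fun y => r y ^ k) (fun x => by
    show r (-x) ^ k = r x ^ k
    rw [hr.even]) (cn_r_ii hr k)

/-- the constraint on the half interval -/
theorem cn_half {m : ℕ} (hm : 1 ≤ m) {r : ℝ → ℝ} (hr : IsProf r)
    (hN : (∫ y in (-1 : ℝ)..1, r y ^ (m - 1)) ^ m * aInt m ^ (m - 1) ≤
      aInt (m - 1) ^ m * (∫ y in (-1 : ℝ)..1, r y ^ m) ^ (m - 1)) :
    (∫ y in (0 : ℝ)..1, r y ^ (m - 1)) ^ m * (∫ x in (0 : ℝ)..1, sq x ^ m) ^ (m - 1) ≤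
      (∫ x in (0 : ℝ)..1, sq x ^ (m - 1)) ^ m * (∫ y in (0 : ℝ)..1, r y ^ m) ^ (m - 1) := by
  rw [cn_aInt, cn_aInt, cn_r_even hr, cn_r_even hr] at hN
  have e1 : ∀ a b : ℝ, (2 * a) ^ m * (2 * b) ^ (m - 1) = (2 ^ m * 2 ^ (m - 1)) * (a ^ m * b ^ (m - 1)) := by
    intro a b
    rw [mul_pow, mul_pow]
    ring
  rw [e1, e1] at hN
  exact le_of_mul_le_mul_left hN (by positivity)

section trans

variable {m : ℕ} {r τ τ' T : ℝ → ℝ}

theorem cn_image (h : IsTrans m r τ τ' T) : τ '' Ioo 0 1 = Ioo 0 1 := by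
  apply Subset.antisymm
  · rintro _ ⟨x, hx, rfl⟩
    exact h.mem x hx
  · intro y hy
    exact ⟨T y, h.Tmem y hy, h.right y hy⟩

theorem cn_inj (h : IsTrans m r τ τ' T) : InjOn τ (Ioo 0 1) := by
  intro x hx y hy hxy
  rw [← h.left x hx, ← h.left y hy, hxy]

/-- the constant `(∫ r^m / ∫ sq^m)^(1/m)` -/
noncomputable def cnk (m : ℕ) (r : ℝ → ℝ) : ℝ :=
  ((∫ y in (0 : ℝ)..1, r y ^ m) / ∫ x in (0 : ℝ)..1, sq x ^ m) ^ (1 / (m : ℝ))

theorem cnk_pos (hr : IsProf r) (m : ℕ) : 0 < cnk m r :=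
  Real.rpow_pos_of_pos (div_pos (cn_r_pos hr m) (cn_Z_pos m)) _

theorem cn_root_pow {m : ℕ} (hm : 1 ≤ m) {t : ℝ} (ht : 0 ≤ t) : (t ^ (1 / (m : ℝ))) ^ m = t := by
  rw [one_div]
  exact Real.rpow_inv_natCast_pow ht (by omega)

theorem cnk_pow (hm : 1 ≤ m) (hr : IsProf r) : cnk m r ^ m * (∫ x in (0 : ℝ)..1, sq x ^ m) =
    ∫ y in (0 : ℝ)..1, r y ^ m := by
  unfold cnk
  rw [cn_root_pow hm (div_pos (cn_r_pos hr m) (cn_Z_pos m)).le]
  exact div_mul_cancel₀ _ (cn_Z_pos m).ne'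

theorem cn_eq1 (hm : 1 ≤ m) (hr : IsProf r) (h : IsTrans m r τ τ' T) {x : ℝ}
    (hx : x ∈ Ioo (0 : ℝ) 1) : r (τ x) * τ' x ^ (1 / (m : ℝ)) = sq x * cnk m r := by
  have h1 := h.eqn x hx
  have hτ := h.mem x hx
  have hR : 0 < r (τ x) := hr.pos _ ⟨by linarith [hτ.1], hτ.2⟩
  have ht := h.pos x hx
  have hs := cn_sq_pos (x := x) ⟨by linarith [hx.1], hx.2⟩
  have hk := cnk_pos hr m
  have hZ := cn_Z_pos m
  have hθ : 0 < τ' x ^ (1 / (m : ℝ)) := Real.rpow_pos_of_pos ht _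
  have hpow : (r (τ x) * τ' x ^ (1 / (m : ℝ))) ^ m = (sq x * cnk m r) ^ m := by
    rw [mul_pow, mul_pow, cn_root_pow hm ht.le]
    rw [← cnk_pow hm hr] at h1
    apply mul_right_cancel₀ hZ.ne'
    linarith
  exact (pow_left_inj₀ (mul_pos hR hθ).le (mul_pos hs hk).le (by omega)).1 hpow

theorem cn_eq2 (hm : 1 ≤ m) (hr : IsProf r) (h : IsTrans m r τ τ' T) {x : ℝ}
    (hx : x ∈ Ioo (0 : ℝ) 1) :
    |τ' x| • r (τ x) ^ (m - 1) = cnk m r ^ (m - 1) * (sq x ^ (m - 1) * τ' x ^ (1 / (m : ℝ))) := by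
  have h1 := cn_eq1 hm hr h hx
  have ht := h.pos x hx
  rw [smul_eq_mul, abs_of_pos ht]
  have h2 : τ' x = (τ' x ^ (1 / (m : ℝ))) ^ (m - 1) * τ' x ^ (1 / (m : ℝ)) := by
    rw [← pow_succ]
    have : m - 1 + 1 = m := by omega
    rw [this, cn_root_pow hm ht.le]
  nth_rewrite 1 [h2]
  have h3 : (τ' x ^ (1 / (m : ℝ))) ^ (m - 1) * τ' x ^ (1 / (m : ℝ)) * r (τ x) ^ (m - 1) =
      (r (τ x) * τ' x ^ (1 / (m : ℝ))) ^ (m - 1) * τ' x ^ (1 / (m : ℝ)) := by
    rw [mul_pow]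
    ring
  rw [h3, h1, mul_pow]
  ring

theorem cn_change (hm : 1 ≤ m) (hr : IsProf r) (h : IsTrans m r τ τ' T) :
    IntegrableOn (fun x => sq x ^ (m - 1) * τ' x ^ (1 / (m : ℝ))) (Ioo 0 1) ∧
    (∫ y in (0 : ℝ)..1, r y ^ (m - 1)) =
      cnk m r ^ (m - 1) * ∫ x in (0 : ℝ)..1, sq x ^ (m - 1) * τ' x ^ (1 / (m : ℝ)) := by
  have hder : ∀ x ∈ Ioo (0 : ℝ) 1, HasDerivWithinAt τ (τ' x) (Ioo 0 1) x := fun x hx =>
    (h.der x hx).hasDerivWithinAt
  have hri : IntegrableOn (fun y => r y ^ (m - 1)) (Ioo 0 1) := by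
    have := (intervalIntegrable_iff_integrableOn_Ioo_of_le zero_le_one).1 (cn_r_ii hr (m - 1))
    exact this
  have h1 := (integrableOn_image_iff_integrableOn_abs_deriv_smul measurableSet_Ioo hder
    (cn_inj h) (fun y => r y ^ (m - 1)))
  rw [cn_image h] at h1
  have h2 := integral_image_eq_integral_abs_deriv_smul measurableSet_Ioo hder
    (cn_inj h) (fun y => r y ^ (m - 1))
  rw [cn_image h] at h2
  have h3 := h1.1 hri
  have hk := pow_pos (cnk_pos hr m) (m - 1)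
  have h4 : IntegrableOn (fun x => cnk m r ^ (m - 1) *
      (sq x ^ (m - 1) * τ' x ^ (1 / (m : ℝ)))) (Ioo 0 1) :=
    h3.congr_fun (fun x hx => cn_eq2 hm hr h hx) measurableSet_Ioo
  refine ⟨?_, ?_⟩
  · have h5 := h4.const_mul (cnk m r ^ (m - 1))⁻¹
    refine IntegrableOn.congr_fun h5 (fun x hx => ?_) measurableSet_Ioo
    show (cnk m r ^ (m - 1))⁻¹ * (cnk m r ^ (m - 1) * _) = _
    rw [inv_mul_cancel_left₀ hk.ne']
  · rw [intervalIntegral.integral_of_le zero_le_one, intervalIntegral.integral_of_le zero_le_one,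
      integral_Ioc_eq_integral_Ioo, integral_Ioc_eq_integral_Ioo, h2, ← integral_const_mul]
    exact setIntegral_congr_fun measurableSet_Ioo fun x hx => cn_eq2 hm hr h hx

/-- the constraint `N ≤ N_B` -/
theorem IsTrans.constraint {m : ℕ} (hm : 2 ≤ m) {r τ τ' T : ℝ → ℝ} (hr : IsProf r)
    (h : IsTrans m r τ τ' T)
    (hN : (∫ y in (-1 : ℝ)..1, r y ^ (m - 1)) ^ m * aInt m ^ (m - 1) ≤
      aInt (m - 1) ^ m * (∫ y in (-1 : ℝ)..1, r y ^ m) ^ (m - 1)) :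
    IntervalIntegrable (fun x => sq x ^ (m - 1) * τ' x ^ (1 / (m : ℝ))) volume 0 1 ∧
    ∫ x in (0 : ℝ)..1, sq x ^ (m - 1) * τ' x ^ (1 / (m : ℝ)) ≤ ∫ x in (0 : ℝ)..1, sq x ^ (m - 1) := by
  have hm1 : 1 ≤ m := by omega
  obtain ⟨h1, h2⟩ := cn_change hm1 hr h
  refine ⟨(intervalIntegrable_iff_integrableOn_Ioo_of_le zero_le_one).2 h1, ?_⟩
  have h3 := cn_half hm1 hr hN
  rw [h2, ← cnk_pow hm1 hr] at h3
  set J := ∫ x in (0 : ℝ)..1, sq x ^ (m - 1) * τ' x ^ (1 / (m : ℝ))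
  set Z := ∫ x in (0 : ℝ)..1, sq x ^ m with hZ
  set Y := ∫ x in (0 : ℝ)..1, sq x ^ (m - 1) with hY
  set k := cnk m r
  have hk : 0 < k := cnk_pos hr m
  have hZ0 : 0 < Z := cn_Z_pos m
  have hY0 : 0 < Y := cn_Z_pos (m - 1)
  have e1 : (k ^ (m - 1) * J) ^ m * Z ^ (m - 1) = (k ^ (m - 1)) ^ m * Z ^ (m - 1) * J ^ m := by
    rw [mul_pow]; ring
  have e2 : Y ^ m * (k ^ m * Z) ^ (m - 1) = (k ^ (m - 1)) ^ m * Z ^ (m - 1) * Y ^ m := by
    rw [mul_pow, ← pow_mul, ← pow_mul, mul_comm m (m - 1)]; ring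
  rw [e1, e2] at h3
  have h4 : J ^ m ≤ Y ^ m := le_of_mul_le_mul_left h3 (by positivity)
  exact le_of_pow_le_pow_left₀ (by omega) hY0.le h4

theorem cn_lower (hr : IsProf r) (h : IsTrans m r τ τ' T) :
    ∃ c : ℝ, 0 < c ∧ ∀ x ∈ Ioo (0 : ℝ) 1, c * sq x ^ m ≤ τ' x := by
  have hr0 : 0 < r 0 := hr.pos 0 ⟨by norm_num, by norm_num⟩
  have hZ := cn_Z_pos m
  have hR := cn_r_pos hr m
  refine ⟨(∫ t in (0 : ℝ)..1, r t ^ m) / (r 0 ^ m * ∫ x in (0 : ℝ)..1, sq x ^ m),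
    by positivity, fun x hx => ?_⟩
  have h1 := h.eqn x hx
  have hτ := h.mem x hx
  have h2 : r (τ x) ^ m ≤ r 0 ^ m :=
    pow_le_pow_left₀ (prof_nn hr ⟨hτ.1.le, hτ.2.le⟩) (prof_le_zero hr ⟨hτ.1.le, hτ.2.le⟩) m
  have ht := h.pos x hx
  rw [div_mul_eq_mul_div, div_le_iff₀ (by positivity), mul_comm (∫ t in (0 : ℝ)..1, r t ^ m), ← h1]
  have h3 : τ' x * r (τ x) ^ m ≤ τ' x * r 0 ^ m := mul_le_mul_of_nonneg_left h2 ht.le
  have h4 := mul_le_mul_of_nonneg_right h3 hZ.le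
  linarith

theorem cn_log_le {u : ℝ} (h0 : 0 < u) (h1 : u ≤ 1) : u * |Real.log u| ≤ 1 := by
  rw [abs_of_nonpos (Real.log_nonpos h0.le h1), ← Real.log_inv]
  have h2 := Real.log_le_sub_one_of_pos (inv_pos.2 h0)
  have h3 : u * Real.log u⁻¹ ≤ u * u⁻¹ := mul_le_mul_of_nonneg_left (by linarith) h0.le
  rw [mul_inv_cancel₀ h0.ne'] at h3
  exact h3

/-- the logarithmic form of the constraint -/
theorem IsTrans.constraint_log {m : ℕ} (hm : 2 ≤ m) {r τ τ' T : ℝ → ℝ} (hr : IsProf r)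
    (h : IsTrans m r τ τ' T)
    (hN : (∫ y in (-1 : ℝ)..1, r y ^ (m - 1)) ^ m * aInt m ^ (m - 1) ≤
      aInt (m - 1) ^ m * (∫ y in (-1 : ℝ)..1, r y ^ m) ^ (m - 1)) :
    IntervalIntegrable (fun x => sq x ^ (m - 1) * Real.log (τ' x)) volume 0 1 ∧
    ∫ x in (0 : ℝ)..1, sq x ^ (m - 1) * Real.log (τ' x) ≤ 0 := by
  obtain ⟨hJi, hJ⟩ := IsTrans.constraint hm hr h hN
  have hm0 : (0 : ℝ) < m := by positivity
  have hup : ∀ x ∈ Ioo (0 : ℝ) 1, Real.log (τ' x) ≤ m * (τ' x ^ (1 / (m : ℝ)) - 1) := by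
    intro x hx
    have ht := h.pos x hx
    have h1 := Real.log_le_sub_one_of_pos (Real.rpow_pos_of_pos ht (1 / (m : ℝ)))
    rw [Real.log_rpow ht] at h1
    have h2 := mul_le_mul_of_nonneg_left h1 hm0.le
    rw [← mul_assoc, mul_one_div_cancel hm0.ne', one_mul] at h2
    exact h2
  obtain ⟨c, hc, hlow⟩ := cn_lower hr h
  have hI : IntegrableOn (fun x => sq x ^ (m - 1) * Real.log (τ' x)) (Ioo 0 1) := by
    have hdom : IntegrableOn (fun x => m * (sq x ^ (m - 1) * τ' x ^ (1 / (m : ℝ))) +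
        (|Real.log c| + m)) (Ioo 0 1) :=
      (((intervalIntegrable_iff_integrableOn_Ioo_of_le zero_le_one).1 hJi).const_mul _).add
        (integrableOn_const (by simp))
    refine Integrable.mono' hdom ?_ ?_
    · refine ContinuousOn.aestronglyMeasurable ?_ measurableSet_Ioo
      exact (cn_sq_cont.pow _).continuousOn.mul (h.cont.log fun x hx => (h.pos x hx).ne')
    · refine (ae_restrict_iff' measurableSet_Ioo).2 (Eventually.of_forall fun x hx => ?_)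
      have hs := cn_sq_pos (x := x) ⟨by linarith [hx.1], hx.2⟩
      have hs1 := cn_sq_le_one x
      have ht := h.pos x hx
      have hθ : 0 < τ' x ^ (1 / (m : ℝ)) := Real.rpow_pos_of_pos ht _
      have h1 := hup x hx
      have h2 : Real.log c + m * Real.log (sq x) ≤ Real.log (τ' x) := by
        rw [← Real.log_pow, ← Real.log_mul hc.ne' (pow_pos hs m).ne']
        exact Real.log_le_log (mul_pos hc (pow_pos hs m)) (hlow x hx)
      have h3 : |Real.log (τ' x)| ≤ m * τ' x ^ (1 / (m : ℝ)) + |Real.log c| +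
          m * |Real.log (sq x)| := by
        rw [abs_le]
        have a1 := neg_abs_le (Real.log c)
        have a2 := mul_le_mul_of_nonneg_left (neg_abs_le (Real.log (sq x))) hm0.le
        have a3 := abs_nonneg (Real.log c)
        have a4 := mul_nonneg hm0.le (abs_nonneg (Real.log (sq x)))
        have a5 := mul_pos hm0 hθ
        constructor <;> linarith
      have h4 : sq x ^ (m - 1) ≤ 1 := pow_le_one₀ hs.le hs1
      have h5 : sq x ^ (m - 1) * |Real.log (sq x)| ≤ 1 := by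
        have e : m - 1 = (m - 2) + 1 := by omega
        rw [e, pow_succ, mul_assoc]
        exact mul_le_one₀ (pow_le_one₀ hs.le hs1) (by positivity) (cn_log_le hs hs1)
      rw [Real.norm_eq_abs, abs_mul, abs_of_pos (pow_pos hs _)]
      have h6 := mul_le_mul_of_nonneg_left h3 (pow_pos hs (m - 1)).le
      have h7 : sq x ^ (m - 1) * |Real.log c| ≤ |Real.log c| :=
        mul_le_of_le_one_left (abs_nonneg _) h4
      have h8 : m * (sq x ^ (m - 1) * |Real.log (sq x)|) ≤ m * 1 :=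
        mul_le_mul_of_nonneg_left h5 hm0.le
      show sq x ^ (m - 1) * |Real.log (τ' x)| ≤
        m * (sq x ^ (m - 1) * τ' x ^ (1 / (m : ℝ))) + (|Real.log c| + m)
      have h9 : sq x ^ (m - 1) * (m * τ' x ^ (1 / (m : ℝ)) + |Real.log c| +
          m * |Real.log (sq x)|) = m * (sq x ^ (m - 1) * τ' x ^ (1 / (m : ℝ))) +
          sq x ^ (m - 1) * |Real.log c| + m * (sq x ^ (m - 1) * |Real.log (sq x)|) := by ring
      linarith
  have hI' := (intervalIntegrable_iff_integrableOn_Ioo_of_le (μ := volume) zero_le_one).2 hI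
  refine ⟨hI', ?_⟩
  have hZi := cn_sq_pow_ii (m - 1) 0 1
  have h1 : ∫ x in (0 : ℝ)..1, sq x ^ (m - 1) * Real.log (τ' x) ≤
      ∫ x in (0 : ℝ)..1, m * (sq x ^ (m - 1) * τ' x ^ (1 / (m : ℝ)) - sq x ^ (m - 1)) := by
    refine intervalIntegral.integral_mono_on_of_le_Ioo zero_le_one hI'
      ((hJi.sub hZi).const_mul _) fun x hx => ?_
    have hs := cn_sq_pos (x := x) ⟨by linarith [hx.1], hx.2⟩
    have h2 := mul_le_mul_of_nonneg_left (hup x hx) (pow_pos hs (m - 1)).le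
    linarith
  rw [intervalIntegral.integral_const_mul, intervalIntegral.integral_sub hJi hZi] at h1
  have h2 := mul_le_mul_of_nonneg_left hJ hm0.le
  linarith

/-- the transport is the identity only for half circles -/
theorem IsTrans.rigid {m : ℕ} (hm : 1 ≤ m) {r τ τ' T : ℝ → ℝ} (hr : IsProf r)
    (h : IsTrans m r τ τ' T) (hid : ∀ x ∈ Ioo (0 : ℝ) 1, τ x = x) :
    ∃ k : ℝ, ∀ y ∈ Ioo (-1 : ℝ) 1, r y = k * Real.sqrt (1 - y ^ 2) := by
  have hpos : ∀ x ∈ Ioo (0 : ℝ) 1, r x = cnk m r * sq x := by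
    intro x hx
    have h1 := cn_eq1 hm hr h hx
    have h2 : τ' x = 1 := by
      have h3 : HasDerivAt τ 1 x := by
        refine (hasDerivAt_id x).congr_of_eventuallyEq ?_
        filter_upwards [isOpen_Ioo.mem_nhds hx] with y hy
        exact hid y hy
      exact (h.der x hx).unique h3
    rw [h2, Real.one_rpow, mul_one, hid x hx] at h1
    rw [h1, mul_comm]
  have hzero : r 0 = cnk m r * sq 0 := by
    have c1 : Tendsto r (𝓝[>] 0) (𝓝 (r 0)) :=
      (prof_contAt hr (y := 0) ⟨by norm_num, by norm_num⟩).tendsto.mono_left nhdsWithin_le_nhds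
    have c2 : Tendsto (fun x => cnk m r * sq x) (𝓝[>] 0) (𝓝 (cnk m r * sq 0)) :=
      ((continuous_const.mul cn_sq_cont).tendsto 0).mono_left nhdsWithin_le_nhds
    refine tendsto_nhds_unique (c1.congr' ?_) c2
    filter_upwards [Ioo_mem_nhdsGT zero_lt_one] with x hx
    exact hpos x hx
  refine ⟨cnk m r, fun y hy => ?_⟩
  show r y = cnk m r * sq y
  rcases lt_trichotomy y 0 with hy0 | hy0 | hy0
  · have h1 := hpos (-y) ⟨by linarith, by linarith [hy.1]⟩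
    rwa [hr.even, cn_sq_even] at h1
  · rw [hy0]
    exact hzero
  · exact hpos y ⟨hy0, hy.2⟩

end trans

end Vale.Agent.P237.AllN
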