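import Vale.Agent.P237.AllN.Slope
import Vale.Agent.P237.AllN.ConsN

open MeasureTheory Metric Set Module Filter Topology Real

namespace Vale.Agent.P237.AllN

open Slope

theorem J_zero_zero : J 0 0 = π / 2 := by
  simp [J]

theorem J_one_zero : J 1 0 = 1 := by
  simp [J]

theorem ap_Z (m : ℕ) : ∫ t in (0:ℝ)..1, sq t ^ m = J (m + 1) 0 := am_eq m

theorem ap_Z2 : ∫ t in (0:ℝ)..1, sq t ^ 2 = 2 / 3 := by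
  rw [ap_Z, J_zero_rec, J_one_zero]; norm_num

theorem ap_Z3 : ∫ t in (0:ℝ)..1, sq t ^ 3 = 3 * π / 16 := by
  rw [ap_Z, J_zero_rec, J_zero_rec, J_zero_zero]; norm_num; ring

theorem ap_Z4 : ∫ t in (0:ℝ)..1, sq t ^ 4 = 8 / 15 := by
  rw [ap_Z, J_zero_rec, J_zero_rec, J_one_zero]; norm_num

theorem ap_Z5 : ∫ t in (0:ℝ)..1, sq t ^ 5 = 5 * π / 32 := by
  rw [ap_Z, J_zero_rec, J_zero_rec, J_zero_rec, J_zero_zero]; norm_num; ring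

theorem ap_Z6 : ∫ t in (0:ℝ)..1, sq t ^ 6 = 16 / 35 := by
  rw [ap_Z, J_zero_rec, J_zero_rec, J_zero_rec, J_one_zero]; norm_num

theorem ap_Z7 : ∫ t in (0:ℝ)..1, sq t ^ 7 = 35 * π / 256 := by
  rw [ap_Z, J_zero_rec, J_zero_rec, J_zero_rec, J_zero_rec, J_zero_zero]; norm_num; ring

theorem ap_num4 : (∫ x in (0 : ℝ)..1, sq x ^ (4 - 1)) ^ 4 * ((4 : ℕ) : ℝ) ^ (2 * 4) *
        ((((4 : ℕ) : ℝ) + 1) * (3 / 20) / (1 - (1 - 3 / 20) ^ (4 + 1))) <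
      ((((4 : ℕ) : ℝ) + 1) * (3 / 20) / (1 - (1 - 3 / 20) ^ (4 + 1)) + (((4 : ℕ) : ℝ) ^ 2 - 1)) ^ 4 *
        (∫ x in (0 : ℝ)..1, sq x ^ 4) ^ (4 - 1) := by
  have e : 4 - 1 = 3 := rfl
  rw [e, ap_Z3, ap_Z4]
  have h : (3 * π / 16) ^ 4 ≤ (3 * 3.15 / 16) ^ 4 :=
    pow_le_pow_left₀ (by positivity) (by linarith [pi_lt_d2]) 4
  norm_num at h ⊢
  nlinarith

theorem ap_num5 : (∫ x in (0 : ℝ)..1, sq x ^ (5 - 1)) ^ 5 * ((5 : ℕ) : ℝ) ^ (2 * 5) *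
        ((((5 : ℕ) : ℝ) + 1) * (3 / 20) / (1 - (1 - 3 / 20) ^ (5 + 1))) <
      ((((5 : ℕ) : ℝ) + 1) * (3 / 20) / (1 - (1 - 3 / 20) ^ (5 + 1)) + (((5 : ℕ) : ℝ) ^ 2 - 1)) ^ 5 *
        (∫ x in (0 : ℝ)..1, sq x ^ 5) ^ (5 - 1) := by
  have e : 5 - 1 = 4 := rfl
  rw [e, ap_Z5, ap_Z4]
  have h : (5 * 3.14 / 32) ^ 4 ≤ (5 * π / 32) ^ 4 :=
    pow_le_pow_left₀ (by positivity) (by linarith [pi_gt_d2]) 4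
  norm_num at h ⊢
  nlinarith

theorem ap_num6 : (∫ x in (0 : ℝ)..1, sq x ^ (6 - 1)) ^ 6 * ((6 : ℕ) : ℝ) ^ (2 * 6) *
        ((((6 : ℕ) : ℝ) + 1) * (3 / 20) / (1 - (1 - 3 / 20) ^ (6 + 1))) <
      ((((6 : ℕ) : ℝ) + 1) * (3 / 20) / (1 - (1 - 3 / 20) ^ (6 + 1)) + (((6 : ℕ) : ℝ) ^ 2 - 1)) ^ 6 *
        (∫ x in (0 : ℝ)..1, sq x ^ 6) ^ (6 - 1) := by
  have e : 6 - 1 = 5 := rfl
  rw [e, ap_Z5, ap_Z6]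
  have h : (5 * π / 32) ^ 6 ≤ (5 * 3.1416 / 32) ^ 6 :=
    pow_le_pow_left₀ (by positivity) (by linarith [pi_lt_d4]) 6
  norm_num at h ⊢
  nlinarith

theorem ap_num7 : (∫ x in (0 : ℝ)..1, sq x ^ (7 - 1)) ^ 7 * ((7 : ℕ) : ℝ) ^ (2 * 7) *
        ((((7 : ℕ) : ℝ) + 1) * (3 / 20) / (1 - (1 - 3 / 20) ^ (7 + 1))) <
      ((((7 : ℕ) : ℝ) + 1) * (3 / 20) / (1 - (1 - 3 / 20) ^ (7 + 1)) + (((7 : ℕ) : ℝ) ^ 2 - 1)) ^ 7 *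
        (∫ x in (0 : ℝ)..1, sq x ^ 7) ^ (7 - 1) := by
  have e : 7 - 1 = 6 := rfl
  rw [e, ap_Z6, ap_Z7]
  have h : (35 * 3.1415 / 256) ^ 6 ≤ (35 * π / 256) ^ 6 :=
    pow_le_pow_left₀ (by positivity) (by linarith [pi_gt_d4]) 6
  norm_num at h ⊢
  nlinarith

end Vale.Agent.P237.AllN
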