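import Vale.Agent.P237.AllN.PcIn

/-!
# P237, all dimensions: integrated slope bounds

For the transport `τ` of a profile, `l = log(τ/x)` satisfies `l' = u/x` and `u ≤ 1/s`,
`u ≤ k x/s`.  Integrating from `x₃` to `x`:
`l(x) ≤ l(x₃) + log((x/(1+s))/(x₃/(1+s₃)))` and `l(x) ≤ l(x₃) + k (arcsin x - arcsin x₃)`.
-/

open MeasureTheory Metric Set Module Filter Topology

namespace Vale.Agent.P237.AllN

open Alm

variable {m : ℕ} {r τ τ' T : ℝ → ℝ} {x x3 : ℝ}

/-- derivative of `log (x/(1+s))` -/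
theorem apx_hasDerivAt {x : ℝ} (hx : x ∈ Ioo (0 : ℝ) 1) :
    HasDerivAt (fun t => Real.log (t / (1 + sq t))) (1 / (x * sq x)) x := by
  have hs := sqx_pos hx
  have hd := sqx_der hx
  have hx0 := hx.1
  have e1 : HasDerivAt (fun t => 1 + sq t) (-x / sq x) x := by
    simpa using hd.const_add 1
  have h1s : (1 + sq x) ≠ 0 := by positivity
  have e2 := ((hasDerivAt_id x).div e1 h1s).log (div_pos hx0 (by positivity)).ne'
  refine e2.congr_deriv ?_
  simp only [id, Pi.div_apply]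
  have hxs := sqx_sq hx
  field_simp
  linear_combination hxs

/-- derivative of `arcsin` in terms of `sq` -/
theorem apx_arcsin {x : ℝ} (hx : x ∈ Ioo (0 : ℝ) 1) :
    HasDerivAt Real.arcsin (1 / sq x) x := by
  have := Real.hasDerivAt_arcsin (x := x) (by linarith [hx.1]) (by linarith [hx.2])
  exact this

/-- monotone comparison -/
theorem apx_mono {f g f' g' : ℝ → ℝ} {a b : ℝ} (hab : a ≤ b)
    (hf : ∀ t ∈ Icc a b, HasDerivAt f (f' t) t) (hg : ∀ t ∈ Icc a b, HasDerivAt g (g' t) t)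
    (h : ∀ t ∈ Icc a b, f' t ≤ g' t) : f b - f a ≤ g b - g a := by
  have hm : MonotoneOn (fun t => g t - f t) (Icc a b) := by
    apply monotoneOn_of_deriv_nonneg (convex_Icc a b)
    · intro t ht
      exact ((hg t ht).sub (hf t ht)).continuousAt.continuousWithinAt
    · intro t ht
      rw [interior_Icc] at ht
      have ht' : t ∈ Icc a b := ⟨ht.1.le, ht.2.le⟩
      exact ((hg t ht').sub (hf t ht')).differentiableAt.differentiableWithinAt
    · intro t ht
      rw [interior_Icc] at ht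
      have ht' : t ∈ Icc a b := ⟨ht.1.le, ht.2.le⟩
      have := ((hg t ht').sub (hf t ht')).deriv
      have e : deriv (fun t => g t - f t) t = g' t - f' t := this
      rw [e]
      linarith [h t ht']
  have := hm ⟨le_rfl, hab⟩ ⟨hab, le_rfl⟩ hab
  linarith

/-- integrated slope bound, `u s ≤ 1` -/
theorem IsTrans.apx_log (hr : IsProf r) (h : IsTrans m r τ τ' T)
    (hx3 : 0 < x3) (h3x : x3 ≤ x) (hx1 : x < 1) :
    lf τ x ≤ lf τ x3 + (Real.log (x / (1 + sq x)) - Real.log (x3 / (1 + sq x3))) := by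
  have := apx_mono (f := lf τ) (g := fun t => Real.log (t / (1 + sq t)))
    (f' := fun t => uf τ τ' t / t) (g' := fun t => 1 / (t * sq t)) h3x
    (fun t ht => lf_hasDerivAt h ⟨by linarith [ht.1], by linarith [ht.2]⟩)
    (fun t ht => apx_hasDerivAt ⟨by linarith [ht.1], by linarith [ht.2]⟩)
    (fun t ht => by
      have ht' : t ∈ Ioo (0 : ℝ) 1 := ⟨by linarith [ht.1], by linarith [ht.2]⟩
      have h1 := h.pin_slope_one hr ht'
      have hs := sqx_pos ht'
      have h0 := ht'.1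
      rw [div_le_div_iff₀ h0 (by positivity)]
      nlinarith)
  linarith

/-- integrated slope bound, `u s ≤ k x` -/
theorem IsTrans.apx_arc (hm : 3 ≤ m) (hr : IsProf r) (h : IsTrans m r τ τ' T)
    (hx3 : 0 < x3) (h3x : x3 ≤ x) (hx1 : x < 1) :
    lf τ x ≤ lf τ x3 + (m : ℝ) / (2 * ((m : ℝ) + 1) * Slope.am m) *
      (Real.arcsin x - Real.arcsin x3) := by
  set k := (m : ℝ) / (2 * ((m : ℝ) + 1) * Slope.am m) with hk
  have := apx_mono (f := lf τ) (g := fun t => k * Real.arcsin t)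
    (f' := fun t => uf τ τ' t / t) (g' := fun t => k * (1 / sq t)) h3x
    (fun t ht => lf_hasDerivAt h ⟨by linarith [ht.1], by linarith [ht.2]⟩)
    (fun t ht => (apx_arcsin ⟨by linarith [ht.1], by linarith [ht.2]⟩).const_mul k)
    (fun t ht => by
      have ht' : t ∈ Ioo (0 : ℝ) 1 := ⟨by linarith [ht.1], by linarith [ht.2]⟩
      have h1 := h.pin_h4 hm hr ht'
      rw [← hk] at h1
      have hs := sqx_pos ht'
      have h0 := ht'.1
      rw [mul_one_div, div_le_div_iff₀ h0 hs]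
      exact h1)
  linarith

/-- the two bounds combined with a bound at `x₃` -/
theorem IsTrans.apx_log_of (hr : IsProf r) (h : IsTrans m r τ τ' T) {c : ℝ}
    (hx3 : 0 < x3) (h3x : x3 ≤ x) (hx1 : x < 1) (hc : lf τ x3 ≤ c) :
    lf τ x ≤ c + Real.log (x / (1 + sq x) * ((1 + sq x3) / x3)) := by
  have h1 := h.apx_log hr hx3 h3x hx1
  have hx : x ∈ Ioo (0 : ℝ) 1 := ⟨by linarith, hx1⟩
  have hx3' : x3 ∈ Ioo (0 : ℝ) 1 := ⟨hx3, by linarith⟩
  have hs := sqx_pos hx
  have hs3 := sqx_pos hx3'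
  have hx0 := hx.1
  have e : Real.log (x / (1 + sq x)) - Real.log (x3 / (1 + sq x3)) =
      Real.log (x / (1 + sq x) * ((1 + sq x3) / x3)) := by
    rw [← Real.log_div (by positivity) (by positivity)]
    congr 1
    field_simp
  rw [e] at h1
  linarith

/-- exponential form -/
theorem IsTrans.apx_exp_of (hr : IsProf r) (h : IsTrans m r τ τ' T) {c : ℝ}
    (hx3 : 0 < x3) (h3x : x3 ≤ x) (hx1 : x < 1) (hc : lf τ x3 ≤ c) :
    τ x ≤ Real.exp c * (x ^ 2 / (1 + sq x)) * ((1 + sq x3) / x3) := by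
  have h1 := h.apx_log_of hr hx3 h3x hx1 hc
  have hx : x ∈ Ioo (0 : ℝ) 1 := ⟨by linarith, hx1⟩
  have hx3' : x3 ∈ Ioo (0 : ℝ) 1 := ⟨hx3, by linarith⟩
  have hs := sqx_pos hx
  have hs3 := sqx_pos hx3'
  have hx0 := hx.1
  have h2 := Real.exp_le_exp.2 h1
  rw [exp_lf h hx, Real.exp_add, Real.exp_log (by positivity)] at h2
  rw [div_le_iff₀ hx0] at h2
  refine h2.trans (le_of_eq ?_)
  ring

end Vale.Agent.P237.AllN
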