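import Vale.Agent.P237.AllN.PcIn

/-!
# P237: window facts, uniform in `m` (constants `a_m`, bounds for `u` and `l`)
-/

open MeasureTheory Set Finset

namespace Vale.Agent.P237.AllN

open Alm

/-! ### the constants `a_m = ∫₀¹ (1-t²)^{m/2}` and `c_m = a_m/a_{m-1}` -/

/-- log-convexity of the Wallis integrals -/
theorem fin_logconv (n : ℕ) : Slope.J (n + 1) 0 ^ 2 ≤ Slope.J n 0 * Slope.J (n + 2) 0 := by
  have h0 := Slope.J_pos n le_rfl (by positivity : (0 : ℝ) < Real.pi / 2)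
  set L := Slope.J (n + 1) 0 / Slope.J n 0 with hL
  have ii : ∀ k : ℕ, IntervalIntegrable (fun t : ℝ => Real.cos t ^ k) volume 0 (Real.pi / 2) :=
    fun k => (by fun_prop : Continuous fun t : ℝ => Real.cos t ^ k).intervalIntegrable _ _
  have h1 : 0 ≤ ∫ t in (0 : ℝ)..(Real.pi / 2), Real.cos t ^ n * (Real.cos t - L) ^ 2 := by
    apply intervalIntegral.integral_nonneg (by positivity)
    intro t ht
    exact mul_nonneg (pow_nonneg (Real.cos_nonneg_of_mem_Icc ⟨by linarith only [ht.1, Real.pi_pos],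
      ht.2⟩) n) (sq_nonneg _)
  have h2 : (∫ t in (0 : ℝ)..(Real.pi / 2), Real.cos t ^ n * (Real.cos t - L) ^ 2) =
      Slope.J (n + 2) 0 - 2 * L * Slope.J (n + 1) 0 + L ^ 2 * Slope.J n 0 := by
    unfold Slope.J
    rw [← intervalIntegral.integral_const_mul, ← intervalIntegral.integral_const_mul,
      ← intervalIntegral.integral_sub (ii _) ((ii _).const_mul _),
      ← intervalIntegral.integral_add ((ii _).sub ((ii _).const_mul _)) ((ii _).const_mul _)]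
    apply intervalIntegral.integral_congr
    intro t _
    simp only
    ring
  rw [h2] at h1
  have h3 : L * Slope.J n 0 = Slope.J (n + 1) 0 := by
    rw [hL]
    field_simp
  nlinarith only [h0, h1, h3]

theorem fin_wallis (m : ℕ) : Slope.am m * Slope.am (m + 1) = Real.pi / (2 * ((m : ℝ) + 2)) := by
  have h := Slope.J_wallis (m + 1)
  rw [Slope.am_eq, Slope.am_eq, h]
  push_cast
  ring_nf

theorem fin_am_anti (m : ℕ) : Slope.am (m + 1) ≤ Slope.am m := by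
  rw [Slope.am_eq, Slope.am_eq]
  exact Slope.J_anti (m + 1)

/-- `π/(2(m+2)) ≤ a_m²` -/
theorem fin_am_sq_ge (m : ℕ) : Real.pi / (2 * ((m : ℝ) + 2)) ≤ Slope.am m ^ 2 := by
  have h := Slope.J_sq_ge (m + 1)
  rw [← Slope.am_eq] at h
  push_cast at h
  have e : (m : ℝ) + 1 + 1 = (m : ℝ) + 2 := by ring
  rwa [e] at h

/-- `a_m² ≤ π/(2(m+1))` -/
theorem fin_am_sq_le (m : ℕ) : Slope.am m ^ 2 ≤ Real.pi / (2 * ((m : ℝ) + 1)) := by
  have h := Slope.J_sq_le m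
  rwa [← Slope.am_eq] at h

theorem fin_am_succ_sq_le (m : ℕ) :
    ((m : ℝ) + 3) * Slope.am (m + 1) ^ 2 ≤ ((m : ℝ) + 2) * Slope.am m ^ 2 := by
  have h := fin_logconv (m + 1)
  have h2 := Slope.J_zero_rec (m + 1)
  rw [← Slope.am_eq, ← Slope.am_eq] at h
  rw [← Slope.am_eq, ← Slope.am_eq] at h2
  push_cast at h2
  have e : Slope.am (m + 2) * ((m : ℝ) + 3) = ((m : ℝ) + 2) * Slope.am m := by
    rw [pin_am_rec]
    field_simp
  have e2 : Slope.J (m + 1 + 2) 0 = Slope.am (m + 2) := by rw [Slope.am_eq]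
  rw [e2] at h
  have hm : (0 : ℝ) < (m : ℝ) + 3 := by (clear * -; positivity)
  calc ((m : ℝ) + 3) * Slope.am (m + 1) ^ 2 ≤ ((m : ℝ) + 3) * (Slope.am m * Slope.am (m + 2)) :=
        mul_le_mul_of_nonneg_left h hm.le
    _ = ((m : ℝ) + 2) * Slope.am m ^ 2 := by linear_combination Slope.am m * e

theorem fin_am_sq_le_succ (m : ℕ) :
    ((m : ℝ) + 1) * Slope.am m ^ 2 ≤ ((m : ℝ) + 2) * Slope.am (m + 1) ^ 2 := by
  have h := fin_logconv m
  have h2 := Slope.J_zero_rec m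
  have e1 : Slope.J (m + 2) 0 = Slope.am (m + 1) := by rw [Slope.am_eq]
  rw [← Slope.am_eq, e1] at h
  rw [e1] at h2
  have hm : (0 : ℝ) < (m : ℝ) + 2 := by positivity
  have e : ((m : ℝ) + 1) * Slope.J m 0 = ((m : ℝ) + 2) * Slope.am (m + 1) := by
    rw [h2]
    (clear * -; field_simp)
  have hm1 : (0 : ℝ) < (m : ℝ) + 1 := by (clear * -; positivity)
  calc ((m : ℝ) + 1) * Slope.am m ^ 2 ≤ ((m : ℝ) + 1) * (Slope.J m 0 * Slope.am (m + 1)) :=
        mul_le_mul_of_nonneg_left h hm1.le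
    _ = ((m : ℝ) + 2) * Slope.am (m + 1) ^ 2 := by linear_combination Slope.am (m + 1) * e

/-- `c_m = a_m/a_{m-1}` -/
noncomputable def fc (m : ℕ) : ℝ := Slope.am m / Slope.am (m - 1)

theorem fc_pos (m : ℕ) : 0 < fc m := div_pos (Slope.am_pos m) (Slope.am_pos _)

theorem fc_le_one {m : ℕ} (hm : 1 ≤ m) : fc m ≤ 1 := by
  obtain ⟨k, rfl⟩ : ∃ k, m = k + 1 := ⟨m - 1, by omega⟩
  unfold fc
  rw [Nat.add_sub_cancel, div_le_one (Slope.am_pos k)]
  exact fin_am_anti k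

/-- `m/(m+1) ≤ c_m²` -/
theorem fc_sq_ge {m : ℕ} (hm : 1 ≤ m) : (m : ℝ) / ((m : ℝ) + 1) ≤ fc m ^ 2 := by
  obtain ⟨k, rfl⟩ : ∃ k, m = k + 1 := ⟨m - 1, by omega⟩
  unfold fc
  have hA := Slope.am_pos k
  rw [Nat.add_sub_cancel, div_pow, div_le_div_iff₀ (by positivity) (by positivity)]
  have h := fin_am_sq_le_succ k
  push_cast
  linarith only [h]

/-- `c_m² ≤ (m+1)/(m+2)` -/
theorem fc_sq_le {m : ℕ} (hm : 1 ≤ m) : fc m ^ 2 ≤ ((m : ℝ) + 1) / ((m : ℝ) + 2) := by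
  obtain ⟨k, rfl⟩ : ∃ k, m = k + 1 := ⟨m - 1, by omega⟩
  unfold fc
  have hA := Slope.am_pos k
  rw [Nat.add_sub_cancel, div_pow, div_le_div_iff₀ (by positivity) (by positivity)]
  have h := fin_am_succ_sq_le k
  push_cast
  linarith only [h]

/-- `1 - 1/(2m) ≤ c_m` -/
theorem fc_ge {m : ℕ} (hm : 1 ≤ m) : 1 - 1 / (2 * (m : ℝ)) ≤ fc m := by
  have h := fc_sq_ge hm
  have hp := fc_pos m
  have hm' : (1 : ℝ) ≤ m := by exact_mod_cast hm
  have h1 : (1 - 1 / (2 * (m : ℝ))) ^ 2 ≤ (m : ℝ) / ((m : ℝ) + 1) := by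
    rw [le_div_iff₀ (by positivity)]
    have e : (1 - 1 / (2 * (m : ℝ))) ^ 2 * ((m : ℝ) + 1) =
        (m : ℝ) - (3 * m - 1) / (4 * (m : ℝ) ^ 2) := by
      field_simp
      ring
    rw [e]
    have : 0 ≤ (3 * (m : ℝ) - 1) / (4 * (m : ℝ) ^ 2) := by
      apply div_nonneg <;> nlinarith only [hm']
    linarith only [this]
  exact le_of_sq_le_sq (h1.trans h) hp.le

/-- `a_m² = c_m π/(2(m+1))` -/
theorem fc_mul {m : ℕ} (hm : 1 ≤ m) :
    Slope.am m ^ 2 = fc m * (Real.pi / (2 * ((m : ℝ) + 1))) := by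
  obtain ⟨k, rfl⟩ : ∃ k, m = k + 1 := ⟨m - 1, by omega⟩
  unfold fc
  have hA := Slope.am_pos k
  have h := fin_wallis k
  rw [Nat.add_sub_cancel]
  push_cast
  have e : (k : ℝ) + 1 + 1 = (k : ℝ) + 2 := by ring
  rw [e, ← h]
  field_simp

/-- `(m+1) a_m ≤ √(π(m+1)/2)` -/
theorem fin_am_mul_sq_le (m : ℕ) :
    (((m : ℝ) + 1) * Slope.am m) ^ 2 ≤ Real.pi * ((m : ℝ) + 1) / 2 := by
  have h := fin_am_sq_le m
  have hm : (0 : ℝ) < (m : ℝ) + 1 := by positivity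
  rw [le_div_iff₀ (by positivity)] at h
  rw [mul_pow, le_div_iff₀ (by norm_num)]
  nlinarith only [h]

/-! ### bounds for `u` -/

section

variable {m : ℕ} {r τ τ' T : ℝ → ℝ} {x : ℝ}

/-- `k² ≤ m/(2π)` for the slope constant `k = m/(2(m+1)a_m)` -/
theorem fin_k_sq {m : ℕ} (hm : 1 ≤ m) :
    ((m : ℝ) / (2 * ((m : ℝ) + 1) * Slope.am m)) ^ 2 ≤ (m : ℝ) / (2 * Real.pi) := by
  have hA := Slope.am_pos m
  have hm' : (1 : ℝ) ≤ m := by exact_mod_cast hm
  have hpi := Real.pi_pos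
  have h1 := fc_mul hm
  have h2 := fc_sq_ge hm
  have hc := fc_pos m
  have h3 : (m : ℝ) / ((m : ℝ) + 1) ≤ fc m := by
    have h4 := fc_le_one hm
    nlinarith only [h2, hc, h4]
  rw [div_pow, div_le_div_iff₀ (by positivity) (by positivity), mul_pow, mul_pow, h1]
  rw [div_le_iff₀ (by positivity)] at h3
  have e : (m : ℝ) * (2 ^ 2 * ((m : ℝ) + 1) ^ 2 * (fc m * (Real.pi / (2 * ((m : ℝ) + 1))))) =
      2 * Real.pi * m * (fc m * ((m : ℝ) + 1)) := by
    field_simp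
  rw [e]
  have h5 := mul_le_mul_of_nonneg_left h3 (by positivity : 0 ≤ 2 * Real.pi * (m : ℝ))
  nlinarith only [h5]

/-- `u² s² ≤ (m/(2π)) x²` for `u ≥ 0` -/
theorem IsTrans.fin_u_sq (hm : 3 ≤ m) (hr : IsProf r) (h : IsTrans m r τ τ' T)
    (hx : x ∈ Ioo (0 : ℝ) 1) (hu : 0 ≤ uf τ τ' x) :
    uf τ τ' x ^ 2 * sq x ^ 2 ≤ (m : ℝ) / (2 * Real.pi) * x ^ 2 := by
  have h1 := h.pin_h4 hm hr hx
  have hs := sl_sq_pos (mem_neg hx)
  have h2 := fin_k_sq (m := m) (by omega)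
  have h3 : (uf τ τ' x * sq x) ^ 2 ≤
      ((m : ℝ) / (2 * ((m : ℝ) + 1) * Slope.am m) * x) ^ 2 :=
    pow_le_pow_left₀ (by (clear * - hu hs; positivity)) h1 2
  rw [mul_pow, mul_pow] at h3
  exact h3.trans (mul_le_mul_of_nonneg_right h2 (sq_nonneg x))

/-- `u² ≤ (4/25) m y` for `u ≥ 0`, `y = x²/s²` -/
theorem IsTrans.fin_u_sq' (hm : 3 ≤ m) (hr : IsProf r) (h : IsTrans m r τ τ' T)
    (hx : x ∈ Ioo (0 : ℝ) 1) (hu : 0 ≤ uf τ τ' x) :
    uf τ τ' x ^ 2 ≤ 4 / 25 * ((m : ℝ) * (x ^ 2 / sq x ^ 2)) := by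
  have h1 := h.fin_u_sq hm hr hx hu
  have hs := sl_sq_pos (mem_neg hx)
  have hm' : (0 : ℝ) ≤ m := Nat.cast_nonneg m
  have hpi := Real.pi_gt_d6
  have h2 : (m : ℝ) / (2 * Real.pi) ≤ 4 / 25 * m := by
    rw [div_le_iff₀ (by positivity)]
    nlinarith only [hpi]
  have h3 := h1.trans (mul_le_mul_of_nonneg_right h2 (sq_nonneg x))
  have e : 4 / 25 * ((m : ℝ) * (x ^ 2 / sq x ^ 2)) = 4 / 25 * m * x ^ 2 / sq x ^ 2 := by ring
  rw [e, le_div_iff₀ (by positivity)]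
  exact h3

/-- `u ≤ 1/s` -/
theorem IsTrans.fin_u_inv (hr : IsProf r) (h : IsTrans m r τ τ' T)
    (hx : x ∈ Ioo (0 : ℝ) 1) : uf τ τ' x ≤ 1 / sq x := by
  rw [le_div_iff₀ (sl_sq_pos (mem_neg hx))]
  exact h.pin_slope_one hr hx

/-- `u ≥ s^m - 1` -/
theorem IsTrans.fin_u_ge (hr : IsProf r) (h : IsTrans m r τ τ' T)
    (hx : x ∈ Ioo (0 : ℝ) 1) : sq x ^ m - 1 ≤ uf τ τ' x := by
  have := h.pin_h3 hr hx
  linarith

theorem fin_bern : ∀ (m : ℕ), 2 ≤ m → ∀ {s : ℝ}, 0 ≤ s → s ≤ 1 →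
    1 - (m : ℝ) / 2 * (1 - s ^ 2) ≤ s ^ m
  | 0, h, _, _, _ => absurd h (by norm_num)
  | 1, h, _, _, _ => absurd h (by norm_num)
  | 2, _, s, _, _ => by norm_num
  | 3, _, s, h0, h1 => by
      norm_num
      nlinarith only [mul_nonneg (sq_nonneg (1 - s)) (by linarith : 0 ≤ 1 + 2 * s)]
  | n + 4, _, s, h0, h1 => by
      have ih := fin_bern (n + 2) (by omega) h0 h1
      have e : s ^ (n + 4) = s ^ 2 * s ^ (n + 2) := by ring
      rw [e]
      have h2 := mul_le_mul_of_nonneg_left ih (sq_nonneg s)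
      have h3 : 0 ≤ ((n : ℝ) + 2) / 2 * (1 - s ^ 2) ^ 2 := by (clear * -; positivity)
      push_cast at h2 ⊢
      linarith

/-- `-(m/2) x² ≤ u` -/
theorem IsTrans.fin_u_ge' (hm : 2 ≤ m) (hr : IsProf r) (h : IsTrans m r τ τ' T)
    (hx : x ∈ Ioo (0 : ℝ) 1) : -((m : ℝ) / 2 * x ^ 2) ≤ uf τ τ' x := by
  have h1 := h.fin_u_ge hr hx
  have h2 := fin_bern m hm (sl_sq_nonneg x) (pin_sq_le_one x)
  have h3 := pin_sq_sq (Ioo_subset_Icc_self hx)
  rw [h3] at h2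
  linarith

/-- `-(m/2) y ≤ u`, `y = x²/s²` -/
theorem IsTrans.fin_u_ge_y (hm : 2 ≤ m) (hr : IsProf r) (h : IsTrans m r τ τ' T)
    (hx : x ∈ Ioo (0 : ℝ) 1) : -((m : ℝ) / 2 * (x ^ 2 / sq x ^ 2)) ≤ uf τ τ' x := by
  have h1 := h.fin_u_ge' hm hr hx
  have hs := sl_sq_pos (mem_neg hx)
  have h3 := pin_sq_le_one x
  have h4 : x ^ 2 ≤ x ^ 2 / sq x ^ 2 := by
    rw [le_div_iff₀ (by positivity)]
    have : sq x ^ 2 ≤ 1 := by nlinarith only [h3, hs]
    nlinarith only [this]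
  have h5 : (m : ℝ) / 2 * x ^ 2 ≤ (m : ℝ) / 2 * (x ^ 2 / sq x ^ 2) :=
    mul_le_mul_of_nonneg_left h4 (by positivity)
  linarith only [h1, h5]

/-- tail bound, `(1+u) τ ≤ (1-τ)((m+2) y + 1)` -/
theorem IsTrans.fin_tail (hm : 1 ≤ m) (hr : IsProf r) (h : IsTrans m r τ τ' T)
    (hx : x ∈ Ioo (0 : ℝ) 1) :
    (1 + uf τ τ' x) * τ x ≤ (1 - τ x) * (((m : ℝ) + 2) * (x ^ 2 / sq x ^ 2) + 1) := by
  have h1 := h.pin_h5 hm hr hx
  rw [pin_exp h hx] at h1
  have hs := sl_sq_pos (mem_neg hx)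
  have e1 := pin_sq_sq (Ioo_subset_Icc_self hx)
  set t := sq x with ht
  have hD : 0 < ((m : ℝ) + 2) - ((m : ℝ) + 1) * t ^ 2 := by
    rw [e1]
    have : 0 ≤ ((m : ℝ) + 1) * x ^ 2 := by (clear * - hm; positivity)
    linarith only [this]
  have e2 : ((m : ℝ) + 2) * (x ^ 2 / t ^ 2) + 1 =
      (((m : ℝ) + 2) - ((m : ℝ) + 1) * t ^ 2) / t ^ 2 := by
    field_simp
    rw [e1]
    ring
  rw [e2, mul_div_assoc', le_div_iff₀ (by positivity)]
  have h2 : (1 + uf τ τ' x) * t ^ 2 / (((m : ℝ) + 2) - ((m : ℝ) + 1) * t ^ 2) * τ x ≤ 1 - τ x := by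
    linarith only [h1]
  rw [div_mul_eq_mul_div, div_le_iff₀ hD] at h2
  linarith only [h2]

/-! ### lower bound for `l` -/

theorem fin_J_le (m : ℕ) {φ : ℝ} (h0 : 0 ≤ φ) (h1 : φ ≤ Real.pi / 2) :
    Slope.J m φ ≤ Real.cos φ ^ m * Slope.J m 0 := by
  have hc : 0 ≤ Real.cos φ := Real.cos_nonneg_of_mem_Icc ⟨by linarith [Real.pi_pos], h1⟩
  have hsn : 0 ≤ Real.sin φ := Real.sin_nonneg_of_nonneg_of_le_pi h0 (by linarith only [h0, h1])
  have ii : ∀ a b : ℝ, IntervalIntegrable (fun t : ℝ => Real.cos t ^ m) volume a b :=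
    fun a b => (by fun_prop : Continuous fun t : ℝ => Real.cos t ^ m).intervalIntegrable _ _
  have e1 : Slope.J m φ = ∫ v in (0 : ℝ)..(Real.pi / 2 - φ), Real.cos (v + φ) ^ m := by
    rw [intervalIntegral.integral_comp_add_right (fun t => Real.cos t ^ m)]
    unfold Slope.J
    congr 1 <;> ring
  have h2 : (∫ v in (0 : ℝ)..(Real.pi / 2 - φ), Real.cos (v + φ) ^ m) ≤
      ∫ v in (0 : ℝ)..(Real.pi / 2 - φ), Real.cos φ ^ m * Real.cos v ^ m := by
    apply intervalIntegral.integral_mono_on (by linarith only [h1])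
    · exact (by fun_prop : Continuous fun t : ℝ => Real.cos (t + φ) ^ m).intervalIntegrable _ _
    · exact (ii _ _).const_mul _
    · intro v hv
      rw [← mul_pow]
      apply pow_le_pow_left₀
      · exact Real.cos_nonneg_of_mem_Icc ⟨by linarith only [h0, h1, hv.1], by linarith only [hv.2]⟩
      · rw [Real.cos_add]
        have : 0 ≤ Real.sin v := Real.sin_nonneg_of_nonneg_of_le_pi hv.1
          (by linarith only [h0, h1, hv.2])
        nlinarith only [this, hsn]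
  have h3 : (∫ v in (0 : ℝ)..(Real.pi / 2 - φ), Real.cos v ^ m) ≤ Slope.J m 0 := by
    unfold Slope.J
    rw [← intervalIntegral.integral_add_adjacent_intervals (ii 0 (Real.pi / 2 - φ))
      (ii (Real.pi / 2 - φ) (Real.pi / 2))]
    have : 0 ≤ ∫ v in (Real.pi / 2 - φ)..(Real.pi / 2), Real.cos v ^ m := by
      apply intervalIntegral.integral_nonneg (by linarith only [h0])
      intro v hv
      exact pow_nonneg (Real.cos_nonneg_of_mem_Icc ⟨by linarith only [h0, h1, hv.1], hv.2⟩) m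
    linarith only [this]
  rw [e1]
  refine h2.trans ?_
  rw [intervalIntegral.integral_const_mul]
  exact mul_le_mul_of_nonneg_left h3 (pow_nonneg hc m)

theorem fin_Gf_le (m : ℕ) {φ : ℝ} (h0 : 0 ≤ φ) (h1 : φ < Real.pi / 2) :
    Slope.Gf m φ ≤ Real.cos φ := by
  have hc : 0 < Real.cos φ := Real.cos_pos_of_mem_Ioo ⟨by linarith [Real.pi_pos], h1⟩
  have h2 := Slope.Gf_pow m h0 h1
  have h3 := fin_J_le (m + 1) h0 h1.le
  have hJ := Slope.J_pos (m + 1) le_rfl (by positivity : (0 : ℝ) < Real.pi / 2)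
  have h4 : Slope.Gf m φ ^ (m + 1) ≤ Real.cos φ ^ (m + 1) := by
    rw [h2, div_le_iff₀ hJ]
    exact h3
  exact le_of_pow_le_pow_left₀ (by omega) hc.le h4

theorem fin_Gf_lin (m : ℕ) {φ : ℝ} (h0 : 0 ≤ φ) (h1 : φ < Real.pi / 2) :
    Real.sin φ / (((m : ℝ) + 1) * Slope.am m) ≤ 1 - Slope.Gf m φ := by
  have hA := Slope.am_pos m
  have hder : ∀ t, 0 ≤ t → t < Real.pi / 2 →
      HasDerivAt (fun t => 1 - Slope.Gf m t - Real.sin t / (((m : ℝ) + 1) * Slope.am m))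
        (Slope.Cf m t - Real.cos t / (((m : ℝ) + 1) * Slope.am m)) t := by
    intro t ht0 ht1
    refine (((Slope.hasDerivAt_Gf m ht0 ht1).const_sub 1).sub
      ((Real.hasDerivAt_sin t).div_const _)).congr_deriv ?_
    ring
  have hmono : MonotoneOn (fun t => 1 - Slope.Gf m t - Real.sin t / (((m : ℝ) + 1) * Slope.am m))
      (Icc 0 φ) := by
    apply monotoneOn_of_deriv_nonneg (convex_Icc 0 φ)
    · intro t ht
      exact (hder t ht.1 (ht.2.trans_lt h1)).continuousAt.continuousWithinAt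
    · intro t ht
      rw [interior_Icc] at ht
      exact (hder t ht.1.le (ht.2.trans h1)).differentiableAt.differentiableWithinAt
    · intro t ht
      rw [interior_Icc] at ht
      have ht1 : t < Real.pi / 2 := ht.2.trans h1
      rw [(hder t ht.1.le ht1).deriv, sub_nonneg]
      have hG := Slope.Gf_pos m ht.1.le ht1
      have hJ := Slope.J_pos (m + 1) ht.1.le ht1
      have hJ0 := Slope.J_pos (m + 1) le_rfl (by positivity : (0 : ℝ) < Real.pi / 2)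
      have hc : 0 < Real.cos t := Real.cos_pos_of_mem_Ioo ⟨by linarith only [h0, h1, ht.1], ht1⟩
      have hp := Slope.Gf_pow m ht.1.le ht1
      have hle := fin_Gf_le m ht.1.le ht1
      rw [eq_div_iff hJ0.ne'] at hp
      have hle2 : Slope.Gf m t ^ m ≤ Real.cos t ^ m := pow_le_pow_left₀ hG.le hle m
      unfold Slope.Cf
      rw [Slope.am_eq, div_le_iff₀ (by (clear * - hJ0; positivity))]
      rw [← hp]
      have e : 1 / ((m : ℝ) + 1) * (Real.cos t ^ (m + 1) / (Slope.Gf m t ^ (m + 1) *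
          Slope.J (m + 1) 0)) * Slope.Gf m t * (((m : ℝ) + 1) * Slope.J (m + 1) 0) =
          Real.cos t * (Real.cos t ^ m / Slope.Gf m t ^ m) := by
        field_simp
        rw [pow_succ, pow_succ]
        ring
      rw [e]
      have h5 : 1 ≤ Real.cos t ^ m / Slope.Gf m t ^ m := by
        rw [one_le_div (by positivity)]
        exact hle2
      nlinarith only [hc, h5]
  have h2 := hmono ⟨le_rfl, h0⟩ ⟨h0, le_rfl⟩ h0
  simp only [Slope.Gf_zero, Real.sin_zero, zero_div, sub_self] at h2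
  linarith only [h2]

/-- `x ≤ (m+1) a_m τ` -/
theorem IsTrans.fin_tau_ge (hr : IsProf r) (h : IsTrans m r τ τ' T) (hx : x ∈ Ioo (0 : ℝ) 1) :
    x ≤ ((m : ℝ) + 1) * Slope.am m * τ x := by
  have hτ := h.mem x hx
  have hA := Slope.am_pos m
  have h1 := h.pin_cone hr hx
  rw [pin_am] at h1
  have hsin : Real.sin (Real.arcsin x) = x := Real.sin_arcsin (by linarith [hx.1]) hx.2.le
  have hφ0 : 0 ≤ Real.arcsin x := Real.arcsin_nonneg.2 hx.1.le
  have hφ1 : Real.arcsin x < Real.pi / 2 := Real.arcsin_lt_pi_div_two.2 hx.2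
  have h2 : (∫ t in x..1, sq t ^ m) = Slope.J (m + 1) (Real.arcsin x) := by
    have h3 := Slope.integral_sqrt_pow m (α := Real.arcsin x) (β := Real.pi / 2) hφ0 hφ1.le le_rfl
    rw [hsin, Real.sin_pi_div_two] at h3
    unfold Slope.J sq
    exact h3
  rw [h2] at h1
  have hp := Slope.Gf_pow m hφ0 hφ1
  have hG := Slope.Gf_pos m hφ0 hφ1
  rw [← Slope.am_eq, eq_div_iff hA.ne'] at hp
  rw [← hp] at h1
  have h4 := le_of_mul_le_mul_right h1 hA
  have h5 : 1 - τ x ≤ Slope.Gf m (Real.arcsin x) :=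
    le_of_pow_le_pow_left₀ (by omega) hG.le h4
  have h6 := fin_Gf_lin m hφ0 hφ1
  rw [hsin, div_le_iff₀ (by (clear * - hA; positivity))] at h6
  nlinarith only [h6, mul_le_mul_of_nonneg_right (by linarith : 1 - Slope.Gf m (Real.arcsin x) ≤ τ x)     (by positivity : 0 ≤ ((m : ℝ) + 1) * Slope.am m)]

/-- `l ≥ -log((m+1)a_m)` -/
theorem IsTrans.fin_l_ge (hr : IsProf r) (h : IsTrans m r τ τ' T) (hx : x ∈ Ioo (0 : ℝ) 1) :
    -Real.log (((m : ℝ) + 1) * Slope.am m) ≤ lf τ x := by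
  have hτ := h.mem x hx
  have hA := Slope.am_pos m
  have h1 := h.fin_tau_ge hr hx
  unfold lf
  rw [← Real.log_inv]
  apply Real.log_le_log (by (clear * - hA; positivity))
  rw [le_div_iff₀ hx.1, inv_mul_le_iff₀ (by (clear * - hA; positivity))]
  exact h1

/-- `-l ≤ ½ log(π(m+1)/2)` -/
theorem IsTrans.fin_l_ge' (hr : IsProf r) (h : IsTrans m r τ τ' T) (hx : x ∈ Ioo (0 : ℝ) 1) :
    -lf τ x ≤ 1 / 2 * Real.log (Real.pi * ((m : ℝ) + 1) / 2) := by
  have h1 := h.fin_l_ge hr hx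
  have hA := Slope.am_pos m
  have h2 := fin_am_mul_sq_le m
  have h3 := Real.log_le_log (by (clear * - hA; positivity)) h2
  rw [Real.log_pow] at h3
  push_cast at h3
  linarith only [h1, h3]

theorem fin_log8pi : 1 / 2 * Real.log (8 * Real.pi) ≤ 1.6125 := by
  have h1 := pin_exp_ge 1.6125 (by norm_num)
  have h2 := Real.pi_lt_d6
  have h3 : Real.log (8 * Real.pi) ≤ 2 * 1.6125 := by
    rw [Real.log_le_iff_le_exp (by positivity)]
    have e : Real.exp (2 * 1.6125) = Real.exp 1.6125 ^ 2 := by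
      rw [← Real.exp_nat_mul]
      norm_num
    rw [e]
    norm_num at h1
    have h4 : (5.0133 : ℝ) ≤ Real.exp 1.6125 := by
      norm_num
      linarith only [h1]
    nlinarith only [h2, h1]
  linarith only [h3]

/-- for `m ≥ 15` and `l ≤ 0`: `l² ≤ (87/500) m` -/
theorem IsTrans.fin_l_sq (hm : 15 ≤ m) (hr : IsProf r) (h : IsTrans m r τ τ' T)
    (hx : x ∈ Ioo (0 : ℝ) 1) (hl : lf τ x ≤ 0) : lf τ x ^ 2 ≤ 87 / 500 * m := by
  have h1 := h.fin_l_ge' hr hx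
  have hm' : (15 : ℝ) ≤ m := by exact_mod_cast hm
  have h2 : Real.log (Real.pi * ((m : ℝ) + 1) / 2) =
      Real.log (8 * Real.pi) + 2 * Real.log (Real.sqrt (((m : ℝ) + 1) / 16)) := by
    rw [Real.log_sqrt (by positivity), ← mul_div_assoc, mul_div_cancel_left₀ _ two_ne_zero,
      ← Real.log_mul (by positivity) (by positivity)]
    congr 1
    ring
  have h3 := Real.log_le_sub_one_of_pos (Real.sqrt_pos.2 (by positivity : 0 < ((m : ℝ) + 1) / 16))
  have h4 := fin_log8pi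
  set q := Real.sqrt (m : ℝ) with hq
  have hq0 : 0 ≤ q := Real.sqrt_nonneg _
  have hqq : q ^ 2 = m := Real.sq_sqrt (by positivity)
  have h5 : Real.sqrt (((m : ℝ) + 1) / 16) ≤ 0.2582 * q := by
    rw [Real.sqrt_le_left (by positivity)]
    rw [mul_pow, hqq]
    norm_num
    linarith only [hm']
  have h6 : 3.8729 ≤ q := by
    apply Real.le_sqrt_of_sq_le
    norm_num
    linarith only [hm']
  have h7 : -lf τ x ≤ 0.4171 * q := by
    rw [h2] at h1
    norm_num at h4 ⊢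
    linarith only [h1, h3, h5, h6, h4]
  have h8 : lf τ x ^ 2 ≤ (0.4171 * q) ^ 2 := by
    rw [← neg_sq]
    exact pow_le_pow_left₀ (by linarith only [hl]) h7 2
  rw [mul_pow, hqq] at h8
  norm_num at h8 ⊢
  linarith only [h8]

end

end Vale.Agent.P237.AllN
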