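import Vale.Agent.P237.AllN.ConsN
import Vale.Agent.P237.Alm.Prof

/-!
# P237, all dimensions: comparison with truncated linear profiles

Under the constraint `N ≤ N_B` the position `τ = τ(x)` is not further out than for some profile
which is linear on `[0, κ]`, `κ ≤ 1`, and `0` on `(κ, 1]`.
-/

open MeasureTheory Metric Set Module Filter Topology

namespace Vale.Agent.P237.AllN

/-- `1 + ω + ... + ω^(n-1)` -/
noncomputable def geo (n : ℕ) (ω : ℝ) : ℝ := ∑ j ∈ Finset.range n, ω ^ j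

theorem geo_mul (n : ℕ) (ω : ℝ) : geo n ω * (1 - ω) = 1 - ω ^ n := by
  unfold geo
  rw [mul_comm]
  exact mul_neg_geom_sum ω n

theorem geo_one (n : ℕ) : geo n 1 = n := by
  simp only [geo, one_pow, Finset.sum_const, Finset.card_range, nsmul_eq_mul, mul_one]

theorem geo_pos {n : ℕ} (hn : 0 < n) {ω : ℝ} (h : 0 ≤ ω) : 0 < geo n ω := by
  unfold geo
  obtain ⟨k, rfl⟩ : ∃ k, n = k + 1 := ⟨n - 1, by omega⟩
  rw [Finset.sum_range_succ']
  have : 0 ≤ ∑ j ∈ Finset.range k, ω ^ (j + 1) := Finset.sum_nonneg fun j _ => pow_nonneg h _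
  simp only [pow_zero, gt_iff_lt]
  (clear * - this; linarith)

theorem geo_mono (n : ℕ) {a b : ℝ} (h : 0 ≤ a) (hab : a ≤ b) : geo n a ≤ geo n b :=
  Finset.sum_le_sum fun j _ => pow_le_pow_left₀ h hab j

theorem geo_cont (n : ℕ) : Continuous (geo n) := by
  unfold geo
  (clear * -; fun_prop)

/-- integral of a power of an affine function -/
theorem tr_lin_int (n : ℕ) {L : ℝ} (hL : 0 < L) (ω : ℝ) :
    ∫ y in (0 : ℝ)..L, (1 - (1 - ω) * (y / L)) ^ n = L * geo (n + 1) ω / ((n : ℝ) + 1) := by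
  have hn : (n : ℝ) + 1 ≠ 0 := by (clear * -; positivity)
  rcases eq_or_ne ω 1 with h | h
  · subst h
    simp only [sub_self, zero_mul, sub_zero, one_pow, intervalIntegral.integral_const, smul_eq_mul,
      mul_one]
    rw [geo_one]
    push_cast
    field_simp
  · have h1 : (1 : ℝ) - ω ≠ 0 := sub_ne_zero.2 h.symm
    have h2 : ∫ y in (0 : ℝ)..L, (1 - (1 - ω) * (y / L)) ^ n =
        -(L / ((1 - ω) * ((n : ℝ) + 1))) * (1 - (1 - ω) * (L / L)) ^ (n + 1) -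
        -(L / ((1 - ω) * ((n : ℝ) + 1))) * (1 - (1 - ω) * (0 / L)) ^ (n + 1) := by
      apply intervalIntegral.integral_eq_sub_of_hasDerivAt
        (f := fun y => -(L / ((1 - ω) * ((n : ℝ) + 1))) * (1 - (1 - ω) * (y / L)) ^ (n + 1))
      · intro y _
        have h3 : HasDerivAt (fun y : ℝ => 1 - (1 - ω) * (y / L)) (-((1 - ω) * (1 / L))) y :=
          (((hasDerivAt_id y).div_const L).const_mul (1 - ω)).const_sub 1
        have h4 := (h3.pow (n + 1)).const_mul (-(L / ((1 - ω) * ((n : ℝ) + 1))))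
        refine HasDerivAt.congr_deriv h4 ?_
        push_cast
        field_simp
      · exact (by fun_prop : Continuous fun y : ℝ =>
          (1 - (1 - ω) * (y / L)) ^ n).intervalIntegrable _ _
    rw [h2, div_self hL.ne', zero_div]
    have h5 := geo_mul (n + 1) ω
    have h6 : geo (n + 1) ω = (1 - ω ^ (n + 1)) / (1 - ω) := by
      rw [eq_div_iff h1, h5]
    rw [h6]
    have h7 : (1 - (1 - ω) * 1) = ω := by ring
    rw [h7, mul_zero, sub_zero, one_pow]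
    field_simp
    ring

theorem tr_amgm (n : ℕ) {a b : ℝ} (ha : 0 ≤ a) (hb : 0 ≤ b) :
    ((n : ℝ) + 1) * (a ^ n * b) ≤ n * a ^ (n + 1) + b ^ (n + 1) := by
  induction n with
  | zero => simp
  | succ n ih =>
    have h1 := mul_le_mul_of_nonneg_right ih hb
    have h2 : 0 ≤ ((n : ℝ) + 1) * (a ^ n * (b - a) ^ 2) := by (clear * - ha; positivity)
    have e1 : (((n : ℝ) + 1) * (a ^ n * b)) * b = ((n : ℝ) + 1) * (a ^ n * b ^ 2) := by ring
    have e2 : (n * a ^ (n + 1) + b ^ (n + 1)) * b = n * (a ^ (n + 1) * b) + b ^ (n + 2) := by ring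
    have e3 : ((n : ℝ) + 1) * (a ^ n * (b - a) ^ 2) = ((n : ℝ) + 1) * (a ^ n * b ^ 2) -
        2 * (((n : ℝ) + 1) * (a ^ (n + 1) * b)) + ((n : ℝ) + 1) * a ^ (n + 2) := by ring
    push_cast
    have e4 : ((n : ℝ) + 1 + 1) * (a ^ (n + 1) * b) =
        2 * (((n : ℝ) + 1) * (a ^ (n + 1) * b)) - n * (a ^ (n + 1) * b) := by ring
    rw [e4]
    have e5 : n + 1 + 1 = n + 2 := rfl
    rw [e5]
    linarith

/-- the affine function through `(0, a)` and `(τ, ρ)` -/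
noncomputable def trR (a ρ τ y : ℝ) : ℝ := a + (ρ - a) * (y / τ)

theorem trR_zero (a ρ τ : ℝ) : trR a ρ τ 0 = a := by simp [trR]

theorem trR_tau {a ρ τ : ℝ} (hτ : 0 < τ) : trR a ρ τ τ = ρ := by
  unfold trR
  rw [div_self hτ.ne']
  ring

theorem trR_cont (a ρ τ : ℝ) : Continuous (trR a ρ τ) := by
  unfold trR
  fun_prop

theorem trR_anti {a ρ τ : ℝ} (hτ : 0 < τ) (h : ρ ≤ a) : Antitone (trR a ρ τ) := by
  intro x y hxy
  unfold trR
  have h1 : x / τ ≤ y / τ := div_le_div_of_nonneg_right hxy hτ.le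
  nlinarith

theorem trR_int (n : ℕ) {a ρ τ : ℝ} (ha : 0 < a) {L : ℝ} (hL : 0 < L) :
    ∫ y in (0 : ℝ)..L, trR a ρ τ y ^ n =
      a ^ n * (L * geo (n + 1) (trR a ρ τ L / a) / ((n : ℝ) + 1)) := by
  rw [← tr_lin_int n hL, ← intervalIntegral.integral_const_mul]
  congr 1
  funext y
  rw [← mul_pow]
  congr 1
  unfold trR
  field_simp
  ring

/-- existence of the linear function with the same mass on `[0, τ]` -/
theorem tr_exists (n : ℕ) {r : ℝ → ℝ} (hr : IsProf r) {τ : ℝ} (hτ : τ ∈ Ioo (0 : ℝ) 1) :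
    ∃ a, r τ ≤ a ∧ ∫ y in (0 : ℝ)..τ, trR a (r τ) τ y ^ (n + 1) =
      ∫ y in (0 : ℝ)..τ, r y ^ (n + 1) := by
  have hρ : 0 < r τ := hr.pos τ ⟨by linarith only [hτ.1], hτ.2⟩
  have hr0 : 0 < r 0 := hr.pos 0 ⟨by norm_num, by norm_num⟩
  set ρ := r τ with hρd
  set Φ : ℝ → ℝ := fun a => a ^ (n + 1) * (τ * geo (n + 1 + 1) (ρ / a) / (((n + 1 : ℕ) : ℝ) + 1))
    with hΦ
  have hI : ∀ a, ρ ≤ a → ∫ y in (0 : ℝ)..τ, trR a ρ τ y ^ (n + 1) = Φ a := by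
    intro a ha
    rw [trR_int (n + 1) (hρ.trans_le ha) hτ.1, trR_tau hτ.1]
  set b : ℝ := ρ + ((n : ℝ) + 2) * r 0 with hb
  have hρb : ρ ≤ b := by
    have : 0 ≤ ((n : ℝ) + 2) * r 0 := by (clear * - hr0; positivity)
    linarith only [this]
  have hcont : ContinuousOn Φ (Icc ρ b) := by
    intro a ha
    have ha0 : a ≠ 0 := (hρ.trans_le ha.1).ne'
    apply ContinuousAt.continuousWithinAt
    have h1 : ContinuousAt (fun a : ℝ => ρ / a) a := continuousAt_const.div continuousAt_id ha0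
    have h2 : ContinuousAt (fun a : ℝ => geo (n + 1 + 1) (ρ / a)) a :=
      (geo_cont _).continuousAt.comp h1
    exact (continuousAt_id.pow _).mul ((continuousAt_const.mul h2).div_const _)
  have h01 : (0 : ℝ) ∈ Icc (0 : ℝ) 1 := ⟨le_rfl, zero_le_one⟩
  have hτ1 : τ ∈ Icc (0 : ℝ) 1 := ⟨hτ.1.le, hτ.2.le⟩
  have hlo : Φ ρ ≤ ∫ y in (0 : ℝ)..τ, r y ^ (n + 1) := by
    rw [← hI ρ le_rfl]
    apply intervalIntegral.integral_mono_on hτ.1.le
      (((trR_cont ρ ρ τ).pow (n + 1)).intervalIntegrable _ _) (Alm.prof_pow_ii hr _ h01 hτ1)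
    intro y hy
    have h1 : trR ρ ρ τ y = ρ := by simp [trR]
    change trR ρ ρ τ y ^ (n + 1) ≤ r y ^ (n + 1)
    rw [h1]
    exact pow_le_pow_left₀ hρ.le (Alm.prof_anti hr ⟨hy.1, hy.2.trans hτ.2.le⟩ hτ1 hy.2) _
  have hhi : ∫ y in (0 : ℝ)..τ, r y ^ (n + 1) ≤ Φ b := by
    have h1 : ∫ y in (0 : ℝ)..τ, r y ^ (n + 1) ≤ τ * r 0 ^ (n + 1) := by
      have h2 : ∫ y in (0 : ℝ)..τ, r y ^ (n + 1) ≤ ∫ y in (0 : ℝ)..τ, r 0 ^ (n + 1) := by
        apply intervalIntegral.integral_mono_on hτ.1.le (Alm.prof_pow_ii hr _ h01 hτ1)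
          (continuous_const.intervalIntegrable _ _)
        intro y hy
        have hy1 : y ∈ Icc (0 : ℝ) 1 := ⟨hy.1, hy.2.trans hτ.2.le⟩
        exact pow_le_pow_left₀ (Alm.prof_nn hr hy1) (Alm.prof_le_zero hr hy1) _
      simpa only [ge_iff_le, intervalIntegral.integral_const, sub_zero, smul_eq_mul] using h2
    refine h1.trans ?_
    have hb0 : 0 < b := hρ.trans_le hρb
    have h3 : 1 ≤ geo (n + 1 + 1) (ρ / b) := by
      unfold geo
      rw [Finset.sum_range_succ']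
      have : 0 ≤ ∑ j ∈ Finset.range (n + 1), (ρ / b) ^ (j + 1) :=
        Finset.sum_nonneg fun j _ => by (clear * - hρ hr0; positivity)
      simp
      linarith only [this]
    have h4 : (((n : ℝ) + 2) * r 0) ^ (n + 1) ≤ b ^ (n + 1) :=
      pow_le_pow_left₀ (by (clear * - hr0; positivity)) (by linarith only [hρ]) _
    have h5 : ((n : ℝ) + 2) * r 0 ^ (n + 1) ≤ (((n : ℝ) + 2) * r 0) ^ (n + 1) := by
      rw [mul_pow]
      apply mul_le_mul_of_nonneg_right _ (by positivity)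
      calc (n : ℝ) + 2 = ((n : ℝ) + 2) ^ 1 := (pow_one _).symm
        _ ≤ ((n : ℝ) + 2) ^ (n + 1) := pow_le_pow_right₀ (by linarith only [])
          (by omega)
    have hn2 : (((n + 1 : ℕ) : ℝ) + 1) = (n : ℝ) + 2 := by push_cast; ring
    rw [hΦ]
    simp only
    rw [hn2, mul_div_assoc', le_div_iff₀ (by (clear * -; positivity))]
    have h6 : τ * b ^ (n + 1) ≤ b ^ (n + 1) * (τ * geo (n + 1 + 1) (ρ / b)) := by
      have : τ * b ^ (n + 1) * 1 ≤ τ * b ^ (n + 1) * geo (n + 1 + 1) (ρ / b) :=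
        mul_le_mul_of_nonneg_left h3 (mul_nonneg hτ.1.le (by (clear * - hρ hr0; positivity)))
      linarith only [this]
    have h7 : τ * (((n : ℝ) + 2) * r 0 ^ (n + 1)) ≤ τ * b ^ (n + 1) :=
      mul_le_mul_of_nonneg_left (h5.trans h4) hτ.1.le
    linarith
  obtain ⟨a, ha, hae⟩ := intermediate_value_Icc hρb hcont ⟨hlo, hhi⟩
  exact ⟨a, ha.1, by rw [hI a ha.1, hae]⟩

section
variable {r : ℝ → ℝ} (hr : IsProf r) {τ a : ℝ} (hτ : τ ∈ Ioo (0 : ℝ) 1)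
include hr hτ

/-- three points: `(y₂ - y₁) (r - R)(y) ≥ (y₂ - y) (r - R)(y₁) + (y - y₁) (r - R)(y₂)` -/
theorem tr_conc {y₁ y y₂ : ℝ} (h0 : 0 ≤ y₁) (h1 : y₁ ≤ y) (h2 : y ≤ y₂) (h3 : y₂ ≤ 1)
    (h12 : y₁ < y₂) :
    (y₂ - y) * (r y₁ - trR a (r τ) τ y₁) + (y - y₁) * (r y₂ - trR a (r τ) τ y₂) ≤
      (y₂ - y₁) * (r y - trR a (r τ) τ y) := by
  have hd : 0 < y₂ - y₁ := sub_pos.2 h12
  have ma : y₁ ∈ Icc (-1 : ℝ) 1 := ⟨by linarith only [h0], by linarith⟩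
  have mb : y₂ ∈ Icc (-1 : ℝ) 1 := ⟨by linarith only [h0, h12], h3⟩
  have ca : 0 ≤ (y₂ - y) / (y₂ - y₁) := div_nonneg (by linarith only [h2]) hd.le
  have cb : 0 ≤ (y - y₁) / (y₂ - y₁) := div_nonneg (by linarith only [h1]) hd.le
  have cab : (y₂ - y) / (y₂ - y₁) + (y - y₁) / (y₂ - y₁) = 1 := by
    rw [← add_div, div_eq_one_iff_eq hd.ne']
    ring
  have hc := hr.conc.2 ma mb ca cb cab
  simp only [smul_eq_mul] at hc
  have e : (y₂ - y) / (y₂ - y₁) * y₁ + (y - y₁) / (y₂ - y₁) * y₂ = y := by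
    field_simp
    ring
  rw [e] at hc
  have hc2 := mul_le_mul_of_nonneg_left hc hd.le
  have e2 : (y₂ - y₁) * ((y₂ - y) / (y₂ - y₁) * r y₁ + (y - y₁) / (y₂ - y₁) * r y₂) =
      (y₂ - y) * r y₁ + (y - y₁) * r y₂ := by
    (clear * - hd; field_simp)
  rw [e2] at hc2
  have hτ0 := hτ.1.ne'
  have e3 : (y₂ - y) * trR a (r τ) τ y₁ + (y - y₁) * trR a (r τ) τ y₂ =
      (y₂ - y₁) * trR a (r τ) τ y := by
    unfold trR
    field_simp
    ring
  linarith only [hc2, e3]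

/-- the profile is below the linear function on `[τ, 1]` -/
theorem tr_right (n : ℕ)
    (hI : ∫ y in (0 : ℝ)..τ, trR a (r τ) τ y ^ (n + 1) = ∫ y in (0 : ℝ)..τ, r y ^ (n + 1)) :
    ∀ y ∈ Icc τ 1, r y ≤ trR a (r τ) τ y := by
  intro y₁ hy
  by_contra hlt
  push Not at hlt
  have hτy : τ < y₁ := by
    rcases eq_or_lt_of_le hy.1 with h | h
    · rw [← h, trR_tau hτ.1] at hlt
      exact absurd hlt (lt_irrefl _)
    · exact h
  have h1 : ∀ y ∈ Ico (0 : ℝ) τ, r y < trR a (r τ) τ y := by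
    intro y hy2
    have h2 := tr_conc hr hτ (a := a) hy2.1 hy2.2.le hτy.le hy.2 (hy2.2.trans hτy)
    rw [trR_tau hτ.1, sub_self, mul_zero] at h2
    have h3 : 0 < (τ - y) * (r y₁ - trR a (r τ) τ y₁) :=
      mul_pos (by linarith only [hy2.2]) (by linarith only [hlt])
    by_contra h4
    push Not at h4
    have h5 : 0 ≤ (y₁ - τ) * (r y - trR a (r τ) τ y) :=
      mul_nonneg (by linarith only [hτy]) (by linarith)
    linarith only [h2, h3, h5]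
  have hrc : ContinuousOn r (Icc 0 τ) :=
    (Alm.prof_cont hr).mono fun y hy => ⟨by linarith only [hy.1], hy.2.trans_lt hτ.2⟩
  have h2 : ∫ y in (0 : ℝ)..τ, r y ^ (n + 1) < ∫ y in (0 : ℝ)..τ, trR a (r τ) τ y ^ (n + 1) := by
    apply intervalIntegral.integral_lt_integral_of_continuousOn_of_le_of_exists_lt hτ.1
      (hrc.pow _) ((trR_cont a (r τ) τ).pow _).continuousOn
    · intro y hy2
      have h01 : y ∈ Icc (0 : ℝ) 1 := ⟨hy2.1.le, hy2.2.trans hτ.2.le⟩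
      rcases eq_or_lt_of_le hy2.2 with h | h
      · rw [h]
        change r τ ^ (n + 1) ≤ trR a (r τ) τ τ ^ (n + 1)
        rw [trR_tau hτ.1]
      · exact pow_le_pow_left₀ (Alm.prof_nn hr h01) (h1 y ⟨hy2.1.le, h⟩).le _
    · refine ⟨0, ⟨le_rfl, hτ.1.le⟩, ?_⟩
      exact pow_lt_pow_left₀ (h1 0 ⟨le_rfl, hτ.1⟩)
        (Alm.prof_nn hr ⟨le_rfl, zero_le_one⟩) (by omega)
  linarith only [hI, h2]

/-- single crossing on `[0, τ]` -/
theorem tr_cross : ∃ c, 0 < c ∧ ∀ y ∈ Icc (0 : ℝ) τ,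
    (c ≤ r y ∧ r y ≤ trR a (r τ) τ y) ∨ (trR a (r τ) τ y ≤ r y ∧ r y ≤ c) := by
  set S : Set ℝ := {y | y ∈ Icc (0 : ℝ) τ ∧ trR a (r τ) τ y ≤ r y} with hS
  have hrc : ContinuousOn r (Icc 0 τ) :=
    (Alm.prof_cont hr).mono fun y hy => ⟨by linarith only [hy.1], hy.2.trans_lt hτ.2⟩
  have hcl : IsClosed S := by
    have h1 : S = Icc (0 : ℝ) τ ∩ (fun y => r y - trR a (r τ) τ y) ⁻¹' (Ici 0) := by
      ext y
      simp only [hS, mem_ofPred_eq, mem_inter_iff, mem_preimage, mem_Ici, sub_nonneg]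
    rw [h1]
    exact (hrc.sub (trR_cont a (r τ) τ).continuousOn).preimage_isClosed_of_isClosed
      isClosed_Icc isClosed_Ici
  have hne : S.Nonempty := ⟨τ, ⟨hτ.1.le, le_rfl⟩, by rw [trR_tau hτ.1]⟩
  have hbd : BddBelow S := ⟨0, fun y hy => hy.1.1⟩
  set ξ := sInf S with hξ
  have hξS : ξ ∈ S := hcl.csInf_mem hne hbd
  have hξ1 : ξ ∈ Icc (0 : ℝ) 1 := ⟨hξS.1.1, hξS.1.2.trans hτ.2.le⟩
  refine ⟨r ξ, hr.pos ξ ⟨by linarith only [hξS.1.1], hξS.1.2.trans_lt hτ.2⟩, ?_⟩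
  intro y hy
  have hy1 : y ∈ Icc (0 : ℝ) 1 := ⟨hy.1, hy.2.trans hτ.2.le⟩
  rcases lt_or_ge y ξ with h | h
  · left
    refine ⟨Alm.prof_anti hr hy1 hξ1 h.le, ?_⟩
    by_contra h2
    push Not at h2
    exact absurd (csInf_le hbd (show y ∈ S from ⟨hy, h2.le⟩)) (not_le.2 h)
  · right
    refine ⟨?_, Alm.prof_anti hr hξ1 hy1 h⟩
    rcases eq_or_lt_of_le h with h2 | h2
    · rw [← h2]; exact hξS.2
    rcases eq_or_lt_of_le hy.2 with h3 | h3
    · rw [h3, trR_tau hτ.1]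
    have h4 := tr_conc hr hτ (a := a) hξS.1.1 h hy.2 hτ.2.le (h2.trans h3)
    rw [trR_tau hτ.1, sub_self, mul_zero, add_zero] at h4
    have h5 : 0 ≤ (τ - y) * (r ξ - trR a (r τ) τ ξ) :=
      mul_nonneg (by linarith only [h3]) (sub_nonneg.2 hξS.2)
    have h6 : 0 ≤ (τ - ξ) * (r y - trR a (r τ) τ y) := h5.trans h4
    have h7 : 0 ≤ r y - trR a (r τ) τ y := nonneg_of_mul_nonneg_right h6 (by linarith only [h2, h3])
    linarith only [h7]

/-- comparison of the lower moment on `[0, τ]` -/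
theorem tr_left_moment (n : ℕ) (ha : r τ ≤ a)
    (hI : ∫ y in (0 : ℝ)..τ, trR a (r τ) τ y ^ (n + 1) = ∫ y in (0 : ℝ)..τ, r y ^ (n + 1)) :
    ∫ y in (0 : ℝ)..τ, trR a (r τ) τ y ^ n ≤ ∫ y in (0 : ℝ)..τ, r y ^ n := by
  obtain ⟨c, hc, hcr⟩ := tr_cross hr hτ (a := a)
  have h01 : (0 : ℝ) ∈ Icc (0 : ℝ) 1 := ⟨le_rfl, zero_le_one⟩
  have hτ1 : τ ∈ Icc (0 : ℝ) 1 := ⟨hτ.1.le, hτ.2.le⟩
  have hρ : 0 < r τ := hr.pos τ ⟨by linarith only [hτ.1], hτ.2⟩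
  have hpt : ∀ y ∈ Icc (0 : ℝ) τ,
      ((n : ℝ) + 1) * c * trR a (r τ) τ y ^ n - n * trR a (r τ) τ y ^ (n + 1) ≤
      ((n : ℝ) + 1) * c * r y ^ n - n * r y ^ (n + 1) := by
    intro y hy
    have hy1 : y ∈ Icc (0 : ℝ) 1 := ⟨hy.1, hy.2.trans hτ.2.le⟩
    have hu : 0 ≤ r y := Alm.prof_nn hr hy1
    have hv : 0 ≤ trR a (r τ) τ y := by
      have := trR_anti hτ.1 ha hy.2
      rw [trR_tau hτ.1] at this
      linarith only [hρ, this]
    set u := r y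
    set v := trR a (r τ) τ y
    have h1 := tr_amgm n hv hu
    have h1e : u ^ (n + 1) = u * u ^ n := by ring
    rcases hcr y hy with ⟨h2, h3⟩ | ⟨h2, h3⟩
    · have h4 : u ^ n ≤ v ^ n := pow_le_pow_left₀ hu h3 n
      have h5 : 0 ≤ ((n : ℝ) + 1) * ((u - c) * (v ^ n - u ^ n)) :=
        mul_nonneg (by (clear * -; positivity)) (mul_nonneg (by linarith only [h2]) (by linarith only [h4]))
      nlinarith only [h1, h1e, h5]
    · have h4 : v ^ n ≤ u ^ n := pow_le_pow_left₀ hv h2 n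
      have h5 : 0 ≤ ((n : ℝ) + 1) * ((c - u) * (u ^ n - v ^ n)) :=
        mul_nonneg (by positivity) (mul_nonneg (by linarith only [h3]) (by linarith only [h4]))
      nlinarith only [h1, h1e, h5]
  have hiR : ∀ k : ℕ, IntervalIntegrable (fun y => trR a (r τ) τ y ^ k) volume 0 τ := fun k =>
    ((trR_cont a (r τ) τ).pow k).intervalIntegrable _ _
  have hir : ∀ k : ℕ, IntervalIntegrable (fun y => r y ^ k) volume 0 τ := fun k =>
    Alm.prof_pow_ii hr k h01 hτ1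
  have h6 := intervalIntegral.integral_mono_on hτ.1.le
    (((hiR n).const_mul (((n : ℝ) + 1) * c)).sub ((hiR (n + 1)).const_mul (n : ℝ)))
    (((hir n).const_mul (((n : ℝ) + 1) * c)).sub ((hir (n + 1)).const_mul (n : ℝ))) hpt
  rw [intervalIntegral.integral_sub ((hiR n).const_mul _) ((hiR (n + 1)).const_mul _),
    intervalIntegral.integral_sub ((hir n).const_mul _) ((hir (n + 1)).const_mul _),
    intervalIntegral.integral_const_mul, intervalIntegral.integral_const_mul,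
    intervalIntegral.integral_const_mul, intervalIntegral.integral_const_mul, hI] at h6
  have h7 : ((n : ℝ) + 1) * c * (∫ y in (0 : ℝ)..τ, trR a (r τ) τ y ^ n) ≤
      ((n : ℝ) + 1) * c * ∫ y in (0 : ℝ)..τ, r y ^ n := by linarith only [h6]
  exact le_of_mul_le_mul_left h7 (by (clear * - hc; positivity))

/-- truncation point -/
theorem tr_trunc (n : ℕ) (h : ∀ y ∈ Icc τ 1, r y ≤ trR a (r τ) τ y) :
    ∃ κ ∈ Icc τ 1, ∫ y in τ..κ, trR a (r τ) τ y ^ (n + 1) = ∫ y in τ..1, r y ^ (n + 1) := by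
  have hτ1 : τ ∈ Icc (0 : ℝ) 1 := ⟨hτ.1.le, hτ.2.le⟩
  have h11 : (1 : ℝ) ∈ Icc (0 : ℝ) 1 := ⟨zero_le_one, le_rfl⟩
  have hc : Continuous fun κ => ∫ y in τ..κ, trR a (r τ) τ y ^ (n + 1) :=
    intervalIntegral.continuous_primitive
      (fun a' b' => ((trR_cont a (r τ) τ).pow (n + 1)).intervalIntegrable a' b') τ
  have hlo : (∫ y in τ..τ, trR a (r τ) τ y ^ (n + 1)) ≤ ∫ y in τ..1, r y ^ (n + 1) := by
    rw [intervalIntegral.integral_same]
    apply intervalIntegral.integral_nonneg hτ.2.le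
    intro y hy
    exact pow_nonneg (Alm.prof_nn hr ⟨hτ.1.le.trans hy.1, hy.2⟩) _
  have hhi : ∫ y in τ..1, r y ^ (n + 1) ≤ ∫ y in τ..1, trR a (r τ) τ y ^ (n + 1) := by
    apply intervalIntegral.integral_mono_on hτ.2.le (Alm.prof_pow_ii hr _ hτ1 h11)
      (((trR_cont a (r τ) τ).pow _).intervalIntegrable _ _)
    intro y hy
    exact pow_le_pow_left₀ (Alm.prof_nn hr ⟨hτ.1.le.trans hy.1, hy.2⟩) (h y hy) _
  obtain ⟨κ, hκ, hκe⟩ := intermediate_value_Icc hτ.2.le hc.continuousOn ⟨hlo, hhi⟩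
  exact ⟨κ, hκ, hκe⟩

/-- comparison of the lower moment on `[τ, 1]` -/
theorem tr_right_moment (n : ℕ) (ha : r τ ≤ a) (h : ∀ y ∈ Icc τ 1, r y ≤ trR a (r τ) τ y)
    {κ : ℝ} (hκ : κ ∈ Icc τ 1)
    (hκe : ∫ y in τ..κ, trR a (r τ) τ y ^ (n + 1) = ∫ y in τ..1, r y ^ (n + 1)) :
    ∫ y in τ..κ, trR a (r τ) τ y ^ n ≤ ∫ y in τ..1, r y ^ n := by
  have hτ1 : τ ∈ Icc (0 : ℝ) 1 := ⟨hτ.1.le, hτ.2.le⟩
  have h11 : (1 : ℝ) ∈ Icc (0 : ℝ) 1 := ⟨zero_le_one, le_rfl⟩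
  have hκ1 : κ ∈ Icc (0 : ℝ) 1 := ⟨hτ.1.le.trans hκ.1, hκ.2⟩
  have hiR : ∀ (k : ℕ) (a' b' : ℝ), IntervalIntegrable (fun y => trR a (r τ) τ y ^ k) volume a' b' :=
    fun k a' b' => ((trR_cont a (r τ) τ).pow k).intervalIntegrable _ _
  have hir : ∀ (k : ℕ) {a' b' : ℝ}, a' ∈ Icc (0 : ℝ) 1 → b' ∈ Icc (0 : ℝ) 1 →
      IntervalIntegrable (fun y => r y ^ k) volume a' b' := fun k _ _ h1 h2 =>
    Alm.prof_pow_ii hr k h1 h2
  set R := trR a (r τ) τ with hR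
  have hanti : Antitone R := trR_anti hτ.1 ha
  have hRnn : ∀ y ∈ Icc τ 1, 0 ≤ R y := fun y hy =>
    (Alm.prof_nn hr ⟨hτ.1.le.trans hy.1, hy.2⟩).trans (h y hy)
  -- for `b ≤ κ`: `R(b) ∫_τ^b (R^n - r^n) ≤ ∫_τ^b (R^(n+1) - r^(n+1))`
  have key : ∀ b ∈ Icc τ κ, R b * (∫ y in τ..b, (R y ^ n - r y ^ n)) ≤
      ∫ y in τ..b, (R y ^ (n + 1) - r y ^ (n + 1)) := by
    intro b hb
    have hb1 : b ∈ Icc (0 : ℝ) 1 := ⟨hτ.1.le.trans hb.1, hb.2.trans hκ.2⟩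
    rw [← intervalIntegral.integral_const_mul]
    apply intervalIntegral.integral_mono_on hb.1
      (((hiR n τ b).sub (hir n hτ1 hb1)).const_mul _)
      ((hiR (n + 1) τ b).sub (hir (n + 1) hτ1 hb1))
    intro y hy
    have hyI : y ∈ Icc τ 1 := ⟨hy.1, hy.2.trans hb1.2⟩
    have h1 := h y hyI
    have h2 : 0 ≤ r y := Alm.prof_nn hr ⟨hτ.1.le.trans hy.1, hyI.2⟩
    have h3 : R b ≤ R y := hanti hy.2
    have h4 : r y ^ n ≤ R y ^ n := pow_le_pow_left₀ h2 h1 n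
    have h5 : 0 ≤ (R y - R b) * (R y ^ n - r y ^ n) := mul_nonneg (by linarith only [h3]) (by linarith only [h4])
    have h6 : 0 ≤ (R y - r y) * r y ^ n := mul_nonneg (by linarith only [h1]) (pow_nonneg h2 _)
    have e1 : R y ^ (n + 1) = R y * R y ^ n := by ring
    have e2 : r y ^ (n + 1) = r y * r y ^ n := by ring
    linarith
  have hsplit : ∀ k : ℕ, ∀ b ∈ Icc τ (1 : ℝ), (∫ y in τ..b, r y ^ k) + ∫ y in b..1, r y ^ k =
      ∫ y in τ..1, r y ^ k := by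
    intro k b hb
    exact intervalIntegral.integral_add_adjacent_intervals
      (hir k hτ1 ⟨hτ.1.le.trans hb.1, hb.2⟩) (hir k ⟨hτ.1.le.trans hb.1, hb.2⟩ h11)
  have hsub : ∀ k : ℕ, ∀ b ∈ Icc τ (1 : ℝ), (∫ y in τ..b, (R y ^ k - r y ^ k)) =
      (∫ y in τ..b, R y ^ k) - ∫ y in τ..b, r y ^ k := by
    intro k b hb
    exact intervalIntegral.integral_sub (hiR k τ b) (hir k hτ1 ⟨hτ.1.le.trans hb.1, hb.2⟩)
  rcases eq_or_lt_of_le (hRnn κ hκ) with h0 | h0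
  · -- `R κ = 0`, so `κ = 1`
    have hκ1' : κ = 1 := by
      by_contra hne
      have hlt : κ < 1 := lt_of_le_of_ne hκ.2 hne
      have := hr.pos κ ⟨by linarith only [hκ1.1], hlt⟩
      linarith [h κ hκ]
    rw [hκ1'] at hκe ⊢
    have hb : ∀ b ∈ Ico τ (1 : ℝ), (∫ y in τ..b, R y ^ n) ≤ ∫ y in τ..1, r y ^ n := by
      intro b hb
      have hb' : b ∈ Icc τ (1 : ℝ) := ⟨hb.1, hb.2.le⟩
      have hb1 : b ∈ Icc (0 : ℝ) 1 := ⟨hτ.1.le.trans hb.1, hb.2.le⟩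
      have h1 := key b ⟨hb.1, by rw [hκ1']; exact hb.2.le⟩
      have h2 : ∫ y in τ..b, (R y ^ (n + 1) - r y ^ (n + 1)) ≤ 0 := by
        rw [hsub (n + 1) b hb']
        have h3 := hsplit (n + 1) b hb'
        have h4 : (∫ y in τ..b, R y ^ (n + 1)) + ∫ y in b..1, R y ^ (n + 1) =
            ∫ y in τ..1, R y ^ (n + 1) :=
          intervalIntegral.integral_add_adjacent_intervals (hiR _ _ _) (hiR _ _ _)
        have h5 : ∫ y in b..1, r y ^ (n + 1) ≤ ∫ y in b..1, R y ^ (n + 1) := by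
          apply intervalIntegral.integral_mono_on hb.2.le (hir _ hb1 h11) (hiR _ _ _)
          intro y hy
          have hyI : y ∈ Icc τ 1 := ⟨hb.1.trans hy.1, hy.2⟩
          exact pow_le_pow_left₀ (Alm.prof_nn hr ⟨hτ.1.le.trans hyI.1, hyI.2⟩) (h y hyI) _
        linarith only [hκe, h3, h4, h5]
      have hRb : 0 < R b := by
        have := hr.pos b ⟨by linarith [hb1.1], hb.2⟩
        linarith only [this, h b hb']
      have h6 : ∫ y in τ..b, (R y ^ n - r y ^ n) ≤ 0 := by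
        by_contra h7
        push Not at h7
        have := mul_pos hRb h7
        linarith only [h1, h2, this]
      rw [hsub n b hb'] at h6
      have h8 := hsplit n b hb'
      have h9 : 0 ≤ ∫ y in b..1, r y ^ n := by
        apply intervalIntegral.integral_nonneg hb.2.le
        intro y hy
        exact pow_nonneg (Alm.prof_nn hr ⟨hb1.1.trans hy.1, hy.2⟩) _
      linarith
    have hcont : Continuous fun b => ∫ y in τ..b, R y ^ n :=
      intervalIntegral.continuous_primitive (fun a' b' => hiR n a' b') τ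
    have hclosed : IsClosed {b : ℝ | (∫ y in τ..b, R y ^ n) ≤ ∫ y in τ..1, r y ^ n} :=
      isClosed_le hcont continuous_const
    have hmem : (1 : ℝ) ∈ closure (Ico τ 1) := by
      rw [closure_Ico hτ.2.ne]
      exact ⟨hτ.2.le, le_rfl⟩
    exact hclosed.closure_subset_iff.2 (fun b hb' => hb b hb') hmem
  · have h1 := key κ ⟨hκ.1, le_rfl⟩
    rw [hsub n κ hκ, hsub (n + 1) κ hκ] at h1
    have h2 := hsplit n κ hκ
    have h3 := hsplit (n + 1) κ hκ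
    have h4 : ∫ y in κ..1, r y ^ (n + 1) ≤ R κ * ∫ y in κ..1, r y ^ n := by
      rw [← intervalIntegral.integral_const_mul]
      apply intervalIntegral.integral_mono_on hκ.2 (hir _ hκ1 h11) ((hir _ hκ1 h11).const_mul _)
      intro y hy
      have hyI : y ∈ Icc τ 1 := ⟨hκ.1.trans hy.1, hy.2⟩
      have h5 : r y ≤ R κ := (h y hyI).trans (hanti hy.1)
      have h6 : 0 ≤ r y ^ n := pow_nonneg (Alm.prof_nn hr ⟨hτ.1.le.trans hyI.1, hyI.2⟩) _
      calc r y ^ (n + 1) = r y * r y ^ n := by ring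
        _ ≤ R κ * r y ^ n := mul_le_mul_of_nonneg_right h5 h6
    have h5 : R κ * (∫ y in τ..κ, R y ^ n) ≤ R κ * ∫ y in τ..1, r y ^ n := by
      rw [← h2]
      linarith
    exact le_of_mul_le_mul_left h5 h0

end

/-- **Truncated linear comparison.** -/
theorem tr_main (n : ℕ) {r : ℝ → ℝ} (hr : IsProf r) {τ : ℝ} (hτ : τ ∈ Ioo (0 : ℝ) 1) :
    ∃ a ω κ : ℝ, 0 < a ∧ 0 ≤ ω ∧ ω ≤ 1 ∧ τ ≤ κ ∧ κ ≤ 1 ∧
      ∫ y in (0 : ℝ)..1, r y ^ (n + 1) = a ^ (n + 1) * (κ * geo (n + 2) ω / ((n : ℝ) + 2)) ∧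
      a ^ n * (κ * geo (n + 1) ω / ((n : ℝ) + 1)) ≤ ∫ y in (0 : ℝ)..1, r y ^ n ∧
      ∫ y in (0 : ℝ)..τ, r y ^ (n + 1) =
        a ^ (n + 1) * (τ * geo (n + 2) (1 - (1 - ω) * (τ / κ)) / ((n : ℝ) + 2)) := by
  obtain ⟨a, ha, hI⟩ := tr_exists n hr hτ
  have hρ : 0 < r τ := hr.pos τ ⟨by linarith [hτ.1], hτ.2⟩
  have ha0 : 0 < a := hρ.trans_le ha
  have hright := tr_right hr hτ n hI
  have hleft := tr_left_moment hr hτ n ha hI
  obtain ⟨κ, hκ, hκe⟩ := tr_trunc hr hτ n hright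
  have hrm := tr_right_moment hr hτ n ha hright hκ hκe
  have hκ0 : 0 < κ := hτ.1.trans_le hκ.1
  have h01 : (0 : ℝ) ∈ Icc (0 : ℝ) 1 := ⟨le_rfl, zero_le_one⟩
  have h11 : (1 : ℝ) ∈ Icc (0 : ℝ) 1 := ⟨zero_le_one, le_rfl⟩
  have hτ1 : τ ∈ Icc (0 : ℝ) 1 := ⟨hτ.1.le, hτ.2.le⟩
  have hiR : ∀ (k : ℕ) (a' b' : ℝ), IntervalIntegrable (fun y => trR a (r τ) τ y ^ k) volume a' b' :=
    fun k a' b' => ((trR_cont a (r τ) τ).pow k).intervalIntegrable _ _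
  have hsr : ∀ k : ℕ, (∫ y in (0 : ℝ)..τ, r y ^ k) + ∫ y in τ..1, r y ^ k =
      ∫ y in (0 : ℝ)..1, r y ^ k := fun k =>
    intervalIntegral.integral_add_adjacent_intervals
      (Alm.prof_pow_ii hr k h01 hτ1) (Alm.prof_pow_ii hr k hτ1 h11)
  have hsR : ∀ k : ℕ, (∫ y in (0 : ℝ)..τ, trR a (r τ) τ y ^ k) +
      ∫ y in τ..κ, trR a (r τ) τ y ^ k = ∫ y in (0 : ℝ)..κ, trR a (r τ) τ y ^ k := fun k =>
    intervalIntegral.integral_add_adjacent_intervals (hiR k _ _) (hiR k _ _)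
  have hRκ0 : 0 ≤ trR a (r τ) τ κ :=
    (Alm.prof_nn hr ⟨hτ.1.le.trans hκ.1, hκ.2⟩).trans (hright κ hκ)
  have hRκa : trR a (r τ) τ κ ≤ a := by
    have := trR_anti hτ.1 ha hκ0.le
    rwa [trR_zero] at this
  refine ⟨a, trR a (r τ) τ κ / a, κ, ha0, div_nonneg hRκ0 ha0.le, (div_le_one ha0).2 hRκa, hκ.1,
    hκ.2, ?_, ?_, ?_⟩
  · have h1 := trR_int (n + 1) ha0 hκ0 (ρ := r τ) (τ := τ)
    rw [← hsR, hI, hκe, hsr] at h1
    rw [h1]
    push_cast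
    ring
  · have h1 := trR_int n ha0 hκ0 (ρ := r τ) (τ := τ)
    rw [← h1, ← hsR, ← hsr n]
    linarith only [hleft, hrm]
  · have h1 := trR_int (n + 1) ha0 hτ.1 (ρ := r τ) (τ := τ)
    rw [hI] at h1
    rw [h1, trR_tau hτ.1]
    have e : 1 - (1 - trR a (r τ) τ κ / a) * (τ / κ) = r τ / a := by
      unfold trR
      have := hτ.1.ne'
      field_simp
      ring
    rw [e]
    push_cast
    ring

/-- **A priori information from `N ≤ N_B`** (truncated linear comparison), in terms of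
`ω ∈ [0,1]` (ratio of the end values) and `κ ∈ [τ, 1]` (length of the support). -/
theorem IsTrans.trunc {m : ℕ} (hm : 1 ≤ m) {r τ τ' T : ℝ → ℝ} (hr : IsProf r)
    (h : IsTrans m r τ τ' T)
    (hN : (∫ y in (-1 : ℝ)..1, r y ^ (m - 1)) ^ m * aInt m ^ (m - 1) ≤
      aInt (m - 1) ^ m * (∫ y in (-1 : ℝ)..1, r y ^ m) ^ (m - 1))
    {x : ℝ} (hx : x ∈ Ioo (0 : ℝ) 1) :
    ∃ ω κ : ℝ, 0 ≤ ω ∧ ω ≤ 1 ∧ τ x ≤ κ ∧ κ ≤ 1 ∧
      κ * (geo m ω / m) ^ m * (∫ t in (0 : ℝ)..1, sq t ^ m) ^ (m - 1) ≤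
        (∫ t in (0 : ℝ)..1, sq t ^ (m - 1)) ^ m * (geo (m + 1) ω / ((m : ℝ) + 1)) ^ (m - 1) ∧
      (τ x / κ) * geo (m + 1) (1 - (1 - ω) * (τ x / κ)) * (∫ t in (0 : ℝ)..1, sq t ^ m) =
        geo (m + 1) ω * ∫ t in (0 : ℝ)..x, sq t ^ m := by
  obtain ⟨n, rfl⟩ : ∃ n, m = n + 1 := ⟨m - 1, by omega⟩
  have hτ := h.mem x hx
  obtain ⟨a, ω, κ, ha, hω0, hω1, hκτ, hκ1, hA, hB, hC⟩ := tr_main n hr hτ
  refine ⟨ω, κ, hω0, hω1, hκτ, hκ1, ?_, ?_⟩
  · have hN2 := cn_half (by omega) hr hN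
    have e1 : n + 1 - 1 = n := by (clear * - hm; omega)
    rw [e1] at hN2 ⊢
    have hκ0 : 0 < κ := hτ.1.trans_le hκτ
    have hg1 : 0 < geo (n + 1) ω := geo_pos (by omega) hω0
    have hg2 : 0 < geo (n + 2) ω := geo_pos (by omega) hω0
    set Z := ∫ t in (0 : ℝ)..1, sq t ^ (n + 1)
    set Z1 := ∫ t in (0 : ℝ)..1, sq t ^ n
    set J := ∫ y in (0 : ℝ)..1, r y ^ n
    set I := ∫ y in (0 : ℝ)..1, r y ^ (n + 1)
    have hZ : 0 < Z := cn_Z_pos (n + 1)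
    have h1 : (a ^ n * (κ * geo (n + 1) ω / ((n : ℝ) + 1))) ^ (n + 1) * Z ^ n ≤
        Z1 ^ (n + 1) * (a ^ (n + 1) * (κ * geo (n + 2) ω / ((n : ℝ) + 2))) ^ n := by
      rw [← hA]
      refine le_trans ?_ hN2
      apply mul_le_mul_of_nonneg_right _ (by (clear * - hZ; positivity))
      exact pow_le_pow_left₀ (by (clear * - ha hκ0 hg1; positivity)) hB _
    have h2 : 0 < a ^ (n * (n + 1)) * κ ^ n := by (clear * - ha hκ0; positivity)
    refine le_of_mul_le_mul_left ?_ h2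
    have e2 : (a ^ n * (κ * geo (n + 1) ω / ((n : ℝ) + 1))) ^ (n + 1) * Z ^ n =
        a ^ (n * (n + 1)) * κ ^ n * (κ * (geo (n + 1) ω / ((n + 1 : ℕ) : ℝ)) ^ (n + 1) * Z ^ n) := by
      push_cast
      rw [mul_pow, ← pow_mul, mul_div_assoc, mul_pow κ, pow_succ κ]
      ring
    have e3 : Z1 ^ (n + 1) * (a ^ (n + 1) * (κ * geo (n + 2) ω / ((n : ℝ) + 2))) ^ n =
        a ^ (n * (n + 1)) * κ ^ n *
          (Z1 ^ (n + 1) * (geo (n + 1 + 1) ω / (((n + 1 : ℕ) : ℝ) + 1)) ^ n) := by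
      have e4 : (((n + 1 : ℕ) : ℝ) + 1) = (n : ℝ) + 2 := by push_cast; ring
      rw [e4, mul_pow, ← pow_mul, mul_div_assoc, mul_pow κ, mul_comm (n + 1) n]
      ring
    rw [e2, e3] at h1
    exact h1
  · have h3 := h.mass x hx
    rw [hA, hC] at h3
    have hκ0 : 0 < κ := hτ.1.trans_le hκτ
    have han : 0 < a ^ (n + 1) := by (clear * - ha; positivity)
    have hn2 : (0 : ℝ) < (n : ℝ) + 2 := by (clear * -; positivity)
    have h4 : 0 < a ^ (n + 1) * (κ / ((n : ℝ) + 2)) := by (clear * - ha hκ0; positivity)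
    refine mul_left_cancel₀ h4.ne' ?_
    calc a ^ (n + 1) * (κ / ((n : ℝ) + 2)) * (τ x / κ * geo (n + 1 + 1) (1 - (1 - ω) * (τ x / κ)) *
          ∫ t in (0 : ℝ)..1, sq t ^ (n + 1))
        = a ^ (n + 1) * (τ x * geo (n + 2) (1 - (1 - ω) * (τ x / κ)) / ((n : ℝ) + 2)) *
          ∫ t in (0 : ℝ)..1, sq t ^ (n + 1) := by
          (clear * - hκ0 ha; field_simp)
      _ = (∫ t in (0 : ℝ)..x, sq t ^ (n + 1)) *
          (a ^ (n + 1) * (κ * geo (n + 2) ω / ((n : ℝ) + 2))) := h3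
      _ = a ^ (n + 1) * (κ / ((n : ℝ) + 2)) *
          (geo (n + 1 + 1) ω * ∫ t in (0 : ℝ)..x, sq t ^ (n + 1)) := by ring

end Vale.Agent.P237.AllN
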