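import Vale.Agent.P237.AllN.ApriJ
import Vale.Agent.P237.AllN.Trunc
import Vale.Agent.P237.AllN.ApriX
import Vale.Agent.P237.AllN.FIn

/-!
# P237: reduction of the a priori bound to a one-parameter inequality
-/

open MeasureTheory Metric Set Module Filter Topology

namespace Vale.Agent.P237.AllN

open Alm

/-- `C_m = a_{m-1}^m / a_m^{m-1}` -/
noncomputable def aprC (m : ℕ) : ℝ := Slope.am (m - 1) ^ m / Slope.am m ^ (m - 1)

theorem aprC_pos (m : ℕ) : 0 < aprC m :=
  div_pos (pow_pos (Slope.am_pos _) _) (pow_pos (Slope.am_pos _) _)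

theorem geo_zero {n : ℕ} (hn : 1 ≤ n) : geo n 0 = 1 := by
  obtain ⟨k, rfl⟩ : ∃ k, n = k + 1 := ⟨n - 1, by omega⟩
  unfold geo
  rw [Finset.sum_range_succ']
  simp

/-- The reduction, on the level of numbers. -/
theorem apr_red {m : ℕ} (hm : 1 ≤ m) {ω κ t P R : ℝ} (hω0 : 0 ≤ ω) (hω1 : ω ≤ 1)
    (ht0 : 0 ≤ t) (ht1 : t ≤ 1) (hκ : 0 ≤ κ)
    (h1 : κ * (geo m ω / m) ^ m * Slope.am m ^ (m - 1) ≤
      Slope.am (m - 1) ^ m * (geo (m + 1) ω / ((m : ℝ) + 1)) ^ (m - 1))
    (h2 : t * geo (m + 1) (1 - (1 - ω) * t) = geo (m + 1) ω * P)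
    (hR : 0 ≤ R) (hPR : P ≤ R)
    (H : ∀ b θ : ℝ, 0 < b → 0 ≤ θ → θ ≤ 1 → θ ^ (m + 1) = 1 - P * (1 - Real.exp (-b)) →
      ((m : ℝ) + 1) * (1 - θ) ≤ R * aplW ((m : ℝ) / ((m : ℝ) + 1)) b)
    (H' : ∀ θ : ℝ, 0 ≤ θ → θ ≤ 1 → θ ^ (m + 1) = 1 - P →
      ((m : ℝ) + 1) * (1 - θ) ≤ R * Real.exp ((m : ℝ) / ((m : ℝ) + 1))) :
    κ * t ≤ aprC m * R := by
  have hm0 : (0 : ℝ) < m := by exact_mod_cast hm
  have hm1 : (0 : ℝ) < (m : ℝ) + 1 := by positivity
  have hA := Slope.am_pos m
  have hA1 := Slope.am_pos (m - 1)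
  have hgm : 0 < geo m ω := geo_pos (by omega) hω0
  have hgn : 0 < geo (m + 1) ω := geo_pos (by omega) hω0
  set gm := geo m ω / m with hgmd
  set gn := geo (m + 1) ω / ((m : ℝ) + 1) with hgnd
  have hgm0 : 0 < gm := by (clear * - hgm hm; positivity)
  have hgn0 : 0 < gn := by (clear * - hgn hm; positivity)
  have hpow : gn ^ m = gn ^ (m - 1) * gn := by
    conv_lhs => rw [show m = (m - 1) + 1 by omega, pow_succ]
  -- `κ ≤ C gn^(m-1)/gm^m`
  have hκC : κ * gm ^ m ≤ aprC m * gn ^ (m - 1) := by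
    unfold aprC
    rw [div_mul_eq_mul_div, le_div_iff₀ (by positivity)]
    exact h1
  have hC := aprC_pos m
  -- the ratio
  have key : ∀ K : ℝ, 0 ≤ K → t ≤ K * (gm / gn) ^ m * gn → κ * t ≤ aprC m * K := by
    intro K hK0 hK
    have e1 : gn ^ m * (gm / gn) ^ m = gm ^ m := by
      rw [← mul_pow]
      congr 1
      (clear * - hgn0 hgm0; field_simp)
    have h3 : κ * t ≤ κ * (K * (gm / gn) ^ m * gn) := mul_le_mul_of_nonneg_left hK hκ
    refine h3.trans ?_
    have h4 : κ * (K * (gm / gn) ^ m * gn) * gn ^ (m - 1) = K * (κ * gm ^ m) := by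
      calc κ * (K * (gm / gn) ^ m * gn) * gn ^ (m - 1)
          = K * κ * ((gn ^ (m - 1) * gn) * (gm / gn) ^ m) := by ring
        _ = K * (κ * gm ^ m) := by rw [← hpow, e1]; ring
    have h5 : 0 < gn ^ (m - 1) := by (clear * - hgn hm; positivity)
    refine le_of_mul_le_mul_right ?_ h5
    rw [h4]
    calc K * (κ * gm ^ m) ≤ K * (aprC m * gn ^ (m - 1)) := mul_le_mul_of_nonneg_left hκC hK0
      _ = aprC m * K * gn ^ (m - 1) := by ring
  apply key R hR
  set θ := 1 - (1 - ω) * t with hθ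
  have hθ0 : 0 ≤ θ := by
    have : (1 - ω) * t ≤ 1 * 1 := mul_le_mul (by linarith only [hω0]) ht1 ht0 (by norm_num)
    rw [hθ]; linarith only [this]
  have hθ1 : θ ≤ 1 := by
    have : 0 ≤ (1 - ω) * t := mul_nonneg (by linarith only [hω1]) ht0
    rw [hθ]; linarith only [this]
  -- `1 - θ^(m+1) = (1 - ω^(m+1)) P`
  have hmass : θ ^ (m + 1) = 1 - (1 - ω ^ (m + 1)) * P := by
    have e1 := geo_mul (m + 1) θ
    have e2 := geo_mul (m + 1) ω
    have e3 : 1 - θ = (1 - ω) * t := by rw [hθ]; ring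
    rw [e3] at e1
    have : (t * geo (m + 1) θ) * (1 - ω) = (1 - ω ^ (m + 1)) * P := by
      rw [h2, ← e2]; ring
    linarith only [e1, this]
  rcases hω1.eq_or_lt with hw | hw
  · -- `ω = 1`
    have e1 : geo (m + 1) θ = (m : ℝ) + 1 := by
      have : θ = 1 := by rw [hθ, hw]; ring
      rw [this, geo_one]; push_cast; ring
    have e2 : geo (m + 1) ω = (m : ℝ) + 1 := by rw [hw, geo_one]; push_cast; ring
    have e3 : geo m ω = m := by rw [hw, geo_one]
    have hgm1 : gm = 1 := by rw [hgmd, e3]; exact div_self hm0.ne'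
    have hgn1 : gn = 1 := by rw [hgnd, e2]; exact div_self hm1.ne'
    rw [e1, e2] at h2
    have : t = P := by
      have := mul_comm ((m : ℝ) + 1) P
      rw [this] at h2
      exact mul_right_cancel₀ hm1.ne' h2
    rw [hgm1, hgn1, this]
    simpa only [ne_eq, one_ne_zero, not_false_eq_true, div_self, one_pow, mul_one, ge_iff_le] using hPR
  · have h1w : 0 < 1 - ω := by linarith only [hw]
    have ht : t = (1 - θ) / (1 - ω) := by
      rw [eq_div_iff h1w.ne', hθ]; ring
    rcases hω0.eq_or_lt with hw0 | hw0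
    · -- `ω = 0`
      have e2 : geo (m + 1) ω = 1 := by rw [← hw0]; exact geo_zero (by omega)
      have e3 : geo m ω = 1 := by rw [← hw0]; exact geo_zero hm
      have hth : θ ^ (m + 1) = 1 - P := by
        rw [hmass, ← hw0]; simp
      have h6 := H' θ hθ0 hθ1 hth
      have h7 : gm / gn = ((m : ℝ) + 1) / m := by
        rw [hgmd, hgnd, e2, e3]; field_simp
      have h8 : Real.exp ((m : ℝ) / ((m : ℝ) + 1)) ≤ (((m : ℝ) + 1) / m) ^ m := by
        have h9 : Real.exp (1 / ((m : ℝ) + 1)) ≤ ((m : ℝ) + 1) / m := by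
          have h10 : (m : ℝ) / ((m : ℝ) + 1) ≤ Real.exp (-(1 / ((m : ℝ) + 1))) := by
            have := Real.add_one_le_exp (-(1 / ((m : ℝ) + 1)))
            refine le_trans (le_of_eq ?_) this
            field_simp
            ring
          rw [Real.exp_neg, le_inv_comm₀ (by positivity) (Real.exp_pos _)] at h10
          rwa [inv_div] at h10
        have h11 := pow_le_pow_left₀ (Real.exp_pos _).le h9 m
        rw [← Real.exp_nat_mul] at h11
        refine le_trans (le_of_eq ?_) h11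
        congr 1
        ring
      rw [h7, hgnd, e2, ht]
      have e5 : (1 - θ) / (1 - ω) = ((m : ℝ) + 1) * (1 - θ) * (1 / ((m : ℝ) + 1)) := by
        rw [← hw0]; field_simp; simp
      rw [e5]
      apply mul_le_mul_of_nonneg_right _ (by positivity)
      exact h6.trans (mul_le_mul_of_nonneg_left h8 hR)
    · -- `0 < ω < 1`
      set b := -(((m : ℝ) + 1) * Real.log ω) with hb
      have hlog : Real.log ω < 0 := Real.log_neg hw0 hw
      have hb0 : 0 < b := by
        rw [hb]
        have := mul_pos_of_neg_of_neg (neg_neg_of_pos hm1) hlog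
        linarith only [this]
      have hexp : Real.exp (-b) = ω ^ (m + 1) := by
        have : -b = ((m + 1 : ℕ) : ℝ) * Real.log ω := by rw [hb]; push_cast; ring
        rw [this, Real.exp_nat_mul, Real.exp_log hw0]
      set p := (m : ℝ) / ((m : ℝ) + 1) with hp
      have hp0 : 0 < p := by positivity
      have hp1 : p ≤ 1 := by rw [hp, div_le_one hm1]; linarith only []
      have hexp2 : Real.exp (-(p * b)) = ω ^ m := by
        have : -(p * b) = (m : ℝ) * Real.log ω := by rw [hb, hp]; (clear * - hm; field_simp)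
        rw [this, Real.exp_nat_mul, Real.exp_log hw0]
      have hth : θ ^ (m + 1) = 1 - P * (1 - Real.exp (-b)) := by
        rw [hmass, hexp]; ring
      have h6 := H b θ hb0 hθ0 hθ1 hth
      have hJ := apl_jensen hp0 hp1 hb0
      rw [hexp, hexp2] at hJ
      have hσ : 0 < 1 - ω ^ (m + 1) := by
        have := pow_lt_one₀ hw0.le hw (n := m + 1) (by omega)
        linarith only [this]
      have hσm : 0 < 1 - ω ^ m := by
        have := pow_lt_one₀ hw0.le hw (n := m) (by omega)
        linarith only [this]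
      have e6 : geo (m + 1) ω = (1 - ω ^ (m + 1)) / (1 - ω) := by
        rw [eq_div_iff h1w.ne']; exact geo_mul _ _
      have e7 : geo m ω = (1 - ω ^ m) / (1 - ω) := by
        rw [eq_div_iff h1w.ne']; exact geo_mul _ _
      have e8 : gn / gm = p * (1 - ω ^ (m + 1)) / (1 - ω ^ m) := by
        rw [hgmd, hgnd, e6, e7, hp]; (clear * - hw hσm hm hσ; field_simp)
      rw [← e8] at hJ
      set h := 1 - b / (Real.exp b - 1) with hh
      have h12 : Real.exp (p * h) ≤ (gm / gn) ^ m := by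
        have h13 : Real.exp ((1 - p) * h) ≤ gm / gn := by
          rw [Real.exp_neg, le_inv_comm₀ (by (clear * - hgn hm hgm; positivity)) (Real.exp_pos _), inv_div] at hJ
          exact hJ
        have h14 := pow_le_pow_left₀ (Real.exp_pos _).le h13 m
        rw [← Real.exp_nat_mul] at h14
        refine le_trans (le_of_eq ?_) h14
        congr 1
        rw [hp]; field_simp; ring
      have e9 : gn = (1 - ω ^ (m + 1)) / (((m : ℝ) + 1) * (1 - ω)) := by
        rw [hgnd, e6]; (clear * - hm hw hσ; field_simp)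
      have h15 : ((m : ℝ) + 1) * (1 - θ) ≤ R * ((1 - ω ^ (m + 1)) * (gm / gn) ^ m) := by
        refine h6.trans ?_
        apply mul_le_mul_of_nonneg_left _ hR
        unfold aplW
        rw [hexp]
        exact mul_le_mul_of_nonneg_left h12 hσ.le
      rw [ht, div_le_iff₀ h1w]
      have e10 : R * (gm / gn) ^ m * gn * (1 - ω) =
          R * ((1 - ω ^ (m + 1)) * (gm / gn) ^ m) / ((m : ℝ) + 1) := by
        have : gn * (1 - ω) = (1 - ω ^ (m + 1)) / ((m : ℝ) + 1) := by
          rw [e9]; (clear * - hw hm hσ; field_simp)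
        calc R * (gm / gn) ^ m * gn * (1 - ω) = R * (gm / gn) ^ m * (gn * (1 - ω)) := by ring
          _ = _ := by rw [this]; ring
      rw [e10, le_div_iff₀ hm1]
      linarith only [h15]

end Vale.Agent.P237.AllN
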