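import Vale.Agent.P237.AllN.TransDefs
import Vale.Agent.P237.Alm.Prof
import Vale.Agent.P237.OneD

/-!
# P237, all dimensions: sharp cuts of admissible pairs
-/

open MeasureTheory Metric Set Module Filter Topology

namespace Vale.Agent.P237.AllN

/-- a `C¹` ramp from `0` (left of `a`) to `1` (right of `b`) -/
structure Ramp (a b : ℝ) (χ χ' : ℝ → ℝ) : Prop where
  der : ∀ y, HasDerivAt χ (χ' y) y
  cont : Continuous χ'
  nonneg : ∀ y, 0 ≤ χ y
  le_one : ∀ y, χ y ≤ 1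
  nonneg' : ∀ y, 0 ≤ χ' y
  left : ∀ y ≤ a, χ y = 0
  right : ∀ y ≥ b, χ y = 1
  left' : ∀ y ≤ a, χ' y = 0
  right' : ∀ y ≥ b, χ' y = 0
  int : ∫ y in a..b, χ' y = 1

theorem exists_ramp {a b : ℝ} (hab : a < b) : ∃ χ χ' : ℝ → ℝ, Ramp a b χ χ' := by
  have hh : 0 < b - a := by linarith only [hab]
  set χ : ℝ → ℝ := fun y => Real.smoothTransition ((y - a) / (b - a)) with hχ
  have hcd : ContDiff ℝ 1 χ := by
    have h1 : ContDiff ℝ 1 Real.smoothTransition := Real.smoothTransition.contDiff (n := 1)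
    exact h1.comp ((contDiff_id.sub contDiff_const).div_const _)
  have hder : ∀ y, HasDerivAt χ (deriv χ y) y := fun y =>
    (hcd.differentiable (by norm_num) y).hasDerivAt
  have hcont : Continuous (deriv χ) := hcd.continuous_deriv (by norm_num)
  have h0 : ∀ y ≤ a, χ y = 0 := by
    intro y hy
    exact Real.smoothTransition.zero_of_nonpos (div_nonpos_of_nonpos_of_nonneg (by linarith only [hy]) hh.le)
  have h1 : ∀ y ≥ b, χ y = 1 := by
    intro y hy
    refine Real.smoothTransition.one_of_one_le ?_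
    rw [le_div_iff₀ hh]
    linarith only [hy]
  have hmono : Monotone χ := by
    intro x y hxy
    exact Real.smoothTransition.monotone (div_le_div_of_nonneg_right (by linarith only [hxy]) hh.le)
  have hd0 : ∀ y < a, deriv χ y = 0 := by
    intro y hy
    have : χ =ᶠ[𝓝 y] fun _ => 0 := by
      filter_upwards [Iio_mem_nhds hy] with z hz
      exact h0 z (le_of_lt hz)
    rw [this.deriv_eq]
    simp only [deriv_const']
  have hd1 : ∀ y > b, deriv χ y = 0 := by
    intro y hy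
    have : χ =ᶠ[𝓝 y] fun _ => 1 := by
      filter_upwards [Ioi_mem_nhds hy] with z hz
      exact h1 z (le_of_lt hz)
    rw [this.deriv_eq]
    simp
  refine ⟨χ, deriv χ, hder, hcont, fun y => Real.smoothTransition.nonneg _,
    fun y => Real.smoothTransition.le_one _, ?_, h0, h1, ?_, ?_, ?_⟩
  · intro y
    exact hmono.deriv_nonneg
  · have hcl : IsClosed {y | deriv χ y = 0} := isClosed_eq hcont continuous_const
    intro y hy
    have h2 : Iio a ⊆ {y | deriv χ y = 0} := fun z hz => hd0 z hz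
    have h3 := hcl.closure_subset_iff.2 h2
    rw [closure_Iio] at h3
    exact h3 hy
  · have hcl : IsClosed {y | deriv χ y = 0} := isClosed_eq hcont continuous_const
    intro y hy
    have h2 : Ioi b ⊆ {y | deriv χ y = 0} := fun z hz => hd1 z hz
    have h3 := hcl.closure_subset_iff.2 h2
    rw [closure_Ioi] at h3
    exact h3 hy
  · rw [intervalIntegral.integral_eq_sub_of_hasDerivAt (fun y _ => hder y)
      (hcont.intervalIntegrable _ _), h0 a le_rfl, h1 b le_rfl]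
    norm_num

/-- multiplication of a function on `(0,1)` by a cut-off -/
theorem cut_mul {a b : ℝ} (ha : 0 < a) (hb : b < 1) {ω ω' g g' : ℝ → ℝ}
    (hω : ∀ y, HasDerivAt ω (ω' y) y) (hω' : Continuous ω')
    (hz : ∀ y, y ∉ Icc a b → ω y = 0) (hz' : ∀ y, y ∉ Icc a b → ω' y = 0)
    (hg : ∀ y ∈ Ioo (0 : ℝ) 1, HasDerivAt g (g' y) y) (hg' : ContinuousOn g' (Ioo 0 1)) :
    (∀ y, HasDerivAt (fun y => ω y * g y) (ω' y * g y + ω y * g' y) y) ∧
      Continuous (fun y => ω' y * g y + ω y * g' y) := by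
  have hev : ∀ y, y ∉ Icc a b → ∀ᶠ z in 𝓝 y, z ∉ Icc a b := fun y hy =>
    isClosed_Icc.isOpen_compl.mem_nhds hy
  have hin : ∀ y, y ∈ Icc a b → y ∈ Ioo (0 : ℝ) 1 := fun y hy =>
    ⟨lt_of_lt_of_le ha hy.1, lt_of_le_of_lt hy.2 hb⟩
  constructor
  · intro y
    by_cases hy : y ∈ Icc a b
    · exact (hω y).mul (hg y (hin y hy))
    · have h1 : (fun y => ω y * g y) =ᶠ[𝓝 y] fun _ => (0 : ℝ) := by
        filter_upwards [hev y hy] with z h2
        rw [hz z h2, zero_mul]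
      have h2 : ω' y * g y + ω y * g' y = 0 := by rw [hz y hy, hz' y hy]; ring
      rw [h2]
      exact (hasDerivAt_const y (0 : ℝ)).congr_of_eventuallyEq h1
  · rw [continuous_iff_continuousAt]
    intro y
    by_cases hy : y ∈ Icc a b
    · have h1 := (hg y (hin y hy)).continuousAt
      have h2 := hg'.continuousAt (isOpen_Ioo.mem_nhds (hin y hy))
      have h3 := (hω y).continuousAt
      exact (hω'.continuousAt.mul h1).add (h3.mul h2)
    · have h1 : (fun y => ω' y * g y + ω y * g' y) =ᶠ[𝓝 y] fun _ => (0 : ℝ) := by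
        filter_upwards [hev y hy] with z h2
        rw [hz z h2, hz' z h2]
        ring
      exact continuousAt_const.congr h1.symm

/-- existence of the slope `P` for the end pair -/
theorem Kern2.end_pair {A : ℝ → ℝ → ℝ} (hA : Kern2 A) {η : ℝ} (hη : 0 < η) :
    ∃ P : ℝ, 0 ≤ P ∧ ∃ δ > (0 : ℝ), δ < 1 ∧
      ∀ y ∈ Icc (1 - δ) 1, ∀ b ∈ Icc (-1 : ℝ) 1, -η - P * (1 - b) ≤ A y b := by
  obtain ⟨C, hC⟩ := hA.bdd
  obtain ⟨δ, hδ, h1⟩ := hA.corner η hη
  have hC0 : 0 ≤ C := (abs_nonneg _).trans (hC 0 ⟨by norm_num, by norm_num⟩ 0 ⟨by norm_num, by norm_num⟩)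
  set d := min δ (1/2) with hd
  have hd0 : 0 < d := lt_min hδ (by norm_num)
  have hd1 : d ≤ 1/2 := min_le_right _ _
  have hdδ : d ≤ δ := min_le_left _ _
  refine ⟨C / d, by (clear * - hC0 hδ; positivity), d, hd0, by linarith only [hd1], ?_⟩
  intro y hy b hb
  have hy1 : y ∈ Icc (-1 : ℝ) 1 := ⟨by linarith [hy.1], hy.2⟩
  by_cases hbd : 1 - d ≤ b
  · have h2 := h1 y ⟨by linarith only [hdδ, hy.1], hy.2⟩ b ⟨by linarith only [hdδ, hbd], hb.2⟩
    have h3 := (abs_le.1 h2).1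
    have h4 : 0 ≤ C / d * (1 - b) := mul_nonneg (by (clear * - hC0 hδ; positivity)) (by linarith only [hb.2])
    linarith only [h3, h4]
  · push Not at hbd
    have h2 := (abs_le.1 (hC y hy1 b hb)).1
    have h3 : C ≤ C / d * (1 - b) := by
      rw [div_mul_eq_mul_div, le_div_iff₀ hd0]
      exact mul_le_mul_of_nonneg_left (by linarith only [hbd]) hC0
    linarith only [hη, h2, h3]

/-- the cut pair, first component -/
noncomputable def cutC (χL χR c : ℝ → ℝ) (M c0 y : ℝ) : ℝ :=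
  -M + ((χL y - χR y) * (c y + M) + χR y * (c0 + M))

noncomputable def cutC' (χL χR χL' χR' c c' : ℝ → ℝ) (M c0 y : ℝ) : ℝ :=
  ((χL' y - χR' y) * (c y + M) + (χL y - χR y) * c' y) + χR' y * (c0 + M)

/-- the cut pair, second component -/
noncomputable def cutP (χL χR p : ℝ → ℝ) (P y : ℝ) : ℝ :=
  (χL y - χR y) * p y + χR y * P

noncomputable def cutP' (χL χR χL' χR' p p' : ℝ → ℝ) (P y : ℝ) : ℝ :=
  ((χL' y - χR' y) * p y + (χL y - χR y) * p' y) + χR' y * P

section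

variable {a α β b : ℝ} {χL χL' χR χR' : ℝ → ℝ}

theorem ramp_sub_zero (hL : Ramp a α χL χL') (hR : Ramp β b χR χR') (haβ : a ≤ β)
    (hαb : α ≤ b) {y : ℝ} (hy : y ∉ Icc a b) : χL y - χR y = 0 ∧ χL' y - χR' y = 0 := by
  rcases lt_or_ge y a with h2 | h2
  · rw [hL.left y h2.le, hR.left y (by linarith), hL.left' y h2.le, hR.left' y (by linarith only [haβ, h2])]
    simp
  · have h3 : b < y := by
      by_contra h4
      exact hy ⟨h2, not_lt.1 h4⟩
    rw [hL.right y (by show α ≤ y; linarith only [hαb, h3]), hR.right y h3.le,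
      hL.right' y (by show α ≤ y; linarith), hR.right' y h3.le]
    simp

theorem cutC_deriv (ha : 0 < a) (hb : b < 1) (hL : Ramp a α χL χL') (hR : Ramp β b χR χR')
    (haβ : a ≤ β) (hαb : α ≤ b) {c c' : ℝ → ℝ}
    (hc : ∀ y ∈ Ioo (0 : ℝ) 1, HasDerivAt c (c' y) y) (hc' : ContinuousOn c' (Ioo 0 1))
    (M c0 : ℝ) :
    (∀ y, HasDerivAt (cutC χL χR c M c0) (cutC' χL χR χL' χR' c c' M c0 y) y) ∧
      Continuous (cutC' χL χR χL' χR' c c' M c0) := by
  have hz := fun y hy => (ramp_sub_zero hL hR haβ hαb (y := y) hy).1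
  have hz' := fun y hy => (ramp_sub_zero hL hR haβ hαb (y := y) hy).2
  obtain ⟨k1, k2⟩ := cut_mul (ω := fun y => χL y - χR y) (ω' := fun y => χL' y - χR' y)
    (g := fun y => c y + M) (g' := c') ha hb
    (fun y => (hL.der y).sub (hR.der y)) (hL.cont.sub hR.cont) hz hz'
    (fun y hy => (hc y hy).add_const M) hc'
  exact ⟨fun y => ((k1 y).add ((hR.der y).mul_const (c0 + M))).const_add (-M),
    k2.add (hR.cont.mul continuous_const)⟩

theorem cutP_deriv (ha : 0 < a) (hb : b < 1) (hL : Ramp a α χL χL') (hR : Ramp β b χR χR')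
    (haβ : a ≤ β) (hαb : α ≤ b) {p p' : ℝ → ℝ}
    (hp : ∀ y ∈ Ioo (0 : ℝ) 1, HasDerivAt p (p' y) y) (hp' : ContinuousOn p' (Ioo 0 1))
    (P : ℝ) :
    (∀ y, HasDerivAt (cutP χL χR p P) (cutP' χL χR χL' χR' p p' P y) y) ∧
      Continuous (cutP' χL χR χL' χR' p p' P) := by
  have hz := fun y hy => (ramp_sub_zero hL hR haβ hαb (y := y) hy).1
  have hz' := fun y hy => (ramp_sub_zero hL hR haβ hαb (y := y) hy).2
  obtain ⟨k1, k2⟩ := cut_mul (ω := fun y => χL y - χR y) (ω' := fun y => χL' y - χR' y)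
    (g := p) (g' := p') ha hb
    (fun y => (hL.der y).sub (hR.der y)) (hL.cont.sub hR.cont) hz hz' hp hp'
  exact ⟨fun y => (k1 y).add ((hR.der y).mul_const P), k2.add (hR.cont.mul continuous_const)⟩

theorem cut_nonpos (ha : 0 < a) (hL : Ramp a α χL χL') (hR : Ramp β b χR χR')
    (haβ : a ≤ β) (c c' p p' : ℝ → ℝ) (M c0 P : ℝ) {y : ℝ} (hy : y ≤ 0) :
    cutC χL χR c M c0 y = -M ∧ cutC' χL χR χL' χR' c c' M c0 y = 0 ∧ cutP χL χR p P y = 0 ∧
      cutP' χL χR χL' χR' p p' P y = 0 := by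
  unfold cutC cutC' cutP cutP'
  rw [hL.left y (by linarith), hR.left y (by linarith only [ha, haβ, hy]), hL.left' y (by linarith only [ha, hy]),
    hR.left' y (by linarith)]
  refine ⟨?_, ?_, ?_, ?_⟩ <;> ring

theorem cut_adm {A : ℝ → ℝ → ℝ} (ha : 0 < a) (hb : b < 1) (hL : Ramp a α χL χL')
    (hR : Ramp β b χR χR') (haβ : a ≤ β) (hαβ : α ≤ β) (hαb : α ≤ b) {c p : ℝ → ℝ}
    (hle : ∀ y ∈ Ioo (0 : ℝ) 1, ∀ b ∈ Icc (-1 : ℝ) 1, c y + p y * b ≤ A y b)
    {M : ℝ} (hM : ∀ a ∈ Icc (-1 : ℝ) 1, ∀ b ∈ Icc (-1 : ℝ) 1, |A a b| ≤ M)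
    {η P : ℝ} (hP : ∀ y ∈ Icc β 1, ∀ b ∈ Icc (-1 : ℝ) 1, -η - P * (1 - b) ≤ A y b)
    {t z : ℝ} (ht : t ∈ Icc (0 : ℝ) 1) (hzz : z ∈ Icc (-1 : ℝ) 1) :
    cutC χL χR c M (-(η + P)) t + cutP χL χR p P t * z ≤ A t z := by
  have ht' : t ∈ Icc (-1 : ℝ) 1 := ⟨by (clear * - ht; linarith [ht.1]), ht.2⟩
  have e1 : cutC χL χR c M (-(η + P)) t + cutP χL χR p P t * z = (1 - χL t) * (-M) +
      (χL t - χR t) * (c t + p t * z) + χR t * (-η - P * (1 - z)) := by
    unfold cutC cutP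
    ring
  have hω1 : 0 ≤ χL t - χR t := by
    rcases le_total t β with h2 | h2
    · rw [hR.left t h2]
      linarith only [hL.nonneg t]
    · rw [hL.right t (by show α ≤ t; linarith)]
      linarith only [hR.le_one t]
  have f1 : (1 - χL t) * (-M) ≤ (1 - χL t) * A t z :=
    mul_le_mul_of_nonneg_left (abs_le.1 (hM t ht' z hzz)).1 (by linarith only [hL.le_one t])
  have f2 : (χL t - χR t) * (c t + p t * z) ≤ (χL t - χR t) * A t z := by
    by_cases h2 : t ∈ Icc a b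
    · exact mul_le_mul_of_nonneg_left (hle t ⟨by linarith [h2.1], by linarith only [hb, h2.2]⟩ z hzz) hω1
    · rw [(ramp_sub_zero hL hR haβ hαb h2).1]
      simp
  have f3 : χR t * (-η - P * (1 - z)) ≤ χR t * A t z := by
    rcases le_total t β with h2 | h2
    · rw [hR.left t h2]
      simp
    · exact mul_le_mul_of_nonneg_left (hP t ⟨h2, ht.2⟩ z hzz) (hR.nonneg t)
  have e2 : A t z = (1 - χL t) * A t z + (χL t - χR t) * A t z + χR t * A t z := by ring
  rw [e1, e2]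
  linarith only [f1, f2, f3]

end

/-- one ramp piece of the value integral -/
theorem ramp_piece {a b K0 κ v ε : ℝ} (hab : a ≤ b) {Q R G H σ θ χ' : ℝ → ℝ}
    (hQ : IntervalIntegrable Q volume a b) (hR : IntervalIntegrable R volume a b)
    (hχ : Continuous χ') (hi : ∫ y in a..b, χ' y = 1)
    (he : ∀ y ∈ Icc a b, Q y = σ y * G y + -κ * (θ y * R y) + χ' y * H y)
    (hG : ∀ y ∈ Icc a b, |G y| ≤ K0) (hκ : 0 ≤ κ) (hR0 : ∀ y ∈ Icc a b, 0 ≤ R y)
    (hσ0 : ∀ y, 0 ≤ σ y) (hσ1 : ∀ y, σ y ≤ 1) (hθ1 : ∀ y, θ y ≤ 1)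
    (hχ0 : ∀ y, 0 ≤ χ' y) (hH : ∀ y ∈ Icc a b, v - ε ≤ H y) :
    -(K0 * (b - a)) - κ * (∫ y in a..b, R y) + (v - ε) ≤ ∫ y in a..b, Q y := by
  have e1 : ∫ y in a..b, (-K0 + -κ * R y + χ' y * (v - ε)) =
      -(K0 * (b - a)) - κ * (∫ y in a..b, R y) + (v - ε) := by
    rw [intervalIntegral.integral_add (((continuous_const.intervalIntegrable _ _)).add
      (hR.const_mul _)) ((hχ.intervalIntegrable _ _).mul_const _),
      intervalIntegral.integral_add (continuous_const.intervalIntegrable _ _)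
      (hR.const_mul _), intervalIntegral.integral_const_mul,
      intervalIntegral.integral_mul_const, hi, intervalIntegral.integral_const]
    simp only [smul_eq_mul]
    ring
  rw [← e1]
  apply intervalIntegral.integral_mono_on hab
    ((((continuous_const.intervalIntegrable _ _)).add (hR.const_mul _)).add
      ((hχ.intervalIntegrable _ _).mul_const _)) hQ
  intro y hy
  rw [he y hy]
  have g2 := (abs_le.1 (hG y hy)).1
  have hK0 : 0 ≤ K0 := (abs_nonneg _).trans (hG y hy)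
  have f1 : -K0 ≤ σ y * G y := by
    have g3 : -K0 * σ y ≤ G y * σ y := mul_le_mul_of_nonneg_right g2 (hσ0 y)
    have g4 : K0 * σ y ≤ K0 * 1 := mul_le_mul_of_nonneg_left (hσ1 y) hK0
    linarith only [g3, g4]
  have f2 : -κ * R y ≤ -κ * (θ y * R y) := by
    have g1 : θ y * R y ≤ 1 * R y := mul_le_mul_of_nonneg_right (hθ1 y) (hR0 y hy)
    have g3 := mul_le_mul_of_nonneg_left g1 hκ
    linarith
  have f3 : χ' y * (v - ε) ≤ χ' y * H y := mul_le_mul_of_nonneg_left (hH y hy) (hχ0 y)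
  linarith only [f1, f2, f3]

/-- the value on `[0,1]` of the cut pair -/
theorem cut_value {m : ℕ} {r : ℝ → ℝ} (hr : IsProf r)
    {c c' p p' : ℝ → ℝ} {α β : ℝ} (h0 : 0 < α) (hαβ : α < β) (h1 : β < 1)
    (hc : ∀ y ∈ Ioo (0 : ℝ) 1, HasDerivAt c (c' y) y) (hc' : ContinuousOn c' (Ioo 0 1))
    (hp : ∀ y ∈ Ioo (0 : ℝ) 1, HasDerivAt p (p' y) y) (hp' : ContinuousOn p' (Ioo 0 1))
    {M : ℝ} (hM0 : 0 ≤ M) {η P : ℝ} (hη : 0 ≤ η) (hP0 : 0 ≤ P) {ε : ℝ} (hε' : 0 < ε) :
    ∃ h : ℝ, 0 < h ∧ h ≤ α / 2 ∧ β + h ≤ (1 + β) / 2 ∧ ∀ χL χL' χR χR' : ℝ → ℝ,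
      Ramp (α - h) α χL χL' → Ramp β (β + h) χR χR' →
      (∫ y in α..β, (((m : ℝ) + 1) * c y + y * c' y + p' y) * r y ^ m) +
      (α * (c α + M) + p α) * r α ^ m - (β * (c β + η + P) + p β - P) * r β ^ m -
      ((m : ℝ) + 1) * M * (∫ y in (0 : ℝ)..α, r y ^ m) -
      ((m : ℝ) + 1) * (η + P) * (∫ y in β..1, r y ^ m) - 4 * ε ≤
      ∫ y in (0 : ℝ)..1, (((m : ℝ) + 1) * cutC χL χR c M (-(η + P)) y +
        y * cutC' χL χR χL' χR' c c' M (-(η + P)) y + cutP' χL χR χL' χR' p p' P y) * r y ^ m := by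
  set Φ : ℝ → ℝ := fun y => ((m : ℝ) + 1) * c y + y * c' y + p' y with hΦ
  set gL : ℝ → ℝ := fun y => y * (c y + M) + p y with hgL
  set gR : ℝ → ℝ := fun y => y * (c y + η + P) + p y - P with hgR
  have hcc : ContinuousOn c (Ioo 0 1) := fun y hy => (hc y hy).continuousAt.continuousWithinAt
  have hpc : ContinuousOn p (Ioo 0 1) := fun y hy => (hp y hy).continuousAt.continuousWithinAt
  have hrc : ContinuousOn r (Ioo 0 1) :=
    (Alm.prof_cont hr).mono (Ioo_subset_Ioo (by norm_num) le_rfl)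
  have hrm : ContinuousOn (fun y => r y ^ m) (Ioo 0 1) := hrc.pow m
  have hΦc : ContinuousOn Φ (Ioo 0 1) := by
    rw [hΦ]
    exact ((continuousOn_const.mul hcc).add (continuousOn_id.mul hc')).add hp'
  have hgLc : ContinuousOn (fun y => gL y * r y ^ m) (Ioo 0 1) := by
    rw [hgL]
    exact ((continuousOn_id.mul (hcc.add continuousOn_const)).add hpc).mul hrm
  have hgRc : ContinuousOn (fun y => gR y * r y ^ m) (Ioo 0 1) := by
    rw [hgR]
    exact (((continuousOn_id.mul ((hcc.add continuousOn_const).add continuousOn_const)).add hpc).sub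
      continuousOn_const).mul hrm
  have hαmem : α ∈ Ioo (0 : ℝ) 1 := ⟨h0, by linarith only [hαβ, h1]⟩
  have hβmem : β ∈ Ioo (0 : ℝ) 1 := ⟨by linarith only [h0, hαβ], h1⟩
  -- compact interval
  have hsub : Icc (α / 2) ((1 + β) / 2) ⊆ Ioo 0 1 := fun y hy =>
    ⟨by linarith only [h0, hy.1], by linarith only [h1, hy.2]⟩
  obtain ⟨K0, hK0⟩ := isCompact_Icc.exists_bound_of_continuousOn ((hΦc.mul hrm).mono hsub)
  have hK0' : 0 ≤ K0 := (norm_nonneg _).trans (hK0 α ⟨by linarith only [h0], by linarith only [hαβ, h1]⟩)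
  obtain ⟨d1, hd1, hd1'⟩ := Metric.continuousAt_iff.1
    (hgLc.continuousAt (isOpen_Ioo.mem_nhds hαmem)) ε hε'
  obtain ⟨d2, hd2, hd2'⟩ := Metric.continuousAt_iff.1
    (hgRc.continuousAt (isOpen_Ioo.mem_nhds hβmem)) ε hε'
  obtain ⟨h, hh, hh1, hh2, hh3, hh4, hh5⟩ : ∃ h : ℝ, 0 < h ∧ h ≤ α / 2 ∧ β + h ≤ (1 + β) / 2 ∧
      K0 * h ≤ ε ∧ h < d1 ∧ h < d2 := by
    refine ⟨min (min (α / 2) ((1 - β) / 2)) (min (ε / (K0 + 1)) (min (d1 / 2) (d2 / 2))), ?_, ?_, ?_,
      ?_, ?_, ?_⟩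
    · have : 0 < 1 - β := by linarith
      (clear * - h0 h1 hε' hK0' hd1 hd2; positivity)
    · exact (min_le_left _ _).trans (min_le_left _ _)
    · have := (min_le_left (min (α / 2) ((1 - β) / 2))
        (min (ε / (K0 + 1)) (min (d1 / 2) (d2 / 2)))).trans (min_le_right _ _)
      linarith only [this]
    · have h2 := (min_le_right (min (α / 2) ((1 - β) / 2))
        (min (ε / (K0 + 1)) (min (d1 / 2) (d2 / 2)))).trans (min_le_left _ _)
      calc K0 * _ ≤ K0 * (ε / (K0 + 1)) := mul_le_mul_of_nonneg_left h2 hK0'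
        _ = ε * (K0 / (K0 + 1)) := by ring
        _ ≤ ε * 1 := mul_le_mul_of_nonneg_left ((div_le_one (by linarith only [hK0'])).2 (by linarith only [])) hε'.le
        _ = ε := mul_one _
    · have h2 := ((min_le_right (min (α / 2) ((1 - β) / 2))
        (min (ε / (K0 + 1)) (min (d1 / 2) (d2 / 2)))).trans (min_le_right _ _)).trans
        (min_le_left _ _)
      linarith only [hd1, h2]
    · have h2 := ((min_le_right (min (α / 2) ((1 - β) / 2))
        (min (ε / (K0 + 1)) (min (d1 / 2) (d2 / 2)))).trans (min_le_right _ _)).trans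
        (min_le_right _ _)
      linarith
  refine ⟨h, hh, hh1, hh2, ?_⟩
  intro χL χL' χR χR' hL hR
  have hβh : β + h < 1 := by linarith only [hh, hh2]
  have hαh : 0 < α - h := by linarith only [hh, hh1]
  have hCd := cutC_deriv hαh hβh hL hR (by linarith only [hαβ, hh]) (by linarith only [hαβ, hh]) hc hc' M (-(η + P))
  have hPd := cutP_deriv hαh hβh hL hR (by linarith only [hαβ, hh]) (by linarith only [hαβ, hh]) hp hp' P
  have hCcc : Continuous (cutC χL χR c M (-(η + P))) :=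
    continuous_iff_continuousAt.2 fun y => (hCd.1 y).continuousAt
  set Q : ℝ → ℝ := fun y => (((m : ℝ) + 1) * cutC χL χR c M (-(η + P)) y +
        y * cutC' χL χR χL' χR' c c' M (-(η + P)) y + cutP' χL χR χL' χR' p p' P y) * r y ^ m with hQ
  have hrii : ∀ a ∈ Icc (0 : ℝ) 1, ∀ b ∈ Icc (0 : ℝ) 1,
      IntervalIntegrable (fun y => r y ^ m) volume a b := fun a ha b hb =>
    Alm.prof_pow_ii hr m ha hb
  have hQii : ∀ a ∈ Icc (0 : ℝ) 1, ∀ b ∈ Icc (0 : ℝ) 1, IntervalIntegrable Q volume a b := by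
    intro a ha b hb
    refine (hrii a ha b hb).continuousOn_mul ?_
    exact ((continuous_const.mul hCcc).add (continuous_id.mul hCd.2) |>.add hPd.2).continuousOn
  have m0 : (0 : ℝ) ∈ Icc (0 : ℝ) 1 := ⟨le_rfl, zero_le_one⟩
  have m1 : (1 : ℝ) ∈ Icc (0 : ℝ) 1 := ⟨zero_le_one, le_rfl⟩
  have ma : α - h ∈ Icc (0 : ℝ) 1 := ⟨hαh.le, by linarith only [hαβ, hh, hh2]⟩
  have mα : α ∈ Icc (0 : ℝ) 1 := ⟨h0.le, by linarith only [hαβ, hh, hh2]⟩
  have mβ : β ∈ Icc (0 : ℝ) 1 := ⟨by linarith only [hαβ, hh, hh1], h1.le⟩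
  have mb : β + h ∈ Icc (0 : ℝ) 1 := ⟨by linarith only [hαβ, hh, hh1], hβh.le⟩
  have split : ∫ y in (0 : ℝ)..1, Q y =
      (∫ y in (0 : ℝ)..(α - h), Q y) + (∫ y in (α - h)..α, Q y) + (∫ y in α..β, Q y) +
      (∫ y in β..(β + h), Q y) + ∫ y in (β + h)..1, Q y := by
    rw [intervalIntegral.integral_add_adjacent_intervals (hQii 0 m0 _ ma) (hQii _ ma _ mα),
      intervalIntegral.integral_add_adjacent_intervals (hQii 0 m0 _ mα) (hQii _ mα _ mβ),
      intervalIntegral.integral_add_adjacent_intervals (hQii 0 m0 _ mβ) (hQii _ mβ _ mb),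
      intervalIntegral.integral_add_adjacent_intervals (hQii 0 m0 _ mb) (hQii _ mb _ m1)]
  rw [split]
  have hm0 : (0 : ℝ) ≤ (m : ℝ) + 1 := by (clear * -; positivity)
  have hrn : ∀ y ∈ Ioo (0 : ℝ) 1, 0 ≤ r y ^ m := fun y hy =>
    pow_nonneg (hr.pos y ⟨by linarith only [hy.1], hy.2⟩).le m
  -- piece 1
  have I1 : ∫ y in (0 : ℝ)..(α - h), Q y = -(((m : ℝ) + 1) * M) * ∫ y in (0 : ℝ)..(α - h), r y ^ m := by
    rw [← intervalIntegral.integral_const_mul]
    refine intervalIntegral.integral_congr fun y hy => ?_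
    rw [uIcc_of_le hαh.le] at hy
    simp only [hQ, cutC, cutC', cutP']
    rw [hL.left y hy.2, hR.left y (by linarith only [hαβ, hh, hy.2]), hL.left' y hy.2,
      hR.left' y (by linarith only [hαβ, hh, hy.2])]
    ring
  -- piece 3
  have I3 : ∫ y in α..β, Q y = ∫ y in α..β, Φ y * r y ^ m := by
    refine intervalIntegral.integral_congr fun y hy => ?_
    rw [uIcc_of_le hαβ.le] at hy
    simp only [hQ, cutC, cutC', cutP', hΦ]
    rw [hL.right y hy.1, hR.left y hy.2, hL.right' y hy.1, hR.left' y hy.2]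
    ring
  -- piece 5
  have I5 : ∫ y in (β + h)..1, Q y = -(((m : ℝ) + 1) * (η + P)) * ∫ y in (β + h)..1, r y ^ m := by
    rw [← intervalIntegral.integral_const_mul]
    refine intervalIntegral.integral_congr fun y hy => ?_
    rw [uIcc_of_le hβh.le] at hy
    have hya : α ≤ y := by linarith only [hαβ, hh, hy.1]
    simp only [hQ, cutC, cutC', cutP']
    rw [hL.right y hya, hR.right y hy.1, hL.right' y hya, hR.right' y hy.1]
    ring
  -- piece 2
  have I2 : -(K0 * (α - (α - h))) - ((m : ℝ) + 1) * M * (∫ y in (α - h)..α, r y ^ m) +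
      (gL α * r α ^ m - ε) ≤ ∫ y in (α - h)..α, Q y := by
    refine ramp_piece (G := fun y => Φ y * r y ^ m) (H := fun y => gL y * r y ^ m) (σ := χL)
      (θ := fun y => 1 - χL y) (χ' := χL') (by linarith only [hh]) (hQii _ ma _ mα) (hrii _ ma _ mα)
      hL.cont hL.int ?_ ?_ (mul_nonneg hm0 hM0) ?_ hL.nonneg hL.le_one
      (fun y => by linarith only [hL.nonneg y]) hL.nonneg' ?_
    · intro y hy
      simp only [hQ, cutC, cutC', cutP', hΦ, hgL]
      rw [hR.left y (by linarith only [hαβ, hy.2]), hR.left' y (by linarith only [hαβ, hy.2])]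
      ring
    · intro y hy
      exact hK0 y ⟨by linarith only [hh1, hy.1], by linarith only [hαβ, hh, hh2, hy.2]⟩
    · intro y hy
      exact hrn y ⟨by linarith only [hh, hh1, hy.1], by linarith only [hαβ, hh, hh2, hy.2]⟩
    · intro y hy
      have g1 := hd1' (x := y) (by
        rw [Real.dist_eq, abs_lt]
        exact ⟨by linarith only [hh4, hy.1], by linarith only [hh, hh4, hy.2]⟩)
      rw [Real.dist_eq] at g1
      have g2 := (abs_lt.1 g1).1
      linarith only [g2]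
  -- piece 4
  have I4 : -(K0 * (β + h - β)) - ((m : ℝ) + 1) * (η + P) * (∫ y in β..(β + h), r y ^ m) +
      (-(gR β * r β ^ m) - ε) ≤ ∫ y in β..(β + h), Q y := by
    refine ramp_piece (G := fun y => Φ y * r y ^ m) (H := fun y => -(gR y * r y ^ m))
      (σ := fun y => 1 - χR y) (θ := χR) (χ' := χR') (by linarith only [hh]) (hQii _ mβ _ mb)
      (hrii _ mβ _ mb) hR.cont hR.int ?_ ?_ (mul_nonneg hm0 (by linarith only [hη, hP0])) ?_
      (fun y => by linarith only [hR.le_one y]) (fun y => by linarith only [hR.nonneg y]) hR.le_one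
      hR.nonneg' ?_
    · intro y hy
      have hya : α ≤ y := by linarith only [hαβ, hy.1]
      simp only [hQ, cutC, cutC', cutP', hΦ, hgR]
      rw [hL.right y hya, hL.right' y hya]
      ring
    · intro y hy
      exact hK0 y ⟨by linarith only [hαβ, hh, hh1, hy.1], by linarith only [hh2, hy.2]⟩
    · intro y hy
      exact hrn y ⟨by linarith only [hαβ, hh, hh1, hy.1], by linarith only [hh, hh2, hy.2]⟩
    · intro y hy
      have g1 := hd2' (x := y) (by
        rw [Real.dist_eq, abs_lt]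
        exact ⟨by linarith only [hh, hh5, hy.1], by linarith only [hh5, hy.2]⟩)
      rw [Real.dist_eq] at g1
      have g2 := (abs_lt.1 g1).2
      linarith only [g2]
  have J1 : ∫ y in (0 : ℝ)..α, r y ^ m = (∫ y in (0 : ℝ)..(α - h), r y ^ m) +
      ∫ y in (α - h)..α, r y ^ m :=
    (intervalIntegral.integral_add_adjacent_intervals (hrii 0 m0 _ ma) (hrii _ ma _ mα)).symm
  have J2 : ∫ y in β..1, r y ^ m = (∫ y in β..(β + h), r y ^ m) + ∫ y in (β + h)..1, r y ^ m :=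
    (intervalIntegral.integral_add_adjacent_intervals (hrii _ mβ _ mb) (hrii _ mb _ m1)).symm
  have e3 : (α * (c α + M) + p α) * r α ^ m = gL α * r α ^ m := rfl
  have e4 : (β * (c β + η + P) + p β - P) * r β ^ m = gR β * r β ^ m := rfl
  rw [J1, J2, I1, I3, I5, e3, e4]
  have e6 : K0 * (α - (α - h)) = K0 * h := by ring
  have e7 : K0 * (β + h - β) = K0 * h := by ring
  rw [e6] at I2
  rw [e7] at I4
  linarith only [hh3, I2, I4]

/-- **Sharp cut**: admissible pairs on `(0,1)` may be cut at any `0 < α < β < 1`. -/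
theorem admGe_cut {m : ℕ} {A : ℝ → ℝ → ℝ} (hA : Kern2 A) {r : ℝ → ℝ} (hr : IsProf r)
    {c c' p p' : ℝ → ℝ} {α β : ℝ} (h0 : 0 < α) (hαβ : α < β) (h1 : β < 1)
    (hc : ∀ y ∈ Ioo (0 : ℝ) 1, HasDerivAt c (c' y) y) (hc' : ContinuousOn c' (Ioo 0 1))
    (hp : ∀ y ∈ Ioo (0 : ℝ) 1, HasDerivAt p (p' y) y) (hp' : ContinuousOn p' (Ioo 0 1))
    (hle : ∀ y ∈ Ioo (0 : ℝ) 1, ∀ b ∈ Icc (-1 : ℝ) 1, c y + p y * b ≤ A y b)
    {M : ℝ} (hM0 : 0 ≤ M) (hM : ∀ a ∈ Icc (-1 : ℝ) 1, ∀ b ∈ Icc (-1 : ℝ) 1, |A a b| ≤ M)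
    {η P : ℝ} (hη : 0 ≤ η) (hP0 : 0 ≤ P)
    (hP : ∀ y ∈ Icc β 1, ∀ b ∈ Icc (-1 : ℝ) 1, -η - P * (1 - b) ≤ A y b) :
    AdmGe m A r (2 * ((∫ y in α..β, (((m : ℝ) + 1) * c y + y * c' y + p' y) * r y ^ m) +
      (α * (c α + M) + p α) * r α ^ m - (β * (c β + η + P) + p β - P) * r β ^ m -
      ((m : ℝ) + 1) * M * (∫ y in (0 : ℝ)..α, r y ^ m) -
      ((m : ℝ) + 1) * (η + P) * ∫ y in β..1, r y ^ m)) := by
  intro ε0 hε0
  obtain ⟨h, hh, hh1, hh2, hv⟩ := cut_value (m := m) hr h0 hαβ h1 hc hc' hp hp' hM0 hη hP0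
    (ε := ε0 / 8) (by (clear * - hε0; positivity))
  have hβh : β + h < 1 := by linarith only [hh, hh2]
  have hαh : 0 < α - h := by linarith only [hh, hh1]
  obtain ⟨χL, χL', hL⟩ := exists_ramp (a := α - h) (b := α) (by linarith only [hh])
  obtain ⟨χR, χR', hR⟩ := exists_ramp (a := β) (b := β + h) (by linarith only [hh])
  have hval := hv χL χL' χR χR' hL hR
  have hCd := cutC_deriv hαh hβh hL hR (by linarith only [hαβ, hh]) (by linarith only [hαβ, hh]) hc hc' M (-(η + P))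
  have hPd := cutP_deriv hαh hβh hL hR (by linarith only [hαβ, hh]) (by linarith only [hαβ, hh]) hp hp' P
  have hnp := fun y (hy : y ≤ (0:ℝ)) => cut_nonpos hαh hL hR (by linarith only [hαβ, hh]) c c' p p' M (-(η + P)) P hy
  have hadm := fun a (ha : a ∈ Icc (0:ℝ) 1) z (hz : z ∈ Icc (-1 : ℝ) 1) =>
    cut_adm hαh hβh hL hR (by linarith only [hαβ, hh]) hαβ.le (by linarith only [hαβ, hh]) hle hM hP ha hz
  have hCcc : Continuous (cutC χL χR c M (-(η + P))) :=
    continuous_iff_continuousAt.2 fun y => (hCd.1 y).continuousAt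
  set Cf := cutC χL χR c M (-(η + P)) with hCf
  set Cf' := cutC' χL χR χL' χR' c c' M (-(η + P)) with hCf'
  set Pf := cutP χL χR p P with hPf
  set Pf' := cutP' χL χR χL' χR' p p' P with hPf'
  refine ⟨fun y => Cf y + Cf (-y) + M, fun y => Cf' y - Cf' (-y), fun y => Pf y - Pf (-y),
    fun y => Pf' y + Pf' (-y), ⟨?_, ?_, ?_, ?_, ?_⟩, ?_⟩
  · intro y
    have e := ((hCd.1 y).add ((hCd.1 (-y)).comp y (hasDerivAt_neg y))).add_const M
    refine e.congr_deriv ?_
    ring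
  · exact hCd.2.sub (hCd.2.comp continuous_neg)
  · intro y
    have e := (hPd.1 y).sub ((hPd.1 (-y)).comp y (hasDerivAt_neg y))
    refine e.congr_deriv ?_
    ring
  · exact hPd.2.add (hPd.2.comp continuous_neg)
  · intro a ha b hb
    rcases le_total 0 a with h2 | h2
    · have e := hnp (-a) (by linarith only [h2])
      have := hadm a ⟨h2, ha.2⟩ b hb
      rw [e.1, e.2.2.1]
      linarith only [this]
    · have e := hnp a h2
      have := hadm (-a) ⟨by linarith only [h2], by linarith only [ha.1]⟩ (-b) ⟨by linarith only [hb.2], by linarith only [hb.1]⟩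
      rw [hA.symm] at this
      rw [e.1, e.2.2.1]
      linarith only [this]
  -- the value
  set F : ℝ → ℝ := fun y => (((m : ℝ) + 1) * (Cf y + Cf (-y) + M) + y * (Cf' y - Cf' (-y)) +
    (Pf' y + Pf' (-y))) * r y ^ m with hF
  have hrii := Alm.prof_pow_ii hr m (⟨le_rfl, zero_le_one⟩ : (0 : ℝ) ∈ Icc (0 : ℝ) 1)
    (⟨zero_le_one, le_rfl⟩ : (1 : ℝ) ∈ Icc (0 : ℝ) 1)
  have hFii : IntervalIntegrable F volume 0 1 := by
    refine hrii.continuousOn_mul ?_
    have i1 := hCcc.comp continuous_neg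
    have i2 := hCd.2.comp continuous_neg
    have i3 := hPd.2.comp continuous_neg
    exact (((continuous_const.mul ((hCcc.add i1).add continuous_const)).add
      (continuous_id.mul (hCd.2.sub i2))).add (hPd.2.add i3)).continuousOn
  have hFe : ∀ y, F (-y) = F y := by
    intro y
    simp only [hF, neg_neg, hr.even]
    ring
  rw [integral_even_eq hFe hFii]
  have hFQ : ∫ y in (0 : ℝ)..1, F y = ∫ y in (0 : ℝ)..1, (((m : ℝ) + 1) * Cf y + y * Cf' y +
      Pf' y) * r y ^ m := by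
    refine intervalIntegral.integral_congr fun y hy => ?_
    rw [uIcc_of_le zero_le_one] at hy
    have e := hnp (-y) (by linarith only [hy.1])
    simp only [hF]
    rw [e.1, e.2.1, e.2.2.2]
    ring
  rw [hFQ]
  linarith only [hval]

end Vale.Agent.P237.AllN
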