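import Vale.Agent.P237.AllN.TransN
import Vale.Agent.P237.AllN.ConsN
import Vale.Agent.P237.AllN.CutN
import Vale.Agent.P237.Alm.Prof

/-!
# P237, all dimensions: assembly of a certificate (T7)
-/

open MeasureTheory Metric Set Module Filter Topology

namespace Vale.Agent.P237.AllN

/-! ### elementary facts -/

theorem ass_sq_cont : Continuous sq := by
  unfold sq
  fun_prop

theorem ass_sq_nonneg (x : ℝ) : 0 ≤ sq x := Real.sqrt_nonneg _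

theorem ass_sq_le_one (x : ℝ) : sq x ≤ 1 := by
  unfold sq
  rw [Real.sqrt_le_one]
  nlinarith only []

theorem ass_sq_one : sq 1 = 0 := by
  unfold sq
  norm_num

theorem ass_sq_pos {x : ℝ} (hx : x ∈ Ioo (0 : ℝ) 1) : 0 < sq x := by
  unfold sq
  apply Real.sqrt_pos.2
  nlinarith only [hx.1, hx.2]

/-- Lower bound of an integral by a primitive, no exceptional point. -/
theorem ass_int_ge0 {G Ψ Ψ' : ℝ → ℝ} {a b w : ℝ} (hab : a ≤ b) (hG : ContinuousOn G (Icc a b))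
    (hΨ : ContinuousOn Ψ (Icc a b)) (hd : ∀ x ∈ Ioo a b, HasDerivAt Ψ (Ψ' x) x)
    (hge : ∀ x ∈ Ioo a b, w + Ψ' x ≤ G x) :
    w * (b - a) + (Ψ b - Ψ a) ≤ ∫ x in a..b, G x := by
  have h := intervalIntegral.sub_le_integral_of_hasDeriv_right_of_le
    (g := fun x => Ψ x + w * x) (g' := fun x => Ψ' x + w) (φ := G) hab
    (hΨ.add (by fun_prop)) (fun x hx => by
      have h1 := (hd x hx).add ((hasDerivAt_id x).const_mul w)
      simp only [mul_one] at h1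
      exact h1.hasDerivWithinAt) hG.integrableOn_Icc
    (fun x hx => by have := hge x hx; linarith)
  linarith only [h]

/-- Lower bound of an integral by a primitive, one exceptional point. -/
theorem ass_int_ge {G Ψ Ψ' : ℝ → ℝ} {a b w x₀ : ℝ} (hab : a ≤ b)
    (hG : ContinuousOn G (Icc a b)) (hΨ : ContinuousOn Ψ (Icc a b))
    (hd : ∀ x ∈ Ioo a b, x ≠ x₀ → HasDerivAt Ψ (Ψ' x) x)
    (hge : ∀ x ∈ Ioo a b, x ≠ x₀ → w + Ψ' x ≤ G x) :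
    w * (b - a) + (Ψ b - Ψ a) ≤ ∫ x in a..b, G x := by
  by_cases hx : x₀ ∈ Ioo a b
  · have h1 := ass_int_ge0 (G := G) (Ψ := Ψ) (Ψ' := Ψ') (w := w) hx.1.le
      (hG.mono (Icc_subset_Icc le_rfl hx.2.le)) (hΨ.mono (Icc_subset_Icc le_rfl hx.2.le))
      (fun x h => hd x ⟨h.1, h.2.trans hx.2⟩ h.2.ne) (fun x h => hge x ⟨h.1, h.2.trans hx.2⟩ h.2.ne)
    have h2 := ass_int_ge0 (G := G) (Ψ := Ψ) (Ψ' := Ψ') (w := w) hx.2.le
      (hG.mono (Icc_subset_Icc hx.1.le le_rfl)) (hΨ.mono (Icc_subset_Icc hx.1.le le_rfl))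
      (fun x h => hd x ⟨hx.1.trans h.1, h.2⟩ h.1.ne') (fun x h => hge x ⟨hx.1.trans h.1, h.2⟩ h.1.ne')
    have h3 : ∫ x in a..b, G x = (∫ x in a..x₀, G x) + ∫ x in x₀..b, G x := by
      rw [intervalIntegral.integral_add_adjacent_intervals]
      · refine ContinuousOn.intervalIntegrable ?_
        rw [uIcc_of_le hx.1.le]
        exact hG.mono (Icc_subset_Icc le_rfl hx.2.le)
      · refine ContinuousOn.intervalIntegrable ?_
        rw [uIcc_of_le hx.2.le]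
        exact hG.mono (Icc_subset_Icc hx.1.le le_rfl)
    rw [h3]
    linarith
  · refine ass_int_ge0 hab hG hΨ (fun x h => hd x h ?_) (fun x h => hge x h ?_)
    · rintro rfl; exact hx h
    · rintro rfl; exact hx h

/-- Localisation of the strict gain. -/
theorem ass_gain {W : ℝ → ℝ} (h : ∃ x ∈ Ioo (0 : ℝ) 1, ContinuousAt W x ∧ 0 < W x) :
    ∃ a b w : ℝ, 0 < a ∧ a < b ∧ b < 1 ∧ 0 < w ∧ ∀ x ∈ Icc a b, w ≤ W x := by
  obtain ⟨x, hx, hc, hW⟩ := h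
  have h1 : ∀ᶠ y in 𝓝 x, W x / 2 < W y := hc.eventually_const_lt (by linarith)
  have h2 : ∀ᶠ y in 𝓝 x, y ∈ Ioo (0 : ℝ) 1 := isOpen_Ioo.mem_nhds hx
  obtain ⟨ε, hε, hb⟩ := Metric.eventually_nhds_iff.1 (h1.and h2)
  have e1 : ∀ y ∈ Icc x (x + ε / 2), dist y x < ε := by
    intro y hy
    rw [Real.dist_eq, abs_lt]
    constructor
    · linarith [hy.1]
    · linarith only [hε, hy.2]
  refine ⟨x, x + ε / 2, W x / 2, hx.1, by linarith, ?_, by linarith,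
    fun y hy => (hb (e1 y hy)).1.le⟩
  exact (hb (e1 (x + ε / 2) ⟨by linarith, le_rfl⟩)).2.2

/-- Integral of a power of the profile over a short interval. -/
theorem ass_short {m : ℕ} {r : ℝ → ℝ} (hr : IsProf r) {a b : ℝ} (ha : 0 ≤ a) (hab : a ≤ b)
    (hb : b ≤ 1) : 0 ≤ ∫ y in a..b, r y ^ m ∧ ∫ y in a..b, r y ^ m ≤ (b - a) * r 0 ^ m := by
  have hmem : ∀ y ∈ Icc a b, y ∈ Icc (0 : ℝ) 1 := fun y hy => ⟨ha.trans hy.1, hy.2.trans hb⟩
  constructor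
  · apply intervalIntegral.integral_nonneg hab
    intro y hy
    exact pow_nonneg (Alm.prof_nn hr (hmem y hy)) m
  · have h1 := intervalIntegral.integral_mono_on hab
      (Alm.prof_pow_ii hr m (hmem a ⟨le_rfl, hab⟩) (hmem b ⟨hab, le_rfl⟩))
      (intervalIntegrable_const (c := r 0 ^ m))
      (fun y hy => pow_le_pow_left₀ (Alm.prof_nn hr (hmem y hy))
        (Alm.prof_le_zero hr (hmem y hy)) m)
    refine h1.trans (le_of_eq ?_)
    rw [intervalIntegral.integral_const, smul_eq_mul]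

theorem ass_Zr_pos {m : ℕ} {r : ℝ → ℝ} (hr : IsProf r) : 0 < ∫ t in (0 : ℝ)..1, r t ^ m := by
  apply intervalIntegral.intervalIntegral_pos_of_pos_on
    (Alm.prof_pow_ii hr m ⟨le_rfl, zero_le_one⟩ ⟨zero_le_one, le_rfl⟩) _ zero_lt_one
  intro x hx
  exact pow_pos (hr.pos x ⟨by linarith [hx.1], hx.2⟩) m

theorem ass_Zm_pos (m : ℕ) : 0 < ∫ t in (0 : ℝ)..1, sq t ^ m := by
  have hI : IntervalIntegrable (fun t => sq t ^ m) volume 0 1 :=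
    (ass_sq_cont.pow m).intervalIntegrable _ _
  apply intervalIntegral.intervalIntegral_pos_of_pos_on hI _ zero_lt_one
  intro x hx
  exact pow_pos (ass_sq_pos hx) m

theorem ass_sq_int {m : ℕ} {a b : ℝ} (hab : a ≤ b) : ∫ x in a..b, sq x ^ m ≤ b - a := by
  have hI : IntervalIntegrable (fun x => sq x ^ m) volume a b :=
    (ass_sq_cont.pow m).intervalIntegrable _ _
  have h1 := intervalIntegral.integral_mono_on hab hI
    (intervalIntegrable_const (c := (1 : ℝ)))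
    (fun x _ => pow_le_one₀ (ass_sq_nonneg x) (ass_sq_le_one x))
  refine h1.trans (le_of_eq ?_)
  rw [intervalIntegral.integral_const, smul_eq_mul, mul_one]

theorem AdmGe.le {m : ℕ} {A : ℝ → ℝ → ℝ} {r : ℝ → ℝ} {v w : ℝ} (h : AdmGe m A r v)
    (hwv : w ≤ v) : AdmGe m A r w := by
  intro ε hε
  obtain ⟨c, c', p, p', h1, h2⟩ := h ε hε
  exact ⟨c, c', p, p', h1, by linarith⟩

/-- The constraint on a subinterval. -/
theorem ass_constraint {m : ℕ} (hm : 3 ≤ m) {r τ τ' T : ℝ → ℝ} (hr : IsProf r)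
    (h : IsTrans m r τ τ' T)
    (hN : (∫ y in (-1 : ℝ)..1, r y ^ (m - 1)) ^ m * aInt m ^ (m - 1) ≤
      aInt (m - 1) ^ m * (∫ y in (-1 : ℝ)..1, r y ^ m) ^ (m - 1)) {α β : ℝ} (h0 : 0 < α)
    (hαβ : α ≤ β) (h1 : β < 1) :
    ∫ x in α..β, (sq x ^ (m - 1) * τ' x ^ (1 / (m : ℝ)) - sq x ^ (m - 1)) ≤ α + (1 - β) := by
  obtain ⟨hi, hle⟩ := h.constraint (by omega) hr hN
  have hS : ∀ a b : ℝ, IntervalIntegrable (fun x => sq x ^ (m - 1)) volume a b := fun a b =>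
    (ass_sq_cont.pow (m - 1)).intervalIntegrable a b
  have hK : IntervalIntegrable (fun x => sq x ^ (m - 1) * τ' x ^ (1 / (m : ℝ))) volume α β := by
    refine hi.mono_set ?_
    rw [uIcc_of_le hαβ, uIcc_of_le zero_le_one]
    exact Icc_subset_Icc h0.le h1.le
  rw [intervalIntegral.integral_sub hK (hS α β)]
  have k1 : ∫ x in α..β, sq x ^ (m - 1) * τ' x ^ (1 / (m : ℝ)) ≤
      ∫ x in (0 : ℝ)..1, sq x ^ (m - 1) * τ' x ^ (1 / (m : ℝ)) := by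
    refine intervalIntegral.integral_mono_interval h0.le hαβ h1.le ?_ hi
    rw [Filter.EventuallyLE, ae_restrict_iff' measurableSet_Ioc]
    refine Eventually.of_forall fun x hx => ?_
    rcases eq_or_lt_of_le hx.2 with e | e
    · subst e
      simp only [ass_sq_one, Pi.zero_apply]
      rw [zero_pow (by omega), zero_mul]
    · have hp := h.pos x ⟨hx.1, e⟩
      exact mul_nonneg (pow_nonneg (ass_sq_nonneg x) _) (Real.rpow_nonneg hp.le _)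
  have k2 : ∫ x in (0 : ℝ)..1, sq x ^ (m - 1) = (∫ x in (0 : ℝ)..α, sq x ^ (m - 1)) +
      (∫ x in α..β, sq x ^ (m - 1)) + ∫ x in β..1, sq x ^ (m - 1) := by
    rw [intervalIntegral.integral_add_adjacent_intervals (hS _ _) (hS _ _),
      intervalIntegral.integral_add_adjacent_intervals (hS _ _) (hS _ _)]
  have k3 := ass_sq_int (m := m - 1) h0.le
  have k4 := ass_sq_int (m := m - 1) h1.le
  linarith only [hle, k1, k2, k3, k4]

/-- The transport tends to `0` at `0`. -/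
theorem ass_tau_zero {m : ℕ} (hm : 1 ≤ m) {r τ τ' T : ℝ → ℝ} (hr : IsProf r)
    (h : IsTrans m r τ τ' T) : Tendsto τ (𝓝[>] 0) (𝓝 0) := by
  obtain ⟨C, hC, hb⟩ := h.near_zero hm hr
  have h1 : Tendsto (fun x : ℝ => C * x) (𝓝[>] 0) (𝓝 0) := by
    have h2 : Tendsto (fun x : ℝ => C * x) (𝓝 0) (𝓝 (C * 0)) :=
      (continuous_const.mul continuous_id).tendsto 0
    rw [mul_zero] at h2
    exact h2.mono_left nhdsWithin_le_nhds
  have h3 : ∀ᶠ x in 𝓝[>] (0 : ℝ), x ∈ Ioo (0 : ℝ) 1 := Ioo_mem_nhdsGT one_pos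
  refine squeeze_zero' ?_ ?_ h1
  · filter_upwards [h3] with x hx
    exact (h.mem x hx).1.le
  · filter_upwards [h3] with x hx
    exact (hb x hx).2

/-- The transport tends to `1` at `1`. -/
theorem ass_tau_one {m : ℕ} (hm : 1 ≤ m) {r τ τ' T : ℝ → ℝ} (hr : IsProf r)
    (h : IsTrans m r τ τ' T) : Tendsto (fun x => 1 - τ x) (𝓝[<] 1) (𝓝 0) := by
  obtain ⟨C, hC, hb⟩ := h.near_one hm hr
  have h3 : ∀ᶠ x in 𝓝[<] (1 : ℝ), x ∈ Ioo (0 : ℝ) 1 := Ioo_mem_nhdsLT one_pos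
  have h1 : Tendsto (fun x : ℝ => C * sq x ^ (m + 2)) (𝓝[<] 1) (𝓝 0) := by
    have h2 : Tendsto (fun x : ℝ => C * sq x ^ (m + 2)) (𝓝 1) (𝓝 (C * sq 1 ^ (m + 2))) :=
      (continuous_const.mul (ass_sq_cont.pow (m + 2))).tendsto 1
    rw [ass_sq_one, zero_pow (by omega), mul_zero] at h2
    exact h2.mono_left nhdsWithin_le_nhds
  have h4 : Tendsto (fun x : ℝ => (1 - τ x) ^ (m + 1)) (𝓝[<] 1) (𝓝 0) := by
    refine squeeze_zero' ?_ ?_ h1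
    · filter_upwards [h3] with x hx
      have := (h.mem x hx).2
      exact pow_nonneg (by linarith only [this]) _
    · filter_upwards [h3] with x hx
      exact (hb x hx).2
  have h5 : Tendsto (fun x : ℝ => ((1 - τ x) ^ (m + 1)) ^ (((m + 1 : ℕ) : ℝ)⁻¹)) (𝓝[<] 1)
      (𝓝 ((0 : ℝ) ^ (((m + 1 : ℕ) : ℝ)⁻¹))) :=
    ((Real.continuousAt_rpow_const 0 _ (Or.inr (by positivity))).tendsto).comp h4
  rw [Real.zero_rpow (by positivity)] at h5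
  refine h5.congr' ?_
  filter_upwards [h3] with x hx
  have := (h.mem x hx).2
  exact Real.pow_rpow_inv_natCast (by linarith only [this]) (by omega)

section

variable {m : ℕ} {r τ τ' T : ℝ → ℝ} {c c' p p' : ℝ → ℝ}

theorem ass_E_cont (hT : IsTrans m r τ τ' T)
    (hc : ∀ x ∈ Ioo (0 : ℝ) 1, HasDerivAt c (c' x) x) (hc' : ContinuousOn c' (Ioo 0 1))
    (hp' : ContinuousOn p' (Ioo 0 1)) :
    ContinuousOn (fun x => ((m : ℝ) + 1) * c x + (τ x * c' x + p' x) / τ' x) (Ioo 0 1) := by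
  have h1 : ContinuousOn c (Ioo 0 1) := fun x hx => (hc x hx).continuousAt.continuousWithinAt
  have h2 : ContinuousOn τ (Ioo 0 1) := fun x hx => (hT.der x hx).continuousAt.continuousWithinAt
  exact (continuousOn_const.mul h1).add (((h2.mul hc').add hp').div hT.cont
    fun x hx => (hT.pos x hx).ne')

theorem ass_K_cont (hT : IsTrans m r τ τ' T) :
    ContinuousOn (fun x => sq x ^ (m - 1) * τ' x ^ (1 / (m : ℝ)) - sq x ^ (m - 1)) (Ioo 0 1) := by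
  have h1 : ContinuousOn (fun x => sq x ^ (m - 1)) (Ioo 0 1) :=
    (ass_sq_cont.pow (m - 1)).continuousOn
  exact (h1.mul (hT.cont.rpow_const fun x hx => Or.inl (hT.pos x hx).ne')).sub h1

/-- The lower bound of the integral over `(α, β)`. -/
theorem ass_lower (hm : 3 ≤ m) (hr : IsProf r) (hT : IsTrans m r τ τ' T)
    (hN : (∫ y in (-1 : ℝ)..1, r y ^ (m - 1)) ^ m * aInt m ^ (m - 1) ≤
      aInt (m - 1) ^ m * (∫ y in (-1 : ℝ)..1, r y ^ m) ^ (m - 1))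
    (hc : ∀ x ∈ Ioo (0 : ℝ) 1, HasDerivAt c (c' x) x) (hc' : ContinuousOn c' (Ioo 0 1))
    (hp' : ContinuousOn p' (Ioo 0 1))
    {μ : ℝ} (hμ : 0 ≤ μ) {x₀ : ℝ} {W Ψ Ψ' : ℝ → ℝ}
    (hΨ : ContinuousOn Ψ (Ioo 0 1)) (hΨd : ∀ x ∈ Ioo (0 : ℝ) 1, x ≠ x₀ → HasDerivAt Ψ (Ψ' x) x)
    (hW : ∀ x ∈ Ioo (0 : ℝ) 1, x ≠ x₀ → 0 ≤ W x)
    (hid : ∀ x ∈ Ioo (0 : ℝ) 1, x ≠ x₀ →
      W x + Ψ' x ≤ (((m : ℝ) + 1) * c x + (τ x * c' x + p' x) / τ' x) * sq x ^ m +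
        μ * (sq x ^ (m - 1) * τ' x ^ (1 / (m : ℝ)) - sq x ^ (m - 1)))
    {a b w : ℝ} (hab : a < b) (hw : ∀ x ∈ Icc a b, w ≤ W x)
    {α β : ℝ} (h0 : 0 < α) (hαa : α ≤ a) (hbβ : b ≤ β) (h1 : β < 1) :
    w * (b - a) + (Ψ β - Ψ α) - μ * (α + (1 - β)) ≤
      ∫ x in α..β, (((m : ℝ) + 1) * c x + (τ x * c' x + p' x) / τ' x) * sq x ^ m := by
  have hαβ : α ≤ β := hαa.trans (hab.le.trans hbβ)
  have hsub : ∀ {u v : ℝ}, α ≤ u → v ≤ β → Icc u v ⊆ Ioo (0 : ℝ) 1 := fun hu hv x hx =>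
    ⟨h0.trans_le (hu.trans hx.1), (hx.2.trans hv).trans_lt h1⟩
  have hE := ass_E_cont hT hc hc' hp'
  have hK := ass_K_cont hT
  have hEs : ContinuousOn (fun x => (((m : ℝ) + 1) * c x + (τ x * c' x + p' x) / τ' x) *
      sq x ^ m) (Ioo 0 1) := hE.mul (ass_sq_cont.pow m).continuousOn
  have hG : ContinuousOn (fun x => (((m : ℝ) + 1) * c x + (τ x * c' x + p' x) / τ' x) * sq x ^ m +
        μ * (sq x ^ (m - 1) * τ' x ^ (1 / (m : ℝ)) - sq x ^ (m - 1))) (Ioo 0 1) :=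
    hEs.add (continuousOn_const.mul hK)
  set G : ℝ → ℝ := fun x => (((m : ℝ) + 1) * c x + (τ x * c' x + p' x) / τ' x) * sq x ^ m +
        μ * (sq x ^ (m - 1) * τ' x ^ (1 / (m : ℝ)) - sq x ^ (m - 1)) with hGd
  have hGi : ∀ {u v : ℝ}, α ≤ u → u ≤ v → v ≤ β → IntervalIntegrable G volume u v := by
    intro u v hu huv hv
    refine ContinuousOn.intervalIntegrable ?_
    rw [uIcc_of_le huv]
    exact hG.mono (hsub hu hv)
  have piece : ∀ {u v q : ℝ}, α ≤ u → u ≤ v → v ≤ β →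
      (∀ x ∈ Ioo u v, x ≠ x₀ → q ≤ W x) → q * (v - u) + (Ψ v - Ψ u) ≤ ∫ x in u..v, G x := by
    intro u v q hu huv hv hq
    refine ass_int_ge (x₀ := x₀) (Ψ' := Ψ') huv (hG.mono (hsub hu hv)) (hΨ.mono (hsub hu hv)) ?_ ?_
    · intro x hx hx0
      exact hΨd x (hsub hu hv ⟨hx.1.le, hx.2.le⟩) hx0
    · intro x hx hx0
      have h2 := hid x (hsub hu hv ⟨hx.1.le, hx.2.le⟩) hx0
      have h3 := hq x hx hx0
      simp only [hGd]
      linarith only [h2, h3]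
  have p1 := piece (q := 0) le_rfl hαa (hab.le.trans hbβ)
    (fun x hx hx0 => hW x (hsub le_rfl (hab.le.trans hbβ) ⟨hx.1.le, hx.2.le⟩) hx0)
  have p2 := piece (q := w) hαa hab.le hbβ (fun x hx _ => hw x ⟨hx.1.le, hx.2.le⟩)
  have p3 := piece (q := 0) (hαa.trans hab.le) hbβ le_rfl
    (fun x hx hx0 => hW x (hsub (hαa.trans hab.le) le_rfl ⟨hx.1.le, hx.2.le⟩) hx0)
  have hadd : ∫ x in α..β, G x = (∫ x in α..a, G x) + (∫ x in a..b, G x) + ∫ x in b..β, G x := by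
    rw [intervalIntegral.integral_add_adjacent_intervals (hGi le_rfl hαa (hab.le.trans hbβ))
      (hGi hαa hab.le hbβ), intervalIntegral.integral_add_adjacent_intervals
      (hGi le_rfl (hαa.trans hab.le) hbβ) (hGi (hαa.trans hab.le) hbβ le_rfl)]
  have hi1 : IntervalIntegrable (fun x => (((m : ℝ) + 1) * c x + (τ x * c' x + p' x) / τ' x) *
      sq x ^ m) volume α β := by
    refine ContinuousOn.intervalIntegrable ?_
    rw [uIcc_of_le hαβ]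
    exact hEs.mono (hsub le_rfl le_rfl)
  have hi2 : IntervalIntegrable (fun x => sq x ^ (m - 1) * τ' x ^ (1 / (m : ℝ)) -
      sq x ^ (m - 1)) volume α β := by
    refine ContinuousOn.intervalIntegrable ?_
    rw [uIcc_of_le hαβ]
    exact hK.mono (hsub le_rfl le_rfl)
  have hsplit : ∫ x in α..β, G x =
      (∫ x in α..β, (((m : ℝ) + 1) * c x + (τ x * c' x + p' x) / τ' x) * sq x ^ m) +
      μ * ∫ x in α..β, (sq x ^ (m - 1) * τ' x ^ (1 / (m : ℝ)) - sq x ^ (m - 1)) := by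
    rw [← intervalIntegral.integral_const_mul, ← intervalIntegral.integral_add hi1
      (hi2.const_mul μ)]
  have hcon := mul_le_mul_of_nonneg_left (ass_constraint hm hr hT hN h0 hαβ h1) hμ
  rw [hsplit] at hadd
  linarith only [p1, p2, p3, hadd, hcon]

end

/-- The boundary term at `β`. -/
theorem ass_bdry {t cb pb η P κ R ρ C1 S : ℝ} (ht : t ≤ 1) (hη0 : 0 ≤ η) (hP0 : 0 ≤ P)
    (hηR : η * R = κ) (hρ0 : 0 ≤ ρ) (hρR : ρ ≤ R) (h1 : cb + pb ≤ η) (hC1 : 0 ≤ C1) (hS : 0 ≤ S)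
    (hone : (1 - t) * ρ ≤ C1 * S) (B3 : |C1 * (S * cb)| < κ) :
    (t * (cb + η + P) + pb - P) * ρ ≤ 2 * κ + κ := by
  have h2 : t * (cb + η + P) + pb - P ≤ 2 * η + (1 - t) * |cb| := by
    have h3 : -(1 - t) * cb ≤ (1 - t) * |cb| := by
      have := mul_le_mul_of_nonneg_left (neg_le_abs cb) (by linarith only [ht] : 0 ≤ 1 - t)
      linarith only [this]
    have h4 : t * η ≤ η := mul_le_of_le_one_left hη0 ht
    have h5 : 0 ≤ (1 - t) * P := mul_nonneg (by linarith) hP0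
    have e : t * (cb + η + P) + pb - P = (cb + pb) + -(1 - t) * cb + t * η - (1 - t) * P := by
      ring
    rw [e]
    linarith only [h1, h3, h4, h5]
  have h3 := mul_le_mul_of_nonneg_right h2 hρ0
  have h4 : 2 * η * ρ ≤ 2 * κ := by
    have := mul_le_mul_of_nonneg_left hρR (by positivity : 0 ≤ 2 * η)
    linarith only [hηR, this]
  have h5 : (1 - t) * |cb| * ρ ≤ κ := by
    have h6 := mul_le_mul_of_nonneg_right hone (abs_nonneg cb)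
    have h7 : C1 * S * |cb| = |C1 * (S * cb)| := by
      rw [abs_mul, abs_mul, abs_of_nonneg hC1, abs_of_nonneg hS]
      ring
    rw [h7] at h6
    linarith only [B3, h6]
  linarith only [h3, h4, h5]

theorem ass_small {f : ℝ → ℝ} {l : Filter ℝ} (hf : Tendsto f l (𝓝 0)) {K : ℝ} (hK : 0 < K) :
    ∀ᶠ x in l, |f x| < K := by
  have := (Metric.tendsto_nhds.1 hf) K hK
  filter_upwards [this] with x hx
  rwa [Real.dist_eq, sub_zero] at hx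

/-- The choice of `α`. -/
theorem ass_choose_zero {m : ℕ} (hm1 : 1 ≤ m) {r : ℝ → ℝ} (hr : IsProf r) {τ τ' T : ℝ → ℝ}
    (hT : IsTrans m r τ τ' T) {c p : ℝ → ℝ}
    (hc0 : ∃ C : ℝ, ∀ x ∈ Ioo (0 : ℝ) (1/2), |c x| ≤ C)
    (hp0 : Tendsto p (𝓝[>] 0) (𝓝 0)) {Ψ : ℝ → ℝ} (hΨ0 : Tendsto Ψ (𝓝[>] 0) (𝓝 0))
    (q μ R K : ℝ) {M a1 κ : ℝ} (hM0 : 0 ≤ M) (ha1 : 0 < a1) (hκ0 : 0 < κ) :
    ∃ α : ℝ, 0 < α ∧ α < a1 ∧ |q * Ψ α| < κ ∧
      |q * μ * α| < κ ∧ |(τ α * (c α + M) + p α) * R| < κ ∧ |K * τ α| < κ := by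
  obtain ⟨C0, hC0⟩ := hc0
  have hτ0 := ass_tau_zero hm1 hr hT
  have hx0 : Tendsto (fun x : ℝ => x) (𝓝[>] 0) (𝓝 0) := tendsto_id.mono_left nhdsWithin_le_nhds
  have hI0 : ∀ᶠ x in 𝓝[>] (0 : ℝ), x ∈ Ioo (0 : ℝ) (min a1 (1 / 2)) :=
    Ioo_mem_nhdsGT (lt_min ha1 (by norm_num))
  have h1 : Tendsto (fun x => τ x * (c x + M)) (𝓝[>] 0) (𝓝 0) := by
    have h2 : Tendsto (fun x => τ x * (C0 + M)) (𝓝[>] 0) (𝓝 0) := by
      have := hτ0.mul_const (C0 + M)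
      rwa [zero_mul] at this
    refine squeeze_zero_norm' ?_ h2
    filter_upwards [hI0] with x hx
    have hx2 : x ∈ Ioo (0 : ℝ) (1 / 2) := ⟨hx.1, hx.2.trans_le (min_le_right _ _)⟩
    have hx1 : x ∈ Ioo (0 : ℝ) 1 := ⟨hx.1, hx2.2.trans (by norm_num)⟩
    rw [Real.norm_eq_abs, abs_mul, abs_of_nonneg (hT.mem x hx1).1.le]
    refine mul_le_mul_of_nonneg_left ?_ (hT.mem x hx1).1.le
    refine (abs_add_le _ _).trans ?_
    rw [abs_of_nonneg hM0]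
    linarith only [hC0 x hx2]
  have hB0 : Tendsto (fun x => τ x * (c x + M) + p x) (𝓝[>] 0) (𝓝 0) := by
    have := h1.add hp0
    rwa [add_zero] at this
  have t1 : Tendsto (fun x => q * Ψ x) (𝓝[>] 0) (𝓝 0) := by
    have := hΨ0.const_mul q
    rwa [mul_zero] at this
  have t2 : Tendsto (fun x => q * μ * x) (𝓝[>] 0) (𝓝 0) := by
    have := hx0.const_mul (q * μ)
    rwa [mul_zero] at this
  have t3 : Tendsto (fun x => (τ x * (c x + M) + p x) * R) (𝓝[>] 0) (𝓝 0) := by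
    have := hB0.mul_const R
    rwa [zero_mul] at this
  have t4 : Tendsto (fun x => K * τ x) (𝓝[>] 0) (𝓝 0) := by
    have := hτ0.const_mul K
    rwa [mul_zero] at this
  obtain ⟨α, h1, h2, h3, h4, h5⟩ := (hI0.and ((ass_small t1 hκ0).and ((ass_small t2 hκ0).and
    ((ass_small t3 hκ0).and (ass_small t4 hκ0))))).exists
  exact ⟨α, h1.1, h1.2.trans_le (min_le_left _ _), h2, h3, h4, h5⟩

/-- The choice of `β`. -/
theorem ass_choose_one {m : ℕ} (hm1 : 1 ≤ m) {r : ℝ → ℝ} (hr : IsProf r) {τ τ' T : ℝ → ℝ}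
    (hT : IsTrans m r τ τ' T) {c : ℝ → ℝ}
    (hc1 : Tendsto (fun x => sq x ^ (m + 2) * c x) (𝓝[<] 1) (𝓝 0))
    {Ψ : ℝ → ℝ} (hΨ1 : Tendsto Ψ (𝓝[<] 1) (𝓝 0))
    (q μ C1 K : ℝ) {b1 κ δ1 δ2 : ℝ} (hb1 : b1 < 1) (hκ0 : 0 < κ) (hδ1 : 0 < δ1) (hδ2 : 0 < δ2) :
    ∃ β : ℝ, b1 < β ∧ β < 1 ∧ |q * Ψ β| < κ ∧ |q * μ * (1 - β)| < κ ∧
      |C1 * (sq β ^ (m + 2) * c β)| < κ ∧ |K * (1 - τ β)| < κ ∧
      |1 - τ β| < δ1 ∧ |1 - τ β| < δ2 := by
  have hτ1 := ass_tau_one hm1 hr hT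
  have hx1 : Tendsto (fun x : ℝ => 1 - x) (𝓝[<] 1) (𝓝 0) := by
    have h2 : Tendsto (fun x : ℝ => 1 - x) (𝓝 1) (𝓝 (1 - 1)) :=
      (continuous_const.sub continuous_id).tendsto 1
    rw [sub_self] at h2
    exact h2.mono_left nhdsWithin_le_nhds
  have hI1 : ∀ᶠ x in 𝓝[<] (1 : ℝ), x ∈ Ioo b1 1 := Ioo_mem_nhdsLT hb1
  have t1 : Tendsto (fun x => q * Ψ x) (𝓝[<] 1) (𝓝 0) := by
    have := hΨ1.const_mul q
    rwa [mul_zero] at this
  have t2 : Tendsto (fun x => q * μ * (1 - x)) (𝓝[<] 1) (𝓝 0) := by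
    have := hx1.const_mul (q * μ)
    rwa [mul_zero] at this
  have t3 : Tendsto (fun x => C1 * (sq x ^ (m + 2) * c x)) (𝓝[<] 1) (𝓝 0) := by
    have := hc1.const_mul C1
    rwa [mul_zero] at this
  have t4 : Tendsto (fun x => K * (1 - τ x)) (𝓝[<] 1) (𝓝 0) := by
    have := hτ1.const_mul K
    rwa [mul_zero] at this
  obtain ⟨β, h1, h2, h3, h4, h5, h6, h7⟩ := (hI1.and ((ass_small t1 hκ0).and
    ((ass_small t2 hκ0).and ((ass_small t3 hκ0).and ((ass_small t4 hκ0).and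
    ((ass_small hτ1 hδ1).and (ass_small hτ1 hδ2))))))).exists
  exact ⟨β, h1.1, h1.2, h2, h3, h4, h5, h6, h7⟩

/-- **Certificates.** -/
theorem admGe_of_cert {m : ℕ} (hm : 3 ≤ m) {A : ℝ → ℝ → ℝ} (hA : Kern2 A) {r : ℝ → ℝ}
    (hr : IsProf r) {τ τ' T : ℝ → ℝ} (hT : IsTrans m r τ τ' T)
    (hN : (∫ y in (-1 : ℝ)..1, r y ^ (m - 1)) ^ m * aInt m ^ (m - 1) ≤
      aInt (m - 1) ^ m * (∫ y in (-1 : ℝ)..1, r y ^ m) ^ (m - 1))
    {c c' p p' : ℝ → ℝ}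
    (hc : ∀ x ∈ Ioo (0 : ℝ) 1, HasDerivAt c (c' x) x) (hc' : ContinuousOn c' (Ioo 0 1))
    (hp : ∀ x ∈ Ioo (0 : ℝ) 1, HasDerivAt p (p' x) x) (hp' : ContinuousOn p' (Ioo 0 1))
    (hle : ∀ x ∈ Ioo (0 : ℝ) 1, ∀ b ∈ Icc (-1 : ℝ) 1, c x + p x * b ≤ A (τ x) b)
    (hc0 : ∃ C : ℝ, ∀ x ∈ Ioo (0 : ℝ) (1/2), |c x| ≤ C)
    (hp0 : Tendsto p (𝓝[>] 0) (𝓝 0))
    (hc1 : Tendsto (fun x => sq x ^ (m + 2) * c x) (𝓝[<] 1) (𝓝 0))
    {μ : ℝ} (hμ : 0 ≤ μ) {x₀ : ℝ} {W Ψ Ψ' : ℝ → ℝ}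
    (hΨ : ContinuousOn Ψ (Ioo 0 1)) (hΨd : ∀ x ∈ Ioo (0 : ℝ) 1, x ≠ x₀ → HasDerivAt Ψ (Ψ' x) x)
    (hΨ0 : Tendsto Ψ (𝓝[>] 0) (𝓝 0)) (hΨ1 : Tendsto Ψ (𝓝[<] 1) (𝓝 0))
    (hW : ∀ x ∈ Ioo (0 : ℝ) 1, x ≠ x₀ → 0 ≤ W x)
    (hW1 : ∃ x ∈ Ioo (0 : ℝ) 1, ContinuousAt W x ∧ 0 < W x)
    (hid : ∀ x ∈ Ioo (0 : ℝ) 1, x ≠ x₀ →
      W x + Ψ' x ≤ (((m : ℝ) + 1) * c x + (τ x * c' x + p' x) / τ' x) * sq x ^ m +
        μ * (sq x ^ (m - 1) * τ' x ^ (1 / (m : ℝ)) - sq x ^ (m - 1))) :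
    ∃ v : ℝ, 0 < v ∧ AdmGe m A r v := by
  have hm1 : 1 ≤ m := by omega
  obtain ⟨a1, b1, w1, ha1, hab1, hb1, hw1, hWw⟩ := ass_gain hW1
  obtain ⟨M, hM⟩ := hA.bdd
  have hM0 : 0 ≤ M := (abs_nonneg _).trans (hM 0 ⟨by norm_num, by norm_num⟩ 0
    ⟨by norm_num, by norm_num⟩)
  obtain ⟨C1, hC1, hone⟩ := hT.near_one hm1 hr
  have hZr := ass_Zr_pos (m := m) hr
  have hZm := ass_Zm_pos m
  set Zr := ∫ t in (0 : ℝ)..1, r t ^ m with hZrd
  set Zm := ∫ t in (0 : ℝ)..1, sq t ^ m with hZmd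
  set q := Zr / Zm with hq
  have hq0 : 0 < q := by (clear * - hZr hZm; positivity)
  set R := r 0 ^ m with hR
  have hR0 : 0 < R := pow_pos (hr.pos 0 ⟨by norm_num, by norm_num⟩) m
  set w := q * (w1 * (b1 - a1)) with hwd
  have hw0 : 0 < w := by
    have : 0 < b1 - a1 := by linarith only [hab1]
    (clear * - hZr hZm hw1 hab1; positivity)
  set κ := w / 16 with hκ
  have hκ0 : 0 < κ := by (clear * - hZr hZm hw1 hab1; positivity)
  set η := w / (16 * R) with hη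
  have hη0 : 0 < η := by (clear * - hZr hZm hw1 hab1 hR0; positivity)
  have hηR : η * R = κ := by rw [hη, hκ]; (clear * - hR0 hw0; field_simp)
  obtain ⟨P, hP0, δ1, hδ1, hδ1', hPb⟩ := hA.end_pair hη0
  obtain ⟨δ2, hδ2, hcor⟩ := hA.corner η hη0
  have hm1' : (0 : ℝ) < (m : ℝ) + 1 := by positivity
  obtain ⟨α, hα0, hαa, A1, A2, A3, A4⟩ := ass_choose_zero hm1 hr hT hc0 hp0 hΨ0 q μ R
    (((m : ℝ) + 1) * M * R) hM0 ha1 hκ0
  obtain ⟨β, hβb, hβ1, B1, B2, B3, B4, B5, B6⟩ := ass_choose_one hm1 hr hT hc1 hΨ1 q μ C1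
    (((m : ℝ) + 1) * (η + P) * R) hb1 hκ0 hδ1 hδ2
  -- facts about `α`, `β`
  have hα01 : α ∈ Ioo (0 : ℝ) 1 := ⟨hα0, hαa.trans (hab1.trans hb1)⟩
  have hβ01 : β ∈ Ioo (0 : ℝ) 1 := ⟨(ha1.trans hab1).trans hβb, hβ1⟩
  have hαβ : α < β := hαa.trans (hab1.trans hβb)
  have hτα := hT.mem α hα01
  have hτβ := hT.mem β hβ01
  have hτlt : τ α < τ β := hT.mono hα01 hβ01 hαβ
  have hTα := hT.left α hα01
  have hTβ := hT.left β hβ01
  -- the cut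
  have hTcont : ContinuousOn T (Ioo 0 1) := fun y hy =>
    (hT.Tder y hy).continuousAt.continuousWithinAt
  have hinv : ContinuousOn (fun y => (τ' (T y))⁻¹) (Ioo 0 1) :=
    (hT.cont.comp hTcont fun y hy => hT.Tmem y hy).inv₀ fun y hy => (hT.pos _ (hT.Tmem y hy)).ne'
  have dcy : ∀ y ∈ Ioo (0 : ℝ) 1, HasDerivAt (fun y => c (T y)) (c' (T y) * (τ' (T y))⁻¹) y :=
    fun y hy => (hc _ (hT.Tmem y hy)).comp y (hT.Tder y hy)
  have dpy : ∀ y ∈ Ioo (0 : ℝ) 1, HasDerivAt (fun y => p (T y)) (p' (T y) * (τ' (T y))⁻¹) y :=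
    fun y hy => (hp _ (hT.Tmem y hy)).comp y (hT.Tder y hy)
  have ccy : ContinuousOn (fun y => c' (T y) * (τ' (T y))⁻¹) (Ioo 0 1) :=
    (hc'.comp hTcont fun y hy => hT.Tmem y hy).mul hinv
  have cpy : ContinuousOn (fun y => p' (T y) * (τ' (T y))⁻¹) (Ioo 0 1) :=
    (hp'.comp hTcont fun y hy => hT.Tmem y hy).mul hinv
  have hley : ∀ y ∈ Ioo (0 : ℝ) 1, ∀ b ∈ Icc (-1 : ℝ) 1, c (T y) + p (T y) * b ≤ A y b := by
    intro y hy b hb
    have := hle (T y) (hT.Tmem y hy) b hb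
    rwa [hT.right y hy] at this
  have hPy : ∀ y ∈ Icc (τ β) 1, ∀ b ∈ Icc (-1 : ℝ) 1, -η - P * (1 - b) ≤ A y b := by
    intro y hy b hb
    refine hPb y ⟨?_, hy.2⟩ b hb
    have := (abs_lt.1 B5).2
    linarith only [this, hy.1]
  have hcut := admGe_cut (m := m) hA hr (c := fun y => c (T y))
    (c' := fun y => c' (T y) * (τ' (T y))⁻¹) (p := fun y => p (T y))
    (p' := fun y => p' (T y) * (τ' (T y))⁻¹) hτα.1 hτlt hτβ.2 dcy ccy dpy cpy hley hM0 hM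
    hη0.le hP0 hPy
  refine ⟨_, ?_, hcut⟩
  -- change of variables
  have hcov := hT.integral hm1 hr (F := fun y => ((m : ℝ) + 1) * c (T y) +
    y * (c' (T y) * (τ' (T y))⁻¹) + p' (T y) * (τ' (T y))⁻¹) (by
      refine ((continuousOn_const.mul fun y hy => ?_).add (continuousOn_id.mul ccy)).add cpy
      exact (dcy y hy).continuousAt.continuousWithinAt) hα0 hαβ.le hβ1
  have hcong : ∫ x in α..β, (((m : ℝ) + 1) * c (T (τ x)) +
      τ x * (c' (T (τ x)) * (τ' (T (τ x)))⁻¹) + p' (T (τ x)) * (τ' (T (τ x)))⁻¹) * sq x ^ m =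
      ∫ x in α..β, (((m : ℝ) + 1) * c x + (τ x * c' x + p' x) / τ' x) * sq x ^ m := by
    apply intervalIntegral.integral_congr
    intro x hx
    rw [uIcc_of_le hαβ.le] at hx
    have hx' : x ∈ Ioo (0 : ℝ) 1 := ⟨hα0.trans_le hx.1, hx.2.trans_lt hβ1⟩
    simp only [hT.left x hx']
    rw [div_eq_mul_inv]
    ring
  rw [hcong] at hcov
  have hlow := ass_lower hm hr hT hN hc hc' hp' hμ hΨ hΨd hW hid hab1 hWw hα0 hαa.le hβb.le hβ1
  set J := ∫ x in α..β, (((m : ℝ) + 1) * c x + (τ x * c' x + p' x) / τ' x) * sq x ^ m with hJ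
  set I := ∫ y in τ α..τ β, (((m : ℝ) + 1) * c (T y) + y * (c' (T y) * (τ' (T y))⁻¹) +
    p' (T y) * (τ' (T y))⁻¹) * r y ^ m with hI
  have hIJ : I = q * J := by
    rw [hq, div_mul_eq_mul_div, eq_div_iff hZm.ne', hcov]
    ring
  have hqJ : w + (q * Ψ β - q * Ψ α) - (q * μ * α + q * μ * (1 - β)) ≤ I := by
    rw [hIJ, hwd]
    have := mul_le_mul_of_nonneg_left hlow hq0.le
    linarith only [this]
  -- boundary terms
  have hmα : τ α ∈ Icc (0 : ℝ) 1 := ⟨hτα.1.le, hτα.2.le⟩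
  have hmβ : τ β ∈ Icc (0 : ℝ) 1 := ⟨hτβ.1.le, hτβ.2.le⟩
  have rα0 : 0 ≤ r (τ α) ^ m := pow_nonneg (Alm.prof_nn hr hmα) m
  have rαR : r (τ α) ^ m ≤ R := pow_le_pow_left₀ (Alm.prof_nn hr hmα) (Alm.prof_le_zero hr hmα) m
  have rβ0 : 0 ≤ r (τ β) ^ m := pow_nonneg (Alm.prof_nn hr hmβ) m
  have rβR : r (τ β) ^ m ≤ R := pow_le_pow_left₀ (Alm.prof_nn hr hmβ) (Alm.prof_le_zero hr hmβ) m
  have b0 : -κ ≤ (τ α * (c α + M) + p α) * r (τ α) ^ m := by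
    have h1 : |(τ α * (c α + M) + p α) * r (τ α) ^ m| ≤ |(τ α * (c α + M) + p α) * R| := by
      rw [abs_mul, abs_mul, abs_of_nonneg rα0, abs_of_nonneg hR0.le]
      exact mul_le_mul_of_nonneg_left rαR (abs_nonneg _)
    linarith only [(abs_le.1 (h1.trans A3.le)).1]
  have b1' : (τ β * (c β + η + P) + p β - P) * r (τ β) ^ m ≤ 2 * κ + κ := by
    have h1 : c β + p β ≤ η := by
      have h2 := hle β hβ01 1 ⟨by norm_num, le_rfl⟩
      have h3 := hcor (τ β) ⟨by linarith only [(abs_lt.1 B6).2], hτβ.2.le⟩ 1 ⟨by linarith only [hδ2], le_rfl⟩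
      have := (abs_le.1 h3).2
      linarith only [h2, this]
    exact ass_bdry hτβ.2.le hη0.le hP0 hηR rβ0 rβR h1 hC1.le
      (pow_nonneg (ass_sq_nonneg β) (m + 2)) (hone β hβ01).1 B3
  have e0 : ((m : ℝ) + 1) * M * (∫ y in (0 : ℝ)..τ α, r y ^ m) ≤ κ := by
    have h1 := (ass_short (m := m) hr le_rfl hτα.1.le hτα.2.le).2
    rw [sub_zero] at h1
    have h2 := mul_le_mul_of_nonneg_left h1 (by (clear * - hm hM0; positivity) : 0 ≤ ((m : ℝ) + 1) * M)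
    have h3 := (abs_lt.1 A4).2
    linarith only [h2, h3]
  have e1 : ((m : ℝ) + 1) * (η + P) * (∫ y in τ β..1, r y ^ m) ≤ κ := by
    have h1 := (ass_short (m := m) hr hτβ.1.le hτβ.2.le le_rfl).2
    have h2 := mul_le_mul_of_nonneg_left h1 (by (clear * - hm hZr hZm hw1 hab1 hR0 hP0; positivity) : 0 ≤ ((m : ℝ) + 1) * (η + P))
    have h3 := (abs_lt.1 B4).2
    linarith only [h2, h3]
  have k1 := (abs_lt.1 A1).2
  have k2 := (abs_lt.1 A2).2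
  have k3 := (abs_lt.1 B1).1
  have k4 := (abs_lt.1 B2).2
  simp only [hTα, hTβ]
  have hκw : 16 * κ = w := by rw [hκ]; ring
  linarith only [hκ, hκ0, hqJ, b0, b1', e0, e1, k1, k2, k3, k4]

end Vale.Agent.P237.AllN
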