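import Vale.Agent.P237.AllN.Gauge
import Vale.Agent.P237.ShadowPi

/-!
# P237, all dimensions: the exchangeability theorem for symmetric bodies
-/

open MeasureTheory Metric Set Module

namespace Vale.Agent.P237.AllN

open Exch

variable {V : Type*} [NormedAddCommGroup V] [InnerProductSpace ℝ V] [FiniteDimensional ℝ V]
  [MeasurableSpace V] [BorelSpace V]

section

variable (K : Set V) [hK : Fact (IsSymBody K)]

/-- The dual point of `x` as a vector of `V`. -/
noncomputable def dv (x : sphere (0 : GS K) 1) : V :=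
  (InnerProductSpace.toDual ℝ V).symm ((dg x).comp (toGSL K : V →L[ℝ] GS K))

omit [MeasurableSpace V] [BorelSpace V] in
theorem inner_dv (x : sphere (0 : GS K) 1) (y : V) : inner ℝ y (dv K x) = dg x (toGSL K y) := by
  rw [real_inner_comm]
  unfold dv
  rw [InnerProductSpace.toDual_symm_apply]
  rfl

omit [MeasurableSpace V] [BorelSpace V] in
theorem inner_dv_le (x : sphere (0 : GS K) 1) {y : V} (hy : y ∈ K) : inner ℝ y (dv K x) ≤ 1 := by
  rw [inner_dv]
  have h1 := (dg x).le_opNorm (toGSL K y)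
  have h2 := norm_dg_le x
  have h3 := (norm_toGSL_le_iff K y).2 hy
  rw [Real.norm_eq_abs] at h1
  calc dg x (toGSL K y) ≤ |dg x (toGSL K y)| := le_abs_self _
    _ ≤ ‖dg x‖ * ‖toGSL K y‖ := h1
    _ ≤ 1 * 1 := mul_le_mul h2 h3 (norm_nonneg _) zero_le_one
    _ = 1 := one_mul 1

omit [MeasurableSpace V] [BorelSpace V] in
theorem mem_of_sphere (x : sphere (0 : GS K) 1) : (toGSL K).symm (x : GS K) ∈ K := by
  rw [← norm_toGSL_le_iff K, ContinuousLinearEquiv.apply_symm_apply, norm_eq_of_mem_sphere x]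

omit [MeasurableSpace V] [BorelSpace V] in
theorem inner_dv_self {x : sphere (0 : GS K) 1}
    (hx : DifferentiableAt ℝ (fun y : GS K => ‖y‖) (x : GS K)) :
    inner ℝ ((toGSL K).symm (x : GS K)) (dv K x) = 1 := by
  rw [inner_dv, ContinuousLinearEquiv.apply_symm_apply, dg_self hx]

omit [MeasurableSpace V] [BorelSpace V] in
theorem supp_dv {x : sphere (0 : GS K) 1}
    (hx : DifferentiableAt ℝ (fun y : GS K => ‖y‖) (x : GS K)) : supp K (dv K x) = 1 := by
  unfold supp
  refine IsGreatest.csSup_eq ⟨⟨_, mem_of_sphere K x, inner_dv_self K hx⟩, ?_⟩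
  rintro _ ⟨y, hy, rfl⟩
  exact inner_dv_le K x hy

omit [MeasurableSpace V] [BorelSpace V] in
theorem dv_ne_zero {x : sphere (0 : GS K) 1}
    (hx : DifferentiableAt ℝ (fun y : GS K => ‖y‖) (x : GS K)) : dv K x ≠ 0 := by
  intro h
  have := inner_dv_self K hx
  rw [h, inner_zero_right] at this
  exact zero_ne_one this

/-- The direction of the dual point. -/
noncomputable def du (x : sphere (0 : GS K) 1) : V := ‖dv K x‖⁻¹ • dv K x

omit [MeasurableSpace V] [BorelSpace V] in
theorem norm_du {x : sphere (0 : GS K) 1}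
    (hx : DifferentiableAt ℝ (fun y : GS K => ‖y‖) (x : GS K)) : ‖du K x‖ = 1 := by
  unfold du
  rw [norm_smul, norm_inv, norm_norm, inv_mul_cancel₀ (norm_ne_zero_iff.2 (dv_ne_zero K hx))]

omit [MeasurableSpace V] [BorelSpace V] in
theorem supp_du {x : sphere (0 : GS K) 1}
    (hx : DifferentiableAt ℝ (fun y : GS K => ‖y‖) (x : GS K)) :
    supp K (du K x) = ‖dv K x‖⁻¹ := by
  unfold du
  rw [supp_smul_nonneg (inv_nonneg.2 (norm_nonneg _)), supp_dv K hx, mul_one]

theorem vol_slice_zero {u : V} (hu : ‖u‖ = 1) {y : ℝ} (hy : supp K u < |y|) :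
    vol (slice K u y) = 0 := by
  have h1 : ∀ z, supp K u < z → vol (slice K u z) = 0 := by
    intro z hz
    rw [slice_eq_empty hK.out.compact hu hz]
    simp [vol]
  rcases le_total 0 y with h | h
  · rw [abs_of_nonneg h] at hy
    exact h1 y hy
  · rw [abs_of_nonpos h] at hy
    rw [← slice_vol_even hK.out hu y]
    exact h1 _ hy

/-- The law of `dg x` on the unit ball in terms of the slices orthogonal to `du x`. -/
theorem integral_dg [Nontrivial V] {x : sphere (0 : GS K) 1}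
    (hx : DifferentiableAt ℝ (fun y : GS K => ‖y‖) (x : GS K)) {F : ℝ → ℝ} (hF : Continuous F) :
    ∫ y in ball (0 : GS K) 1, F (dg x y) ∂(gm K) =
      supp K (du K x) * ∫ t in (-1 : ℝ)..1, F t * vol (slice K (du K x) (supp K (du K x) * t)) := by
  set u := du K x with hu
  have hu1 : ‖u‖ = 1 := norm_du K hx
  set h := supp K u with hh
  have hh1 : h = ‖dv K x‖⁻¹ := supp_du K hx
  have hpos : 0 < h := supp_pos hK.out hu1
  have h0 : ∀ y : V, dg x (toGSL K y) = h⁻¹ * inner ℝ y u := by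
    intro y
    rw [← inner_dv, hu, hh1]
    unfold du
    rw [inner_smul_right, inv_inv, ← mul_assoc,
      mul_inv_cancel₀ (norm_ne_zero_iff.2 (dv_ne_zero K hx)), one_mul]
  have e1 : ∫ y in ball (0 : GS K) 1, F (dg x y) ∂(gm K) =
      ∫ y in closedBall (0 : GS K) 1, F (dg x y) ∂(gm K) := by
    apply setIntegral_congr_set
    have : gm K (sphere (0 : GS K) 1) = 0 := Measure.addHaar_sphere _ _ _
    rw [← ball_union_sphere]
    exact (union_ae_eq_left_of_ae_eq_empty (ae_eq_empty.2 this)).symm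
  rw [e1, integral_gm, preimage_closedBall]
  have e2 : ∫ y in K, F (dg x (toGSL K y)) = ∫ y in K, (fun s => F (h⁻¹ * s)) (inner ℝ y u) := by
    refine setIntegral_congr_fun hK.out.compact.measurableSet fun y _ => ?_
    simp only [h0]
  rw [e2, integral_slice hK.out.compact hu1 (fun s => F (h⁻¹ * s)) (by fun_prop)]
  have e3 : ∫ y : ℝ, F (h⁻¹ * y) * vol (slice K u y) =
      ∫ y in (-h)..h, F (h⁻¹ * y) * vol (slice K u y) := by
    rw [intervalIntegral.integral_of_le (by linarith), integral_Ioc_eq_integral_Ioo,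
      ← integral_Icc_eq_integral_Ioo]
    refine (setIntegral_eq_integral_of_forall_compl_eq_zero fun y hy => ?_).symm
    have : h < |y| := by
      by_contra hcon
      exact hy (abs_le.1 (not_lt.1 hcon))
    rw [vol_slice_zero K hu1 this, mul_zero]
  rw [e3]
  have e4 := intervalIntegral.mul_integral_comp_mul_left (a := (-1 : ℝ)) (b := 1)
    (f := fun y => F (h⁻¹ * y) * vol (slice K u y)) h
  rw [mul_neg, mul_one] at e4
  rw [← e4]
  congr 1
  refine intervalIntegral.integral_congr fun t _ => ?_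
  rw [← mul_assoc, inv_mul_cancel₀ hpos.ne', one_mul]

end

/-- Admissible (supporting) pairs of the kernel `A`. -/
structure Adm (A : ℝ → ℝ → ℝ) (c c' p p' : ℝ → ℝ) : Prop where
  hc : ∀ y, HasDerivAt c (c' y) y
  hc' : Continuous c'
  hp : ∀ y, HasDerivAt p (p' y) y
  hp' : Continuous p'
  hsup : ∀ a ∈ Icc (-1 : ℝ) 1, ∀ b ∈ Icc (-1 : ℝ) 1, c a + p a * b ≤ A a b

/-- The functional attached to a direction `u`. -/
noncomputable def JF (K : Set V) (u : V) (c c' p' : ℝ → ℝ) : ℝ :=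
  ∫ t in (-1 : ℝ)..1, ((finrank ℝ V : ℝ) * c t + t * c' t + p' t) *
    vol (slice K u (supp K u * t))

section

variable (K : Set V) [hK : Fact (IsSymBody K)] [Nontrivial V]

omit [MeasurableSpace V] [BorelSpace V] [Nontrivial V] in
theorem finrank_GS : finrank ℝ (GS K) = finrank ℝ V := rfl

omit [FiniteDimensional ℝ V] [MeasurableSpace V] [BorelSpace V] [Nontrivial V] in
theorem adm_cont {A : ℝ → ℝ → ℝ} {c c' p p' : ℝ → ℝ} (h : Adm A c c' p p') :
    Continuous fun t : ℝ => (finrank ℝ V : ℝ) * c t + t * c' t + p' t := by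
  have hcc : Continuous c := continuous_iff_continuousAt.2 fun y => (h.hc y).continuousAt
  have h1 := h.hc'
  have h2 := h.hp'
  fun_prop

theorem integral_adm {x : sphere (0 : GS K) 1}
    (hx : DifferentiableAt ℝ (fun y : GS K => ‖y‖) (x : GS K)) {A : ℝ → ℝ → ℝ}
    {c c' p p' : ℝ → ℝ} (h : Adm A c c' p p') :
    ∫ y in ball (0 : GS K) 1, ((finrank ℝ (GS K) : ℝ) * c (dg x y) + dg x y * c' (dg x y) +
      p' (dg x y)) ∂(gm K) = supp K (du K x) * JF K (du K x) c c' p' := by
  have h1 := integral_dg K hx (adm_cont (V := V) h)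
  rw [finrank_GS]
  exact h1

/-- **Exchangeability theorem for symmetric bodies.** -/
theorem exch_body (hd : 2 ≤ finrank ℝ V) {A : ℝ → ℝ → ℝ}
    (hA : Measurable (Function.uncurry A)) {C : ℝ}
    (hC : ∀ a ∈ Icc (-1 : ℝ) 1, ∀ b ∈ Icc (-1 : ℝ) 1, |A a b| ≤ C)
    (hanti : ∀ a ∈ Icc (-1 : ℝ) 1, ∀ b ∈ Icc (-1 : ℝ) 1, A a b = -A b a) :
    ∃ u : V, ‖u‖ = 1 ∧ ∀ c c' p p' : ℝ → ℝ, Adm A c c' p p' → JF K u c c' p' ≤ 0 := by
  obtain ⟨x, hx, h⟩ := exch (gm K) (by rw [finrank_GS]; exact hd) hA hC hanti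
  refine ⟨du K x, norm_du K hx, fun c c' p p' hadm => ?_⟩
  have h1 := h c c' p p' hadm.hc hadm.hc' hadm.hp hadm.hp' hadm.hsup
  rw [integral_adm K hx hadm] at h1
  have hpos : 0 < supp K (du K x) := supp_pos hK.out (norm_du K hx)
  by_contra hcon
  push Not at hcon
  exact absurd h1 (not_le.2 (mul_pos hpos hcon))

/-- **Exchangeability theorem for symmetric bodies, almost everywhere form.** -/
theorem exch_body_ae (hd : 2 ≤ finrank ℝ V) {A : ℝ → ℝ → ℝ}
    (hA : Measurable (Function.uncurry A)) {C : ℝ}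
    (hC : ∀ a ∈ Icc (-1 : ℝ) 1, ∀ b ∈ Icc (-1 : ℝ) 1, |A a b| ≤ C)
    (hanti : ∀ a ∈ Icc (-1 : ℝ) 1, ∀ b ∈ Icc (-1 : ℝ) 1, A a b = -A b a)
    (h0 : ∀ u : V, ‖u‖ = 1 → ∀ ε : ℝ, 0 < ε →
      ∃ c c' p p' : ℝ → ℝ, Adm A c c' p p' ∧ -ε ≤ JF K u c c' p') :
    ∀ᵐ x : sphere (0 : GS K) 1 ∂(gm K).toSphere,
      DifferentiableAt ℝ (fun y : GS K => ‖y‖) (x : GS K) ∧
      ∀ c c' p p' : ℝ → ℝ, Adm A c c' p p' → JF K (du K x) c c' p' ≤ 0 := by
  have h1 := exch_ae (gm K) hA hC hanti (by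
    filter_upwards [ae_sphere (gm K)] with x hx
    have hpos : 0 < supp K (du K x) := supp_pos hK.out (norm_du K hx)
    refine le_of_forall_pos_le_add fun ε hε => ?_
    obtain ⟨c, c', p, p', hadm, hJ⟩ := h0 (du K x) (norm_du K hx) (ε / supp K (du K x))
      (by positivity)
    have h2 := inner_lower (gm K) (by rw [finrank_GS]; exact hd) hA hC hx hadm.hc hadm.hc'
      hadm.hp hadm.hp' hadm.hsup
    rw [integral_adm K hx hadm] at h2
    have h3 : -ε ≤ supp K (du K x) * JF K (du K x) c c' p' := by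
      have := mul_le_mul_of_nonneg_left hJ hpos.le
      have h4 : supp K (du K x) * -(ε / supp K (du K x)) = -ε := by
        field_simp
      linarith
    linarith)
  filter_upwards [h1, ae_sphere (gm K)] with x hx hxd
  refine ⟨hxd, fun c c' p p' hadm => ?_⟩
  have hpos : 0 < supp K (du K x) := supp_pos hK.out (norm_du K hxd)
  have h2 := inner_lower (gm K) (by rw [finrank_GS]; exact hd) hA hC hxd hadm.hc hadm.hc'
      hadm.hp hadm.hp' hadm.hsup
  rw [integral_adm K hxd hadm, hx] at h2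
  by_contra hcon
  push Not at hcon
  exact absurd h2 (not_le.2 (mul_pos hpos hcon))

end

end Vale.Agent.P237.AllN
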