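import Vale.Agent.P237.AllN.TransDefs
import Vale.Agent.P237.Alm.Prof

set_option linter.all false

/-!
# P237, all dimensions: kernels `φ(b) - φ(a)`
-/

open MeasureTheory Metric Set Module Filter Topology

namespace Vale.Agent.P237.AllN

/-! ### profiles on `[-1,1]` -/

theorem corr_r_bd {r : ℝ → ℝ} (hr : IsProf r) {y : ℝ} (hy : y ∈ Icc (-1 : ℝ) 1) :
    0 ≤ r y ∧ r y ≤ r 0 := by
  rcases le_total 0 y with h | h
  · exact ⟨Alm.prof_nn hr ⟨h, hy.2⟩, Alm.prof_le_zero hr ⟨h, hy.2⟩⟩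
  · have h1 : -y ∈ Icc (0 : ℝ) 1 := ⟨by linarith only [h], by linarith only [hy.1]⟩
    rw [← hr.even y]
    exact ⟨Alm.prof_nn hr h1, Alm.prof_le_zero hr h1⟩

theorem corr_r_ii {r : ℝ → ℝ} (hr : IsProf r) (m : ℕ) :
    IntervalIntegrable (fun y => r y ^ m) volume (-1) 1 := by
  have h1 : IntervalIntegrable (fun y => r y ^ m) volume 0 1 :=
    Alm.prof_pow_ii hr m ⟨le_rfl, zero_le_one⟩ ⟨zero_le_one, le_rfl⟩
  have h2 : IntervalIntegrable (fun y => r y ^ m) volume (-1) 0 := by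
    have h3 := (IntervalIntegrable.iff_comp_neg (f := fun y => r y ^ m) (a := 0) (b := 1)).1 h1
    rw [neg_zero] at h3
    have h4 : (fun y => r (-y) ^ m) = fun y => r y ^ m := by
      funext y
      rw [hr.even]
    rw [h4] at h3
    exact h3.symm
  exact h2.trans h1

theorem corr_cont_ii {r : ℝ → ℝ} (hr : IsProf r) (m : ℕ) {f : ℝ → ℝ} (hf : Continuous f) :
    IntervalIntegrable (fun y => f y * r y ^ m) volume (-1) 1 :=
  (corr_r_ii hr m).continuousOn_mul hf.continuousOn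

theorem AdmGe.add {m : ℕ} {A B : ℝ → ℝ → ℝ} {r : ℝ → ℝ} (hr : IsProf r) {v w : ℝ}
    (hA : AdmGe m A r v) (hB : AdmGe m B r w) : AdmGe m (fun a b => A a b + B a b) r (v + w) := by
  intro ε hε
  obtain ⟨c1, c1', p1, p1', h1, h2⟩ := hA (ε / 2) (by linarith only [hε])
  obtain ⟨c2, c2', p2, p2', h3, h4⟩ := hB (ε / 2) (by linarith only [hε])
  refine ⟨fun y => c1 y + c2 y, fun y => c1' y + c2' y, fun y => p1 y + p2 y,
    fun y => p1' y + p2' y, ⟨fun y => (h1.hc y).add (h3.hc y), h1.hc'.add h3.hc',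
      fun y => (h1.hp y).add (h3.hp y), h1.hp'.add h3.hp', fun a ha b hb => ?_⟩, ?_⟩
  · have e1 := h1.hsup a ha b hb
    have e2 := h3.hsup a ha b hb
    linarith only [e1, e2]
  · have i1 : Continuous c1 := continuous_iff_continuousAt.2 fun y => (h1.hc y).continuousAt
    have i2 : Continuous c2 := continuous_iff_continuousAt.2 fun y => (h3.hc y).continuousAt
    have j1 : Continuous (fun y => ((m : ℝ) + 1) * c1 y + y * c1' y + p1' y) :=
      ((continuous_const.mul i1).add (continuous_id.mul h1.hc')).add h1.hp'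
    have j2 : Continuous (fun y => ((m : ℝ) + 1) * c2 y + y * c2' y + p2' y) :=
      ((continuous_const.mul i2).add (continuous_id.mul h3.hc')).add h3.hp'
    have e : ∀ y, (((m : ℝ) + 1) * (c1 y + c2 y) + y * (c1' y + c2' y) + (p1' y + p2' y)) * r y ^ m
        = (((m : ℝ) + 1) * c1 y + y * c1' y + p1' y) * r y ^ m
          + (((m : ℝ) + 1) * c2 y + y * c2' y + p2' y) * r y ^ m := fun y => by ring
    simp only [e]
    rw [intervalIntegral.integral_add (corr_cont_ii hr m j1) (corr_cont_ii hr m j2)]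
    linarith

/-! ### the contractions `θ_N(y) = y (1 + y^(2N))^(-1/(2N))` of the line into `(-1,1)` -/

/-- weight -/
noncomputable def cw (N : ℕ) (y : ℝ) : ℝ := (1 + y ^ (2 * N)) ^ (-(1 / (2 * (N : ℝ))))

/-- the contraction -/
noncomputable def cth (N : ℕ) (y : ℝ) : ℝ := y * cw N y

/-- its derivative -/
noncomputable def cth' (N : ℕ) (y : ℝ) : ℝ := cw N y / (1 + y ^ (2 * N))

theorem cbase_ge (N : ℕ) (y : ℝ) : 1 ≤ 1 + y ^ (2 * N) := by
  have : 0 ≤ y ^ (2 * N) := by rw [pow_mul]; (clear * -; positivity)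
  linarith only [this]

theorem cw_pos (N : ℕ) (y : ℝ) : 0 < cw N y :=
  Real.rpow_pos_of_pos (by linarith [cbase_ge N y]) _

theorem cw_le (N : ℕ) (y : ℝ) : cw N y ≤ 1 :=
  Real.rpow_le_one_of_one_le_of_nonpos (cbase_ge N y) (by
    have : 0 ≤ 1 / (2 * (N : ℝ)) := by positivity
    linarith)

theorem cw_pow {N : ℕ} (hN : 0 < N) (y : ℝ) : cw N y ^ (2 * N) = (1 + y ^ (2 * N))⁻¹ := by
  have h0 : (0 : ℝ) < 1 + y ^ (2 * N) := by linarith only [cbase_ge N y]
  unfold cw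
  rw [← Real.rpow_natCast, ← Real.rpow_mul h0.le, ← Real.rpow_neg_one]
  congr 1
  push_cast
  have : (N : ℝ) ≠ 0 := by (clear * - hN; positivity)
  field_simp

theorem cth_mem {N : ℕ} (hN : 0 < N) (y : ℝ) : cth N y ∈ Ioo (-1 : ℝ) 1 := by
  have h0 : (0 : ℝ) < 1 + y ^ (2 * N) := by linarith only [cbase_ge N y]
  have h1 : cth N y ^ (2 * N) < 1 := by
    unfold cth
    rw [mul_pow, cw_pow hN, ← div_eq_mul_inv, div_lt_one h0]
    linarith only []
  have h2 : |cth N y| < 1 := by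
    by_contra hcon
    push Not at hcon
    have h3 : 1 ≤ |cth N y| ^ (2 * N) := one_le_pow₀ hcon
    rw [pow_mul, sq_abs, ← pow_mul] at h3
    linarith only [h1, h3]
  exact abs_lt.1 h2

theorem cth'_pos (N : ℕ) (y : ℝ) : 0 < cth' N y :=
  div_pos (cw_pos N y) (by linarith [cbase_ge N y])

theorem cth'_le (N : ℕ) (y : ℝ) : cth' N y ≤ 1 := by
  unfold cth'
  rw [div_le_one (by linarith [cbase_ge N y])]
  exact (cw_le N y).trans (cbase_ge N y)

theorem cw_hasDerivAt (N : ℕ) (y : ℝ) : HasDerivAt (cw N)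
    (((2 * N : ℕ) : ℝ) * y ^ (2 * N - 1) * (-(1 / (2 * (N : ℝ)))) *
      (1 + y ^ (2 * N)) ^ (-(1 / (2 * (N : ℝ))) - 1)) y := by
  have h1 : HasDerivAt (fun y : ℝ => 1 + y ^ (2 * N)) (((2 * N : ℕ) : ℝ) * y ^ (2 * N - 1)) y :=
    (hasDerivAt_pow (2 * N) y).const_add 1
  exact h1.rpow_const (Or.inl (by
    have := cbase_ge N y
    intro h
    linarith))

theorem cth_hasDerivAt {N : ℕ} (hN : 0 < N) (y : ℝ) : HasDerivAt (cth N) (cth' N y) y := by
  have h0 : (0 : ℝ) < 1 + y ^ (2 * N) := by (clear * -; linarith [cbase_ge N y])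
  have h1 := (hasDerivAt_id y).mul (cw_hasDerivAt N y)
  refine h1.congr_deriv ?_
  have hN' : (N : ℝ) ≠ 0 := by positivity
  have e1 : (1 + y ^ (2 * N)) ^ (-(1 / (2 * (N : ℝ))) - 1) = cw N y / (1 + y ^ (2 * N)) := by
    rw [Real.rpow_sub h0, Real.rpow_one]
    rfl
  have e2 : y * y ^ (2 * N - 1) = y ^ (2 * N) := by
    rw [← pow_succ']
    congr 1
    omega
  rw [e1]
  unfold cth'
  simp only [id_eq, one_mul]
  have e3 : y * (((2 * N : ℕ) : ℝ) * y ^ (2 * N - 1) * (-(1 / (2 * (N : ℝ)))) *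
      (cw N y / (1 + y ^ (2 * N)))) = -(y * y ^ (2 * N - 1)) * (cw N y / (1 + y ^ (2 * N))) := by
    push_cast
    field_simp
  rw [e3, e2]
  field_simp
  ring

theorem cw_cont (N : ℕ) : Continuous (cw N) :=
  continuous_iff_continuousAt.2 fun y => (cw_hasDerivAt N y).continuousAt

theorem cth_cont (N : ℕ) : Continuous (cth N) := continuous_id.mul (cw_cont N)

theorem cth'_cont (N : ℕ) : Continuous (cth' N) := by
  unfold cth'
  exact (cw_cont N).div (by (clear * -; fun_prop)) fun y => by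
    have := cbase_ge N y
    intro h
    linarith

theorem cth_sq_le (N : ℕ) (y : ℝ) : cth N y ^ 2 ≤ y * cth N y := by
  unfold cth
  have h1 := cw_pos N y
  have h2 := cw_le N y
  have h3 : y * (y * cw N y) - (y * cw N y) ^ 2 = y ^ 2 * (cw N y * (1 - cw N y)) := by ring
  have h4 : 0 ≤ y ^ 2 * (cw N y * (1 - cw N y)) :=
    mul_nonneg (sq_nonneg _) (mul_nonneg h1.le (by linarith))
  linarith only [h4]

theorem cw_tendsto {y : ℝ} (hy : y ∈ Ioo (-1 : ℝ) 1) :
    Tendsto (fun N : ℕ => cw N y) atTop (𝓝 1) := by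
  have h1 : Tendsto (fun N : ℕ => (2 : ℝ) ^ (-(1 / (2 * (N : ℝ))))) atTop (𝓝 1) := by
    have h2 : Tendsto (fun N : ℕ => -(1 / (2 * (N : ℝ)))) atTop (𝓝 (-0)) := by
      refine Tendsto.neg ?_
      have h3 : Tendsto (fun N : ℕ => (2 * (N : ℝ))) atTop atTop :=
        tendsto_natCast_atTop_atTop.const_mul_atTop (by norm_num)
      have h4 := h3.inv_tendsto_atTop
      refine h4.congr fun N => ?_
      rw [Pi.inv_apply, one_div]
    rw [neg_zero] at h2
    have h4 := (Real.continuousAt_const_rpow (a := 2) (b := 0) (by norm_num)).tendsto.comp h2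
    rw [Real.rpow_zero] at h4
    exact h4
  refine tendsto_of_tendsto_of_tendsto_of_le_of_le h1 tendsto_const_nhds (fun N => ?_)
    fun N => cw_le N y
  have h0 : (0 : ℝ) < 1 + y ^ (2 * N) := by linarith [cbase_ge N y]
  have h5 : 1 + y ^ (2 * N) ≤ 2 := by
    have : y ^ (2 * N) ≤ 1 := by
      rw [pow_mul]
      exact pow_le_one₀ (sq_nonneg y) (by nlinarith only [hy.1, hy.2])
    linarith only [this]
  exact Real.rpow_le_rpow_of_nonpos h0 h5 (by
    have : 0 ≤ 1 / (2 * (N : ℝ)) := by (clear * -; positivity)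
    linarith only [this])

theorem cth_tendsto {y : ℝ} (hy : y ∈ Ioo (-1 : ℝ) 1) :
    Tendsto (fun N : ℕ => cth N y) atTop (𝓝 y) := by
  have := (cw_tendsto hy).const_mul y
  rw [mul_one] at this
  exact this

theorem cth'_tendsto {y : ℝ} (hy : y ∈ Ioo (-1 : ℝ) 1) :
    Tendsto (fun N : ℕ => cth' N y) atTop (𝓝 1) := by
  have h1 : Tendsto (fun N : ℕ => 1 + y ^ (2 * N)) atTop (𝓝 (1 + 0)) := by
    refine Tendsto.const_add 1 ?_
    have h2 : Tendsto (fun N : ℕ => (y ^ 2) ^ N) atTop (𝓝 0) :=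
      tendsto_pow_atTop_nhds_zero_of_lt_one (sq_nonneg y) (by nlinarith only [hy.1, hy.2])
    simpa only [← pow_mul] using h2
  have h3 := (cw_tendsto hy).div h1 (by norm_num)
  rw [add_zero, div_one] at h3
  exact h3

/-! ### the derivative of `k` -/

section

variable {m : ℕ} {k h : ℝ → ℝ}

/-- `k'` on `(-1,1)` -/
noncomputable def ckd (m : ℕ) (k h : ℝ → ℝ) (z : ℝ) : ℝ :=
  (h z + ((m : ℝ) + 2) * z * k z) / (1 - z ^ 2)

theorem one_sub_sq_pos {z : ℝ} (hz : z ∈ Ioo (-1 : ℝ) 1) : 0 < 1 - z ^ 2 := by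
  nlinarith only [hz.1, hz.2]

theorem sq_hasDerivAt {z : ℝ} (hz : z ∈ Ioo (-1 : ℝ) 1) : HasDerivAt sq (-z / sq z) z := by
  have h1 : HasDerivAt (fun x : ℝ => 1 - x ^ 2) (-(2 * z)) z := by
    have := (hasDerivAt_pow 2 z).const_sub 1
    simpa only [Nat.cast_ofNat, Nat.add_one_sub_one, pow_one] using this
  have h2 := h1.sqrt (one_sub_sq_pos hz).ne'
  refine h2.congr_deriv ?_
  unfold sq
  have h3 : 0 < Real.sqrt (1 - z ^ 2) := Real.sqrt_pos.2 (one_sub_sq_pos hz)
  (clear * - h3; field_simp)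

theorem ckd_hasDerivAt
    (hode : ∀ y ∈ Ioo (-1 : ℝ) 1, HasDerivAt (fun y => sq y ^ (m + 2) * k y) (sq y ^ m * h y) y)
    {z : ℝ} (hz : z ∈ Ioo (-1 : ℝ) 1) : HasDerivAt k (ckd m k h z) z := by
  have hs : ∀ x ∈ Ioo (-1 : ℝ) 1, 0 < sq x := fun x hx => Real.sqrt_pos.2 (one_sub_sq_pos hx)
  have hs2 : sq z ^ 2 = 1 - z ^ 2 := Real.sq_sqrt (one_sub_sq_pos hz).le
  have h1 : HasDerivAt (fun y => sq y ^ (m + 2)) (((m + 2 : ℕ) : ℝ) * sq z ^ (m + 1) * (-z / sq z)) z :=
    (sq_hasDerivAt hz).pow (m + 2)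
  have h2 := (hode z hz).div h1 (pow_pos (hs z hz) (m + 2)).ne'
  have h3 : k =ᶠ[𝓝 z] fun y => (sq y ^ (m + 2) * k y) / sq y ^ (m + 2) := by
    filter_upwards [isOpen_Ioo.mem_nhds hz] with x hx
    rw [mul_div_cancel_left₀ _ (pow_pos (hs x hx) (m + 2)).ne']
  refine (h2.congr_of_eventuallyEq h3).congr_deriv ?_
  unfold ckd
  rw [← hs2]
  have h4 := (hs z hz).ne'
  push_cast
  field_simp
  ring

theorem ckd_contOn (hk : Continuous k) (hh : ContinuousOn h (Icc (-1) 1)) :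
    ContinuousOn (ckd m k h) (Ioo (-1) 1) := by
  unfold ckd
  refine ContinuousOn.div ((hh.mono Ioo_subset_Icc_self).add
    ((continuous_const.mul continuous_id).mul hk).continuousOn) (by fun_prop) fun z hz =>
      (one_sub_sq_pos hz).ne'

end

/-- tangent line -/
theorem corr_tangent {φ k : ℝ → ℝ} (hφ : ∀ y, HasDerivAt φ (k y) y)
    (hconv : ConvexOn ℝ (Icc (-1) 1) φ) {z b : ℝ} (hz : z ∈ Icc (-1 : ℝ) 1)
    (hb : b ∈ Icc (-1 : ℝ) 1) : φ z + k z * (b - z) ≤ φ b := by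
  rcases lt_trichotomy z b with h | h | h
  · have h1 := hconv.le_slope_of_hasDerivAt hz hb h (hφ z)
    rw [slope_def_field, le_div_iff₀ (by linarith only [h])] at h1
    linarith only [h1]
  · rw [h]; simp
  · have h1 := hconv.slope_le_of_hasDerivAt hb hz h (hφ z)
    rw [slope_def_field, div_le_iff₀ (by linarith only [h])] at h1
    linarith only [h1]

/-- `φ` convex, even, `C¹` on `[-1,1]`: value of the kernel `φ(b) - φ(a)` with test point `y`.
`h = (1-y²) φ'' - (m+2) y φ'`. -/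
theorem admGe_phi {m : ℕ} (hm : 1 ≤ m) {φ k h : ℝ → ℝ} (hφ : ∀ y, HasDerivAt φ (k y) y)
    (hk : Continuous k) (hconv : ConvexOn ℝ (Icc (-1) 1) φ) (heven : ∀ y, φ (-y) = φ y)
    (hh : ContinuousOn h (Icc (-1) 1))
    (hode : ∀ y ∈ Ioo (-1 : ℝ) 1, HasDerivAt (fun y => sq y ^ (m + 2) * k y) (sq y ^ m * h y) y)
    {r : ℝ → ℝ} (hr : IsProf r) :
    AdmGe m (fun a b => φ b - φ a) r (∫ y in (-1 : ℝ)..1, h y * r y ^ m) := by
  have hkd : ∀ z ∈ Ioo (-1 : ℝ) 1, HasDerivAt k (ckd m k h z) z := fun z hz =>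
    ckd_hasDerivAt hode hz
  have hkc : ContinuousOn (ckd m k h) (Ioo (-1) 1) := ckd_contOn hk hh
  have hφc : Continuous φ := continuous_iff_continuousAt.2 fun y => (hφ y).continuousAt
  -- the pairs
  obtain ⟨c, hc⟩ : ∃ c : ℕ → ℝ → ℝ, ∀ N y, c N y = φ (cth N y) - cth N y * k (cth N y) - φ y :=
    ⟨fun N y => φ (cth N y) - cth N y * k (cth N y) - φ y, fun _ _ => rfl⟩
  obtain ⟨c', hc'⟩ : ∃ c' : ℕ → ℝ → ℝ, ∀ N y, c' N y =
      -(cth N y * cth' N y * ckd m k h (cth N y)) - k y :=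
    ⟨fun N y => -(cth N y * cth' N y * ckd m k h (cth N y)) - k y, fun _ _ => rfl⟩
  obtain ⟨p', hp'⟩ : ∃ p' : ℕ → ℝ → ℝ, ∀ N y, p' N y = ckd m k h (cth N y) * cth' N y :=
    ⟨fun N y => ckd m k h (cth N y) * cth' N y, fun _ _ => rfl⟩
  have hkcomp : ∀ N : ℕ, 0 < N → Continuous (fun y => ckd m k h (cth N y)) := fun N hN =>
    hkc.comp_continuous (cth_cont N) fun y => cth_mem hN y
  have hc'c : ∀ N : ℕ, 0 < N → Continuous (c' N) := by
    intro N hN
    have : c' N = fun y => -(cth N y * cth' N y * ckd m k h (cth N y)) - k y := funext (hc' N)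
    rw [this]
    exact (((cth_cont N).mul (cth'_cont N)).mul (hkcomp N hN)).neg.sub hk
  have hp'c : ∀ N : ℕ, 0 < N → Continuous (p' N) := by
    intro N hN
    have : p' N = fun y => ckd m k h (cth N y) * cth' N y := funext (hp' N)
    rw [this]
    exact (hkcomp N hN).mul (cth'_cont N)
  have hcc : ∀ N : ℕ, Continuous (c N) := by
    intro N
    have : c N = fun y => φ (cth N y) - cth N y * k (cth N y) - φ y := funext (hc N)
    rw [this]
    exact ((hφc.comp (cth_cont N)).sub ((cth_cont N).mul (hk.comp (cth_cont N)))).sub hφc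
  have hadm : ∀ N : ℕ, 0 < N →
      Adm (fun a b => φ b - φ a) (c N) (c' N) (fun y => k (cth N y)) (p' N) := by
    intro N hN
    refine ⟨fun y => ?_, hc'c N hN, fun y => ?_, hp'c N hN, fun a ha b hb => ?_⟩
    · have e : c N = fun y => φ (cth N y) - cth N y * k (cth N y) - φ y := funext (hc N)
      have h1 := (hφ (cth N y)).comp y (cth_hasDerivAt hN y)
      have h2 := (hkd (cth N y) (cth_mem hN y)).comp y (cth_hasDerivAt hN y)
      have h3 := (h1.sub ((cth_hasDerivAt hN y).mul h2)).sub (hφ y)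
      rw [e, hc']
      refine h3.congr_deriv ?_
      simp only [Function.comp]
      ring
    · rw [hp']
      exact (hkd (cth N y) (cth_mem hN y)).comp y (cth_hasDerivAt hN y)
    · have h1 := corr_tangent hφ hconv (Ioo_subset_Icc_self (cth_mem hN a)) hb
      rw [hc]
      linarith only [h1]
  -- bounds
  obtain ⟨B1, hB1⟩ := isCompact_Icc.exists_bound_of_continuousOn (s := Icc (-1 : ℝ) 1)
    (f := φ) hφc.continuousOn
  obtain ⟨B2, hB2⟩ := isCompact_Icc.exists_bound_of_continuousOn (s := Icc (-1 : ℝ) 1)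
    (f := k) hk.continuousOn
  obtain ⟨B3, hB3⟩ := isCompact_Icc.exists_bound_of_continuousOn (s := Icc (-1 : ℝ) 1)
    (f := h) hh
  have hB10 : 0 ≤ B1 := (norm_nonneg _).trans (hB1 0 ⟨by norm_num, by norm_num⟩)
  have hB20 : 0 ≤ B2 := (norm_nonneg _).trans (hB2 0 ⟨by norm_num, by norm_num⟩)
  have hB30 : 0 ≤ B3 := (norm_nonneg _).trans (hB3 0 ⟨by norm_num, by norm_num⟩)
  simp only [Real.norm_eq_abs] at hB1 hB2 hB3
  have hm0 : (0 : ℝ) ≤ m := Nat.cast_nonneg m
  have habs1 : ∀ z ∈ Icc (-1 : ℝ) 1, |z * k z| ≤ B2 := by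
    intro z hz
    rw [abs_mul]
    calc |z| * |k z| ≤ 1 * B2 := mul_le_mul (abs_le.2 ⟨by linarith only [hz.1], hz.2⟩) (hB2 z hz)
          (abs_nonneg _) zero_le_one
      _ = B2 := one_mul _
  have hkey : ∀ N : ℕ, 0 < N → ∀ y ∈ Icc (-1 : ℝ) 1,
      |ckd m k h (cth N y) * cth' N y * (1 - y * cth N y)| ≤ B3 + (m + 2) * B2 := by
    intro N hN y hy
    have hz := cth_mem hN y
    have h1 := one_sub_sq_pos hz
    have h2 := cth_sq_le N y
    have h3 := cth'_pos N y
    have h4 := cth'_le N y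
    have h5 : 0 ≤ 1 - y * cth N y := by
      have : |y * cth N y| ≤ 1 := by
        rw [abs_mul]
        exact mul_le_one₀ (abs_le.2 hy) (abs_nonneg _) (abs_le.2 ⟨hz.1.le, hz.2.le⟩)
      linarith only [(abs_le.1 this).2]
    have h6 : cth' N y * (1 - y * cth N y) ≤ 1 - cth N y ^ 2 := by
      calc cth' N y * (1 - y * cth N y) ≤ 1 * (1 - y * cth N y) :=
            mul_le_mul_of_nonneg_right h4 h5
        _ ≤ 1 - cth N y ^ 2 := by linarith only [h2]
    have h7 : |h (cth N y) + ((m : ℝ) + 2) * cth N y * k (cth N y)| ≤ B3 + (m + 2) * B2 := by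
      refine (abs_add_le _ _).trans (add_le_add (hB3 _ (Ioo_subset_Icc_self hz)) ?_)
      rw [mul_assoc, abs_mul, abs_of_nonneg (by linarith only [] : (0 : ℝ) ≤ (m : ℝ) + 2)]
      exact mul_le_mul_of_nonneg_left (habs1 _ (Ioo_subset_Icc_self hz)) (by linarith only [])
    have h8 : ckd m k h (cth N y) * cth' N y * (1 - y * cth N y) =
        (h (cth N y) + ((m : ℝ) + 2) * cth N y * k (cth N y)) *
          (cth' N y * (1 - y * cth N y) / (1 - cth N y ^ 2)) := by
      unfold ckd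
      (clear * - h3 h1; field_simp)
    rw [h8, abs_mul, abs_of_nonneg (div_nonneg (mul_nonneg h3.le h5) h1.le)]
    calc |h (cth N y) + ((m : ℝ) + 2) * cth N y * k (cth N y)| *
          (cth' N y * (1 - y * cth N y) / (1 - cth N y ^ 2)) ≤ (B3 + (m + 2) * B2) * 1 :=
          mul_le_mul h7 ((div_le_one h1).2 h6) (div_nonneg (mul_nonneg h3.le h5) h1.le)
            (by (clear * - hB30 hm hB20; positivity))
      _ = B3 + (m + 2) * B2 := mul_one _
  obtain ⟨f, hf⟩ : ∃ f : ℕ → ℝ → ℝ, ∀ N y, f N y = ((m : ℝ) + 1) * c N y + y * c' N y + p' N y :=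
    ⟨fun N y => ((m : ℝ) + 1) * c N y + y * c' N y + p' N y, fun _ _ => rfl⟩
  have hfc : ∀ N : ℕ, 0 < N → Continuous (f N) := by
    intro N hN
    have : f N = fun y => ((m : ℝ) + 1) * c N y + y * c' N y + p' N y := funext (hf N)
    rw [this]
    exact ((continuous_const.mul (hcc N)).add (continuous_id.mul (hc'c N hN))).add (hp'c N hN)
  obtain ⟨C, hC⟩ : ∃ C : ℝ, C = ((m : ℝ) + 1) * (B1 + B2 + B1) + B2 + (B3 + (m + 2) * B2) :=
    ⟨_, rfl⟩
  have hfb : ∀ N : ℕ, 0 < N → ∀ y ∈ Icc (-1 : ℝ) 1, |f N y| ≤ C := by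
    intro N hN y hy
    have hz := Ioo_subset_Icc_self (cth_mem hN y)
    have e : f N y = ((m : ℝ) + 1) * (φ (cth N y) - cth N y * k (cth N y) - φ y) - y * k y
        + ckd m k h (cth N y) * cth' N y * (1 - y * cth N y) := by
      rw [hf, hc, hc', hp']; ring
    rw [e, hC]
    refine (abs_add_le _ _).trans (add_le_add ?_ (hkey N hN y hy))
    refine (abs_sub _ _).trans (add_le_add ?_ (habs1 y hy))
    rw [abs_mul, abs_of_nonneg (by linarith only [] : (0 : ℝ) ≤ (m : ℝ) + 1)]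
    refine mul_le_mul_of_nonneg_left ?_ (by linarith only [])
    refine (abs_sub _ _).trans (add_le_add ?_ (hB1 y hy))
    exact (abs_sub _ _).trans (add_le_add (hB1 _ hz) (habs1 _ hz))
  have hft : ∀ y ∈ Ioo (-1 : ℝ) 1, Tendsto (fun N => f N y) atTop (𝓝 (h y)) := by
    intro y hy
    have t1 := cth_tendsto hy
    have t2 := cth'_tendsto hy
    have t3 : Tendsto (fun N => ckd m k h (cth N y)) atTop (𝓝 (ckd m k h y)) :=
      ((hkc.continuousAt (isOpen_Ioo.mem_nhds hy)).tendsto).comp t1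
    have t4 : Tendsto (fun N => φ (cth N y)) atTop (𝓝 (φ y)) := (hφc.tendsto y).comp t1
    have t5 : Tendsto (fun N => k (cth N y)) atTop (𝓝 (k y)) := (hk.tendsto y).comp t1
    have t6 := ((((t4.sub (t1.mul t5)).sub_const (φ y)).const_mul ((m : ℝ) + 1)).add
      ((((t1.mul t2).mul t3).neg.sub_const (k y)).const_mul y)).add (t3.mul t2)
    have e : (((m : ℝ) + 1) * (φ y - y * k y - φ y) + y * (-(y * 1 * ckd m k h y) - k y)
        + ckd m k h y * 1) = h y := by
      have h1 := (one_sub_sq_pos hy).ne'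
      have h2 : ckd m k h y * (1 - y ^ 2) = h y + ((m : ℝ) + 2) * y * k y := by
        unfold ckd
        rw [div_mul_cancel₀ _ h1]
      linear_combination h2
    rw [e] at t6
    refine t6.congr fun N => ?_
    rw [hf, hc, hc', hp']
  -- convergence of the integrals
  have hlim : Tendsto (fun N => ∫ y in (-1 : ℝ)..1, f N y * r y ^ m) atTop
      (𝓝 (∫ y in (-1 : ℝ)..1, h y * r y ^ m)) := by
    refine intervalIntegral.tendsto_integral_filter_of_dominated_convergence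
      (fun _ => C * r 0 ^ m) ?_ ?_ (by simp) ?_
    · filter_upwards [eventually_gt_atTop 0] with N hN
      have := (corr_cont_ii hr m (hfc N hN)).def'
      exact this.aestronglyMeasurable
    · filter_upwards [eventually_gt_atTop 0] with N hN
      refine Eventually.of_forall fun y hy => ?_
      rw [uIoc_of_le (by norm_num)] at hy
      have hy' : y ∈ Icc (-1 : ℝ) 1 := ⟨hy.1.le, hy.2⟩
      obtain ⟨h1, h2⟩ := corr_r_bd hr hy'
      rw [Real.norm_eq_abs, abs_mul, abs_of_nonneg (pow_nonneg h1 m)]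
      exact mul_le_mul (hfb N hN y hy') (pow_le_pow_left₀ h1 h2 m) (pow_nonneg h1 m)
        ((abs_nonneg _).trans (hfb N hN y hy'))
    · have h1 : ∀ᵐ y : ℝ, y ≠ 1 := by
        rw [ae_iff]
        simp
      filter_upwards [h1] with y hy1 hy
      rw [uIoc_of_le (by norm_num)] at hy
      exact (hft y ⟨hy.1, lt_of_le_of_ne hy.2 hy1⟩).mul_const _
  intro ε hε
  have h1 := hlim.eventually (lt_mem_nhds (show (∫ y in (-1 : ℝ)..1, h y * r y ^ m) - ε <
    ∫ y in (-1 : ℝ)..1, h y * r y ^ m by linarith only [hε]))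
  obtain ⟨N, hN1, hN2⟩ := (h1.and (eventually_gt_atTop 0)).exists
  refine ⟨c N, c' N, fun y => k (cth N y), p' N, hadm N hN2, ?_⟩
  simp only [← hf]
  exact hN1.le

end Vale.Agent.P237.AllN
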