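import Vale.Agent.P237.AllN.TransDefs
import Vale.Agent.P237.AllN.CorrN

/-!
# P237, all dimensions: the correction kernel `φ(b) - φ(a)` of the f-chart certificate

`h = g0 - ḡ`, `g0 = s/(1+s)`, `k = φ'`, `(s^(m+2) k)' = s^m h`.
-/

open MeasureTheory Metric Set Module Filter Topology

namespace Vale.Agent.P237.AllN

/-- `s/(1+s)` -/
noncomputable def bg (y : ℝ) : ℝ := sq y / (1 + sq y)

/-- mean of `bg` for the ball -/
noncomputable def bgm (m : ℕ) : ℝ :=
  (∫ t in (0 : ℝ)..1, sq t ^ m * bg t) / ∫ t in (0 : ℝ)..1, sq t ^ m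

/-- primitive of `s^m (bg - ḡ)` -/
noncomputable def bN (m : ℕ) (y : ℝ) : ℝ := ∫ t in (0 : ℝ)..y, sq t ^ m * (bg t - bgm m)

/-- derivative of the correction -/
noncomputable def bk (m : ℕ) (y : ℝ) : ℝ := bN m y / sq y ^ (m + 2)

/-- the correction -/
noncomputable def bφ (m : ℕ) (y : ℝ) : ℝ := ∫ t in (0 : ℝ)..y, bk m t

theorem br_sq_cont : Continuous sq := by
  unfold sq
  fun_prop

theorem br_sq_nonneg (x : ℝ) : 0 ≤ sq x := Real.sqrt_nonneg _

theorem br_sq_even (x : ℝ) : sq (-x) = sq x := by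
  unfold sq
  rw [neg_sq]

theorem br_sq_pos {x : ℝ} (hx : x ∈ Ioo (-1 : ℝ) 1) : 0 < sq x := by
  unfold sq
  apply Real.sqrt_pos.2
  nlinarith only [hx.1, hx.2]

theorem br_sq_le_one (x : ℝ) : sq x ≤ 1 := by
  unfold sq
  rw [Real.sqrt_le_one]
  nlinarith only []

theorem br_sq_sq {x : ℝ} (hx : x ∈ Icc (-1 : ℝ) 1) : sq x ^ 2 = 1 - x ^ 2 := by
  unfold sq
  rw [Real.sq_sqrt]
  nlinarith [hx.1, hx.2]

theorem br_sq_one : sq 1 = 0 := by
  unfold sq
  norm_num

theorem bg_cont : Continuous bg := by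
  unfold bg
  exact br_sq_cont.div (continuous_const.add br_sq_cont) fun x => by
    have := br_sq_nonneg x
    positivity

theorem bg_nonneg (x : ℝ) : 0 ≤ bg x := by
  have := br_sq_nonneg x
  unfold bg
  positivity

theorem bg_le_half (x : ℝ) : bg x ≤ 1 / 2 := by
  have h0 := br_sq_nonneg x
  have h1 := br_sq_le_one x
  unfold bg
  rw [div_le_div_iff₀ (by linarith) (by norm_num)]
  linarith only [h1]

theorem bg_even (x : ℝ) : bg (-x) = bg x := by
  unfold bg
  rw [br_sq_even]

theorem br_Z_pos (m : ℕ) : 0 < ∫ t in (0 : ℝ)..1, sq t ^ m := by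
  apply intervalIntegral.intervalIntegral_pos_of_pos_on
  · exact (br_sq_cont.pow m).intervalIntegrable _ _
  · intro t ht
    exact pow_pos (br_sq_pos ⟨by linarith only [ht.1], ht.2⟩) m
  · exact zero_lt_one

theorem bgm_le_half (m : ℕ) : bgm m ≤ 1 / 2 := by
  unfold bgm
  rw [div_le_iff₀ (br_Z_pos m), ← intervalIntegral.integral_const_mul]
  apply intervalIntegral.integral_mono_on zero_le_one
  · exact ((br_sq_cont.pow m).mul bg_cont).intervalIntegrable _ _
  · exact (continuous_const.mul (br_sq_cont.pow m)).intervalIntegrable _ _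
  · intro t _
    have h1 := bg_le_half t
    have h2 := pow_nonneg (br_sq_nonneg t) m
    nlinarith only [h1, h2]

theorem bgm_nonneg (m : ℕ) : 0 ≤ bgm m := by
  unfold bgm
  apply div_nonneg _ (br_Z_pos m).le
  apply intervalIntegral.integral_nonneg zero_le_one
  intro t _
  exact mul_nonneg (pow_nonneg (br_sq_nonneg t) m) (bg_nonneg t)

theorem bN_cont_int (m : ℕ) : Continuous fun t => sq t ^ m * (bg t - bgm m) :=
  (br_sq_cont.pow m).mul (bg_cont.sub continuous_const)

theorem bN_hasDerivAt (m : ℕ) (y : ℝ) :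
    HasDerivAt (bN m) (sq y ^ m * (bg y - bgm m)) y :=
  ((bN_cont_int m).integral_hasStrictDerivAt 0 y).hasDerivAt

theorem bN_cont (m : ℕ) : Continuous (bN m) :=
  continuous_iff_continuousAt.2 fun y => (bN_hasDerivAt m y).continuousAt

theorem bN_zero (m : ℕ) : bN m 0 = 0 := by simp [bN]

theorem bN_one (m : ℕ) : bN m 1 = 0 := by
  unfold bN
  have h : ∀ t : ℝ, sq t ^ m * (bg t - bgm m) = sq t ^ m * bg t - bgm m * sq t ^ m := fun t => by
    ring
  simp only [h]
  have i1 : IntervalIntegrable (fun t => sq t ^ m * bg t) volume 0 1 :=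
    ((br_sq_cont.pow m).mul bg_cont).intervalIntegrable _ _
  have i2 : IntervalIntegrable (fun t => bgm m * sq t ^ m) volume 0 1 :=
    (continuous_const.mul (br_sq_cont.pow m)).intervalIntegrable _ _
  rw [intervalIntegral.integral_sub i1 i2, intervalIntegral.integral_const_mul]
  unfold bgm
  rw [div_mul_cancel₀ _ (br_Z_pos m).ne', sub_self]

theorem bN_odd (m : ℕ) (y : ℝ) : bN m (-y) = -bN m y := by
  unfold bN
  have h := intervalIntegral.integral_comp_neg (a := 0) (b := y)
    (fun t => sq t ^ m * (bg t - bgm m))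
  simp only [br_sq_even, bg_even, neg_zero] at h
  rw [intervalIntegral.integral_symm, ← h]

theorem br_sq_hasDerivAt {y : ℝ} (hy : y ∈ Ioo (-1 : ℝ) 1) : HasDerivAt sq (-y / sq y) y :=
  sq_hasDerivAt hy

theorem bg_hasDerivAt {y : ℝ} (hy : y ∈ Ioo (-1 : ℝ) 1) :
    HasDerivAt bg (-y / (sq y * (1 + sq y) ^ 2)) y := by
  have hs := br_sq_pos hy
  have h := br_sq_hasDerivAt hy
  refine (h.div (h.const_add 1) (by positivity)).congr_deriv ?_
  field_simp
  ring

theorem bk_hasDerivAt (m : ℕ) {y : ℝ} (hy : y ∈ Ioo (-1 : ℝ) 1) :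
    HasDerivAt (bk m) (((bg y - bgm m) + ((m : ℝ) + 2) * y * bk m y) / sq y ^ 2) y := by
  have hs := br_sq_pos hy
  have h := (bN_hasDerivAt m y).div ((br_sq_hasDerivAt hy).pow (m + 2)) (pow_pos hs _).ne'
  refine h.congr_deriv ?_
  unfold bk
  simp only [Pi.pow_apply]
  push_cast
  field_simp
  ring

/-- the auxiliary function is nonnegative -/
theorem bF_nonneg (m : ℕ) {y : ℝ} (hy : y ∈ Ioo (0 : ℝ) 1) :
    0 ≤ bN m y + (bg y - bgm m) * sq y ^ (m + 2) / (((m : ℝ) + 2) * y) := by
  have hm : (0 : ℝ) < (m : ℝ) + 2 := by positivity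
  set F : ℝ → ℝ := fun y => bN m y + (bg y - bgm m) * sq y ^ (m + 2) / (((m : ℝ) + 2) * y)
    with hF
  have hF1 : F 1 = 0 := by
    simp only [hF, bN_one, br_sq_one]
    simp only [ne_eq, Nat.add_eq_zero_iff, OfNat.ofNat_ne_zero, and_false, not_false_eq_true, zero_pow, mul_zero, mul_one, zero_div, add_zero]
  have hder : ∀ t ∈ Ioo (0 : ℝ) 1, HasDerivAt F (sq t ^ m * (bg t - bgm m) +
      (((-t / (sq t * (1 + sq t) ^ 2)) * sq t ^ (m + 2) + (bg t - bgm m) *
        (((m + 2 : ℕ) : ℝ) * sq t ^ (m + 1) * (-t / sq t))) * (((m : ℝ) + 2) * t) -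
        ((bg t - bgm m) * sq t ^ (m + 2)) * ((m : ℝ) + 2)) / (((m : ℝ) + 2) * t) ^ 2) t := by
    intro t ht
    have ht' : t ∈ Ioo (-1 : ℝ) 1 := ⟨by linarith [ht.1], ht.2⟩
    have e1 := ((bg_hasDerivAt ht').sub_const (bgm m)).mul ((br_sq_hasDerivAt ht').pow (m + 2))
    have e2 : HasDerivAt (fun t : ℝ => ((m : ℝ) + 2) * t) ((m : ℝ) + 2) t := by
      simpa using (hasDerivAt_id t).const_mul ((m : ℝ) + 2)
    have ht0 : ((m : ℝ) + 2) * t ≠ 0 := (mul_pos hm ht.1).ne'
    exact (bN_hasDerivAt m t).add (e1.div e2 ht0)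
  have hanti : AntitoneOn F (Icc y 1) := by
    apply antitoneOn_of_deriv_nonpos (convex_Icc _ _)
    · intro t ht
      have ht0 : ((m : ℝ) + 2) * t ≠ 0 := (mul_pos hm (by linarith only [hy.1, ht.1])).ne'
      apply ContinuousAt.continuousWithinAt
      simp only [hF]
      apply (bN_cont m).continuousAt.add
      exact (((bg_cont.sub continuous_const).mul (br_sq_cont.pow (m + 2))).continuousAt).div
        (by fun_prop) ht0
    · intro t ht
      rw [interior_Icc] at ht
      exact (hder t ⟨by linarith only [hy.1, ht.1], ht.2⟩).differentiableAt.differentiableWithinAt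
    · intro t ht
      rw [interior_Icc] at ht
      have ht' : t ∈ Ioo (0 : ℝ) 1 := ⟨by linarith only [hy.1, ht.1], ht.2⟩
      rw [(hder t ht').deriv]
      have hs : 0 < sq t := br_sq_pos ⟨by linarith only [ht'.1], ht'.2⟩
      have hs1 := br_sq_le_one t
      have hss : sq t ^ 2 = 1 - t ^ 2 := br_sq_sq ⟨by linarith only [ht'.1], ht'.2.le⟩
      have ht0 : t ≠ 0 := ht'.1.ne'
      have hgm := bgm_le_half m
      have key : sq t ^ m * (bg t - bgm m) +
          (((-t / (sq t * (1 + sq t) ^ 2)) * sq t ^ (m + 2) + (bg t - bgm m) *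
          (((m + 2 : ℕ) : ℝ) * sq t ^ (m + 1) * (-t / sq t))) * (((m : ℝ) + 2) * t) -
          ((bg t - bgm m) * sq t ^ (m + 2)) * ((m : ℝ) + 2)) / (((m : ℝ) + 2) * t) ^ 2 =
          -(sq t ^ (m + 2) / (((m : ℝ) + 2) * t ^ 2)) *
            ((sq t ^ 2 - sq t + 1) / (sq t * (1 + sq t)) - bgm m) := by
        have ht2 : t ^ 2 = 1 - sq t ^ 2 := by linarith only [hss]
        have e0 : bg t = sq t / (1 + sq t) := rfl
        have e1 : sq t ^ (m + 1) * (-t / sq t) = -t * sq t ^ m := by
          rw [pow_succ]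
          (clear * - hs ht0; field_simp)
        have e2 : sq t ^ (m + 2) = sq t ^ m * sq t ^ 2 := by ring
        have e3 : ((m + 2 : ℕ) : ℝ) * sq t ^ (m + 1) * (-t / sq t) =
            ((m : ℝ) + 2) * (-t * sq t ^ m) := by
          rw [mul_assoc, e1]; push_cast; ring
        rw [e3, e2]
        have e4 : (sq t ^ 2 - sq t + 1) / (sq t * (1 + sq t)) =
            bg t + t ^ 2 / (sq t * (1 + sq t) ^ 2) := by
          rw [ht2, e0]
          field_simp
          ring
        rw [e4]
        field_simp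
        ring
      rw [key]
      have h5 : 1 / 2 ≤ (sq t ^ 2 - sq t + 1) / (sq t * (1 + sq t)) := by
        rw [div_le_div_iff₀ (by norm_num) (by positivity)]
        nlinarith only [hss]
      have h6 : 0 ≤ sq t ^ (m + 2) / (((m : ℝ) + 2) * t ^ 2) := by (clear * - hs ht0; positivity)
      have h7 : 0 ≤ (sq t ^ 2 - sq t + 1) / (sq t * (1 + sq t)) - bgm m := by linarith only [hgm, h5]
      have := mul_nonneg h6 h7
      linarith only [this]
  have := hanti ⟨le_rfl, hy.2.le⟩ ⟨hy.2.le, le_rfl⟩ hy.2.le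
  rw [hF1] at this
  exact this

theorem bk_deriv_nonneg (m : ℕ) {y : ℝ} (hy : y ∈ Ioo (0 : ℝ) 1) :
    0 ≤ ((bg y - bgm m) + ((m : ℝ) + 2) * y * bk m y) / sq y ^ 2 := by
  have hs : 0 < sq y := br_sq_pos ⟨by linarith [hy.1], hy.2⟩
  have hm : (0 : ℝ) < (m : ℝ) + 2 := by positivity
  have h := bF_nonneg m hy
  apply div_nonneg _ (by positivity)
  unfold bk
  have hy0 := hy.1
  have e : (bg y - bgm m) + ((m : ℝ) + 2) * y * (bN m y / sq y ^ (m + 2)) =
      (((m : ℝ) + 2) * y / sq y ^ (m + 2)) *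
        (bN m y + (bg y - bgm m) * sq y ^ (m + 2) / (((m : ℝ) + 2) * y)) := by
    field_simp
    ring
  rw [e]
  exact mul_nonneg (by positivity) h

theorem bk_zero (m : ℕ) : bk m 0 = 0 := by
  unfold bk
  rw [bN_zero, zero_div]

theorem bk_contAt (m : ℕ) {y : ℝ} (hy : y ∈ Ioo (-1 : ℝ) 1) : ContinuousAt (bk m) y :=
  (bk_hasDerivAt m hy).continuousAt

theorem bk_mono (m : ℕ) : MonotoneOn (bk m) (Ico 0 1) := by
  apply monotoneOn_of_deriv_nonneg (convex_Ico _ _)
  · exact fun t ht => (bk_contAt m ⟨by linarith [ht.1], ht.2⟩).continuousWithinAt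
  · intro t ht
    rw [interior_Ico] at ht
    exact (bk_hasDerivAt m ⟨by linarith only [ht.1], ht.2⟩).differentiableAt.differentiableWithinAt
  · intro t ht
    rw [interior_Ico] at ht
    rw [(bk_hasDerivAt m ⟨by linarith [ht.1], ht.2⟩).deriv]
    exact bk_deriv_nonneg m ht

theorem bk_nonneg (m : ℕ) {y : ℝ} (h0 : 0 ≤ y) (h1 : y < 1) : 0 ≤ bk m y := by
  have := bk_mono m ⟨le_rfl, zero_lt_one⟩ ⟨h0, h1⟩ h0
  rwa [bk_zero] at this

theorem bk_odd (m : ℕ) (y : ℝ) : bk m (-y) = -bk m y := by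
  unfold bk
  rw [bN_odd, br_sq_even, neg_div]

theorem bk_le_one (m : ℕ) {y : ℝ} (h0 : 0 ≤ y) (h1 : y < 1) : bk m y ≤ 1 := by
  -- first for `y ≥ 1/2`
  have hm : (0 : ℝ) < (m : ℝ) + 2 := by positivity
  have key : ∀ z : ℝ, 1 / 2 ≤ z → z < 1 → bk m z ≤ 1 := by
    intro z hz0 hz1
    have hs : 0 < sq z := br_sq_pos ⟨by linarith only [hz0], hz1⟩
    have h2 : bN m z ≤ sq z ^ (m + 2) / 2 := by
      -- `bN m z - s^(m+2)/2` is increasing and vanishes at `1`
      have hmon : MonotoneOn (fun t => bN m t - sq t ^ (m + 2) / 2) (Icc z 1) := by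
        apply monotoneOn_of_deriv_nonneg (convex_Icc _ _)
        · exact ((bN_cont m).sub ((br_sq_cont.pow (m + 2)).div_const 2)).continuousOn
        · intro t ht
          rw [interior_Icc] at ht
          have ht' : t ∈ Ioo (-1 : ℝ) 1 := ⟨by linarith only [hz0, ht.1], ht.2⟩
          exact ((bN_hasDerivAt m t).sub (((br_sq_hasDerivAt ht').pow (m + 2)).div_const
            2)).differentiableAt.differentiableWithinAt
        · intro t ht
          rw [interior_Icc] at ht
          have ht' : t ∈ Ioo (-1 : ℝ) 1 := ⟨by linarith only [hz0, ht.1], ht.2⟩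
          have hd := (bN_hasDerivAt m t).sub (((br_sq_hasDerivAt ht').pow (m + 2)).div_const 2)
          have e : (fun t => bN m t - sq t ^ (m + 2) / 2) =
              (bN m - fun x => (sq ^ (m + 2)) x / 2) := rfl
          rw [e, hd.deriv]
          have hst : 0 < sq t := br_sq_pos ht'
          have e1 : m + 2 - 1 = m + 1 := rfl
          rw [e1]
          have e2 : ((m + 2 : ℕ) : ℝ) * sq t ^ (m + 1) * (-t / sq t) / 2 =
              -(((m : ℝ) + 2) * t * sq t ^ m / 2) := by
            rw [pow_succ]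
            push_cast
            (clear * - hst; field_simp)
          rw [e2]
          have h3 := bg_nonneg t
          have h4 := bgm_le_half m
          have h5 : 0 < sq t ^ m := pow_pos hst m
          have h6 : (1 : ℝ) / 2 ≤ ((m : ℝ) + 2) * t / 2 := by
            have h7 : (0 : ℝ) ≤ m := Nat.cast_nonneg m
            have h8 : 1 / 2 ≤ t := by linarith only [hz0, ht.1]
            nlinarith
          nlinarith only [h3, h5, h4, h6]
      have := hmon ⟨le_rfl, hz1.le⟩ ⟨hz1.le, le_rfl⟩ hz1.le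
      simp only [bN_one, br_sq_one] at this
      have h9 : (0 : ℝ) ^ (m + 2) = 0 := by simp
      rw [h9] at this
      linarith only [this]
    unfold bk
    rw [div_le_one (by positivity)]
    have : 0 < sq z ^ (m + 2) := by positivity
    linarith only [h2, this]
  rcases le_or_gt (1 / 2) y with h | h
  · exact key y h h1
  · have := bk_mono m ⟨h0, h1⟩ (show (1 / 2 : ℝ) ∈ Ico (0 : ℝ) 1 by constructor <;> norm_num) h.le
    exact this.trans (key (1 / 2) le_rfl (by norm_num))

theorem bk_abs_le (m : ℕ) (y : ℝ) : |bk m y| ≤ 1 := by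
  rcases lt_or_ge |y| 1 with h | h
  · rcases le_or_gt 0 y with h0 | h0
    · rw [abs_of_nonneg h0] at h
      rw [abs_of_nonneg (bk_nonneg m h0 h)]
      exact bk_le_one m h0 h
    · rw [abs_of_neg h0] at h
      have e : bk m y = -bk m (-y) := by rw [bk_odd, neg_neg]
      rw [e, abs_neg, abs_of_nonneg (bk_nonneg m (by linarith) h)]
      exact bk_le_one m (by linarith) h
  · have hs : sq y = 0 := by
      unfold sq
      apply Real.sqrt_eq_zero'.2
      have := (sq_le_sq' (by linarith only [h]) h : (1 : ℝ) ^ 2 ≤ |y| ^ 2)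
      rw [sq_abs] at this
      linarith
    unfold bk
    rw [hs]
    simp only [ne_eq, Nat.add_eq_zero_iff, OfNat.ofNat_ne_zero, and_false, not_false_eq_true, zero_pow, div_zero, abs_zero, zero_le_one]

theorem bk_mono' (m : ℕ) {y z : ℝ} (h1 : -1 < y) (h2 : y ≤ z) (h3 : z < 1) : bk m y ≤ bk m z := by
  rcases le_or_gt 0 y with hy | hy
  · exact bk_mono m ⟨hy, by linarith⟩ ⟨by linarith, h3⟩ h2
  · rcases le_or_gt 0 z with hz | hz
    · have e : bk m y = -bk m (-y) := by rw [bk_odd, neg_neg]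
      have := bk_nonneg m (show 0 ≤ -y by linarith) (by linarith)
      have := bk_nonneg m hz h3
      linarith
    · have e1 : bk m y = -bk m (-y) := by rw [bk_odd, neg_neg]
      have e2 : bk m z = -bk m (-z) := by rw [bk_odd, neg_neg]
      have := bk_mono m (show -z ∈ Ico (0:ℝ) 1 from ⟨by linarith, by linarith⟩)
        (show -y ∈ Ico (0:ℝ) 1 from ⟨by linarith, by linarith⟩) (by linarith)
      linarith only [e1, e2, this]

theorem bk_meas (m : ℕ) : Measurable (bk m) :=
  (bN_cont m).measurable.div (br_sq_cont.pow (m + 2)).measurable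

theorem bk_ii (m : ℕ) (a b : ℝ) : IntervalIntegrable (bk m) volume a b := by
  apply (intervalIntegrable_const (c := (1 : ℝ))).mono_fun (bk_meas m).aestronglyMeasurable
  filter_upwards with t
  simpa only [Real.norm_eq_abs, norm_one] using bk_abs_le m t

theorem bφ_sub (m : ℕ) (a b : ℝ) : bφ m b - bφ m a = ∫ t in a..b, bk m t := by
  unfold bφ
  rw [intervalIntegral.integral_interval_sub_left (bk_ii m 0 b) (bk_ii m 0 a)]

theorem bφ_tangent (m : ℕ) {a b : ℝ} (ha : a ∈ Ioo (-1 : ℝ) 1) (hb : b ∈ Icc (-1 : ℝ) 1) :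
    bk m a * (b - a) ≤ bφ m b - bφ m a := by
  rw [bφ_sub]
  have e : bk m a * (b - a) = ∫ _ in a..b, bk m a := by simp; ring
  rw [e]
  rcases le_total a b with h | h
  · apply intervalIntegral.integral_mono_on_of_le_Ioo h (by simp) (bk_ii m a b)
    intro t ht
    exact bk_mono' m ha.1 ht.1.le (by linarith only [ht.2, hb.2])
  · rw [intervalIntegral.integral_symm, intervalIntegral.integral_symm b a, neg_le_neg_iff]
    apply intervalIntegral.integral_mono_on_of_le_Ioo h (bk_ii m b a) (by simp)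
    intro t ht
    exact bk_mono' m (by linarith only [ht.1, hb.1]) ht.2.le ha.2

theorem bφ_lip (m : ℕ) (a b : ℝ) : |bφ m b - bφ m a| ≤ |b - a| := by
  rw [bφ_sub]
  have := intervalIntegral.norm_integral_le_of_norm_le_const (a := a) (b := b) (C := 1)
    (f := bk m) (fun t _ => by simpa only [Real.norm_eq_abs] using bk_abs_le m t)
  simpa only [ge_iff_le, Real.norm_eq_abs, one_mul] using this

theorem bφ_cont (m : ℕ) : Continuous (bφ m) := by
  apply LipschitzWith.continuous (K := 1)
  apply LipschitzWith.of_dist_le_mul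
  intro a b
  rw [Real.dist_eq, Real.dist_eq]
  simpa only [NNReal.coe_one, one_mul] using bφ_lip m b a

theorem bφ_even (m : ℕ) (y : ℝ) : bφ m (-y) = bφ m y := by
  unfold bφ
  have h := intervalIntegral.integral_comp_neg (a := 0) (b := y) (bk m)
  simp only [bk_odd, neg_zero] at h
  rw [intervalIntegral.integral_symm, ← h, intervalIntegral.integral_neg, neg_neg]

/-- adding the correction keeps the properties of a kernel -/
theorem Kern2.addφ {A : ℝ → ℝ → ℝ} (hA : Kern2 A) (m : ℕ) :
    Kern2 (fun a b => A a b + (bφ m b - bφ m a)) where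
  meas := by
    apply hA.meas.add
    exact ((bφ_cont m).measurable.comp measurable_snd).sub
      ((bφ_cont m).measurable.comp measurable_fst)
  bdd := by
    obtain ⟨C, hC⟩ := hA.bdd
    refine ⟨C + 2, fun a ha b hb => ?_⟩
    have h1 := hC a ha b hb
    have h2 := bφ_lip m a b
    have h3 : |b - a| ≤ 2 := by
      rw [abs_le]
      constructor <;> linarith only [ha.1, hb.2, ha.2, hb.1]
    exact (abs_add_le _ _).trans (by linarith)
  anti := by
    intro a ha b hb
    have := hA.anti a ha b hb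
    show A a b + (bφ m b - bφ m a) = -(A b a + (bφ m a - bφ m b))
    linarith only [this]
  symm := by
    intro a b
    show A (-a) (-b) + (bφ m (-b) - bφ m (-a)) = A a b + (bφ m b - bφ m a)
    rw [hA.symm, bφ_even, bφ_even]
  corner := by
    intro η hη
    obtain ⟨δ, hδ, h⟩ := hA.corner (η / 2) (by linarith only [hη])
    refine ⟨min δ (η / 2), lt_min hδ (by linarith), fun a ha b hb => ?_⟩
    have ha' : a ∈ Icc (1 - δ) 1 := ⟨by linarith [ha.1, min_le_left δ (η / 2)], ha.2⟩
    have hb' : b ∈ Icc (1 - δ) 1 := ⟨by linarith only [hb.1, min_le_left δ (η / 2)], hb.2⟩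
    have h1 := h a ha' b hb'
    have h2 := bφ_lip m a b
    have h3 : |b - a| ≤ η / 2 := by
      rw [abs_le]
      constructor <;> linarith [ha.1, ha.2, hb.1, hb.2, min_le_right δ (η / 2)]
    exact (abs_add_le _ _).trans (by linarith)

end Vale.Agent.P237.AllN
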