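import Vale.Agent.P237.AllN.Brid9

/-!
# P237, all dimensions: certificates with an additional null function; log form of the constraint
-/

open MeasureTheory Metric Set Module Filter Topology

namespace Vale.Agent.P237.AllN

section

variable {m : ℕ} {r τ τ' T : ℝ → ℝ}

/-- `cert_H` with an additional null function `M`; the null term is `h(x) L² + e(x) lam L + f(x) lam²`, `lam = l(x₀)`,
`L = l - lam`. -/
theorem cert_H_null (hm : 4 ≤ m) {A : ℝ → ℝ → ℝ} (hA : Kern2 A) (hr : IsProf r)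
    (hT : IsTrans m r τ τ' T)
    (hN : (∫ y in (-1 : ℝ)..1, r y ^ (m - 1)) ^ m * aInt m ^ (m - 1) ≤
      aInt (m - 1) ^ m * (∫ y in (-1 : ℝ)..1, r y ^ m) ^ (m - 1))
    {cx px Ψx Tx : ℝ → ℝ} (hX : XPair m τ τ' cx px Ψx Tx)
    (hS : ∀ x ∈ Ioo (0 : ℝ) 1, ∀ b ∈ Icc (-1 : ℝ) 1, (bc0 (sq x) (lf τ x) + cx x) +
      (τ x * bM0 (sq x) (lf τ x) + px x) * b ≤ A (τ x) b)
    {μ : ℝ} (hμ : 0 ≤ μ) {x₀ : ℝ} (hx₀ : x₀ ∈ Ioo (0 : ℝ) 1) {h h' e e' f f' : ℝ → ℝ}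
    {Ch Ce Cf : ℝ}
    (hh : ∀ x ∈ Ioo (0 : ℝ) 1, x ≠ x₀ → HasDerivAt h (h' x) x)
    (he : ∀ x ∈ Ioo (0 : ℝ) 1, x ≠ x₀ → HasDerivAt e (e' x) x)
    (hf : ∀ x ∈ Ioo (0 : ℝ) 1, x ≠ x₀ → HasDerivAt f (f' x) x)
    (hhb : ∀ x ∈ Ioo (0 : ℝ) 1, |h x| * |x - x₀| ≤ Ch) (heb : ∀ x ∈ Ioo (0 : ℝ) 1, |e x| ≤ Ce)
    (hfc : ContinuousOn f (Ioo 0 1)) (hfb : ∀ x ∈ Ioo (0 : ℝ) 1, |f x| ≤ Cf)
    {M M' : ℝ → ℝ} {CM : ℝ} (hMc : ContinuousOn M (Ioo 0 1))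
    (hMd : ∀ x ∈ Ioo (0 : ℝ) 1, x ≠ x₀ → HasDerivAt M (M' x) x)
    (hMb : ∀ x ∈ Ioo (0 : ℝ) 1, |M x| * sq x ^ 2 ≤ CM)
    {ε : ℝ} (hε : 0 < ε)
    (hpt : ∀ x ∈ Ioo (0 : ℝ) 1, x ≠ x₀ → ε * (uf τ τ' x ^ 2 / (1 + uf τ τ' x)) ≤
      brT m τ τ' μ x + Tx x + (x * h' x * (lf τ x - lf τ x₀) ^ 2 +
        2 * h x * (lf τ x - lf τ x₀) * uf τ τ' x + x * e' x * lf τ x₀ * (lf τ x - lf τ x₀) +
        e x * lf τ x₀ * uf τ τ' x + x * f' x * lf τ x₀ ^ 2 +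
        (1 - ((m : ℝ) - 1) * (x ^ 2 / sq x ^ 2)) *
          (h x * (lf τ x - lf τ x₀) ^ 2 + e x * lf τ x₀ * (lf τ x - lf τ x₀) +
            f x * lf τ x₀ ^ 2)) +
        (x * M' x + (1 - ((m : ℝ) - 1) * (x ^ 2 / sq x ^ 2)) * M x)) :
    (∃ k : ℝ, ∀ y ∈ Ioo (-1 : ℝ) 1, r y = k * Real.sqrt (1 - y ^ 2)) ∨
    ∃ v : ℝ, 0 < v ∧ AdmGe m (fun a b => A a b + (bφ m b - bφ m a)) r v := by
  obtain ⟨hc, C, hC⟩ := nH_cont (by omega) hr hT hx₀ hh he hhb heb hfc hfb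
  refine cert_gen hm hA hr hT hN hX hS hμ (x₀ := x₀) (N := fun x => nH τ h e f x₀ x + M x)
    (N' := fun x => nH' τ τ' h h' e e' f' x₀ x + M' x) (CN := C + CM) (hc.add hMc)
    (fun x hx hne => (nH_der hT hx (hh x hx hne) (he x hx hne) (hf x hx hne)).add (hMd x hx hne))
    (fun x hx => by
      refine (mul_le_mul_of_nonneg_right (abs_add_le _ _) (sq_nonneg _)).trans ?_
      rw [add_mul]
      exact add_le_add (hC x hx) (hMb x hx)) hε ?_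
  intro x hx hne
  refine (hpt x hx hne).trans (le_of_eq ?_)
  have hx0 := hx.1.ne'
  unfold nH nH'
  field_simp
  ring

/-- `cert_pole` with an additional null function `M`.  With `lam = l(x₀)`, `L = l - lam`, the null term is
`(a1 x²/(x₀²-x²) + gL) L² + eL lam L + f lam²` for `x < x₀` and
`(-a4 x²/(x²-x₀²) + gR) L² + eR lam L + f lam²` for `x > x₀`. -/
theorem cert_pole_null (hm : 4 ≤ m) {A : ℝ → ℝ → ℝ} (hA : Kern2 A) (hr : IsProf r)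
    (hT : IsTrans m r τ τ' T)
    (hN : (∫ y in (-1 : ℝ)..1, r y ^ (m - 1)) ^ m * aInt m ^ (m - 1) ≤
      aInt (m - 1) ^ m * (∫ y in (-1 : ℝ)..1, r y ^ m) ^ (m - 1))
    {cx px Ψx Tx : ℝ → ℝ} (hX : XPair m τ τ' cx px Ψx Tx)
    (hS : ∀ x ∈ Ioo (0 : ℝ) 1, ∀ b ∈ Icc (-1 : ℝ) 1, (bc0 (sq x) (lf τ x) + cx x) +
      (τ x * bM0 (sq x) (lf τ x) + px x) * b ≤ A (τ x) b)
    {μ : ℝ} (hμ : 0 ≤ μ) {x₀ : ℝ} (hx₀ : x₀ ∈ Ioo (0 : ℝ) 1) (a1 a4 : ℝ)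
    {gL gL' gR gR' eL eL' eR eR' f f' : ℝ → ℝ}
    (hgL : ∀ x ∈ Ioo (0 : ℝ) 1, HasDerivAt gL (gL' x) x) (hgLc : ContinuousOn gL (Icc 0 1))
    (hgR : ∀ x ∈ Ioo (0 : ℝ) 1, HasDerivAt gR (gR' x) x) (hgRc : ContinuousOn gR (Icc 0 1))
    (heL : ∀ x ∈ Ioo (0 : ℝ) 1, HasDerivAt eL (eL' x) x) (heLc : ContinuousOn eL (Icc 0 1))
    (heR : ∀ x ∈ Ioo (0 : ℝ) 1, HasDerivAt eR (eR' x) x) (heRc : ContinuousOn eR (Icc 0 1))
    (hf : ∀ x ∈ Ioo (0 : ℝ) 1, HasDerivAt f (f' x) x) (hfc : ContinuousOn f (Icc 0 1))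
    {M M' : ℝ → ℝ} {CM : ℝ} (hMc : ContinuousOn M (Ioo 0 1))
    (hMd : ∀ x ∈ Ioo (0 : ℝ) 1, x ≠ x₀ → HasDerivAt M (M' x) x)
    (hMb : ∀ x ∈ Ioo (0 : ℝ) 1, |M x| * sq x ^ 2 ≤ CM)
    {ε : ℝ} (hε : 0 < ε)
    (hL : ∀ x ∈ Ioo (0 : ℝ) 1, x < x₀ → ε * (uf τ τ' x ^ 2 / (1 + uf τ τ' x)) ≤
      brT m τ τ' μ x + Tx x +
        ((2 * a1 * (x ^ 2 * x₀ ^ 2 / (x₀ ^ 2 - x ^ 2) ^ 2) + x * gL' x) *
          (lf τ x - lf τ x₀) ^ 2 +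
        2 * (a1 * (x ^ 2 / (x₀ ^ 2 - x ^ 2)) + gL x) * (lf τ x - lf τ x₀) * uf τ τ' x +
        x * eL' x * lf τ x₀ * (lf τ x - lf τ x₀) + eL x * lf τ x₀ * uf τ τ' x +
        x * f' x * lf τ x₀ ^ 2 + (1 - ((m : ℝ) - 1) * (x ^ 2 / sq x ^ 2)) *
          ((a1 * (x ^ 2 / (x₀ ^ 2 - x ^ 2)) + gL x) * (lf τ x - lf τ x₀) ^ 2 +
            eL x * lf τ x₀ * (lf τ x - lf τ x₀) + f x * lf τ x₀ ^ 2)) +
        (x * M' x + (1 - ((m : ℝ) - 1) * (x ^ 2 / sq x ^ 2)) * M x))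
    (hR : ∀ x ∈ Ioo (0 : ℝ) 1, x₀ < x → ε * (uf τ τ' x ^ 2 / (1 + uf τ τ' x)) ≤
      brT m τ τ' μ x + Tx x +
        ((2 * a4 * (x ^ 2 * x₀ ^ 2 / (x ^ 2 - x₀ ^ 2) ^ 2) + x * gR' x) *
          (lf τ x - lf τ x₀) ^ 2 +
        2 * (-(a4 * (x ^ 2 / (x ^ 2 - x₀ ^ 2))) + gR x) * (lf τ x - lf τ x₀) * uf τ τ' x +
        x * eR' x * lf τ x₀ * (lf τ x - lf τ x₀) + eR x * lf τ x₀ * uf τ τ' x +
        x * f' x * lf τ x₀ ^ 2 + (1 - ((m : ℝ) - 1) * (x ^ 2 / sq x ^ 2)) *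
          ((-(a4 * (x ^ 2 / (x ^ 2 - x₀ ^ 2))) + gR x) * (lf τ x - lf τ x₀) ^ 2 +
            eR x * lf τ x₀ * (lf τ x - lf τ x₀) + f x * lf τ x₀ ^ 2)) +
        (x * M' x + (1 - ((m : ℝ) - 1) * (x ^ 2 / sq x ^ 2)) * M x)) :
    (∃ k : ℝ, ∀ y ∈ Ioo (-1 : ℝ) 1, r y = k * Real.sqrt (1 - y ^ 2)) ∨
    ∃ v : ℝ, 0 < v ∧ AdmGe m (fun a b => A a b + (bφ m b - bφ m a)) r v := by
  obtain ⟨C1, hC1, bL⟩ := bdd_of_cont hgLc
  obtain ⟨C2, hC2, bR⟩ := bdd_of_cont hgRc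
  obtain ⟨C3, hC3, dL⟩ := bdd_of_cont heLc
  obtain ⟨C4, hC4, dR⟩ := bdd_of_cont heRc
  obtain ⟨C5, hC5, bf⟩ := bdd_of_cont hfc
  have hsub : Ioo (0 : ℝ) 1 ⊆ Icc 0 1 := Ioo_subset_Icc_self
  have hxx : ∀ x ∈ Ioo (0 : ℝ) 1, |x - x₀| ≤ 1 := fun x hx => by
    rw [abs_le]; constructor <;> linarith only [hx.1, hx₀.2, hx.2, hx₀.1]
  refine cert_H_null hm hA hr hT hN hX hS hμ hx₀
    (h := glue x₀ (fun x => a1 * (x ^ 2 / (x₀ ^ 2 - x ^ 2)) + gL x)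
      (fun x => -(a4 * (x ^ 2 / (x ^ 2 - x₀ ^ 2))) + gR x))
    (h' := glue x₀ (fun x => a1 * (2 * x * x₀ ^ 2 / (x₀ ^ 2 - x ^ 2) ^ 2) + gL' x)
      (fun x => a4 * (2 * x * x₀ ^ 2 / (x ^ 2 - x₀ ^ 2) ^ 2) + gR' x))
    (e := glue x₀ eL eR) (e' := glue x₀ eL' eR') (f := f) (f' := f')
    (Ch := (|a1| / x₀ + C1) + (|a4| / x₀ + C2)) (Ce := C3 + C4) (Cf := C5)
    ?_ ?_ (fun x hx _ => hf x hx) ?_ ?_ (hfc.mono hsub) (fun x hx => bf x (hsub hx)) hMc hMd hMb hε ?_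
  · intro x hx hne
    exact glue_der hne (fun h => pole_left_der hx.1 h (hgL x hx))
      (fun h => pole_right_der hx₀.1 h (hgR x hx))
  · intro x hx hne
    exact glue_der hne (fun h => heL x hx) (fun h => heR x hx)
  · intro x hx
    have q1 : 0 ≤ |a1| / x₀ := div_nonneg (abs_nonneg _) hx₀.1.le
    have q2 : 0 ≤ |a4| / x₀ := div_nonneg (abs_nonneg _) hx₀.1.le
    have key : ∀ P g C Q : ℝ, |P| * |x - x₀| ≤ Q → |g| ≤ C → 0 ≤ C →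
        |P + g| * |x - x₀| ≤ Q + C := by
      intro P g C Q hP hg hC
      calc |P + g| * |x - x₀| ≤ (|P| + |g|) * |x - x₀| :=
            mul_le_mul_of_nonneg_right (abs_add_le _ _) (abs_nonneg _)
        _ = |P| * |x - x₀| + |g| * |x - x₀| := by ring
        _ ≤ Q + C := by
            apply add_le_add hP
            calc |g| * |x - x₀| ≤ C * 1 := mul_le_mul hg (hxx x hx) (abs_nonneg _) hC
              _ = C := mul_one C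
    rcases lt_trichotomy x x₀ with h | h | h
    · rw [glue_left h]
      have := key _ _ _ _ (pole_left_bdd (a1 := a1) hx.1 hx.2.le h) (bL x (hsub hx)) hC1
      linarith only [hC2, q2, this]
    · rw [h, sub_self, abs_zero, mul_zero]
      linarith only [hC1, hC2, q1, q2]
    · rw [glue_right h]
      have := key _ _ _ _ (pole_right_bdd (a4 := a4) hx.2.le h hx₀.1) (bR x (hsub hx)) hC2
      linarith only [hC1, q1, this]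
  · intro x hx
    unfold glue
    split_ifs
    · linarith only [hC4, dL x (hsub hx)]
    · linarith only [hC3, dR x (hsub hx)]
  · intro x hx hne
    rcases lt_or_gt_of_ne hne with h | h
    · refine (hL x hx h).trans (le_of_eq ?_)
      simp only [glue_left h]
      ring
    · refine (hR x hx h).trans (le_of_eq ?_)
      simp only [glue_right h]
      ring


/-! ### the log form of the constraint -/

/-- the pointwise functional with the log form of the constraint term -/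
noncomputable def brTlog (m : ℕ) (τ τ' : ℝ → ℝ) (μ x : ℝ) : ℝ :=
  bγ m * (2 * (1 - sq x ^ 2 / (1 + sq x)) - 3 * (x ^ 2 / sq x ^ 2) * lf τ x) *
      (uf τ τ' x ^ 2 / (1 + uf τ τ' x)) -
    μ * (uf τ τ' x - Real.log (1 + uf τ τ' x)) +
    ((m : ℝ) - 1) * (x ^ 2 / sq x ^ 2) * (μ - 1) * lf τ x -
    3 / 2 * bγ m * (x ^ 2 / sq x ^ 2) * (3 - ((m : ℝ) - 3) * (x ^ 2 / sq x ^ 2)) * lf τ x ^ 2 +
    bγ m * (sq x * (bg (τ x) - bg x) + x ^ 2 * lf τ x / (1 + sq x) ^ 2)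

/-- the null function `μ (m (e^{l/m} - 1) - l)` -/
noncomputable def nlog (m : ℕ) (τ : ℝ → ℝ) (μ x : ℝ) : ℝ :=
  μ * (m * (Real.exp (lf τ x / m) - 1) - lf τ x)

theorem nlog_der (hm : 1 ≤ m) (h : IsTrans m r τ τ' T) (μ : ℝ) {x : ℝ} (hx : x ∈ Ioo (0 : ℝ) 1) :
    HasDerivAt (nlog m τ μ) (μ * ((Real.exp (lf τ x / m) - 1) * (uf τ τ' x / x))) x := by
  have hl := lf_hasDerivAt h hx
  have hm0 : (m : ℝ) ≠ 0 := by
    have : (1 : ℝ) ≤ m := by exact_mod_cast hm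
    linarith only [this]
  have e := (((((hl.div_const (m : ℝ)).exp).sub_const 1).const_mul (m : ℝ)).sub hl).const_mul μ
  refine e.congr_deriv ?_
  field_simp

theorem nlog_bdd (hm : 1 ≤ m) (hr : IsProf r) (h : IsTrans m r τ τ' T) (μ : ℝ) :
    ∃ C : ℝ, ∀ x ∈ Ioo (0 : ℝ) 1, |nlog m τ μ x| * sq x ^ 2 ≤ C := by
  obtain ⟨C, hC, hb⟩ := lf_bdd hm hr h
  have hm1 : (1 : ℝ) ≤ m := by exact_mod_cast hm
  refine ⟨|μ| * (m * (Real.exp C + 1) + C), fun x hx => ?_⟩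
  have hs := sqx_pos hx
  have hs2 : sq x ^ 2 ≤ 1 := pow_le_one₀ hs.le (br_sq_le_one x)
  have h1 : |nlog m τ μ x| ≤ |μ| * (m * (Real.exp C + 1) + C) := by
    unfold nlog
    rw [abs_mul]
    apply mul_le_mul_of_nonneg_left _ (abs_nonneg _)
    refine (abs_sub _ _).trans (add_le_add ?_ (hb x hx))
    rw [abs_mul, abs_of_nonneg (by linarith only [] : (0 : ℝ) ≤ m)]
    apply mul_le_mul_of_nonneg_left _ (by linarith only [])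
    refine (abs_sub _ _).trans ?_
    rw [abs_of_pos (Real.exp_pos _), abs_one]
    have : lf τ x / m ≤ C := by
      rw [div_le_iff₀ (by linarith only [hm1])]
      have := (le_abs_self (lf τ x)).trans (hb x hx)
      nlinarith only [this, hC, hm1]
    linarith only [Real.exp_le_exp.2 this]
  calc |nlog m τ μ x| * sq x ^ 2 ≤ |nlog m τ μ x| * 1 :=
        mul_le_mul_of_nonneg_left hs2 (abs_nonneg _)
    _ ≤ _ := by rw [mul_one]; exact h1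

/-- exact constraint term plus the null term of `nlog` is at least the log form -/
theorem brTlog_le (hm : 1 ≤ m) (h : IsTrans m r τ τ' T) {μ : ℝ} (hμ : 0 ≤ μ) {x : ℝ}
    (hx : x ∈ Ioo (0 : ℝ) 1) : brTlog m τ τ' μ x ≤ brT m τ τ' μ x +
      (x * (μ * ((Real.exp (lf τ x / m) - 1) * (uf τ τ' x / x))) +
        (1 - ((m : ℝ) - 1) * (x ^ 2 / sq x ^ 2)) * nlog m τ μ x) := by
  have hu := uf_pos h hx
  have hx0 := hx.1
  have hm1 : (1 : ℝ) ≤ m := by exact_mod_cast hm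
  have hm0 : (0 : ℝ) < m := by linarith only [hm1]
  set l := lf τ x with hl
  set u := uf τ τ' x with hud
  -- `m (EV - 1) ≥ l + log (1+u)`
  have key : l + Real.log (1 + u) ≤ m * (Real.exp (l / m) * (1 + u) ^ (1 / (m : ℝ)) - 1) := by
    have hV : (1 + u) ^ (1 / (m : ℝ)) = Real.exp (Real.log (1 + u) / m) := by
      rw [Real.rpow_def_of_pos hu]
      congr 1
      ring
    rw [hV, ← Real.exp_add, ← add_div]
    have h1 := Real.add_one_le_exp ((l + Real.log (1 + u)) / m)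
    have h2 : l + Real.log (1 + u) = m * ((l + Real.log (1 + u)) / m) := by (clear * - hm; field_simp)
    nlinarith only [h2, h1]
  rw [brT_eq]
  unfold brTlog nlog
  rw [← hl, ← hud]
  have e : x * (μ * ((Real.exp (l / m) - 1) * (u / x))) = μ * ((Real.exp (l / m) - 1) * u) := by
    (clear * - hx0; field_simp)
  rw [e]
  have h2 := mul_le_mul_of_nonneg_left key hμ
  linarith

/-- **`cert_pole` with the log form of the constraint term** (note of helper905). -/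
theorem cert_pole_log (hm : 4 ≤ m) {A : ℝ → ℝ → ℝ} (hA : Kern2 A) (hr : IsProf r)
    (hT : IsTrans m r τ τ' T)
    (hN : (∫ y in (-1 : ℝ)..1, r y ^ (m - 1)) ^ m * aInt m ^ (m - 1) ≤
      aInt (m - 1) ^ m * (∫ y in (-1 : ℝ)..1, r y ^ m) ^ (m - 1))
    {cx px Ψx Tx : ℝ → ℝ} (hX : XPair m τ τ' cx px Ψx Tx)
    (hS : ∀ x ∈ Ioo (0 : ℝ) 1, ∀ b ∈ Icc (-1 : ℝ) 1, (bc0 (sq x) (lf τ x) + cx x) +
      (τ x * bM0 (sq x) (lf τ x) + px x) * b ≤ A (τ x) b)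
    {μ : ℝ} (hμ : 0 ≤ μ) {x₀ : ℝ} (hx₀ : x₀ ∈ Ioo (0 : ℝ) 1) (a1 a4 : ℝ)
    {gL gL' gR gR' eL eL' eR eR' f f' : ℝ → ℝ}
    (hgL : ∀ x ∈ Ioo (0 : ℝ) 1, HasDerivAt gL (gL' x) x) (hgLc : ContinuousOn gL (Icc 0 1))
    (hgR : ∀ x ∈ Ioo (0 : ℝ) 1, HasDerivAt gR (gR' x) x) (hgRc : ContinuousOn gR (Icc 0 1))
    (heL : ∀ x ∈ Ioo (0 : ℝ) 1, HasDerivAt eL (eL' x) x) (heLc : ContinuousOn eL (Icc 0 1))
    (heR : ∀ x ∈ Ioo (0 : ℝ) 1, HasDerivAt eR (eR' x) x) (heRc : ContinuousOn eR (Icc 0 1))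
    (hf : ∀ x ∈ Ioo (0 : ℝ) 1, HasDerivAt f (f' x) x) (hfc : ContinuousOn f (Icc 0 1))
    {ε : ℝ} (hε : 0 < ε)
    (hL : ∀ x ∈ Ioo (0 : ℝ) 1, x < x₀ → ε * (uf τ τ' x ^ 2 / (1 + uf τ τ' x)) ≤
      brTlog m τ τ' μ x + Tx x +
        ((2 * a1 * (x ^ 2 * x₀ ^ 2 / (x₀ ^ 2 - x ^ 2) ^ 2) + x * gL' x) *
          (lf τ x - lf τ x₀) ^ 2 +
        2 * (a1 * (x ^ 2 / (x₀ ^ 2 - x ^ 2)) + gL x) * (lf τ x - lf τ x₀) * uf τ τ' x +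
        x * eL' x * lf τ x₀ * (lf τ x - lf τ x₀) + eL x * lf τ x₀ * uf τ τ' x +
        x * f' x * lf τ x₀ ^ 2 + (1 - ((m : ℝ) - 1) * (x ^ 2 / sq x ^ 2)) *
          ((a1 * (x ^ 2 / (x₀ ^ 2 - x ^ 2)) + gL x) * (lf τ x - lf τ x₀) ^ 2 +
            eL x * lf τ x₀ * (lf τ x - lf τ x₀) + f x * lf τ x₀ ^ 2)))
    (hR : ∀ x ∈ Ioo (0 : ℝ) 1, x₀ < x → ε * (uf τ τ' x ^ 2 / (1 + uf τ τ' x)) ≤
      brTlog m τ τ' μ x + Tx x +
        ((2 * a4 * (x ^ 2 * x₀ ^ 2 / (x ^ 2 - x₀ ^ 2) ^ 2) + x * gR' x) *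
          (lf τ x - lf τ x₀) ^ 2 +
        2 * (-(a4 * (x ^ 2 / (x ^ 2 - x₀ ^ 2))) + gR x) * (lf τ x - lf τ x₀) * uf τ τ' x +
        x * eR' x * lf τ x₀ * (lf τ x - lf τ x₀) + eR x * lf τ x₀ * uf τ τ' x +
        x * f' x * lf τ x₀ ^ 2 + (1 - ((m : ℝ) - 1) * (x ^ 2 / sq x ^ 2)) *
          ((-(a4 * (x ^ 2 / (x ^ 2 - x₀ ^ 2))) + gR x) * (lf τ x - lf τ x₀) ^ 2 +
            eR x * lf τ x₀ * (lf τ x - lf τ x₀) + f x * lf τ x₀ ^ 2))) :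
    (∃ k : ℝ, ∀ y ∈ Ioo (-1 : ℝ) 1, r y = k * Real.sqrt (1 - y ^ 2)) ∨
    ∃ v : ℝ, 0 < v ∧ AdmGe m (fun a b => A a b + (bφ m b - bφ m a)) r v := by
  obtain ⟨CM, hCM⟩ := nlog_bdd (by omega) hr hT μ
  refine cert_pole_null hm hA hr hT hN hX hS hμ hx₀ a1 a4 hgL hgLc hgR hgRc heL heLc heR heRc
    hf hfc (M := nlog m τ μ) (M' := fun x => μ * ((Real.exp (lf τ x / m) - 1) * (uf τ τ' x / x)))
    (CM := CM) (fun x hx => (nlog_der (by omega) hT μ hx).continuousAt.continuousWithinAt)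
    (fun x hx _ => nlog_der (by omega) hT μ hx) hCM hε ?_ ?_
  · intro x hx h
    refine (hL x hx h).trans ?_
    have := brTlog_le (by omega) hT hμ hx
    linarith
  · intro x hx h
    refine (hR x hx h).trans ?_
    have := brTlog_le (by omega) hT hμ hx
    linarith

end

end Vale.Agent.P237.AllN
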