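import Vale.Agent.P237.AllN.Brid1

/-!
# P237, all dimensions: the algebra of the f-chart certificate
-/

namespace Vale.Agent.P237.AllN

/-- the `log` pair, constant part -/
noncomputable def bc0 (s l : ℝ) : ℝ := -(1 / s - 1) + l * (1 / s ^ 3 - 3 / s + 2)

/-- the `log` pair, slope divided by `τ` -/
noncomputable def bM0 (s l : ℝ) : ℝ := 1 / (s * (1 + s)) - l / s ^ 3

/-- base identity: value of the `log` pair tested at `x²/τ` -/
theorem bri_base {m x s l u τ τ' : ℝ} (hs : 0 < s) (hx : 0 < x) (hxs : x ^ 2 = 1 - s ^ 2)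
    (hu : 0 < 1 + u) (hτ : 0 < τ) (hτ' : τ' = τ * (1 + u) / x) :
    s * ((m + 1) * bc0 s l +
      (τ * (-(x / s ^ 3) + (u / x) * (1 / s ^ 3 - 3 / s + 2) + l * (3 * x / s ^ 5 - 3 * x / s ^ 3)) +
        (τ' * bM0 s l + τ * ((1 + 2 * s) * x / (s ^ 3 * (1 + s) ^ 2) - (u / x) / s ^ 3
          - 3 * l * x / s ^ 5))) / τ') =
    (-(m + 1) + (m + 2) * s - s ^ 2 / (1 + s)) +
      l * ((m - 3) * (x ^ 2 / s ^ 2) - (2 * m + 3) + 2 * (m + 1) * s) -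
      (2 * (1 - s ^ 2 / (1 + s)) - 3 * (x ^ 2 / s ^ 2) * l) * (u / (1 + u)) := by
  have h1 : (τ * (-(x / s ^ 3) + (u / x) * (1 / s ^ 3 - 3 / s + 2) +
        l * (3 * x / s ^ 5 - 3 * x / s ^ 3)) +
        (τ' * bM0 s l + τ * ((1 + 2 * s) * x / (s ^ 3 * (1 + s) ^ 2) - (u / x) / s ^ 3
          - 3 * l * x / s ^ 5))) / τ' =
      bM0 s l + (x ^ 2 * (-(1 / s ^ 3) - 3 * l / s ^ 3 + (1 + 2 * s) / (s ^ 3 * (1 + s) ^ 2)) +
        u * (-3 / s + 2)) / (1 + u) := by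
    rw [hτ']
    field_simp
    ring
  rw [h1, hxs]
  unfold bc0 bM0
  field_simp
  ring

/-- component identity: value of the extra pair `(α x² L / 2, τ log(1-αL)/2)` -/
theorem bri_comp {m x L u τ τ' α lg : ℝ} (hx : 0 < x)
    (hu : 0 < 1 + u) (hτ : 0 < τ) (hτ' : τ' = τ * (1 + u) / x) (hL : 0 < 1 - α * L) :
    (m + 1) * (α * x ^ 2 * L / 2) +
      (τ * (α * x * L + α * x ^ 2 * (u / x) / 2) +
        (τ' * (lg / 2) + τ * (-(α * (u / x)) / (1 - α * L)) / 2)) / τ' =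
    (m + 3) * (α * x ^ 2 * L / 2) + lg / 2 -
      (α * x ^ 2 * L - α * x ^ 2 / 2 + α / (2 * (1 - α * L))) * (u / (1 + u)) := by
  rw [hτ']
  field_simp
  ring

/-- the pointwise functional (right side, plain test) -/
noncomputable def TR (m x s l u L μ E V gτ gx hh xhh' : ℝ) : ℝ :=
  (m - 1) / (m + 1) * (2 * (1 - s ^ 2 / (1 + s)) - 3 * (x ^ 2 / s ^ 2) * l) * (u ^ 2 / (1 + u))
    - μ * E * (u - m * (V - 1))
    + (m - 1) * (x ^ 2 / s ^ 2) * (μ * m * (E - 1) - l)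
    - 3 / 2 * ((m - 1) / (m + 1)) * (x ^ 2 / s ^ 2) * (3 - (m - 3) * (x ^ 2 / s ^ 2)) * l ^ 2
    + (m - 1) / (m + 1) * (s * (gτ - gx) + x ^ 2 * l / (1 + s) ^ 2)
    + 2 * hh * L * u + (hh + xhh' - (m - 1) * (x ^ 2 / s ^ 2) * hh) * L ^ 2

/-- the extra term of the component test (left side) -/
noncomputable def TL (m x s u L α lg : ℝ) : ℝ :=
  (m - 1) / (m + 1) * (s / 2) *
    (α * (2 * x ^ 2 * L - x ^ 2 + 1 / (1 - α * L)) * (u ^ 2 / (1 + u))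
      + m * (x ^ 2 / s ^ 2) * (α * L + lg) + α * x ^ 2 * (3 - m * (x ^ 2 / s ^ 2)) * L ^ 2)

/-- algebraic identity of the plain part.  `V = (1+u)^(1/m)`, `E = e^(l/m)`. -/
theorem bri_TR {m x s l u L μ E V gτ gbar hh xhh' BI : ℝ} (hm : 0 < m + 1) (hs : 0 < s)
    (hxs : x ^ 2 = 1 - s ^ 2) (hu : 0 < 1 + u)
    (hBI : BI = (-(m + 1) + (m + 2) * s - s ^ 2 / (1 + s)) +
      l * ((m - 3) * (x ^ 2 / s ^ 2) - (2 * m + 3) + 2 * (m + 1) * s) -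
      (2 * (1 - s ^ 2 / (1 + s)) - 3 * (x ^ 2 / s ^ 2) * l) * (u / (1 + u))) :
    (m - 1) / (m + 1) * (BI + s * (gτ - gbar)) + μ * m * (E * V - 1) =
      TR m x s l u L μ E V gτ (s / (1 + s)) hh xhh' +
      (m - 1) / (m + 1) * (-(m + 1) + (m + 2 - gbar) * s) +
      ((1 - (m - 1) * (x ^ 2 / s ^ 2)) * ((m - 1) / (m + 1) *
          (-2 * (1 - s ^ 2 / (1 + s)) * l + 3 / 2 * (x ^ 2 / s ^ 2) * l ^ 2) +
          μ * m * (E - 1) - hh * L ^ 2) +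
        ((m - 1) / (m + 1) * (-2 * ((1 - s) * (2 + s) / (1 + s)) * l
          + 3 / 2 * (2 * (x ^ 2 / s ^ 2) / s ^ 2) * l ^ 2) - xhh' * L ^ 2) +
        ((m - 1) / (m + 1) * (-2 * (1 - s ^ 2 / (1 + s)) * u + 3 * (x ^ 2 / s ^ 2) * l * u) +
          μ * E * u - 2 * hh * L * u)) := by
  subst hBI
  unfold TR
  rw [hxs]
  field_simp
  ring

/-- algebraic identity of the component part -/
theorem bri_TL {m x s u L α lg : ℝ} (hm : 0 < m + 1) (hs : 0 < s)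
    (hxs : x ^ 2 = 1 - s ^ 2) (hu : 0 < 1 + u) (hL : 0 < 1 - α * L) :
    (m - 1) / (m + 1) * (s * ((m + 3) * (α * x ^ 2 * L / 2) + lg / 2 -
      (α * x ^ 2 * L - α * x ^ 2 / 2 + α / (2 * (1 - α * L))) * (u / (1 + u)))) =
      TL m x s u L α lg +
      (m - 1) / (m + 1) * (s * (
        (1 - m * (x ^ 2 / s ^ 2)) * (α * x ^ 2 * L / 2 - α * x ^ 2 * L ^ 2 / 2 + lg / 2) +
        (α * x ^ 2 * L - α * x ^ 2 * L ^ 2) +
        (α * x ^ 2 / 2 - α * x ^ 2 * L - α / (2 * (1 - α * L))) * u)) := by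
  unfold TL
  rw [hxs]
  field_simp
  ring

end Vale.Agent.P237.AllN
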