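import Vale.Agent.P237.AllN.Brid3

/-!
# P237, all dimensions: primitive and identity of the plain certificate
-/

open MeasureTheory Metric Set Module Filter Topology

namespace Vale.Agent.P237.AllN

/-- `(m-1)/(m+1)` -/
noncomputable def bγ (m : ℕ) : ℝ := ((m : ℝ) - 1) / ((m : ℝ) + 1)

/-- the null primitive (plain), times `bγ m` -/
noncomputable def brΨ (m : ℕ) (τ N : ℝ → ℝ) (μ : ℝ) (x : ℝ) : ℝ :=
  bγ m * (x * sq x ^ m * bg x + bN m x) +
    x * sq x ^ (m - 1) * (bγ m * (-2 * (1 - sq x ^ 2 / (1 + sq x)) * lf τ x +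
      3 / 2 * (x ^ 2 / sq x ^ 2) * lf τ x ^ 2) + μ * m * (Real.exp (lf τ x / m) - 1) - N x)

/-- its derivative -/
noncomputable def brΨ' (m : ℕ) (τ τ' N N' : ℝ → ℝ) (μ : ℝ) (x : ℝ) : ℝ :=
  sq x ^ (m - 1) * (bγ m * (-((m : ℝ) + 1) + ((m : ℝ) + 2 - bgm m) * sq x) +
    ((1 - ((m : ℝ) - 1) * (x ^ 2 / sq x ^ 2)) * (bγ m *
      (-2 * (1 - sq x ^ 2 / (1 + sq x)) * lf τ x + 3 / 2 * (x ^ 2 / sq x ^ 2) * lf τ x ^ 2) +
      μ * m * (Real.exp (lf τ x / m) - 1) - N x) +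
    (bγ m * (-2 * ((1 - sq x) * (2 + sq x) / (1 + sq x)) * lf τ x
      + 3 / 2 * (2 * (x ^ 2 / sq x ^ 2) / sq x ^ 2) * lf τ x ^ 2) - x * N' x) +
    (bγ m * (-2 * (1 - sq x ^ 2 / (1 + sq x)) * uf τ τ' x +
      3 * (x ^ 2 / sq x ^ 2) * lf τ x * uf τ τ' x) +
      μ * Real.exp (lf τ x / m) * uf τ τ' x)))

section

variable {m : ℕ} {r τ τ' T : ℝ → ℝ} {x : ℝ}

omit x in
theorem ball_prim_der (hm : 1 ≤ m) {x : ℝ} (hx : x ∈ Ioo (0 : ℝ) 1) :
    HasDerivAt (fun x => x * sq x ^ m * bg x + bN m x)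
      (sq x ^ (m - 1) * (-((m : ℝ) + 1) + ((m : ℝ) + 2 - bgm m) * sq x)) x := by
  obtain ⟨n, rfl⟩ := Nat.exists_eq_add_of_le' hm
  have hs := sqx_pos hx
  have hd := sqx_der hx
  have hxs := sqx_sq hx
  have h1s : (1 + sq x) ≠ 0 := by positivity
  have e := (((hasDerivAt_id x).mul (hd.pow (n + 1))).mul (bg_hasDerivAt (mem_neg hx))).add
    (bN_hasDerivAt (n + 1) x)
  refine e.congr_deriv ?_
  simp only [Pi.mul_apply, Pi.pow_apply, id, Nat.add_sub_cancel]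
  have e0 : bg x = sq x / (1 + sq x) := rfl
  rw [e0]
  push_cast
  have e1 : x * (((n : ℝ) + 1) * sq x ^ n * (-x / sq x)) = -(((n : ℝ) + 1) * sq x ^ n * (x ^ 2 / sq x)) := by
    ring
  have e2 : x * sq x ^ (n + 1) * (-x / (sq x * (1 + sq x) ^ 2)) =
      -(sq x ^ n * (x ^ 2 / (1 + sq x) ^ 2)) := by
    rw [pow_succ]
    field_simp
  rw [e1, e2, hxs, pow_succ]
  field_simp
  ring

theorem brΨ_der (hm : 1 ≤ m) (h : IsTrans m r τ τ' T) (hx : x ∈ Ioo (0 : ℝ) 1) {N N' : ℝ → ℝ}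
    (hN : HasDerivAt N (N' x) x) (μ : ℝ) :
    HasDerivAt (brΨ m τ N μ) (brΨ' m τ τ' N N' μ x) x := by
  have hb := ball_prim_der hm hx
  have hs := sqx_pos hx
  have hd := sqx_der hx
  have hl := lf_hasDerivAt h hx
  have hxs := sqx_sq hx
  have hx0 := hx.1
  have h1s : (1 + sq x) ≠ 0 := by positivity
  have hm0 : (m : ℝ) ≠ 0 := by
    have : (1 : ℝ) ≤ m := by exact_mod_cast hm
    linarith
  -- pieces
  have eR : HasDerivAt (fun x => 1 - sq x ^ 2 / (1 + sq x))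
      (((1 - sq x) * (2 + sq x) / (1 + sq x)) / x) x := by
    have := ((hd.pow 2).div (hd.const_add 1) h1s).const_sub 1
    refine this.congr_deriv ?_
    simp only [Pi.pow_apply]
    have : x ^ 2 = (1 - sq x) * (1 + sq x) := by rw [hxs]; ring
    field_simp
    push_cast
    have e3 : x ^ 2 = (1 - sq x) * (1 + sq x) := this
    rw [show sq x ^ (2 - 1) = sq x by simp]
    linear_combination ((sq x) * (2 + sq x)) * e3
  have ey : HasDerivAt (fun x => x ^ 2 / sq x ^ 2) ((2 * (x ^ 2 / sq x ^ 2) / sq x ^ 2) / x) x := by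
    have e0 : HasDerivAt (fun x : ℝ => x ^ 2) (2 * x) x := by simpa using hasDerivAt_pow 2 x
    have := e0.div (hd.pow 2) (pow_pos hs 2).ne'
    refine this.congr_deriv ?_
    simp only [Pi.pow_apply]
    field_simp
    push_cast
    rw [show sq x ^ (2 - 1) = sq x by simp]
    linear_combination (2 * sq x) * hxs
  have eE : HasDerivAt (fun x => Real.exp (lf τ x / m) - 1)
      (Real.exp (lf τ x / m) * ((uf τ τ' x / x) / m)) x :=
    ((hl.div_const (m : ℝ)).exp).sub_const 1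
  have eS : HasDerivAt (fun x => x * sq x ^ (m - 1))
      (sq x ^ (m - 1) * (1 - ((m : ℝ) - 1) * (x ^ 2 / sq x ^ 2))) x := by
    obtain ⟨n, rfl⟩ := Nat.exists_eq_add_of_le' hm
    rw [Nat.add_sub_cancel]
    rcases Nat.eq_zero_or_pos n with rfl | hn
    · simpa using hasDerivAt_id' x
    · obtain ⟨k, rfl⟩ := Nat.exists_eq_add_of_le' hn
      have := (hasDerivAt_id x).mul (hd.pow (k + 1))
      refine this.congr_deriv ?_
      simp only [Pi.pow_apply, id, Nat.add_sub_cancel]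
      push_cast
      rw [pow_succ]
      field_simp
      ring
  have eA := ((eR.const_mul (-2)).mul hl).add ((ey.const_mul (3 / 2)).mul (hl.pow 2))
  have eB := ((eA.const_mul (bγ m)).add (eE.const_mul (μ * m))).sub hN
  have e := (hb.const_mul (bγ m)).add (eS.mul eB)
  have e' := e.congr_of_eventuallyEq (f₁ := brΨ m τ N μ) (Filter.Eventually.of_forall fun t => by
    simp only [brΨ, Pi.add_apply, Pi.mul_apply, Pi.sub_apply, Pi.pow_apply])
  refine e'.congr_deriv ?_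
  unfold brΨ'
  simp only [Pi.add_apply, Pi.mul_apply, Pi.sub_apply, Pi.pow_apply]
  field_simp
  push_cast
  ring

/-- the pointwise functional along a transport, without the free null term -/
noncomputable def brT (m : ℕ) (τ τ' : ℝ → ℝ) (μ : ℝ) (x : ℝ) : ℝ :=
  TR m x (sq x) (lf τ x) (uf τ τ' x) 0 μ (Real.exp (lf τ x / m))
    ((1 + uf τ τ' x) ^ (1 / (m : ℝ))) (bg (τ x)) (bg x) 0 0

theorem rpow_tau' (h : IsTrans m r τ τ' T) (hx : x ∈ Ioo (0 : ℝ) 1) :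
    τ' x ^ (1 / (m : ℝ)) = Real.exp (lf τ x / m) * (1 + uf τ τ' x) ^ (1 / (m : ℝ)) := by
  have h1 := tr_pos h hx
  have h2 := uf_pos h hx
  have h3 : 0 < τ x / x := div_pos h1 hx.1
  rw [tau'_eq h hx, show τ x * (1 + uf τ τ' x) / x = τ x / x * (1 + uf τ τ' x) by ring,
    Real.mul_rpow h3.le h2.le, ← exp_lf h hx, ← Real.exp_mul]
  congr 2
  ring

/-- **identity (P), plain pair** -/
theorem plain_identity (hm : 1 ≤ m) (h : IsTrans m r τ τ' T) (hx : x ∈ Ioo (0 : ℝ) 1)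
    (N N' : ℝ → ℝ) (μ : ℝ) :
    bγ m * ((((m : ℝ) + 1) * prc m τ x + (τ x * prc' m τ τ' x + prp' m τ τ' x) / τ' x) * sq x ^ m)
      + μ * m * (sq x ^ (m - 1) * τ' x ^ (1 / (m : ℝ)) - sq x ^ (m - 1)) =
    sq x ^ (m - 1) * (brT m τ τ' μ x + (x * N' x + (1 - ((m : ℝ) - 1) * (x ^ 2 / sq x ^ 2)) * N x))
      + brΨ' m τ τ' N N' μ x := by
  have hv := plain_value h hx
  have hid := bri_TR (m := (m : ℝ)) (x := x) (s := sq x) (l := lf τ x) (u := uf τ τ' x) (L := 0)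
    (μ := μ) (E := Real.exp (lf τ x / m)) (V := (1 + uf τ τ' x) ^ (1 / (m : ℝ)))
    (gτ := bg (τ x)) (gbar := bgm m) (hh := 0) (xhh' := 0) (by positivity) (sqx_pos hx) (sqx_sq hx)
    (uf_pos h hx) rfl
  rw [rpow_tau' h hx]
  have hpow : sq x ^ m = sq x ^ (m - 1) * sq x := by
    obtain ⟨n, rfl⟩ := Nat.exists_eq_add_of_le' hm
    rw [Nat.add_sub_cancel, pow_succ]
  have e1 : bγ m * ((((m : ℝ) + 1) * prc m τ x + (τ x * prc' m τ τ' x + prp' m τ τ' x) / τ' x) *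
      sq x ^ m) = sq x ^ (m - 1) * (bγ m * (sq x * (((m : ℝ) + 1) * prc m τ x +
        (τ x * prc' m τ τ' x + prp' m τ τ' x) / τ' x))) := by
    rw [hpow]; ring
  rw [e1, hv]
  unfold brΨ' brT
  have e0 : bg x = sq x / (1 + sq x) := rfl
  rw [e0]
  unfold bγ
  linear_combination (sq x ^ (m - 1)) * hid

end

end Vale.Agent.P237.AllN
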