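import Vale.Agent.P237.AllN.Brid4
import Vale.Agent.P237.AllN.AssN

/-!
# P237, all dimensions: the plain certificate gives a positive value
-/

open MeasureTheory Metric Set Module Filter Topology

namespace Vale.Agent.P237.AllN

section

variable {m : ℕ} {r τ τ' T : ℝ → ℝ}

theorem lf_bdd (hm : 1 ≤ m) (hr : IsProf r) (h : IsTrans m r τ τ' T) :
    ∃ C : ℝ, 0 ≤ C ∧ ∀ x ∈ Ioo (0 : ℝ) 1, |lf τ x| ≤ C := by
  obtain ⟨C, hC, hb⟩ := h.near_zero hm hr
  refine ⟨|Real.log C|, abs_nonneg _, fun x hx => ?_⟩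
  obtain ⟨h1, h2⟩ := hb x hx
  have ht := tr_pos h hx
  have hq : 0 < τ x / x := div_pos ht hx.1
  have h3 : τ x / x ≤ C := by rw [div_le_iff₀ hx.1]; exact h2
  have h4 : C⁻¹ ≤ τ x / x := by
    rw [le_div_iff₀ hx.1, inv_mul_le_iff₀ hC]
    exact h1
  have h5 : Real.log (τ x / x) ≤ Real.log C := Real.log_le_log hq h3
  have h6 : -Real.log C ≤ Real.log (τ x / x) := by
    rw [← Real.log_inv]
    exact Real.log_le_log (inv_pos.2 hC) h4
  unfold lf
  have h7 := le_abs_self (Real.log C)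
  rw [abs_le]
  exact ⟨by linarith only [h6, h7], by linarith only [h5, h7]⟩

theorem tau_tendsto_zero (hm : 1 ≤ m) (hr : IsProf r) (h : IsTrans m r τ τ' T) :
    Tendsto τ (𝓝[>] 0) (𝓝 0) := by
  obtain ⟨C, hC, hb⟩ := h.near_zero hm hr
  have h1 : Tendsto (fun x : ℝ => C * x) (𝓝[>] 0) (𝓝 0) := by
    have : Tendsto (fun x : ℝ => C * x) (𝓝 0) (𝓝 (C * 0)) :=
      (continuous_const.mul continuous_id).tendsto 0
    rw [mul_zero] at this
    exact this.mono_left nhdsWithin_le_nhds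
  refine squeeze_zero' ?_ ?_ h1
  · filter_upwards [Ioo_mem_nhdsGT (zero_lt_one' ℝ)] with x hx
    exact (tr_pos h hx).le
  · filter_upwards [Ioo_mem_nhdsGT (zero_lt_one' ℝ)] with x hx
    exact (hb x hx).2

theorem sq_half {x : ℝ} (hx : x ∈ Ioo (0 : ℝ) (1 / 2)) : 1 / 2 ≤ sq x := by
  unfold sq
  apply Real.le_sqrt_of_sq_le
  nlinarith [hx.1, hx.2]

theorem bc0_bdd {x l C : ℝ} (hx : x ∈ Ioo (0 : ℝ) (1 / 2)) (hl : |l| ≤ C) :
    |bc0 (sq x) l| ≤ 1 + C * 16 := by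
  have hs := sq_half hx
  have hs1 := br_sq_le_one x
  have hs0 : 0 < sq x := by linarith
  have h1 : 1 / sq x ≤ 2 := by rw [div_le_iff₀ hs0]; linarith only [hs]
  have h2 : 1 ≤ 1 / sq x := by rw [le_div_iff₀ hs0]; linarith only [hs1]
  have h3 : 1 / sq x ^ 3 = (1 / sq x) ^ 3 := by rw [one_div_pow]
  have h4 : |1 / sq x ^ 3 - 3 / sq x + 2| ≤ 16 := by
    rw [h3, show 3 / sq x = 3 * (1 / sq x) by ring, abs_le]
    set P := 1 / sq x
    constructor
    · nlinarith only [h2, mul_nonneg (by linarith : 0 ≤ P - 1) (by linarith : 0 ≤ P - 1)]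
    · nlinarith only [h2, pow_le_pow_left₀ (by linarith : 0 ≤ P) h1 3]
  have h5 : |-(1 / sq x - 1)| ≤ 1 := by
    rw [abs_neg, abs_le]; constructor <;> linarith only [h1, h2]
  unfold bc0
  refine (abs_add_le _ _).trans ?_
  rw [abs_mul]
  have h6 : |l| * |1 / sq x ^ 3 - 3 / sq x + 2| ≤ C * 16 :=
    mul_le_mul hl h4 (abs_nonneg _) ((abs_nonneg _).trans hl)
  linarith only [h5, h6]

theorem bM0_bdd {x l C : ℝ} (hx : x ∈ Ioo (0 : ℝ) (1 / 2)) (hl : |l| ≤ C) :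
    |bM0 (sq x) l| ≤ 2 + C * 8 := by
  have hs := sq_half hx
  have hs0 : 0 < sq x := by linarith
  have h1 : |1 / (sq x * (1 + sq x))| ≤ 2 := by
    rw [abs_of_pos (by (clear * - hs; positivity)), div_le_iff₀ (by positivity)]
    nlinarith only [hs]
  have h2 : |l / sq x ^ 3| ≤ C * 8 := by
    rw [abs_div, abs_of_pos (pow_pos hs0 3), div_le_iff₀ (pow_pos hs0 3)]
    have h3 : 1 ≤ 8 * sq x ^ 3 := by
      have := pow_le_pow_left₀ (by norm_num) hs 3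
      norm_num at this
      linarith only [this]
    have hC : 0 ≤ C := (abs_nonneg _).trans hl
    nlinarith only [hl, h3, hC]
  unfold bM0
  refine (abs_sub _ _).trans ?_
  linarith only [h1, h2]

theorem prc_bdd (hm : 1 ≤ m) (hr : IsProf r) (h : IsTrans m r τ τ' T) :
    ∃ C : ℝ, ∀ x ∈ Ioo (0 : ℝ) (1 / 2), |prc m τ x| ≤ C := by
  obtain ⟨C, hC, hb⟩ := lf_bdd hm hr h
  refine ⟨1 + C * 16 + 1, fun x hx => ?_⟩
  have hx1 : x ∈ Ioo (0 : ℝ) 1 := ⟨hx.1, by linarith only [hx.2]⟩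
  have h1 := bc0_bdd hx (hb x hx1)
  have h2 : |τ x * bk m (τ x)| ≤ 1 := by
    rw [abs_mul]
    have h3 := h.mem x hx1
    have h4 := bk_abs_le m (τ x)
    have h5 : |τ x| ≤ 1 := by rw [abs_of_pos h3.1]; exact h3.2.le
    calc |τ x| * |bk m (τ x)| ≤ 1 * 1 := mul_le_mul h5 h4 (abs_nonneg _) zero_le_one
      _ = 1 := one_mul 1
  unfold prc
  exact (abs_sub _ _).trans (by linarith only [h1, h2])

theorem bk_tau_tendsto (hm : 1 ≤ m) (hr : IsProf r) (h : IsTrans m r τ τ' T) :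
    Tendsto (fun x => bk m (τ x)) (𝓝[>] 0) (𝓝 0) := by
  have h1 := tau_tendsto_zero hm hr h
  have h2 : ContinuousAt (bk m) 0 := bk_contAt m (by constructor <;> norm_num)
  have h3 : Tendsto (bk m) (𝓝 0) (𝓝 (bk m 0)) := h2
  rw [bk_zero] at h3
  exact h3.comp h1

theorem prp_tendsto (hm : 1 ≤ m) (hr : IsProf r) (h : IsTrans m r τ τ' T) :
    Tendsto (prp m τ) (𝓝[>] 0) (𝓝 0) := by
  obtain ⟨C, hC, hb⟩ := lf_bdd hm hr h
  have h1 : Tendsto (fun x => τ x * bM0 (sq x) (lf τ x)) (𝓝[>] 0) (𝓝 0) := by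
    have h2 : Tendsto (fun x => (2 + C * 8) * τ x) (𝓝[>] 0) (𝓝 0) := by
      have := (tau_tendsto_zero hm hr h).const_mul (2 + C * 8)
      rwa [mul_zero] at this
    refine squeeze_zero_norm' ?_ h2
    filter_upwards [Ioo_mem_nhdsGT (by norm_num : (0 : ℝ) < 1 / 2)] with x hx
    have hx1 : x ∈ Ioo (0 : ℝ) 1 := ⟨hx.1, by linarith only [hx.2]⟩
    have h3 := bM0_bdd hx (hb x hx1)
    have h4 := tr_pos h hx1
    rw [Real.norm_eq_abs, abs_mul, abs_of_pos h4, mul_comm]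
    exact mul_le_mul_of_nonneg_right h3 h4.le
  have := h1.add (bk_tau_tendsto hm hr h)
  rw [add_zero] at this
  exact this

theorem sq_tendsto_one : Tendsto sq (𝓝[<] 1) (𝓝 0) := by
  have : Tendsto sq (𝓝 1) (𝓝 (sq 1)) := br_sq_cont.continuousAt
  rw [br_sq_one] at this
  exact this.mono_left nhdsWithin_le_nhds

theorem prc_tendsto_one (hm : 2 ≤ m) (hr : IsProf r) (h : IsTrans m r τ τ' T) :
    Tendsto (fun x => sq x ^ (m + 2) * prc m τ x) (𝓝[<] 1) (𝓝 0) := by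
  obtain ⟨C, hC, hb⟩ := lf_bdd (by omega) hr h
  have h2 : Tendsto (fun x => (3 + C * 6) * sq x) (𝓝[<] 1) (𝓝 0) := by
    have := sq_tendsto_one.const_mul (3 + C * 6)
    rwa [mul_zero] at this
  refine squeeze_zero_norm' ?_ h2
  filter_upwards [Ioo_mem_nhdsLT (zero_lt_one' ℝ)] with x hx
  have hs := sqx_pos hx
  have hs1 := br_sq_le_one x
  have hl := hb x hx
  obtain ⟨n, rfl⟩ := Nat.exists_eq_add_of_le' hm
  have e : sq x ^ (n + 2 + 2) * prc (n + 2) τ x =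
      sq x * (-(sq x ^ (n + 2)) + sq x ^ (n + 3)) +
      sq x * (lf τ x * (sq x ^ n - 3 * sq x ^ (n + 2) + 2 * sq x ^ (n + 3))) -
      sq x * (sq x ^ (n + 3) * (τ x * bk (n + 2) (τ x))) := by
    unfold prc bc0
    have : sq x ^ (n + 2 + 2) = sq x ^ n * sq x ^ 4 := by ring
    rw [this]
    field_simp
    ring
  have p : ∀ k : ℕ, |sq x ^ k| ≤ 1 := fun k => by
    rw [abs_of_nonneg (pow_nonneg hs.le k)]
    exact pow_le_one₀ hs.le hs1
  have b1 : |sq x * (-(sq x ^ (n + 2)) + sq x ^ (n + 3))| ≤ sq x * 2 := by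
    rw [abs_mul, abs_of_pos hs]
    apply mul_le_mul_of_nonneg_left _ hs.le
    refine (abs_add_le _ _).trans ?_
    rw [abs_neg]
    linarith only [p (n + 2), p (n + 3)]
  have b2 : |sq x * (lf τ x * (sq x ^ n - 3 * sq x ^ (n + 2) + 2 * sq x ^ (n + 3)))| ≤
      sq x * (C * 6) := by
    rw [abs_mul, abs_of_pos hs]
    apply mul_le_mul_of_nonneg_left _ hs.le
    rw [abs_mul]
    apply mul_le_mul hl _ (abs_nonneg _) hC
    refine (abs_add_le _ _).trans ?_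
    have b3 : |sq x ^ n - 3 * sq x ^ (n + 2)| ≤ 4 := by
      refine (abs_sub _ _).trans ?_
      have h3 : |(3 : ℝ)| = 3 := by norm_num
      rw [abs_mul, h3]
      linarith only [p n, p (n + 2)]
    have b4 : |2 * sq x ^ (n + 3)| ≤ 2 := by
      have h3 : |(2 : ℝ)| = 2 := by norm_num
      rw [abs_mul, h3]
      linarith only [p (n + 3)]
    linarith only [b3, b4]
  have b5 : |sq x * (sq x ^ (n + 3) * (τ x * bk (n + 2) (τ x)))| ≤ sq x * 1 := by
    rw [abs_mul, abs_of_pos hs]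
    apply mul_le_mul_of_nonneg_left _ hs.le
    rw [abs_mul, abs_mul]
    have h3 := h.mem x hx
    have h4 := bk_abs_le (n + 2) (τ x)
    have h5 : |τ x| ≤ 1 := by rw [abs_of_pos h3.1]; exact h3.2.le
    have h6 : |τ x| * |bk (n + 2) (τ x)| ≤ 1 := by
      calc |τ x| * |bk (n + 2) (τ x)| ≤ 1 * 1 := mul_le_mul h5 h4 (abs_nonneg _) zero_le_one
        _ = 1 := one_mul 1
    calc |sq x ^ (n + 3)| * (|τ x| * |bk (n + 2) (τ x)|) ≤ 1 * 1 :=
          mul_le_mul (p _) h6 (mul_nonneg (abs_nonneg _) (abs_nonneg _)) zero_le_one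
      _ = 1 := one_mul 1
  rw [Real.norm_eq_abs, e]
  refine (abs_sub _ _).trans ?_
  have := abs_add_le (sq x * (-(sq x ^ (n + 2)) + sq x ^ (n + 3)))
    (sq x * (lf τ x * (sq x ^ n - 3 * sq x ^ (n + 2) + 2 * sq x ^ (n + 3))))
  linarith only [b1, b2, b5, this]

/-- bound of the primitive -/
theorem brΨ_bound (hm : 4 ≤ m) (hr : IsProf r) (h : IsTrans m r τ τ' T) {N : ℝ → ℝ} {μ CN : ℝ}
    (hNb : ∀ x ∈ Ioo (0 : ℝ) 1, |N x| * sq x ^ 2 ≤ CN) :
    ∃ K1 K2 : ℝ, ∀ x ∈ Ioo (0 : ℝ) 1, |brΨ m τ N μ x| ≤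
      bγ m * (|x * sq x ^ m * bg x| + |bN m x|) + K1 * (|x| * sq x ^ (m - 1)) +
        K2 * (|x| * sq x ^ (m - 3)) := by
  obtain ⟨C, hC, hb⟩ := lf_bdd (by omega) hr h
  have hγ : 0 ≤ bγ m := by
    have : (4 : ℝ) ≤ m := by exact_mod_cast hm
    unfold bγ
    exact div_nonneg (by linarith only [this]) (by linarith only [])
  refine ⟨bγ m * (2 * C) + |μ * m| * (Real.exp C + 1), bγ m * (3 / 2 * C ^ 2) + CN,
    fun x hx => ?_⟩
  have hs := sqx_pos hx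
  have hs1 := br_sq_le_one x
  have hl := hb x hx
  have hx0 := hx.1
  have hR : |1 - sq x ^ 2 / (1 + sq x)| ≤ 1 := by
    have h1 : 0 ≤ sq x ^ 2 / (1 + sq x) := by positivity
    have h2 : sq x ^ 2 / (1 + sq x) ≤ 1 := by
      rw [div_le_one (by positivity)]
      nlinarith only [hs, hs1]
    rw [abs_le]; constructor <;> linarith only [h1, h2]
  have a1 : |-2 * (1 - sq x ^ 2 / (1 + sq x)) * lf τ x| ≤ 2 * C := by
    rw [abs_mul, abs_mul]
    have : |(-2 : ℝ)| = 2 := by norm_num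
    rw [this]
    have h3 : |1 - sq x ^ 2 / (1 + sq x)| * |lf τ x| ≤ 1 * C :=
      mul_le_mul hR hl (abs_nonneg _) zero_le_one
    linarith
  have a2 : |μ * m * (Real.exp (lf τ x / m) - 1)| ≤ |μ * m| * (Real.exp C + 1) := by
    rw [abs_mul]
    apply mul_le_mul_of_nonneg_left _ (abs_nonneg _)
    refine (abs_sub _ _).trans ?_
    rw [abs_of_pos (Real.exp_pos _), abs_one]
    have : lf τ x / m ≤ C := by
      have h4 : (1 : ℝ) ≤ m := by exact_mod_cast (by omega : 1 ≤ m)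
      rw [div_le_iff₀ (by linarith only [h4])]
      have := (le_abs_self (lf τ x)).trans hl
      nlinarith only [this, hC, h4]
    linarith only [Real.exp_le_exp.2 this]
  have hl2 : lf τ x ^ 2 ≤ C ^ 2 := by
    rw [← sq_abs]
    exact pow_le_pow_left₀ (abs_nonneg _) hl 2
  have a3 : |x * sq x ^ (m - 1) * (bγ m * (3 / 2 * (x ^ 2 / sq x ^ 2) * lf τ x ^ 2) - N x)| ≤
      (bγ m * (3 / 2 * C ^ 2) + CN) * (|x| * sq x ^ (m - 3)) := by
    have e : x * sq x ^ (m - 1) * (bγ m * (3 / 2 * (x ^ 2 / sq x ^ 2) * lf τ x ^ 2) - N x) =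
        (bγ m * (3 / 2 * lf τ x ^ 2) * x ^ 2 - N x * sq x ^ 2) * (x * sq x ^ (m - 3)) := by
      obtain ⟨n, rfl⟩ := Nat.exists_eq_add_of_le' hm
      have e1 : n + 4 - 1 = n + 3 := rfl
      have e2 : n + 4 - 3 = n + 1 := rfl
      rw [e1, e2, show sq x ^ (n + 3) = sq x ^ (n + 1) * sq x ^ 2 by ring]
      field_simp
    have hx1 : x ^ 2 ≤ 1 := pow_le_one₀ hx0.le hx.2.le
    rw [e, abs_mul, abs_mul, abs_of_pos hx0, abs_of_nonneg (pow_nonneg hs.le _)]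
    apply mul_le_mul_of_nonneg_right _ (by positivity)
    refine (abs_sub _ _).trans (add_le_add ?_ ?_)
    · rw [abs_of_nonneg (by (clear * - hγ hx0; positivity))]
      have h5 : bγ m * (3 / 2 * lf τ x ^ 2) ≤ bγ m * (3 / 2 * C ^ 2) :=
        mul_le_mul_of_nonneg_left (by linarith only [hl2]) hγ
      calc bγ m * (3 / 2 * lf τ x ^ 2) * x ^ 2 ≤ bγ m * (3 / 2 * lf τ x ^ 2) * 1 :=
            mul_le_mul_of_nonneg_left hx1 (by (clear * - hγ; positivity))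
        _ ≤ _ := by linarith only [h5]
    · rw [abs_mul, abs_of_nonneg (pow_nonneg hs.le 2)]
      exact hNb x hx
  have e : brΨ m τ N μ x = (bγ m * (x * sq x ^ m * bg x + bN m x) +
      x * sq x ^ (m - 1) * (bγ m * (-2 * (1 - sq x ^ 2 / (1 + sq x)) * lf τ x) +
        μ * m * (Real.exp (lf τ x / m) - 1))) +
      x * sq x ^ (m - 1) * (bγ m * (3 / 2 * (x ^ 2 / sq x ^ 2) * lf τ x ^ 2) - N x) := by
    unfold brΨ
    ring
  rw [e]
  refine (abs_add_le _ _).trans (add_le_add ?_ a3)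
  refine (abs_add_le _ _).trans (add_le_add ?_ ?_)
  · rw [abs_mul, abs_of_nonneg hγ]
    exact mul_le_mul_of_nonneg_left (abs_add_le _ _) hγ
  · rw [abs_mul, abs_mul, abs_of_pos (pow_pos hs _), mul_comm]
    apply mul_le_mul_of_nonneg_right _ (by (clear * - hx0 hs; positivity))
    refine (abs_add_le _ _).trans (add_le_add ?_ a2)
    rw [abs_mul, abs_of_nonneg hγ]
    exact mul_le_mul_of_nonneg_left a1 hγ

theorem brΨ_tendsto_zero (hm : 4 ≤ m) (hr : IsProf r) (h : IsTrans m r τ τ' T) {N : ℝ → ℝ}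
    {μ CN : ℝ} (hNb : ∀ x ∈ Ioo (0 : ℝ) 1, |N x| * sq x ^ 2 ≤ CN) :
    Tendsto (brΨ m τ N μ) (𝓝[>] 0) (𝓝 0) := by
  obtain ⟨K1, K2, hK⟩ := brΨ_bound (μ := μ) hm hr h hNb
  have hc : Continuous fun x : ℝ => bγ m * (|x * sq x ^ m * bg x| + |bN m x|) +
      K1 * (|x| * sq x ^ (m - 1)) + K2 * (|x| * sq x ^ (m - 3)) := by
    have h1 := br_sq_cont
    have h2 := bg_cont
    have h3 := bN_cont m
    fun_prop
  have ht : Tendsto (fun x : ℝ => bγ m * (|x * sq x ^ m * bg x| + |bN m x|) +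
      K1 * (|x| * sq x ^ (m - 1)) + K2 * (|x| * sq x ^ (m - 3))) (𝓝[>] 0) (𝓝 0) := by
    have := hc.tendsto 0
    have e : bγ m * (|(0 : ℝ) * sq 0 ^ m * bg 0| + |bN m 0|) +
      K1 * (|(0 : ℝ)| * sq 0 ^ (m - 1)) + K2 * (|(0 : ℝ)| * sq 0 ^ (m - 3)) = 0 := by
      rw [bN_zero, abs_zero]; simp only [zero_mul, abs_zero, add_zero, mul_zero]
    rw [e] at this
    exact this.mono_left nhdsWithin_le_nhds
  refine squeeze_zero_norm' ?_ ht
  filter_upwards [Ioo_mem_nhdsGT (zero_lt_one' ℝ)] with x hx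
  rw [Real.norm_eq_abs]
  exact hK x hx

theorem brΨ_tendsto_one (hm : 4 ≤ m) (hr : IsProf r) (h : IsTrans m r τ τ' T) {N : ℝ → ℝ}
    {μ CN : ℝ} (hNb : ∀ x ∈ Ioo (0 : ℝ) 1, |N x| * sq x ^ 2 ≤ CN) :
    Tendsto (brΨ m τ N μ) (𝓝[<] 1) (𝓝 0) := by
  obtain ⟨K1, K2, hK⟩ := brΨ_bound (μ := μ) hm hr h hNb
  have hc : Continuous fun x : ℝ => bγ m * (|x * sq x ^ m * bg x| + |bN m x|) +
      K1 * (|x| * sq x ^ (m - 1)) + K2 * (|x| * sq x ^ (m - 3)) := by
    have h1 := br_sq_cont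
    have h2 := bg_cont
    have h3 := bN_cont m
    fun_prop
  have ht : Tendsto (fun x : ℝ => bγ m * (|x * sq x ^ m * bg x| + |bN m x|) +
      K1 * (|x| * sq x ^ (m - 1)) + K2 * (|x| * sq x ^ (m - 3))) (𝓝[<] 1) (𝓝 0) := by
    have := hc.tendsto 1
    have e : bγ m * (|(1 : ℝ) * sq 1 ^ m * bg 1| + |bN m 1|) +
      K1 * (|(1 : ℝ)| * sq 1 ^ (m - 1)) + K2 * (|(1 : ℝ)| * sq 1 ^ (m - 3)) = 0 := by
      rw [bN_one, br_sq_one, zero_pow (by omega : m ≠ 0), zero_pow (by omega : m - 1 ≠ 0),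
        zero_pow (by omega : m - 3 ≠ 0)]
      simp
    rw [e] at this
    exact this.mono_left nhdsWithin_le_nhds
  refine squeeze_zero_norm' ?_ ht
  filter_upwards [Ioo_mem_nhdsLT (zero_lt_one' ℝ)] with x hx
  rw [Real.norm_eq_abs]
  exact hK x hx

end

end Vale.Agent.P237.AllN
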