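import Vale.Agent.P237.AllN.Brid5

/-!
# P237, all dimensions: from the pointwise inequality to a positive value, general additional pair
-/

open MeasureTheory Metric Set Module Filter Topology

namespace Vale.Agent.P237.AllN

/-- An additional pair `(cx, px)` (functions of `x`, at the point `τ x`) on top of the plain pair
`(prc, prp)`, with its primitive `Ψx` and its pointwise functional `Tx`. -/
structure XPair (m : ℕ) (τ τ' cx px Ψx Tx : ℝ → ℝ) : Prop where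
  der : ∃ cx' px' : ℝ → ℝ, (∀ x ∈ Ioo (0 : ℝ) 1, HasDerivAt cx (cx' x) x) ∧
    ContinuousOn cx' (Ioo 0 1) ∧ (∀ x ∈ Ioo (0 : ℝ) 1, HasDerivAt px (px' x) x) ∧
    ContinuousOn px' (Ioo 0 1) ∧ ∀ x ∈ Ioo (0 : ℝ) 1, ∃ d : ℝ, HasDerivAt Ψx d x ∧
      bγ m * ((((m : ℝ) + 1) * cx x + (τ x * cx' x + px' x) / τ' x) * sq x ^ m) =
        sq x ^ (m - 1) * Tx x + d
  c0 : ∃ C : ℝ, ∀ x ∈ Ioo (0 : ℝ) (1 / 2), |cx x| ≤ C
  p0 : Tendsto px (𝓝[>] 0) (𝓝 0)
  c1 : Tendsto (fun x => sq x ^ (m + 2) * cx x) (𝓝[<] 1) (𝓝 0)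
  Ψ0 : Tendsto Ψx (𝓝[>] 0) (𝓝 0)
  Ψ1 : Tendsto Ψx (𝓝[<] 1) (𝓝 0)

theorem XPair.zero (m : ℕ) (τ τ' : ℝ → ℝ) :
    XPair m τ τ' (fun _ => 0) (fun _ => 0) (fun _ => 0) (fun _ => 0) where
  der := ⟨fun _ => 0, fun _ => 0, fun x _ => hasDerivAt_const x 0, continuousOn_const,
    fun x _ => hasDerivAt_const x 0, continuousOn_const, fun x _ => ⟨0, hasDerivAt_const x 0, by
      simp only [mul_zero, add_zero, zero_div, zero_mul]⟩⟩
  c0 := ⟨0, fun x _ => by simp⟩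
  p0 := tendsto_const_nhds
  c1 := by simp only [mul_zero, tendsto_const_nhds_iff]
  Ψ0 := tendsto_const_nhds
  Ψ1 := tendsto_const_nhds

theorem XPair.add {m : ℕ} {τ τ' cx px Ψx Tx cy py Ψy Ty : ℝ → ℝ} (h : XPair m τ τ' cx px Ψx Tx)
    (g : XPair m τ τ' cy py Ψy Ty) : XPair m τ τ' (fun x => cx x + cy x) (fun x => px x + py x)
      (fun x => Ψx x + Ψy x) (fun x => Tx x + Ty x) where
  der := by
    obtain ⟨c1, p1, a1, a2, a3, a4, a5⟩ := h.der
    obtain ⟨c2, p2, b1, b2, b3, b4, b5⟩ := g.der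
    refine ⟨fun x => c1 x + c2 x, fun x => p1 x + p2 x, fun x hx => (a1 x hx).add (b1 x hx),
      a2.add b2, fun x hx => (a3 x hx).add (b3 x hx), a4.add b4, fun x hx => ?_⟩
    obtain ⟨d1, e1, f1⟩ := a5 x hx
    obtain ⟨d2, e2, f2⟩ := b5 x hx
    refine ⟨d1 + d2, e1.add e2, ?_⟩
    rw [show ((m : ℝ) + 1) * (cx x + cy x) + (τ x * (c1 x + c2 x) + (p1 x + p2 x)) / τ' x =
      (((m : ℝ) + 1) * cx x + (τ x * c1 x + p1 x) / τ' x) +
      (((m : ℝ) + 1) * cy x + (τ x * c2 x + p2 x) / τ' x) by ring]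
    linear_combination f1 + f2
  c0 := by
    obtain ⟨C, hC⟩ := h.c0
    obtain ⟨D, hD⟩ := g.c0
    exact ⟨C + D, fun x hx => (abs_add_le _ _).trans (add_le_add (hC x hx) (hD x hx))⟩
  p0 := by simpa only [add_zero] using h.p0.add g.p0
  c1 := by
    have := h.c1.add g.c1
    rw [add_zero] at this
    refine this.congr fun x => ?_
    ring
  Ψ0 := by simpa only [add_zero] using h.Ψ0.add g.Ψ0
  Ψ1 := by simpa only [add_zero] using h.Ψ1.add g.Ψ1

theorem XPair.smul {m : ℕ} {τ τ' cx px Ψx Tx : ℝ → ℝ} (h : XPair m τ τ' cx px Ψx Tx) (k : ℝ) :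
    XPair m τ τ' (fun x => k * cx x) (fun x => k * px x)
      (fun x => k * Ψx x) (fun x => k * Tx x) where
  der := by
    obtain ⟨c1, p1, a1, a2, a3, a4, a5⟩ := h.der
    refine ⟨fun x => k * c1 x, fun x => k * p1 x, fun x hx => (a1 x hx).const_mul k,
      continuousOn_const.mul a2, fun x hx => (a3 x hx).const_mul k, continuousOn_const.mul a4,
      fun x hx => ?_⟩
    obtain ⟨d1, e1, f1⟩ := a5 x hx
    refine ⟨k * d1, e1.const_mul k, ?_⟩
    rw [show ((m : ℝ) + 1) * (k * cx x) + (τ x * (k * c1 x) + (k * p1 x)) / τ' x =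
      k * (((m : ℝ) + 1) * cx x + (τ x * c1 x + p1 x) / τ' x) by ring]
    linear_combination k * f1
  c0 := by
    obtain ⟨C, hC⟩ := h.c0
    refine ⟨|k| * C, fun x hx => ?_⟩
    rw [abs_mul]
    exact mul_le_mul_of_nonneg_left (hC x hx) (abs_nonneg _)
  p0 := by simpa only [mul_zero] using h.p0.const_mul k
  c1 := by
    have := h.c1.const_mul k
    rw [mul_zero] at this
    refine this.congr fun x => ?_
    ring
  Ψ0 := by simpa only [mul_zero] using h.Ψ0.const_mul k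
  Ψ1 := by simpa only [mul_zero] using h.Ψ1.const_mul k

theorem bγ_pos {m : ℕ} (hm : 2 ≤ m) : 0 < bγ m := by
  have : (2 : ℝ) ≤ m := by exact_mod_cast hm
  unfold bγ
  exact div_pos (by linarith only [this]) (by linarith only [])

section

variable {m : ℕ} {r τ τ' T : ℝ → ℝ}

/-- if `u ≡ 0` the profile is a half circle -/
theorem ball_of_u_zero (hm : 1 ≤ m) (hr : IsProf r) (h : IsTrans m r τ τ' T)
    (hu : ∀ x ∈ Ioo (0 : ℝ) 1, uf τ τ' x = 0) :
    ∃ k : ℝ, ∀ y ∈ Ioo (-1 : ℝ) 1, r y = k * Real.sqrt (1 - y ^ 2) := by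
  -- `l` is constant
  have hc : ∀ x ∈ Ioo (0 : ℝ) 1, lf τ x = lf τ (1 / 2) := by
    intro x hx
    refine (isOpen_Ioo.is_const_of_deriv_eq_zero isPreconnected_Ioo ?_ ?_ hx
      ⟨by norm_num, by norm_num⟩)
    · exact fun y hy => (lf_hasDerivAt h hy).differentiableAt.differentiableWithinAt
    · intro y hy
      rw [(lf_hasDerivAt h hy).deriv, hu y hy]
      simp
  set k := Real.exp (lf τ (1 / 2)) with hk
  have hk0 : 0 < k := Real.exp_pos _
  have ht : ∀ x ∈ Ioo (0 : ℝ) 1, τ x = k * x := by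
    intro x hx
    have := exp_lf h hx
    rw [hc x hx, ← hk] at this
    rw [this]
    have := hx.1.ne'
    (clear * - this; field_simp)
  have hk1 : k ≤ 1 := by
    by_contra hcon
    push Not at hcon
    have hx : 1 / k ∈ Ioo (0 : ℝ) 1 := ⟨by positivity, by rw [div_lt_one hk0]; exact hcon⟩
    have := (h.mem _ hx).2
    rw [ht _ hx] at this
    have e : k * (1 / k) = 1 := by field_simp
    linarith only [this, e]
  have hk2 : 1 ≤ k := by
    by_contra hcon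
    push Not at hcon
    have hy : (1 + k) / 2 ∈ Ioo (0 : ℝ) 1 := ⟨by positivity, by linarith only [hcon]⟩
    have h1 := h.right _ hy
    have h2 := h.Tmem _ hy
    rw [ht _ h2] at h1
    nlinarith only [hcon, h1, hk0, h2.2]
  have hk3 : k = 1 := le_antisymm hk1 hk2
  refine IsTrans.rigid hm hr h fun x hx => ?_
  rw [ht x hx, hk3, one_mul]

/-- **The bridge**: a pointwise inequality for `brT + Tx + null term` gives a positive value. -/
theorem cert_gen (hm : 4 ≤ m) {A : ℝ → ℝ → ℝ} (hA : Kern2 A) (hr : IsProf r)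
    (hT : IsTrans m r τ τ' T)
    (hN : (∫ y in (-1 : ℝ)..1, r y ^ (m - 1)) ^ m * aInt m ^ (m - 1) ≤
      aInt (m - 1) ^ m * (∫ y in (-1 : ℝ)..1, r y ^ m) ^ (m - 1))
    {cx px Ψx Tx : ℝ → ℝ} (hX : XPair m τ τ' cx px Ψx Tx)
    (hS : ∀ x ∈ Ioo (0 : ℝ) 1, ∀ b ∈ Icc (-1 : ℝ) 1, (bc0 (sq x) (lf τ x) + cx x) +
      (τ x * bM0 (sq x) (lf τ x) + px x) * b ≤ A (τ x) b)
    {μ : ℝ} (hμ : 0 ≤ μ) {x₀ CN : ℝ} {N N' : ℝ → ℝ} (hNc : ContinuousOn N (Ioo 0 1))
    (hNd : ∀ x ∈ Ioo (0 : ℝ) 1, x ≠ x₀ → HasDerivAt N (N' x) x)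
    (hNb : ∀ x ∈ Ioo (0 : ℝ) 1, |N x| * sq x ^ 2 ≤ CN) {ε : ℝ} (hε : 0 < ε)
    (hpt : ∀ x ∈ Ioo (0 : ℝ) 1, x ≠ x₀ → ε * (uf τ τ' x ^ 2 / (1 + uf τ τ' x)) ≤
      brT m τ τ' μ x + Tx x +
        (x * N' x + (1 - ((m : ℝ) - 1) * (x ^ 2 / sq x ^ 2)) * N x)) :
    (∃ k : ℝ, ∀ y ∈ Ioo (-1 : ℝ) 1, r y = k * Real.sqrt (1 - y ^ 2)) ∨
    ∃ v : ℝ, 0 < v ∧ AdmGe m (fun a b => A a b + (bφ m b - bφ m a)) r v := by
  by_cases hu : ∀ x ∈ Ioo (0 : ℝ) 1, uf τ τ' x = 0
  · exact Or.inl (ball_of_u_zero (by omega) hr hT hu)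
  right
  push Not at hu
  obtain ⟨x1, hx1, hux1⟩ := hu
  have hγ := bγ_pos (m := m) (by omega)
  obtain ⟨cx', px', a1, a2, a3, a4, a5⟩ := hX.der
  choose! Ψx' hΨx' hidx using a5
  have hm0 : (0 : ℝ) < m := by
    have : (4 : ℝ) ≤ m := by exact_mod_cast hm
    linarith only [this]
  -- the functions
  set W : ℝ → ℝ := fun x => (bγ m)⁻¹ * (sq x ^ (m - 1) * (ε * (uf τ τ' x ^ 2 / (1 + uf τ τ' x))))
    with hWd
  have hucont := uf_cont hT
  have hWcont : ContinuousOn W (Ioo 0 1) := by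
    refine continuousOn_const.mul ((br_sq_cont.continuousOn.pow _).mul (continuousOn_const.mul
      ((hucont.pow 2).div (continuousOn_const.add hucont) fun x hx => (uf_pos hT hx).ne')))
  have hΨc : ContinuousOn (brΨ m τ N μ) (Ioo 0 1) := by
    have hl := lf_cont hT
    have h1 : ContinuousOn sq (Ioo (0 : ℝ) 1) := br_sq_cont.continuousOn
    have h2 : ContinuousOn bg (Ioo (0 : ℝ) 1) := bg_cont.continuousOn
    have h3 : ContinuousOn (bN m) (Ioo (0 : ℝ) 1) := (bN_cont m).continuousOn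
    have hid : ContinuousOn (fun x : ℝ => x) (Ioo (0 : ℝ) 1) := continuousOn_id
    have h4 : ContinuousOn (fun x => sq x ^ 2 / (1 + sq x)) (Ioo (0 : ℝ) 1) :=
      (h1.pow 2).div (continuousOn_const.add h1) fun x hx => by
        have := sqx_pos hx
        exact (by linarith only [this] : (0 : ℝ) < 1 + sq x).ne'
    have h5 : ContinuousOn (fun x => x ^ 2 / sq x ^ 2) (Ioo (0 : ℝ) 1) :=
      (hid.pow 2).div (h1.pow 2) fun x hx => sq_ne x hx 2
    have h6 : ContinuousOn (fun x => Real.exp (lf τ x / m)) (Ioo (0 : ℝ) 1) :=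
      Real.continuous_exp.comp_continuousOn (hl.div_const _)
    unfold brΨ
    exact (continuousOn_const.mul (((hid.mul (h1.pow _)).mul h2).add h3)).add
      ((hid.mul (h1.pow _)).mul (((continuousOn_const.mul
        (((continuousOn_const.mul (continuousOn_const.sub h4)).mul hl).add
        ((continuousOn_const.mul h5).mul (hl.pow 2)))).add
        (continuousOn_const.mul (h6.sub continuousOn_const))).sub hNc))
  have hΨxc : ContinuousOn Ψx (Ioo 0 1) := fun x hx => (hΨx' x hx).continuousAt.continuousWithinAt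
  refine admGe_of_cert (m := m) (by omega) (c := fun x => prc m τ x + cx x)
    (c' := fun x => prc' m τ τ' x + cx' x) (p := fun x => prp m τ x + px x)
    (p' := fun x => prp' m τ τ' x + px' x) (μ := (bγ m)⁻¹ * (μ * m)) (x₀ := x₀) (W := W)
    (Ψ := fun x => (bγ m)⁻¹ * (brΨ m τ N μ x + Ψx x))
    (Ψ' := fun x => (bγ m)⁻¹ * (brΨ' m τ τ' N N' μ x + Ψx' x))
    (Kern2.addφ hA m) hr hT hN ?_ ?_ ?_ ?_ ?_ ?_ ?_ ?_ ?_ ?_ ?_ ?_ ?_ ?_ ?_ ?_
  · exact fun x hx => (prc_der hT hx).add (a1 x hx)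
  · exact (prc'_cont hT).add a2
  · exact fun x hx => (prp_der hT hx).add (a3 x hx)
  · exact (prp'_cont hT).add a4
  · intro x hx b hb
    have h1 := hS x hx b hb
    have h2 := bφ_tangent m (mem_neg (hT.mem x hx)) hb
    unfold prc prp
    linarith only [h1, h2]
  · obtain ⟨C1, hC1⟩ := prc_bdd (by omega) hr hT
    obtain ⟨C2, hC2⟩ := hX.c0
    exact ⟨C1 + C2, fun x hx => (abs_add_le _ _).trans (add_le_add (hC1 x hx) (hC2 x hx))⟩
  · simpa using (prp_tendsto (by omega) hr hT).add hX.p0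
  · have := (prc_tendsto_one (by omega) hr hT).add hX.c1
    rw [add_zero] at this
    refine this.congr fun x => ?_
    ring
  · (clear * - hγ hμ hm; positivity)
  · exact continuousOn_const.mul (hΨc.add hΨxc)
  · intro x hx hne
    exact ((brΨ_der (by omega) hT hx (hNd x hx hne) μ).add (hΨx' x hx)).const_mul _
  · simpa only [add_zero, mul_zero] using ((brΨ_tendsto_zero (μ := μ) hm hr hT hNb).add hX.Ψ0).const_mul (bγ m)⁻¹
  · simpa only [add_zero, mul_zero] using ((brΨ_tendsto_one (μ := μ) hm hr hT hNb).add hX.Ψ1).const_mul (bγ m)⁻¹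
  · intro x hx _
    have h1 := uf_pos hT hx
    have h2 := sqx_pos hx
    simp only [hWd]
    (clear * - hγ h2 hε h1; positivity)
  · refine ⟨x1, hx1, hWcont.continuousAt (isOpen_Ioo.mem_nhds hx1), ?_⟩
    have h1 := uf_pos hT hx1
    have h2 := sqx_pos hx1
    have h3 : 0 < uf τ τ' x1 ^ 2 := by (clear * - hux1; positivity)
    simp only [hWd]
    (clear * - hγ h2 hε hux1 h1; positivity)
  · intro x hx hne
    have hid := plain_identity (by omega : 1 ≤ m) hT hx N N' μ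
    have hx2 := hidx x hx
    have h1 := hpt x hx hne
    have hs := sqx_pos hx
    have hP : 0 < sq x ^ (m - 1) := pow_pos hs _
    have h2 := mul_le_mul_of_nonneg_left h1 hP.le
    have hγ' : bγ m * (bγ m)⁻¹ = 1 := mul_inv_cancel₀ hγ.ne'
    -- multiply by `bγ m`
    have key : bγ m * (W x + (bγ m)⁻¹ * (brΨ' m τ τ' N N' μ x + Ψx' x)) ≤
        bγ m * ((((m : ℝ) + 1) * (prc m τ x + cx x) + (τ x * (prc' m τ τ' x + cx' x) +
          (prp' m τ τ' x + px' x)) / τ' x) * sq x ^ m +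
        (bγ m)⁻¹ * (μ * m) * (sq x ^ (m - 1) * τ' x ^ (1 / (m : ℝ)) - sq x ^ (m - 1))) := by
      have e1 : bγ m * (W x + (bγ m)⁻¹ * (brΨ' m τ τ' N N' μ x + Ψx' x)) =
          sq x ^ (m - 1) * (ε * (uf τ τ' x ^ 2 / (1 + uf τ τ' x))) +
            (brΨ' m τ τ' N N' μ x + Ψx' x) := by
        simp only [hWd]
        linear_combination (sq x ^ (m - 1) * (ε * (uf τ τ' x ^ 2 / (1 + uf τ τ' x))) +
            (brΨ' m τ τ' N N' μ x + Ψx' x)) * hγ'
      have e2 : bγ m * ((((m : ℝ) + 1) * (prc m τ x + cx x) + (τ x * (prc' m τ τ' x + cx' x) +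
          (prp' m τ τ' x + px' x)) / τ' x) * sq x ^ m +
          (bγ m)⁻¹ * (μ * m) * (sq x ^ (m - 1) * τ' x ^ (1 / (m : ℝ)) - sq x ^ (m - 1))) =
          (bγ m * ((((m : ℝ) + 1) * prc m τ x + (τ x * prc' m τ τ' x + prp' m τ τ' x) / τ' x)
            * sq x ^ m) + μ * m * (sq x ^ (m - 1) * τ' x ^ (1 / (m : ℝ)) - sq x ^ (m - 1))) +
          bγ m * ((((m : ℝ) + 1) * cx x + (τ x * cx' x + px' x) / τ' x) * sq x ^ m) := by
        rw [show ((m : ℝ) + 1) * (prc m τ x + cx x) + (τ x * (prc' m τ τ' x + cx' x) +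
          (prp' m τ τ' x + px' x)) / τ' x =
          (((m : ℝ) + 1) * prc m τ x + (τ x * prc' m τ τ' x + prp' m τ τ' x) / τ' x) +
          (((m : ℝ) + 1) * cx x + (τ x * cx' x + px' x) / τ' x) by ring]
        linear_combination (μ * m * (sq x ^ (m - 1) * τ' x ^ (1 / (m : ℝ)) - sq x ^ (m - 1))) * hγ'
      rw [e1, e2, hid, hx2]
      linarith only [h2]
    exact le_of_mul_le_mul_left key hγ

end

end Vale.Agent.P237.AllN
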