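import Vale.Agent.P237.AllN.Brid6

/-!
# P237, all dimensions: certificates without gain, and the value at the ball
-/

open MeasureTheory Metric Set Module Filter Topology

namespace Vale.Agent.P237.AllN

/-- **Certificates**, version without gain. -/
theorem admGe_of_cert0 {m : ℕ} (hm : 3 ≤ m) {A : ℝ → ℝ → ℝ} (hA : Kern2 A) {r : ℝ → ℝ}
    (hr : IsProf r) {τ τ' T : ℝ → ℝ} (hT : IsTrans m r τ τ' T)
    (hN : (∫ y in (-1 : ℝ)..1, r y ^ (m - 1)) ^ m * aInt m ^ (m - 1) ≤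
      aInt (m - 1) ^ m * (∫ y in (-1 : ℝ)..1, r y ^ m) ^ (m - 1))
    {c c' p p' : ℝ → ℝ}
    (hc : ∀ x ∈ Ioo (0 : ℝ) 1, HasDerivAt c (c' x) x) (hc' : ContinuousOn c' (Ioo 0 1))
    (hp : ∀ x ∈ Ioo (0 : ℝ) 1, HasDerivAt p (p' x) x) (hp' : ContinuousOn p' (Ioo 0 1))
    (hle : ∀ x ∈ Ioo (0 : ℝ) 1, ∀ b ∈ Icc (-1 : ℝ) 1, c x + p x * b ≤ A (τ x) b)
    (hc0 : ∃ C : ℝ, ∀ x ∈ Ioo (0 : ℝ) (1/2), |c x| ≤ C)
    (hp0 : Tendsto p (𝓝[>] 0) (𝓝 0))
    (hc1 : Tendsto (fun x => sq x ^ (m + 2) * c x) (𝓝[<] 1) (𝓝 0))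
    {μ : ℝ} (hμ : 0 ≤ μ) {x₀ : ℝ} {Ψ Ψ' : ℝ → ℝ}
    (hΨ : ContinuousOn Ψ (Ioo 0 1)) (hΨd : ∀ x ∈ Ioo (0 : ℝ) 1, x ≠ x₀ → HasDerivAt Ψ (Ψ' x) x)
    (hΨ0 : Tendsto Ψ (𝓝[>] 0) (𝓝 0)) (hΨ1 : Tendsto Ψ (𝓝[<] 1) (𝓝 0))
    (hid0 : ∀ x ∈ Ioo (0 : ℝ) 1, x ≠ x₀ →
      Ψ' x ≤ (((m : ℝ) + 1) * c x + (τ x * c' x + p' x) / τ' x) * sq x ^ m +
        μ * (sq x ^ (m - 1) * τ' x ^ (1 / (m : ℝ)) - sq x ^ (m - 1))) :
    AdmGe m A r 0 := by
  have hm1 : 1 ≤ m := by omega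
  intro ε hε
  set W : ℝ → ℝ := fun _ => 0 with hWdef
  have hW : ∀ x ∈ Ioo (0 : ℝ) 1, x ≠ x₀ → 0 ≤ W x := fun _ _ _ => le_rfl
  have hid : ∀ x ∈ Ioo (0 : ℝ) 1, x ≠ x₀ →
      W x + Ψ' x ≤ (((m : ℝ) + 1) * c x + (τ x * c' x + p' x) / τ' x) * sq x ^ m +
        μ * (sq x ^ (m - 1) * τ' x ^ (1 / (m : ℝ)) - sq x ^ (m - 1)) := by
    intro x hx hne
    simpa only [hWdef, zero_add, one_div] using hid0 x hx hne
  obtain ⟨a1, b1, w1, ha1, hab1, hb1, hw1, hWw⟩ : ∃ a1 b1 w1 : ℝ, 0 < a1 ∧ a1 < b1 ∧ b1 < 1 ∧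
      w1 = 0 ∧ ∀ x ∈ Icc a1 b1, w1 ≤ W x :=
    ⟨1 / 4, 3 / 4, 0, by norm_num, by norm_num, by norm_num, rfl, fun _ _ => le_rfl⟩
  obtain ⟨M, hM⟩ := hA.bdd
  have hM0 : 0 ≤ M := (abs_nonneg _).trans (hM 0 ⟨by norm_num, by norm_num⟩ 0
    ⟨by norm_num, by norm_num⟩)
  obtain ⟨C1, hC1, hone⟩ := hT.near_one hm1 hr
  have hZr := ass_Zr_pos (m := m) hr
  have hZm := ass_Zm_pos m
  set Zr := ∫ t in (0 : ℝ)..1, r t ^ m with hZrd
  set Zm := ∫ t in (0 : ℝ)..1, sq t ^ m with hZmd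
  set q := Zr / Zm with hq
  have hq0 : 0 < q := by (clear * - hZr hZm; positivity)
  set R := r 0 ^ m with hR
  have hR0 : 0 < R := pow_pos (hr.pos 0 ⟨by norm_num, by norm_num⟩) m
  set w := ε / 8 with hwd
  have hw0 : 0 < w := by rw [hwd]; linarith only [hε]
  set κ := w / 16 with hκ
  have hκ0 : 0 < κ := by (clear * - hε; positivity)
  set η := w / (16 * R) with hη
  have hη0 : 0 < η := by (clear * - hε hR0; positivity)
  have hηR : η * R = κ := by rw [hη, hκ]; (clear * - hR0 hw0; field_simp)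
  obtain ⟨P, hP0, δ1, hδ1, hδ1', hPb⟩ := hA.end_pair hη0
  obtain ⟨δ2, hδ2, hcor⟩ := hA.corner η hη0
  have hm1' : (0 : ℝ) < (m : ℝ) + 1 := by positivity
  obtain ⟨α, hα0, hαa, A1, A2, A3, A4⟩ := ass_choose_zero hm1 hr hT hc0 hp0 hΨ0 q μ R
    (((m : ℝ) + 1) * M * R) hM0 ha1 hκ0
  obtain ⟨β, hβb, hβ1, B1, B2, B3, B4, B5, B6⟩ := ass_choose_one hm1 hr hT hc1 hΨ1 q μ C1
    (((m : ℝ) + 1) * (η + P) * R) hb1 hκ0 hδ1 hδ2
  -- facts about `α`, `β`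
  have hα01 : α ∈ Ioo (0 : ℝ) 1 := ⟨hα0, hαa.trans (hab1.trans hb1)⟩
  have hβ01 : β ∈ Ioo (0 : ℝ) 1 := ⟨(ha1.trans hab1).trans hβb, hβ1⟩
  have hαβ : α < β := hαa.trans (hab1.trans hβb)
  have hτα := hT.mem α hα01
  have hτβ := hT.mem β hβ01
  have hτlt : τ α < τ β := hT.mono hα01 hβ01 hαβ
  have hTα := hT.left α hα01
  have hTβ := hT.left β hβ01
  -- the cut
  have hTcont : ContinuousOn T (Ioo 0 1) := fun y hy =>
    (hT.Tder y hy).continuousAt.continuousWithinAt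
  have hinv : ContinuousOn (fun y => (τ' (T y))⁻¹) (Ioo 0 1) :=
    (hT.cont.comp hTcont fun y hy => hT.Tmem y hy).inv₀ fun y hy => (hT.pos _ (hT.Tmem y hy)).ne'
  have dcy : ∀ y ∈ Ioo (0 : ℝ) 1, HasDerivAt (fun y => c (T y)) (c' (T y) * (τ' (T y))⁻¹) y :=
    fun y hy => (hc _ (hT.Tmem y hy)).comp y (hT.Tder y hy)
  have dpy : ∀ y ∈ Ioo (0 : ℝ) 1, HasDerivAt (fun y => p (T y)) (p' (T y) * (τ' (T y))⁻¹) y :=
    fun y hy => (hp _ (hT.Tmem y hy)).comp y (hT.Tder y hy)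
  have ccy : ContinuousOn (fun y => c' (T y) * (τ' (T y))⁻¹) (Ioo 0 1) :=
    (hc'.comp hTcont fun y hy => hT.Tmem y hy).mul hinv
  have cpy : ContinuousOn (fun y => p' (T y) * (τ' (T y))⁻¹) (Ioo 0 1) :=
    (hp'.comp hTcont fun y hy => hT.Tmem y hy).mul hinv
  have hley : ∀ y ∈ Ioo (0 : ℝ) 1, ∀ b ∈ Icc (-1 : ℝ) 1, c (T y) + p (T y) * b ≤ A y b := by
    intro y hy b hb
    have := hle (T y) (hT.Tmem y hy) b hb
    rwa [hT.right y hy] at this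
  have hPy : ∀ y ∈ Icc (τ β) 1, ∀ b ∈ Icc (-1 : ℝ) 1, -η - P * (1 - b) ≤ A y b := by
    intro y hy b hb
    refine hPb y ⟨?_, hy.2⟩ b hb
    have := (abs_lt.1 B5).2
    linarith only [this, hy.1]
  have hcut := admGe_cut (m := m) hA hr (c := fun y => c (T y))
    (c' := fun y => c' (T y) * (τ' (T y))⁻¹) (p := fun y => p (T y))
    (p' := fun y => p' (T y) * (τ' (T y))⁻¹) hτα.1 hτlt hτβ.2 dcy ccy dpy cpy hley hM0 hM
    hη0.le hP0 hPy
  obtain ⟨d, d', e, e', h1, h2⟩ := hcut (ε / 2) (by linarith only [hε])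
  refine ⟨d, d', e, e', h1, le_trans ?_ h2⟩
  -- change of variables
  have hcov := hT.integral hm1 hr (F := fun y => ((m : ℝ) + 1) * c (T y) +
    y * (c' (T y) * (τ' (T y))⁻¹) + p' (T y) * (τ' (T y))⁻¹) (by
      refine ((continuousOn_const.mul fun y hy => ?_).add (continuousOn_id.mul ccy)).add cpy
      exact (dcy y hy).continuousAt.continuousWithinAt) hα0 hαβ.le hβ1
  have hcong : ∫ x in α..β, (((m : ℝ) + 1) * c (T (τ x)) +
      τ x * (c' (T (τ x)) * (τ' (T (τ x)))⁻¹) + p' (T (τ x)) * (τ' (T (τ x)))⁻¹) * sq x ^ m =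
      ∫ x in α..β, (((m : ℝ) + 1) * c x + (τ x * c' x + p' x) / τ' x) * sq x ^ m := by
    apply intervalIntegral.integral_congr
    intro x hx
    rw [uIcc_of_le hαβ.le] at hx
    have hx' : x ∈ Ioo (0 : ℝ) 1 := ⟨hα0.trans_le hx.1, hx.2.trans_lt hβ1⟩
    simp only [hT.left x hx']
    rw [div_eq_mul_inv]
    ring
  rw [hcong] at hcov
  have hlow := ass_lower hm hr hT hN hc hc' hp' hμ hΨ hΨd hW hid hab1 hWw hα0 hαa.le hβb.le hβ1
  set J := ∫ x in α..β, (((m : ℝ) + 1) * c x + (τ x * c' x + p' x) / τ' x) * sq x ^ m with hJ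
  set I := ∫ y in τ α..τ β, (((m : ℝ) + 1) * c (T y) + y * (c' (T y) * (τ' (T y))⁻¹) +
    p' (T y) * (τ' (T y))⁻¹) * r y ^ m with hI
  have hIJ : I = q * J := by
    rw [hq, div_mul_eq_mul_div, eq_div_iff hZm.ne', hcov]
    ring
  have hqJ : 0 + (q * Ψ β - q * Ψ α) - (q * μ * α + q * μ * (1 - β)) ≤ I := by
    rw [hIJ]
    rw [hw1, zero_mul] at hlow
    have := mul_le_mul_of_nonneg_left hlow hq0.le
    linarith only [this]
  -- boundary terms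
  have hmα : τ α ∈ Icc (0 : ℝ) 1 := ⟨hτα.1.le, hτα.2.le⟩
  have hmβ : τ β ∈ Icc (0 : ℝ) 1 := ⟨hτβ.1.le, hτβ.2.le⟩
  have rα0 : 0 ≤ r (τ α) ^ m := pow_nonneg (Alm.prof_nn hr hmα) m
  have rαR : r (τ α) ^ m ≤ R := pow_le_pow_left₀ (Alm.prof_nn hr hmα) (Alm.prof_le_zero hr hmα) m
  have rβ0 : 0 ≤ r (τ β) ^ m := pow_nonneg (Alm.prof_nn hr hmβ) m
  have rβR : r (τ β) ^ m ≤ R := pow_le_pow_left₀ (Alm.prof_nn hr hmβ) (Alm.prof_le_zero hr hmβ) m
  have b0 : -κ ≤ (τ α * (c α + M) + p α) * r (τ α) ^ m := by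
    have h1 : |(τ α * (c α + M) + p α) * r (τ α) ^ m| ≤ |(τ α * (c α + M) + p α) * R| := by
      rw [abs_mul, abs_mul, abs_of_nonneg rα0, abs_of_nonneg hR0.le]
      exact mul_le_mul_of_nonneg_left rαR (abs_nonneg _)
    linarith only [(abs_le.1 (h1.trans A3.le)).1]
  have b1' : (τ β * (c β + η + P) + p β - P) * r (τ β) ^ m ≤ 2 * κ + κ := by
    have h1 : c β + p β ≤ η := by
      have h2 := hle β hβ01 1 ⟨by norm_num, le_rfl⟩
      have h3 := hcor (τ β) ⟨by linarith only [(abs_lt.1 B6).2], hτβ.2.le⟩ 1 ⟨by linarith only [hδ2], le_rfl⟩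
      have := (abs_le.1 h3).2
      linarith only [h2, this]
    exact ass_bdry hτβ.2.le hη0.le hP0 hηR rβ0 rβR h1 hC1.le
      (pow_nonneg (ass_sq_nonneg β) (m + 2)) (hone β hβ01).1 B3
  have e0 : ((m : ℝ) + 1) * M * (∫ y in (0 : ℝ)..τ α, r y ^ m) ≤ κ := by
    have h1 := (ass_short (m := m) hr le_rfl hτα.1.le hτα.2.le).2
    rw [sub_zero] at h1
    have h2 := mul_le_mul_of_nonneg_left h1 (by (clear * - hm hM0; positivity) : 0 ≤ ((m : ℝ) + 1) * M)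
    have h3 := (abs_lt.1 A4).2
    linarith only [h2, h3]
  have e1 : ((m : ℝ) + 1) * (η + P) * (∫ y in τ β..1, r y ^ m) ≤ κ := by
    have h1 := (ass_short (m := m) hr hτβ.1.le hτβ.2.le le_rfl).2
    have h2 := mul_le_mul_of_nonneg_left h1 (by (clear * - hm hε hR0 hP0; positivity) : 0 ≤ ((m : ℝ) + 1) * (η + P))
    have h3 := (abs_lt.1 B4).2
    linarith only [h2, h3]
  have k1 := (abs_lt.1 A1).2
  have k2 := (abs_lt.1 A2).2
  have k3 := (abs_lt.1 B1).1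
  have k4 := (abs_lt.1 B2).2
  simp only [hTα, hTβ]
  have hκw : 16 * κ = w := by rw [hκ]; ring
  linarith only [hwd, hκ, hκ0, hqJ, b0, b1', e0, e1, k1, k2, k3, k4]

/-! ### the ball -/

theorem isProf_sq : IsProf sq where
  conc := by
    refine ⟨convex_Icc _ _, fun x hx y hy a b ha hb hab => ?_⟩
    simp only [smul_eq_mul]
    unfold sq
    apply Real.le_sqrt_of_sq_le
    have hx1 : 0 ≤ 1 - x ^ 2 := by nlinarith only [hx.1, hx.2]
    have hy1 : 0 ≤ 1 - y ^ 2 := by nlinarith only [hy.1, hy.2]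
    have h1 := Real.sq_sqrt hx1
    have h2 := Real.sq_sqrt hy1
    set X := Real.sqrt (1 - x ^ 2)
    set Y := Real.sqrt (1 - y ^ 2)
    have h3 : X * Y + x * y ≤ 1 := by nlinarith only [h1, h2, sq_nonneg (x - y)]
    have h4 : b = 1 - a := by linarith only [hab]
    have h5 : 0 ≤ a * b := mul_nonneg ha hb
    have h6 := mul_le_mul_of_nonneg_left h3 h5
    have e : (a * X + b * Y) ^ 2 + (a * x + b * y) ^ 2 =
        a ^ 2 * (X ^ 2 + x ^ 2) + b ^ 2 * (Y ^ 2 + y ^ 2) + 2 * (a * b * (X * Y + x * y)) := by ring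
    have e1 : X ^ 2 + x ^ 2 = 1 := by linarith only [h1]
    have e2 : Y ^ 2 + y ^ 2 = 1 := by linarith only [h2]
    rw [e1, e2] at e
    have e3 : (a + b) ^ 2 = 1 := by rw [hab]; norm_num
    linarith
  even := fun y => by unfold sq; simp only [even_two, Even.neg_pow]
  pos := fun y hy => br_sq_pos hy
  nonneg := Real.sqrt_nonneg _

theorem isTrans_id (m : ℕ) : IsTrans m sq (fun x => x) (fun _ => 1) (fun x => x) where
  mem := fun x hx => hx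
  der := fun x _ => hasDerivAt_id' x
  pos := fun _ _ => one_pos
  cont := continuousOn_const
  Tmem := fun x hx => hx
  left := fun _ _ => rfl
  right := fun _ _ => rfl
  Tder := fun y _ => by simpa using hasDerivAt_id' y
  mass := fun x _ => rfl
  eqn := fun x _ => by ring

theorem lf_id {x : ℝ} (hx : x ∈ Ioo (0 : ℝ) 1) : lf (fun x => x) x = 0 := by
  unfold lf
  rw [div_self hx.1.ne', Real.log_one]

theorem uf_id {x : ℝ} (hx : x ∈ Ioo (0 : ℝ) 1) : uf (fun x => x) (fun _ => 1) x = 0 := by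
  unfold uf
  rw [mul_one, div_self hx.1.ne', sub_self]

/-- **value at the ball** -/
theorem ball_value {m : ℕ} (hm : 4 ≤ m) {A : ℝ → ℝ → ℝ} (hA : Kern2 A)
    (hS : ∀ x ∈ Ioo (0 : ℝ) 1, ∀ b ∈ Icc (-1 : ℝ) 1,
      bc0 (sq x) 0 + x * bM0 (sq x) 0 * b ≤ A x b) :
    AdmGe m (fun a b => A a b + (bφ m b - bφ m a)) sq 0 := by
  have hT := isTrans_id m
  have hr := isProf_sq
  have hγ := bγ_pos (m := m) (by omega)
  have hNb : ∀ x ∈ Ioo (0 : ℝ) 1, |(fun _ : ℝ => (0 : ℝ)) x| * sq x ^ 2 ≤ 0 := fun x _ => by simp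
  refine admGe_of_cert0 (m := m) (by omega) (c := prc m (fun x => x))
    (c' := prc' m (fun x => x) (fun _ => 1)) (p := prp m (fun x => x))
    (p' := prp' m (fun x => x) (fun _ => 1)) (μ := 0) (x₀ := 0)
    (Ψ := fun x => (bγ m)⁻¹ * brΨ m (fun x => x) (fun _ => 0) 0 x)
    (Ψ' := fun x => (bγ m)⁻¹ * brΨ' m (fun x => x) (fun _ => 1) (fun _ => 0) (fun _ => 0) 0 x)
    (Kern2.addφ hA m) hr hT ?_ ?_ ?_ ?_ ?_ ?_ ?_ ?_ ?_ ?_ ?_ ?_ ?_ ?_ ?_
  · unfold aInt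
    rfl
  · exact fun x hx => prc_der hT hx
  · exact prc'_cont hT
  · exact fun x hx => prp_der hT hx
  · exact prp'_cont hT
  · intro x hx b hb
    have h1 := hS x hx b hb
    have h2 := bφ_tangent m (mem_neg hx) hb
    unfold prc prp
    rw [lf_id hx]
    linarith only [h1, h2]
  · exact prc_bdd (by omega) hr hT
  · exact prp_tendsto (by omega) hr hT
  · exact prc_tendsto_one (by omega) hr hT
  · exact le_rfl
  · intro x hx
    exact ((brΨ_der (N := fun _ => 0) (N' := fun _ => 0) (by omega) hT hx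
      (hasDerivAt_const x (0 : ℝ)) 0).const_mul _).continuousAt.continuousWithinAt
  · intro x hx _
    exact (brΨ_der (N := fun _ => 0) (N' := fun _ => 0) (by omega) hT hx
      (hasDerivAt_const x (0 : ℝ)) 0).const_mul _
  · simpa only [mul_zero] using ((brΨ_tendsto_zero (μ := 0) hm hr hT hNb)).const_mul (bγ m)⁻¹
  · simpa only [mul_zero] using ((brΨ_tendsto_one (μ := 0) hm hr hT hNb)).const_mul (bγ m)⁻¹
  · intro x hx _
    have hid := plain_identity (by omega : 1 ≤ m) hT hx (fun _ => 0) (fun _ => 0) 0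
    have hT0 : brT m (fun x => x) (fun _ => 1) 0 x = 0 := by
      unfold brT TR
      rw [lf_id hx, uf_id hx]
      simp only [mul_zero, sub_zero, ne_eq, OfNat.ofNat_ne_zero, not_false_eq_true, zero_pow, add_zero, div_one, zero_div, Real.exp_zero, mul_one, one_div, Real.one_rpow, sub_self, zero_mul]
    rw [hT0] at hid
    simp only [zero_mul, mul_zero, add_zero, zero_add] at hid ⊢
    rw [← hid, ← mul_assoc, inv_mul_cancel₀ hγ.ne', one_mul]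

end Vale.Agent.P237.AllN
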