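import Vale.Agent.P237.AllN.KerL0

/-!
# P237, all dimensions: a `K₁ log` line with nonnegative slope is admissible for `kA` on `b ≤ 0`
-/

open MeasureTheory Metric Set Module Filter Topology

namespace Vale.Agent.P237.AllN

/-- intercept of the `K₁ log` line with contact `q` -/
noncomputable def kAcq (a q : ℝ) : ℝ :=
  gC (fun z => lK z - 0 * z) (fun z => lK1 z - 0) (fun t => 0 / 2 * t ^ 2) (fun t => 0 * t) a q

/-- slope of the `K₁ log` line with contact `q` -/
noncomputable def kApq (a q : ℝ) : ℝ :=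
  gD (fun z => lK z - 0 * z) (fun z => lK1 z - 0) (fun t => 0 * t) a q

theorem kAcq_eq {a q : ℝ} (hq : 0 < q) :
    kAcq a q = (lK (a * q) - a * q * lK1 (a * q)) * Real.log (q / a) - lK (a * q) := by
  unfold kAcq gC gV gD
  field_simp
  ring

theorem kApq_eq {a q : ℝ} (hq : 0 < q) :
    kApq a q * q = a * q * lK1 (a * q) * Real.log (q / a) + lK (a * q) := by
  unfold kApq gD
  field_simp
  ring

/-- every `K₁ log` line is below `kA` on `b > 0` -/
theorem kAq_pos {a q b : ℝ} (ha : 0 < a) (ha1 : a < 1) (hq : 0 < q) (hq1 : a * q < 1)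
    (hb0 : 0 < b) (hb : b ≤ 1) : kAcq a q + kApq a q * b ≤ kA a b :=
  kL_tangent_pos (k := 0) (ν := 1 / 16) le_rfl (by norm_num) ha ha1 hq hq1 hb0 hb

theorem kneg_aux1 {s : ℝ} (hs0 : 0 < s) (hs : s ≤ 1 / 2) :
    1 / 16 ≤ (1 - s) / (2 * s * (1 + s)) := by
  have h2 : s ^ 2 ≤ s / 2 := by nlinarith only [hs0, hs]
  rw [div_le_div_iff₀ (by norm_num) (by positivity)]
  linarith

theorem kAcq_le {a q : ℝ} (ha : 0 < a) (ha1 : a < 1) (hq : 0 < q) (hq1 : a * q < 1)
    (hp : 0 ≤ kApq a q) : kAcq a q + a ^ 2 / 16 ≤ 0 := by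
  have hz0 : 0 < a * q := mul_pos ha hq
  obtain ⟨s, hs0, hs1, hz⟩ := exists_s hz0 hq1
  have hp' : 0 ≤ kApq a q * q := mul_nonneg hp hq.le
  rw [kApq_eq hq] at hp'
  rw [kAcq_eq hq]
  have hdK : a * q * lK1 (a * q) = (1 - s ^ 2) / (2 * s ^ 3) := by rw [hz]; exact dlK_eq hs0
  have hK : lK (a * q) = (1 - s) / s := by rw [hz]; exact lK_eq hs0
  rw [hdK, hK] at hp' ⊢
  set lam := Real.log (q / a) with hlam
  have h1s : 0 < 1 - s := by linarith only [hs1]
  rcases le_or_gt 0 lam with hl | hl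
  · -- `q ≥ a`
    have hqa : a ≤ q := by
      by_contra hc
      push Not at hc
      have : Real.log (q / a) < 0 := Real.log_neg (by (clear * - hq ha; positivity)) (by rw [div_lt_one ha]; exact hc)
      linarith only [hl, this]
    have h2 : a ^ 2 ≤ 1 - s ^ 2 := by rw [← hz]; nlinarith only [ha, hqa]
    have h3 : (1 - s) / s - (1 - s ^ 2) / (2 * s ^ 3) ≤ 0 := by
      have e : (1 - s) / s - (1 - s ^ 2) / (2 * s ^ 3) =
          -((1 - s) ^ 2 * (1 + 2 * s) / (2 * s ^ 3)) := by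
        field_simp
        ring
      rw [e]
      have : 0 ≤ (1 - s) ^ 2 * (1 + 2 * s) / (2 * s ^ 3) := by positivity
      linarith only [this]
    have h4 : ((1 - s) / s - (1 - s ^ 2) / (2 * s ^ 3)) * lam ≤ 0 :=
      mul_nonpos_of_nonpos_of_nonneg h3 hl
    have h5 : (1 - s ^ 2) / 16 ≤ (1 - s) / s := by
      rw [div_le_div_iff₀ (by norm_num) hs0]
      nlinarith only [hz, hs1, hz0, hs0]
    linarith only [h2, h4, h5]
  · set Λ := -lam with hΛ
    have hΛ0 : 0 < Λ := by rw [hΛ]; linarith only [hl]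
    have hlΛ : lam = -Λ := by rw [hΛ]; ring
    have haq : a / q = Real.exp Λ := by
      rw [hΛ, hlam, ← Real.log_inv, inv_div, Real.exp_log (by positivity)]
    have ha2 : a ^ 2 = (1 - s ^ 2) * Real.exp Λ := by
      rw [← hz, ← haq]
      field_simp
    -- `Λ ≤ 2 s²/(1+s)`
    have hP1 : Λ ≤ 2 * s ^ 2 / (1 + s) := by
      rw [hlΛ] at hp'
      have e : (1 - s ^ 2) / (2 * s ^ 3) * -Λ + (1 - s) / s =
          (1 - s) * (1 + s) / (2 * s ^ 3) * (2 * s ^ 2 / (1 + s) - Λ) := by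
        field_simp
        ring
      rw [e] at hp'
      have h6 : 0 < (1 - s) * (1 + s) / (2 * s ^ 3) := by positivity
      have := nonneg_of_mul_nonneg_right hp' h6
      linarith only [this]
    have hX : (1 - s) / s - (1 - s ^ 2) / (2 * s ^ 3) = -((1 - s) ^ 2 * (1 + 2 * s) / (2 * s ^ 3)) := by
      field_simp
      ring
    rw [hX, hlΛ]
    have hX0 : 0 ≤ (1 - s) ^ 2 * (1 + 2 * s) / (2 * s ^ 3) := by (clear * - hs1 hs0; positivity)
    rcases le_total (1 / 2) s with hs | hs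
    · -- use `hP1`
      have h7 : Λ ≤ 1 := by
        refine hP1.trans ?_
        rw [div_le_one (by positivity)]
        nlinarith only [hz0, hz, hs0]
      have h8 : Real.exp Λ ≤ 3 := by
        have := Real.exp_le_exp.2 h7
        have h9 := Real.exp_one_lt_d9
        linarith only [this, h9]
      have h10 := mul_le_mul_of_nonneg_left hP1 hX0
      have e : (1 - s) ^ 2 * (1 + 2 * s) / (2 * s ^ 3) * (2 * s ^ 2 / (1 + s)) - (1 - s) / s =
          -(2 * s * (1 - s) / (1 + s)) := by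
        field_simp
        ring
      have h11 : (1 - s ^ 2) * Real.exp Λ / 16 ≤ 2 * s * (1 - s) / (1 + s) := by
        rw [div_le_div_iff₀ (by norm_num) (by positivity)]
        have h12 : (1 - s ^ 2) * Real.exp Λ ≤ (1 - s ^ 2) * 3 := by
          apply mul_le_mul_of_nonneg_left h8
          nlinarith only [hz0, hz]
        have h13 : (1 - s ^ 2) * Real.exp Λ * (1 + s) ≤ (1 - s ^ 2) * 3 * (1 + s) :=
          mul_le_mul_of_nonneg_right h12 (by positivity)
        have h14 : (1 - s ^ 2) * 3 * (1 + s) ≤ 2 * s * (1 - s) * 16 := by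
          have : 0 ≤ (1 - s) * (32 * s - 3 * (1 + s) ^ 2) := by
            apply mul_nonneg h1s.le
            nlinarith only [hz0, hz, hs]
          nlinarith only [this]
        linarith only [h13, h14]
      rw [ha2]
      have e2 : -((1 - s) ^ 2 * (1 + 2 * s) / (2 * s ^ 3)) * -Λ =
        (1 - s) ^ 2 * (1 + 2 * s) / (2 * s ^ 3) * Λ := by ring
      rw [e2]
      linarith only [h10, e, h11]
    · -- use `Λ ≤ s²/(1-s²)`
      have hs2 : 0 < 1 - s ^ 2 := by nlinarith only [hz0, hz]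
      have h7 : Λ ≤ s ^ 2 / (1 - s ^ 2) := by
        have h8 : Real.log (1 - s ^ 2) + Λ ≤ 0 := by
          have : (1 - s ^ 2) * Real.exp Λ < 1 := by
            rw [← ha2]; exact pow_lt_one₀ ha.le ha1 two_ne_zero
          have h9 : Real.log ((1 - s ^ 2) * Real.exp Λ) ≤ 0 :=
            Real.log_nonpos (by (clear * - hs2; positivity)) this.le
          rwa [Real.log_mul hs2.ne' (Real.exp_pos _).ne', Real.log_exp] at h9
        have h9 := Real.log_le_sub_one_of_pos (x := (1 - s ^ 2)⁻¹) (by (clear * - hs2; positivity))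
        rw [Real.log_inv] at h9
        have e : (1 - s ^ 2)⁻¹ - 1 = s ^ 2 / (1 - s ^ 2) := by field_simp; ring
        linarith only [h8, h9, e]
      have h10 := mul_le_mul_of_nonneg_left h7 hX0
      have e : (1 - s) ^ 2 * (1 + 2 * s) / (2 * s ^ 3) * (s ^ 2 / (1 - s ^ 2)) - (1 - s) / s =
          -((1 - s) / (2 * s * (1 + s))) := by
        have : (1 - s ^ 2) = (1 - s) * (1 + s) := by ring
        rw [this]
        field_simp
        ring
      have h11 := kneg_aux1 hs0 hs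
      have h12 : a ^ 2 ≤ 1 := pow_le_one₀ ha.le ha1.le
      have e2 : -((1 - s) ^ 2 * (1 + 2 * s) / (2 * s ^ 3)) * -Λ =
        (1 - s) ^ 2 * (1 + 2 * s) / (2 * s ^ 3) * Λ := by ring
      rw [e2]
      linarith only [h10, e, h11, h12]

/-- **A `K₁ log` line with nonnegative slope is admissible for `kA`.** -/
theorem kAq_le {a q b : ℝ} (ha : 0 < a) (ha1 : a < 1) (hq : 0 < q) (hq1 : a * q < 1)
    (hp : 0 ≤ kApq a q) (hb : b ∈ Icc (-1 : ℝ) 1) : kAcq a q + kApq a q * b ≤ kA a b := by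
  rcases lt_or_ge 0 b with h | h
  · exact kAq_pos ha ha1 hq hq1 h hb.2
  · apply kA_neg ha _ h
    rw [min_eq_right hp]
    have := kAcq_le ha ha1 hq hq1 hp
    simpa only [ne_eq, OfNat.ofNat_ne_zero, not_false_eq_true, zero_pow, mul_zero, add_zero, ge_iff_le] using this

/-- a sufficient condition for nonnegative slope: `-log (q/a) ≤ 2 s²/(1+s)`, `s = √(1-aq)` -/
theorem kApq_nonneg {a q : ℝ} (ha : 0 < a) (hq : 0 < q) (hq1 : a * q < 1)
    (h : -Real.log (q / a) ≤ 2 * Real.sqrt (1 - a * q) ^ 2 / (1 + Real.sqrt (1 - a * q))) :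
    0 ≤ kApq a q := by
  have hz0 : 0 < a * q := mul_pos ha hq
  obtain ⟨s, hs0, hs1, hz⟩ := exists_s hz0 hq1
  have hss : Real.sqrt (1 - a * q) = s := by rw [hz, sub_sub_cancel, Real.sqrt_sq hs0.le]
  rw [hss] at h
  have h1s : 0 < 1 - s := by linarith only [hs1]
  have hdK : a * q * lK1 (a * q) = (1 - s ^ 2) / (2 * s ^ 3) := by rw [hz]; exact dlK_eq hs0
  have hK : lK (a * q) = (1 - s) / s := by rw [hz]; exact lK_eq hs0
  have hp : 0 ≤ q * kApq a q := by
    rw [mul_comm, kApq_eq hq, hdK, hK]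
    have e : (1 - s ^ 2) / (2 * s ^ 3) * Real.log (q / a) + (1 - s) / s =
        (1 - s) * (1 + s) / (2 * s ^ 3) * (2 * s ^ 2 / (1 + s) - -Real.log (q / a)) := by
      field_simp
      ring
    rw [e]
    apply mul_nonneg (by (clear * - hs1 hs0; positivity))
    linarith only [h]
  exact nonneg_of_mul_nonneg_right hp hq

/-- standard test point `q = x²/τ`: slope nonnegative iff `l ≤ s²/(1+s)` -/
theorem kA_std_le {x l b : ℝ} (hx : x ∈ Ioo (0 : ℝ) 1) (hτ : x * Real.exp l < 1)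
    (hl : l ≤ sq x ^ 2 / (1 + sq x)) (hb : b ∈ Icc (-1 : ℝ) 1) :
    kAc x l + kAp x l * b ≤ kA (x * Real.exp l) b := by
  have hx0 := hx.1
  have hτ0 : 0 < x * Real.exp l := by positivity
  have hz : x * Real.exp l * (x ^ 2 / (x * Real.exp l)) = x ^ 2 := by field_simp
  have hp : 0 ≤ kApq (x * Real.exp l) (x ^ 2 / (x * Real.exp l)) := by
    apply kApq_nonneg hτ0 (by positivity) (by rw [hz]; nlinarith only [hx0, hx.2])
    rw [hz, std_log hx0 rfl]
    unfold sq at hl
    have e : 2 * Real.sqrt (1 - x ^ 2) ^ 2 / (1 + Real.sqrt (1 - x ^ 2)) =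
      2 * (Real.sqrt (1 - x ^ 2) ^ 2 / (1 + Real.sqrt (1 - x ^ 2))) := by ring
    rw [e]
    linarith only [hl]
  have h := kAq_le hτ0 hτ (by positivity) (by rw [hz]; nlinarith only [hx0, hx.2]) hp hb
  have e1 : kAcq (x * Real.exp l) (x ^ 2 / (x * Real.exp l)) = kAc x l := kAc_eq hx
  have e2 : kApq (x * Real.exp l) (x ^ 2 / (x * Real.exp l)) = kAp x l := kAp_eq hx
  rwa [e1, e2] at h

end Vale.Agent.P237.AllN
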