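import Vale.Agent.P237.AllN.Brid7
import Vale.Agent.P237.AllN.KerNeg

/-!
# P237, all dimensions: from certificates to `OneD m`; the null term with the pole
-/

open MeasureTheory Metric Set Module Filter Topology

namespace Vale.Agent.P237.AllN

theorem admGe_pos_pair {m : ℕ} {A : ℝ → ℝ → ℝ} {r : ℝ → ℝ} {v : ℝ} (hv : 0 < v)
    (h : AdmGe m A r v) : ∃ c c' p p' : ℝ → ℝ, Adm A c c' p p' ∧
      0 < ∫ y in (-1 : ℝ)..1, (((m : ℝ) + 1) * c y + y * c' y + p' y) * r y ^ m := by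
  obtain ⟨c, c', p, p', h1, h2⟩ := h (v / 2) (by linarith)
  exact ⟨c, c', p, p', h1, by linarith⟩

/-- **`OneD m` from certificates** for the kernel `A + φ_c`. -/
theorem oneD_of_cert {m : ℕ} (hm : 4 ≤ m) {A : ℝ → ℝ → ℝ} (hA : Kern2 A)
    (hS : ∀ x ∈ Ioo (0 : ℝ) 1, ∀ b ∈ Icc (-1 : ℝ) 1,
      bc0 (sq x) 0 + x * bM0 (sq x) 0 * b ≤ A x b)
    (hcert : ∀ r τ τ' T : ℝ → ℝ, IsProf r → IsTrans m r τ τ' T →
      (∫ y in (-1 : ℝ)..1, r y ^ (m - 1)) ^ m * aInt m ^ (m - 1) ≤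
        aInt (m - 1) ^ m * (∫ y in (-1 : ℝ)..1, r y ^ m) ^ (m - 1) →
      (∃ k : ℝ, ∀ y ∈ Ioo (-1 : ℝ) 1, r y = k * Real.sqrt (1 - y ^ 2)) ∨
      ∃ v : ℝ, 0 < v ∧ AdmGe m (fun a b => A a b + (bφ m b - bφ m a)) r v) : OneD m := by
  refine ⟨fun a b => A a b + (bφ m b - bφ m a), (Kern2.addφ hA m).toKern, ?_, ?_⟩
  · intro ε hε
    obtain ⟨c, c', p, p', h1, h2⟩ := ball_value hm hA hS ε hε
    exact ⟨c, c', p, p', h1, by rw [zero_sub] at h2; exact h2⟩
  · intro r hr hN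
    obtain ⟨τ, τ', T, hT⟩ := exists_trans (m := m) (by omega) hr
    rcases hcert r τ τ' T hr hT hN with h | ⟨v, hv, h⟩
    · exact Or.inl h
    · exact Or.inr (admGe_pos_pair hv h)

theorem kAc_bc0 {x : ℝ} (hx : x ∈ Ioo (0 : ℝ) 1) (l : ℝ) : kAc x l = bc0 (sq x) l := by
  have hs := sqx_pos hx
  unfold kAc bc0
  rw [sqx_sq hx]
  field_simp
  ring

theorem kAp_bM0 (x l : ℝ) : kAp x l = x * Real.exp l * bM0 (sq x) l := rfl

section

variable {m : ℕ} {r τ τ' T : ℝ → ℝ}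

theorem tau_eq_exp (h : IsTrans m r τ τ' T) {x : ℝ} (hx : x ∈ Ioo (0 : ℝ) 1) :
    τ x = x * Real.exp (lf τ x) := by
  rw [exp_lf h hx]
  have := hx.1.ne'
  field_simp

/-- the plain line for `kA` is admissible where `l ≤ s²/(1+s)` -/
theorem kA_line (h : IsTrans m r τ τ' T) {x : ℝ} (hx : x ∈ Ioo (0 : ℝ) 1)
    (hl : lf τ x ≤ sq x ^ 2 / (1 + sq x)) {b : ℝ} (hb : b ∈ Icc (-1 : ℝ) 1) :
    bc0 (sq x) (lf τ x) + τ x * bM0 (sq x) (lf τ x) * b ≤ kA (τ x) b := by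
  have e := tau_eq_exp h hx
  have h1 := kA_std_le (l := lf τ x) hx (by rw [← e]; exact (h.mem x hx).2) hl hb
  rw [kAc_bc0 hx, kAp_bM0, ← e] at h1
  exact h1

theorem kA_line_ball {x : ℝ} (hx : x ∈ Ioo (0 : ℝ) 1) {b : ℝ} (hb : b ∈ Icc (-1 : ℝ) 1) :
    bc0 (sq x) 0 + x * bM0 (sq x) 0 * b ≤ kA x b := by
  have hs := sqx_pos hx
  have h1 := kA_std_le (l := 0) hx (by rw [Real.exp_zero, mul_one]; exact hx.2)
    (by positivity) hb
  rw [kAc_bc0 hx, kAp_bM0, Real.exp_zero, mul_one] at h1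
  exact h1

/-! ### the null term with the pole at `x₀` -/

/-- `H(x, l(x))` -/
noncomputable def nH (τ h e f : ℝ → ℝ) (x₀ : ℝ) (x : ℝ) : ℝ :=
  h x * (lf τ x - lf τ x₀) ^ 2 + e x * lf τ x₀ * (lf τ x - lf τ x₀) + f x * lf τ x₀ ^ 2

/-- its derivative -/
noncomputable def nH' (τ τ' h h' e e' f' : ℝ → ℝ) (x₀ : ℝ) (x : ℝ) : ℝ :=
  h' x * (lf τ x - lf τ x₀) ^ 2 + 2 * h x * (lf τ x - lf τ x₀) * (uf τ τ' x / x) +
    e' x * lf τ x₀ * (lf τ x - lf τ x₀) + e x * lf τ x₀ * (uf τ τ' x / x) + f' x * lf τ x₀ ^ 2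

theorem nH_der (hT : IsTrans m r τ τ' T) {h h' e e' f f' : ℝ → ℝ} {x₀ : ℝ} {x : ℝ}
    (hx : x ∈ Ioo (0 : ℝ) 1) (hh : HasDerivAt h (h' x) x) (he : HasDerivAt e (e' x) x)
    (hf : HasDerivAt f (f' x) x) :
    HasDerivAt (nH τ h e f x₀) (nH' τ τ' h h' e e' f' x₀ x) x := by
  have hl := (lf_hasDerivAt hT hx).sub_const (lf τ x₀)
  have e1 := ((hh.mul (hl.pow 2)).add ((he.mul_const (lf τ x₀)).mul hl)).add
    (hf.mul_const (lf τ x₀ ^ 2))
  refine e1.congr_deriv ?_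
  unfold nH'
  simp only [Pi.pow_apply]
  push_cast
  ring

/-- continuity and boundedness -/
theorem nH_cont (hm : 1 ≤ m) (hr : IsProf r) (hT : IsTrans m r τ τ' T) {h h' e e' f : ℝ → ℝ}
    {x₀ Ch Ce Cf : ℝ} (hx₀ : x₀ ∈ Ioo (0 : ℝ) 1)
    (hh : ∀ x ∈ Ioo (0 : ℝ) 1, x ≠ x₀ → HasDerivAt h (h' x) x)
    (he : ∀ x ∈ Ioo (0 : ℝ) 1, x ≠ x₀ → HasDerivAt e (e' x) x)
    (hhb : ∀ x ∈ Ioo (0 : ℝ) 1, |h x| * |x - x₀| ≤ Ch) (heb : ∀ x ∈ Ioo (0 : ℝ) 1, |e x| ≤ Ce)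
    (hfc : ContinuousOn f (Ioo 0 1)) (hfb : ∀ x ∈ Ioo (0 : ℝ) 1, |f x| ≤ Cf) :
    ContinuousOn (nH τ h e f x₀) (Ioo 0 1) ∧
    ∃ C : ℝ, ∀ x ∈ Ioo (0 : ℝ) 1, |nH τ h e f x₀ x| * sq x ^ 2 ≤ C := by
  -- difference quotient of `l` at `x₀`
  obtain ⟨Cl, hCl, hlb⟩ := lf_bdd hm hr hT
  have hCh : 0 ≤ Ch := (by positivity : 0 ≤ |h x₀| * |x₀ - x₀|).trans (hhb x₀ hx₀)
  have hCe : 0 ≤ Ce := (abs_nonneg _).trans (heb x₀ hx₀)
  set lam := lf τ x₀ with hlam
  have hnear : ∃ δ > (0 : ℝ), ∃ D : ℝ, 0 ≤ D ∧ ∀ x ∈ Ioo (0 : ℝ) 1, |x - x₀| < δ →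
      |lf τ x - lam| ≤ D * |x - x₀| := by
    have hd := lf_hasDerivAt hT hx₀
    have h1 := hd.isBigO_sub
    obtain ⟨D, hD⟩ := h1.bound
    obtain ⟨δ, hδ, hball⟩ := Metric.eventually_nhds_iff.1 hD
    refine ⟨δ, hδ, |D|, abs_nonneg _, fun x _ hx => ?_⟩
    have := hball (by rw [Real.dist_eq]; exact hx)
    simp only [Real.norm_eq_abs] at this
    exact this.trans (mul_le_mul_of_nonneg_right (le_abs_self D) (abs_nonneg _))
  obtain ⟨δ, hδ, D, hD0, hD⟩ := hnear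
  -- bound of the first term: `|h L²| ≤ Ch D |L|` near `x₀`
  have hLb : ∀ x ∈ Ioo (0 : ℝ) 1, |lf τ x - lam| ≤ 2 * Cl := fun x hx =>
    (abs_sub _ _).trans (by linarith [hlb x hx, hlb x₀ hx₀])
  have hnearb : ∀ x ∈ Ioo (0 : ℝ) 1, |x - x₀| < δ →
      |h x * (lf τ x - lam) ^ 2| ≤ Ch * D * |lf τ x - lam| := by
    intro x hx hxδ
    rw [abs_mul, abs_pow, pow_two]
    have h1 := hD x hx hxδ
    calc |h x| * (|lf τ x - lam| * |lf τ x - lam|) ≤ |h x| * ((D * |x - x₀|) * |lf τ x - lam|) := by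
          apply mul_le_mul_of_nonneg_left _ (abs_nonneg _)
          exact mul_le_mul_of_nonneg_right h1 (abs_nonneg _)
      _ = (|h x| * |x - x₀|) * (D * |lf τ x - lam|) := by ring
      _ ≤ Ch * (D * |lf τ x - lam|) :=
          mul_le_mul_of_nonneg_right (hhb x hx) (by positivity)
      _ = _ := by ring
  refine ⟨?_, ?_⟩
  · have hG : ContinuousOn (fun x => h x * (lf τ x - lam) ^ 2 + e x * lam * (lf τ x - lam))
        (Ioo 0 1) := by
      intro x hx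
      by_cases hne : x = x₀
      · subst hne
        have hL0 : Tendsto (fun y => |lf τ y - lam|) (𝓝[Ioo 0 1] x) (𝓝 0) := by
          have h1 : Tendsto (fun y => lf τ y - lam) (𝓝[Ioo 0 1] x) (𝓝 (lf τ x - lam)) :=
            ((lf_cont hT x hx).sub continuousWithinAt_const).tendsto
          rw [← hlam, sub_self] at h1
          simpa using h1.abs
        have h2 : Tendsto (fun y => Ch * D * |lf τ y - lam| + Ce * |lam| * |lf τ y - lam|)
            (𝓝[Ioo 0 1] x) (𝓝 0) := by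
          have := (hL0.const_mul (Ch * D)).add (hL0.const_mul (Ce * |lam|))
          simpa using this
        have h3 : Tendsto (fun y => h y * (lf τ y - lam) ^ 2 + e y * lam * (lf τ y - lam))
            (𝓝[Ioo 0 1] x) (𝓝 0) := by
          refine squeeze_zero_norm' ?_ h2
          have h4 : ∀ᶠ y in 𝓝[Ioo 0 1] x, |y - x| < δ := by
            have : ∀ᶠ y in 𝓝 x, |y - x| < δ := by
              filter_upwards [Metric.ball_mem_nhds x hδ] with y hy
              rwa [Metric.mem_ball, Real.dist_eq] at hy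
            exact this.filter_mono nhdsWithin_le_nhds
          filter_upwards [h4, self_mem_nhdsWithin] with y hy hy1
          rw [Real.norm_eq_abs]
          refine (abs_add_le _ _).trans (add_le_add (hnearb y hy1 hy) ?_)
          rw [abs_mul, abs_mul]
          exact mul_le_mul_of_nonneg_right (mul_le_mul_of_nonneg_right (heb y hy1) (abs_nonneg _))
            (abs_nonneg _)
        unfold ContinuousWithinAt
        have hval : h x * (lf τ x - lam) ^ 2 + e x * lam * (lf τ x - lam) = 0 := by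
          rw [← hlam, sub_self]
          ring
        beta_reduce
        rw [hval]
        exact h3
      · have hl := (lf_hasDerivAt hT hx).sub_const lam
        exact (((hh x hx hne).mul (hl.pow 2)).add
          (((he x hx hne).mul_const lam).mul hl)).continuousAt.continuousWithinAt
    unfold nH
    rw [← hlam]
    exact hG.add (hfc.mul continuousOn_const)
  · refine ⟨Ch * D * (2 * Cl) + Ch / δ * (2 * Cl) ^ 2 + Ce * |lam| * (2 * Cl) + Cf * lam ^ 2,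
      fun x hx => ?_⟩
    have hs1 := br_sq_le_one x
    have hs0 := sqx_pos hx
    have hs2 : sq x ^ 2 ≤ 1 := pow_le_one₀ hs0.le hs1
    have b1 : |h x * (lf τ x - lam) ^ 2| ≤ Ch * D * (2 * Cl) + Ch / δ * (2 * Cl) ^ 2 := by
      have p1 : 0 ≤ Ch * D * (2 * Cl) := by positivity
      have p2 : 0 ≤ Ch / δ * (2 * Cl) ^ 2 := by positivity
      rcases lt_or_ge |x - x₀| δ with h1 | h1
      · have := hnearb x hx h1
        have h2 : Ch * D * |lf τ x - lam| ≤ Ch * D * (2 * Cl) :=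
          mul_le_mul_of_nonneg_left (hLb x hx) (by positivity)
        linarith
      · have h2 : |h x| ≤ Ch / δ := by
          rw [le_div_iff₀ hδ]
          exact (mul_le_mul_of_nonneg_left h1 (abs_nonneg _)).trans (hhb x hx)
        have h3 : |h x * (lf τ x - lam) ^ 2| ≤ Ch / δ * (2 * Cl) ^ 2 := by
          rw [abs_mul, abs_pow]
          exact mul_le_mul h2 (pow_le_pow_left₀ (abs_nonneg _) (hLb x hx) 2) (by positivity)
            (by positivity)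
        linarith
    have b2 : |e x * lam * (lf τ x - lam)| ≤ Ce * |lam| * (2 * Cl) := by
      rw [abs_mul, abs_mul]
      exact mul_le_mul (mul_le_mul_of_nonneg_right (heb x hx) (abs_nonneg _)) (hLb x hx)
        (abs_nonneg _) (by positivity)
    have b3 : |nH τ h e f x₀ x| ≤
        Ch * D * (2 * Cl) + Ch / δ * (2 * Cl) ^ 2 + Ce * |lam| * (2 * Cl) + Cf * lam ^ 2 := by
      unfold nH
      rw [← hlam]
      refine (abs_add_le _ _).trans (add_le_add ((abs_add_le _ _).trans (add_le_add b1 b2)) ?_)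
      rw [abs_mul, abs_of_nonneg (sq_nonneg lam)]
      exact mul_le_mul_of_nonneg_right (hfb x hx) (sq_nonneg lam)
    calc |nH τ h e f x₀ x| * sq x ^ 2 ≤ |nH τ h e f x₀ x| * 1 :=
          mul_le_mul_of_nonneg_left hs2 (abs_nonneg _)
      _ ≤ _ := by rw [mul_one]; exact b3

end

end Vale.Agent.P237.AllN
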