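import Vale.Agent.P237.AllN.Brid8

/-!
# P237, all dimensions: the certificate with a pole potential at `x₀`
-/

open MeasureTheory Metric Set Module Filter Topology

namespace Vale.Agent.P237.AllN

/-- the pointwise functional `T` without null term, explicit form:
`bγ m = (m-1)/(m+1)`, `bg t = √(1-t²)/(1+√(1-t²))` -/
theorem brT_eq (m : ℕ) (τ τ' : ℝ → ℝ) (μ x : ℝ) : brT m τ τ' μ x =
    bγ m * (2 * (1 - sq x ^ 2 / (1 + sq x)) - 3 * (x ^ 2 / sq x ^ 2) * lf τ x) *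
      (uf τ τ' x ^ 2 / (1 + uf τ τ' x)) -
    μ * Real.exp (lf τ x / m) *
      (uf τ τ' x - m * ((1 + uf τ τ' x) ^ (1 / (m : ℝ)) - 1)) +
    ((m : ℝ) - 1) * (x ^ 2 / sq x ^ 2) * (μ * m * (Real.exp (lf τ x / m) - 1) - lf τ x) -
    3 / 2 * bγ m * (x ^ 2 / sq x ^ 2) * (3 - ((m : ℝ) - 3) * (x ^ 2 / sq x ^ 2)) * lf τ x ^ 2 +
    bγ m * (sq x * (bg (τ x) - bg x) + x ^ 2 * lf τ x / (1 + sq x) ^ 2) := by
  unfold brT TR bγ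
  ring

section

variable {m : ℕ} {r τ τ' T : ℝ → ℝ}

/-- `cert_gen` with the null term `h(x) L² + e(x) lam L + f(x) lam²`, `lam = l(x₀)`,
`L = l - lam`. -/
theorem cert_H (hm : 4 ≤ m) {A : ℝ → ℝ → ℝ} (hA : Kern2 A) (hr : IsProf r)
    (hT : IsTrans m r τ τ' T)
    (hN : (∫ y in (-1 : ℝ)..1, r y ^ (m - 1)) ^ m * aInt m ^ (m - 1) ≤
      aInt (m - 1) ^ m * (∫ y in (-1 : ℝ)..1, r y ^ m) ^ (m - 1))
    {cx px Ψx Tx : ℝ → ℝ} (hX : XPair m τ τ' cx px Ψx Tx)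
    (hS : ∀ x ∈ Ioo (0 : ℝ) 1, ∀ b ∈ Icc (-1 : ℝ) 1, (bc0 (sq x) (lf τ x) + cx x) +
      (τ x * bM0 (sq x) (lf τ x) + px x) * b ≤ A (τ x) b)
    {μ : ℝ} (hμ : 0 ≤ μ) {x₀ : ℝ} (hx₀ : x₀ ∈ Ioo (0 : ℝ) 1) {h h' e e' f f' : ℝ → ℝ}
    {Ch Ce Cf : ℝ}
    (hh : ∀ x ∈ Ioo (0 : ℝ) 1, x ≠ x₀ → HasDerivAt h (h' x) x)
    (he : ∀ x ∈ Ioo (0 : ℝ) 1, x ≠ x₀ → HasDerivAt e (e' x) x)
    (hf : ∀ x ∈ Ioo (0 : ℝ) 1, x ≠ x₀ → HasDerivAt f (f' x) x)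
    (hhb : ∀ x ∈ Ioo (0 : ℝ) 1, |h x| * |x - x₀| ≤ Ch) (heb : ∀ x ∈ Ioo (0 : ℝ) 1, |e x| ≤ Ce)
    (hfc : ContinuousOn f (Ioo 0 1)) (hfb : ∀ x ∈ Ioo (0 : ℝ) 1, |f x| ≤ Cf)
    {ε : ℝ} (hε : 0 < ε)
    (hpt : ∀ x ∈ Ioo (0 : ℝ) 1, x ≠ x₀ → ε * (uf τ τ' x ^ 2 / (1 + uf τ τ' x)) ≤
      brT m τ τ' μ x + Tx x + (x * h' x * (lf τ x - lf τ x₀) ^ 2 +
        2 * h x * (lf τ x - lf τ x₀) * uf τ τ' x + x * e' x * lf τ x₀ * (lf τ x - lf τ x₀) +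
        e x * lf τ x₀ * uf τ τ' x + x * f' x * lf τ x₀ ^ 2 +
        (1 - ((m : ℝ) - 1) * (x ^ 2 / sq x ^ 2)) *
          (h x * (lf τ x - lf τ x₀) ^ 2 + e x * lf τ x₀ * (lf τ x - lf τ x₀) +
            f x * lf τ x₀ ^ 2))) :
    (∃ k : ℝ, ∀ y ∈ Ioo (-1 : ℝ) 1, r y = k * Real.sqrt (1 - y ^ 2)) ∨
    ∃ v : ℝ, 0 < v ∧ AdmGe m (fun a b => A a b + (bφ m b - bφ m a)) r v := by
  obtain ⟨hc, C, hC⟩ := nH_cont (by omega) hr hT hx₀ hh he hhb heb hfc hfb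
  refine cert_gen hm hA hr hT hN hX hS hμ (x₀ := x₀) (N := nH τ h e f x₀)
    (N' := nH' τ τ' h h' e e' f' x₀) hc
    (fun x hx hne => nH_der hT hx (hh x hx hne) (he x hx hne) (hf x hx hne)) hC hε ?_
  intro x hx hne
  refine (hpt x hx hne).trans (le_of_eq ?_)
  have hx0 := hx.1.ne'
  unfold nH nH'
  field_simp

/-! ### pole potential: `a1 x²/(x₀²-x²) + gL` on the left, `-a4 x²/(x²-x₀²) + gR` on the right -/

/-- two-sided function -/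
noncomputable def glue (x₀ : ℝ) (f g : ℝ → ℝ) (x : ℝ) : ℝ := if x < x₀ then f x else g x

theorem glue_left {x₀ x : ℝ} {f g : ℝ → ℝ} (h : x < x₀) : glue x₀ f g x = f x := if_pos h

theorem glue_right {x₀ x : ℝ} {f g : ℝ → ℝ} (h : x₀ < x) : glue x₀ f g x = g x :=
  if_neg (not_lt.2 h.le)

theorem glue_der {x₀ x : ℝ} {f f' g g' : ℝ → ℝ} (hne : x ≠ x₀)
    (hf : x < x₀ → HasDerivAt f (f' x) x) (hg : x₀ < x → HasDerivAt g (g' x) x) :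
    HasDerivAt (glue x₀ f g) (glue x₀ f' g' x) x := by
  rcases lt_or_gt_of_ne hne with h | h
  · rw [glue_left h]
    refine (hf h).congr_of_eventuallyEq ?_
    filter_upwards [Iio_mem_nhds h] with y hy
    exact glue_left (mem_Iio.1 hy)
  · rw [glue_right h]
    refine (hg h).congr_of_eventuallyEq ?_
    filter_upwards [Ioi_mem_nhds h] with y hy
    exact glue_right (mem_Ioi.1 hy)

theorem bdd_of_cont {f : ℝ → ℝ} (hf : ContinuousOn f (Icc 0 1)) :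
    ∃ C : ℝ, 0 ≤ C ∧ ∀ x ∈ Icc (0 : ℝ) 1, |f x| ≤ C := by
  obtain ⟨C, hC⟩ := isCompact_Icc.exists_bound_of_continuousOn hf
  exact ⟨|C|, abs_nonneg _, fun x hx => (hC x hx).trans (le_abs_self C)⟩

theorem pole_left_der {a1 x₀ x g' : ℝ} {g : ℝ → ℝ} (hx : 0 < x) (h : x < x₀)
    (hg : HasDerivAt g g' x) : HasDerivAt (fun x : ℝ => a1 * (x ^ 2 / (x₀ ^ 2 - x ^ 2)) + g x)
      (a1 * (2 * x * x₀ ^ 2 / (x₀ ^ 2 - x ^ 2) ^ 2) + g') x := by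
  have d2 : HasDerivAt (fun x : ℝ => x ^ 2) (2 * x) x := by simpa only [Nat.cast_ofNat, Nat.add_one_sub_one, pow_one] using hasDerivAt_pow 2 x
  have hp : x₀ ^ 2 - x ^ 2 ≠ 0 := by
    have : x ^ 2 < x₀ ^ 2 := pow_lt_pow_left₀ h hx.le two_ne_zero
    linarith
  refine (((d2.div (d2.const_sub (x₀ ^ 2)) hp).const_mul a1).add hg).congr_deriv ?_
  congr 2
  field_simp
  ring

theorem pole_right_der {a4 x₀ x g' : ℝ} {g : ℝ → ℝ} (hx₀ : 0 < x₀) (h : x₀ < x)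
    (hg : HasDerivAt g g' x) : HasDerivAt (fun x : ℝ => -(a4 * (x ^ 2 / (x ^ 2 - x₀ ^ 2))) + g x)
      (a4 * (2 * x * x₀ ^ 2 / (x ^ 2 - x₀ ^ 2) ^ 2) + g') x := by
  have d2 : HasDerivAt (fun x : ℝ => x ^ 2) (2 * x) x := by simpa only [Nat.cast_ofNat, Nat.add_one_sub_one, pow_one] using hasDerivAt_pow 2 x
  have hp : x ^ 2 - x₀ ^ 2 ≠ 0 := by
    have : x₀ ^ 2 < x ^ 2 := pow_lt_pow_left₀ h hx₀.le two_ne_zero
    linarith only [this]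
  refine ((((d2.div (d2.sub_const (x₀ ^ 2)) hp).const_mul a4).neg).add hg).congr_deriv ?_
  field_simp
  ring

theorem pole_left_bdd {a1 x₀ x : ℝ} (hx : 0 < x) (hx1 : x ≤ 1) (h : x < x₀) :
    |a1 * (x ^ 2 / (x₀ ^ 2 - x ^ 2))| * |x - x₀| ≤ |a1| / x₀ := by
  have h1 : x ^ 2 ≤ 1 := pow_le_one₀ hx.le hx1
  have hx0 : 0 < x₀ := hx.trans h
  have hp : 0 < x₀ ^ 2 - x ^ 2 := by nlinarith
  have hd : |x - x₀| = x₀ - x := by rw [abs_sub_comm, abs_of_pos (by linarith only [h])]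
  have hpos : 0 < x ^ 2 / (x₀ ^ 2 - x ^ 2) := by positivity
  rw [abs_mul, mul_assoc, abs_of_pos hpos, hd,
    show x₀ ^ 2 - x ^ 2 = (x₀ - x) * (x₀ + x) by ring]
  have hxx0 : 0 < x₀ - x := by linarith only [h]
  rw [show x ^ 2 / ((x₀ - x) * (x₀ + x)) * (x₀ - x) = x ^ 2 / (x₀ + x) by (clear * - hxx0 hx0 hx; field_simp)]
  have h5 : x ^ 2 / (x₀ + x) ≤ 1 / x₀ := div_le_div₀ zero_le_one h1 hx0 (by linarith only [hx])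
  calc |a1| * (x ^ 2 / (x₀ + x)) ≤ |a1| * (1 / x₀) := mul_le_mul_of_nonneg_left h5 (abs_nonneg _)
    _ = |a1| / x₀ := mul_one_div _ _

theorem pole_right_bdd {a4 x₀ x : ℝ} (hx1 : x ≤ 1) (h : x₀ < x) (hx₀ : 0 < x₀) :
    |-(a4 * (x ^ 2 / (x ^ 2 - x₀ ^ 2)))| * |x - x₀| ≤ |a4| / x₀ := by
  have hx : 0 < x := hx₀.trans h
  have h1 : x ^ 2 ≤ 1 := pow_le_one₀ hx.le hx1
  have hp : 0 < x ^ 2 - x₀ ^ 2 := by nlinarith only [h, hx₀]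
  have hd : |x - x₀| = x - x₀ := abs_of_pos (by linarith only [h])
  have hpos : 0 < x ^ 2 / (x ^ 2 - x₀ ^ 2) := by positivity
  rw [abs_neg, abs_mul, mul_assoc, abs_of_pos hpos, hd,
    show x ^ 2 - x₀ ^ 2 = (x - x₀) * (x + x₀) by ring]
  have hxx0 : 0 < x - x₀ := by linarith only [h]
  rw [show x ^ 2 / ((x - x₀) * (x + x₀)) * (x - x₀) = x ^ 2 / (x + x₀) by field_simp]
  have h5 : x ^ 2 / (x + x₀) ≤ 1 / x₀ := div_le_div₀ zero_le_one h1 hx₀ (by linarith only [h, hx₀])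
  calc |a4| * (x ^ 2 / (x + x₀)) ≤ |a4| * (1 / x₀) := mul_le_mul_of_nonneg_left h5 (abs_nonneg _)
    _ = |a4| / x₀ := mul_one_div _ _

/-- **Certificate with a pole potential.**  With `lam = l(x₀)`, `L = l - lam`, the null term is
`(a1 x²/(x₀²-x²) + gL) L² + eL lam L + f lam²` for `x < x₀` and
`(-a4 x²/(x²-x₀²) + gR) L² + eR lam L + f lam²` for `x > x₀`. -/
theorem cert_pole (hm : 4 ≤ m) {A : ℝ → ℝ → ℝ} (hA : Kern2 A) (hr : IsProf r)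
    (hT : IsTrans m r τ τ' T)
    (hN : (∫ y in (-1 : ℝ)..1, r y ^ (m - 1)) ^ m * aInt m ^ (m - 1) ≤
      aInt (m - 1) ^ m * (∫ y in (-1 : ℝ)..1, r y ^ m) ^ (m - 1))
    {cx px Ψx Tx : ℝ → ℝ} (hX : XPair m τ τ' cx px Ψx Tx)
    (hS : ∀ x ∈ Ioo (0 : ℝ) 1, ∀ b ∈ Icc (-1 : ℝ) 1, (bc0 (sq x) (lf τ x) + cx x) +
      (τ x * bM0 (sq x) (lf τ x) + px x) * b ≤ A (τ x) b)
    {μ : ℝ} (hμ : 0 ≤ μ) {x₀ : ℝ} (hx₀ : x₀ ∈ Ioo (0 : ℝ) 1) (a1 a4 : ℝ)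
    {gL gL' gR gR' eL eL' eR eR' f f' : ℝ → ℝ}
    (hgL : ∀ x ∈ Ioo (0 : ℝ) 1, HasDerivAt gL (gL' x) x) (hgLc : ContinuousOn gL (Icc 0 1))
    (hgR : ∀ x ∈ Ioo (0 : ℝ) 1, HasDerivAt gR (gR' x) x) (hgRc : ContinuousOn gR (Icc 0 1))
    (heL : ∀ x ∈ Ioo (0 : ℝ) 1, HasDerivAt eL (eL' x) x) (heLc : ContinuousOn eL (Icc 0 1))
    (heR : ∀ x ∈ Ioo (0 : ℝ) 1, HasDerivAt eR (eR' x) x) (heRc : ContinuousOn eR (Icc 0 1))
    (hf : ∀ x ∈ Ioo (0 : ℝ) 1, HasDerivAt f (f' x) x) (hfc : ContinuousOn f (Icc 0 1))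
    {ε : ℝ} (hε : 0 < ε)
    (hL : ∀ x ∈ Ioo (0 : ℝ) 1, x < x₀ → ε * (uf τ τ' x ^ 2 / (1 + uf τ τ' x)) ≤
      brT m τ τ' μ x + Tx x +
        ((2 * a1 * (x ^ 2 * x₀ ^ 2 / (x₀ ^ 2 - x ^ 2) ^ 2) + x * gL' x) *
          (lf τ x - lf τ x₀) ^ 2 +
        2 * (a1 * (x ^ 2 / (x₀ ^ 2 - x ^ 2)) + gL x) * (lf τ x - lf τ x₀) * uf τ τ' x +
        x * eL' x * lf τ x₀ * (lf τ x - lf τ x₀) + eL x * lf τ x₀ * uf τ τ' x +
        x * f' x * lf τ x₀ ^ 2 + (1 - ((m : ℝ) - 1) * (x ^ 2 / sq x ^ 2)) *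
          ((a1 * (x ^ 2 / (x₀ ^ 2 - x ^ 2)) + gL x) * (lf τ x - lf τ x₀) ^ 2 +
            eL x * lf τ x₀ * (lf τ x - lf τ x₀) + f x * lf τ x₀ ^ 2)))
    (hR : ∀ x ∈ Ioo (0 : ℝ) 1, x₀ < x → ε * (uf τ τ' x ^ 2 / (1 + uf τ τ' x)) ≤
      brT m τ τ' μ x + Tx x +
        ((2 * a4 * (x ^ 2 * x₀ ^ 2 / (x ^ 2 - x₀ ^ 2) ^ 2) + x * gR' x) *
          (lf τ x - lf τ x₀) ^ 2 +
        2 * (-(a4 * (x ^ 2 / (x ^ 2 - x₀ ^ 2))) + gR x) * (lf τ x - lf τ x₀) * uf τ τ' x +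
        x * eR' x * lf τ x₀ * (lf τ x - lf τ x₀) + eR x * lf τ x₀ * uf τ τ' x +
        x * f' x * lf τ x₀ ^ 2 + (1 - ((m : ℝ) - 1) * (x ^ 2 / sq x ^ 2)) *
          ((-(a4 * (x ^ 2 / (x ^ 2 - x₀ ^ 2))) + gR x) * (lf τ x - lf τ x₀) ^ 2 +
            eR x * lf τ x₀ * (lf τ x - lf τ x₀) + f x * lf τ x₀ ^ 2))) :
    (∃ k : ℝ, ∀ y ∈ Ioo (-1 : ℝ) 1, r y = k * Real.sqrt (1 - y ^ 2)) ∨
    ∃ v : ℝ, 0 < v ∧ AdmGe m (fun a b => A a b + (bφ m b - bφ m a)) r v := by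
  obtain ⟨C1, hC1, bL⟩ := bdd_of_cont hgLc
  obtain ⟨C2, hC2, bR⟩ := bdd_of_cont hgRc
  obtain ⟨C3, hC3, dL⟩ := bdd_of_cont heLc
  obtain ⟨C4, hC4, dR⟩ := bdd_of_cont heRc
  obtain ⟨C5, hC5, bf⟩ := bdd_of_cont hfc
  have hsub : Ioo (0 : ℝ) 1 ⊆ Icc 0 1 := Ioo_subset_Icc_self
  have hxx : ∀ x ∈ Ioo (0 : ℝ) 1, |x - x₀| ≤ 1 := fun x hx => by
    rw [abs_le]; constructor <;> linarith only [hx.1, hx₀.2, hx.2, hx₀.1]
  refine cert_H hm hA hr hT hN hX hS hμ hx₀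
    (h := glue x₀ (fun x => a1 * (x ^ 2 / (x₀ ^ 2 - x ^ 2)) + gL x)
      (fun x => -(a4 * (x ^ 2 / (x ^ 2 - x₀ ^ 2))) + gR x))
    (h' := glue x₀ (fun x => a1 * (2 * x * x₀ ^ 2 / (x₀ ^ 2 - x ^ 2) ^ 2) + gL' x)
      (fun x => a4 * (2 * x * x₀ ^ 2 / (x ^ 2 - x₀ ^ 2) ^ 2) + gR' x))
    (e := glue x₀ eL eR) (e' := glue x₀ eL' eR') (f := f) (f' := f')
    (Ch := (|a1| / x₀ + C1) + (|a4| / x₀ + C2)) (Ce := C3 + C4) (Cf := C5)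
    ?_ ?_ (fun x hx _ => hf x hx) ?_ ?_ (hfc.mono hsub) (fun x hx => bf x (hsub hx)) hε ?_
  · intro x hx hne
    exact glue_der hne (fun h => pole_left_der hx.1 h (hgL x hx))
      (fun h => pole_right_der hx₀.1 h (hgR x hx))
  · intro x hx hne
    exact glue_der hne (fun h => heL x hx) (fun h => heR x hx)
  · intro x hx
    have q1 : 0 ≤ |a1| / x₀ := div_nonneg (abs_nonneg _) hx₀.1.le
    have q2 : 0 ≤ |a4| / x₀ := div_nonneg (abs_nonneg _) hx₀.1.le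
    have key : ∀ P g C Q : ℝ, |P| * |x - x₀| ≤ Q → |g| ≤ C → 0 ≤ C →
        |P + g| * |x - x₀| ≤ Q + C := by
      intro P g C Q hP hg hC
      calc |P + g| * |x - x₀| ≤ (|P| + |g|) * |x - x₀| :=
            mul_le_mul_of_nonneg_right (abs_add_le _ _) (abs_nonneg _)
        _ = |P| * |x - x₀| + |g| * |x - x₀| := by ring
        _ ≤ Q + C := by
            apply add_le_add hP
            calc |g| * |x - x₀| ≤ C * 1 := mul_le_mul hg (hxx x hx) (abs_nonneg _) hC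
              _ = C := mul_one C
    rcases lt_trichotomy x x₀ with h | h | h
    · rw [glue_left h]
      have := key _ _ _ _ (pole_left_bdd (a1 := a1) hx.1 hx.2.le h) (bL x (hsub hx)) hC1
      linarith only [hC2, q2, this]
    · rw [h, sub_self, abs_zero, mul_zero]
      linarith only [hC1, hC2, q1, q2]
    · rw [glue_right h]
      have := key _ _ _ _ (pole_right_bdd (a4 := a4) hx.2.le h hx₀.1) (bR x (hsub hx)) hC2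
      linarith only [hC1, q1, this]
  · intro x hx
    unfold glue
    split_ifs
    · linarith only [hC4, dL x (hsub hx)]
    · linarith only [hC3, dR x (hsub hx)]
  · intro x hx hne
    rcases lt_or_gt_of_ne hne with h | h
    · refine (hL x hx h).trans (le_of_eq ?_)
      simp only [glue_left h]
      ring
    · refine (hR x hx h).trans (le_of_eq ?_)
      simp only [glue_right h]
      ring

end

end Vale.Agent.P237.AllN
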