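import Vale.Agent.P237.Ball
import Vale.Agent.P237.AllN.DefsN

/-!
# P237, all dimensions: the constants and the unit ball
-/

open MeasureTheory Metric Set Module
open scoped Pointwise

namespace Vale.Agent.P237.AllN

variable {V : Type*} [NormedAddCommGroup V] [InnerProductSpace ℝ V] [FiniteDimensional ℝ V]
  [MeasurableSpace V] [BorelSpace V]

theorem vol_unitBall {n : ℕ} (hd : finrank ℝ V = n) :
    vol (closedBall (0 : V) 1) = Statement.kappa n := by
  subst hd
  have h := (stdOrthonormalBasis ℝ V).repr.measurePreserving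
  have h1 : (stdOrthonormalBasis ℝ V).repr ⁻¹'
      (closedBall (0 : EuclideanSpace ℝ (Fin (finrank ℝ V))) 1) = closedBall (0 : V) 1 := by
    ext x
    simp
  unfold vol Statement.kappa Statement.vol
  rw [← h1, h.measure_preimage measurableSet_closedBall.nullMeasurableSet]

theorem kappa_pos (n : ℕ) : 0 < Statement.kappa n := by
  unfold Statement.kappa Statement.vol
  refine ENNReal.toReal_pos ?_ measure_closedBall_lt_top.ne
  exact (measure_closedBall_pos _ _ one_pos).ne'

/-- volume of a ball of radius `r`. -/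
theorem vol_ball_radius {n : ℕ} (hd : finrank ℝ V = n) {r : ℝ} (hr : 0 ≤ r) :
    vol (closedBall (0 : V) r) = r ^ n * Statement.kappa n := by
  rw [← vol_unitBall hd]
  have h1 : (closedBall (0 : V) r) = r • closedBall (0 : V) 1 := by
    rw [_root_.smul_closedBall _ _ zero_le_one, smul_zero, Real.norm_eq_abs, abs_of_nonneg hr,
      mul_one]
  rw [h1, vol_smul_set, hd, abs_of_nonneg hr]

omit [FiniteDimensional ℝ V] [MeasurableSpace V] [BorelSpace V] in
/-- slices of the unit ball. -/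
theorem slice_ball {u : V} (hu : ‖u‖ = 1) (y : ℝ) :
    slice (closedBall (0 : V) 1) u y =
      if |y| ≤ 1 then closedBall (0 : ((ℝ ∙ u)ᗮ : Submodule ℝ V)) (Real.sqrt (1 - y ^ 2)) else ∅ := by
  have key : ∀ z : ((ℝ ∙ u)ᗮ : Submodule ℝ V), z ∈ slice (closedBall (0 : V) 1) u y ↔
      ‖z‖ ^ 2 + y ^ 2 ≤ 1 := by
    intro z
    have h1 : ‖(z : V) + y • u‖ ^ 2 = ‖z‖ ^ 2 + y ^ 2 := by
      have horth : inner ℝ (z : V) (y • u) = 0 := by
        rw [inner_smul_right, real_inner_comm,
          Submodule.mem_orthogonal_singleton_iff_inner_right.mp z.2, mul_zero]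
      have := norm_add_sq_eq_norm_sq_add_norm_sq_real horth
      rw [norm_smul, hu, mul_one, Real.norm_eq_abs] at this
      rw [sq, this, Submodule.coe_norm, abs_mul_abs_self]
      ring
    have h2 : z ∈ slice (closedBall (0 : V) 1) u y ↔ ‖(z : V) + y • u‖ ≤ 1 := by
      change (z : V) + y • u ∈ closedBall (0 : V) 1 ↔ _
      rw [mem_closedBall_zero_iff]
    rw [h2, ← h1, sq_le_one_iff₀ (norm_nonneg _)]
  ext z
  rw [key]
  split_ifs with hy
  · have h0 : 0 ≤ 1 - y ^ 2 := by nlinarith [abs_nonneg y, sq_abs y]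
    rw [mem_closedBall_zero_iff, Real.le_sqrt (norm_nonneg _) h0]
    constructor <;> intro h <;> linarith
  · simp only [mem_empty_iff_false, iff_false, not_le]
    rw [not_le] at hy
    nlinarith [abs_nonneg y, sq_abs y, sq_nonneg ‖z‖]

theorem vol_slice_ball {m : ℕ} (hd : finrank ℝ V = m + 1) {u : V} (hu : ‖u‖ = 1) (y : ℝ) :
    vol (slice (closedBall (0 : V) 1) u y) =
      (Icc (-1 : ℝ) 1).indicator (fun y => Statement.kappa m * Real.sqrt (1 - y ^ 2) ^ m) y := by
  rw [slice_ball hu]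
  split_ifs with hy
  · rw [indicator_of_mem (show y ∈ Icc (-1 : ℝ) 1 from abs_le.1 hy), vol_ball_radius (finrank_perp_gen hd hu)
      (Real.sqrt_nonneg _), mul_comm]
  · rw [indicator_of_notMem (fun h : y ∈ Icc (-1 : ℝ) 1 => hy (abs_le.2 h))]
    unfold vol
    simp

theorem kappa_succ (m : ℕ) : Statement.kappa (m + 1) = Statement.kappa m * aInt m := by
  obtain ⟨u, hu⟩ : ∃ u : EuclideanSpace ℝ (Fin (m + 1)), ‖u‖ = 1 :=
    ⟨EuclideanSpace.single 0 1, by simp⟩
  have hd : finrank ℝ (EuclideanSpace ℝ (Fin (m + 1))) = m + 1 := by simp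
  have h1 := integral_slice (isCompact_closedBall (0 : EuclideanSpace ℝ (Fin (m + 1))) 1) hu
    (fun _ => 1) continuous_const
  simp only [one_mul] at h1
  rw [setIntegral_const, smul_eq_mul, mul_one] at h1
  have h2 : Statement.kappa (m + 1) = volume.real (closedBall (0 : EuclideanSpace ℝ (Fin (m + 1))) 1) :=
    rfl
  rw [h2, h1]
  have h3 : ∀ y : ℝ, vol (slice (closedBall (0 : EuclideanSpace ℝ (Fin (m + 1))) 1) u y) =
      (Icc (-1 : ℝ) 1).indicator (fun y => Statement.kappa m * Real.sqrt (1 - y ^ 2) ^ m) y :=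
    fun y => vol_slice_ball hd hu y
  simp_rw [h3]
  rw [integral_indicator measurableSet_Icc, integral_Icc_eq_integral_Ioc, aInt,
    intervalIntegral.integral_of_le (by norm_num), ← integral_const_mul]

theorem aInt_pos (k : ℕ) : 0 < aInt k := by
  have h := kappa_succ k
  have h1 := kappa_pos (k + 1)
  rw [h] at h1
  exact (mul_pos_iff_of_pos_left (kappa_pos k)).1 h1

theorem RC_eq {n : ℕ} (hn : 2 ≤ n) :
    RC n = Statement.kappa (n - 1) ^ n / Statement.kappa n ^ (n - 2) := by
  unfold RC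
  have h : (2 - (n : ℤ)) = -((n - 2 : ℕ) : ℤ) := by omega
  rw [h, zpow_neg, zpow_natCast, div_eq_mul_inv]

theorem ratio_ball {n : ℕ} (hn : 2 ≤ n) (hd : finrank ℝ V = n) :
    ratio (closedBall (0 : V) 1) = RC n := by
  obtain ⟨k, rfl⟩ : ∃ k, n = k + 2 := ⟨n - 2, by omega⟩
  unfold ratio
  have hp : projBody (closedBall (0 : V) 1) = closedBall 0 (Statement.kappa (k + 1)) := by
    refine projBody_ball_of (kappa_pos _).le fun u hu => ?_
    rw [shadow_ball, vol_unitBall (finrank_perp_gen hd hu)]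
  rw [hp, vol_ball_radius hd (kappa_pos _).le, vol_unitBall hd, RC_eq hn, hd]
  have h := (kappa_pos (k + 2)).ne'
  simp only [show k + 2 - 1 = k + 1 by omega, show k + 2 - 2 = k by omega]
  rw [pow_succ (Statement.kappa (k + 2)) k]
  field_simp

theorem RC_succ {m : ℕ} (hm : 2 ≤ m) :
    RC (m + 1) = RC m * (aInt (m - 1) ^ m / aInt m ^ (m - 1)) := by
  obtain ⟨k, rfl⟩ : ∃ k, m = k + 2 := ⟨m - 2, by omega⟩
  rw [RC_eq (by omega), RC_eq (by omega)]
  simp only [show k + 2 - 1 = k + 1 by omega, show k + 2 - 2 = k by omega,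
    show k + 2 + 1 - 1 = k + 2 by omega, show k + 2 + 1 - 2 = k + 1 by omega]
  have h1 := kappa_succ (k + 1)
  have h2 := kappa_succ (k + 2)
  have p0 := (kappa_pos (k + 1)).ne'
  have a1 := (aInt_pos (k + 1)).ne'
  have a2 := (aInt_pos (k + 2)).ne'
  rw [h2, h1]
  field_simp
  ring

end Vale.Agent.P237.AllN
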