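import Vale.Agent.P237.AllN.PcCorr2

/-!
# P237, uniform plain certificate: the correction term under the bound
`l ≤ (1-x²)(127/200 + 33/200 x²)`
-/

open MeasureTheory Set Finset

namespace Vale.Agent.P237.AllN

/-- upper bound of the exponential from a bound at the half -/
theorem cu_exp {a e E : ℝ} (ha : 0 ≤ a) (ha1 : a ≤ 1)
    (h : 1 + a + a ^ 2 / 2 + a ^ 3 / 6 + a ^ 4 / 24 + a ^ 5 / 120 + 7 * a ^ 6 / 4320 ≤ e)
    (hE : e ^ 2 ≤ E) : Real.exp (2 * a) ≤ E := by
  have h1 := (Corr.exp_le_p ha ha1).trans h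
  have h2 : Real.exp (2 * a) = Real.exp a ^ 2 := by
    rw [← Real.exp_nat_mul]; norm_num
  rw [h2]
  exact (pow_le_pow_left₀ (Real.exp_pos _).le h1 2).trans hE

/-- one box `z ∈ [z0, z1]`, `s ∈ [sl, sh]` -/
theorem cu_box {x l C a E σ z1 sl sh : ℝ} (hx : x ∈ Ioo (0 : ℝ) 1) (h1 : x * Real.exp l ≤ 1)
    (hC : 1 / 2 ≤ C) (hz1 : x ^ 2 ≤ z1) (hsl0 : 0 < sl) (hsl : sl ^ 2 ≤ 1 - z1)
    (hsh0 : 0 < sh) (hsh : 1 - x ^ 2 ≤ sh ^ 2) (hla : l ≤ a) (ha : 0 < a)
    (hE : Real.exp (2 * a) ≤ E) (hσ : 0 ≤ σ) (hσE : σ ^ 2 ≤ 1 - z1 * E)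
    (hst : (E - 1) ^ 2 * z1 * (1 + 2 * sh + σ) / ((σ + sl) ^ 2 * (1 + σ)) + (E - 1 - 2 * a) ≤
      2 * C * (1 + 1 / sh) ^ 2 * a ^ 2) :
    -(C * (x ^ 2 / sq x ^ 2)) * l ^ 2 ≤
      sq x * (bg (x * Real.exp l) - bg x) + x ^ 2 * l / (1 + sq x) ^ 2 := by
  obtain ⟨a1, a2, a3, a4, a5⟩ := Corr.sq_facts hx.1 hx.2 h1
  rw [Corr.Fc_bg hx.1 hx.2, neg_mul]
  have hz0 : 0 ≤ x ^ 2 := sq_nonneg x
  have hsx : sq x ^ 2 = 1 - x ^ 2 := by linarith only [a3]
  have hE1 : 1 ≤ E := by
    have := Real.add_one_le_exp (2 * a)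
    linarith only [ha, hE, this]
  rcases le_or_gt l 0 with hl | hl
  · refine Corr.neg_case a1 a3 hz0 a4 a5 hl ?_
    nlinarith only [hC]
  · have hslx : sl ≤ sq x := by
      have : sl ^ 2 ≤ sq x ^ 2 := by rw [hsx]; linarith only [hz1, hsl]
      exact le_of_sq_le_sq this a1.le
    have hshx : sq x ≤ sh := by
      have : sq x ^ 2 ≤ sh ^ 2 := by rw [hsx]; exact hsh
      exact le_of_sq_le_sq this hsh0.le
    refine Corr.gen a1 a3 hz0 hσ a4 a5 hl hla hE ?_ ?_
    · have := mul_le_mul_of_nonneg_right hz1 (by linarith only [hE1] : (0 : ℝ) ≤ E)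
      linarith only [hσE, this]
    · have e1 : (E - 1) ^ 2 * x ^ 2 * (1 + 2 * sq x + σ) / ((σ + sq x) ^ 2 * (1 + σ)) ≤
          (E - 1) ^ 2 * z1 * (1 + 2 * sh + σ) / ((σ + sl) ^ 2 * (1 + σ)) := by
        apply div_le_div₀
        · have : 0 ≤ z1 := hz0.trans hz1
          (clear * - this hsh0 hσ; positivity)
        · have : 0 ≤ z1 := hz0.trans hz1
          apply mul_le_mul
          · exact mul_le_mul_of_nonneg_left hz1 (sq_nonneg _)
          · linarith only [hshx]
          · (clear * - a1 hσ; positivity)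
          · (clear * - this; positivity)
        · (clear * - hσ hsl0; positivity)
        · apply mul_le_mul_of_nonneg_right _ (by linarith only [hσ])
          exact pow_le_pow_left₀ (by (clear * - hσ hsl0; positivity)) (by linarith only [hslx]) 2
      have e2 : 2 * C * (1 + 1 / sh) ^ 2 * a ^ 2 ≤ 2 * C * (1 + sq x) ^ 2 * a ^ 2 / sq x ^ 2 := by
        have e3 : 2 * C * (1 + sq x) ^ 2 * a ^ 2 / sq x ^ 2 =
            2 * C * (1 + 1 / sq x) ^ 2 * a ^ 2 := by
          field_simp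
          ring
        rw [e3]
        apply mul_le_mul_of_nonneg_right _ (sq_nonneg a)
        apply mul_le_mul_of_nonneg_left _ (by linarith only [hC])
        apply pow_le_pow_left₀ (by positivity)
        have : 1 / sh ≤ 1 / sq x := one_div_le_one_div_of_le a1 hshx
        linarith only [this]
      linarith

/-- `l**` is decreasing in `x²` -/
theorem cu_mono {z z0 : ℝ} (h0 : 0 ≤ z0) (h : z0 ≤ z) :
    (1 - z) * (127 / 200 + 33 / 200 * z) ≤ (1 - z0) * (127 / 200 + 33 / 200 * z0) := by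
  nlinarith only [h, h0]

/-- the correction is at least `-2 y l²` under `l ≤ l**` -/
theorem cu_corr_two {x l : ℝ} (hx : x ∈ Ioo (0 : ℝ) 1) (h1 : x * Real.exp l ≤ 1)
    (hs : x ^ 2 ≤ 1 / 2 → l ≤ (1 - x ^ 2) * (127 / 200 + 33 / 200 * x ^ 2)) :
    -(2 * (x ^ 2 / sq x ^ 2)) * l ^ 2 ≤
      sq x * (bg (x * Real.exp l) - bg x) + x ^ 2 * l / (1 + sq x) ^ 2 := by
  rcases le_or_gt (3 / 7) (x ^ 2) with h | h
  · exact Corr.corr_B hx.1 hx.2 h h1
  have hs' := hs (by linarith)
  rcases le_or_gt (x ^ 2) (3 / 16) with h2 | h2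
  · refine cu_box (C := 2) (a := 127 / 200) (E := 3.562) (σ := 0.57) (z1 := 3 / 16) (sl := 0.9)
      (sh := 1) hx h1 (by norm_num) h2 (by norm_num) (by norm_num) (by norm_num)
      (by nlinarith only []) ?_ (by norm_num) ?_ (by norm_num) (by norm_num) (by norm_num)
    · have := cu_mono (z := x ^ 2) (z0 := 0) le_rfl (sq_nonneg x)
      linarith
    · exact cu_exp (e := 1.8873) (by norm_num) (by norm_num) (by norm_num) (by norm_num)
  rcases le_or_gt (x ^ 2) (1 / 4) with h3 | h3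
  · refine cu_box (C := 2) (a := 0.5412) (E := 2.953) (σ := 0.51) (z1 := 1 / 4) (sl := 0.866)
      (sh := 0.9015) hx h1 (by norm_num) h3 (by norm_num) (by norm_num) (by norm_num)
      (by norm_num; linarith only [h2]) ?_ (by norm_num) ?_ (by norm_num) (by norm_num) (by norm_num)
    · have := cu_mono (z := x ^ 2) (z0 := 3 / 16) (by norm_num) h2.le
      linarith
    · exact cu_exp (e := 1.7182) (by norm_num) (by norm_num) (by norm_num) (by norm_num)
  rcases le_or_gt (x ^ 2) (1 / 3) with h4 | h4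
  · refine cu_box (C := 2) (a := 0.5073) (E := 2.759) (σ := 0.28) (z1 := 1 / 3) (sl := 0.8164)
      (sh := 0.8661) hx h1 (by norm_num) h4 (by norm_num) (by norm_num) (by norm_num)
      (by norm_num; linarith only [h3]) ?_ (by norm_num) ?_ (by norm_num) (by norm_num) (by norm_num)
    · have := cu_mono (z := x ^ 2) (z0 := 1 / 4) (by norm_num) h3.le
      linarith only [hs', this]
    · exact cu_exp (e := 1.6609) (by norm_num) (by norm_num) (by norm_num) (by norm_num)
  rcases le_or_gt (x ^ 2) (3 / 8) with h5 | h5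
  · refine cu_box (C := 2) (a := 0.4601) (E := 2.511) (σ := 0.24) (z1 := 3 / 8) (sl := 0.79)
      (sh := 0.8166) hx h1 (by norm_num) h5 (by norm_num) (by norm_num) (by norm_num)
      (by norm_num; linarith only [h4]) ?_ (by norm_num) ?_ (by norm_num) (by norm_num) (by norm_num)
    · have := cu_mono (z := x ^ 2) (z0 := 1 / 3) (by norm_num) h4.le
      linarith only [hs', this]
    · exact cu_exp (e := 1.5845) (by norm_num) (by norm_num) (by norm_num) (by norm_num)
  rcases le_or_gt (x ^ 2) (2 / 5) with h6 | h6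
  · refine cu_box (C := 2) (a := 0.4356) (E := 2.391) (σ := 0.2) (z1 := 2 / 5) (sl := 0.7745)
      (sh := 0.7906) hx h1 (by norm_num) h6 (by norm_num) (by norm_num) (by norm_num)
      (by norm_num; linarith only [h5]) ?_ (by norm_num) ?_ (by norm_num) (by norm_num) (by norm_num)
    · have := cu_mono (z := x ^ 2) (z0 := 3 / 8) (by norm_num) h5.le
      linarith only [hs', this]
    · exact cu_exp (e := 1.5461) (by norm_num) (by norm_num) (by norm_num) (by norm_num)
  · refine cu_box (C := 2) (a := 0.42061) (E := 2.3195) (σ := 0.075) (z1 := 3 / 7) (sl := 0.7559)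
      (sh := 0.7746) hx h1 (by norm_num) h.le (by norm_num) (by norm_num) (by norm_num)
      (by norm_num; linarith only [h6]) ?_ (by norm_num) ?_ (by norm_num) (by norm_num) (by norm_num)
    · have := cu_mono (z := x ^ 2) (z0 := 2 / 5) (by norm_num) h6.le
      linarith only [hs', this]
    · exact cu_exp (e := 1.52299) (by norm_num) (by norm_num) (by norm_num) (by norm_num)

/-- near `0` the correction is at least `-(1/2) y l²` under `l ≤ l**` -/
theorem cu_corr_half {x l : ℝ} (hx : x ∈ Ioo (0 : ℝ) 1) (h1 : x * Real.exp l ≤ 1)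
    (hs : l ≤ (1 - x ^ 2) * (127 / 200 + 33 / 200 * x ^ 2)) (h12 : x ^ 2 ≤ 1 / 12) :
    -(1 / 2 * (x ^ 2 / sq x ^ 2)) * l ^ 2 ≤
      sq x * (bg (x * Real.exp l) - bg x) + x ^ 2 * l / (1 + sq x) ^ 2 := by
  rcases le_or_gt (x ^ 2) (3 / 100) with h2 | h2
  · refine cu_box (C := 1 / 2) (a := 127 / 200) (E := 3.562) (σ := 0.94) (z1 := 3 / 100)
      (sl := 0.98) (sh := 1) hx h1 (by norm_num) h2 (by norm_num) (by norm_num) (by norm_num)
      (by nlinarith only []) ?_ (by norm_num) ?_ (by norm_num) (by norm_num) (by norm_num)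
    · have := cu_mono (z := x ^ 2) (z0 := 0) le_rfl (sq_nonneg x)
      linarith only [hs, this]
    · exact cu_exp (e := 1.8873) (by norm_num) (by norm_num) (by norm_num) (by norm_num)
  rcases le_or_gt (x ^ 2) (6 / 100) with h3 | h3
  · refine cu_box (C := 1 / 2) (a := 0.6208) (E := 3.4622) (σ := 0.89) (z1 := 6 / 100)
      (sl := 0.969) (sh := 0.985) hx h1 (by norm_num) h3 (by norm_num) (by norm_num) (by norm_num)
      (by norm_num; linarith only [h2]) ?_ (by norm_num) ?_ (by norm_num) (by norm_num) (by norm_num)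
    · have := cu_mono (z := x ^ 2) (z0 := 3 / 100) (by norm_num) h2.le
      linarith only [hs, this]
    · exact cu_exp (e := 1.86068) (by norm_num) (by norm_num) (by norm_num) (by norm_num)
  · refine cu_box (C := 1 / 2) (a := 0.60622) (E := 3.3623) (σ := 0.84) (z1 := 1 / 12)
      (sl := 0.957) (sh := 0.9696) hx h1 (by norm_num) h12 (by norm_num) (by norm_num)
      (by norm_num) (by norm_num; linarith only [h3]) ?_ (by norm_num) ?_ (by norm_num) (by norm_num)
      (by norm_num)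
    · have := cu_mono (z := x ^ 2) (z0 := 6 / 100) (by norm_num) h3.le
      linarith
    · exact cu_exp (e := 1.83364) (by norm_num) (by norm_num) (by norm_num) (by norm_num)

end Vale.Agent.P237.AllN
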