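import Vale.Agent.P237.Alm.MainA0

/-!
# P237, all dimensions: values of the constant
-/

open Real

namespace Vale.Agent.P237.AllN

open Alm

theorem cstb_of {N : ℕ} {κ a q : ℝ} (ha : 0 < a) (hA : aInt (N - 3) = a)
    (hq : (8 * (N : ℝ) / (3 * ((N : ℝ) - 1) * ((N : ℝ) - 2))) = q) (hq0 : 0 ≤ q)
    (h : κ ^ 2 * q * (3 * 3.1416) ≤ 4 * a ^ 2) : κ * cst N ≤ 2 / Real.sqrt (3 * Real.pi) := by
  have hpi := Real.pi_pos
  have hpi' : Real.pi < 3.1416 := Real.pi_lt_d4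
  have h3 : 0 < Real.sqrt (3 * Real.pi) := Real.sqrt_pos.2 (by positivity)
  have h4 : Real.sqrt (3 * Real.pi) ^ 2 = 3 * Real.pi := Real.sq_sqrt (by positivity)
  unfold cst
  rw [hA, hq, ← mul_div_assoc, div_le_div_iff₀ ha h3]
  have h5 : Real.sqrt q ^ 2 = q := Real.sq_sqrt hq0
  have h6 : 0 ≤ Real.sqrt q := Real.sqrt_nonneg q
  refine abs_le_of_sq_le_sq' (b := 2 * a) ?_ (by positivity) |>.2
  calc (κ * Real.sqrt q * Real.sqrt (3 * Real.pi)) ^ 2
      = κ ^ 2 * Real.sqrt q ^ 2 * Real.sqrt (3 * Real.pi) ^ 2 := by ring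
    _ = κ ^ 2 * q * (3 * Real.pi) := by rw [h5, h4]
    _ ≤ κ ^ 2 * q * (3 * 3.1416) := by
        apply mul_le_mul_of_nonneg_left _ (by positivity)
        linarith
    _ ≤ 4 * a ^ 2 := h
    _ = (2 * a) ^ 2 := by ring

theorem cstb_five : 4 / 5 * cst 5 ≤ 2 / Real.sqrt (3 * Real.pi) := by
  have e2 : aInt 2 = 4 / 3 := by
    have := aInt_rec 0
    rw [aInt_zero] at this
    norm_num at this ⊢
    linarith
  exact cstb_of (N := 5) (a := 4 / 3) (q := 10 / 9) (by norm_num) e2 (by norm_num)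
    (by norm_num) (by norm_num)

theorem cstb_aInt : aInt 24 = 2 * (2 / 3) * (4 / 5) * (6 / 7) * (8 / 9) * (10 / 11) * (12 / 13) *
    (14 / 15) * (16 / 17) * (18 / 19) * (20 / 21) * (22 / 23) * (24 / 25) := by
  have e0 := aInt_zero
  have e2 := aInt_rec 0
  have e4 := aInt_rec 2
  have e6 := aInt_rec 4
  have e8 := aInt_rec 6
  have e10 := aInt_rec 8
  have e12 := aInt_rec 10
  have e14 := aInt_rec 12
  have e16 := aInt_rec 14
  have e18 := aInt_rec 16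
  have e20 := aInt_rec 18
  have e22 := aInt_rec 20
  have e24 := aInt_rec 22
  norm_num at e2 e4 e6 e8 e10 e12 e14 e16 e18 e20 e22 e24 ⊢
  linarith

theorem cstb_27 : 97 / 100 * cst 27 ≤ 2 / Real.sqrt (3 * Real.pi) := by
  exact cstb_of (N := 27) (a := 2 * (2 / 3) * (4 / 5) * (6 / 7) * (8 / 9) * (10 / 11) * (12 / 13) *
    (14 / 15) * (16 / 17) * (18 / 19) * (20 / 21) * (22 / 23) * (24 / 25)) (q := 216 / 1950)
    (by norm_num) cstb_aInt (by norm_num) (by norm_num) (by norm_num)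

end Vale.Agent.P237.AllN
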