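import Mathlib
import Vale.Agent.P237.AllN.Body

/-!
# P237, all dimensions: good points of the gauge sphere are dense
-/

open MeasureTheory Metric Set Module

namespace Vale.Agent.P237.AllN

open Exch

variable {V : Type*} [NormedAddCommGroup V] [InnerProductSpace ℝ V] [FiniteDimensional ℝ V]
  [MeasurableSpace V] [BorelSpace V]

theorem good_dense (K : Set V) [hK : Fact (IsSymBody K)] [Nontrivial V]
    {P : sphere (0 : GS K) 1 → Prop} (hP : ∀ᵐ x : sphere (0 : GS K) 1 ∂(gm K).toSphere, P x)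
    {y : V} (hy : y ∉ K) :
    ∃ x : sphere (0 : GS K) 1, DifferentiableAt ℝ (fun z : GS K => ‖z‖) (x : GS K) ∧ P x ∧
      1 < inner ℝ y (dv K x) := by
  set z : GS K := toGSL K y with hz
  have hz1 : 1 < ‖z‖ := by
    by_contra hcon
    exact hy ((norm_toGSL_le_iff K y).1 (not_lt.1 hcon))
  have hz0 : 0 < ‖z‖ := by linarith
  have hG := (ae_sphere (gm K)).and hP
  let w : sphere (0 : GS K) 1 := ⟨‖z‖⁻¹ • z, by
    rw [mem_sphere_zero_iff_norm, norm_smul, norm_inv, norm_norm, inv_mul_cancel₀ hz0.ne']⟩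
  have hε : 0 < 1 - ‖z‖⁻¹ := by
    have := inv_lt_one_of_one_lt₀ hz1
    linarith
  have hdense := Measure.dense_of_ae hG
  obtain ⟨x, hx, hxb⟩ := hdense.exists_dist_lt w hε
  refine ⟨x, hx.1, hx.2, ?_⟩
  rw [inner_dv]
  have h1 : dg x (‖z‖⁻¹ • z) = dg x (x : GS K) + dg x (‖z‖⁻¹ • z - (x : GS K)) := by
    rw [← map_add]
    congr 1
    abel
  have h2 : |dg x (‖z‖⁻¹ • z - (x : GS K))| < 1 - ‖z‖⁻¹ := by
    have h3 := (dg x).le_opNorm (‖z‖⁻¹ • z - (x : GS K))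
    have h4 : ‖‖z‖⁻¹ • z - (x : GS K)‖ < 1 - ‖z‖⁻¹ := by
      have : dist w x = ‖‖z‖⁻¹ • z - (x : GS K)‖ := by
        rw [Subtype.dist_eq, dist_eq_norm]
      rw [← this]
      exact hxb
    rw [Real.norm_eq_abs] at h3
    calc |dg x (‖z‖⁻¹ • z - (x : GS K))| ≤ ‖dg x‖ * ‖‖z‖⁻¹ • z - (x : GS K)‖ := h3
      _ ≤ 1 * ‖‖z‖⁻¹ • z - (x : GS K)‖ := mul_le_mul_of_nonneg_right (norm_dg_le x) (norm_nonneg _)
      _ < 1 - ‖z‖⁻¹ := by rw [one_mul]; exact h4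
  rw [dg_self hx.1] at h1
  have h5 : ‖z‖⁻¹ < dg x (‖z‖⁻¹ • z) := by
    rw [h1]
    have := (abs_lt.1 h2).1
    linarith
  rw [map_smul, smul_eq_mul] at h5
  have h6 := mul_lt_mul_of_pos_left h5 hz0
  rw [mul_inv_cancel₀ hz0.ne', ← mul_assoc, mul_inv_cancel₀ hz0.ne', one_mul] at h6
  exact h6

end Vale.Agent.P237.AllN
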