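import Mathlib
import Vale.Agent.P237.AllN.Body
import Vale.Agent.P237.John2
import Vale.Agent.P237.Ball

/-!
# P237, all dimensions: a body whose covariance form equals the square of the support function in
enough directions is an ellipsoid
-/

open MeasureTheory Metric Set Module
open scoped Pointwise

namespace Vale.Agent.P237.AllN

variable {V : Type*} [NormedAddCommGroup V] [InnerProductSpace ℝ V] [FiniteDimensional ℝ V]
  [MeasurableSpace V] [BorelSpace V]

namespace EqEll

/-- The second moment of the unit ball. -/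
theorem ball_moment {n : ℕ} (hn : 1 ≤ n) (hd : finrank ℝ V = n) :
    ((n : ℝ) + 2) * ∫ z in closedBall (0 : V) 1, ‖z‖ ^ 2 = n * vol (closedBall (0 : V) 1) := by
  have : Nontrivial V := Module.nontrivial_of_finrank_pos (R := ℝ) (by omega)
  have h1 : ∫ z in closedBall (0 : V) 1, ‖z‖ ^ 2 =
      ∫ z : V, (Iic (1 : ℝ)).indicator (fun y : ℝ => y ^ 2) ‖z‖ := by
    rw [← integral_indicator measurableSet_closedBall]
    refine integral_congr_ae (Filter.Eventually.of_forall fun z => ?_)
    by_cases hz : ‖z‖ ≤ 1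
    · have hz' : z ∈ closedBall (0 : V) 1 := mem_closedBall_zero_iff.2 hz
      simp only [indicator_of_mem hz', indicator_of_mem (mem_Iic.2 hz)]
    · have hz' : z ∉ closedBall (0 : V) 1 := fun h => hz (mem_closedBall_zero_iff.1 h)
      have hz'' : ‖z‖ ∉ Iic (1 : ℝ) := hz
      simp only [indicator_of_notMem hz', indicator_of_notMem hz'']
  have h2 := integral_fun_norm_addHaar (volume : Measure V)
    ((Iic (1 : ℝ)).indicator (fun y : ℝ => y ^ 2))
  have h3 : ∫ y in Ioi (0 : ℝ), y ^ (finrank ℝ V - 1) • (Iic (1 : ℝ)).indicator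
      (fun y : ℝ => y ^ 2) y = 1 / ((n : ℝ) + 2) := by
    have e1 : ∀ y : ℝ, y ^ (finrank ℝ V - 1) • (Iic (1 : ℝ)).indicator (fun y : ℝ => y ^ 2) y =
        (Iic (1 : ℝ)).indicator (fun y : ℝ => y ^ (n + 1)) y := by
      intro y
      by_cases hy : y ∈ Iic (1 : ℝ)
      · rw [indicator_of_mem hy, indicator_of_mem hy, smul_eq_mul, ← pow_add, hd]
        congr 1
        omega
      · rw [indicator_of_notMem hy, indicator_of_notMem hy, smul_zero]
    simp only [e1]
    rw [setIntegral_indicator measurableSet_Iic, Ioi_inter_Iic,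
      ← intervalIntegral.integral_of_le zero_le_one, integral_pow]
    push_cast
    simp
    ring
  have h4 : vol (closedBall (0 : V) 1) = (volume : Measure V).real (ball 0 1) := by
    unfold vol
    rw [Measure.addHaar_closedBall_eq_addHaar_ball]
    rfl
  rw [h1, h2, h3, h4, hd]
  have : (n : ℝ) + 2 ≠ 0 := by positivity
  simp only [nsmul_eq_mul, smul_eq_mul]
  field_simp

theorem ball_case {n : ℕ} (hn : 1 ≤ n) (hd : finrank ℝ V = n) {K : Set V} (hK : IsSymBody K)
    (hid : ∀ v : V, ((n : ℝ) + 2) * ∫ z in K, inner ℝ z v ^ 2 = ‖v‖ ^ 2 * vol K)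
    (h : ∀ y, y ∉ K → ∃ v : V, supp K v < inner ℝ y v ∧ supp K v = ‖v‖) :
    K = closedBall (0 : V) 1 := by
  have hsub : closedBall (0 : V) 1 ⊆ K := by
    intro y hy
    rw [mem_closedBall_zero_iff] at hy
    by_contra hc
    obtain ⟨v, h1, h2⟩ := h y hc
    rw [h2] at h1
    have h3 := real_inner_le_norm y v
    have h4 : ‖y‖ * ‖v‖ ≤ 1 * ‖v‖ := mul_le_mul_of_nonneg_right hy (norm_nonneg v)
    linarith
  refine eq_ball_of_vol hK.toIsBody hsub ?_
  -- the moment of K
  have hm : ((n : ℝ) + 2) * ∫ z in K, ‖z‖ ^ 2 = n * vol K := by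
    have e : ∀ z : V, ‖z‖ ^ 2 = ∑ i, inner ℝ z (stdOrthonormalBasis ℝ V i) ^ 2 := fun z =>
      ((stdOrthonormalBasis ℝ V).sum_sq_inner_left z).symm
    simp only [e]
    rw [integral_finsetSum, Finset.mul_sum]
    · simp only [hid, (stdOrthonormalBasis ℝ V).norm_eq_one]
      rw [Finset.sum_const, Finset.card_univ, Fintype.card_fin, hd, nsmul_eq_mul]
      ring
    · intro i _
      exact John2.integrableOn_of_continuous hK.compact (by fun_prop)
  have hb := ball_moment hn hd (V := V)
  -- splitting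
  have hi : IntegrableOn (fun z : V => ‖z‖ ^ 2) K :=
    John2.integrableOn_of_continuous hK.compact (by fun_prop)
  have hKm : MeasurableSet K := hK.compact.measurableSet
  have hsplit : ∫ z in K, ‖z‖ ^ 2 = (∫ z in closedBall (0 : V) 1, ‖z‖ ^ 2) +
      ∫ z in K \ closedBall (0 : V) 1, ‖z‖ ^ 2 := by
    rw [← setIntegral_union disjoint_sdiff_right (hKm.diff measurableSet_closedBall)
      (hi.mono_set hsub) (hi.mono_set sdiff_subset), union_sdiff_cancel hsub]
  have hfinK : volume K ≠ ⊤ := hK.compact.measure_lt_top.ne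
  have hfinB : volume (closedBall (0 : V) 1) ≠ ⊤ := measure_closedBall_lt_top.ne
  have hdiff : vol (K \ closedBall (0 : V) 1) = vol K - vol (closedBall (0 : V) 1) := by
    unfold vol
    rw [measure_sdiff hsub measurableSet_closedBall.nullMeasurableSet hfinB,
      ENNReal.toReal_sub_of_le (measure_mono hsub) hfinK]
  have hge : vol (K \ closedBall (0 : V) 1) ≤ ∫ z in K \ closedBall (0 : V) 1, ‖z‖ ^ 2 := by
    have h1 : ∫ z in K \ closedBall (0 : V) 1, (1 : ℝ) ≤
        ∫ z in K \ closedBall (0 : V) 1, ‖z‖ ^ 2 := by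
      refine setIntegral_mono_on ?_ (hi.mono_set sdiff_subset)
        (hKm.diff measurableSet_closedBall) ?_
      · exact integrableOn_const (ne_top_of_le_ne_top hfinK (measure_mono sdiff_subset))
      · intro z hz
        have hz2 : 1 < ‖z‖ := by
          by_contra hc
          exact hz.2 (mem_closedBall_zero_iff.2 (not_lt.1 hc))
        nlinarith
    rw [setIntegral_const, smul_eq_mul, mul_one] at h1
    exact h1
  have hn0 : (0 : ℝ) < n := by exact_mod_cast hn
  rw [hsplit, mul_add, hb] at hm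
  have h5 : ((n : ℝ) + 2) * (vol K - vol (closedBall (0 : V) 1)) ≤
      ((n : ℝ) + 2) * ∫ z in K \ closedBall (0 : V) 1, ‖z‖ ^ 2 := by
    rw [← hdiff]
    exact mul_le_mul_of_nonneg_left hge (by positivity)
  nlinarith

theorem vol_pos' {K : Set V}
    (hK : IsBody K) : 0 < vol K := by
  have h1 : 0 < volume K := lt_of_lt_of_le (isOpen_interior.measure_pos _ hK.int)
    (measure_mono interior_subset)
  exact ENNReal.toReal_pos h1.ne' hK.compact.measure_lt_top.ne

/-- Diagonal maps. -/
noncomputable def diag {n : ℕ} (b : OrthonormalBasis (Fin n) ℝ V) (w : Fin n → ℝ) :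
    V →ₗ[ℝ] V where
  toFun x := ∑ i, (w i * inner ℝ (b i) x) • b i
  map_add' x y := by
    rw [← Finset.sum_add_distrib]
    exact Finset.sum_congr rfl fun i _ => by rw [inner_add_right, mul_add, add_smul]
  map_smul' t x := by
    rw [RingHom.id_apply, Finset.smul_sum]
    exact Finset.sum_congr rfl fun i _ => by
      rw [inner_smul_right, smul_smul]
      congr 1
      ring

omit [FiniteDimensional ℝ V] [MeasurableSpace V] [BorelSpace V] in
theorem diag_apply {n : ℕ} (b : OrthonormalBasis (Fin n) ℝ V) (w : Fin n → ℝ) (x : V) :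
    diag b w x = ∑ i, (w i * inner ℝ (b i) x) • b i := rfl

omit [FiniteDimensional ℝ V] [MeasurableSpace V] [BorelSpace V] in
theorem inner_diag {n : ℕ} (b : OrthonormalBasis (Fin n) ℝ V) (w : Fin n → ℝ) (i : Fin n)
    (x : V) : inner ℝ (b i) (diag b w x) = w i * inner ℝ (b i) x := by
  rw [diag_apply]
  exact b.orthonormal.inner_right_fintype _ i

omit [FiniteDimensional ℝ V] [MeasurableSpace V] [BorelSpace V] in
theorem diag_diag {n : ℕ} (b : OrthonormalBasis (Fin n) ℝ V) (w w' : Fin n → ℝ) (x : V) :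
    diag b w (diag b w' x) = diag b (fun i => w i * w' i) x := by
  rw [diag_apply b w, diag_apply b fun i => w i * w' i]
  refine Finset.sum_congr rfl fun i _ => ?_
  rw [inner_diag, mul_assoc]

omit [FiniteDimensional ℝ V] [MeasurableSpace V] [BorelSpace V] in
theorem diag_one {n : ℕ} (b : OrthonormalBasis (Fin n) ℝ V) (x : V) :
    diag b (fun _ => 1) x = x := by
  rw [diag_apply]
  simp only [one_mul]
  exact b.sum_repr' x

omit [FiniteDimensional ℝ V] [MeasurableSpace V] [BorelSpace V] in
theorem diag_symm {n : ℕ} (b : OrthonormalBasis (Fin n) ℝ V) (w : Fin n → ℝ) (x y : V) :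
    inner ℝ (diag b w x) y = inner ℝ x (diag b w y) := by
  have h : ∀ x y, inner ℝ (diag b w x) y = ∑ i, w i * inner ℝ (b i) x * inner ℝ (b i) y := by
    intro x y
    rw [diag_apply, sum_inner]
    exact Finset.sum_congr rfl fun i _ => by rw [real_inner_smul_left]
  rw [h, real_inner_comm, h]
  exact Finset.sum_congr rfl fun i _ => by ring

omit [FiniteDimensional ℝ V] [MeasurableSpace V] [BorelSpace V] in
theorem norm_diag_sq {n : ℕ} (b : OrthonormalBasis (Fin n) ℝ V) (w : Fin n → ℝ) (x : V) :
    ‖diag b w x‖ ^ 2 = ∑ i, w i ^ 2 * inner ℝ (b i) x ^ 2 := by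
  rw [← real_inner_self_eq_norm_sq, diag_symm, diag_diag, real_inner_comm, diag_apply, sum_inner]
  exact Finset.sum_congr rfl fun i _ => by
    rw [real_inner_smul_left]
    ring

/-- positivity of the covariance form -/
theorem cov_pos {K : Set V} (hK : IsSymBody K) {v : V} (hv : v ≠ 0) :
    0 < ∫ z in K, inner ℝ z v ^ 2 := by
  have hi : IntegrableOn (fun z : V => inner ℝ z v ^ 2) K :=
    John2.integrableOn_of_continuous hK.compact (by fun_prop)
  rw [setIntegral_pos_iff_support_of_nonneg_ae
    (Filter.Eventually.of_forall fun z => sq_nonneg _) hi]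
  obtain ⟨r, hr, hrK⟩ := hK.exists_closedBall
  have hnv : 0 < ‖v‖ := norm_pos_iff.2 hv
  have hopen : IsOpen (ball (0 : V) r ∩ {z | inner ℝ z v ≠ 0}) :=
    isOpen_ball.inter (isOpen_ne_fun (by fun_prop) continuous_const)
  have hne : (ball (0 : V) r ∩ {z | inner ℝ z v ≠ 0}).Nonempty := by
    refine ⟨(r / 2 / ‖v‖) • v, ?_, ?_⟩
    · rw [mem_ball_zero_iff, norm_smul, Real.norm_eq_abs, abs_of_pos (by positivity)]
      have : r / 2 / ‖v‖ * ‖v‖ = r / 2 := by field_simp
      rw [this]
      linarith
    · show inner ℝ ((r / 2 / ‖v‖) • v) v ≠ 0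
      rw [real_inner_smul_left, real_inner_self_eq_norm_sq]
      positivity
  refine lt_of_lt_of_le (hopen.measure_pos volume hne) (measure_mono ?_)
  intro z hz
  refine ⟨?_, hrK (ball_subset_closedBall hz.1)⟩
  rw [Function.mem_support]
  exact pow_ne_zero 2 hz.2

theorem setIntegral_image (T : V ≃ₗ[ℝ] V) {K : Set V} (hK : MeasurableSet K) (f : V → ℝ) :
    ∫ z in T '' K, f z = |LinearMap.det (T : V →ₗ[ℝ] V)| * ∫ z in K, f (T z) := by
  have h := integral_image_eq_integral_abs_det_fderiv_smul (volume : Measure V) hK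
    (f := fun z => T z) (f' := fun _ => (T.toContinuousLinearEquiv : V →L[ℝ] V))
    (fun x _ => (T.toContinuousLinearEquiv : V →L[ℝ] V).hasFDerivWithinAt) T.injective.injOn f
  have h2 : (fun z => T z) '' K = T '' K := rfl
  rw [h2] at h
  rw [h, ← integral_const_mul]
  rfl

omit [FiniteDimensional ℝ V] [MeasurableSpace V] [BorelSpace V] in
theorem supp_image (T : V → V) (K : Set V) (S : V → V)
    (h : ∀ x v, inner ℝ (T x) v = inner ℝ x (S v)) (v : V) : supp (T '' K) v = supp K (S v) := by
  unfold supp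
  rw [image_image]
  simp only [h]

end EqEll

open EqEll in
theorem ellipsoid_of_moments {n : ℕ} (hn : 1 ≤ n) (hd : finrank ℝ V = n) {K : Set V}
    (hK : IsSymBody K)
    (h : ∀ y, y ∉ K → ∃ v : V, supp K v < inner ℝ y v ∧
      ((n : ℝ) + 2) * ∫ z in K, inner ℝ z v ^ 2 = supp K v ^ 2 * vol K) :
    ∃ T : V ≃ₗ[ℝ] V, K = T '' closedBall (0 : V) 1 := by
  have hvol : 0 < vol K := vol_pos' hK.toIsBody
  set c : ℝ := ((n : ℝ) + 2) / vol K with hc
  have hc0 : 0 < c := by positivity
  set S : V →ₗ[ℝ] V := c • John2.cov hK.compact with hS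
  have hSinner : ∀ v, inner ℝ v (S v) = c * ∫ z in K, inner ℝ z v ^ 2 := by
    intro v
    rw [hS, LinearMap.smul_apply, inner_smul_right, John2.inner_cov]
  have hsym : S.IsSymmetric := by
    intro v w
    rw [hS, LinearMap.smul_apply, LinearMap.smul_apply, real_inner_smul_left, inner_smul_right,
      John2.cov_symm]
  set b := hsym.eigenvectorBasis hd with hb
  set l := hsym.eigenvalues hd with hl
  have hbl : ∀ i, S (b i) = l i • b i := fun i => hsym.apply_eigenvectorBasis hd i
  have hlpos : ∀ i, 0 < l i := by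
    intro i
    have h1 := hSinner (b i)
    rw [hbl, inner_smul_right, real_inner_self_eq_norm_sq, b.norm_eq_one] at h1
    have h2 : b i ≠ 0 := by
      intro h0
      have := b.norm_eq_one i
      rw [h0, norm_zero] at this
      exact zero_ne_one this
    have h3 := mul_pos hc0 (cov_pos hK h2)
    rw [← h1] at h3
    linarith
  set w : Fin n → ℝ := fun i => Real.sqrt (l i) with hw
  have hw0 : ∀ i, w i ≠ 0 := fun i => (Real.sqrt_pos.2 (hlpos i)).ne'
  let T : V ≃ₗ[ℝ] V := LinearEquiv.ofLinearMap (diag b w) (diag b fun i => (w i)⁻¹)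
    (by
      ext x
      rw [LinearMap.comp_apply, diag_diag]
      have : (fun i => w i * (w i)⁻¹) = fun _ => (1 : ℝ) := by
        funext i
        exact mul_inv_cancel₀ (hw0 i)
      rw [this, diag_one]
      rfl)
    (by
      ext x
      rw [LinearMap.comp_apply, diag_diag]
      have : (fun i => (w i)⁻¹ * w i) = fun _ => (1 : ℝ) := by
        funext i
        exact inv_mul_cancel₀ (hw0 i)
      rw [this, diag_one]
      rfl)
  have hT : ∀ x, T x = diag b w x := fun x => rfl
  have hTsym : ∀ x y, inner ℝ (T x) y = inner ℝ x (T y) := fun x y => diag_symm b w x y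
  have hTnorm : ∀ v, ‖T v‖ ^ 2 = c * ∫ z in K, inner ℝ z v ^ 2 := by
    intro v
    rw [← hSinner, hT, norm_diag_sq, ← b.sum_inner_mul_inner v (S v)]
    refine Finset.sum_congr rfl fun i _ => ?_
    rw [← hsym, hbl, real_inner_smul_left, hw, Real.sq_sqrt (hlpos i).le, real_inner_comm v (b i)]
    ring
  -- the transformed body
  set K' : Set V := T.symm '' K with hK'
  have hKK' : K = T '' K' := by
    rw [hK', ← image_comp]
    have : (T ∘ T.symm : V → V) = id := by
      funext x
      simp
    rw [this, image_id]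
  have hK's : IsSymBody K' := by
    refine ⟨hK.toIsBody.image T.symm, ?_⟩
    rintro _ ⟨x, hx, rfl⟩
    exact ⟨-x, hK.symm x hx, map_neg T.symm x⟩
  have hvol' : vol K = |LinearMap.det (T : V →ₗ[ℝ] V)| * vol K' := by
    conv_lhs => rw [hKK']
    exact vol_image_linearEquiv T K'
  have hdet : 0 < |LinearMap.det (T : V →ₗ[ℝ] V)| := by
    rcases (abs_nonneg (LinearMap.det (T : V →ₗ[ℝ] V))).lt_or_eq with h1 | h1
    · exact h1
    · rw [← h1, zero_mul] at hvol'
      linarith
  have hmom : ∀ v, ∫ z in K, inner ℝ z v ^ 2 =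
      |LinearMap.det (T : V →ₗ[ℝ] V)| * ∫ z in K', inner ℝ z (T v) ^ 2 := by
    intro v
    conv_lhs => rw [hKK']
    rw [setIntegral_image T hK's.compact.measurableSet]
    simp only [hTsym]
  have hid : ∀ v : V, ((n : ℝ) + 2) * ∫ z in K', inner ℝ z v ^ 2 = ‖v‖ ^ 2 * vol K' := by
    intro v
    obtain ⟨u, rfl⟩ := T.surjective v
    rw [hTnorm, hmom, hc, hvol']
    have hv' : 0 < vol K' := vol_pos' hK's.toIsBody
    field_simp
  have hball : K' = closedBall (0 : V) 1 := by
    refine ball_case hn hd hK's hid fun y hy => ?_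
    have hy' : T y ∉ K := by
      intro hmem
      apply hy
      exact ⟨T y, hmem, T.symm_apply_apply y⟩
    obtain ⟨v, h1, h2⟩ := h _ hy'
    have hsupp : supp K v = supp K' (T v) := by
      conv_lhs => rw [hKK']
      exact supp_image T K' T hTsym v
    refine ⟨T v, ?_, ?_⟩
    · rw [← hsupp, ← hTsym]
      exact h1
    · rw [← hsupp]
      have h0 : 0 ≤ supp K v := by
        have := le_supp hK.compact v (interior_subset hK.zero_mem_interior)
        rwa [inner_zero_left] at this
      have h3 : supp K v ^ 2 = ‖T v‖ ^ 2 := by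
        rw [hTnorm, hc]
        field_simp
        linarith
      exact (sq_eq_sq₀ h0 (norm_nonneg _)).1 h3
  exact ⟨T, by rw [← hball]; exact hKK'⟩

end Vale.Agent.P237.AllN
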