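import Mathlib
import Vale.Agent.P237.AllN.Body

/-!
# P237, all dimensions: second moment of a body with a ball profile
-/

open MeasureTheory Metric Set Module
open scoped Pointwise

namespace Vale.Agent.P237.AllN

open Exch

variable {V : Type*} [NormedAddCommGroup V] [InnerProductSpace ℝ V] [FiniteDimensional ℝ V]
  [MeasurableSpace V] [BorelSpace V]

/-- The profile in the direction `u` is the one of a ball. -/
def BallProf (K : Set V) (u : V) (m : ℕ) : Prop :=
  ∃ C : ℝ, ∀ t ∈ Ioo (-1 : ℝ) 1, vol (slice K u (supp K u * t)) = C * Real.sqrt (1 - t ^ 2) ^ m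

/-- Change of variables to the profile. -/
theorem eqMoment_integral {K : Set V} (hK : IsSymBody K) {u : V} (hu : ‖u‖ = 1)
    (hpos : 0 < supp K u) {F : ℝ → ℝ} (hF : Continuous F) :
    ∫ y in K, F ((supp K u)⁻¹ * inner ℝ y u) =
      supp K u * ∫ t in (-1 : ℝ)..1, F t * vol (slice K u (supp K u * t)) := by
  have : Fact (IsSymBody K) := ⟨hK⟩
  set h := supp K u with hh
  have e2 : ∫ y in K, F (h⁻¹ * inner ℝ y u) = ∫ y in K, (fun s => F (h⁻¹ * s)) (inner ℝ y u) := rfl
  rw [e2, integral_slice hK.compact hu (fun s => F (h⁻¹ * s)) (by fun_prop)]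
  have e3 : ∫ y : ℝ, F (h⁻¹ * y) * vol (slice K u y) =
      ∫ y in (-h)..h, F (h⁻¹ * y) * vol (slice K u y) := by
    rw [intervalIntegral.integral_of_le (by linarith), integral_Ioc_eq_integral_Ioo,
      ← integral_Icc_eq_integral_Ioo]
    refine (setIntegral_eq_integral_of_forall_compl_eq_zero fun y hy => ?_).symm
    have : h < |y| := by
      by_contra hcon
      exact hy (abs_le.1 (not_lt.1 hcon))
    rw [vol_slice_zero K hu this, mul_zero]
  rw [e3]
  have e4 := intervalIntegral.mul_integral_comp_mul_left (a := (-1 : ℝ)) (b := 1)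
    (f := fun y => F (h⁻¹ * y) * vol (slice K u y)) h
  rw [mul_neg, mul_one] at e4
  rw [← e4]
  congr 1
  refine intervalIntegral.integral_congr fun t _ => ?_
  rw [← mul_assoc, inv_mul_cancel₀ hpos.ne', one_mul]

/-- The moment identity of the ball profile. -/
theorem eqMoment_weight (m : ℕ) :
    ((m : ℝ) + 3) * ∫ t in (-1 : ℝ)..1, t ^ 2 * Real.sqrt (1 - t ^ 2) ^ m =
      ∫ t in (-1 : ℝ)..1, Real.sqrt (1 - t ^ 2) ^ m := by
  have h1 : ∫ t in (-1 : ℝ)..1, (Real.sqrt (1 - t ^ 2) ^ m -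
      ((m : ℝ) + 3) * (t ^ 2 * Real.sqrt (1 - t ^ 2) ^ m)) =
      1 * Real.sqrt (1 - 1 ^ 2) ^ (m + 2) - (-1) * Real.sqrt (1 - (-1) ^ 2) ^ (m + 2) := by
    refine intervalIntegral.integral_eq_sub_of_hasDerivAt_of_le (by norm_num)
      (f := fun t => t * Real.sqrt (1 - t ^ 2) ^ (m + 2)) ?_ (fun t ht => ?_) ?_
    · exact (by fun_prop : Continuous fun t : ℝ => t * Real.sqrt (1 - t ^ 2) ^ (m + 2)).continuousOn
    · have hw : 0 < 1 - t ^ 2 := by nlinarith [ht.1, ht.2]
      have hs : 0 < Real.sqrt (1 - t ^ 2) := Real.sqrt_pos.2 hw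
      have hsq : Real.sqrt (1 - t ^ 2) ^ 2 = 1 - t ^ 2 := Real.sq_sqrt hw.le
      have d0 : HasDerivAt (fun t : ℝ => 1 - t ^ 2) (-(2 * t)) t := by
        have := ((hasDerivAt_id t).pow 2).const_sub 1
        simpa using this
      have d1 := (d0.sqrt hw.ne').pow (m + 2)
      have d2 := (hasDerivAt_id t).mul d1
      refine d2.congr_deriv ?_
      simp only [id, one_mul, Pi.pow_apply]
      rw [show m + 2 - 1 = m + 1 by omega, pow_succ _ (m + 1), pow_succ _ m]
      generalize Real.sqrt (1 - t ^ 2) = w at hs hsq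
      have hw0 : w ≠ 0 := hs.ne'
      have e : w ^ m * w * w = w ^ m * (1 - t ^ 2) := by rw [mul_assoc, ← sq, hsq]
      rw [e]
      field_simp
      push_cast
      ring
    · exact (by fun_prop : Continuous fun t : ℝ => Real.sqrt (1 - t ^ 2) ^ m -
        ((m : ℝ) + 3) * (t ^ 2 * Real.sqrt (1 - t ^ 2) ^ m)).intervalIntegrable _ _
  rw [intervalIntegral.integral_sub
    ((by fun_prop : Continuous fun t : ℝ => Real.sqrt (1 - t ^ 2) ^ m).intervalIntegrable _ _)
    ((by fun_prop : Continuous fun t : ℝ =>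
      ((m : ℝ) + 3) * (t ^ 2 * Real.sqrt (1 - t ^ 2) ^ m)).intervalIntegrable _ _),
    intervalIntegral.integral_const_mul] at h1
  have h2 : (1 : ℝ) * Real.sqrt (1 - 1 ^ 2) ^ (m + 2) -
      (-1) * Real.sqrt (1 - (-1) ^ 2) ^ (m + 2) = 0 := by
    norm_num
  rw [h2] at h1
  linarith

/-- Second moment of a body with the profile of a ball. -/
theorem ballProf_moment {m : ℕ} (hd : finrank ℝ V = m + 1) {K : Set V} (hK : IsSymBody K) {u : V}
    (hu : ‖u‖ = 1) (h : BallProf K u m) :
    ((m : ℝ) + 3) * ∫ y in K, inner ℝ y u ^ 2 = supp K u ^ 2 * vol K := by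
  have : Nontrivial V := Module.nontrivial_of_finrank_pos (R := ℝ) (by omega)
  obtain ⟨C, hC⟩ := h
  have hpos : 0 < supp K u := supp_pos hK hu
  have key : ∀ F : ℝ → ℝ, ∫ t in (-1 : ℝ)..1, F t * vol (slice K u (supp K u * t)) =
      C * ∫ t in (-1 : ℝ)..1, F t * Real.sqrt (1 - t ^ 2) ^ m := by
    intro F
    rw [← intervalIntegral.integral_const_mul, intervalIntegral.integral_of_le (by norm_num),
      intervalIntegral.integral_of_le (by norm_num), integral_Ioc_eq_integral_Ioo,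
      integral_Ioc_eq_integral_Ioo]
    refine setIntegral_congr_fun measurableSet_Ioo fun t ht => ?_
    rw [hC t ht]; ring
  have h1 := eqMoment_integral hK hu hpos (F := fun t => t ^ 2) (by fun_prop)
  have h2 := eqMoment_integral hK hu hpos (F := fun _ => 1) (by fun_prop)
  rw [key] at h1 h2
  have e1 : ∫ y in K, (fun t : ℝ => t ^ 2) ((supp K u)⁻¹ * inner ℝ y u) =
      ((supp K u)⁻¹) ^ 2 * ∫ y in K, inner ℝ y u ^ 2 := by
    rw [← integral_const_mul]
    congr 1
    funext y
    simp only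
    ring
  have e2 : ∫ _ in K, (1 : ℝ) = vol K := by
    rw [setIntegral_const, smul_eq_mul, mul_one]; rfl
  rw [e1] at h1
  rw [e2] at h2
  simp only [one_mul] at h2
  have h3 : ∫ y in K, inner ℝ y u ^ 2 = supp K u ^ 2 * (supp K u * (C *
      ∫ t in (-1 : ℝ)..1, t ^ 2 * Real.sqrt (1 - t ^ 2) ^ m)) := by
    rw [← h1]
    field_simp
  rw [h3, h2, ← eqMoment_weight m]
  ring

end Vale.Agent.P237.AllN
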