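import Vale.Agent.P237.AllN.FBri8
import Vale.Agent.P237.AllN.FIn

/-!
# P237, block D: facts at a point, in the real variables of the regions

`z = x²`, `s = √(1-x²)`, `l = log(τ/x)`, `u = xτ'/τ - 1`, `c = a_m/a_{m-1}`,
`N = m (e^{(l+log(1+u))/m} - 1) - l - u`, `G = 2(g₀(τ) - g₀(x) + z l/(s(1+s)²))`.
-/

open Set

namespace Vale.Agent.P237.AllN

open Alm

/-! ### bounds for `N` -/

theorem fa_N_ge {M l u : ℝ} (hM : 0 < M) : Real.log (1 + u) - u ≤ jN M l u := by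
  unfold jN
  have h := Real.add_one_le_exp ((l + Real.log (1 + u)) / M)
  have h2 := mul_le_mul_of_nonneg_left h hM.le
  have h3 : M * ((l + Real.log (1 + u)) / M + 1) = l + Real.log (1 + u) + M := by
    field_simp
  rw [h3] at h2
  linarith

theorem fa_N_ge2 {M l u : ℝ} (hM : 0 < M) (h0 : 0 ≤ l + Real.log (1 + u)) :
    Real.log (1 + u) - u + (l + Real.log (1 + u)) ^ 2 / (2 * M) ≤ jN M l u := by
  unfold jN
  have h := Real.quadratic_le_exp_of_nonneg (x := (l + Real.log (1 + u)) / M) (by positivity)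
  have h2 := mul_le_mul_of_nonneg_left h hM.le
  have h3 : M * (1 + (l + Real.log (1 + u)) / M + ((l + Real.log (1 + u)) / M) ^ 2 / 2) =
      M + (l + Real.log (1 + u)) + (l + Real.log (1 + u)) ^ 2 / (2 * M) := by
    field_simp
  rw [h3] at h2
  linarith

/-! ### the package of facts -/

/-- facts at a point of a transport, real variables (everything but the `l`-steps) -/
structure FFacts (m : ℕ) (z s l u c : ℝ) : Prop where
  z0 : 0 < z
  z1 : z < 1
  s0 : 0 < s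
  s1 : s < 1
  hs : s ^ 2 = 1 - z
  u0 : 0 < 1 + u
  us : u * s ≤ 1
  uw : 0 ≤ u → u ^ 2 ≤ 4 / 25 * (m * (z / s ^ 2))
  ul : -(m / 2 * (z / s ^ 2)) ≤ u
  lneg : l ≤ 0 → l ^ 2 ≤ 87 / 500 * m
  le : z * Real.exp (2 * l) < 1
  c0 : 1 - 1 / (2 * (m : ℝ)) ≤ c
  c1 : c ≤ 1
  c2 : c ^ 2 ≤ ((m : ℝ) + 1) / ((m : ℝ) + 2)
  sm : m * Real.log s ≤ Real.log (1 + u)

variable {m : ℕ} {r τ τ' T : ℝ → ℝ} {x : ℝ}

theorem IsTrans.fa_exp (h : IsTrans m r τ τ' T) (hx : x ∈ Ioo (0 : ℝ) 1) :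
    x * Real.exp (lf τ x) < 1 := by
  rw [← tau_eq_exp h hx]
  exact (h.mem x hx).2

theorem IsTrans.ffacts (hm : 15 ≤ m) (hr : IsProf r) (h : IsTrans m r τ τ' T)
    (hx : x ∈ Ioo (0 : ℝ) 1) :
    FFacts m (x ^ 2) (sq x) (lf τ x) (uf τ τ' x) (fc m) := by
  have hx0 := hx.1
  have hs0 := sl_sq_pos (mem_neg hx)
  have hs2 := pin_sq_sq (Ioo_subset_Icc_self hx)
  have hz0 : 0 < x ^ 2 := by positivity
  refine ⟨hz0, by nlinarith [hx.2], hs0, by nlinarith, hs2, uf_pos h hx, ?_,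
    fun hu => h.fin_u_sq' (by omega) hr hx hu, h.fin_u_ge_y (by omega) hr hx,
    fun hl => h.fin_l_sq hm hr hx hl, ?_, fc_ge (by omega), fc_le_one (by omega),
    fc_sq_le (by omega), ?_⟩
  · have := h.fin_u_inv hr hx
    rwa [le_div_iff₀ hs0] at this
  · have h1 := h.fa_exp hx
    have h2 : x ^ 2 * Real.exp (2 * lf τ x) = (x * Real.exp (lf τ x)) ^ 2 := by
      rw [mul_pow, ← Real.exp_nat_mul]
      push_cast
      rfl
    rw [h2]
    have h3 : 0 ≤ x * Real.exp (lf τ x) := by positivity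
    exact pow_lt_one₀ h3 h1 two_ne_zero
  · have h1 := h.fin_u_ge hr hx
    rw [← Real.log_pow]
    exact Real.log_le_log (by positivity) (by linarith)

theorem IsTrans.jG_eq (h : IsTrans m r τ τ' T) (hx : x ∈ Ioo (0 : ℝ) 1) :
    jG τ x = 2 * (bg (x * Real.exp (lf τ x)) - bg x +
      x ^ 2 / (sq x * (1 + sq x) ^ 2) * lf τ x) := by
  unfold jG
  rw [← tau_eq_exp h hx]

end Vale.Agent.P237.AllN
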