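import Vale.Agent.P237.AllN.FAllA
import Vale.Agent.P237.AllN.ApriX
import Vale.Agent.P237.AllN.ApriE
import Vale.Agent.P237.AllN.ApBoxFin

/-!
# P237, block D: the a-priori bounds for `l` in one form, `m ≥ 27`

`q = m x²`: `l ≤ 1/2` (`q ≤ 16/25`), `l ≤ 2/5` (`16/25 ≤ q ≤ 25/4`), `l ≤ 2/5` (`m ≤ 47`) resp.
`43/100` (`25/4 ≤ q ≤ 121/16`), `l ≤ 11/25` (`m ≤ 47`) resp. `19/40` (`121/16 ≤ q ≤ 9`), and for
`9 ≤ q` the integrated slope bound from `x₃ = 3/√m`.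
-/

open Set

namespace Vale.Agent.P237.AllN

open Alm

/-- the `l`-steps at a point, `q = m z`, for `q ≤ 9` -/
structure FSteps (m : ℕ) (q l : ℝ) : Prop where
  st1 : q ≤ 16 / 25 → l ≤ 1 / 2
  st2 : 16 / 25 ≤ q → q ≤ 25 / 4 → l ≤ 2 / 5
  st3 : 25 / 4 ≤ q → q ≤ 121 / 16 → l ≤ 43 / 100
  st3' : m ≤ 47 → 25 / 4 ≤ q → q ≤ 121 / 16 → l ≤ 2 / 5
  st4 : 121 / 16 ≤ q → q ≤ 9 → l ≤ 19 / 40
  st4' : m ≤ 47 → 121 / 16 ≤ q → q ≤ 9 → l ≤ 11 / 25

variable {m : ℕ} {r τ τ' T : ℝ → ℝ} {x : ℝ}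

theorem IsTrans.fsteps (hm : 27 ≤ m) (hr : IsProf r) (h : IsTrans m r τ τ' T)
    (hN : (∫ y in (-1 : ℝ)..1, r y ^ (m - 1)) ^ m * aInt m ^ (m - 1) ≤
      aInt (m - 1) ^ m * (∫ y in (-1 : ℝ)..1, r y ^ m) ^ (m - 1))
    (hx : x ∈ Ioo (0 : ℝ) 1) : FSteps m ((m : ℝ) * x ^ 2) (lf τ x) := by
  rcases le_or_gt m 47 with h47 | h47
  · have a1 := fun hq => h.ap_half (by omega) h47 hr hN hx hq
    have a2 := fun hq0 hq => h.ap_twofifth (by omega) h47 hr hN hx hq0 hq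
    have a3 := fun hq0 hq => h.ap_last (by omega) h47 hr hN hx hq0 hq
    refine ⟨a1, fun h1 h2 => a2 h1 (by linarith), fun h1 h2 => ?_, fun _ h1 h2 => ?_,
      fun h1 h2 => ?_, fun _ h1 h2 => a3 h1 h2⟩
    · have := a2 (by linarith) h2
      linarith
    · exact a2 (by linarith) h2
    · have := a3 h1 h2
      linarith
  · refine ⟨fun hq => h.apr_step1 (by omega) hr hN hx ?_,
      fun h1 h2 => h.apr_step2 (by omega) hr hN hx ?_ ?_,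
      fun h1 h2 => h.apr_step3 (by omega) hr hN hx ?_ ?_, fun h0 => by omega,
      fun h1 h2 => h.apr_step4 (by omega) hr hN hx ?_ ?_, fun h0 => by omega⟩
    all_goals norm_num at *
    all_goals linarith

/-- the point `x₃ = 3/√m` -/
theorem fb_x3 (hm : 27 ≤ m) : 0 < 3 / Real.sqrt m ∧ 3 / Real.sqrt m < 1 ∧
    (m : ℝ) * (3 / Real.sqrt m) ^ 2 = 9 := by
  have hm' : (27 : ℝ) ≤ m := by exact_mod_cast hm
  have hm0 : (0 : ℝ) < m := by linarith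
  have hs : 0 < Real.sqrt m := Real.sqrt_pos.2 hm0
  refine ⟨by positivity, ?_, ?_⟩
  · rw [div_lt_one hs, Real.lt_sqrt (by norm_num)]
    linarith
  · rw [div_pow, Real.sq_sqrt hm0.le]
    field_simp
    norm_num

/-- **the bound for `9 ≤ m x²`**, squared exponential form: for `c = 19/40`, and for `c = 11/25`
if `m ≤ 47` -/
theorem IsTrans.fa_l3 (hm : 27 ≤ m) (hr : IsProf r) (h : IsTrans m r τ τ' T)
    (hN : (∫ y in (-1 : ℝ)..1, r y ^ (m - 1)) ^ m * aInt m ^ (m - 1) ≤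
      aInt (m - 1) ^ m * (∫ y in (-1 : ℝ)..1, r y ^ m) ^ (m - 1))
    (hx : x ∈ Ioo (0 : ℝ) 1) (hX : 9 ≤ (m : ℝ) * x ^ 2) {c : ℝ}
    (hc : c = 19 / 40 ∨ (m ≤ 47 ∧ c = 11 / 25)) :
    Real.exp (2 * (lf τ x - c)) * (9 * (1 + sq x) ^ 2) ≤
      m * x ^ 2 * (1 + Real.sqrt (1 - 9 / m)) ^ 2 := by
  have hm' : (27 : ℝ) ≤ m := by exact_mod_cast hm
  have hm0 : (0 : ℝ) < m := by linarith
  obtain ⟨h30, h31, h39⟩ := fb_x3 hm
  set x3 := 3 / Real.sqrt m with hx3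
  have hx3' : x3 ∈ Ioo (0 : ℝ) 1 := ⟨h30, h31⟩
  have h3x : x3 ≤ x := by
    have : x3 ^ 2 ≤ x ^ 2 := by
      have : (m : ℝ) * x3 ^ 2 ≤ m * x ^ 2 := by linarith
      exact le_of_mul_le_mul_left this hm0
    exact le_of_sq_le_sq this hx.1.le
  have st := h.fsteps hm hr hN hx3'
  have hc3 : lf τ x3 ≤ c := by
    rcases hc with rfl | ⟨h47, rfl⟩
    · exact st.st4 (by rw [h39]; norm_num) h39.le
    · exact st.st4' h47 (by rw [h39]; norm_num) h39.le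
  have h1 := h.apx_log_of hr h30 h3x hx.2 hc3
  have hs := sqx_pos hx
  have hs3 := sqx_pos hx3'
  have hx0 := hx.1
  have hsq3 : sq x3 = Real.sqrt (1 - 9 / m) := by
    unfold sq
    congr 1
    have : x3 ^ 2 = 9 / m := by
      rw [eq_div_iff hm0.ne']; linarith
    rw [this]
  have h2 : Real.exp (lf τ x - c) ≤ x / (1 + sq x) * ((1 + sq x3) / x3) := by
    have := Real.exp_le_exp.2 (by linarith : lf τ x - c ≤
      Real.log (x / (1 + sq x) * ((1 + sq x3) / x3)))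
    rwa [Real.exp_log (by positivity)] at this
  have h3 : Real.exp (2 * (lf τ x - c)) = Real.exp (lf τ x - c) ^ 2 := by
    rw [← Real.exp_nat_mul]
    push_cast
    rfl
  rw [h3]
  have h4 := pow_le_pow_left₀ (Real.exp_pos _).le h2 2
  have h5 : (x / (1 + sq x) * ((1 + sq x3) / x3)) ^ 2 * (9 * (1 + sq x) ^ 2) =
      m * x ^ 2 * (1 + sq x3) ^ 2 := by
    have e : (9 : ℝ) = m * x3 ^ 2 := h39.symm
    rw [e]
    field_simp
  have h6 := mul_le_mul_of_nonneg_right h4 (by positivity : 0 ≤ 9 * (1 + sq x) ^ 2)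
  rw [h5] at h6
  rw [← hsq3]
  exact h6

end Vale.Agent.P237.AllN
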