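import Vale.Agent.P237.AllN.FXrH

/-!
# P237, block D, `x ≥ 7/10`, `l > 0`: `u ≤ 0` and the region theorem
-/

namespace Vale.Agent.P237.AllN

open PolyPos

/-- `R₀ - 54(1-s)s² - 71/5 s⁵(1-s)`, `R₀ = 2s⁴+135zs²+675z²` over 10 -/
private def chF : Ex :=
  fxk 1 9 * (fxk 2 0 * (Ex.X * Ex.X * (Ex.X * Ex.X)) + fxk 135 0 * (fxZ * (Ex.X * Ex.X)) +
    fxk 675 0 * (fxZ * fxZ)) -
  fxk 54 0 * ((fxk 1 0 - Ex.X) * (Ex.X * Ex.X)) -
  fxk 71 4 * (Ex.X * Ex.X * (Ex.X * Ex.X) * Ex.X * (fxk 1 0 - Ex.X))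

private theorem chkF : Ex.nn (2 ^ 512) 60 4000 0 5 7 0 1 1 chF = true := by
  decide +kernel

theorem fxr_tF {s : ℝ} (hs : 0 ≤ s) (hs1 : s ≤ 5 / 7) :
    54 * ((1 - s) * s ^ 2) + 71 / 5 * (s ^ 5 * (1 - s)) ≤
      (2 * s ^ 4 + 135 * (1 - s ^ 2) * s ^ 2 + 675 * (1 - s ^ 2) ^ 2) / 10 := by
  have h := Ex.nn_closed (x := s) (y := 0) (by norm_num) (by norm_num) (by norm_num)
    (by norm_num) chkF (by push_cast; linarith only [hs]) (by push_cast; linarith only [hs1]) (by norm_num)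
    (by norm_num)
  simp only [chF, fxk, fxZ, Ex.R_add, Ex.R_sub, Ex.R_mul, Ex.R_c, Ex.R_X, Fr.R] at h
  push_cast at h
  linarith [h]

/-- `2/s - 2` squared is at most `q` -/
theorem fxr_b2 {m s : ℝ} (hm : 27 ≤ m) (hs : 0 < s) (hs1 : s ≤ 5 / 7) :
    (2 / s - 2) ^ 2 ≤ fxq m s := by
  have hi := fxr_is hs hs1
  have h1 : 0 ≤ 2 / s - 2 := by
    have : 2 / s = 2 * (1 / s) := by ring
    linarith only [hi, this]
  have hs2 : s ^ 2 ≤ 25 / 49 := by nlinarith only [hs1, hs]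
  have h2 : 0 ≤ 6 / 25 * (m + 3) * ((1 - s ^ 2) / s) := by
    have : 0 ≤ m + 3 := by linarith only [hm]
    have : 0 ≤ 1 - s ^ 2 := by linarith only [hs2]
    positivity
  have h3 : (2 / s - 2) ^ 2 ≤ (2 / s - 2 + 6 / 25 * (m + 3) * ((1 - s ^ 2) / s)) ^ 2 :=
    pow_le_pow_left₀ h1 (by linarith only [h2]) 2
  exact h3.trans (fxr_B1 hm hs hs1)

/-- `8 y² ≤ q` -/
theorem fxr_y2q {m z s : ℝ} (hm : 27 ≤ m) (hs : 0 < s) (hs1 : s ≤ 5 / 7) (hsz : s ^ 2 = 1 - z) :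
    8 * (z / s ^ 2) ^ 2 ≤ fxq m s := by
  refine le_trans ?_ (fxr_q0 hm hs hs1)
  have hs2 : s ^ 2 ≤ 25 / 49 := by nlinarith only [hs1, hs]
  rw [show 1 - s ^ 2 = z by linarith only [hsz], div_pow, ← mul_div_assoc,
    div_le_div_iff₀ (by positivity) (by positivity)]
  have h1 : 8 * s ≤ 72 - 82 * s ^ 2 := by linarith only [hs1, hs2]
  have h2 := mul_le_mul_of_nonneg_right h1 (by positivity : 0 ≤ z ^ 2 * s ^ 4)
  linarith only [h2]

/-- `-log(1+u) ≤ m (1/s - 1)` -/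
theorem fxr_Lm {m s u : ℝ} (hm : 27 ≤ m) (hs : 0 < s)
    (hlog : m * Real.log s ≤ Real.log (1 + u)) : -Real.log (1 + u) ≤ m * (1 / s - 1) := by
  have h1 := Real.one_sub_inv_le_log_of_pos hs
  rw [← one_div] at h1
  have h2 := mul_le_mul_of_nonneg_left h1 (by linarith : 0 ≤ m)
  linarith

theorem fxr_nP {m z s l u c : ℝ} (hm : 27 ≤ m) (hz : 0 < z) (hs : 0 < s) (hs1 : s ≤ 5 / 7)
    (hl : 0 < l) (hu1 : 0 < 1 + u) (hu : u ≤ 0)
    (hc1 : 1 - 1 / (2 * m) ≤ c) (hc2 : c ≤ 1) :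
    (2 * (m + 1) / (m - 1) - 2 * c) * ((u - Real.log (1 + u)) / s) +
      (2 * c / s - 2 * s ^ 2 + 2 * (1 - c)) * u +
      (2 * c / s - 2 + 2 * (1 - c) * (1 - m * (z / s ^ 2))) * l +
      6 / 25 * (m + 3) * z * (u * l) ≤
      1 / 5 * (-Real.log (1 + u) / s) + (2 / s - 2) * l := by
  have hy : 0 ≤ z / s ^ 2 := by positivity
  have h1 := fxr_kc hm hc1
  have h2 := fxr_kc0 hm hc2
  have h3 : (u - Real.log (1 + u)) / s ≤ -Real.log (1 + u) / s := by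
    apply div_le_div_of_nonneg_right _ hs.le
    (clear * - hu; linarith)
  have h4 : (2 * (m + 1) / (m - 1) - 2 * c) * ((u - Real.log (1 + u)) / s) ≤
      1 / 5 * (-Real.log (1 + u) / s) :=
    mul_le_mul h1 h3 (div_nonneg (fxr_phi_nonneg hu1) hs.le) (by norm_num)
  have h5 : (2 * c / s - 2 * s ^ 2 + 2 * (1 - c)) * u ≤ 0 :=
    mul_nonpos_of_nonneg_of_nonpos (fxr_cu hm hs hs1 hc1 hc2).1 hu
  have h6 := mul_le_mul_of_nonneg_right (fxr_rr hm hs hs1 hy hc1 hc2).2 hl.le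
  have h7 : 6 / 25 * (m + 3) * z * (u * l) ≤ 0 := by
    apply mul_nonpos_of_nonneg_of_nonpos
    · have : 0 ≤ m + 3 := by linarith only [hm]
      positivity
    · exact mul_nonpos_of_nonpos_of_nonneg hu hl.le
  linarith only [h4, h5, h6, h7]

theorem fxr_nPr {m z s l L : ℝ} (hm : 27 ≤ m) (hz : 49 / 100 ≤ z) (hs : 0 < s)
    (hsz : s ^ 2 = 1 - z) (hl71 : l ≤ 71 / 100 * s ^ 2) (hL : L ≤ m * (1 / s - 1)) :
    1 / 5 * (L / s) + (2 / s - 2) * l ≤ 1 / 10 * dpR m (z / s ^ 2) := by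
  have hs1 := fxr_s_le hz hs hsz
  have hz' : z = 1 - s ^ 2 := by linarith only [hsz]
  have hz0 : 0 < z := by linarith only [hz]
  have hρS := fxr_rhoS (m := m) (z := z) hs
  have hm27 : 0 ≤ m - 27 := by linarith only [hm]
  have hi := fxr_is hs hs1
  have h0 : 0 ≤ 2 / s - 2 := by
    have : 2 / s = 2 * (1 / s) := by ring
    linarith only [hi, this]
  have h1 : L / s ≤ m * (1 / s - 1) / s := div_le_div_of_nonneg_right hL hs.le
  have h2 : (2 / s - 2) * l ≤ (2 / s - 2) * (71 / 100 * s ^ 2) :=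
    mul_le_mul_of_nonneg_left hl71 h0
  have h3 : 1 / 5 * (L / s) + (2 / s - 2) * l ≤ 1 / 5 * (m * (1 / s - 1) / s) +
      (2 / s - 2) * (71 / 100 * s ^ 2) := by linarith only [h1, h2]
  refine h3.trans (fxr_div hs ?_)
  have e : (1 / 5 * (m * (1 / s - 1) / s) + (2 / s - 2) * (71 / 100 * s ^ 2)) * s ^ 4 =
      (27 / 5 * ((1 - s) * s ^ 2) + 71 / 50 * (s ^ 5 * (1 - s))) +
      (m - 27) * (1 / 5 * ((1 - s) * s ^ 2)) := by
    field_simp
    ring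
  rw [e]
  have h4 := fxr_tF hs.le hs1
  rw [← hz'] at h4
  have h5 : (m - 27) * (1 / 5 * ((1 - s) * s ^ 2)) ≤
      (m - 27) * ((5 * z * s ^ 2 + 52 * z ^ 2) / 100) := by
    apply mul_le_mul_of_nonneg_left _ hm27
    have h6 : (1 - s) * s ^ 2 ≤ z * (25 / 49) := by
      have h7 : 1 - s ≤ z := by nlinarith only [hs, hsz, hs1]
      have h8 : s ^ 2 ≤ 25 / 49 := by nlinarith only [hz, hsz]
      exact mul_le_mul h7 h8 (sq_nonneg s) hz0.le
    have h9 : 49 / 100 * z ≤ z ^ 2 := by nlinarith only [hz]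
    have h10 : 0 ≤ z * s ^ 2 := by positivity
    linarith only [h6, h9, h10, hz0]
  linarith only [h4, h5, hρS]

theorem fxr_nP2 {m z s l W L : ℝ} (hm : 27 ≤ m) (hz : 49 / 100 ≤ z) (hs : 0 < s)
    (hsz : s ^ 2 = 1 - z) (hL : L ^ 2 ≤ W) :
    (1 / 5 * (L / s) + (2 / s - 2) * l) ^ 2 ≤ 4 / 5 * (dpR m (z / s ^ 2) *
      (fxq m s / 8 * l ^ 2 + 1 / 9 * (W / s))) := by
  have hs1 := fxr_s_le hz hs hsz
  have hz' : z = 1 - s ^ 2 := by linarith only [hsz]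
  have hz0 : 0 < z := by linarith only [hz]
  have hW0 : 0 ≤ W := (sq_nonneg L).trans hL
  have hq8 : 0 ≤ fxq m s / 8 * l ^ 2 := by
    have := fxr_q_pos hm hs hs1
    (clear * - this; positivity)
  have h1 : (1 / 5 * (L / s) + (2 / s - 2) * l) ^ 2 ≤ (9 / (25 * s) + 8) *
      (1 / 9 * (W / s) + fxq m s / 8 * l ^ 2) := by
    apply fxr_cs (by positivity) (by norm_num) (by positivity) hq8
    · have e : 9 / (25 * s) * (1 / 9 * (W / s)) = W * (1 / (25 * s ^ 2)) := by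
        (clear * - hs; field_simp)
      have e2 : (1 / 5 * (L / s)) ^ 2 = L ^ 2 * (1 / (25 * s ^ 2)) := by
        field_simp
        ring
      rw [e, e2]
      exact mul_le_mul_of_nonneg_right hL (by positivity)
    · have := mul_le_mul_of_nonneg_right (fxr_b2 hm hs hs1) (sq_nonneg l)
      rw [mul_pow]
      linarith only [this]
  have h2 : 9 / (25 * s) + 8 ≤ 4 / 5 * dpR m (z / s ^ 2) := by
    refine fxr_div hs ?_
    have e : (9 / (25 * s) + 8) * s ^ 4 = 9 / 25 * s ^ 3 + 8 * s ^ 4 := by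
      (clear * - hs; field_simp)
    rw [e]
    have h3 := fxr_tC hs.le hs1
    have h4 := fxr_rho1 hm hz0.le hs
    rw [← hz'] at h3
    have h5 : 0 ≤ s ^ 3 := by positivity
    have h6 : s ^ 4 ≤ 5 / 7 * s ^ 3 := by
      have := mul_le_mul_of_nonneg_right hs1 h5
      linarith only [this]
    linarith only [h3, h4, h5, h6]
  have h3 : (9 / (25 * s) + 8) * (1 / 9 * (W / s) + fxq m s / 8 * l ^ 2) ≤
      4 / 5 * dpR m (z / s ^ 2) * (fxq m s / 8 * l ^ 2 + 1 / 9 * (W / s)) := by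
    apply mul_le_mul h2 (by linarith only []) (by (clear * - hW0 hs hq8; positivity))
    have := fxr_rho0 hm hz0.le hs
    positivity
  linarith only [h1, h3]

/-- the two lower bounds of `e` for `u ≤ 0` -/
theorem fxr_nE {m z s l u c N : ℝ} (hm : 27 ≤ m) (hz : 49 / 100 ≤ z) (hs : 0 < s)
    (hsz : s ^ 2 = 1 - z) (hl : 0 < l) (hτ : z * Real.exp (2 * l) ≤ 1)
    (hu1 : 0 < 1 + u) (hu : u ≤ 0)
    (hc1 : 1 - 1 / (2 * m) ≤ c) (hc2 : c ≤ 1) (hN : Real.log (1 + u) - u ≤ N) :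
    -(min (41 / 20 * (-Real.log (1 + u) / s)) (2627 / 10000 / (s ^ 4 * z)) + z / s ^ 2 * l) ≤
      dpE m z s l u c N := by
  have hs1 := fxr_s_le hz hs hsz
  have hz0 : 0 < z := by linarith only [hz]
  refine le_trans ?_ (fxr_e_ge hm hz hs hsz hl hc1 hc2 hN)
  obtain ⟨L, hL⟩ : ∃ L : ℝ, L = -Real.log (1 + u) := ⟨_, rfl⟩
  have hlu := Real.log_le_sub_one_of_pos hu1
  have hLu : -u ≤ L := by linarith only [hL, hlu]
  have hL0 : 0 ≤ L := by linarith only [hu, hL, hlu]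
  have hL2 : L ^ 2 ≤ u ^ 2 / (1 + u) := by
    rw [hL, neg_sq]
    exact fxr_logsq hu1 hu
  have hlog : Real.log (1 + u) = -L := by rw [hL]; ring
  rw [← hL, hlog]
  have he : z ≤ Real.exp (-(2 * l)) := by
    rw [Real.exp_neg, ← one_div, le_div_iff₀ (Real.exp_pos _)]
    exact hτ
  have h1 : 4 * s ^ 2 * z * L ^ 2 ≤
      4 * s ^ 2 * Real.exp (-(2 * l)) * (u ^ 2 / (1 + u)) := by
    apply mul_le_mul _ hL2 (sq_nonneg L) (by positivity)
    exact mul_le_mul_of_nonneg_left he (by positivity)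
  have h2 : 1 / (2 * m) ≤ 1 / 54 := by
    apply one_div_le_one_div_of_le (by norm_num)
    linarith only [hm]
  have h3 : -(1 / 27 * L) ≤ 2 * (1 - c) * u := by
    have h4 : 2 * (1 - c) * (-u) ≤ 1 / 27 * L :=
      mul_le_mul (by linarith only [hc1, h2]) hLu (by linarith only [hu]) (by norm_num)
    (clear * - h4; linarith)
  have h5 : 0 ≤ -(2 * s ^ 2 * u) := by
    have : 0 ≤ 2 * s ^ 2 * (-u) := mul_nonneg (by positivity) (by linarith only [hu])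
    linarith only [this]
  have h6 : 2 * c / s * L ≤ 2 / s * L := by
    apply mul_le_mul_of_nonneg_right _ hL0
    apply div_le_div_of_nonneg_right _ hs.le
    linarith only [hc2]
  have h7 : 2 / s * L + 1 / 27 * L ≤ 41 / 20 * (L / s) := by
    have hi := fxr_is hs hs1
    have e : 41 / 20 * (L / s) - (2 / s * L + 1 / 27 * L) = L * (1 / 20 * (1 / s) - 1 / 27) := by
      ring
    have : 0 ≤ L * (1 / 20 * (1 / s) - 1 / 27) := mul_nonneg hL0 (by linarith only [hi])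
    linarith only [e, this]
  -- lower bound
  have h8 : 4 * s ^ 2 * z * L ^ 2 - 41 / 20 * (L / s) - z / s ^ 2 * l ≤
      4 * s ^ 2 * Real.exp (-(2 * l)) * (u ^ 2 / (1 + u)) + 2 * c / s * -L -
      2 * s ^ 2 * u + 2 * (1 - c) * u - z / s ^ 2 * l := by
    linarith only [h1, h3, h5, h6, h7]
  refine le_trans ?_ h8
  rcases min_choice (41 / 20 * (L / s)) (2627 / 10000 / (s ^ 4 * z)) with h | h
  · rw [h]
    have : 0 ≤ 4 * s ^ 2 * z * L ^ 2 := by (clear * - hs hz; positivity)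
    linarith only [this]
  · rw [h]
    have h9 : 0 ≤ 4 * s ^ 2 * z * L ^ 2 - 41 / 20 * (L / s) + 2627 / 10000 / (s ^ 4 * z) := by
      have e : 4 * s ^ 2 * z * L ^ 2 - 41 / 20 * (L / s) + 2627 / 10000 / (s ^ 4 * z) =
          ((2 * s ^ 3 * z * L - 41 / 80) ^ 2 + (2627 / 10000 - 1681 / 6400)) / (s ^ 4 * z) := by
        field_simp
        ring
      rw [e]
      have : (0 : ℝ) ≤ 2627 / 10000 - 1681 / 6400 := by norm_num
      (clear * - hs hz; positivity)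
    linarith only [h9]

theorem fxr_nEr {m z s l : ℝ} (hm : 27 ≤ m) (hz : 49 / 100 ≤ z) (hs : 0 < s)
    (hsz : s ^ 2 = 1 - z) (hl71 : l ≤ 71 / 100 * s ^ 2) :
    2627 / 10000 / (s ^ 4 * z) + z / s ^ 2 * l ≤ 1 / 10 * dpR m (z / s ^ 2) := by
  have hs1 := fxr_s_le hz hs hsz
  have hz0 : 0 < z := by linarith
  refine fxr_div hs ?_
  have hρ1 := fxr_rho1 hm hz0.le hs
  have hs2 : s ^ 2 ≤ 25 / 49 := by nlinarith only [hz, hsz]
  have h1 : (2627 / 10000 / (s ^ 4 * z) + z / s ^ 2 * l) * s ^ 4 =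
      2627 / 10000 / z + z * s ^ 2 * l := by
    (clear * - hs hz; field_simp)
  rw [h1]
  have h2 : z * s ^ 2 * l ≤ z * s ^ 2 * (71 / 100 * s ^ 2) :=
    mul_le_mul_of_nonneg_left hl71 (by positivity)
  have h3 : z * s ^ 2 * (71 / 100 * s ^ 2) ≤ 135 * z * s ^ 2 / 100 := by
    have h4 : 0 ≤ z * s ^ 2 := by positivity
    have h5 := mul_le_mul_of_nonneg_left hs2 h4
    linarith only [h4, h5]
  have h4 : 2627 / 10000 / z ≤ 675 * z ^ 2 / 100 := by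
    rw [div_le_iff₀ hz0]
    have h5 : (49 / 100) ^ 3 ≤ z ^ 3 := pow_le_pow_left₀ (by norm_num) hz 3
    have e : 675 * z ^ 2 / 100 * z = 675 / 100 * z ^ 3 := by ring
    rw [e]
    have h6 : (2627 / 10000 : ℝ) ≤ 675 / 100 * (49 / 100) ^ 3 := by norm_num
    linarith only [h5]
  have : 0 ≤ 2 * s ^ 4 := by positivity
  linarith only [this, h2, h3, h4, hρ1]

theorem fxr_nE2 {m z s l W L : ℝ} (hm : 27 ≤ m) (hz : 49 / 100 ≤ z) (hs : 0 < s)
    (hsz : s ^ 2 = 1 - z) (hL : L ^ 2 ≤ W) :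
    (41 / 20 * (L / s) + z / s ^ 2 * l) ^ 2 ≤ 4 / 5 * (dpR m (z / s ^ 2) *
      (fxq m s / 8 * l ^ 2 + 1 / 9 * (W / s))) := by
  have hs1 := fxr_s_le hz hs hsz
  have hz' : z = 1 - s ^ 2 := by linarith only [hsz]
  have hz0 : 0 < z := by linarith only [hz]
  have hW0 : 0 ≤ W := (sq_nonneg L).trans hL
  have hq8 : 0 ≤ fxq m s / 8 * l ^ 2 := by
    have := fxr_q_pos hm hs hs1
    (clear * - this; positivity)
  have h1 : (41 / 20 * (L / s) + z / s ^ 2 * l) ^ 2 ≤ (38 / s + 1) *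
      (1 / 9 * (W / s) + fxq m s / 8 * l ^ 2) := by
    apply fxr_cs (by positivity) (by norm_num) (by positivity) hq8
    · have e : 38 / s * (1 / 9 * (W / s)) = W * (38 / (9 * s ^ 2)) := by
        field_simp
      have e2 : (41 / 20 * (L / s)) ^ 2 = L ^ 2 * (1681 / 400 / s ^ 2) := by
        field_simp
        ring
      rw [e, e2]
      apply mul_le_mul hL _ (by positivity) hW0
      rw [div_div, div_le_div_iff₀ (by positivity) (by positivity)]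
      have : 0 < s ^ 2 := by positivity
      linarith only [this]
    · have := mul_le_mul_of_nonneg_right (fxr_y2q hm hs hs1 hsz) (sq_nonneg l)
      rw [mul_pow]
      linarith only [this]
  have h2 : 38 / s + 1 ≤ 4 / 5 * dpR m (z / s ^ 2) := by
    refine fxr_div hs ?_
    have e : (38 / s + 1) * s ^ 4 = 38 * s ^ 3 + s ^ 4 := by
      field_simp
    rw [e]
    have h3 := fxr_tC hs.le hs1
    have h4 := fxr_rho1 hm hz0.le hs
    rw [← hz'] at h3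
    linarith only [h3, h4]
  have h3 : (38 / s + 1) * (1 / 9 * (W / s) + fxq m s / 8 * l ^ 2) ≤
      4 / 5 * dpR m (z / s ^ 2) * (fxq m s / 8 * l ^ 2 + 1 / 9 * (W / s)) := by
    apply mul_le_mul h2 (by linarith only []) (by (clear * - hW0 hs hq8; positivity))
    have := fxr_rho0 hm hz0.le hs
    positivity
  linarith only [h1, h3]

/-- `u ≤ 0` -/
theorem fxr_neg {m z s l u c G N : ℝ} (hm : 27 ≤ m) (hz : 49 / 100 ≤ z) (hs : 0 < s)
    (hsz : s ^ 2 = 1 - z) (hl : 0 < l) (hl1 : l ≤ 2 / 5)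
    (hU : l ≤ s ^ 2 * (1 / 2 + 79 / 200 * s ^ 2)) (hτ : z * Real.exp (2 * l) ≤ 1)
    (hu1 : 0 < 1 + u) (hu : u ≤ 0) (hlog : m * Real.log s ≤ Real.log (1 + u))
    (hc1 : 1 - 1 / (2 * m) ≤ c) (hc2 : c ≤ 1)
    (hN : Real.log (1 + u) - u ≤ N) (hG : -(5 * (z / s ^ 3) * l ^ 2) ≤ G) :
    JTest (dpT m z s l u G N) (dpE m z s l u c N) (dpR m (z / s ^ 2)) u := by
  have hs1 := fxr_s_le hz hs hsz
  have hz0 : 0 < z := by linarith only [hz]
  have hT := fxr_Tneg hm hz hs hsz hl hl1 hU hτ hu1 hu hN hG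
  have heT := fxr_eT (c := c) hm hz hs hsz hl hl1 hU hτ hu1 hc2 hN hG
  have hl71 := fxr_l71 hs hs1 hU
  have hW0 : 0 ≤ u ^ 2 / (1 + u) := by (clear * - hu1; positivity)
  have hWs0 : 0 ≤ 1 / 9 * (u ^ 2 / (1 + u) / s) := by (clear * - hu1 hs; positivity)
  have hq8 : 0 < fxq m s / 8 * l ^ 2 := by
    have : 0 < fxq m s := fxr_q_pos hm hs hs1
    positivity
  have hT0 : 0 < fxq m s / 8 * l ^ 2 + 1 / 9 * (u ^ 2 / (1 + u) / s) := by
    linarith only [hWs0, hq8]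
  obtain ⟨L, hL⟩ : ∃ L : ℝ, L = -Real.log (1 + u) := ⟨_, rfl⟩
  have hL0 : 0 ≤ L := by
    have hlu := Real.log_le_sub_one_of_pos hu1
    linarith only [hu, hL, hlu]
  have hL2 : L ^ 2 ≤ u ^ 2 / (1 + u) := by
    rw [hL, neg_sq]
    exact fxr_logsq hu1 hu
  have hLm : L ≤ m * (1 / s - 1) := hL ▸ fxr_Lm hm hs hlog
  have hP := heT.trans (fxr_nP hm hz0 hs hs1 hl hu1 hu hc1 hc2)
  have hE := fxr_nE hm hz hs hsz hl hτ hu1 hu hc1 hc2 hN
  rw [← hL] at hP hE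
  have h2s : 0 ≤ 2 / s - 2 := by
    have hi := fxr_is hs hs1
    have : 2 / s = 2 * (1 / s) := by ring
    linarith only [hi, this]
  have hm1 : min (41 / 20 * (L / s)) (2627 / 10000 / (s ^ 4 * z)) ≤ 41 / 20 * (L / s) :=
    min_le_left _ _
  have hm2 : min (41 / 20 * (L / s)) (2627 / 10000 / (s ^ 4 * z)) ≤
    2627 / 10000 / (s ^ 4 * z) := min_le_right _ _
  have hm0 : 0 ≤ min (41 / 20 * (L / s)) (2627 / 10000 / (s ^ 4 * z)) :=
    le_min (by (clear * - hL0 hs; positivity)) (by positivity)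
  have hyl : 0 ≤ z / s ^ 2 * l := by positivity
  refine JTest.of_theta (T0 := fxq m s / 8 * l ^ 2 + 1 / 9 * (u ^ 2 / (1 + u) / s))
    (P := 1 / 5 * (L / s) + (2 / s - 2) * l)
    (E := min (41 / 20 * (L / s)) (2627 / 10000 / (s ^ 4 * z)) + z / s ^ 2 * l)
    (θ := 1 / 10) (θ1 := 4 / 5) hT hT0.le
    (fun _ => hT0) (fxr_rho0 hm hz0.le hs) (by norm_num) (by norm_num)
    hP ?_ (fxr_nPr hm hz hs hsz hl71 hLm) (fxr_nP2 hm hz hs hsz hL2) hE ?_ ?_ ?_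
  · (clear * - hL0 hs h2s hl; positivity)
  · exact add_nonneg hm0 hyl
  · refine le_trans ?_ (fxr_nEr hm hz hs hsz hl71)
    linarith only [hm2]
  · refine le_trans ?_ (fxr_nE2 hm hz hs hsz hL2)
    exact pow_le_pow_left₀ (add_nonneg hm0 hyl) (by linarith only [hm1]) 2

/-- **the region `x ≥ 7/10`, `l > 0`** -/
theorem fxr_region {m z s l u c G N x : ℝ} (hm : 27 ≤ m) (hz : 49 / 100 ≤ z) (hs : 0 < s)
    (hsz : s ^ 2 = 1 - z) (hl : 0 < l) (hτ : z * Real.exp (2 * l) ≤ 1)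
    (hu1 : 0 < 1 + u) (hus : u * s ≤ 1) (hlog : m * Real.log s ≤ Real.log (1 + u))
    (hx : 0 < x) (hxz : x ^ 2 = z)
    (htail : (1 + u) * (x * Real.exp l) ≤ (1 - x * Real.exp l) * ((m + 2) * (z / s ^ 2) + 1))
    (hc1 : 1 - 1 / (2 * m) ≤ c) (hc2 : c ≤ 1)
    (hN : Real.log (1 + u) - u ≤ N) (hG : -(5 * (z / s ^ 3) * l ^ 2) ≤ G) :
    JTest (dpT m z s l u G N) (dpE m z s l u c N) (dpR m (z / s ^ 2)) u := by
  have hs1 := fxr_s_le hz hs hsz
  have hU := fxr_lam1 hz hsz hτ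
  have hl1 : l ≤ 2 / 5 := by
    have h1 := fxr_l71 hs hs1 hU
    have h2 : s ^ 2 ≤ 25 / 49 := by nlinarith only [hz, hsz]
    linarith only [hz, hsz, h1]
  rcases le_total 0 u with hu | hu
  · exact fxr_pos hm hz hs hsz hl hl1 hU hτ hu hus hx hxz htail hc1 hc2 hN hG
  · exact fxr_neg hm hz hs hsz hl hl1 hU hτ hu1 hu hlog hc1 hc2 hN hG

end Vale.Agent.P237.AllN
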