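import Vale.Agent.P237.AllN.PcCorr2

/-!
# P237, block D, `x ≥ 7/10`, `l > 0`: the correction term
-/

open Real

namespace Vale.Agent.P237.AllN

open Corr

theorem fxr_G5 {x l : ℝ} (hz : 49 / 100 ≤ x ^ 2) (hx0 : 0 < x) (hx1 : x < 1)
    (h1 : x * exp l ≤ 1) :
    -(5 * (x ^ 2 / sq x ^ 3) * l ^ 2) ≤
      2 * (bg (x * exp l) - bg x + x ^ 2 * l / (sq x * (1 + sq x) ^ 2)) := by
  obtain ⟨a1, -⟩ := sq_facts hx0 hx1 h1
  have h := mul_le_mul_of_nonneg_left (corr_B hx0 hx1 (by linarith) h1)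
    (show 0 ≤ 2 / sq x by positivity)
  have e : 2 / sq x * (sq x * (bg (x * exp l) - bg x) + x ^ 2 * l / (1 + sq x) ^ 2) =
      2 * (bg (x * exp l) - bg x + x ^ 2 * l / (sq x * (1 + sq x) ^ 2)) := by
    field_simp
  rw [e] at h
  refine le_trans ?_ h
  have e2 : 2 / sq x * (-(2 * (x ^ 2 / sq x ^ 2)) * l ^ 2) = -(4 * (x ^ 2 / sq x ^ 3) * l ^ 2) := by
    field_simp
    ring
  rw [e2]
  have : 0 ≤ x ^ 2 / sq x ^ 3 * l ^ 2 := by positivity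
  linarith

end Vale.Agent.P237.AllN
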