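import Vale.Agent.P237.AllN.FAllA

/-!
# P237, block D: the tail bound in the variables `z`, `E = e^{-2l}`

`1 + u ≤ ((m+1)z + 1)/(2z) · (E - z)/s²`.
-/

open Set

namespace Vale.Agent.P237.AllN

open Alm

variable {m : ℕ} {r τ τ' T : ℝ → ℝ} {x : ℝ}

/-- tail bound, `τ = x e^l` -/
theorem IsTrans.fx_tail0 (hm : 1 ≤ m) (hr : IsProf r) (h : IsTrans m r τ τ' T)
    (hx : x ∈ Ioo (0 : ℝ) 1) :
    (1 + uf τ τ' x) * (x * Real.exp (lf τ x)) ≤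
      (1 - x * Real.exp (lf τ x)) * (((m : ℝ) + 2) * (x ^ 2 / sq x ^ 2) + 1) := by
  rw [← tau_eq_exp h hx]
  exact h.fin_tail hm hr hx

/-- tail bound, real variables -/
theorem fxt_core {m x s l u : ℝ} (hm : 0 ≤ m) (hx : 0 < x) (hs : 0 < s) (hsx : s ^ 2 = 1 - x ^ 2)
    (ht1 : x * Real.exp l < 1)
    (ht : (1 + u) * (x * Real.exp l) ≤ (1 - x * Real.exp l) * ((m + 2) * (x ^ 2 / s ^ 2) + 1)) :
    1 + u ≤ ((m + 1) * x ^ 2 + 1) / (2 * x ^ 2) *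
      ((Real.exp (-(2 * l)) - x ^ 2) / s ^ 2) := by
  set t := x * Real.exp l with htt
  have ht0 : 0 < t := by positivity
  have hE : Real.exp (-(2 * l)) = x ^ 2 / t ^ 2 := by
    rw [htt, mul_pow, ← Real.exp_nat_mul, Real.exp_neg]
    have := (Real.exp_pos (2 * l)).ne'
    push_cast
    field_simp
  have e1 : (m + 2) * (x ^ 2 / s ^ 2) + 1 = ((m + 1) * x ^ 2 + 1) / s ^ 2 := by
    field_simp
    rw [hsx]; ring
  rw [e1] at ht
  rw [hE]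
  have h1 : 1 + u ≤ (1 - t) / t * (((m + 1) * x ^ 2 + 1) / s ^ 2) := by
    rw [div_mul_eq_mul_div, le_div_iff₀ ht0]
    exact ht
  refine h1.trans ?_
  have h2 : (1 - t) / t ≤ (1 - t ^ 2) / (2 * t ^ 2) := by
    rw [div_le_div_iff₀ ht0 (by positivity)]
    nlinarith [mul_nonneg ht0.le (mul_nonneg (sub_nonneg.2 ht1.le) (sub_nonneg.2 ht1.le)),
      mul_pos ht0 (sub_pos.2 ht1)]
  have h3 : 0 ≤ ((m + 1) * x ^ 2 + 1) / s ^ 2 := by positivity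
  refine (mul_le_mul_of_nonneg_right h2 h3).trans (le_of_eq ?_)
  field_simp

/-- **tail bound** in the variables `z`, `E` -/
theorem IsTrans.fx_tail (hm : 1 ≤ m) (hr : IsProf r) (h : IsTrans m r τ τ' T)
    (hx : x ∈ Ioo (0 : ℝ) 1) :
    1 + uf τ τ' x ≤ (((m : ℝ) + 1) * x ^ 2 + 1) / (2 * x ^ 2) *
      ((Real.exp (-(2 * lf τ x)) - x ^ 2) / sq x ^ 2) :=
  fxt_core (Nat.cast_nonneg m) hx.1 (sl_sq_pos (mem_neg hx))
    (pin_sq_sq (Ioo_subset_Icc_self hx)) (h.fa_exp hx) (h.fx_tail0 hm hr hx)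

end Vale.Agent.P237.AllN
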