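import Vale.Agent.P237.AllN.FAllB
import Vale.Agent.P237.AllN.FxTail
import Vale.Agent.P237.AllN.FXrI
import Vale.Agent.P237.AllN.FXrJ

/-!
# P237, block D: the pointwise test for `0 < l`, `49/100 ≤ x²`
-/

open Set

namespace Vale.Agent.P237.AllN

open Alm

variable {m : ℕ} {r τ τ' T : ℝ → ℝ} {x : ℝ}

/-- **region `0 < l`, `49/100 ≤ x²`** -/
theorem IsTrans.jt_far_big (hm : 27 ≤ m) (hr : IsProf r) (h : IsTrans m r τ τ' T)
    (hx : x ∈ Ioo (0 : ℝ) 1) (hz : 49 / 100 ≤ x ^ 2) (hl : 0 < lf τ x) :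
    JTest (dpT m (x ^ 2) (sq x) (lf τ x) (uf τ τ' x) (jG τ x) (jN m (lf τ x) (uf τ τ' x)))
      (dpE m (x ^ 2) (sq x) (lf τ x) (uf τ τ' x) (fc m) (jN m (lf τ x) (uf τ τ' x)))
      (dpR m (x ^ 2 / sq x ^ 2)) (uf τ τ' x) := by
  have F := h.ffacts (by omega) hr hx
  have hm' : (27 : ℝ) ≤ m := by exact_mod_cast hm
  have hm0 : (0 : ℝ) < m := by linarith
  refine fxr_region (x := x) hm' hz F.s0 F.hs hl F.le.le F.u0 F.us F.sm hx.1 rfl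
    (h.fx_tail0 (by omega) hr hx) F.c0 F.c1 (fa_N_ge hm0) ?_
  rw [h.jG_eq hx]
  have e : x ^ 2 / (sq x * (1 + sq x) ^ 2) * lf τ x =
      x ^ 2 * lf τ x / (sq x * (1 + sq x) ^ 2) := by ring
  rw [e]
  exact fxr_G5 hz hx.1 hx.2 (h.fa_exp hx).le

end Vale.Agent.P237.AllN
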