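import Vale.Agent.P237.AllN.Brid1

/-!
# P237, block D, region `X ≥ 3`: lower bound of the correction term, in terms of `h = z (e^{2l} - 1)`

From `v ≥ 2 s v²/(s²+v²)`, `v = sq (x e^l)`, `s = sq x`, `v² = s² - h`.
-/

set_option linter.all false

open Set Real

namespace Vale.Agent.P237.AllN

theorem fxa_den {s h : ℝ} (hs : 0 < s) (hh : h ≤ s ^ 2) :
    s ^ 2 ≤ 2 * s ^ 2 * (1 + s) - h * (1 + 2 * s) := by
  nlinarith [mul_le_mul_of_nonneg_right hh (by linarith : (0 : ℝ) ≤ 1 + 2 * s)]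

/-- algebraic form of the bound: `v/(1+v) - s/(1+s)`, `v² = s² - h` -/
theorem fxa_alg {s v h : ℝ} (hs : 0 < s) (hv : 0 ≤ v) (hvs : v ^ 2 = s ^ 2 - h) :
    -(s * h / ((1 + s) * (2 * s ^ 2 * (1 + s) - h * (1 + 2 * s)))) ≤ v / (1 + v) - s / (1 + s) := by
  have hh : h ≤ s ^ 2 := by nlinarith [sq_nonneg v]
  have hden := fxa_den hs hh
  have hD : 0 < 2 * s ^ 2 * (1 + s) - h * (1 + 2 * s) := by nlinarith [sq_pos_of_pos hs]
  have e1 : v / (1 + v) - s / (1 + s) = (v - s) / ((1 + v) * (1 + s)) := by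
    field_simp; ring
  rw [e1, ← neg_div, div_le_div_iff₀ (by positivity) (by positivity)]
  -- `- s h (1+v)(1+s) ≤ (v-s)(1+s) D`
  have key : -(s * h) * (1 + v) ≤ (v - s) * (2 * s ^ 2 * (1 + s) - h * (1 + 2 * s)) := by
    have hh2 : h = s ^ 2 - v ^ 2 := by linarith
    subst hh2
    have : (v - s) * (2 * s ^ 2 * (1 + s) - (s ^ 2 - v ^ 2) * (1 + 2 * s)) - -(s * (s ^ 2 - v ^ 2)) * (1 + v)
        = (v - s) ^ 2 * v * (1 + s) := by ring
    have h3 : 0 ≤ (v - s) ^ 2 * v * (1 + s) := by positivity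
    linarith
  have := mul_le_mul_of_nonneg_left key (by linarith : (0 : ℝ) ≤ 1 + s)
  nlinarith [this]

/-- **(b)** the increment of `bg` -/
theorem fxa_bg {x l : ℝ} (hx : x ∈ Ioo (0 : ℝ) 1) (h1 : x * exp l ≤ 1) :
    -(sq x * (x ^ 2 * (exp (2 * l) - 1)) /
        ((1 + sq x) * (2 * sq x ^ 2 * (1 + sq x) - (x ^ 2 * (exp (2 * l) - 1)) * (1 + 2 * sq x)))) ≤
      bg (x * exp l) - bg x := by
  have hτ0 : 0 < x * exp l := mul_pos hx.1 (exp_pos l)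
  have hs2 : sq x ^ 2 = 1 - x ^ 2 := br_sq_sq ⟨by linarith [hx.1], hx.2.le⟩
  have hS2 : sq (x * exp l) ^ 2 = 1 - (x * exp l) ^ 2 := br_sq_sq ⟨by linarith, h1⟩
  have hs0 : 0 < sq x := br_sq_pos ⟨by linarith [hx.1], hx.2⟩
  have he : exp (2 * l) = exp l ^ 2 := by rw [← exp_nat_mul]; norm_num
  have h := fxa_alg (s := sq x) (v := sq (x * exp l)) (h := x ^ 2 * (exp (2 * l) - 1)) hs0
    (br_sq_nonneg _) (by rw [hS2, hs2, he]; ring)
  exact h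

/-- **(b)** the correction term -/
theorem fxa_corr {x l : ℝ} (hx : x ∈ Ioo (0 : ℝ) 1) (h1 : x * exp l ≤ 1) :
    2 * (x ^ 2 / (sq x * (1 + sq x) ^ 2) * l - sq x * (x ^ 2 * (exp (2 * l) - 1)) /
        ((1 + sq x) * (2 * sq x ^ 2 * (1 + sq x) - (x ^ 2 * (exp (2 * l) - 1)) * (1 + 2 * sq x)))) ≤
      2 * (bg (x * exp l) - bg x + x ^ 2 / (sq x * (1 + sq x) ^ 2) * l) := by
  have := fxa_bg hx h1
  linarith

/-- the same with `z = x²`, `s = sq x`, `E = exp (-(2 l))`, `h = z (1-E)/E` -/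
theorem fxa_corr' {x l z s E : ℝ} (hx : x ∈ Ioo (0 : ℝ) 1) (h1 : x * exp l ≤ 1)
    (hz : z = x ^ 2) (hs : s = sq x) (hE : E = exp (-(2 * l))) :
    2 * (z / (s * (1 + s) ^ 2) * l - s * (z * (1 - E) / E) /
        ((1 + s) * (2 * s ^ 2 * (1 + s) - (z * (1 - E) / E) * (1 + 2 * s)))) ≤
      2 * (bg (x * exp l) - bg x + x ^ 2 / (sq x * (1 + sq x) ^ 2) * l) := by
  have h := fxa_corr hx h1
  have e : z * (1 - E) / E = x ^ 2 * (exp (2 * l) - 1) := by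
    rw [hz, hE, exp_neg]
    have := exp_pos (2 * l)
    field_simp
  rw [e, hz, hs]
  exact h

/-- `h = z (1-E)/E` satisfies `h ≤ s²` iff `z ≤ E`; the denominator is `≥ s²` -/
theorem fxa_den' {z s E : ℝ} (hs : 0 < s) (hs2 : s ^ 2 = 1 - z) (hE : 0 < E) (hzE : z ≤ E) :
    s ^ 2 ≤ 2 * s ^ 2 * (1 + s) - (z * (1 - E) / E) * (1 + 2 * s) := by
  apply fxa_den hs
  rw [hs2, div_le_iff₀ hE]
  nlinarith

end Vale.Agent.P237.AllN
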