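import Vale.Agent.P237.AllN.FAllA
import Vale.Agent.P237.AllN.FxA

/-!
# P237, block D: the correction term in the forms used by the far region
-/

open Set

namespace Vale.Agent.P237.AllN

open Alm

variable {m : ℕ} {r τ τ' T : ℝ → ℝ} {x : ℝ}

/-- `G` through `S = √(1-τ²)` -/
theorem IsTrans.jG_S (h : IsTrans m r τ τ' T) (hx : x ∈ Ioo (0 : ℝ) 1) :
    2 * (sq (x * Real.exp (lf τ x)) / (1 + sq (x * Real.exp (lf τ x))) - sq x / (1 + sq x)) +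
      x ^ 2 / (sq x * (1 + sq x) ^ 2) * (2 * lf τ x) = jG τ x := by
  rw [h.jG_eq hx, bg, bg]
  ring

theorem IsTrans.sqS (h : IsTrans m r τ τ' T) (hx : x ∈ Ioo (0 : ℝ) 1) :
    sq (x * Real.exp (lf τ x)) ^ 2 = 1 - x ^ 2 * Real.exp (2 * lf τ x) := by
  have h1 := h.fa_exp hx
  have h0 : 0 < x * Real.exp (lf τ x) := mul_pos hx.1 (Real.exp_pos _)
  rw [br_sq_sq ⟨by linarith, h1.le⟩, mul_pow]
  congr 2
  rw [← Real.exp_nat_mul]
  norm_num

/-- first form: `-2 (τ²-x²)/(s(1+s)) + ..` -/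
theorem IsTrans.jG_ge1 (h : IsTrans m r τ τ' T) (hx : x ∈ Ioo (0 : ℝ) 1) (hl : 0 ≤ lf τ x) :
    -2 * (x ^ 2 * Real.exp (2 * lf τ x) - x ^ 2) / (sq x * (1 + sq x)) +
      2 * x ^ 2 * lf τ x / (sq x * (1 + sq x) ^ 2) ≤ jG τ x := by
  rw [← h.jG_S hx]
  have hS2 := h.sqS hx
  have hs : 0 < sq x := sl_sq_pos (mem_neg hx)
  have hs2 : sq x ^ 2 = 1 - x ^ 2 := pin_sq_sq (Ioo_subset_Icc_self hx)
  have hS0 : 0 ≤ sq (x * Real.exp (lf τ x)) := br_sq_nonneg _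
  set S := sq (x * Real.exp (lf τ x)) with hSd
  set s := sq x with hsd
  have hd : x ^ 2 * Real.exp (2 * lf τ x) - x ^ 2 = s ^ 2 - S ^ 2 := by linarith
  have hSs : S ≤ s := by
    have he : 1 ≤ Real.exp (2 * lf τ x) := Real.one_le_exp (by linarith)
    have : x ^ 2 * 1 ≤ x ^ 2 * Real.exp (2 * lf τ x) :=
      mul_le_mul_of_nonneg_left he (sq_nonneg x)
    nlinarith
  have e1 : S / (1 + S) - s / (1 + s) = -((s - S) / ((1 + S) * (1 + s))) := by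
    field_simp
    ring
  have e2 : -2 * (x ^ 2 * Real.exp (2 * lf τ x) - x ^ 2) / (s * (1 + s)) =
      -(2 * ((s ^ 2 - S ^ 2) / (s * (1 + s)))) := by
    rw [hd]
    ring
  have e3 : (s - S) / ((1 + S) * (1 + s)) ≤ (s ^ 2 - S ^ 2) / (s * (1 + s)) := by
    rw [div_le_div_iff₀ (by positivity) (by positivity)]
    have h1 : 0 ≤ s - S := by linarith
    have h2 : 0 ≤ (s - S) * (1 + s) * (S * (1 + s + S)) := by positivity
    nlinarith
  have e4 : 2 * x ^ 2 * lf τ x / (s * (1 + s) ^ 2) =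
      x ^ 2 / (s * (1 + s) ^ 2) * (2 * lf τ x) := by ring
  rw [e1, e2, e4]
  linarith

/-- second form -/
theorem IsTrans.jG_ge2 (h : IsTrans m r τ τ' T) (hx : x ∈ Ioo (0 : ℝ) 1) :
    2 * (-(sq x * (x ^ 2 * (Real.exp (2 * lf τ x) - 1)) / ((1 + sq x) * (2 * sq x ^ 2 *
      (1 + sq x) - x ^ 2 * (Real.exp (2 * lf τ x) - 1) * (1 + 2 * sq x))))) +
      2 * x ^ 2 / (sq x * (1 + sq x) ^ 2) * lf τ x ≤ jG τ x := by
  rw [h.jG_eq hx]
  have := fxa_bg hx (h.fa_exp hx).le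
  have e : 2 * x ^ 2 / (sq x * (1 + sq x) ^ 2) * lf τ x =
      2 * (x ^ 2 / (sq x * (1 + sq x) ^ 2) * lf τ x) := by ring
  rw [e]
  linarith

end Vale.Agent.P237.AllN
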