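import Vale.Agent.P237.AllN.FXnE

/-!
# P237, block D, `X ≥ 3`, `u ≤ 0`: kernel checks for the lower bound of `T(l, 0)`
-/

namespace Vale.Agent.P237.AllN

open PolyPos

/-- all `z ≤ 49/100`, `E ≥ 1/2`, `σ = 1/2` -/
theorem xs_chkE : tchkE (2 ^ 512) 32 1000 (xsFam ⟨1, 1⟩ ⟨33, 9⟩ ⟨33, 4⟩ ⟨1089, 99⟩) (Ex.c ⟨0, 0⟩)
    (.leaf 1) 0 1 1 1 2 2 = true := by
  decide +kernel

/-- tree of zone 1 -/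
def xsTr1 : PT :=
    (.sx (.leaf 0) (.sx (.leaf 0) (.sy (.sx (.leaf 0) (.sy (.leaf 0) (.sx (.leaf 2) (.sy
    (.leaf 2) .out)))) .out)))

/-- zone 1: `0 ≤ z ≤ 17/100`, `σ = 1/2`, `c = 33/10` -/
theorem xs_chk1 : tchkE (2 ^ 512) 32 1000 (xsFam ⟨1, 1⟩ ⟨33, 9⟩ ⟨33, 4⟩ ⟨1089, 99⟩)
    (xsZ - Ex.c ⟨17, 99⟩) xsTr1 0 1 1 0 1 2 = true := by
  decide +kernel

/-- tree of zone 2 -/
def xsTr2 : PT :=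
    (.sx (.leaf 0) (.sx (.leaf 0) (.sy (.sx (.leaf 0) (.sy .out (.sx (.leaf 0) (.sy (.leaf 0)
    (.sx (.leaf 2) (.sy (.leaf 2) (.sx (.leaf 2) (.sy (.leaf 2) (.sx (.sy (.leaf 2) (.sx
    (.leaf 2) (.sy (.leaf 2) .out))) (.sy (.leaf 2) .out)))))))))) (.sx (.sy (.leaf 0) .out)
    (.sy (.sx (.sy (.sx (.leaf 0) (.sy (.leaf 2) .out)) .out) (.sy (.sx (.sy (.sx (.leaf 2)
    (.sy (.leaf 2) .out)) .out) .out) .out)) .out)))))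

/-- zone 2: `17/100 ≤ z ≤ 6/25`, `σ = 3/8`, `c = 33/10` -/
theorem xs_chk2 : tchkE (2 ^ 512) 32 1000 (xsFam ⟨5, 7⟩ ⟨33, 9⟩ ⟨33, 4⟩ ⟨1089, 99⟩)
    (xsLo ⟨17, 99⟩ ⟨6, 24⟩) xsTr2 0 1 1 0 1 2 = true := by
  decide +kernel

/-- tree of zone 3 -/
def xsTr3 : PT :=
    (.sx (.leaf 0) (.sx (.leaf 0) (.sy (.leaf 2) (.sx (.leaf 0) (.sy (.sx (.leaf 2) (.sy (.sx
    (.leaf 2) (.sy (.sx (.leaf 2) (.sy (.leaf 2) (.sx (.leaf 2) (.sy (.sx (.leaf 2) (.sy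
    (.leaf 2) (.sx (.leaf 2) (.sy (.leaf 2) (.sx (.sy (.leaf 2) (.sx (.leaf 2) .out)) (.sy
    (.sx (.leaf 2) (.sy (.leaf 2) (.sx (.leaf 2) (.sy (.leaf 2) .out)))) .out)))))) (.sx (.sy
    (.sx (.leaf 2) (.sy (.leaf 2) .out)) .out) .out))))) .out)) .out)) .out)))))

/-- zone 3: `6/25 ≤ z ≤ 34/125`, `σ = 7/25`, `c = 33/10` -/
theorem xs_chk3 : tchkE (2 ^ 768) 32 1000 (xsFam ⟨18, 24⟩ ⟨33, 9⟩ ⟨33, 4⟩ ⟨1089, 99⟩)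
    (xsLo ⟨6, 24⟩ ⟨34, 124⟩) xsTr3 0 1 1 0 1 2 = true := by
  decide +kernel

/-- tree of zone 4 -/
def xsTr4 : PT :=
    (.sx .out (.sx (.leaf 0) (.sy .out (.sx (.leaf 0) (.sy (.sx (.leaf 2) (.sy (.leaf 2) (.sx
    (.leaf 2) (.sy (.sx (.leaf 2) (.sy (.sx (.sy (.leaf 2) .out) .out) .out)) .out))))
    .out)))))

/-- zone 4: `34/125 ≤ z ≤ 31/100`, `σ = 8/25`, `c = 177/50` -/
theorem xs_chk4 : tchkE (2 ^ 512) 32 1000 (xsFam ⟨17, 24⟩ ⟨177, 49⟩ ⟨177, 24⟩ ⟨31329, 2499⟩)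
    (xsLo ⟨34, 124⟩ ⟨31, 99⟩) xsTr4 0 1 1 0 1 2 = true := by
  decide +kernel

/-- tree of zone 5 -/
def xsTr5 : PT :=
    (.sx .out (.sx (.leaf 0) (.sy .out (.sx (.leaf 0) (.sy (.sx (.leaf 0) (.sy (.leaf 2) (.sx
    (.leaf 2) (.sy (.leaf 2) (.sx (.leaf 2) .out))))) (.leaf 4))))))

/-- zone 5: `31/100 ≤ z ≤ 67/200`, `σ = 1/4`, `c = 177/50` -/
theorem xs_chk5 : tchkE (2 ^ 512) 32 1000 (xsFam ⟨3, 3⟩ ⟨177, 49⟩ ⟨177, 24⟩ ⟨31329, 2499⟩)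
    (xsLo ⟨31, 99⟩ ⟨67, 199⟩) xsTr5 0 1 1 0 1 2 = true := by
  decide +kernel

/-- tree of zone 6 -/
def xsTr6 : PT :=
    (.sx .out (.sx (.leaf 0) (.sy .out (.sx (.leaf 0) (.sy (.sx (.leaf 0) (.sy .out (.sx
    (.leaf 2) (.sy (.leaf 2) (.sx (.leaf 2) (.sy (.leaf 2) (.sx (.leaf 2) (.sy (.sx (.leaf 2)
    (.sy (.leaf 2) (.leaf 4))) (.leaf 4))))))))) (.leaf 4))))))

/-- zone 6: `67/200 ≤ z ≤ 49/100`, `σ = 49/200`, `c = 177/50` -/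
theorem xs_chk6 : tchkE (2 ^ 512) 32 1000 (xsFam ⟨151, 199⟩ ⟨177, 49⟩ ⟨177, 24⟩ ⟨31329, 2499⟩)
    (xsLo ⟨67, 199⟩ ⟨49, 99⟩) xsTr6 0 1 1 0 1 2 = true := by
  decide +kernel

end Vale.Agent.P237.AllN
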