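import Vale.Agent.P237.AllN.FXnP
import Vale.Agent.P237.AllN.FXnK

/-!
# P237, block D, `X ≥ 3`, `u ≤ 0`: inequality (S) on the zones of `z`
-/

set_option linter.all false

namespace Vale.Agent.P237.AllN

open PolyPos

theorem xs_fams {θ E ω : ℝ} {o c c2 cc : Fr} {i : ℕ} (hE : 0 < E) (h9 : 9 ≤ ω)
    (h27 : 27 * (θ * E) ≤ ω) (hc : c.R ≤ ω * E) (hc2 : c2.R = 2 * c.R) (hcc : cc.R = c.R ^ 2)
    (h : ∀ e ∈ (xsFam o c c2 cc).getD i [Ex.c ⟨-1, 0⟩], 0 ≤ e.R θ E) :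
    0 ≤ (xsP0 o).R θ E + (xsP1 o).R θ E * ω + E * xsP2.R θ E * ω ^ 2 ∨
      0 ≤ (xsR0 o).R θ E + (xsR1 o).R θ E * ω + E * xsR2.R θ E * ω ^ 2 := by
  match i, h with
  | 0, h => exact Or.inl (xs_famB hE hc hc2 hcc h)
  | 1, h => exact Or.inl (xs_famC hE.le h9 h)
  | 2, h => exact Or.inr (xs_famB hE hc hc2 hcc h)
  | 3, h => exact Or.inl (xs_famA hE.le h27 h)
  | 4, h => exact Or.inr (xs_famA hE.le h27 h)
  | i + 5, h =>
    exfalso
    have h0 := h (Ex.c ⟨-1, 0⟩) (by simp only [xsFam, Int.reduceNeg, List.getD_eq_getElem?_getD, List.length_cons, List.length_nil, zero_add, Nat.reduceAdd, add_lt_iff_neg_right, not_lt_zero, not_false_eq_true, getElem?_neg, Option.getD_none, List.mem_cons, List.not_mem_nil, or_false])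
    simp only [Int.reduceNeg, Ex.R_c, Fr.R, Int.cast_neg, Int.cast_one, CharP.cast_eq_zero, zero_add, div_one, Left.nonneg_neg_iff] at h0
    norm_num at h0

theorem xs_cl {θ E ω : ℝ} {b : ℕ} {o c c2 cc : Fr} {Lo : Ex} {t : PT} {A' B' : ℤ} {D' : ℕ}
    (hD : 0 < D') (hAB : A' < B')
    (hchk : tchkE b 32 1000 (xsFam o c c2 cc) Lo t 0 1 1 A' B' D' = true)
    (hLo : Lo.R θ E ≤ 0) (hθ0 : 0 ≤ θ) (hθ1 : θ ≤ 1) (hA : (A' : ℝ) ≤ D' * E)
    (hB : (D' : ℝ) * E ≤ B')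
    (hE : 0 < E) (h9 : 9 ≤ ω)
    (h27 : 27 * (θ * E) ≤ ω) (hc : c.R ≤ ω * E) (hc2 : c2.R = 2 * c.R) (hcc : cc.R = c.R ^ 2) :
    0 ≤ (xsP0 o).R θ E + (xsP1 o).R θ E * ω + E * xsP2.R θ E * ω ^ 2 ∨
      0 ≤ (xsR0 o).R θ E + (xsR1 o).R θ E * ω + E * xsR2.R θ E * ω ^ 2 := by
  obtain ⟨i, hi⟩ := tchkE_sound hLo t 0 1 1 A' B' D' one_pos hD one_pos hAB hchk
    (by push_cast; linarith only [hθ0]) (by push_cast; linarith only [hθ1]) hA hB
  exact xs_fams hE h9 h27 hc hc2 hcc hi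

/-- **(S)** on the zones -/
theorem fxn_S {m z s l u G S sig : ℝ} (hm : 27 ≤ m) (hz0 : 0 < z) (hz1 : z ≤ 49 / 100)
    (hs : 0 < s) (hs2 : s ^ 2 = 1 - z) (hw : 9 ≤ m * z) (hl : 0 < l)
    (hT : z * Real.exp (2 * l) ≤ 1) (hu0 : u ≤ 0)
    (htail : 1 + u ≤ ((m + 1) * z + 1) / (2 * z) * ((Real.exp (-(2 * l)) - z) / s ^ 2))
    (hS0 : 0 ≤ S) (hS2 : S ^ 2 = 1 - z * Real.exp (2 * l))
    (hG : 2 * (S / (1 + S) - s / (1 + s)) + z / (s * (1 + s) ^ 2) * (2 * l) ≤ G)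
    (hcap : 33 / 10 ≤ m * z * Real.exp (-(2 * l)))
    (hcap2 : 34 / 125 ≤ z → 354 / 100 ≤ m * z * Real.exp (-(2 * l)))
    (hsig : (z ≤ 17 / 100 ∧ sig = 1 / 2) ∨ (17 / 100 ≤ z ∧ z ≤ 6 / 25 ∧ sig = 3 / 8) ∨
      (6 / 25 ≤ z ∧ z ≤ 34 / 125 ∧ sig = 7 / 25) ∨
      (34 / 125 ≤ z ∧ z ≤ 31 / 100 ∧ sig = 8 / 25) ∨
      (31 / 100 ≤ z ∧ z ≤ 67 / 200 ∧ sig = 1 / 4) ∨ (67 / 200 ≤ z ∧ sig = 49 / 200)) :
    sig * ((m + 3) * z * (Real.exp (-(2 * l)) - 1 + 2 * l)) ≤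
      dpT m z s l 0 G 0 + 6 / 25 * (m + 3) * z * l * (-u) := by
  obtain ⟨E, hE⟩ : ∃ E, E = Real.exp (-(2 * l)) := ⟨_, rfl⟩
  obtain ⟨θ, hθ⟩ : ∃ θ, θ = z * Real.exp (2 * l) := ⟨_, rfl⟩
  have hE0 : 0 < E := by rw [hE]; exact Real.exp_pos _
  have hE1 : E < 1 := by
    rw [hE, ← Real.exp_zero]; exact Real.exp_lt_exp.2 (by linarith only [hl])
  have hEE : Real.exp (2 * l) * E = 1 := by rw [hE, ← Real.exp_add]; simp
  have hzE : z = θ * E := by rw [hθ, mul_assoc, hEE, mul_one]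
  have hθ0 : 0 < θ := by rw [hθ]; positivity
  rw [← hE] at htail hcap hcap2
  rw [← hθ] at hT hS2
  rw [← hE]
  have h27 : 27 * (θ * E) ≤ m * z := by rw [← hzE]; exact mul_le_mul_of_nonneg_right hm hz0.le
  have htail' : 2 * θ * s ^ 2 * (1 + u) ≤ (m * z + z + 1) * (1 - θ) := by
    have h1 := mul_le_mul_of_nonneg_left htail (by (clear * - hθ0 hs; positivity) : 0 ≤ 2 * θ * s ^ 2)
    refine h1.trans (le_of_eq ?_)
    rw [hzE]
    (clear * - hθ0 hs hE0 hm; field_simp)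
  have hXa : 0 ≤ (m + 3) * z * (E - 1 + 2 * l) := by
    have h1 := xs_log_ge hE0 hE1.le
    rw [hE, Real.log_exp, ← hE, neg_neg] at h1
    apply mul_nonneg (by positivity)
    have h2 : -(2 * l) + 1 ≤ E := by rw [hE]; exact Real.add_one_le_exp _
    linarith only [h2]
  have main : ∀ o : Fr, 0 ≤ o.R →
      (0 ≤ (xsP0 o).R θ E + (xsP1 o).R θ E * (m * z) + E * xsP2.R θ E * (m * z) ^ 2 ∨
      0 ≤ (xsR0 o).R θ E + (xsR1 o).R θ E * (m * z) + E * xsR2.R θ E * (m * z) ^ 2) →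
      (1 - o.R) * ((m + 3) * z * (E - 1 + 2 * l)) ≤
      dpT m z s l 0 G 0 + 6 / 25 * (m + 3) * z * l * (-u) := by
    intro o ho h
    have := xs_S (p := 1 + u) hz0 hz1 hs hs2 hw hl hE hzE hT (by linarith only [hu0]) htail' hS0 hS2 hG ho h
    rw [show 1 - (1 + u) = -u by ring] at this
    exact this
  have r33 : Fr.R ⟨33, 9⟩ = 33 / 10 := by simp only [Fr.R]; norm_num
  have r34 : Fr.R ⟨33, 4⟩ = 2 * (33 / 10) := by simp only [Fr.R]; norm_num
  have r35 : Fr.R ⟨1089, 99⟩ = (33 / 10) ^ 2 := by simp only [Fr.R]; norm_num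
  have r36 : Fr.R ⟨177, 49⟩ = 354 / 100 := by simp only [Fr.R]; norm_num
  have r37 : Fr.R ⟨177, 24⟩ = 2 * (354 / 100) := by simp only [Fr.R]; norm_num
  have r38 : Fr.R ⟨31329, 2499⟩ = (354 / 100) ^ 2 := by simp only [Fr.R]; norm_num
  rcases le_total (1 / 2) E with hEh | hEh
  · -- `E ≥ 1/2`
    have r : Fr.R ⟨1, 1⟩ = 1 / 2 := by simp only [Fr.R]; norm_num
    have h := main ⟨1, 1⟩ (by rw [r]; norm_num) (xs_cl (by norm_num) (by norm_num) xs_chkE
      (by simp [Ex.R_c, Fr.R]) hθ0.le hT (by push_cast; linarith only [hEh]) (by push_cast; linarith only [hE1]) hE0 hw h27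
      (by rw [r33]; exact hcap) (by rw [r33, r34]) (by rw [r33, r35]))
    rw [r] at h
    have hsig2 : sig ≤ 1 - 1 / 2 := by
      rcases hsig with ⟨_, h⟩ | ⟨_, _, h⟩ | ⟨_, _, h⟩ | ⟨_, _, h⟩ | ⟨_, _, h⟩ | ⟨_, h⟩ <;>
        rw [h] <;> norm_num
    exact (mul_le_mul_of_nonneg_right hsig2 hXa).trans h
  · have vz : xsZ.R θ E = z := by rw [hzE]; rfl
    have hlo : ∀ za zb : Fr, za.R ≤ z → z ≤ zb.R → (xsLo za zb).R θ E ≤ 0 := by
      intro za zb h1 h2
      simp only [xsLo, Ex.R_mul, Ex.R_sub, Ex.R_c, vz]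
      exact mul_nonpos_of_nonneg_of_nonpos (by linarith only [h1]) (by linarith only [h2])
    rcases hsig with ⟨h2, hx⟩ | ⟨h1, h2, hx⟩ | ⟨h1, h2, hx⟩ | ⟨h1, h2, hx⟩ | ⟨h1, h2, hx⟩ |
      ⟨h1, hx⟩
    · have r : Fr.R ⟨1, 1⟩ = 1 / 2 := by simp only [Fr.R]; norm_num
      have ra : Fr.R ⟨17, 99⟩ = 17 / 100 := by simp only [Fr.R]; norm_num
      have h := main ⟨1, 1⟩ (by rw [r]; norm_num) (xs_cl (by norm_num) (by norm_num) xs_chk1
        (by rw [Ex.R_sub, Ex.R_c, vz, ra]; linarith only [h2]) hθ0.le hT (by push_cast; linarith only [hE0])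
        (by push_cast; linarith only [hEh]) hE0 hw h27
        (by rw [r33]; exact hcap) (by rw [r33, r34]) (by rw [r33, r35]))
      rw [r] at h
      rw [hx]
      linarith only [h]
    · have r : Fr.R ⟨5, 7⟩ = 5 / 8 := by simp only [Fr.R]; norm_num
      have ra : Fr.R ⟨17, 99⟩ = 17 / 100 := by simp only [Fr.R]; norm_num
      have rb : Fr.R ⟨6, 24⟩ = 6 / 25 := by simp only [Fr.R]; norm_num
      have h := main ⟨5, 7⟩ (by rw [r]; norm_num) (xs_cl (by norm_num) (by norm_num) xs_chk2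
        (hlo _ _ (by rw [ra]; exact h1) (by rw [rb]; exact h2)) hθ0.le hT (by push_cast; linarith only [hE0])
        (by push_cast; linarith only [hEh]) hE0 hw h27
        (by rw [r33]; exact hcap) (by rw [r33, r34]) (by rw [r33, r35]))
      rw [r] at h
      rw [hx]
      linarith only [h]
    · have r : Fr.R ⟨18, 24⟩ = 18 / 25 := by simp only [Fr.R]; norm_num
      have ra : Fr.R ⟨6, 24⟩ = 6 / 25 := by simp only [Fr.R]; norm_num
      have rb : Fr.R ⟨34, 124⟩ = 34 / 125 := by simp only [Fr.R]; norm_num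
      have h := main ⟨18, 24⟩ (by rw [r]; norm_num) (xs_cl (by norm_num) (by norm_num) xs_chk3
        (hlo _ _ (by rw [ra]; exact h1) (by rw [rb]; exact h2)) hθ0.le hT (by push_cast; linarith only [hE0])
        (by push_cast; linarith only [hEh]) hE0 hw h27
        (by rw [r33]; exact hcap) (by rw [r33, r34]) (by rw [r33, r35]))
      rw [r] at h
      rw [hx]
      linarith only [h]
    · have r : Fr.R ⟨17, 24⟩ = 17 / 25 := by simp only [Fr.R]; norm_num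
      have ra : Fr.R ⟨34, 124⟩ = 34 / 125 := by simp only [Fr.R]; norm_num
      have rb : Fr.R ⟨31, 99⟩ = 31 / 100 := by simp only [Fr.R]; norm_num
      have h := main ⟨17, 24⟩ (by rw [r]; norm_num) (xs_cl (by norm_num) (by norm_num) xs_chk4
        (hlo _ _ (by rw [ra]; exact h1) (by rw [rb]; exact h2)) hθ0.le hT (by push_cast; linarith only [hE0])
        (by push_cast; linarith only [hEh]) hE0 hw h27
        (by rw [r36]; exact hcap2 h1) (by rw [r36, r37]) (by rw [r36, r38]))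
      rw [r] at h
      rw [hx]
      linarith only [h]
    · have r : Fr.R ⟨3, 3⟩ = 3 / 4 := by simp only [Fr.R]; norm_num
      have ra : Fr.R ⟨31, 99⟩ = 31 / 100 := by simp only [Fr.R]; norm_num
      have rb : Fr.R ⟨67, 199⟩ = 67 / 200 := by simp only [Fr.R]; norm_num
      have h := main ⟨3, 3⟩ (by rw [r]; norm_num) (xs_cl (by norm_num) (by norm_num) xs_chk5
        (hlo _ _ (by rw [ra]; exact h1) (by rw [rb]; exact h2)) hθ0.le hT (by push_cast; linarith only [hE0])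
        (by push_cast; linarith only [hEh]) hE0 hw h27
        (by rw [r36]; exact hcap2 (by linarith only [h1])) (by rw [r36, r37]) (by rw [r36, r38]))
      rw [r] at h
      rw [hx]
      linarith only [h]
    · have r : Fr.R ⟨151, 199⟩ = 151 / 200 := by simp only [Fr.R]; norm_num
      have ra : Fr.R ⟨67, 199⟩ = 67 / 200 := by simp only [Fr.R]; norm_num
      have rb : Fr.R ⟨49, 99⟩ = 49 / 100 := by simp only [Fr.R]; norm_num
      have h := main ⟨151, 199⟩ (by rw [r]; norm_num) (xs_cl (by norm_num) (by norm_num) xs_chk6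
        (hlo _ _ (by rw [ra]; exact h1) (by rw [rb]; exact hz1)) hθ0.le hT (by push_cast; linarith only [hE0])
        (by push_cast; linarith only [hEh]) hE0 hw h27
        (by rw [r36]; exact hcap2 (by linarith only [h1])) (by rw [r36, r37]) (by rw [r36, r38]))
      rw [r] at h
      rw [hx]
      linarith only [h]

end Vale.Agent.P237.AllN
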