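import Vale.Agent.P237.AllN.FXuI

/-!
# P237, block D, region `X ≥ 3`, `u ≥ 0`, `z ≤ 1/5`: the part `l ≤ 1/2` and the theorem `fxu_region`
-/

namespace Vale.Agent.P237.AllN

open PolyPos

namespace FXu

/-- the bracket of the `(l, 0)`-part, `l ≤ 1/2` -/
noncomputable def brk (l z w : ℝ) : ℝ :=
  2 * (w + 3 * z) - l * ((w + 3 * z) * (4 / 3 - 81 / 125 * l + 97 / 500 * l ^ 2) +
    3 / 16 * z * ((w + 5 * z) * (128 / 3 - 21 * l + 617 / 20 * l ^ 2) - 6 * (32 / 3 - 1067 / 100 * l + 317 / 50 * l ^ 2)) +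
    5 / 48 * z ^ 2 * ((w + 7 * z) * (216 - 1049 / 5 * l + 637 / 2 * l ^ 2) - 20 * (36 - 54 * l + 212 / 5 * l ^ 2)) +
    35 / 512 * z ^ 3 * ((w + 9 * z) * (2048 / 3 - 989 * l + 1695 * l ^ 2) - 42 * (256 / 3 - 1707 / 10 * l + 797 / 5 * l ^ 2)) +
    63 / 1280 * z ^ 4 * ((w + 11 * z) * (5000 / 3 - 3230 * l + 6397 * l ^ 2) - 72 * (500 / 3 - 4167 / 10 * l + 2192 / 5 * l ^ 2)) +
    77 / 2048 * z ^ 5 * ((w + 13 * z) * (3456 - 8456 * l + 19775 * l ^ 2) - 110 * (288 - 864 * l + 9919 / 10 * l ^ 2))) +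
  3 * z * (w - 3) * (1 + 5 / 2 * z + 35 / 8 * z ^ 2 + 105 / 16 * z ^ 3 + 1155 / 128 * z ^ 4) -
  z * (3 / 4 + 21 / 5 * z) + 3 / 25 * (w + 3 * z) * (w * (1 + z + z ^ 2) - 3) - 7 / 10 * w -
  3 / 25 * w ^ 2

theorem iwk_R (k : ℤ) (l z r : ℝ) : (iwk k).R l z r = r * (1 + k * z * r) := by
  simp only [iwk, Ex3.R_mul, Ex3.R_Z, Ex3.R_add, Ex3.R_c, Fr.R, Ex3.R_Y]
  push_cast
  ring

theorem iq_R (a b c : Fr) (l z r : ℝ) : (iq a b c).R l z r = a.R + b.R * l + c.R * (l * l) := rfl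

theorem iA_R {l z w r : ℝ} (hr : r * w = 1) : w ^ 2 * iA.R l z r = brk l z w := by
  have hw : w ≠ 0 := by rintro rfl; simp at hr
  have hr' : r = 1 / w := by field_simp; exact hr
  subst hr'
  simp only [iA, ikB, ir2, iz2, iz3, iz4, iz5, iT5, Ex3.R_sub, Ex3.R_add, Ex3.R_mul, Ex3.R_c, iwk_R, Ex3.R_X, iq_R, Ex3.R_Y, Ex3.R_Z, brk]
  simp only [show ∀ (n : ℤ) (d : ℕ), Fr.R ⟨n, d⟩ = (n : ℝ) / ((d : ℝ) + 1) from fun _ _ => rfl]
  push_cast
  field_simp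
  ring

theorem brk_nonneg {l z w : ℝ} (hz : 0 < z) (hz5 : z ≤ 1 / 5) (hw : 9 ≤ w) (hl0 : 0 ≤ l)
    (hl1 : l ≤ 1 / 2) : 0 ≤ brk l z w := by
  have hw0 : 0 < w := by linarith only [hw]
  have hr : 1 / w * w = 1 := div_mul_cancel₀ 1 hw0.ne'
  have hr0 : 0 < 1 / w := by (clear * - hw; positivity)
  have hr9 : 1 / w ≤ 1 / 9 := one_div_le_one_div_of_le (by norm_num) hw
  rw [← iA_R hr]
  apply mul_nonneg (sq_nonneg w)
  exact Ex3.nn_closed (by norm_num) (by norm_num) (by norm_num) (by norm_num) (by norm_num)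
    (by norm_num) chk_iA (by push_cast; linarith only [hl0]) (by push_cast; linarith only [hl1])
    (by push_cast; linarith only [hz]) (by push_cast; linarith only [hz5]) (by push_cast; linarith only [hr0])
    (by push_cast; linarith only [hr9])

/-- lower bound of the `(l, 0)`-part of `T` for `l ≤ 1/2` -/
theorem A1_ge {m z s l G : ℝ} (hm : 0 ≤ m) (hz : 0 < z) (hz5 : z ≤ 1 / 5) (hs : 0 < s)
    (hsz : s ^ 2 = 1 - z) (hw : 9 ≤ m * z) (hl0 : 0 ≤ l) (hl1 : l ≤ 1 / 2)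
    (hG : -(z * (3 / 4 + 21 / 5 * z) * l ^ 2) ≤ G) :
    (7 / 10 * (m * z) + 3 / 25 * (m * z) ^ 2) * l ^ 2 ≤ Apart m z s l G := by
  have h1 := A_aux (l := l) hz hz5 hs hsz hw
  have h2 := dpS0_ge' hm hz.le hl0 hl1
  have h3 := mul_nonneg (brk_nonneg hz hz5 hw hl0 hl1) (sq_nonneg l)
  have e : brk l z (m * z) * l ^ 2 = l ^ 2 * (2 * (m + 3) * z) - l ^ 3 * z * kB' m z l +
      (3 * z * (m * z - 3) * (1 + 5 / 2 * z + 35 / 8 * z ^ 2 + 105 / 16 * z ^ 3 +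
        1155 / 128 * z ^ 4) * l ^ 2 + 3 / 25 * (m * z + 3 * z) * (m * z * (1 + z + z ^ 2) - 3) *
          l ^ 2) - z * (3 / 4 + 21 / 5 * z) * l ^ 2 -
      (7 / 10 * (m * z) + 3 / 25 * (m * z) ^ 2) * l ^ 2 := by
    simp only [brk, kB']
    ring
  rw [e] at h3
  simp only [Apart]
  linarith only [hG, h1, h2, h3]

theorem Ub_s {z s : ℝ} (hz : 0 < z) (hz5 : z ≤ 1 / 5) (hs : 0 < s) (hsz : s ^ 2 = 1 - z) :
    1 / s ≤ 1 + 1 / 2 * z + 23 / 50 * (z * z) := by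
  have h1 : 1 ≤ (1 + 1 / 2 * z + 23 / 50 * (z * z)) * s := by
    have h2 : (1 : ℝ) ^ 2 ≤ ((1 + 1 / 2 * z + 23 / 50 * (z * z)) * s) ^ 2 := by
      rw [mul_pow, hsz]
      have a := sub_nonneg.2 hz5
      nlinarith only [a, pow_pos hz 4]
    exact le_of_sq_le_sq h2 (by positivity)
  rw [div_le_iff₀ hs]
  exact h1

/-- the box of the checks in `(u, z, r)` -/
structure Box (u z r : ℝ) : Prop where
  hu : 0 ≤ u
  hu1 : u ≤ 28 / 25
  hz : 0 < z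
  hz5 : z ≤ 1 / 5
  hr : 0 < r
  hr9 : r ≤ 1 / 9

theorem Box.nn {u z r : ℝ} (B : Box u z r) {e : Ex3}
    (h : Ex3.nn (2 ^ 1024) 40 4000 0 28 25 0 1 5 0 1 9 e = true) : 0 ≤ e.R u z r := by
  have := B.hu
  have := B.hu1
  have := B.hz
  have := B.hz5
  have := B.hr
  have := B.hr9
  exact Ex3.nn_closed (by norm_num) (by norm_num) (by norm_num) (by norm_num) (by norm_num)
    (by norm_num) h (by push_cast; linarith) (by push_cast; (clear e h this; linarith))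
    (by push_cast; (clear e h this; linarith)) (by push_cast; (clear e h this; linarith)) (by push_cast; linarith)
    (by push_cast; linarith only [this])

theorem Box.quad {u z r : ℝ} (B : Box u z r) (L : ℝ) :
    0 ≤ ((9 / 100 + 7 / 10 * r) * (1 + u) + 1471 / 250 * (1 - z) * u ^ 2 * r ^ 2) *
        (2 + 31 / 25 * u) * L ^ 2 -
      2 * (3 / 25 * (1 + 3 * z * r) * (1 + u) + 4 * (1 - z) * u * r) * (2 + 31 / 25 * u) * L * u +
      (4 * (1 - z) * (2 + 31 / 25 * u) - 23 / 11 * (1 + 1 / 2 * z + 23 / 50 * (z * z)) * (1 + u) -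
        1 / 5 * (1 + u) * (2 + 31 / 25 * u)) * u ^ 2 := by
  have h := B.nn chk_jT
  have e : jT.R u z r = ((9 / 100 + 7 / 10 * r) * (1 + u) + 1471 / 250 * (1 - z) * u ^ 2 * r ^ 2) *
      (4 * (1 - z) * (2 + 31 / 25 * u) - 23 / 11 * (1 + 1 / 2 * z + 23 / 50 * (z * z)) * (1 + u) -
        1 / 5 * (1 + u) * (2 + 31 / 25 * u)) -
      (3 / 25 * (1 + 3 * z * r) * (1 + u) + 4 * (1 - z) * u * r) ^ 2 * (2 + 31 / 25 * u) := by
    simp only [jT, ja, jg, jb, jh, jU, j1u, jz, Ex3.R_add, Ex3.R_sub, Ex3.R_mul, Ex3.R_c,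
      Ex3.R_X, Ex3.R_Y, Ex3.R_Z]
    simp only [show ∀ (n : ℤ) (d : ℕ), Fr.R ⟨n, d⟩ = (n : ℝ) / ((d : ℝ) + 1) from fun _ _ => rfl]
    push_cast
    ring
  rw [e] at h
  have hu := B.hu
  have hr := B.hr
  have hz1 : 0 ≤ 1 - z := by linarith only [B.hz5]
  have ha : 0 < (9 / 100 + 7 / 10 * r) * (1 + u) + 1471 / 250 * (1 - z) * u ^ 2 * r ^ 2 := by
    have h1 : 0 < (9 / 100 + 7 / 10 * r) * (1 + u) := by (clear * - hr hu; positivity)
    have h2 : 0 ≤ 1471 / 250 * (1 - z) * u ^ 2 * r ^ 2 := by (clear * - hz1 hr; positivity)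
    (clear * - h1 h2; linarith)
  have hh : 0 < 2 + 31 / 25 * u := by positivity
  generalize (9 / 100 + 7 / 10 * r) * (1 + u) + 1471 / 250 * (1 - z) * u ^ 2 * r ^ 2 = a at *
  generalize 4 * (1 - z) * (2 + 31 / 25 * u) - 23 / 11 * (1 + 1 / 2 * z + 23 / 50 * (z * z)) *
    (1 + u) - 1 / 5 * (1 + u) * (2 + 31 / 25 * u) = g at *
  generalize 3 / 25 * (1 + 3 * z * r) * (1 + u) + 4 * (1 - z) * u * r = b at *
  generalize 2 + 31 / 25 * u = H at *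
  have h1 : 0 ≤ H * (a * L - b * u) ^ 2 + (a * g - b ^ 2 * H) * u ^ 2 := by (clear * - hh h; positivity)
  have e2 : H * (a * L - b * u) ^ 2 + (a * g - b ^ 2 * H) * u ^ 2 =
      a * (a * H * L ^ 2 - 2 * b * H * L * u + g * u ^ 2) := by ring
  rw [e2] at h1
  exact nonneg_of_mul_nonneg_right h1 ha

theorem box_of {z s u w : ℝ} (hz : 0 < z) (hz5 : z ≤ 1 / 5) (hs : 0 < s) (hsz : s ^ 2 = 1 - z)
    (hu : 0 ≤ u) (hus : u * s ≤ 1) (hw : 9 ≤ w) : Box u z (1 / w) :=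
  ⟨hu, u_le hz hz5 hs hsz hu hus, hz, hz5, by positivity,
    one_div_le_one_div_of_le (by norm_num) hw⟩

/-- the quadratic form in the variables `l`, `u` -/
theorem quad_w {z s u w : ℝ} (hz : 0 < z) (hz5 : z ≤ 1 / 5) (hs : 0 < s) (hsz : s ^ 2 = 1 - z)
    (hu : 0 ≤ u) (hus : u * s ≤ 1) (hw : 9 ≤ w) (l : ℝ) :
    3 / 100 * w ^ 2 * l ^ 2 + 1 / 5 * u ^ 2 ≤ (7 / 10 * w + 3 / 25 * w ^ 2) * l ^ 2 +
      4 * (1 - z) * (1 - 2 * l + 1471 / 1000 * l ^ 2) * (u ^ 2 / (1 + u)) -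
      6 / 25 * (w + 3 * z) * (u * l) -
      23 / 11 * (1 + 1 / 2 * z + 23 / 50 * (z * z)) * (u ^ 2 / (2 + 31 / 25 * u)) := by
  have h := (box_of hz hz5 hs hsz hu hus hw).quad (w * l)
  have hw0 : 0 < w := by linarith only [hw]
  have e : (7 / 10 * w + 3 / 25 * w ^ 2) * l ^ 2 +
      4 * (1 - z) * (1 - 2 * l + 1471 / 1000 * l ^ 2) * (u ^ 2 / (1 + u)) -
      6 / 25 * (w + 3 * z) * (u * l) -
      23 / 11 * (1 + 1 / 2 * z + 23 / 50 * (z * z)) * (u ^ 2 / (2 + 31 / 25 * u)) -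
      (3 / 100 * w ^ 2 * l ^ 2 + 1 / 5 * u ^ 2) =
      (((9 / 100 + 7 / 10 * (1 / w)) * (1 + u) + 1471 / 250 * (1 - z) * u ^ 2 * (1 / w) ^ 2) *
        (2 + 31 / 25 * u) * (w * l) ^ 2 -
      2 * (3 / 25 * (1 + 3 * z * (1 / w)) * (1 + u) + 4 * (1 - z) * u * (1 / w)) *
        (2 + 31 / 25 * u) * (w * l) * u +
      (4 * (1 - z) * (2 + 31 / 25 * u) - 23 / 11 * (1 + 1 / 2 * z + 23 / 50 * (z * z)) * (1 + u) -
        1 / 5 * (1 + u) * (2 + 31 / 25 * u)) * u ^ 2) / ((1 + u) * (2 + 31 / 25 * u)) := by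
    have h1 : 1 + u ≠ 0 := by positivity
    have h2 : 2 + 31 / 25 * u ≠ 0 := by (clear * - hu; positivity)
    rw [eq_div_iff (mul_ne_zero h1 h2)]
    have e1 : u ^ 2 / (1 + u) * (1 + u) = u ^ 2 := div_mul_cancel₀ _ h1
    have e2 : u ^ 2 / (2 + 31 / 25 * u) * (2 + 31 / 25 * u) = u ^ 2 := div_mul_cancel₀ _ h2
    have e3 : 1 / w * w = 1 := div_mul_cancel₀ _ hw0.ne'
    generalize u ^ 2 / (1 + u) = X at *
    generalize u ^ 2 / (2 + 31 / 25 * u) = Y at *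
    generalize 1 / w = r at *
    have e4 : r * w ^ 2 = w := by linear_combination w * e3
    have e5 : r ^ 2 * w ^ 2 = 1 := by linear_combination (r * w + 1) * e3
    linear_combination (4 * (1 - z) * (1 - 2 * l + 1471 / 1000 * l ^ 2) * (2 + 31 / 25 * u)) * e1 -
      (23 / 11 * (1 + 1 / 2 * z + 23 / 50 * (z * z)) * (1 + u)) * e2 -
      (7 / 10 * l ^ 2 * (1 + u) * (2 + 31 / 25 * u)) * e4 -
      (1471 / 250 * (1 - z) * u ^ 2 * l ^ 2 * (2 + 31 / 25 * u)) * e5 +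
      (2 * (3 / 25 * 3 * z * (1 + u) + 4 * (1 - z) * u) * (2 + 31 / 25 * u) * l * u) * e3
  have hd : 0 < (1 + u) * (2 + 31 / 25 * u) := by (clear * - hu; positivity)
  have := div_nonneg h hd.le
  rw [← e] at this
  linarith only [this]

theorem T1_ge {m z s l u G N : ℝ} (hm : 45 ≤ m) (hz : 0 < z) (hz5 : z ≤ 1 / 5) (hs : 0 < s)
    (hsz : s ^ 2 = 1 - z) (hw : 9 ≤ m * z) (hl0 : 0 ≤ l) (hl1 : l ≤ 1 / 2)
    (hT : z * Real.exp (2 * l) ≤ 1) (hu : 0 ≤ u) (hus : u * s ≤ 1)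
    (hN : Real.log (1 + u) - u ≤ N)
    (hA : (7 / 10 * (m * z) + 3 / 25 * (m * z) ^ 2) * l ^ 2 ≤ Apart m z s l G) :
    3 / 100 * (m * z) ^ 2 * l ^ 2 + 1 / 5 * u ^ 2 ≤ dpT m z s l u G N := by
  have hφ := phi_E2 hz hz5 hs hsz hu hus
  have h1 := red_T hm hz hs hsz hT hu hN hφ hA
  have h2 := quad_w hz hz5 hs hsz hu hus hw l
  have h3 : 4 * (1 - z) * (1 - 2 * l + 1471 / 1000 * l ^ 2) * (u ^ 2 / (1 + u)) ≤
      4 * s ^ 2 * Real.exp (-(2 * l)) * (u ^ 2 / (1 + u)) := by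
    apply mul_le_mul_of_nonneg_right _ (W_nn hu)
    rw [hsz]
    exact mul_le_mul_of_nonneg_left (exp_E1d hl0 hl1) (by linarith only [hz5])
  have h4 : 23 / 11 / s * (u ^ 2 / (2 + 31 / 25 * u)) ≤
      23 / 11 * (1 + 1 / 2 * z + 23 / 50 * (z * z)) * (u ^ 2 / (2 + 31 / 25 * u)) := by
    apply mul_le_mul_of_nonneg_right _ (by (clear * - hu; positivity))
    have := Ub_s hz hz5 hs hsz
    rw [show 23 / 11 / s = 23 / 11 * (1 / s) by ring]
    exact mul_le_mul_of_nonneg_left this (by norm_num)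
  have e : 6 / 25 * ((m + 3) * z) * (u * l) = 6 / 25 * (m * z + 3 * z) * (u * l) := by ring
  rw [e] at h1
  linarith only [h1, h2, h3, h4]

theorem phi_lin {z s u : ℝ} (hz : 0 < z) (hz5 : z ≤ 1 / 5) (hs : 0 < s) (hsz : s ^ 2 = 1 - z)
    (hu : 0 ≤ u) (hus : u * s ≤ 1) :
    1 / 8 / s * (u ^ 2 / (2 + 31 / 25 * u)) ≤ u / 20 := by
  obtain ⟨h1, h2⟩ := s_facts hz hz5 hs hsz
  have e : 1 / 8 / s * (u ^ 2 / (2 + 31 / 25 * u)) = u * u / (8 * (s * (2 + 31 / 25 * u))) := by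
    field_simp
  rw [e, div_le_div_iff₀ (by positivity) (by norm_num)]
  have h3 : 20 * u ≤ 8 * (s * (2 + 31 / 25 * u)) := by
    have h4 : (20 - 8 * (31 / 25 * s)) * (u * s) ≤ (20 - 8 * (31 / 25 * s)) * 1 :=
      mul_le_mul_of_nonneg_left hus (by linarith only [h2])
    have h5 : 20 - 8 * (31 / 25 * s) ≤ 16 * s * s := by nlinarith only [h1]
    have h6 : (20 - 8 * (31 / 25 * s)) * u * s ≤ 16 * s * s := by linarith only [hz5, hsz, h1, h4]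
    have h7 : (20 - 8 * (31 / 25 * s)) * u ≤ 16 * s := le_of_mul_le_mul_right h6 hs
    linarith only [h7]
  have := mul_le_mul_of_nonneg_left h3 hu
  linarith only [this]

theorem psi_le {l : ℝ} (hl0 : 0 ≤ l) : Real.exp (-(2 * l)) - 1 + 2 * l ≤ 2 * l ^ 2 := by
  have h1 : Real.exp (-(2 * l)) * Real.exp (2 * l) = 1 := by rw [← Real.exp_add]; norm_num
  have h2 : 1 + 2 * l + 2 * l ^ 2 ≤ Real.exp (2 * l) := by
    have := Real.quadratic_le_exp_of_nonneg (x := 2 * l) (by linarith)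
    linarith only [this]
  have h3 := mul_le_mul_of_nonneg_left h2 (Real.exp_pos (-(2 * l))).le
  rw [h1] at h3
  have h4 : 0 < 1 + 2 * l + 2 * l ^ 2 := by positivity
  have h5 : Real.exp (-(2 * l)) * (1 + 2 * l + 2 * l ^ 2) ≤
      (1 - 2 * l + 2 * l ^ 2) * (1 + 2 * l + 2 * l ^ 2) := by
    have : 0 ≤ 4 * l ^ 4 := by positivity
    linarith only [h3, this]
  have := le_of_mul_le_mul_right h5 h4
  linarith

theorem psi_nn (l : ℝ) : 0 ≤ Real.exp (-(2 * l)) - 1 + 2 * l := by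
  have := Real.add_one_le_exp (-(2 * l))
  linarith

/-- upper bound of `e - T` -/
theorem P1_le {m z s l u c G N : ℝ} (hm : 45 ≤ m) (hz : 0 < z) (hz5 : z ≤ 1 / 5) (hs : 0 < s)
    (hsz : s ^ 2 = 1 - z) (hw : 9 ≤ m * z) (hl0 : 0 ≤ l) (hl1 : l ≤ 1 / 2)
    (hT : z * Real.exp (2 * l) ≤ 1) (hu : 0 ≤ u) (hus : u * s ≤ 1)
    (hc1 : 1 - 1 / (2 * m) ≤ c) (hc2 : c ≤ 1) (hN : Real.log (1 + u) - u ≤ N)
    (hA : (7 / 10 * (m * z) + 3 / 25 * (m * z) ^ 2) * l ^ 2 ≤ Apart m z s l G) :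
    dpE m z s l u c N - dpT m z s l u G N ≤
      (1 + 4 * z + 23 / 25 * z ^ 2 + 3 / 25 * (m * z + 3 * z) * (1 + 1 / 2 * z + 23 / 50 * (z * z))) * l +
      (3 / 50 * (m * z + 3 * z) + (3 * z + 23 / 25 * z ^ 2) + 1 / 20) * u := by
  have hφ := phi_E2 hz hz5 hs hsz hu hus
  have h1 := red_P hm hz hs hsz hl0 hT hu hc1 hc2 hN hφ hA
  have hU := Ub_s hz hz5 hs hsz
  have hu2 : u ≤ 1 + 1 / 2 * z + 23 / 50 * (z * z) := by
    refine le_trans ?_ hU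
    rw [le_div_iff₀ hs]
    exact hus
  have h2 := phi_lin hz hz5 hs hsz hu hus
  have e : (m + 3) * z = m * z + 3 * z := by ring
  rw [e] at h1
  have h3 : (m * z + 3 * z) * (Real.exp (-(2 * l)) - 1 + 2 * l) ≤ (m * z + 3 * z) * (2 * l ^ 2) :=
    mul_le_mul_of_nonneg_left (psi_le hl0) (by linarith only [hz, hw])
  clear hA
  generalize m * z = w at *
  have h4 : (w + 3 * z) * (2 * l ^ 2) - (7 / 10 * w + 3 / 25 * w ^ 2) * l ^ 2 ≤
      (1 + 3 * z) * l := by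
    have h5 : (13 / 10 * w + 6 * z - 3 / 25 * w ^ 2) ≤ 2 + 6 * z := by nlinarith only [hw]
    have h6 := mul_le_mul_of_nonneg_right h5 (sq_nonneg l)
    have h7 : (2 + 6 * z) * l * l ≤ (2 + 6 * z) * l * (1 / 2) :=
      mul_le_mul_of_nonneg_left hl1 (by (clear * - hz hl0; positivity))
    linarith only [h6, h7]
  have h8 : (2 / s - 2) * l ≤ (z + 23 / 25 * z ^ 2) * l := by
    apply mul_le_mul_of_nonneg_right _ hl0
    rw [show 2 / s = 2 * (1 / s) by ring]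
    linarith only [hU]
  have h9 : (2 / s - 2 * s ^ 2) * u ≤ (3 * z + 23 / 25 * z ^ 2) * u := by
    apply mul_le_mul_of_nonneg_right _ hu
    rw [show 2 / s = 2 * (1 / s) by ring, hsz]
    linarith only [hU]
  have h10 : 3 / 25 * (w + 3 * z) * (u * l) ≤
      3 / 25 * (w + 3 * z) * ((1 + 1 / 2 * z + 23 / 50 * (z * z)) * l) := by
    apply mul_le_mul_of_nonneg_left _ (by (clear * - hw hz; positivity))
    exact mul_le_mul_of_nonneg_right hu2 hl0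
  have h11 : 3 / 25 * (w + 3 * z) * (u * l) ≤ 3 / 25 * (w + 3 * z) * (u * (1 / 2)) := by
    apply mul_le_mul_of_nonneg_left _ (by positivity)
    exact mul_le_mul_of_nonneg_left hl1 hu
  linarith only [h2, h1, h3, h4, h8, h9, h10, h11]

/-- lower bound of `e` -/
theorem E1_ge {m z s l u c N : ℝ} (hm : 45 ≤ m) (hz : 0 < z) (hz5 : z ≤ 1 / 5) (hs : 0 < s)
    (hsz : s ^ 2 = 1 - z) (hw : 9 ≤ m * z) (hl0 : 0 ≤ l) (hl1 : l ≤ 1 / 2)
    (hu : 0 ≤ u) (hus : u * s ≤ 1)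
    (hc1 : 1 - 1 / (2 * m) ≤ c) (hc2 : c ≤ 1) (hN : Real.log (1 + u) - u ≤ N) :
    -(1 / 4 * l) ≤ dpE m z s l u c N := by
  have hφ := phi_E2 hz hz5 hs hsz hu hus
  have h1 := red_E hm hz hs hsz hl0 hu hc1 hc2 hN hφ
  have h2 : 0 ≤ (m + 3) * z * (Real.exp (-(2 * l)) - 1 + 2 * l) :=
    mul_nonneg (by positivity) (psi_nn l)
  have h3 : z / s ^ 2 * l ≤ 1 / 4 * l := by
    apply mul_le_mul_of_nonneg_right _ hl0
    rw [div_le_iff₀ (by positivity), hsz]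
    linarith only [hz5]
  have h4 : 4 * (1 - z) * (3678 / 10000) * (u ^ 2 / (1 + u)) ≤
      4 * s ^ 2 * Real.exp (-(2 * l)) * (u ^ 2 / (1 + u)) := by
    apply mul_le_mul_of_nonneg_right _ (W_nn hu)
    rw [hsz]
    apply mul_le_mul_of_nonneg_left _ (by linarith only [hz5])
    have g1 : Real.exp (-1) ≤ Real.exp (-(2 * l)) := Real.exp_le_exp.2 (by linarith only [hl1])
    have g2 : 3678 / 10000 ≤ Real.exp (-1) := by
      rw [Real.exp_neg, le_inv_comm₀ (by norm_num) (Real.exp_pos 1)]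
      have := Real.exp_one_lt_d9
      norm_num
      linarith only [this]
    linarith only [g1, g2]
  have h5 : 2 / s * (u ^ 2 / (2 + 31 / 25 * u)) ≤
      2 * (1 + 1 / 2 * z + 23 / 50 * (z * z)) * (u ^ 2 / (2 + 31 / 25 * u)) := by
    apply mul_le_mul_of_nonneg_right _ (by (clear * - hu; positivity))
    have := Ub_s hz hz5 hs hsz
    rw [show 2 / s = 2 * (1 / s) by ring]
    exact mul_le_mul_of_nonneg_left this (by norm_num)
  have h6 : 0 ≤ 4 * (1 - z) * (3678 / 10000) * (u ^ 2 / (1 + u)) -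
      2 * (1 + 1 / 2 * z + 23 / 50 * (z * z)) * (u ^ 2 / (2 + 31 / 25 * u)) + 2 * z * u := by
    have h := (box_of hz hz5 hs hsz hu hus hw).nn chk_je
    have e : je.R u z (1 / (m * z)) = 4 * (1 - z) * (3678 / 10000) * u * (2 + 31 / 25 * u) +
        2 * z * (1 + u) * (2 + 31 / 25 * u) -
        2 * (1 + 1 / 2 * z + 23 / 50 * (z * z)) * u * (1 + u) := by
      simp only [je, jh, jU, j1u, jz, Ex3.R_add, Ex3.R_sub, Ex3.R_mul, Ex3.R_c, Ex3.R_X, Ex3.R_Y]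
      simp only [show ∀ (n : ℤ) (d : ℕ), Fr.R ⟨n, d⟩ = (n : ℝ) / ((d : ℝ) + 1) from fun _ _ => rfl]
      push_cast
      ring
    rw [e] at h
    have e2 : 4 * (1 - z) * (3678 / 10000) * (u ^ 2 / (1 + u)) -
      2 * (1 + 1 / 2 * z + 23 / 50 * (z * z)) * (u ^ 2 / (2 + 31 / 25 * u)) + 2 * z * u =
      u * (4 * (1 - z) * (3678 / 10000) * u * (2 + 31 / 25 * u) +
        2 * z * (1 + u) * (2 + 31 / 25 * u) -
        2 * (1 + 1 / 2 * z + 23 / 50 * (z * z)) * u * (1 + u)) / ((1 + u) * (2 + 31 / 25 * u)) := by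
      field_simp
      ring
    rw [e2]
    exact div_nonneg (mul_nonneg hu h) (by (clear * - hu; positivity))
  linarith

theorem kρ_R (u z r : ℝ) : kρ.R u z r = 1 / 5 * r ^ 2 + 1 / 2 * r * (1 + z + z ^ 2) +
    1 / 10 * (1 - 2 * z * r) * (1 + 2 * z + 3 * z ^ 2) := by
  simp only [kρ, Ex3.R_add, Ex3.R_sub, Ex3.R_mul, Ex3.R_c, Ex3.R_Y, Ex3.R_Z]
  simp only [show ∀ (n : ℤ) (d : ℕ), Fr.R ⟨n, d⟩ = (n : ℝ) / ((d : ℝ) + 1) from fun _ _ => rfl]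
  push_cast
  ring

theorem kB_R (u z r : ℝ) : kB.R u z r = (1 + 4 * z + 23 / 25 * z ^ 2) * r +
    3 / 25 * (1 + 3 * z * r) * (1 + 1 / 2 * z + 23 / 50 * (z * z)) := by
  simp only [kB, jU, Ex3.R_add, Ex3.R_mul, Ex3.R_c, Ex3.R_Y, Ex3.R_Z]
  simp only [show ∀ (n : ℤ) (d : ℕ), Fr.R ⟨n, d⟩ = (n : ℝ) / ((d : ℝ) + 1) from fun _ _ => rfl]
  push_cast
  ring

theorem kA_R (u z r : ℝ) : kA.R u z r = 3 / 50 * (1 + 3 * z * r) +
    (3 * z + 23 / 25 * z ^ 2 + 1 / 20) * r := by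
  simp only [kA, Ex3.R_add, Ex3.R_mul, Ex3.R_c, Ex3.R_Y, Ex3.R_Z]
  simp only [show ∀ (n : ℤ) (d : ℕ), Fr.R ⟨n, d⟩ = (n : ℝ) / ((d : ℝ) + 1) from fun _ _ => rfl]
  push_cast
  ring

/-- the two final inequalities -/
theorem J_ineq {z w : ℝ} (hz : 0 < z) (hz5 : z ≤ 1 / 5) (hw : 9 ≤ w) :
    100 / 3 * ((1 + 4 * z + 23 / 25 * z ^ 2 +
      3 / 25 * (w + 3 * z) * (1 + 1 / 2 * z + 23 / 50 * (z * z))) ^ 2 / w ^ 2) +
      5 * (3 / 50 * (w + 3 * z) + (3 * z + 23 / 25 * z ^ 2) + 1 / 20) ^ 2 ≤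
      7 / 10 * (1 / 5 + 1 / 2 * (w * (1 + z + z ^ 2)) +
        1 / 10 * (w ^ 2 - 2 * z * w) * (1 + 2 * z + 3 * z ^ 2)) ∧
    1 / 2 * (1 + 4 * z + 23 / 25 * z ^ 2 +
      3 / 25 * (w + 3 * z) * (1 + 1 / 2 * z + 23 / 50 * (z * z))) +
      (1 + 1 / 2 * z + 23 / 50 * (z * z)) *
        (3 / 50 * (w + 3 * z) + (3 * z + 23 / 25 * z ^ 2) + 1 / 20) ≤
      1 / 5 * (1 / 5 + 1 / 2 * (w * (1 + z + z ^ 2)) +
        1 / 10 * (w ^ 2 - 2 * z * w) * (1 + 2 * z + 3 * z ^ 2)) := by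
  have hw0 : 0 < w := by linarith only [hw]
  have B : Box 0 z (1 / w) := ⟨le_rfl, by norm_num, hz, hz5, by positivity,
    one_div_le_one_div_of_le (by norm_num) hw⟩
  have h1 : 0 ≤ kJ1.R 0 z (1 / w) := by
    have a1 := B.hr
    have a2 := B.hr9
    exact Ex3.nn_closed (by norm_num) (by norm_num) (by norm_num) (by norm_num) (by norm_num)
      (by norm_num) chk_J1 (by push_cast; linarith only []) (by push_cast; linarith only [])
      (by push_cast; linarith only [hz]) (by push_cast; linarith only [hz5]) (by push_cast; linarith only [a1])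
      (by push_cast; linarith only [a2])
  have h2 : 0 ≤ kJ2.R 0 z (1 / w) := by
    have a1 := B.hr
    have a2 := B.hr9
    exact Ex3.nn_closed (by norm_num) (by norm_num) (by norm_num) (by norm_num) (by norm_num)
      (by norm_num) chk_J2 (by push_cast; linarith only []) (by push_cast; linarith only [])
      (by push_cast; linarith only [hz]) (by push_cast; linarith only [hz5]) (by push_cast; linarith only [a1])
      (by push_cast; linarith only [a2])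
  have e1 : kJ1.R 0 z (1 / w) = 7 / 10 * kρ.R 0 z (1 / w) - 100 / 3 * (kB.R 0 z (1 / w) * (1 / w)) *
      (kB.R 0 z (1 / w) * (1 / w)) - 5 * kA.R 0 z (1 / w) * kA.R 0 z (1 / w) := by
    simp only [kJ1, Ex3.R_sub, Ex3.R_mul, Ex3.R_c, Ex3.R_Z]
    simp only [show ∀ (n : ℤ) (d : ℕ), Fr.R ⟨n, d⟩ = (n : ℝ) / ((d : ℝ) + 1) from fun _ _ => rfl]
    push_cast
    ring
  have e2 : kJ2.R 0 z (1 / w) = 1 / 5 * kρ.R 0 z (1 / w) - 1 / w * (1 / 2 * kB.R 0 z (1 / w) +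
      (1 + 1 / 2 * z + 23 / 50 * (z * z)) * kA.R 0 z (1 / w)) := by
    simp only [kJ2, jU, Ex3.R_add, Ex3.R_sub, Ex3.R_mul, Ex3.R_c, Ex3.R_Y, Ex3.R_Z]
    simp only [show ∀ (n : ℤ) (d : ℕ), Fr.R ⟨n, d⟩ = (n : ℝ) / ((d : ℝ) + 1) from fun _ _ => rfl]
    push_cast
    ring
  rw [e1, kρ_R, kB_R, kA_R] at h1
  rw [e2, kρ_R, kB_R, kA_R] at h2
  have hw2 : 0 < w ^ 2 := by positivity
  constructor
  · have h3 := mul_nonneg hw2.le h1
    rw [← sub_nonneg]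
    refine le_trans h3 (le_of_eq ?_)
    field_simp
    ring
  · have h3 := mul_nonneg hw2.le h2
    rw [← sub_nonneg]
    refine le_trans h3 (le_of_eq ?_)
    field_simp
    ring

theorem cauchy1 {w l u A B R : ℝ} (hw : 0 < w) (h : 100 / 3 * (B ^ 2 / w ^ 2) + 5 * A ^ 2 ≤ R) :
    (B * l + A * u) ^ 2 ≤ R * (3 / 100 * w ^ 2 * l ^ 2 + 1 / 5 * u ^ 2) := by
  have h1 : 0 ≤ 3 / 100 * w ^ 2 * l ^ 2 + 1 / 5 * u ^ 2 := by positivity
  refine le_trans ?_ (mul_le_mul_of_nonneg_right h h1)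
  have e : (100 / 3 * (B ^ 2 / w ^ 2) + 5 * A ^ 2) * (3 / 100 * w ^ 2 * l ^ 2 + 1 / 5 * u ^ 2) =
      (B * l + A * u) ^ 2 + 20 / 3 * (B * u / w - 3 / 20 * (A * w * l)) ^ 2 := by
    field_simp
    ring
  rw [e]
  have : 0 ≤ 20 / 3 * (B * u / w - 3 / 20 * (A * w * l)) ^ 2 := by (clear * -; positivity)
  linarith only [this]

/-- **region `X ≥ 3`, `u ≥ 0`, `z ≤ 1/5`, `l ≤ 1/2`** -/
theorem region1 {m z s l u c G N : ℝ} (hm : 45 ≤ m) (hz : 0 < z) (hz5 : z ≤ 1 / 5) (hs : 0 < s)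
    (hsz : s ^ 2 = 1 - z) (hw : 9 ≤ m * z) (hl0 : 0 ≤ l) (hl1 : l ≤ 1 / 2)
    (hT : z * Real.exp (2 * l) ≤ 1) (hu : 0 ≤ u) (hus : u * s ≤ 1)
    (hc1 : 1 - 1 / (2 * m) ≤ c) (hc2 : c ≤ 1) (hN : Real.log (1 + u) - u ≤ N)
    (hG : -(z * (3 / 4 + 21 / 5 * z) * l ^ 2) ≤ G) :
    JTest (dpT m z s l u G N) (dpE m z s l u c N) (dpR m (z / s ^ 2)) u := by
  have hA := A1_ge (by linarith only [hm]) hz hz5 hs hsz hw hl0 hl1 hG
  have hT0 := T1_ge hm hz hz5 hs hsz hw hl0 hl1 hT hu hus hN hA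
  have hP := P1_le hm hz hz5 hs hsz hw hl0 hl1 hT hu hus hc1 hc2 hN hA
  have hE := E1_ge hm hz hz5 hs hsz hw hl0 hl1 hu hus hc1 hc2 hN
  have hρ := rho_ge hm hz hs hsz
  obtain ⟨j1, j2⟩ := J_ineq hz hz5 hw
  have hu2 : u ≤ 1 + 1 / 2 * z + 23 / 50 * (z * z) := by
    refine le_trans ?_ (Ub_s hz hz5 hs hsz)
    rw [le_div_iff₀ hs]
    exact hus
  have hρ2 : 12 ≤ dpR m (z / s ^ 2) := by
    have := rho_simple hm hz hs hsz hw hw
    linarith only [hw, this]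
  clear hA hG hT hus hc1 hc2 hN
  generalize dpT m z s l u G N = T at *
  generalize dpE m z s l u c N = e at *
  generalize dpR m (z / s ^ 2) = ρ at *
  generalize m * z = w at *
  have hw0 : 0 < w := by linarith only [hw]
  have hA0 : 0 ≤ 3 / 50 * (w + 3 * z) + (3 * z + 23 / 25 * z ^ 2) + 1 / 20 := by positivity
  have hB0 : 0 ≤ 1 + 4 * z + 23 / 25 * z ^ 2 +
      3 / 25 * (w + 3 * z) * (1 + 1 / 2 * z + 23 / 50 * (z * z)) := by positivity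
  generalize 3 / 50 * (w + 3 * z) + (3 * z + 23 / 25 * z ^ 2) + 1 / 20 = A at *
  generalize 1 + 4 * z + 23 / 25 * z ^ 2 +
      3 / 25 * (w + 3 * z) * (1 + 1 / 2 * z + 23 / 50 * (z * z)) = B at *
  have hT00 : 0 ≤ 3 / 100 * w ^ 2 * l ^ 2 + 1 / 5 * u ^ 2 := by (clear * - hw; positivity)
  refine JTest.of_theta (T0 := 3 / 100 * w ^ 2 * l ^ 2 + 1 / 5 * u ^ 2) (P := B * l + A * u)
    (E := 1 / 4 * l) (θ := 1 / 5) (θ1 := 7 / 10) hT0 hT00 ?_ (by linarith only [hρ2]) (by norm_num)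
    (by norm_num) hP (by (clear * - hB0 hl0 hA0 hu; positivity)) ?_ ?_ hE (by positivity) (by linarith only [hl1, hρ2]) ?_
  · intro h0
    have : 0 < u ^ 2 := by positivity
    have : 0 ≤ 3 / 100 * w ^ 2 * l ^ 2 := by (clear * - hw; positivity)
    (clear m z s c G N hm hz hz5 hs hsz hl0 hl1 hu2 T e hE ρ hρ2 hT0 hρ hw0 A hA0 B hB0 j1 j2 hP hT00; linarith)
  · have g1 : B * l ≤ B * (1 / 2) := mul_le_mul_of_nonneg_left hl1 hB0
    have g2 := mul_le_mul_of_nonneg_left hu2 hA0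
    linarith only [hρ, j2, g1, g2]
  · have g := cauchy1 (l := l) (u := u) hw0 (j1.trans (mul_le_mul_of_nonneg_left hρ (by norm_num)))
    linarith only [g]
  · have g1 : 12 * (3 / 100 * w ^ 2 * l ^ 2 + 1 / 5 * u ^ 2) ≤
        ρ * (3 / 100 * w ^ 2 * l ^ 2 + 1 / 5 * u ^ 2) := mul_le_mul_of_nonneg_right hρ2 hT00
    have g2 : 81 * l ^ 2 ≤ w ^ 2 * l ^ 2 := by
      apply mul_le_mul_of_nonneg_right _ (sq_nonneg l)
      nlinarith only [hw]
    have g3 : 0 ≤ u ^ 2 := sq_nonneg u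
    have g4 : 0 ≤ l ^ 2 := sq_nonneg l
    linarith only [hT00, g1, g2, g3]

/-- lower bound of `G` for `l ≤ 1/2`, `x² ≤ 1/5` -/
theorem G_small {x l : ℝ} (hx : x ^ 2 ≤ 1 / 5) (hl0 : 0 ≤ l) (hl1 : l ≤ 1 / 2) :
    -(x ^ 2 * (3 / 4 + 21 / 5 * x ^ 2) * l ^ 2) ≤
      2 * (bg (x * Real.exp l) - bg x + x ^ 2 / (sq x * (1 + sq x) ^ 2) * l) := by
  have h := fg_of_check (x := x) (l := l) (by norm_num) (by norm_num) (by norm_num) (by norm_num)
    chk_G (by linarith only [hx]) (by push_cast; linarith only [hx]) (by norm_num) hl0 (by push_cast; linarith only [hl1])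
    (by linarith only [hl1]) (by
      simp only [Fr.R]
      push_cast
      nlinarith only [hx])
  simp only [Fr.R] at h
  push_cast at h
  refine le_trans ?_ h
  apply neg_le_neg
  apply mul_le_mul_of_nonneg_right _ (sq_nonneg l)
  have h0 := sq_nonneg x
  generalize x ^ 2 = z at *
  rw [div_le_iff₀ (by nlinarith only [hx])]
  have h3 : 0 ≤ z ^ 3 := pow_nonneg h0 3
  nlinarith only []

/-- lower bound of `G`, all `l` with `x e^l ≤ 1` -/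
theorem G_all {x l : ℝ} (hx0 : 0 < x) (hx : x < 1) (hl0 : 0 ≤ l) (hT : x * Real.exp l ≤ 1) :
    -(2 * (x ^ 2 * Real.exp (2 * l) - x ^ 2) / (sq x * (1 + sq x))) +
        2 * x ^ 2 * l / (sq x * (1 + sq x) ^ 2) ≤
      2 * (bg (x * Real.exp l) - bg x + x ^ 2 / (sq x * (1 + sq x) ^ 2) * l) := by
  have he : Real.exp (2 * l) = Real.exp l ^ 2 := by rw [← Real.exp_nat_mul]; norm_num
  have he1 : 1 ≤ Real.exp l := Real.one_le_exp hl0
  have hs2 : sq x ^ 2 = 1 - x ^ 2 := by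
    rw [sq, Real.sq_sqrt]
    nlinarith only [hx, hx0]
  have hs0 : 0 < sq x := by
    rw [sq]
    apply Real.sqrt_pos.2
    nlinarith only [hx, hx0]
  have hT2 : (x * Real.exp l) ^ 2 ≤ 1 ^ 2 := pow_le_pow_left₀ (by positivity) hT 2
  have hS2 : sq (x * Real.exp l) ^ 2 = 1 - (x * Real.exp l) ^ 2 := by
    rw [sq, Real.sq_sqrt]
    linarith
  have hS0 : 0 ≤ sq (x * Real.exp l) := by
    rw [sq]
    exact Real.sqrt_nonneg _
  rw [he]
  simp only [bg]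
  have hx2 : x ^ 2 = 1 - sq x ^ 2 := by linarith
  have hxe : x ^ 2 * Real.exp l ^ 2 = 1 - sq (x * Real.exp l) ^ 2 := by
    rw [hS2]; ring
  rw [hxe]
  have hle : 1 - sq x ^ 2 ≤ 1 - sq (x * Real.exp l) ^ 2 := by
    rw [← hxe, ← hx2]
    have : 1 ≤ Real.exp l ^ 2 := one_le_pow₀ he1
    nlinarith only [this]
  generalize sq (x * Real.exp l) = S at *
  generalize sq x = s at *
  have key : -((1 - S ^ 2 - (1 - s ^ 2)) / (s * (1 + s))) ≤ S / (1 + S) - s / (1 + s) := by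
    have e : S / (1 + S) - s / (1 + s) = -((s - S) / ((1 + S) * (1 + s))) := by
      field_simp
      ring
    rw [e]
    apply neg_le_neg
    rw [div_le_div_iff₀ (by positivity) (by positivity)]
    have hsS : 0 ≤ s - S := by
      by_contra h
      push Not at h
      have h1 : s < S := by linarith only [h]
      have := mul_pos hs0 hs0
      nlinarith only [hle, h, hs0]
    have h1 : s * (1 + s) ≤ (s + S) * ((1 + S) * (1 + s)) := by
      have : s ≤ (s + S) * (1 + S) := by nlinarith only [hS0, hs0]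
      nlinarith
    have h2 := mul_le_mul_of_nonneg_left h1 hsS
    linarith only [h2]
  have e1 : 2 * (1 - S ^ 2 - x ^ 2) / (s * (1 + s)) = 2 * ((1 - S ^ 2 - (1 - s ^ 2)) / (s * (1 + s))) := by
    rw [hx2]; ring
  have e2 : 2 * x ^ 2 * l / (s * (1 + s) ^ 2) = 2 * (x ^ 2 / (s * (1 + s) ^ 2) * l) := by ring
  rw [e1, e2]
  linarith only [key]

/-- **the region `X ≥ 3`, `u ≥ 0`, `z ≤ 1/5`, `l > 0`** (`hG1`: see `G_small`, `hG2`: see `G_all`) -/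
theorem fxu_region {m z s l u c G N : ℝ} (hm : 45 ≤ m) (hz : 0 < z) (hz5 : z ≤ 1 / 5)
    (hs : 0 < s) (hsz : s ^ 2 = 1 - z) (hw : 9 ≤ m * z) (hl : 0 ≤ l)
    (hT : z * Real.exp (2 * l) ≤ 1) (hcap : 33 / 10 ≤ m * z * Real.exp (-(2 * l)))
    (hu : 0 ≤ u) (hus : u * s ≤ 1)
    (htail : 1 + u ≤ ((m + 1) * z + 1) / (2 * z) * ((Real.exp (-(2 * l)) - z) / s ^ 2))
    (hc1 : 1 - 1 / (2 * m) ≤ c) (hc2 : c ≤ 1) (hN : Real.log (1 + u) - u ≤ N)
    (hG1 : l ≤ 1 / 2 → -(z * (3 / 4 + 21 / 5 * z) * l ^ 2) ≤ G)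
    (hG2 : -(2 * (z * Real.exp (2 * l) - z) / (s * (1 + s))) + 2 * z * l / (s * (1 + s) ^ 2) ≤ G) :
    JTest (dpT m z s l u G N) (dpE m z s l u c N) (dpR m (z / s ^ 2)) u := by
  rcases le_total l (1 / 2) with h | h
  · exact region1 hm hz hz5 hs hsz hw hl h hT hu hus hc1 hc2 hN (hG1 h)
  · exact region2 hz hz5 hs hsz hw h hT hcap hu hus htail hc1 hc2 hN hG2

end FXu

end Vale.Agent.P237.AllN
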