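import Vale.Agent.P237.AllN.FAllT
import Vale.Agent.P237.AllN.FAllG
import Vale.Agent.P237.AllN.FXnZ
import Vale.Agent.P237.AllN.FXuD

/-!
# P237, block D: the pointwise test for `0 < l`, `9 ≤ m x²`: `u ≤ 0`, `x² ≤ 49/100`, and
`0 ≤ u`, `x² ≤ 1/5`
-/

open Set

namespace Vale.Agent.P237.AllN

open Alm

variable {m : ℕ} {r τ τ' T : ℝ → ℝ} {x : ℝ}

/-- **region `0 < l`, `9 ≤ m x²`, `x² ≤ 49/100`, `u ≤ 0`** -/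
theorem IsTrans.jt_far_neg (hm : 27 ≤ m) (hr : IsProf r) (h : IsTrans m r τ τ' T)
    (hN : (∫ y in (-1 : ℝ)..1, r y ^ (m - 1)) ^ m * aInt m ^ (m - 1) ≤
      aInt (m - 1) ^ m * (∫ y in (-1 : ℝ)..1, r y ^ m) ^ (m - 1))
    (hx : x ∈ Ioo (0 : ℝ) 1) (h9 : 9 ≤ (m : ℝ) * x ^ 2) (hz : x ^ 2 ≤ 49 / 100)
    (hl : 0 < lf τ x) (hu : uf τ τ' x ≤ 0) :
    JTest (dpT m (x ^ 2) (sq x) (lf τ x) (uf τ τ' x) (jG τ x) (jN m (lf τ x) (uf τ τ' x)))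
      (dpE m (x ^ 2) (sq x) (lf τ x) (uf τ τ' x) (fc m) (jN m (lf τ x) (uf τ τ' x)))
      (dpR m (x ^ 2 / sq x ^ 2)) (uf τ τ' x) := by
  have F := h.ffacts (by omega) hr hx
  have hm' : (27 : ℝ) ≤ m := by exact_mod_cast hm
  obtain ⟨hc1, -, hc3⟩ := h.fx_cap hm hr hN hx h9
  refine h.jt_far_neg_of hm hr hN hx h9 hz hl hu fun sig hsig => ?_
  exact fxn_S hm' F.z0 hz F.s0 F.hs h9 hl F.le.le hu (h.fx_tail (by omega) hr hx)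
    (br_sq_nonneg _) (h.sqS hx) (h.jG_S hx).le hc1 hc3 hsig

/-- **region `0 < l`, `9 ≤ m x²`, `x² ≤ 1/5`, `0 ≤ u`** -/
theorem IsTrans.jt_far_pos_small (hm : 27 ≤ m) (hr : IsProf r) (h : IsTrans m r τ τ' T)
    (hN : (∫ y in (-1 : ℝ)..1, r y ^ (m - 1)) ^ m * aInt m ^ (m - 1) ≤
      aInt (m - 1) ^ m * (∫ y in (-1 : ℝ)..1, r y ^ m) ^ (m - 1))
    (hx : x ∈ Ioo (0 : ℝ) 1) (h9 : 9 ≤ (m : ℝ) * x ^ 2) (hz : x ^ 2 ≤ 1 / 5)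
    (hl : 0 < lf τ x) (hu : 0 ≤ uf τ τ' x) :
    JTest (dpT m (x ^ 2) (sq x) (lf τ x) (uf τ τ' x) (jG τ x) (jN m (lf τ x) (uf τ τ' x)))
      (dpE m (x ^ 2) (sq x) (lf τ x) (uf τ τ' x) (fc m) (jN m (lf τ x) (uf τ τ' x)))
      (dpR m (x ^ 2 / sq x ^ 2)) (uf τ τ' x) := by
  have F := h.ffacts (by omega) hr hx
  have hm' : (27 : ℝ) ≤ m := by exact_mod_cast hm
  have hm0 : (0 : ℝ) < m := by linarith
  have h45 : (45 : ℝ) ≤ m := by nlinarith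
  obtain ⟨hc1, -, -⟩ := h.fx_cap hm hr hN hx h9
  refine FXu.fxu_region h45 F.z0 hz F.s0 F.hs h9 hl.le F.le.le hc1 hu F.us
    (h.fx_tail (by omega) hr hx) F.c0 F.c1 (fa_N_ge hm0) (fun hl2 => ?_) ?_
  · rw [h.jG_eq hx]
    exact FXu.G_small hz hl.le hl2
  · rw [h.jG_eq hx]
    exact FXu.G_all hx.1 hx.2 hl.le (h.fa_exp hx).le

end Vale.Agent.P237.AllN
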