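import Vale.Agent.P237.AllN.KerS

/-!
# P237, block D: elementary bounds for the region `l > 0`, `u ≥ 0`
-/

open Set

namespace Vale.Agent.P237.AllN

/-- `ψ(t) = e^(-t) - 1 + t`: the ratio `ψ(t)/t²` is decreasing -/
theorem psi_ratio {t T : ℝ} (ht : 0 ≤ t) (htT : t ≤ T) :
    (Real.exp (-T) - 1 + T) * t ^ 2 ≤ (Real.exp (-t) - 1 + t) * T ^ 2 := by
  rcases ht.eq_or_lt with h | h
  · rw [← h]
    simp
  · -- `(2 - t) ≤ (2 + t) e^(-t)`
    have key : ∀ x : ℝ, 0 ≤ x → 2 - x ≤ (2 + x) * Real.exp (-x) := by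
      have hd : ∀ x : ℝ, HasDerivAt (fun x : ℝ => (2 + x) * Real.exp (-x) - (2 - x))
          (1 - (1 + x) * Real.exp (-x)) x := by
        intro x
        have h1 : HasDerivAt (fun x : ℝ => Real.exp (-x)) (-Real.exp (-x)) x := by
          have := (hasDerivAt_neg x).exp
          refine this.congr_deriv ?_
          ring
        have h2 := (((hasDerivAt_id x).const_add 2).mul h1).sub ((hasDerivAt_id x).const_sub 2)
        refine h2.congr_deriv ?_
        simp only [id]
        ring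
      have hm : MonotoneOn (fun x : ℝ => (2 + x) * Real.exp (-x) - (2 - x)) (Ici 0) := by
        apply monotoneOn_of_deriv_nonneg (convex_Ici 0)
        · exact fun x _ => (hd x).continuousAt.continuousWithinAt
        · exact fun x _ => (hd x).differentiableAt.differentiableWithinAt
        · intro x hx
          rw [interior_Ici] at hx
          rw [(hd x).deriv]
          have h1 := Real.add_one_le_exp x
          have h2 : (1 + x) * Real.exp (-x) ≤ Real.exp x * Real.exp (-x) :=
            mul_le_mul_of_nonneg_right (by linarith) (Real.exp_pos _).le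
          rw [← Real.exp_add, add_neg_cancel, Real.exp_zero] at h2
          linarith
      intro x hx
      have := hm (mem_Ici.2 le_rfl) (mem_Ici.2 hx) hx
      simp only [neg_zero, Real.exp_zero] at this
      linarith
    have hd : ∀ x ∈ Ioi (0 : ℝ), HasDerivAt (fun x : ℝ => (Real.exp (-x) - 1 + x) / x ^ 2)
        ((2 - x - (2 + x) * Real.exp (-x)) / x ^ 3) x := by
      intro x hx
      have hx0 : x ≠ 0 := (mem_Ioi.1 hx).ne'
      have h1 : HasDerivAt (fun x : ℝ => Real.exp (-x)) (-Real.exp (-x)) x := by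
        have := (hasDerivAt_neg x).exp
        refine this.congr_deriv ?_
        ring
      have h3 : HasDerivAt (fun x : ℝ => x ^ 2) (2 * x) x := by
        simpa using hasDerivAt_pow 2 x
      have h2 := ((h1.sub_const 1).add (hasDerivAt_id' x)).div h3 (pow_ne_zero 2 hx0)
      refine h2.congr_deriv ?_
      simp only [Pi.add_apply]
      field_simp
      ring
    have hanti : AntitoneOn (fun x : ℝ => (Real.exp (-x) - 1 + x) / x ^ 2) (Ioi 0) := by
      apply antitoneOn_of_deriv_nonpos (convex_Ioi 0)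
      · exact fun x hx => (hd x hx).continuousAt.continuousWithinAt
      · intro x hx
        rw [interior_Ioi] at hx
        exact (hd x hx).differentiableAt.differentiableWithinAt
      · intro x hx
        rw [interior_Ioi] at hx
        rw [(hd x hx).deriv]
        exact div_nonpos_of_nonpos_of_nonneg (by linarith [key x (mem_Ioi.1 hx).le])
          (pow_nonneg (mem_Ioi.1 hx).le 3)
    have h1 := hanti (mem_Ioi.2 h) (mem_Ioi.2 (h.trans_le htT)) htT
    simp only at h1
    have hT0 : 0 < T := h.trans_le htT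
    rw [div_le_div_iff₀ (by positivity) (by positivity)] at h1
    exact h1

/-- general form of (E1) -/
theorem exp_quad {l L e : ℝ} (hl : 0 ≤ l) (hlL : l ≤ L) (hL : 0 < L)
    (he : 1 - 2 * L + e * L ^ 2 ≤ Real.exp (-(2 * L))) :
    1 - 2 * l + e * l ^ 2 ≤ Real.exp (-(2 * l)) := by
  have h := psi_ratio (t := 2 * l) (T := 2 * L) (by linarith only [hl]) (by linarith)
  have h1 : e * L ^ 2 ≤ Real.exp (-(2 * L)) - 1 + 2 * L := by linarith
  have h2 : e * L ^ 2 * (2 * l) ^ 2 ≤ (Real.exp (-(2 * L)) - 1 + 2 * L) * (2 * l) ^ 2 :=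
    mul_le_mul_of_nonneg_right h1 (sq_nonneg _)
  have h3 : L ^ 2 * (e * l ^ 2) ≤ L ^ 2 * (Real.exp (-(2 * l)) - 1 + 2 * l) := by linarith
  have h4 := le_of_mul_le_mul_left h3 (by positivity)
  linarith only [h4]

theorem exp_num {t a : ℝ} (ha : 0 < a) (ht0 : 0 ≤ t) (ht1 : t ≤ 1)
    (h : a * ((∑ i ∈ Finset.range 9, t ^ i / (Nat.factorial i : ℝ)) +
      t ^ 9 * ((9 : ℕ) + 1) / ((Nat.factorial 9 : ℝ) * (9 : ℕ))) ≤ 1) : a ≤ Real.exp (-t) := by
  have h1 := Real.exp_bound' ht0 ht1 (n := 9) (by norm_num)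
  rw [Real.exp_neg, le_inv_comm₀ ha (Real.exp_pos t)]
  rw [inv_eq_one_div, le_div_iff₀ ha, mul_comm]
  exact (mul_le_mul_of_nonneg_left h1 ha.le).trans h

/-- **(E1)**, `l ≤ 2/5` -/
theorem exp_E1a {l : ℝ} (hl : 0 ≤ l) (hl1 : l ≤ 2 / 5) :
    1 - 2 * l + 1558 / 1000 * l ^ 2 ≤ Real.exp (-(2 * l)) := by
  refine exp_quad hl hl1 (by norm_num) ?_
  refine exp_num (by norm_num) (by norm_num) (by norm_num) ?_
  simp only [Finset.sum_range_succ, Finset.sum_range_zero, Nat.factorial]
  norm_num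

/-- **(E1)**, `l ≤ 43/100` -/
theorem exp_E1b {l : ℝ} (hl : 0 ≤ l) (hl1 : l ≤ 43 / 100) :
    1 - 2 * l + 1531 / 1000 * l ^ 2 ≤ Real.exp (-(2 * l)) := by
  refine exp_quad hl hl1 (by norm_num) ?_
  refine exp_num (by norm_num) (by norm_num) (by norm_num) ?_
  simp only [Finset.sum_range_succ, Finset.sum_range_zero, Nat.factorial]
  norm_num

/-- **(E1)**, `l ≤ 19/40` -/
theorem exp_E1c {l : ℝ} (hl : 0 ≤ l) (hl1 : l ≤ 19 / 40) :
    1 - 2 * l + 1492 / 1000 * l ^ 2 ≤ Real.exp (-(2 * l)) := by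
  refine exp_quad hl hl1 (by norm_num) ?_
  refine exp_num (by norm_num) (by norm_num) (by norm_num) ?_
  simp only [Finset.sum_range_succ, Finset.sum_range_zero, Nat.factorial]
  norm_num

/-- **(E1)**, `l ≤ 1/2` -/
theorem exp_E1d {l : ℝ} (hl : 0 ≤ l) (hl1 : l ≤ 1 / 2) :
    1 - 2 * l + 1471 / 1000 * l ^ 2 ≤ Real.exp (-(2 * l)) := by
  refine exp_quad hl hl1 (by norm_num) ?_
  refine exp_num (by norm_num) (by norm_num) (by norm_num) ?_
  simp only [Finset.sum_range_succ, Finset.sum_range_zero, Nat.factorial]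
  norm_num

/-- Padé bound from below -/
theorem log_pade_low {u : ℝ} (hu : 0 ≤ u) :
    3 * u * (2 + u) / (6 + 6 * u + u ^ 2) ≤ Real.log (1 + u) := by
  have hd : ∀ y ∈ Ici (0 : ℝ), HasDerivAt
      (fun y : ℝ => Real.log (1 + y) - 3 * y * (2 + y) / (6 + 6 * y + y ^ 2))
      (y ^ 4 / ((1 + y) * (6 + 6 * y + y ^ 2) ^ 2)) y := by
    intro y hy
    have hy' : (0 : ℝ) ≤ y := hy
    have hD : (6 + 6 * y + y ^ 2 : ℝ) ≠ 0 := by positivity
    have h0 : (1 + y : ℝ) ≠ 0 := by positivity
    have h1 : HasDerivAt (fun y : ℝ => 1 + y) 1 y := (hasDerivAt_id' y).const_add 1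
    have h2 : HasDerivAt (fun y : ℝ => 3 * y * (2 + y)) (6 + 6 * y) y := by
      have := ((hasDerivAt_id' y).const_mul 3).mul ((hasDerivAt_id' y).const_add 2)
      refine this.congr_deriv ?_
      ring
    have h3 : HasDerivAt (fun y : ℝ => 6 + 6 * y + y ^ 2) (6 + 2 * y) y := by
      have := (((hasDerivAt_id' y).const_mul 6).const_add 6).add (hasDerivAt_pow 2 y)
      refine this.congr_deriv ?_
      norm_num
    refine ((h1.log h0).sub (h2.div h3 hD)).congr_deriv ?_
    field_simp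
    ring
  have hm : MonotoneOn
      (fun y : ℝ => Real.log (1 + y) - 3 * y * (2 + y) / (6 + 6 * y + y ^ 2)) (Ici 0) := by
    apply monotoneOn_of_deriv_nonneg (convex_Ici 0)
    · exact fun x hx => (hd x hx).continuousAt.continuousWithinAt
    · intro x hx
      rw [interior_Ici] at hx
      exact (hd x (mem_Ici.2 (mem_Ioi.1 hx).le)).differentiableAt.differentiableWithinAt
    · intro x hx
      rw [interior_Ici] at hx
      have hx0 : 0 < x := hx
      rw [(hd x (mem_Ici.2 hx0.le)).deriv]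
      positivity
  have := hm (mem_Ici.2 le_rfl) (mem_Ici.2 hu) hu
  simp only [add_zero, Real.log_one, mul_zero, zero_mul, zero_div, sub_zero] at this
  linarith only [this]

/-- Padé bound for the defect of the logarithm -/
theorem log_defect {u : ℝ} (hu : 0 ≤ u) :
    u - Real.log (1 + u) ≤ u ^ 2 * (3 + u) / (6 + 6 * u + u ^ 2) := by
  have h := log_pade_low hu
  have e : u ^ 2 * (3 + u) / (6 + 6 * u + u ^ 2) =
      u - 3 * u * (2 + u) / (6 + 6 * u + u ^ 2) := by
    have h1 : (0 : ℝ) < 6 + 6 * u + u ^ 2 := by positivity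
    field_simp
    ring
  rw [e]
  linarith

/-- **(E2)** -/
theorem log_E2 {u : ℝ} (hu : 0 ≤ u) (hu1 : u ≤ 5 / 4) :
    u - Real.log (1 + u) ≤ u ^ 2 / (2 + 31 / 25 * u) := by
  rcases le_total u (7 / 6) with h | h
  · refine (log_defect hu).trans ?_
    rw [div_le_div_iff₀ (by positivity) (by positivity)]
    have h1 : (3 + u) * (2 + 31 / 25 * u) ≤ 6 + 6 * u + u ^ 2 := by nlinarith
    calc u ^ 2 * (3 + u) * (2 + 31 / 25 * u) = u ^ 2 * ((3 + u) * (2 + 31 / 25 * u)) := by ring
      _ ≤ u ^ 2 * (6 + 6 * u + u ^ 2) := mul_le_mul_of_nonneg_left h1 (sq_nonneg u)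
  · have h0 : (0 : ℝ) < 1 + u := by linarith only [h]
    have h1 : Real.log (1 + u) = 2 * Real.log (3 / 2) + Real.log ((1 + u) / (9 / 4)) := by
      have : (2 : ℝ) * Real.log (3 / 2) = Real.log (9 / 4) := by
        rw [show (9 / 4 : ℝ) = (3 / 2) ^ 2 by norm_num, Real.log_pow]
        norm_num
      rw [this, ← Real.log_mul (by norm_num) (by positivity)]
      congr 1
      field_simp
    have h2 := log_pade_low (u := 1 / 2) (by norm_num)
    have h3 := Real.one_sub_inv_le_log_of_pos (x := (1 + u) / (9 / 4)) (by positivity)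
    rw [inv_div] at h3
    have h4 : u - (2 * (15 / 37) + (1 - 9 / 4 / (1 + u))) ≤ u ^ 2 / (2 + 31 / 25 * u) := by
      rw [le_div_iff₀ (by positivity)]
      have h5 : (u - (2 * (15 / 37) + (1 - 9 / 4 / (1 + u)))) * (2 + 31 / 25 * u) =
          ((u - 67 / 37) * (1 + u) + 9 / 4) * (2 + 31 / 25 * u) / (1 + u) := by
        field_simp
        ring
      rw [h5, div_le_iff₀ h0]
      nlinarith only [h, mul_nonneg (mul_nonneg (sub_nonneg.2 h) (sub_nonneg.2 hu1)) hu]
    have h6 : (15 / 37 : ℝ) ≤ Real.log (3 / 2) := by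
      rw [show (1 + 1 / 2 : ℝ) = 3 / 2 by norm_num] at h2
      refine le_trans ?_ h2
      norm_num
    linarith

end Vale.Agent.P237.AllN
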