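import Vale.Agent.P237.AllN.FxqM
import Vale.Agent.P237.AllN.FxqS

/-!
# P237, block D, region `X ≥ 3`, `u ≥ 0`, `1/5 ≤ z ≤ 49/100`
-/

namespace Vale.Agent.P237.AllN.Fxq

open Real PolyPos

/-- closer: the test in the form `T₀ > θ' e₀`, `(1-θ') e₀ ≤ θ' ρ` -/
theorem jt_of_e {T e ρ u T0 e0 t tp : ℝ} (hρ : 0 < ρ) (ht : 0 ≤ t) (he : e = e0 + t)
    (hT : T0 + t ≤ T) (he0 : 0 ≤ e0) (htp : 0 < tp) (htp2 : tp ≤ 1 / 2)
    (h1 : (1 - tp) * e0 ≤ tp * ρ) (h2 : tp * e0 < T0) : JTest T e ρ u := by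
  have hρe : 0 < ρ + e := by linarith only [hρ, ht, he, he0]
  have hT0 : 0 < T0 := lt_of_le_of_lt (mul_nonneg htp.le he0) h2
  have heρ : e0 ≤ ρ := by
    by_contra hc
    push Not at hc
    have h3 : (1 - tp) * ρ < (1 - tp) * e0 := mul_lt_mul_of_pos_left hc (by linarith)
    have h4 : tp * ρ ≤ (1 - tp) * ρ := mul_le_mul_of_nonneg_right (by linarith only [htp2]) hρ.le
    linarith only [h1, h3, h4]
  have h3 : tp * e0 * (ρ + e0) < T0 * (ρ + e0) := mul_lt_mul_of_pos_right h2 (by linarith only [hρ, he0])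
  have h4 : 0 ≤ e0 * (tp * ρ - (1 - tp) * e0) := mul_nonneg he0 (by linarith only [h1])
  have h5 : 0 ≤ t * (T0 + ρ - e0) := mul_nonneg ht (by linarith only [hT0, heρ])
  have h6 : (T0 + t) * (ρ + e) ≤ T * (ρ + e) := mul_le_mul_of_nonneg_right hT hρe.le
  have h7 : e ^ 2 < T * (ρ + e) := by
    refine lt_of_lt_of_le ?_ h6
    rw [he]
    linarith
  exact ⟨hρe, h7.le, fun _ => h7⟩

/-! ## upper bound of `e₀` -/

theorem eU_ge {s E w tp : ℝ} (hs : 0 < s) (hE : 0 < E) {tpx : Ex} (htp : tpx.R s E = tp)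
    (htp0 : 0 ≤ tp)
    (h : (∃ W : Ex, (∀ e ∈ famU tpx W, 0 ≤ e.R s E) ∧ W.R s E ≤ w) ∨
      (∃ C : Ex, (∀ e ∈ famV tpx C, 0 ≤ e.R s E) ∧ C.R s E ≤ w * E)) :
    0 ≤ (tp / 5 - (1 - tp) *
      (3 * (1 - s ^ 2) * (E - 1 + vU E) + 1 / 29 * ((1 - s ^ 2) / s ^ 2) * vU E +
        4 * s ^ 2 * E * (1 / (s * (1 + s))) + (2 / s - 2 * s ^ 2) * (1 / s))) +
      (tp * (5 / s ^ 2 - 2 * (1 - s ^ 2) / s ^ 4) / 10 - (1 - tp) * (E - 1 + vU E)) * w +
      (tp / (10 * s ^ 4)) * w ^ 2 := by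
  have hUD := vUD_pos hE
  have hd : 0 < 10 * s ^ 4 * (1 + s) * vUD E := by positivity
  have hγ : 0 ≤ 10 * s ^ 4 * (1 + s) * vUD E * (tp / (10 * s ^ 4)) := by (clear * - hs hUD htp0; positivity)
  rcases h with ⟨W, hW, hw⟩ | ⟨C, hC, hw⟩
  · simp only [famU, List.mem_cons, List.not_mem_nil, or_false, forall_eq_or_imp, forall_eq] at hW
    obtain ⟨h1, h2⟩ := hW
    rw [q0_R, eUa_R hs hE, eUb_R hs hE, eUc_R hs, htp] at h1
    rw [q1_R, eUb_R hs hE, eUc_R hs, htp] at h2
    exact quad hd h1 h2 hγ hw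
  · simp only [famV, List.mem_cons, List.not_mem_nil, or_false, forall_eq_or_imp, forall_eq] at hC
    obtain ⟨h1, h2⟩ := hC
    rw [p0_R hE, eUa_R hs hE, eUb_R hs hE, eUc_R hs, htp] at h1
    rw [p1_R hE, eUb_R hs hE, eUc_R hs, htp] at h2
    have hE2 : 0 < E ^ 2 := by positivity
    exact quad hd (nonneg_of_mul_nonneg_right h1 hE2) (nonneg_of_mul_nonneg_right h2 hE) hγ
      (by rw [div_le_iff₀ hE]; exact hw)

/-- `(1-θ') e₀ ≤ θ' ρ` -/
theorem e_le {m z s l u c N tp : ℝ} (hm : 27 ≤ m) (hz : 0 < z) (hs : 0 < s)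
    (hsz : s ^ 2 = 1 - z) (hl : 0 < l)
    (hu : 0 ≤ u) (hus : u * s ≤ 1)
    (hc1 : 1 - 1 / (2 * m) ≤ c) (hc2 : c ≤ 1) (hc3 : c ^ 2 ≤ (m + 1) / (m + 2))
    (hN : N = log (1 + u) - u) (htp1 : tp ≤ 1)
    (h : 0 ≤ (tp / 5 - (1 - tp) *
      (3 * (1 - s ^ 2) * (exp (-(2 * l)) - 1 + vU (exp (-(2 * l)))) +
        1 / 29 * ((1 - s ^ 2) / s ^ 2) * vU (exp (-(2 * l))) +
        4 * s ^ 2 * exp (-(2 * l)) * (1 / (s * (1 + s))) + (2 / s - 2 * s ^ 2) * (1 / s))) +
      (tp * (5 / s ^ 2 - 2 * (1 - s ^ 2) / s ^ 4) / 10 -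
        (1 - tp) * (exp (-(2 * l)) - 1 + vU (exp (-(2 * l))))) * (m * z) +
      (tp / (10 * s ^ 4)) * (m * z) ^ 2) :
    (1 - tp) * dpE m z s l u c N ≤ tp * dpR m (z / s ^ 2) := by
  have hm0 : 0 < m := by linarith only [hm]
  have hs1 : s ≤ 1 := by nlinarith only [hz, hsz]
  set E := exp (-(2 * l)) with hE
  have hE0 : 0 < E := exp_pos _
  have hE1 : E ≤ 1 := by rw [hE]; exact exp_le_one_iff.2 (by linarith only [hl])
  have hU : 2 * l ≤ vU E := by
    have := fv_log_le (p := E) ⟨hE0, hE1⟩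
    rw [hE, log_exp, neg_neg] at this
    refine this.trans (le_of_eq ?_)
    unfold vU vUD
    rw [← hE]
  set φ := u - log (1 + u) with hφ
  have hφ0 : 0 ≤ φ := by
    have := log_le_sub_one_of_pos (show 0 < 1 + u by linarith only [hu])
    rw [hφ]; linarith only [this]
  have hN' : N = -φ := by rw [hN, hφ]; ring
  have hc0 : 0 ≤ c := by
    have : 1 / (2 * m) ≤ 1 := by rw [div_le_one (by positivity)]; linarith only [hm]
    linarith only [hc1, this]
  have hz' : z = 1 - s ^ 2 := by linarith only [hsz]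
  -- pieces
  have B1 : (m + 3) * z * (E - 1 + 2 * l) ≤ (m + 3) * z * (E - 1 + vU E) :=
    mul_le_mul_of_nonneg_left (by linarith only [hU]) (by positivity)
  have hW : u ^ 2 / (1 + u) ≤ 1 / (s * (1 + s)) := by
    rw [div_le_div_iff₀ (by linarith only [hu]) (by positivity)]
    nlinarith only [hus, hs, mul_nonneg hu (sub_nonneg.2 hus)]
  have B2 : 4 * s ^ 2 * E * (u ^ 2 / (1 + u)) ≤ 4 * s ^ 2 * E * (1 / (s * (1 + s))) :=
    mul_le_mul_of_nonneg_left hW (by positivity)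
  have B3 : 2 * c / s * N ≤ 0 := by
    rw [hN']
    have : 0 ≤ 2 * c / s * φ := by (clear * - hc0 hs hφ0; positivity)
    linarith only [this]
  have hu1s : u ≤ 1 / s := by rw [le_div_iff₀ hs]; exact hus
  have h1s : 1 ≤ 1 / s := by rw [le_div_iff₀ hs]; linarith only [hs1]
  have B4 : (2 * c / s - 2 * s ^ 2 + 2 * (1 - c)) * u ≤ (2 / s - 2 * s ^ 2) * (1 / s) := by
    have h1 : 2 * c / s - 2 * s ^ 2 + 2 * (1 - c) ≤ 2 / s - 2 * s ^ 2 := by
      have e : (2 / s - 2 * s ^ 2) - (2 * c / s - 2 * s ^ 2 + 2 * (1 - c)) =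
        2 * ((1 - c) * (1 / s - 1)) := by ring
      have := mul_nonneg (by linarith only [hc2] : 0 ≤ 1 - c) (by linarith only [h1s] : 0 ≤ 1 / s - 1)
      linarith only [e, this]
    have h2 : 0 ≤ 2 / s - 2 * s ^ 2 := by
      have : 2 / s = 2 * (1 / s) := by ring
      rw [this]; nlinarith only [hz, hsz, h1s]
    calc _ ≤ (2 / s - 2 * s ^ 2) * u := mul_le_mul_of_nonneg_right h1 hu
      _ ≤ _ := mul_le_mul_of_nonneg_left hu1s h2
  have B5 : (2 * c / s - 2 + 2 * (1 - c) * (1 - m * (z / s ^ 2))) * l ≤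
      1 / 29 * (z / s ^ 2) * vU E := by
    have h1 := mul_le_mul_of_nonneg_right (fpn_r_le hm0 hz hs (by linarith only [hsz]) hc2 hc3) hl.le
    have hy : 0 ≤ 2 * (z / s ^ 2) := by positivity
    have h2 : 2 * (z / s ^ 2) / (m + 2) ≤ 2 * (z / s ^ 2) / 29 :=
      div_le_div_of_nonneg_left hy (by norm_num) (by linarith only [hm])
    have h3 := mul_le_mul_of_nonneg_right h2 hl.le
    have h4 : 1 / 29 * (z / s ^ 2) * (2 * l) ≤ 1 / 29 * (z / s ^ 2) * vU E :=
      mul_le_mul_of_nonneg_left hU (by positivity)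
    have h5 : 2 * (z / s ^ 2) / 29 * l = 1 / 29 * (z / s ^ 2) * (2 * l) := by ring
    linarith only [h1, h3, h4]
  have B : dpE m z s l u c N ≤ (m + 3) * z * (E - 1 + vU E) +
      4 * s ^ 2 * E * (1 / (s * (1 + s))) + (2 / s - 2 * s ^ 2) * (1 / s) +
      1 / 29 * (z / s ^ 2) * vU E := by
    unfold dpE
    rw [← hE]
    linarith only [B1, B2, B3, B4, B5]
  have B' := mul_le_mul_of_nonneg_left B (by linarith only [htp1] : 0 ≤ 1 - tp)
  refine B'.trans ?_
  rw [← hz'] at h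
  have e : tp * dpR m (z / s ^ 2) - (1 - tp) * ((m + 3) * z * (E - 1 + vU E) +
      4 * s ^ 2 * E * (1 / (s * (1 + s))) + (2 / s - 2 * s ^ 2) * (1 / s) +
      1 / 29 * (z / s ^ 2) * vU E) = (tp / 5 - (1 - tp) *
      (3 * z * (E - 1 + vU E) + 1 / 29 * (z / s ^ 2) * vU E +
        4 * s ^ 2 * E * (1 / (s * (1 + s))) + (2 / s - 2 * s ^ 2) * (1 / s))) +
      (tp * (5 / s ^ 2 - 2 * z / s ^ 4) / 10 - (1 - tp) * (E - 1 + vU E)) * (m * z) +
      (tp / (10 * s ^ 4)) * (m * z) ^ 2 := by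
    unfold dpR; ring
  (clear * - h e; linarith)

/-! ## lower bound of `e₀` -/

theorem r_ge {m z s c : ℝ} (hm : 27 ≤ m) (hz : 0 < z) (hs : 0 < s) (hsz : s ^ 2 = 1 - z)
    (hc1 : 1 - 1 / (2 * m) ≤ c) (hc2 : c ≤ 1) :
    -((1 / s - 1) ^ 2 + 1 / (27 * s)) ≤
      2 * c / s - 2 + 2 * (1 - c) * (1 - m * (z / s ^ 2)) := by
  have hm0 : 0 < m := by linarith only [hm]
  have h1s : 0 < 1 / s := by positivity
  have e : 2 * c / s - 2 + 2 * (1 - c) * (1 - m * (z / s ^ 2)) =
    2 * (1 / s) - 2 - 2 * (1 - c) * (1 / s) + 2 * (1 - c) - 2 * (1 - c) * m * (z / s ^ 2) := by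
    ring
  rw [e]
  have hc3 : 2 * (1 - c) * m ≤ 1 := by
    have h1 : 1 - c ≤ 1 / (2 * m) := by linarith only [hc1]
    have h2 := mul_le_mul_of_nonneg_right h1 (by positivity : 0 ≤ 2 * m)
    have h3 : 1 / (2 * m) * (2 * m) = 1 := by field_simp
    linarith only [h2, h3]
  have hc4 : 2 * (1 - c) ≤ 1 / 27 := by
    have : (1 - c) * 27 ≤ (1 - c) * m := mul_le_mul_of_nonneg_left hm (by linarith only [hc2])
    linarith only [hc3, this]
  have h3 : 2 * (1 - c) * (1 / s) ≤ 1 / (27 * s) := by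
    have h := mul_le_mul_of_nonneg_right hc4 h1s.le
    have e : 1 / 27 * (1 / s) = 1 / (27 * s) := by field_simp
    linarith only [h, e]
  have h4 : 2 * (1 - c) * m * (z / s ^ 2) ≤ z / s ^ 2 :=
    mul_le_of_le_one_left (by positivity) hc3
  have hz' : z = 1 - s ^ 2 := by linarith only [hsz]
  have h5 : z / s ^ 2 = (1 / s) ^ 2 - 1 := by rw [hz']; (clear * - hs; field_simp)
  have h6 : (1 / s - 1) ^ 2 = (1 / s) ^ 2 - 2 * (1 / s) + 1 := by ring
  linarith only [hc2, h3, h4, h5]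

theorem phi_le {s u : ℝ} (hs : 0 < s) (hu : 0 ≤ u) (hus : u * s ≤ 1) :
    u - log (1 + u) ≤ u * ((1 + 3 * s) / vsg s) := by
  have hsg : 0 < vsg s := by unfold vsg; positivity
  refine (log_defect hu).trans ?_
  have e : u ^ 2 * (3 + u) / (6 + 6 * u + u ^ 2) = u * (u * (3 + u) / (6 + 6 * u + u ^ 2)) := by
    ring
  rw [e]
  apply mul_le_mul_of_nonneg_left _ hu
  rw [div_le_div_iff₀ (by (clear * - hu; positivity)) hsg]
  unfold vsg
  nlinarith only [hus, hs, mul_nonneg (mul_nonneg hu hs.le) (sub_nonneg.2 hus)]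

theorem C1_aux {s u c N : ℝ} (hs : 0 < s) (hu : 0 ≤ u) (hus : u * s ≤ 1)
    (hc0 : 53 / 54 ≤ c) (hc2 : c ≤ 1) (hN : N = log (1 + u) - u) :
    u * (53 / 27 * ((6 * s + 3) / vsg s) - 2 * s ^ 2) ≤
      2 * c / s * N + (2 * c / s - 2 * s ^ 2 + 2 * (1 - c)) * u := by
  have hsg : 0 < vsg s := by unfold vsg; positivity
  have hφu := phi_le hs hu hus
  set φ := u - log (1 + u) with hφ
  have hN' : N = -φ := by rw [hN, hφ]; ring
  have h1 : 2 * c / s * φ ≤ 2 * c / s * (u * ((1 + 3 * s) / vsg s)) :=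
    mul_le_mul_of_nonneg_left hφu (by positivity)
  have h2 : 2 * c / s * u - 2 * c / s * (u * ((1 + 3 * s) / vsg s)) =
      u * (2 * c * ((6 * s + 3) / vsg s)) := by
    have : (1 + 3 * s) / vsg s = 1 - s * ((6 * s + 3) / vsg s) := by
      field_simp
      unfold vsg
      ring
    rw [this]
    field_simp
    ring
  have h3 : u * (53 / 27 * ((6 * s + 3) / vsg s)) ≤ u * (2 * c * ((6 * s + 3) / vsg s)) := by
    apply mul_le_mul_of_nonneg_left _ hu
    apply mul_le_mul_of_nonneg_right _ (by positivity)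
    linarith only [hc0]
  have h4 : 0 ≤ 2 * (1 - c) * u := mul_nonneg (by linarith only [hc2]) hu
  rw [hN']
  linarith

theorem e_ge {m z s l u c N : ℝ} (hm : 27 ≤ m) (hz : 0 < z) (hs0 : 357 / 500 ≤ s)
    (hs1 : s ≤ 448 / 500) (hsz : s ^ 2 = 1 - z) (hw9 : 9 ≤ m * z) (hl : 0 < l)
    (hE0' : 1 / 5 ≤ exp (-(2 * l))) (hE1' : exp (-(2 * l)) ≤ 37 / 50)
    (hzE : z ≤ exp (-(2 * l))) (hu : 0 ≤ u) (hus : u * s ≤ 1)
    (hc1 : 1 - 1 / (2 * m) ≤ c) (hc2 : c ≤ 1)
    (hN : N = log (1 + u) - u) : 0 ≤ dpE m z s l u c N := by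
  have hs : 0 < s := by (clear * - hs0; linarith)
  have hm0 : 0 < m := by linarith only [hm]
  have hs1' : s ≤ 1 := by linarith only [hs1]
  set E := exp (-(2 * l)) with hE
  have hE0 : 0 < E := exp_pos _
  have hE1 : E ≤ 1 := by linarith only [hE1']
  have hL : vL E ≤ 2 * l := by
    have := fv_log_ge (E := E) ⟨hE0, hE1⟩
    rw [hE, log_exp, neg_neg] at this
    refine le_trans (le_of_eq ?_) this
    unfold vL vN vD
    rw [← hE]
  have hsg : 0 < vsg s := by unfold vsg; positivity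
  have hD := vD_pos hE0
  have hz' : z = 1 - s ^ 2 := by linarith only [hsz]
  have hc0 : 53 / 54 ≤ c := by
    have h1 : 1 / (2 * m) ≤ 1 / 54 := by
      apply one_div_le_one_div_of_le (by norm_num) (by linarith only [hm])
    linarith only [hc1, h1]
  have h1s : 1 ≤ 1 / s := by rw [le_div_iff₀ hs]; linarith only [hs1]
  have hu1s : u ≤ 1 / s := by rw [le_div_iff₀ hs]; exact hus
  -- kernel
  have e0 : (xz - Ex.Y).R s E ≤ 0 := by rw [Ex.R_sub, Ex.R_Y, xz_R]; linarith only [hsz, hzE]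
  obtain ⟨hk1, hk2⟩ : 0 ≤ eLa.R s E ∧ 0 ≤ (eLa + eLb).R s E := by
    obtain ⟨i, hi⟩ := tchkE_sound e0 (.leaf 0) 357 448 500 10 37 50 (by norm_num) (by norm_num)
      (by norm_num) (by norm_num) kcL (by push_cast; linarith only [hs0]) (by push_cast; linarith only [hs1])
      (by push_cast; linarith only [hE0']) (by push_cast; linarith only [hE1'])
    match i with
    | 0 => exact ⟨hi _ (by simp only [Int.reduceNeg, List.getD_eq_getElem?_getD, List.length_cons, List.length_nil, zero_add, Order.lt_one_iff, getElem?_pos, List.getElem_cons_zero, Option.getD_some, List.mem_cons, List.not_mem_nil, or_false, true_or]), hi _ (by simp only [Int.reduceNeg, List.getD_eq_getElem?_getD, List.length_cons, List.length_nil, zero_add, Order.lt_one_iff, getElem?_pos, List.getElem_cons_zero, Option.getD_some, List.mem_cons, List.not_mem_nil, or_false, or_true])⟩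
    | (n + 1) => exact (out_false hi (by simp)).elim
  rw [Ex.R_add, eLa_R hs hE0, eLb_R hs, ← mul_add] at hk2
  rw [eLa_R hs hE0] at hk1
  have hp : 0 < s ^ 3 * vsg s * vD E := by (clear * - hs0 hsg hD; positivity)
  have k1 := nonneg_of_mul_nonneg_right hk1 hp
  have k2 := nonneg_of_mul_nonneg_right hk2 hp
  rw [← hz'] at k1 k2
  set g := 53 / 27 * ((6 * s + 3) / vsg s) - 2 * s ^ 2 with hg
  set ρr := (1 / s - 1) ^ 2 + 1 / (27 * s) with hρr
  -- the `u` part
  have C1 : u * g ≤ 2 * c / s * N + (2 * c / s - 2 * s ^ 2 + 2 * (1 - c)) * u :=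
    C1_aux hs hu hus hc0 hc2 hN
  -- the `l` part
  have C2 : -(ρr * l) ≤ (2 * c / s - 2 + 2 * (1 - c) * (1 - m * (z / s ^ 2))) * l := by
    have h1 : -ρr ≤ 2 * c / s - 2 + 2 * (1 - c) * (1 - m * (z / s ^ 2)) :=
      r_ge hm hz hs hsz hc1 hc2
    have := mul_le_mul_of_nonneg_right h1 hl.le
    linarith only [this]
  have hX0 : 0 ≤ E - 1 + 2 * l := by
    have := add_one_le_exp (-(2 * l))
    rw [← hE] at this
    linarith only [this]
  have C3 : (9 + 3 * z) * (E - 1 + 2 * l) ≤ (m + 3) * z * (E - 1 + 2 * l) := by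
    apply mul_le_mul_of_nonneg_right _ hX0
    linarith only [hw9]
  have hρr1 : ρr ≤ 1 := by
    have h1 : 1 / s ≤ 500 / 357 := by rw [div_le_iff₀ hs]; linarith only [hs0]
    have h2 : 1 / (27 * s) ≤ 1 / 19 := by
      apply one_div_le_one_div_of_le (by norm_num) (by linarith only [hs0])
    have h3 : (1 / s - 1) ^ 2 ≤ (143 / 357) ^ 2 :=
      pow_le_pow_left₀ (by linarith only [h1s]) (by linarith only [h1]) 2
    have h4 : (143 / 357 : ℝ) ^ 2 ≤ 17 / 100 := by norm_num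
    rw [hρr]
    (clear * - h2 h3; linarith)
  have C4 : (9 + 3 * z) * (E - 1 + vL E) - ρr / 2 * vL E ≤
      (9 + 3 * z) * (E - 1 + 2 * l) - ρr / 2 * (2 * l) := by
    have : 0 ≤ (9 + 3 * z - ρr / 2) * (2 * l - vL E) :=
      mul_nonneg (by linarith only [hz, hρr1]) (by linarith only [hL])
    linarith only [this]
  have C5 : 0 ≤ 4 * s ^ 2 * E * (u ^ 2 / (1 + u)) := by (clear * - hs0 hu; positivity)
  -- base
  have C6 : 0 ≤ ((9 + 3 * z) * (E - 1 + vL E) - ρr / 2 * vL E) + u * g := by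
    set B := (9 + 3 * z) * (E - 1 + vL E) - ρr / 2 * vL E with hB
    have k3 : 0 ≤ s * B + g := by
      have : s * B + g = s * (B + 1 / s * g) := by (clear * - hs0; field_simp)
      rw [this]
      exact mul_nonneg hs.le k2
    have e : B + u * g = (1 - u * s) * B + u * (s * B + g) := by ring
    rw [e]
    exact add_nonneg (mul_nonneg (by linarith only [hus]) k1) (mul_nonneg hu k3)
  unfold dpE
  rw [← hE]
  linarith only [C1, C2, C3, C4, C5, C6]

/-! ## the region -/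

/-- reduction from a lower bound at `N = log (1+u) - u` -/
theorem jt_N {m z s l u c G N tp : ℝ} (hm : 27 ≤ m) (hz : 0 < z) (hs : 0 < s)
    (hc0 : 0 ≤ c) (hc2 : c ≤ 1) (hN : log (1 + u) - u ≤ N)
    (he0 : 0 ≤ dpE m z s l u c (log (1 + u) - u)) (htp : 0 < tp) (htp2 : tp ≤ 1 / 2)
    (h1 : (1 - tp) * dpE m z s l u c (log (1 + u) - u) ≤ tp * dpR m (z / s ^ 2))
    (h2 : tp * dpE m z s l u c (log (1 + u) - u) < dpT m z s l u G (log (1 + u) - u)) :
    JTest (dpT m z s l u G N) (dpE m z s l u c N) (dpR m (z / s ^ 2)) u := by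
  have hy : 0 < z / s ^ 2 := by positivity
  have hρ : 0 < dpR m (z / s ^ 2) := by
    unfold dpR
    have : 0 ≤ m * (m - 2) * (z / s ^ 2) ^ 2 :=
      mul_nonneg (mul_nonneg (by linarith only [hm]) (by linarith only [hm])) (sq_nonneg _)
    have : 0 ≤ 5 * m * (z / s ^ 2) := by positivity
    (clear l u c G N hc0 hc2 hN he0 h1 h2 hy this; positivity)
  refine jt_of_e (t := 2 * c / s * (N - (log (1 + u) - u))) hρ ?_ ?_ ?_ he0 htp htp2 h1 h2
  · exact mul_nonneg (by positivity) (by linarith only [hN])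
  · unfold dpE; ring
  · have hκ : 2 * c / s ≤ 2 * (m + 1) / ((m - 1) * s) := by
      rw [← div_div]
      apply div_le_div_of_nonneg_right _ hs.le
      rw [le_div_iff₀ (by linarith only [hm])]
      nlinarith only [hc2, hm]
    have h3 := mul_le_mul_of_nonneg_right hκ (by linarith only [hN] : 0 ≤ N - (log (1 + u) - u))
    unfold dpT
    linarith

theorem fxq_large {m z s l u c G N : ℝ} (hm : 27 ≤ m) (hz0 : 1 / 5 ≤ z) (hz1 : z ≤ 49 / 100)
    (hs : 0 < s) (hsz : s ^ 2 = 1 - z) (hw : 9 ≤ m * z) (hl : 0 < l)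
    (hE1 : exp (-(2 * l)) ≤ 37 / 50) (hzl : z * exp (2 * l) ≤ 1)
    (hcap : 33 / 10 ≤ m * z * exp (-(2 * l)))
    (hcap' : 34 / 125 ≤ z → 354 / 100 ≤ m * z * exp (-(2 * l)))
    (hu : 0 ≤ u) (hus : u * s ≤ 1)
    (htail : 1 + u ≤ ((m + 1) * z + 1) / (2 * z) * ((exp (-(2 * l)) - z) / s ^ 2))
    (hc1 : 1 - 1 / (2 * m) ≤ c) (hc2 : c ≤ 1)
    (hc3 : c ^ 2 ≤ (m + 1) / (m + 2)) (hN : log (1 + u) - u ≤ N)
    (hG : 2 * (-(s * (z * (exp (2 * l) - 1)) / ((1 + s) * (2 * s ^ 2 * (1 + s) -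
      z * (exp (2 * l) - 1) * (1 + 2 * s))))) + 2 * z / (s * (1 + s) ^ 2) * l ≤ G) :
    JTest (dpT m z s l u G N) (dpE m z s l u c N) (dpR m (z / s ^ 2)) u := by
  have hz : 0 < z := by linarith only [hz0]
  have hz' : z = 1 - s ^ 2 := by linarith only [hsz]
  have hm0 : 0 < m := by linarith only [hm]
  have hs0 : 357 / 500 ≤ s := by
    by_contra h
    push Not at h
    have : s ^ 2 < (357 / 500) ^ 2 := pow_lt_pow_left₀ h hs.le (by norm_num)
    norm_num at this
    linarith only [hz1, hsz, this]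
  have hs1 : s ≤ 448 / 500 := by
    by_contra h
    push Not at h
    have : (448 / 500) ^ 2 < s ^ 2 := pow_lt_pow_left₀ h (by norm_num) (by norm_num)
    norm_num at this
    linarith only [hz0, hsz, this]
  have hs1' : s < 1 := by linarith only [hs1]
  set E := exp (-(2 * l)) with hE
  have hE0 : 0 < E := exp_pos _
  have hE2 : exp (2 * l) = 1 / E := by rw [hE, exp_neg]; simp
  have hzE : z ≤ E := by
    rw [hE2] at hzl
    rw [mul_one_div, div_le_one hE0] at hzl
    exact hzl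
  have hzE' : 1 - s ^ 2 ≤ E := by linarith only [hsz, hzE]
  have hE5 : 1 / 5 ≤ E := by linarith only [hz0, hzE]
  have hH := vH_pos hs hs1' hzE'
  -- the correction
  have hG' : -(2 * s * z * (1 - E) / ((1 + s) * vH s E)) + z * (2 * l) / (s * (1 + s) ^ 2) ≤ G := by
    refine le_trans (le_of_eq ?_) hG
    rw [hE2]
    have e1 : z * (1 / E - 1) = z * (1 - E) / E := by (clear * - hE0 hz0; field_simp)
    have e2 : 2 * s ^ 2 * (1 + s) - z * (1 - E) / E * (1 + 2 * s) = vH s E / E := by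
      unfold vH; rw [← hz']; (clear * - hE0; field_simp)
    rw [e1, e2]
    have h1 : 1 + s ≠ 0 := by positivity
    have h2 := hH.ne'
    generalize vH s E = H at *
    (clear * - h2 hE0 h1 hz0 hs; field_simp)
  have hc0 : 0 ≤ c := by
    have : 1 / (2 * m) ≤ 1 := by rw [div_le_one (by positivity)]; linarith only [hm]
    linarith only [hc1, this]
  have hL : vL E ≤ 2 * l := by
    have := fv_log_ge (E := E) ⟨hE0, by linarith only [hE1]⟩
    rw [hE, log_exp, neg_neg] at this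
    refine le_trans (le_of_eq ?_) this
    unfold vL vN vD
    rw [← hE]
  have hL0 := vL_nonneg hE0 (by linarith only [hE1])
  have hw27 : 27 * z ≤ m * z := mul_le_mul_of_nonneg_right hm hz.le
  have hut : u ≤ v0 s (1 - s ^ 2) E + v1 s (1 - s ^ 2) E * (m * z) := by
    have e : v0 s (1 - s ^ 2) E + v1 s (1 - s ^ 2) E * (m * z) =
        ((m + 1) * z + 1) / (2 * z) * ((E - z) / s ^ 2) - 1 := by
      rw [← hz']; unfold v0 v1; field_simp; ring
    rw [e]; linarith only [htail]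
  have hu75 : u ≤ 3 / 2 := by
    have : u * (357 / 500) ≤ u * s := mul_le_mul_of_nonneg_left hs0 hu
    linarith only [hus, this]
  have he0 := e_ge (c := c) hm hz hs0 hs1 hsz hw hl hE5 hE1 hzE hu hus hc1 hc2
    (N := log (1 + u) - u) rfl
  -- monotonicity in `λ`
  have hmono : ∀ tp c4 t2 t21 kF : ℝ, 0 ≤ tp → tp ≤ 1 / 4 →
      Phi tp c4 t2 t21 kF s z E (vL E) (m * z) u ≤
      Phi tp c4 t2 t21 kF s z E (2 * l) (m * z) u := by
    intro tp c4 t2 t21 kF htp htp4
    refine Phi_mono hL0 hL ?_ ?_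
    · have h1 := K_nonneg hz0 hw
      have h2 : 0 ≤ z / (s * (1 + s) ^ 2) := by (clear * - hz0 hs; positivity)
      have h3 : z / s ^ 2 ≤ 1 := by
        rw [div_le_one (by positivity)]; linarith only [hz1, hsz]
      have h4 : tp * (1 / 29 * (z / s ^ 2)) ≤ 1 / 4 * (1 / 29 * 1) :=
        mul_le_mul htp4 (by linarith only [h3]) (by positivity) (by norm_num)
      have h5 : 3 / 25 * (m * z + 3 * z) * u ≤ 3 / 25 * (m * z + 3 * z) * (3 / 2) :=
        mul_le_mul_of_nonneg_left hu75 (by positivity)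
      have h6 : (m * z + 3 * z) * (3 / 4) ≤ (m * z + 3 * z) * (1 - tp) :=
        mul_le_mul_of_nonneg_left (by linarith only [htp4]) (by positivity)
      linarith only [hw, hz, h1, h2, h4, h5, h6]
    · have := c2_nonneg hs0 hs1 hw (by rw [← hz']; exact hw27)
      rw [← hz'] at this
      exact this
  rcases le_total s (426 / 500) with hsA | hsB
  · have hz272 : 34 / 125 ≤ z := by nlinarith only [hsz, hs0, hsA]
    have hcap3 := hcap' hz272
    obtain ⟨t, ht⟩ : ∃ t : ℝ, 0 ≤ Phi (1 / 5) (16 / 5) (t ^ 2) (2 * t - t ^ 2) (3091 / 1755) s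
        (1 - s ^ 2) E (vL E) (m * z) u := by
      rcases le_total s (409 / 500) with h | h
      · exact Phi_pos1 hs0 h hE5 hE1 hzE' hw (by rw [← hz']; exact hw27) hcap3 hu hus hut
      · exact Phi_pos2 (by linarith only [h]) hsA hE5 hE1 hzE' hw hcap3 hu hus hut
    rw [← hz'] at ht
    have h1 := hmono (1 / 5) (16 / 5) (t ^ 2) (2 * t - t ^ 2) (3091 / 1755) (by norm_num)
      (by norm_num)
    have h2 := F_ge (tp := 1 / 5) (kF := 3091 / 1755) (t := t) (c := c) (u := u) (l := l)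
      (N := log (1 + u) - u) (G := G) hm hz hs hs1' hsz hl.le hzl hu hus hc1 hc2 hc3
      rfl hG' (by norm_num) (by norm_num) (by norm_num)
    have e4 : (4 * (1 - 1 / 5) : ℝ) = 16 / 5 := by norm_num
    rw [e4, ← hE] at h2
    have hUp : (1 - 1 / 5) * dpE m z s l u c (log (1 + u) - u) ≤ 1 / 5 * dpR m (z / s ^ 2) := by
      refine e_le hm hz hs hsz hl hu hus hc1 hc2 hc3 rfl (by norm_num) ?_
      rw [← hE]
      have atp : (xk 1 5).R s E = 1 / 5 := by rw [xk_R _ _ _ _ (by norm_num)]; norm_num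
      have e0 : (xz - Ex.Y).R s E ≤ 0 := by rw [Ex.R_sub, Ex.R_Y, xz_R]; linarith only [hsz, hzE]
      have aC : (xk 354 100).R s E ≤ m * z * E := by
        rw [xk_R _ _ _ _ (by norm_num)]; push_cast; linarith only [hcap3]
      refine eU_ge hs hE0 atp (by norm_num) ?_
      rcases le_total s (409 / 500) with h | h
      · obtain ⟨i, hi⟩ := tchkE_sound e0 (.sy (.leaf 1) (.leaf 0)) 357 409 500 10 37 50
          (by norm_num) (by norm_num) (by (clear * -; norm_num)) (by norm_num) kcU1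
          (by push_cast; linarith only [hs0]) (by push_cast; linarith only [h]) (by push_cast; linarith only [hz0, hzE])
          (by push_cast; linarith only [hE1])
        match i with
        | 0 =>
          left
          refine ⟨xk 27 1 * xz, hi, ?_⟩
          rw [Ex.R_mul, xz_R, xk_R _ _ _ _ le_rfl, ← hz']; push_cast; linarith only [hw27]
        | 1 => right; exact ⟨_, hi, aC⟩
        | (n + 2) => exact (out_false hi (by simp only [List.length_cons, List.length_nil, zero_add, Nat.reduceAdd, le_add_iff_nonneg_left, zero_le])).elim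
      · obtain ⟨i, hi⟩ := tchkE_sound e0 (.sy (.leaf 1) (.leaf 0)) 408 426 500 10 37 50
          (by norm_num) (by norm_num) (by norm_num) (by norm_num) kcU2
          (by push_cast; linarith only [h]) (by push_cast; linarith only [hsA]) (by push_cast; linarith only [hzE, hz272])
          (by push_cast; linarith only [hE1])
        match i with
        | 0 =>
          left
          refine ⟨xk 9 1, hi, ?_⟩
          rw [xk_R _ _ _ _ le_rfl]; push_cast; linarith only [hw]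
        | 1 => right; exact ⟨_, hi, aC⟩
        | (n + 2) => exact (out_false hi (by simp only [List.length_cons, List.length_nil, zero_add, Nat.reduceAdd, le_add_iff_nonneg_left, zero_le])).elim
    exact jt_N hm hz hs hc0 hc2 hN he0 (tp := 1 / 5) (by norm_num) (by norm_num) hUp (by linarith only [ht, h1, h2])
  · obtain ⟨t, ht⟩ := Phi_pos3 hsB hs1 hE5 hE1 hzE' hw hcap hu hus hut
    rw [← hz'] at ht
    have h1 := hmono (3 / 13) (40 / 13) (t ^ 2) (2 * t - t ^ 2) (199 / 117) (by norm_num)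
      (by norm_num)
    have h2 := F_ge (tp := 3 / 13) (kF := 199 / 117) (t := t) (c := c) (u := u) (l := l)
      (N := log (1 + u) - u) (G := G) hm hz hs hs1' hsz hl.le hzl hu hus hc1 hc2 hc3
      rfl hG' (by norm_num) (by norm_num) (by norm_num)
    have e4 : (4 * (1 - 3 / 13) : ℝ) = 40 / 13 := by norm_num
    rw [e4, ← hE] at h2
    have hUp : (1 - 3 / 13) * dpE m z s l u c (log (1 + u) - u) ≤
        3 / 13 * dpR m (z / s ^ 2) := by
      refine e_le hm hz hs hsz hl hu hus hc1 hc2 hc3 rfl (by norm_num) ?_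
      rw [← hE]
      have atp : (xk 3 13).R s E = 3 / 13 := by rw [xk_R _ _ _ _ (by norm_num)]; norm_num
      have e0 : (xz - Ex.Y).R s E ≤ 0 := by rw [Ex.R_sub, Ex.R_Y, xz_R]; linarith only [hsz, hzE]
      have aC : (xk 33 10).R s E ≤ m * z * E := by
        rw [xk_R _ _ _ _ (by norm_num)]; push_cast; linarith only [hcap]
      refine eU_ge hs hE0 atp (by norm_num) ?_
      obtain ⟨i, hi⟩ := tchkE_sound e0 (.sy (.leaf 1) (.leaf 0)) 426 448 500 10 37 50
          (by norm_num) (by norm_num) (by norm_num) (by norm_num) kcU3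
          (by push_cast; linarith only [hsB]) (by push_cast; linarith only [hs1]) (by push_cast; linarith only [hz0, hzE])
          (by push_cast; linarith only [hE1])
      match i with
      | 0 =>
        left
        refine ⟨xk 9 1, hi, ?_⟩
        rw [xk_R _ _ _ _ le_rfl]; push_cast; linarith only [hw]
      | 1 => right; exact ⟨_, hi, aC⟩
      | (n + 2) => exact (out_false hi (by simp only [List.length_cons, List.length_nil, zero_add, Nat.reduceAdd, le_add_iff_nonneg_left, zero_le])).elim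
    exact jt_N hm hz hs hc0 hc2 hN he0 (tp := 3 / 13) (by norm_num) (by norm_num) hUp
      (by linarith only [ht, h1, h2])

end Vale.Agent.P237.AllN.Fxq

namespace Vale.Agent.P237.AllN

open Real

/-- **the region `X ≥ 3`, `u ≥ 0`, `1/5 ≤ z ≤ 49/100`, `0 < l`** -/
theorem fxq_region {m z s l u c G N : ℝ} (hm : 27 ≤ m) (hz0 : 1 / 5 ≤ z) (hz1 : z ≤ 49 / 100)
    (hs : 0 < s) (hsz : s ^ 2 = 1 - z) (hw : 9 ≤ m * z) (hl : 0 < l)
    (hzl : z * exp (2 * l) ≤ 1)
    (hcap : 33 / 10 ≤ m * z * exp (-(2 * l)))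
    (hcap' : 34 / 125 ≤ z → 354 / 100 ≤ m * z * exp (-(2 * l)))
    (hu : 0 ≤ u) (hus : u * s ≤ 1)
    (htail : 1 + u ≤ ((m + 1) * z + 1) / (2 * z) * ((exp (-(2 * l)) - z) / s ^ 2))
    (hc1 : 1 - 1 / (2 * m) ≤ c) (hc2 : c ≤ 1)
    (hc3 : c ^ 2 ≤ (m + 1) / (m + 2)) (hN : log (1 + u) - u ≤ N)
    (hG : 2 * (-(s * (z * (exp (2 * l) - 1)) / ((1 + s) * (2 * s ^ 2 * (1 + s) -
      z * (exp (2 * l) - 1) * (1 + 2 * s))))) + 2 * z / (s * (1 + s) ^ 2) * l ≤ G) :
    JTest (dpT m z s l u G N) (dpE m z s l u c N) (dpR m (z / s ^ 2)) u := by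
  rcases le_total l (151 / 1000) with h | h
  · exact fxqs_region hm hz0 hz1 hs hsz hw hl.le h hu hus hc1 hc2 hc3 hN hG
  · refine Fxq.fxq_large hm hz0 hz1 hs hsz hw hl ?_ hzl hcap hcap' hu hus htail hc1 hc2 hc3 hN hG
    have h1 : exp (-(2 * l)) ≤ exp (-(302 / 1000)) := exp_le_exp.2 (by linarith only [h])
    refine h1.trans ?_
    rw [exp_neg, inv_le_comm₀ (exp_pos _) (by norm_num)]
    have h2 := Real.quadratic_le_exp_of_nonneg (x := 302 / 1000) (by norm_num)
    have h3 := Real.sum_le_exp_of_nonneg (x := 302 / 1000) (by norm_num) 4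
    simp only [Finset.sum_range_succ, Finset.sum_range_zero, Nat.factorial] at h3
    norm_num at h3 ⊢
    linarith only [h3]

end Vale.Agent.P237.AllN
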