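import Vale.Agent.P237.AllN.FAllR
import Vale.Agent.P237.AllN.FAllS
import Vale.Agent.P237.AllN.FAllU
import Vale.Agent.P237.AllN.FxqW

/-!
# P237, block D (`m ≥ 27`): the one-dimensional statement
-/

open Set

namespace Vale.Agent.P237.AllN

open Alm

/-- the far region -/
theorem farTest {m : ℕ} (hm : 27 ≤ m) : FarTest m := by
  intro r τ τ' T hr h hN x hx h9 hl
  have hm' : (27 : ℝ) ≤ m := by exact_mod_cast hm
  have hm0 : (0 : ℝ) < m := by linarith
  rcases le_total (49 / 100) (x ^ 2) with hz | hz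
  · exact h.jt_far_big hm hr hx hz hl
  rcases le_total (uf τ τ' x) 0 with hu | hu
  · exact h.jt_far_neg hm hr hN hx h9 hz hl hu
  rcases le_total (x ^ 2) (1 / 5) with hz5 | hz5
  · exact h.jt_far_pos_small hm hr hN hx h9 hz5 hl hu
  have F := h.ffacts (by omega) hr hx
  obtain ⟨hc1, -, hc3⟩ := h.fx_cap hm hr hN hx h9
  exact fxq_region hm' hz5 hz F.s0 F.hs h9 hl F.le.le hc1 hc3 hu F.us
    (h.fx_tail (by omega) hr hx) F.c0 F.c1 F.c2 (fa_N_ge hm0) (h.jG_ge2 hx)

/-- **block D**: `OneDF m 1` for every `m ≥ 27` -/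
theorem oneDF_D {m : ℕ} (hm : 27 ≤ m) : OneDF m 1 :=
  oneDF_of_far hm (farTest hm)

end Vale.Agent.P237.AllN
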