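import Vale.Agent.P237.AllN.PcCorr2

/-!
# P237, block D (`m ≥ 25`), `0 ≤ l`, `√m x ≤ 3`: the correction term

`2(g₀(x e^l) - g₀(x)) + 2 z l/(s(1+s)²) ≥ -(2/s) y (2/5 + 13z/20 + 22z³/5) l²`.
-/

open Real

namespace Vale.Agent.P237.AllN

open Corr PolyPos

/-- the inequality of the corner, scaled -/
def fcQ : List ℤ := padd (psm (43 ^ 2 * 2 * 693 * 8000) (pmul (padd [40] (padd (psm 65 cz)
    (psm 440 (ppow cz 3)))) (pmul (ppow [1, 1] 2) (ppow [193, 500] 2))))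
  (padd (psm (-(2727 ^ 2 * 500 * 500 * 2000)) (pmul (pmul cz [693, 1000]) (ppow cs 2)))
    (psm (-(1007 * 693 * 4000000)) (pmul (ppow cs 2) (ppow [193, 500] 2))))

set_option maxRecDepth 100000 in
theorem fcQ_nonneg {s : ℝ} (h0 : 8000 ≤ 10000 * s) (h1 : 10000 * s < 8075) : 0 ≤ ev1 fcQ s :=
  auto1_sound (n := 8) (A := 8000) (B := 8075) (D := 10000) (by norm_num) (by decide +kernel)
    (by push_cast; exact h0) (by push_cast; linarith)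

/-- the corner `7/20 ≤ x² ≤ 9/25`, `l ≤ 43/100` -/
theorem fcor_corner {x l : ℝ} (hx0 : 0 < x) (hz1 : 7 / 20 ≤ x ^ 2) (hz2 : x ^ 2 ≤ 9 / 25)
    (hl : 0 < l) (hl1 : l ≤ 43 / 100) (h1 : x * exp l ≤ 1) :
    -((2 / 5 + 13 * x ^ 2 / 20 + 22 * (x ^ 2) ^ 3 / 5) * (x ^ 2 / sq x ^ 2)) * l ^ 2 ≤
      sq x * (bg (x * exp l) - bg x) + x ^ 2 * l / (1 + sq x) ^ 2 := by
  have hx1 : x < 1 := by nlinarith only [hz2]
  obtain ⟨a1, a2, a3, a4, a5⟩ := sq_facts hx0 hx1 h1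
  rw [Fc_bg hx0 hx1, neg_mul]
  have hE : exp (2 * (43 / 100 : ℝ)) ≤ 23635 / 10000 := by
    have e1 : exp (2 * (43 / 100 : ℝ)) = exp (43 / 100) ^ 2 := by
      rw [← exp_nat_mul]; norm_num
    have e2 : exp (43 / 100 : ℝ) ≤ 15373 / 10000 := by
      have := exp_le_p (x := 43 / 100) (by norm_num) (by norm_num)
      refine this.trans ?_
      norm_num
    rw [e1]
    calc exp (43 / 100 : ℝ) ^ 2 ≤ (15373 / 10000) ^ 2 := pow_le_pow_left₀ (exp_pos _).le e2 2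
      _ ≤ _ := by norm_num
  set s := sq x with hs
  have hs2 : s ^ 2 = 1 - x ^ 2 := by linarith only [a3]
  have hsl : 4 / 5 ≤ s := by nlinarith only [hz2, a3, a1]
  have hsu : s ≤ 807 / 1000 := by nlinarith only [hz1, a3]
  refine gen (a := 43 / 100) (σ := 386 / 1000) (E := 23635 / 10000) a1 a3 (by positivity)
    (by norm_num) a4 a5 hl hl1 hE ?_ ?_
  · nlinarith only [hz2]
  · set z := x ^ 2
    have hQ := fcQ_nonneg (s := s) (by linarith only [hsl]) (by linarith only [hsu])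
    have hz' : ev1 cz s = z := by rw [ev_cz, a3]
    rw [← sub_nonneg]
    have e : 2 * (2 / 5 + 13 * z / 20 + 22 * z ^ 3 / 5) * (1 + s) ^ 2 * (43 / 100) ^ 2 / s ^ 2 -
        ((23635 / 10000 - 1) ^ 2 * z * (1 + 2 * s + 386 / 1000) /
        ((386 / 1000 + s) ^ 2 * (1 + 386 / 1000)) + (23635 / 10000 - 1 - 2 * (43 / 100))) =
        ev1 fcQ s / (500 ^ 3 * 8000 * 10 ^ 6 * (s ^ 2 * ((386 / 1000 + s) ^ 2 * (1 + 386 / 1000))))
        := by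
      simp only [fcQ, ev1_padd, ev1_psm, ev1_pmul, ev1_cons, ev1_nil, hz', ev1_ppow, ev_cs]
      have h1 : (386 / 1000 + s) ≠ 0 := by positivity
      push_cast
      field_simp
      ring
    rw [e]
    (clear * - hQ a1; positivity)

/-- the bound on the box `√m x ≤ 3` -/
theorem fcor_le {x l : ℝ} (hx0 : 0 < x) (hz : x ^ 2 ≤ 9 / 25) (hl : 0 ≤ l)
    (hb : l ≤ 43 / 100 ∨ (x ^ 2 ≤ 9 / 40 ∧ l ≤ 19 / 40)) (h1 : x * exp l ≤ 1) :
    -((2 / 5 + 13 * x ^ 2 / 20 + 22 * (x ^ 2) ^ 3 / 5) * (x ^ 2 / sq x ^ 2)) * l ^ 2 ≤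
      sq x * (bg (x * exp l) - bg x) + x ^ 2 * l / (1 + sq x) ^ 2 := by
  have hx1 : x < 1 := by nlinarith only [hz]
  obtain ⟨a1, a2, a3, a4, a5⟩ := sq_facts hx0 hx1 h1
  have hs2 : sq x ^ 2 = 1 - x ^ 2 := by linarith only [a3]
  rcases hl.eq_or_lt with h | h
  · rw [← h]
    simp only [ne_eq, OfNat.ofNat_ne_zero, not_false_eq_true, zero_pow, mul_zero, exp_zero, mul_one, sub_self, zero_div, add_zero, Std.le_refl]
  · rcases hb with hb | ⟨hb1, hb2⟩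
    · rcases le_total (x ^ 2) (7 / 20) with hz1 | hz1
      · refine corr_A hx0 (by linarith only [hz1]) h1 ?_
        rw [hs2]
        nlinarith only [hb, hz1]
      · exact fcor_corner hx0 hz1 hz h hb h1
    · refine corr_A hx0 (by linarith only [hb1]) h1 ?_
      rw [hs2]
      nlinarith only [hb1, hb2]

/-- the form used for block D: `G` is the correction of `dpT` -/
theorem fcor_G {x l : ℝ} (hx0 : 0 < x) (hz : x ^ 2 ≤ 9 / 25) (hl : 0 ≤ l)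
    (hb : l ≤ 43 / 100 ∨ (x ^ 2 ≤ 9 / 40 ∧ l ≤ 19 / 40)) (h1 : x * exp l ≤ 1) :
    -(2 / sq x * ((2 / 5 + 13 * x ^ 2 / 20 + 22 * (x ^ 2) ^ 3 / 5) * (x ^ 2 / sq x ^ 2)) * l ^ 2) ≤
      2 * (bg (x * exp l) - bg x + x ^ 2 * l / (sq x * (1 + sq x) ^ 2)) := by
  have hx1 : x < 1 := by nlinarith only [hz]
  obtain ⟨a1, -⟩ := sq_facts hx0 hx1 h1
  have h := mul_le_mul_of_nonneg_left (fcor_le hx0 hz hl hb h1) (show 0 ≤ 2 / sq x by positivity)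
  have e : 2 / sq x * (sq x * (bg (x * exp l) - bg x) + x ^ 2 * l / (1 + sq x) ^ 2) =
      2 * (bg (x * exp l) - bg x + x ^ 2 * l / (sq x * (1 + sq x) ^ 2)) := by
    field_simp
  rw [e] at h
  refine le_trans (le_of_eq ?_) h
  ring

/-- the form for `m ≥ 27`: `x² ≤ 1/3`, `l ≤ 11/25` or `x² ≤ 9/40`, `l ≤ 19/40` -/
theorem fcor_G' {x l : ℝ} (hx0 : 0 < x) (hl : 0 ≤ l)
    (hb : (x ^ 2 ≤ 1 / 3 ∧ l ≤ 11 / 25) ∨ (x ^ 2 ≤ 9 / 40 ∧ l ≤ 19 / 40)) (h1 : x * exp l ≤ 1) :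
    -(2 / sq x * ((2 / 5 + 13 * x ^ 2 / 20 + 22 * (x ^ 2) ^ 3 / 5) * (x ^ 2 / sq x ^ 2)) * l ^ 2) ≤
      2 * (bg (x * exp l) - bg x + x ^ 2 * l / (sq x * (1 + sq x) ^ 2)) := by
  have hx1 : x < 1 := by rcases hb with ⟨h, -⟩ | ⟨h, -⟩ <;> nlinarith only [h]
  have hle : -((2 / 5 + 13 * x ^ 2 / 20 + 22 * (x ^ 2) ^ 3 / 5) * (x ^ 2 / sq x ^ 2)) * l ^ 2 ≤
      sq x * (bg (x * exp l) - bg x) + x ^ 2 * l / (1 + sq x) ^ 2 := by
    obtain ⟨a1, a2, a3, a4, a5⟩ := sq_facts hx0 hx1 h1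
    have hs2 : sq x ^ 2 = 1 - x ^ 2 := by linarith only [a3]
    rcases hb with ⟨hb1, hb2⟩ | ⟨hb1, hb2⟩
    · refine corr_A hx0 (by linarith only [hb1]) h1 ?_
      rw [hs2]
      nlinarith only [hb1, hb2]
    · refine corr_A hx0 (by linarith only [hb1]) h1 ?_
      rw [hs2]
      nlinarith only [hb1, hb2]
  obtain ⟨a1, -⟩ := sq_facts hx0 hx1 h1
  have h := mul_le_mul_of_nonneg_left hle (show 0 ≤ 2 / sq x by positivity)
  have e : 2 / sq x * (sq x * (bg (x * exp l) - bg x) + x ^ 2 * l / (1 + sq x) ^ 2) =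
      2 * (bg (x * exp l) - bg x + x ^ 2 * l / (sq x * (1 + sq x) ^ 2)) := by
    (clear * - a1; field_simp)
  rw [e] at h
  refine le_trans (le_of_eq ?_) h
  ring

end Vale.Agent.P237.AllN
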