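import Vale.Agent.P237.AllN.FPosDef

/-!
# P237, block D: the pointwise test in the form used by the bridge, with its strict part

`JTest T e ρ u`: `0 < ρ + e`, `e² ≤ T (ρ + e)`, strict if `u ≠ 0`.
-/

namespace Vale.Agent.P237.AllN

/-- the pointwise test used by the bridge -/
def JTest (T e ρ u : ℝ) : Prop :=
  0 < ρ + e ∧ e ^ 2 ≤ T * (ρ + e) ∧ (u ≠ 0 → e ^ 2 < T * (ρ + e))

/-- `T` for `l ≤ 0` (log lines, potential `3 z (1+z) l²/s`) -/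
noncomputable def dmT (m z s l u G N : ℝ) : ℝ :=
  (m + 3) * z * (Real.exp (-(2 * l)) - 1 + 2 * l) +
  3 * (z ^ 3 / s ^ 3) * ((m - 3) * (z / s ^ 2) - 7) * l ^ 2 +
  (4 / s - 4 * s / (1 + s) - 2 * s ^ 2 + 4 * s ^ 2 * Real.exp (-(2 * l)) - 6 * (z / s ^ 3) * l) *
    (u ^ 2 / (1 + u)) +
  6 * (z * (1 + z) / s) * l * u + G + 2 * (m + 1) / ((m - 1) * s) * N

/-- from the nonstrict form: it is enough that `T` can be lowered a little when `u ≠ 0` -/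
theorem JTest.of_le {T T' e ρ u : ℝ} (hρ : 0 < ρ) (h1 : 0 ≤ ρ + e) (h2 : e ^ 2 ≤ T' * (ρ + e))
    (hT : T' ≤ T) (hs : u ≠ 0 → T' < T) : JTest T e ρ u := by
  have h3 : 0 < ρ + e := by
    rcases h1.lt_or_eq with h | h
    · exact h
    · exfalso
      rw [← h, mul_zero] at h2
      have : e = 0 := by nlinarith
      rw [this, add_zero] at h
      exact hρ.ne h
  exact ⟨h3, h2.trans (mul_le_mul_of_nonneg_right hT h1), fun hu =>
    h2.trans_lt (mul_lt_mul_of_pos_right (hs hu) h3)⟩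

/-- from the nonstrict form for `T - ε W`, `W = u²/(1+u)` -/
theorem JTest.of_sub {T e ρ u ε : ℝ} (hρ : 0 < ρ) (hu : 0 < 1 + u) (hε : 0 < ε)
    (h1 : 0 ≤ ρ + e) (h2 : e ^ 2 ≤ (T - ε * (u ^ 2 / (1 + u))) * (ρ + e)) : JTest T e ρ u := by
  refine JTest.of_le hρ h1 h2 ?_ fun h0 => ?_
  · have : 0 ≤ ε * (u ^ 2 / (1 + u)) := by positivity
    linarith
  · have h3 : 0 < u ^ 2 := by positivity
    have : 0 < ε * (u ^ 2 / (1 + u)) := by positivity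
    linarith

/-- `dp_jtest` with a factor `θ < 1`: also strict when `0 < T₀` -/
theorem JTest.of_bounds {T T0 e ρ P E θ u : ℝ} (hT : T0 ≤ T) (hT0 : 0 ≤ T0)
    (hu : u ≠ 0 → 0 < T0) (hθ : θ < 1)
    (hP : e - T ≤ P) (hP0 : 0 ≤ P) (hPρ : P < ρ) (h1 : P ^ 2 ≤ θ * (T0 * (ρ - P)))
    (hE : -E ≤ e) (hE0 : 0 ≤ E) (hEρ : E < ρ) (h2 : E ^ 2 ≤ θ * (T0 * (ρ - E))) :
    JTest T e ρ u := by
  have g1 : 0 ≤ T0 * (ρ - P) := mul_nonneg hT0 (by linarith)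
  have g2 : 0 ≤ T0 * (ρ - E) := mul_nonneg hT0 (by linarith)
  have k1 : P ^ 2 ≤ T0 * (ρ - P) := h1.trans (mul_le_of_le_one_left g1 hθ.le)
  have k2 : E ^ 2 ≤ T0 * (ρ - E) := h2.trans (mul_le_of_le_one_left g2 hθ.le)
  obtain ⟨-, h3, h4⟩ := dp_jtest hT hT0 hP hP0 hPρ.le k1 hE hE0 hEρ.le k2
  refine ⟨by linarith, h4, fun hu0 => ?_⟩
  have hT0' := hu hu0
  have hT' : 0 < T := hT0'.trans_le hT
  have g1' : 0 < T0 * (ρ - P) := mul_pos hT0' (by linarith)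
  have g2' : 0 < T0 * (ρ - E) := mul_pos hT0' (by linarith)
  have l1 : P ^ 2 < T * (ρ - P) :=
    (h1.trans_lt (mul_lt_of_lt_one_left g1' hθ)).trans_le
      (mul_le_mul_of_nonneg_right hT (by linarith))
  have l2 : E ^ 2 < T * (ρ - E) :=
    (h2.trans_lt (mul_lt_of_lt_one_left g2' hθ)).trans_le
      (mul_le_mul_of_nonneg_right hT (by linarith))
  rcases le_total 0 e with he | he
  · have key : T * (ρ + e) - e ^ 2 = T * (ρ - (e - T)) - (e - T) ^ 2 := by ring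
    rcases le_total 0 (e - T) with hp | hp
    · have h5 : (e - T) ^ 2 ≤ P ^ 2 := pow_le_pow_left₀ hp hP 2
      have h6 : T * (ρ - P) ≤ T * (ρ - (e - T)) :=
        mul_le_mul_of_nonneg_left (by linarith) hT'.le
      linarith
    · have key2 : T * (ρ + e) - e ^ 2 = T * ρ + (T - e) * e := by ring
      have h5 : 0 < T * ρ := mul_pos hT' (hP0.trans_lt hPρ)
      have h6 : 0 ≤ (T - e) * e := mul_nonneg (by linarith) he
      linarith
  · have h5 : e ^ 2 ≤ E ^ 2 := by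
      have : (-e) ^ 2 ≤ E ^ 2 := pow_le_pow_left₀ (by linarith) (by linarith) 2
      simpa using this
    have h6 : T * (ρ - E) ≤ T * (ρ + e) := mul_le_mul_of_nonneg_left (by linarith) hT'.le
    linarith

/-- form with constants: `P, E ≤ θ ρ`, `P², E² ≤ θ1 ρ T₀`, `θ + θ1 < 1` -/
theorem JTest.of_theta {T T0 e ρ P E θ θ1 u : ℝ} (hT : T0 ≤ T) (hT0 : 0 ≤ T0)
    (hu : u ≠ 0 → 0 < T0) (hρ : 0 < ρ) (hθ1 : 0 ≤ θ1) (hθ : θ + θ1 < 1)
    (hP : e - T ≤ P) (hP0 : 0 ≤ P) (hPρ : P ≤ θ * ρ) (h1 : P ^ 2 ≤ θ1 * (ρ * T0))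
    (hE : -E ≤ e) (hE0 : 0 ≤ E) (hEρ : E ≤ θ * ρ) (h2 : E ^ 2 ≤ θ1 * (ρ * T0)) :
    JTest T e ρ u := by
  have h1θ : 0 < 1 - θ := by linarith
  have hθρ : θ * ρ < ρ := by nlinarith
  have hlt : θ1 / (1 - θ) < 1 := by rw [div_lt_one h1θ]; linarith
  have key : ∀ X : ℝ, X ≤ θ * ρ → X ^ 2 ≤ θ1 * (ρ * T0) →
      X ^ 2 ≤ θ1 / (1 - θ) * (T0 * (ρ - X)) := by
    intro X hX hX2
    have e1 : θ1 * (ρ * T0) = θ1 / (1 - θ) * (T0 * ((1 - θ) * ρ)) := by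
      field_simp
    have e2 : θ1 / (1 - θ) * (T0 * ((1 - θ) * ρ)) ≤ θ1 / (1 - θ) * (T0 * (ρ - X)) := by
      apply mul_le_mul_of_nonneg_left _ (by positivity)
      apply mul_le_mul_of_nonneg_left _ hT0
      linarith
    linarith
  exact JTest.of_bounds hT hT0 hu hlt hP hP0 (hPρ.trans_lt hθρ) (key P hPρ h1) hE hE0
    (hEρ.trans_lt hθρ) (key E hEρ h2)

end Vale.Agent.P237.AllN
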