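import Vale.Agent.P237.AllN.PolyArith

/-!
# P237, all dimensions: the correction term `s (g₀(x e^l) - g₀(x)) + (1-s)/(1+s) l` (input (h8))
-/

set_option linter.all false

namespace Vale.Agent.P237.AllN.Corr

open PolyPos Real

/-! ## exponential bounds -/

theorem exp_le_quad {x : ℝ} (hx : x ≤ 0) : exp x ≤ 1 + x + x ^ 2 / 2 := by
  have h1 := Real.quadratic_le_exp_of_nonneg (x := -x) (by linarith only [hx])
  have h2 : exp x * exp (-x) = 1 := by rw [← exp_add]; simp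
  have h3 : 0 < exp x := exp_pos x
  have h4 : exp x * (1 + -x + (-x) ^ 2 / 2) ≤ 1 := by
    have := mul_le_mul_of_nonneg_left h1 h3.le
    rwa [h2] at this
  have h5 : 0 < 1 + x + x ^ 2 / 2 := by nlinarith only []
  by_contra h
  push Not at h
  have h6 : (1 + x + x ^ 2 / 2) * (1 + -x + (-x) ^ 2 / 2) <
      exp x * (1 + -x + (-x) ^ 2 / 2) := mul_lt_mul_of_pos_right h (by nlinarith only [])
  nlinarith only [h4, h6]

theorem slope_mono {l a : ℝ} (hl : 0 < l) (hla : l ≤ a) :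
    exp (2 * l) - 1 ≤ l / a * (exp (2 * a) - 1) := by
  have ha : 0 < a := hl.trans_le hla
  have hc := convexOn_exp
  have h := hc.2 (Set.mem_univ (2 * a)) (Set.mem_univ (0 : ℝ)) (show (0 : ℝ) ≤ l / a by (clear * - hl ha; positivity))
    (show (0 : ℝ) ≤ 1 - l / a by rw [sub_nonneg, div_le_one ha]; exact hla) (by ring)
  simp only [smul_eq_mul, exp_zero, mul_one, mul_zero, add_zero] at h
  have e : l / a * (2 * a) = 2 * l := by (clear * - ha hl; field_simp)
  rw [e] at h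
  linarith only [h]

/-- `(x-2)e^x + x + 2 ≥ 0` -/
theorem aux_nonneg {x : ℝ} (hx : 0 ≤ x) : 0 ≤ (x - 2) * exp x + x + 2 := by
  have hd : ∀ y : ℝ, HasDerivAt (fun x : ℝ => (x - 2) * exp x + x + 2)
      ((y - 1) * exp y + 1) y := by
    intro y
    have h1 := (((hasDerivAt_id y).sub_const 2).mul (Real.hasDerivAt_exp y)).add (hasDerivAt_id y)
    refine (h1.add_const 2).congr_deriv ?_
    simp only [id]
    ring
  have hpos : ∀ y : ℝ, 0 ≤ y → 0 ≤ (y - 1) * exp y + 1 := by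
    intro y hy
    have h1 : exp y * exp (-y) = 1 := by rw [← exp_add]; simp only [add_neg_cancel, exp_zero]
    have h2 : 1 - y ≤ exp (-y) := by linarith only [add_one_le_exp (-y)]
    nlinarith only [h1, h2, exp_pos y]
  have hm : MonotoneOn (fun x : ℝ => (x - 2) * exp x + x + 2) (Set.Ici 0) := by
    refine monotoneOn_of_deriv_nonneg (convex_Ici 0) ?_ ?_ ?_
    · exact fun y _ => (hd y).continuousAt.continuousWithinAt
    · exact fun y _ => (hd y).differentiableAt.differentiableWithinAt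
    · intro y hy
      rw [interior_Ici] at hy
      rw [(hd y).deriv]
      exact hpos y (le_of_lt hy)
  have h := hm (Set.mem_Ici.2 le_rfl) (Set.mem_Ici.2 hx) hx
  simp only [zero_sub, exp_zero, mul_one, add_zero] at h
  linarith

theorem quad_mono' {x y : ℝ} (hx : 0 < x) (hxy : x ≤ y) :
    (exp x - 1 - x) / x ^ 2 ≤ (exp y - 1 - y) / y ^ 2 := by
  have hd : ∀ z : ℝ, 0 < z → HasDerivAt (fun x : ℝ => (exp x - 1 - x) / x ^ 2)
      (((z - 2) * exp z + z + 2) / z ^ 3) z := by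
    intro z hz
    have h1 := (((Real.hasDerivAt_exp z).sub_const 1).sub (hasDerivAt_id z)).div
      (hasDerivAt_pow 2 z) (by positivity)
    refine h1.congr_deriv ?_
    simp only [Pi.sub_apply, id]
    field_simp
    push_cast
    ring_nf
  have hm : MonotoneOn (fun x : ℝ => (exp x - 1 - x) / x ^ 2) (Set.Ioi 0) := by
    refine monotoneOn_of_deriv_nonneg (convex_Ioi 0) ?_ ?_ ?_
    · exact fun y hy => (hd y hy).continuousAt.continuousWithinAt
    · intro y hy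
      rw [interior_Ioi] at hy
      exact (hd y hy).differentiableAt.differentiableWithinAt
    · intro y hy
      rw [interior_Ioi] at hy
      rw [(hd y hy).deriv]
      have := aux_nonneg (x := y) (le_of_lt hy)
      have hy' : (0 : ℝ) < y := hy
      (clear * - this hy'; positivity)
  exact hm (Set.mem_Ioi.2 hx) (Set.mem_Ioi.2 (hx.trans_le hxy)) hxy

theorem quad_mono {l a : ℝ} (hl : 0 < l) (hla : l ≤ a) :
    exp (2 * l) - 1 - 2 * l ≤ (l / a) ^ 2 * (exp (2 * a) - 1 - 2 * a) := by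
  have ha : 0 < a := hl.trans_le hla
  have h := quad_mono' (x := 2 * l) (y := 2 * a) (by (clear * - hl; positivity)) (by linarith)
  rw [div_le_div_iff₀ (by positivity) (by positivity)] at h
  have h2 : 0 < a ^ 2 := by positivity
  rw [div_pow, div_mul_eq_mul_div, le_div_iff₀ h2]
  linarith

/-! ## the algebraic identity -/

/-- the correction term -/
noncomputable def Fc (s sig l : ℝ) : ℝ :=
  s * (sig / (1 + sig) - s / (1 + s)) + (1 - s) / (1 + s) * l

theorem Fc_eq {s sig l z e : ℝ} (hs : 0 < s) (hsig : 0 ≤ sig) (hz : z = 1 - s ^ 2)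
    (he : sig ^ 2 = 1 - z * e) :
    Fc s sig l = z / (1 + s) ^ 2 * (-((e - 1) ^ 2 * z * (1 + 2 * s + sig) /
      (2 * (sig + s) ^ 2 * (1 + sig)) + (e - 1 - 2 * l) / 2)) := by
  have h1 : z * (e - 1) = s ^ 2 - sig ^ 2 := by rw [he, hz]; ring
  have h2 : z * ((e - 1) ^ 2 * z * (1 + 2 * s + sig) / (2 * (sig + s) ^ 2 * (1 + sig))) =
      (s - sig) ^ 2 * (1 + 2 * s + sig) / (2 * (1 + sig)) := by
    have h3 : z * ((e - 1) ^ 2 * z * (1 + 2 * s + sig)) =
        (sig + s) ^ 2 * ((s - sig) ^ 2 * (1 + 2 * s + sig)) := by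
      have h4 : (z * (e - 1)) ^ 2 = (s ^ 2 - sig ^ 2) ^ 2 := by rw [h1]
      linear_combination (1 + 2 * s + sig) * h4
    rw [← mul_div_assoc, h3]
    have h5 : (sig + s) ≠ 0 := by (clear * - hsig hs; positivity)
    field_simp
  have h6 : z / (1 + s) ^ 2 * (-((e - 1) ^ 2 * z * (1 + 2 * s + sig) /
      (2 * (sig + s) ^ 2 * (1 + sig)) + (e - 1 - 2 * l) / 2)) =
      (-((s - sig) ^ 2 * (1 + 2 * s + sig) / (2 * (1 + sig))) - (s ^ 2 - sig ^ 2) / 2 + z * l) /
        (1 + s) ^ 2 := by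
    rw [← h2, ← h1]
    ring
  rw [h6, Fc, hz]
  field_simp
  ring

/-- reduction of the bound to an inequality for `e = exp (2 l)` -/
theorem Fc_ge {s sig l z e C : ℝ} (hs : 0 < s) (hsig : 0 ≤ sig) (hz : z = 1 - s ^ 2) (hz0 : 0 ≤ z)
    (he : sig ^ 2 = 1 - z * e)
    (h : (e - 1) ^ 2 * z * (1 + 2 * s + sig) / (2 * (sig + s) ^ 2 * (1 + sig)) +
      (e - 1 - 2 * l) / 2 ≤ C * (1 + s) ^ 2 / s ^ 2 * l ^ 2) :
    -(C * (z / s ^ 2) * l ^ 2) ≤ Fc s sig l := by
  rw [Fc_eq hs hsig hz he]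
  have h1 : C * (z / s ^ 2) * l ^ 2 = z / (1 + s) ^ 2 * (C * (1 + s) ^ 2 / s ^ 2 * l ^ 2) := by
    field_simp
  rw [h1, ← mul_neg]
  exact mul_le_mul_of_nonneg_left (neg_le_neg h) (by (clear * - hz0 hs; positivity))

theorem K_anti {s σ sig : ℝ} (hs : 0 < s) (hσ : 0 ≤ σ) (h : σ ≤ sig) :
    (1 + 2 * s + sig) / ((sig + s) ^ 2 * (1 + sig)) ≤ (1 + 2 * s + σ) / ((σ + s) ^ 2 * (1 + σ)) := by
  have hsig : 0 ≤ sig := hσ.trans h
  rw [div_le_div_iff₀ (by positivity) (by (clear * - hσ hs; positivity))]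
  have h1 : (1 + 2 * s + sig) * (1 + σ) ≤ (1 + 2 * s + σ) * (1 + sig) := by (clear * - hs h; nlinarith)
  have h2 : (σ + s) ^ 2 ≤ (sig + s) ^ 2 := by
    apply pow_le_pow_left₀ (by positivity); linarith only [h]
  calc (1 + 2 * s + sig) * ((σ + s) ^ 2 * (1 + σ)) = (σ + s) ^ 2 * ((1 + 2 * s + sig) * (1 + σ)) := by
        ring
    _ ≤ (sig + s) ^ 2 * ((1 + 2 * s + σ) * (1 + sig)) :=
        mul_le_mul h2 h1 (by positivity) (by positivity)
    _ = _ := by ring

/-- **the general lemma for `l > 0`** -/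
theorem gen {s sig l a σ E C z : ℝ} (hs : 0 < s) (hz : z = 1 - s ^ 2) (hz0 : 0 ≤ z) (hσ : 0 ≤ σ)
    (hsig : 0 ≤ sig) (he : sig ^ 2 = 1 - z * exp (2 * l)) (hl : 0 < l) (hla : l ≤ a)
    (hE : exp (2 * a) ≤ E) (hσE : σ ^ 2 ≤ 1 - z * E)
    (hst : (E - 1) ^ 2 * z * (1 + 2 * s + σ) / ((σ + s) ^ 2 * (1 + σ)) + (E - 1 - 2 * a) ≤
      2 * C * (1 + s) ^ 2 * a ^ 2 / s ^ 2) :
    -(C * (z / s ^ 2) * l ^ 2) ≤ Fc s sig l := by
  refine Fc_ge hs hsig hz hz0 he ?_
  have ha : 0 < a := hl.trans_le hla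
  have h1 := slope_mono hl hla
  have h2 := quad_mono hl hla
  have hla' : 0 < l / a := by (clear * - hl ha; positivity)
  have he1 : 0 ≤ exp (2 * l) - 1 := by
    have := add_one_le_exp (2 * l); linarith only [hl, this]
  have h3 : exp (2 * l) - 1 ≤ l / a * (E - 1) :=
    h1.trans (mul_le_mul_of_nonneg_left (by linarith only [hE]) hla'.le)
  have h4 : exp (2 * l) - 1 - 2 * l ≤ (l / a) ^ 2 * (E - 1 - 2 * a) :=
    h2.trans (mul_le_mul_of_nonneg_left (by linarith only [hE]) (by (clear * - hl ha; positivity)))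
  have h5 : σ ≤ sig := by
    have : exp (2 * l) ≤ E := (exp_le_exp.2 (by linarith only [hla])).trans hE
    have h6 : σ ^ 2 ≤ sig ^ 2 := by
      rw [he]
      have := mul_le_mul_of_nonneg_left this hz0
      linarith only [hσE, this]
    exact (sq_le_sq₀ hσ hsig).1 h6
  have h7 := K_anti hs hσ h5
  have h8 : (exp (2 * l) - 1) ^ 2 ≤ (l / a) ^ 2 * (E - 1) ^ 2 := by
    rw [← mul_pow]
    exact pow_le_pow_left₀ he1 h3 2
  set K := (1 + 2 * s + σ) / ((σ + s) ^ 2 * (1 + σ)) with hK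
  have hK0 : 0 ≤ K := by (clear * - hs hσ; positivity)
  have h9 : (exp (2 * l) - 1) ^ 2 * z * (1 + 2 * s + sig) / (2 * (sig + s) ^ 2 * (1 + sig)) ≤
      (l / a) ^ 2 * (E - 1) ^ 2 * z * K / 2 := by
    have e1 : (exp (2 * l) - 1) ^ 2 * z * (1 + 2 * s + sig) / (2 * (sig + s) ^ 2 * (1 + sig)) =
        (exp (2 * l) - 1) ^ 2 * z * ((1 + 2 * s + sig) / ((sig + s) ^ 2 * (1 + sig))) / 2 := by
      have : (sig + s) ≠ 0 := by positivity
      (clear * - hsig this hs; field_simp)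
    rw [e1]
    apply div_le_div_of_nonneg_right _ (by norm_num)
    exact mul_le_mul (mul_le_mul_of_nonneg_right h8 hz0) h7 (by (clear * - hs hsig; positivity)) (by (clear * - hl ha hz0; positivity))
  have h10 : (E - 1) ^ 2 * z * K + (E - 1 - 2 * a) ≤ 2 * C * (1 + s) ^ 2 * a ^ 2 / s ^ 2 := by
    rw [hK, ← mul_div_assoc]
    exact hst
  calc (exp (2 * l) - 1) ^ 2 * z * (1 + 2 * s + sig) / (2 * (sig + s) ^ 2 * (1 + sig)) +
        (exp (2 * l) - 1 - 2 * l) / 2 ≤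
        (l / a) ^ 2 * (E - 1) ^ 2 * z * K / 2 + (l / a) ^ 2 * (E - 1 - 2 * a) / 2 := by linarith only [h4, h9]
    _ = (l / a) ^ 2 / 2 * ((E - 1) ^ 2 * z * K + (E - 1 - 2 * a)) := by ring
    _ ≤ (l / a) ^ 2 / 2 * (2 * C * (1 + s) ^ 2 * a ^ 2 / s ^ 2) :=
        mul_le_mul_of_nonneg_left h10 (by (clear * - hl ha; positivity))
    _ = C * (1 + s) ^ 2 / s ^ 2 * l ^ 2 := by (clear * - ha hs hl; field_simp)

/-- the case `l ≤ 0` -/
theorem neg_case {s sig l C z : ℝ} (hs : 0 < s) (hz : z = 1 - s ^ 2) (hz0 : 0 ≤ z)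
    (hsig : 0 ≤ sig) (he : sig ^ 2 = 1 - z * exp (2 * l)) (hl : l ≤ 0)
    (hC : 1 + 2 * s - s ^ 2 ≤ 2 * C * (1 + s) ^ 2) :
    -(C * (z / s ^ 2) * l ^ 2) ≤ Fc s sig l := by
  refine Fc_ge hs hsig hz hz0 he ?_
  have h1 := exp_le_quad (x := 2 * l) (by linarith only [hl])
  have h2 := add_one_le_exp (2 * l)
  have h3 : exp (2 * l) ≤ 1 := exp_le_one_iff.2 (by linarith only [hl])
  have h4 : (exp (2 * l) - 1) ^ 2 ≤ 4 * l ^ 2 := by nlinarith only [h2, h3]
  have h5 : s ≤ sig := by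
    have h6 : s ^ 2 ≤ sig ^ 2 := by
      rw [he]
      have := mul_le_mul_of_nonneg_left h3 hz0
      linarith only [hz, this]
    exact (sq_le_sq₀ hs.le hsig).1 h6
  have h7 := K_anti hs hs.le h5
  have h9 : (exp (2 * l) - 1) ^ 2 * z * (1 + 2 * s + sig) / (2 * (sig + s) ^ 2 * (1 + sig)) ≤
      4 * l ^ 2 * z * ((1 + 2 * s + s) / ((s + s) ^ 2 * (1 + s))) / 2 := by
    have e1 : (exp (2 * l) - 1) ^ 2 * z * (1 + 2 * s + sig) / (2 * (sig + s) ^ 2 * (1 + sig)) =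
        (exp (2 * l) - 1) ^ 2 * z * ((1 + 2 * s + sig) / ((sig + s) ^ 2 * (1 + sig))) / 2 := by
      have : (sig + s) ≠ 0 := by (clear * - hsig hs; positivity)
      field_simp
    rw [e1]
    apply div_le_div_of_nonneg_right _ (by norm_num)
    exact mul_le_mul (mul_le_mul_of_nonneg_right h4 hz0) h7 (by (clear * - hs hsig; positivity)) (by (clear * - hz0; positivity))
  have h10 : 4 * l ^ 2 * z * ((1 + 2 * s + s) / ((s + s) ^ 2 * (1 + s))) / 2 + l ^ 2 =
      l ^ 2 * ((1 + 2 * s - s ^ 2) / (2 * s ^ 2)) := by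
    rw [hz]
    field_simp
    ring
  have h11 : (1 + 2 * s - s ^ 2) / (2 * s ^ 2) ≤ C * (1 + s) ^ 2 / s ^ 2 := by
    rw [div_le_div_iff₀ (by positivity) (by (clear * - hs; positivity))]
    nlinarith only [hC]
  calc (exp (2 * l) - 1) ^ 2 * z * (1 + 2 * s + sig) / (2 * (sig + s) ^ 2 * (1 + sig)) +
        (exp (2 * l) - 1 - 2 * l) / 2 ≤
        4 * l ^ 2 * z * ((1 + 2 * s + s) / ((s + s) ^ 2 * (1 + s))) / 2 + l ^ 2 := by
        linarith
    _ = l ^ 2 * ((1 + 2 * s - s ^ 2) / (2 * s ^ 2)) := h10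
    _ ≤ l ^ 2 * (C * (1 + s) ^ 2 / s ^ 2) := mul_le_mul_of_nonneg_left h11 (sq_nonneg _)
    _ = C * (1 + s) ^ 2 / s ^ 2 * l ^ 2 := by ring

/-! ## the three ranges -/

/-- `1 + x + ... + x^5/120 + 7x^6/4320` -/
theorem exp_le_p {x : ℝ} (h0 : 0 ≤ x) (h1 : x ≤ 1) :
    exp x ≤ 1 + x + x ^ 2 / 2 + x ^ 3 / 6 + x ^ 4 / 24 + x ^ 5 / 120 + 7 * x ^ 6 / 4320 := by
  have h := Real.exp_bound' h0 h1 (n := 6) (by norm_num)
  simp only [Finset.sum_range_succ, Finset.sum_range_zero, Nat.factorial] at h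
  norm_num at h
  linarith

/-- `z = 1 - s²` -/
def cz : List ℤ := [1, 0, -1]

/-- `s` -/
def cs : List ℤ := [0, 1]

/-- `50 L` -/
def cL : List ℤ := [0, 0, 38, 0, -7]

/-- `10^6 V` -/
def cV : List ℤ := padd [1858941] (padd (psm (-892501) cz) (padd (psm (-43649) (ppow cz 2))
  (psm 82095 (ppow cz 3))))

/-- `V - p(L)` scaled by `4320 * 50^6 * 10^6` -/
def cE : List ℤ := padd (psm (4320 * 50 ^ 6) cV) (psm (-(10 ^ 6)) (padd (psm (4320 * 50 ^ 6) [1])
  (padd (psm (4320 * 50 ^ 5) cL) (padd (psm (2160 * 50 ^ 4) (ppow cL 2)) (padd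
  (psm (720 * 50 ^ 3) (ppow cL 3)) (padd (psm (180 * 50 ^ 2) (ppow cL 4)) (padd
  (psm (36 * 50) (ppow cL 5)) (psm 7 (ppow cL 6)))))))))

set_option maxRecDepth 100000 in
theorem cE_nonneg {s : ℝ} (h0 : 7559 ≤ 10000 * s) (h1 : s < 1) : 0 ≤ ev1 cE s :=
  auto1_sound (n := 8) (A := 7559) (B := 10000) (D := 10000) (by norm_num) (by (clear * -; decide +kernel))
    (by push_cast; exact h0) (by push_cast; linarith)

/-- `10^5 σ` on `[.7559, .8]` -/
def cSA : List ℤ := [-2225944, 7931027, -9565493, 3988041]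

/-- `10^5 σ` on `[.8, 1]` -/
def cSB : List ℤ := [-330277, 876987, -810552, 363828]

/-- `1 - z V² - σ²`, scaled by `10^22` -/
def cQ (p : List ℤ) : List ℤ := padd [10 ^ 22] (padd (psm (-(10 ^ 10)) (pmul cz (ppow cV 2)))
  (psm (-(10 ^ 12)) (ppow p 2)))

/-- the final inequality of (A) -/
def cG (p : List ℤ) : List ℤ :=
  padd (psm (2 * 10 ^ 24) (pmul (pmul (padd [40] (padd (psm 65 cz) (psm 440 (ppow cz 3))))
      (pmul (ppow [1, 1] 2) (ppow cL 2))) (pmul (ppow (padd p [0, 10 ^ 5]) 2) (padd p [10 ^ 5]))))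
    (padd (psm (-(250000 * 10 ^ 10)) (pmul (ppow (padd (ppow cV 2) [-(10 ^ 12)]) 2)
      (pmul (pmul cz (ppow cs 2)) (padd [10 ^ 5, 2 * 10 ^ 5] p))))
    (psm (-(10000 * 10 ^ 12)) (pmul (padd (psm 25 (ppow cV 2)) (padd [-(25 * 10 ^ 12)]
      (psm (-(10 ^ 12)) cL))) (pmul (ppow cs 2) (pmul (ppow (padd p [0, 10 ^ 5]) 2)
        (padd p [10 ^ 5]))))))

set_option maxRecDepth 100000 in
theorem cSA_nonneg {s : ℝ} (h0 : 7559 ≤ 10000 * s) (h1 : 10000 * s < 8000) : 0 ≤ ev1 cSA s :=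
  auto1_sound (n := 8) (A := 7559) (B := 8000) (D := 10000) (by norm_num) (by (clear * -; decide +kernel))
    (by push_cast; exact h0) (by push_cast; linarith only [h1])

set_option maxRecDepth 100000 in
theorem cSB_nonneg {s : ℝ} (h0 : 8000 ≤ 10000 * s) (h1 : s < 1) : 0 ≤ ev1 cSB s :=
  auto1_sound (n := 8) (A := 8000) (B := 10000) (D := 10000) (by norm_num) (by (clear * -; decide +kernel))
    (by push_cast; exact h0) (by push_cast; linarith)

set_option maxRecDepth 100000 in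
theorem cQA_nonneg {s : ℝ} (h0 : 7559 ≤ 10000 * s) (h1 : 10000 * s < 8000) : 0 ≤ ev1 (cQ cSA) s :=
  auto1_sound (n := 8) (A := 7559) (B := 8000) (D := 10000) (by norm_num) (by (clear * -; decide +kernel))
    (by push_cast; exact h0) (by push_cast; linarith only [h1])

set_option maxRecDepth 100000 in
theorem cQB_nonneg {s : ℝ} (h0 : 8000 ≤ 10000 * s) (h1 : s < 1) : 0 ≤ ev1 (cQ cSB) s :=
  auto1_sound (n := 8) (A := 8000) (B := 10000) (D := 10000) (by norm_num) (by (clear * -; decide +kernel))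
    (by push_cast; exact h0) (by push_cast; linarith)

set_option maxRecDepth 100000 in
theorem cGA_nonneg {s : ℝ} (h0 : 7559 ≤ 10000 * s) (h1 : 10000 * s < 8000) : 0 ≤ ev1 (cG cSA) s :=
  auto1_sound (n := 8) (A := 7559) (B := 8000) (D := 10000) (by norm_num) (by (clear * -; decide +kernel))
    (by push_cast; exact h0) (by push_cast; linarith only [h1])

set_option maxRecDepth 100000 in
theorem cGB_nonneg {s : ℝ} (h0 : 8000 ≤ 10000 * s) (h1 : s < 1) : 0 ≤ ev1 (cG cSB) s :=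
  auto1_sound (n := 8) (A := 8000) (B := 10000) (D := 10000) (by norm_num) (by (clear * -; decide +kernel))
    (by push_cast; exact h0) (by push_cast; linarith only [h1])

/-- `15 D^4 + 5 t² D² + 3 t^4`, `D = 2 - s²`, `t = s²` -/
def cN : List ℤ := padd (psm 15 (ppow [2, 0, -1] 4)) (padd (psm 5 (pmul (ppow [0, 0, 1] 2)
  (ppow [2, 0, -1] 2))) (psm 3 (ppow [0, 0, 1] 4)))

/-- the final inequality of (B) -/
def cB : List ℤ := padd (pmul [1, -1] (padd (psm 15 (pmul (ppow [2, 0, -1] 5) cN))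
  (psm 2 (pmul (ppow [1, 1] 2) (ppow cN 2))))) (psm (-225) (ppow [2, 0, -1] 10))

set_option maxRecDepth 100000 in
theorem cB_nonneg {s : ℝ} (h0 : 0 ≤ s) (h1 : 10000 * s < 7560) : 0 ≤ ev1 cB s :=
  auto1_sound (n := 10) (A := 0) (B := 7560) (D := 10000) (by norm_num) (by (clear * -; decide +kernel))
    (by push_cast; linarith only [h0]) (by push_cast; linarith only [h1])

/-- `τ² + z` times `(16-14t)²` -/
def cS : List ℤ := padd (ppow [16, 0, -15] 2) (pmul cz (ppow [16, 0, -14] 2))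

/-- the final inequality of (C) with `σ = 7 s / 20`, scaled by `20^3` -/
def cC : List ℤ := padd (psm 3 (pmul (pmul (ppow [1, 1] 2) cz) (pmul (ppow [16, 0, -14] 4)
    (psm (27 ^ 2) [20, 7])))) (padd (psm (-(20 ^ 2)) (pmul [20, 47] (ppow cS 2)))
    (psm (-1) (pmul (pmul [0, 0, 1] (ppow [16, 0, -14] 2)) (pmul cS (psm (27 ^ 2) [20, 7])))))

set_option maxRecDepth 100000 in
theorem cC_nonneg {s : ℝ} (h0 : 0 ≤ s) (h1 : 10000 * s < 7560) : 0 ≤ ev1 cC s :=
  auto1_sound (n := 10) (A := 0) (B := 7560) (D := 10000) (by norm_num) (by (clear * -; decide +kernel))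
    (by push_cast; linarith only [h0]) (by push_cast; linarith)

theorem ev_cz (s : ℝ) : ev1 cz s = 1 - s ^ 2 := by
  simp only [cz, ev1_cons, ev1_nil]; push_cast; ring

theorem ev_cs (s : ℝ) : ev1 cs s = s := by
  simp only [cs, ev1_cons, ev1_nil]; push_cast; ring

/-- (A), the case `l > 0`, for a given lower bound `p` of `sig` -/
theorem corrA_pos {s sig l z : ℝ} {p : List ℤ} (hs : 7559 ≤ 10000 * s) (hs1 : s < 1)
    (hz : z = 1 - s ^ 2)
    (hp : 0 ≤ ev1 p s) (hQ : 0 ≤ ev1 (cQ p) s) (hG : 0 ≤ ev1 (cG p) s)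
    (hsig : 0 ≤ sig) (he : sig ^ 2 = 1 - z * exp (2 * l)) (hl0 : 0 < l)
    (hl : l ≤ (1 - z) * (31 / 50 + 7 / 50 * z)) :
    -((2 / 5 + 13 * z / 20 + 22 * z ^ 3 / 5) * (z / s ^ 2) * l ^ 2) ≤ Fc s sig l := by
  have hs0 : 0 < s := by linarith only [hs]
  have hz0 : 0 ≤ z := by rw [hz]; nlinarith only [hs1, hs]
  set a : ℝ := (1 - z) * (31 / 50 + 7 / 50 * z) with ha
  have ha0 : 0 < a := hl0.trans_le hl
  have ha1 : a ≤ 1 := by
    rw [ha, hz]
    nlinarith only [hz, hz0]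
  have hL : ev1 cL s = 50 * a := by
    simp only [cL, ev1_cons, ev1_nil, ha, hz]; push_cast; ring
  obtain ⟨V, hV⟩ : ∃ V, ev1 cV s = 10 ^ 6 * V := ⟨ev1 cV s / 10 ^ 6, by ring⟩
  obtain ⟨σ, hσ⟩ : ∃ σ, ev1 p s = 10 ^ 5 * σ := ⟨ev1 p s / 10 ^ 5, by ring⟩
  have hσ0 : 0 ≤ σ := by rw [hσ] at hp; linarith only [hp]
  have hz' : ev1 cz s = z := by rw [ev_cz, hz]
  have hE := cE_nonneg hs hs1
  have hpV : 1 + a + a ^ 2 / 2 + a ^ 3 / 6 + a ^ 4 / 24 + a ^ 5 / 120 + 7 * a ^ 6 / 4320 ≤ V := by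
    have e : ev1 cE s = (4320 * 50 ^ 6 * 10 ^ 6) * (V - (1 + a + a ^ 2 / 2 + a ^ 3 / 6 +
        a ^ 4 / 24 + a ^ 5 / 120 + 7 * a ^ 6 / 4320)) := by
      simp only [cE, ev1_padd, ev1_psm, ev1_ppow, ev1_cons, ev1_nil, hL, hV]
      push_cast
      ring
    rw [e] at hE
    linarith only [hE]
  have hexp : exp a ≤ V := (exp_le_p ha0.le ha1).trans hpV
  have hV1 : 1 ≤ V := by linarith only [hl0, hl, hexp, add_one_le_exp a]
  have hexp2 : exp (2 * a) ≤ V ^ 2 := by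
    have e : exp (2 * a) = exp a ^ 2 := by rw [← exp_nat_mul]; norm_num
    rw [e]
    exact pow_le_pow_left₀ (exp_pos a).le hexp 2
  have hσ2 : σ ^ 2 ≤ 1 - z * V ^ 2 := by
    have e : ev1 (cQ p) s = 10 ^ 22 * (1 - z * V ^ 2 - σ ^ 2) := by
      simp only [cQ, ev1_padd, ev1_cons, ev1_nil, ev1_psm, ev1_pmul, hz', ev1_ppow, hV, hσ]
      push_cast
      ring
    rw [e] at hQ
    linarith only [hQ]
  refine gen hs0 hz hz0 hσ0 hsig he hl0 hl hexp2 hσ2 ?_
  have hG' : 0 ≤ 2 * ((2 / 5 + 13 * z / 20 + 22 * z ^ 3 / 5)) * (1 + s) ^ 2 * a ^ 2 *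
      ((σ + s) ^ 2 * (1 + σ)) - (V ^ 2 - 1) ^ 2 * z * s ^ 2 * (1 + 2 * s + σ) -
      (V ^ 2 - 1 - 2 * a) * s ^ 2 * ((σ + s) ^ 2 * (1 + σ)) := by
    have e : ev1 (cG p) s = (250000 * 10 ^ 24 * 10 ^ 15) *
      (2 * ((2 / 5 + 13 * z / 20 + 22 * z ^ 3 / 5)) * (1 + s) ^ 2 * a ^ 2 *
      ((σ + s) ^ 2 * (1 + σ)) - (V ^ 2 - 1) ^ 2 * z * s ^ 2 * (1 + 2 * s + σ) -
      (V ^ 2 - 1 - 2 * a) * s ^ 2 * ((σ + s) ^ 2 * (1 + σ))) := by
      simp only [cG, ev1_padd, ev1_psm, ev1_ppow, ev1_pmul, ev1_cons, ev1_nil, hV, hσ, hz', hL,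
        ev_cs]
      push_cast
      ring
    rw [e] at hG
    exact nonneg_of_mul_nonneg_right hG (by norm_num)
  have hden : 0 < (σ + s) ^ 2 * (1 + σ) := by (clear * - hσ0 hs0; positivity)
  rw [← sub_nonneg]
  have e : 2 * (2 / 5 + 13 * z / 20 + 22 * z ^ 3 / 5) * (1 + s) ^ 2 * a ^ 2 / s ^ 2 -
      ((V ^ 2 - 1) ^ 2 * z * (1 + 2 * s + σ) / ((σ + s) ^ 2 * (1 + σ)) + (V ^ 2 - 1 - 2 * a)) =
      (2 * ((2 / 5 + 13 * z / 20 + 22 * z ^ 3 / 5)) * (1 + s) ^ 2 * a ^ 2 *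
      ((σ + s) ^ 2 * (1 + σ)) - (V ^ 2 - 1) ^ 2 * z * s ^ 2 * (1 + 2 * s + σ) -
      (V ^ 2 - 1 - 2 * a) * s ^ 2 * ((σ + s) ^ 2 * (1 + σ))) /
        (s ^ 2 * ((σ + s) ^ 2 * (1 + σ))) := by
    have h1 : (σ + s) ≠ 0 := by (clear * - hσ0 hs0; positivity)
    have h2 : (1 + σ) ≠ 0 := by (clear * - hσ0; positivity)
    field_simp
    ring
  rw [e]
  (clear * - hG' hs0 hσ0; positivity)

/-- **(A)** -/
theorem corrA {s sig l z : ℝ} (hs0 : 0 < s) (hs1 : s < 1) (hz : z = 1 - s ^ 2) (hz1 : z ≤ 3 / 7)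
    (hsig : 0 ≤ sig) (he : sig ^ 2 = 1 - z * exp (2 * l))
    (hl : l ≤ (1 - z) * (31 / 50 + 7 / 50 * z)) :
    -((2 / 5 + 13 * z / 20 + 22 * z ^ 3 / 5) * (z / s ^ 2) * l ^ 2) ≤ Fc s sig l := by
  have hz0 : 0 ≤ z := by rw [hz]; (clear * - hs1 hs0; nlinarith)
  have hs : 7559 ≤ 10000 * s := by
    by_contra h
    push Not at h
    nlinarith only [hz, hz1, h, hs0]
  rcases le_or_gt l 0 with h | h
  · refine neg_case hs0 hz hz0 hsig he h ?_
    have : 0 ≤ z ^ 3 := by (clear * - hz0; positivity)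
    nlinarith only [hs, mul_nonneg (by positivity : 0 ≤ 13 * z / 20 + 22 * z ^ 3 / 5) (sq_nonneg (1 + s))]
  · rcases lt_or_ge (10000 * s) 8000 with h8 | h8
    · exact corrA_pos hs hs1 hz (cSA_nonneg hs h8) (cQA_nonneg hs h8) (cGA_nonneg hs h8) hsig he h hl
    · exact corrA_pos hs hs1 hz (cSB_nonneg h8 hs1) (cQB_nonneg h8 hs1) (cGB_nonneg h8 hs1) hsig he
        h hl

/-- `log` lower bound: `w + w³/3 + w⁵/5 ≤ (1/2) log ((1+w)/(1-w))` -/
theorem half_log_ge {w : ℝ} (h0 : 0 ≤ w) (h1 : w < 1) :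
    w + w ^ 3 / 3 + w ^ 5 / 5 ≤ log ((1 + w) / (1 - w)) / 2 := by
  have hs := Real.hasSum_log_sub_log_of_abs_lt_one (x := w) (by rw [abs_of_nonneg h0]; exact h1)
  have h := hs.summable.sum_le_tsum (Finset.range 3) (fun i _ => by (clear * - h0; positivity))
  rw [hs.tsum_eq] at h
  simp only [Finset.sum_range_succ, Finset.sum_range_zero] at h
  norm_num at h
  rw [Real.log_div (by linarith only [h0]) (by linarith only [h1])]
  linarith

/-- **(B)** -/
theorem corrB {s sig l z : ℝ} (hs0 : 0 < s) (hs1 : s < 1) (hz : z = 1 - s ^ 2) (hz1 : 3 / 7 ≤ z)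
    (hsig : 0 ≤ sig) (he : sig ^ 2 = 1 - z * exp (2 * l)) :
    -(2 * (z / s ^ 2) * l ^ 2) ≤ Fc s sig l := by
  have hz0 : 0 < z := by linarith
  rcases le_or_gt l 0 with h | h
  · refine neg_case hs0 hz hz0.le hsig he h ?_
    nlinarith only []
  · have hs756 : 10000 * s < 7560 := by
      by_contra h'
      push Not at h'
      nlinarith only [hz, hz1, h']
    set t : ℝ := s ^ 2 with ht
    have ht0 : 0 < t := by positivity
    have ht1 : t < 1 := by linarith only [hz0, hz]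
    set a : ℝ := -log z / 2 with ha
    have hea : exp (2 * a) = 1 / z := by
      rw [ha, show 2 * (-log z / 2) = -log z by ring, exp_neg, exp_log hz0, one_div]
    have hla : l ≤ a := by
      have h1 : z * exp (2 * l) ≤ 1 := by nlinarith only [he]
      have h2 : exp (2 * l) ≤ exp (2 * a) := by
        rw [hea, le_div_iff₀ hz0]; linarith only [h1]
      have := exp_le_exp.1 h2
      linarith only [this]
    have ha0 : 0 < a := h.trans_le hla
    refine gen hs0 hz hz0.le le_rfl hsig he h hla hea.le (by field_simp; norm_num) ?_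
    -- lower bound for `a`
    set w : ℝ := t / (2 - t) with hw
    have h2t : 0 < 2 - t := by linarith only [hz0, hz]
    have hw0 : 0 ≤ w := by (clear * - hs0 h2t; positivity)
    have hw1 : w < 1 := by rw [hw, div_lt_one h2t]; linarith only [hz0, hz]
    have haw : w + w ^ 3 / 3 + w ^ 5 / 5 ≤ a := by
      have h1 := half_log_ge hw0 hw1
      have h2 : (1 + w) / (1 - w) = z⁻¹ := by
        have : 1 - t = z := hz.symm
        rw [hw]
        have h3 : (1 + t / (2 - t)) = 2 / (2 - t) := by field_simp; ring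
        have h4 : (1 - t / (2 - t)) = 2 * (1 - t) / (2 - t) := by field_simp; ring
        rw [h3, h4, this]
        field_simp
      rw [h2, log_inv] at h1
      exact h1
    have hN : 0 ≤ ev1 cB s := cB_nonneg hs0.le hs756
    set b : ℝ := w + w ^ 3 / 3 + w ^ 5 / 5 with hb
    have hb0 : 0 ≤ b := by (clear * - hs0 h2t; positivity)
    have key : 2 * t / (1 - s) ≤ 2 * b + 4 * (1 + s) ^ 2 * b ^ 2 / t := by
      have h1s : 0 < 1 - s := by linarith only [hs1]
      set Nn : ℝ := 15 * (2 - t) ^ 4 + 5 * t ^ 2 * (2 - t) ^ 2 + 3 * t ^ 4 with hNn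
      have e1 : b = t * Nn / (15 * (2 - t) ^ 5) := by
        rw [hb, hw, hNn]
        field_simp
        ring
      have e2 : ev1 cB s = (1 - s) * (15 * (2 - t) ^ 5 * Nn + 2 * (1 + s) ^ 2 * Nn ^ 2) -
          225 * (2 - t) ^ 10 := by
        simp only [cB, cN, ev1_padd, ev1_pmul, ev1_cons, ev1_nil, ev1_psm, ev1_ppow, ht, hNn]
        push_cast
        ring
      rw [e2] at hN
      rw [e1, ← sub_nonneg]
      have e3 : 2 * (t * Nn / (15 * (2 - t) ^ 5)) + 4 * (1 + s) ^ 2 *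
          (t * Nn / (15 * (2 - t) ^ 5)) ^ 2 / t - 2 * t / (1 - s) =
          2 * t * ((1 - s) * (15 * (2 - t) ^ 5 * Nn + 2 * (1 + s) ^ 2 * Nn ^ 2) -
          225 * (2 - t) ^ 10) / (225 * (2 - t) ^ 10 * (1 - s)) := by
        field_simp
        ring
      rw [e3]
      (clear * - hs0 hN h2t hs1; positivity)
    have hab : 2 * b + 4 * (1 + s) ^ 2 * b ^ 2 / t ≤ 2 * a + 4 * (1 + s) ^ 2 * a ^ 2 / t := by
      have : b ^ 2 ≤ a ^ 2 := pow_le_pow_left₀ hb0 haw 2
      have h3 : 4 * (1 + s) ^ 2 * b ^ 2 / t ≤ 4 * (1 + s) ^ 2 * a ^ 2 / t := by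
        apply div_le_div_of_nonneg_right _ ht0.le
        exact mul_le_mul_of_nonneg_left this (by positivity)
      (clear * - haw h3; linarith)
    have e4 : (1 / z - 1) ^ 2 * z * (1 + 2 * s + 0) / ((0 + s) ^ 2 * (1 + 0)) +
        (1 / z - 1 - 2 * a) = 2 * t / (1 - s) - 2 * a := by
      have h1 : (1 - s) ≠ 0 := by linarith only [hs1]
      have h2 : (1 + s) ≠ 0 := by linarith only [hs0]
      have hz2 : z = (1 - s) * (1 + s) := by rw [hz, ht]; ring
      rw [hz2, ht]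
      field_simp
      ring
    rw [e4]
    have e5 : 2 * (2:ℝ) * (1 + s) ^ 2 * a ^ 2 / t = 4 * (1 + s) ^ 2 * a ^ 2 / t := by ring
    rw [e5]
    linarith only [key, hab]

/-- **(C)** -/
theorem corrC {s sig l z : ℝ} (hs0 : 0 < s) (hs1 : s < 1) (hz : z = 1 - s ^ 2) (hz1 : 3 / 7 ≤ z)
    (hsig : 0 ≤ sig) (he : sig ^ 2 = 1 - z * exp (2 * l))
    (hτ : (1 + s ^ 2 / (16 - 15 * s ^ 2)) ^ 2 * (z * exp (2 * l)) ≤ 1) :
    -(3 / 2 * (z / s ^ 2) * l ^ 2) ≤ Fc s sig l := by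
  have hz0 : 0 < z := by linarith only [hz1]
  rcases le_or_gt l 0 with h | h
  · refine neg_case hs0 hz hz0.le hsig he h ?_
    nlinarith only []
  · have hs756 : 10000 * s < 7560 := by
      by_contra h'
      push Not at h'
      nlinarith only [hz, hz1, h']
    set t : ℝ := s ^ 2 with ht
    have ht0 : 0 < t := by positivity
    have ht1 : t ≤ 4 / 7 := by linarith only [hz1, hz]
    have hn1 : 0 < 16 - 15 * t := by linarith only [hz0, hz]
    have hd1 : 0 < 16 - 14 * t := by linarith only [hz0, hz]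
    set τ : ℝ := (16 - 15 * t) / (16 - 14 * t) with hτd
    have hτ0 : 0 < τ := by (clear * - hn1 hd1; positivity)
    have hinv : 1 + t / (16 - 15 * t) = τ⁻¹ := by
      rw [hτd, inv_div, eq_div_iff hn1.ne', add_mul, div_mul_cancel₀ _ hn1.ne']
      ring
    rw [hinv] at hτ
    have hE1 : exp (2 * l) ≤ τ ^ 2 / z := by
      rw [le_div_iff₀ hz0]
      have := mul_le_mul_of_nonneg_left hτ (by (clear * - hn1 hd1; positivity) : 0 ≤ τ ^ 2)
      have e : τ ^ 2 * (τ⁻¹ ^ 2 * (z * exp (2 * l))) = z * exp (2 * l) := by (clear * - hτ0 hz1; field_simp)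
      rw [e] at this
      linarith only [this]
    set E : ℝ := τ ^ 2 / z with hE
    have hEl : 1 < exp (2 * l) := by
      have := add_one_lt_exp (show 2 * l ≠ 0 by (clear * - h; positivity))
      linarith only [h, this]
    have hE0 : 1 < E := hEl.trans_le hE1
    set a : ℝ := log E / 2 with ha
    have hea : exp (2 * a) = E := by
      rw [ha, show 2 * (log E / 2) = log E by ring, exp_log (by linarith only [hE1, hEl])]
    have hla : l ≤ a := by
      have h2 : exp (2 * l) ≤ exp (2 * a) := by rw [hea]; exact hE1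
      have := exp_le_exp.1 h2
      linarith only [this]
    have ha0 : 0 < a := h.trans_le hla
    have hσ : (7 / 20 * s) ^ 2 ≤ 1 - z * E := by
      rw [hE, mul_div_cancel₀ _ hz0.ne', hτd, div_pow, le_sub_iff_add_le, ← le_sub_iff_add_le',
        div_le_iff₀ (by (clear * - hd1; positivity))]
      rw [mul_pow, ← ht]
      nlinarith only [ht0, mul_nonneg (mul_nonneg ht0.le ht0.le) (sub_nonneg.2 ht1)]
    refine gen hs0 hz hz0.le (by positivity) hsig he h hla hea.le hσ ?_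
    set w : ℝ := (E - 1) / (E + 1) with hw
    have hw0 : 0 < w := by
      have : 0 < E - 1 := by linarith only [hE1, hEl]
      (clear * - hE0 hn1 hd1 hz1; positivity)
    have hw1 : w < 1 := by rw [hw, div_lt_one (by linarith only [hE1, hEl])]; linarith only []
    have haw : w ≤ a := by
      have h1 := half_log_ge hw0.le hw1
      have h2 : (1 + w) / (1 - w) = E := by
        have h3 : 1 + w = 2 * E / (E + 1) := by rw [hw]; field_simp; ring
        have h4 : 1 - w = 2 / (E + 1) := by rw [hw]; field_simp; ring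
        rw [h3, h4]
        (clear * - hE0; field_simp)
      rw [h2] at h1
      have : 0 ≤ w ^ 3 / 3 + w ^ 5 / 5 := by (clear * - hE0 hn1 hd1 hz1; positivity)
      rw [ha]; linarith only [h1, this]
    have hN : 0 ≤ ev1 cC s := cC_nonneg hs0.le hs756
    -- main inequality
    have hD : (16 - 14 * t) ^ 2 * (τ ^ 2 + z) = (16 - 15 * t) ^ 2 + z * (16 - 14 * t) ^ 2 := by
      rw [hτd]; (clear * - hd1 hz1; field_simp)
    set T : ℝ := τ ^ 2 + z with hT
    have hT0 : 0 < T := by (clear * - hn1 hd1 hz1; positivity)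
    have key : (1 + (2 + 7 / 20) * s) / ((27 / 20) ^ 2 * (1 + 7 / 20 * s)) + t / T ≤
        3 * (1 + s) ^ 2 * z / T ^ 2 := by
      have e2 : ev1 cC s = 20 ^ 3 * (16 - 14 * t) ^ 4 * (3 * (1 + s) ^ 2 * z * ((27 / 20) ^ 2 *
          (1 + 7 / 20 * s)) - (1 + (2 + 7 / 20) * s) * T ^ 2 - t * T * ((27 / 20) ^ 2 *
          (1 + 7 / 20 * s))) := by
        have e3 : ev1 cS s = (16 - 14 * t) ^ 2 * T := by
          rw [hD]
          simp only [cS, ev1_padd, ev1_ppow, ev1_cons, ev1_nil, ev1_pmul, ev_cz, ht, hz]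
          push_cast
          ring
        simp only [cC, ev1_padd, ev1_psm, ev1_ppow, ev1_pmul, ev1_cons, ev1_nil, e3, ev_cz]
        rw [← hz]
        push_cast
        ring
      rw [e2] at hN
      have h3 := nonneg_of_mul_nonneg_right hN (by (clear * - hd1; positivity))
      rw [← sub_nonneg]
      have e3 : 3 * (1 + s) ^ 2 * z / T ^ 2 - ((1 + (2 + 7 / 20) * s) /
          ((27 / 20) ^ 2 * (1 + 7 / 20 * s)) + t / T) = (3 * (1 + s) ^ 2 * z * ((27 / 20) ^ 2 *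
          (1 + 7 / 20 * s)) - (1 + (2 + 7 / 20) * s) * T ^ 2 - t * T * ((27 / 20) ^ 2 *
          (1 + 7 / 20 * s))) / (T ^ 2 * ((27 / 20) ^ 2 * (1 + 7 / 20 * s))) := by
        field_simp
        ring
      rw [e3]
      (clear * - h3 hn1 hd1 hz1 hs0; positivity)
    have hEz : E = (T - z) / z := by rw [hE, hT]; ring
    have hE1z : E + 1 = T / z := by rw [hEz]; field_simp; ring
    have hwz : w = (E - 1) * z / T := by
      rw [hw, hE1z]; (clear * - hz1 hT0; field_simp)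
    have hmain : (E - 1) ^ 2 * z * (1 + 2 * s + 7 / 20 * s) / ((7 / 20 * s + s) ^ 2 *
        (1 + 7 / 20 * s)) + (E - 1 - 2 * w) ≤ 3 * (1 + s) ^ 2 * w ^ 2 / t := by
      have e1 : E - 1 - 2 * w = (E - 1) ^ 2 * z / T := by
        have : (E - 1) * (E + 1) - 2 * (E - 1) = (E - 1) ^ 2 := by ring
        rw [hwz]
        have h5 : T = z * (E + 1) := by rw [hE1z]; (clear * - hz1 hT0; field_simp)
        rw [h5]
        field_simp
        ring
      have e2 : (E - 1) ^ 2 * z * (1 + 2 * s + 7 / 20 * s) / ((7 / 20 * s + s) ^ 2 *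
        (1 + 7 / 20 * s)) = (E - 1) ^ 2 * z / t * ((1 + (2 + 7 / 20) * s) / ((27 / 20) ^ 2 *
          (1 + 7 / 20 * s))) := by
        rw [ht]
        field_simp
        ring
      have e3 : (E - 1) ^ 2 * z / T = (E - 1) ^ 2 * z / t * (t / T) := by (clear * - ht0 hT0 hz1; field_simp)
      have e4 : 3 * (1 + s) ^ 2 * w ^ 2 / t = (E - 1) ^ 2 * z / t * (3 * (1 + s) ^ 2 * z / T ^ 2) := by
        rw [hwz]
        (clear * - ht0 hT0 hz1 hs0; field_simp)
      rw [e1, e2, e3, e4, ← mul_add]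
      exact mul_le_mul_of_nonneg_left key (by (clear * - hE0 hz1 hs0; positivity))
    have h6 : w ^ 2 ≤ a ^ 2 := pow_le_pow_left₀ hw0.le haw 2
    have h7 : 3 * (1 + s) ^ 2 * w ^ 2 / t ≤ 3 * (1 + s) ^ 2 * a ^ 2 / t := by
      apply div_le_div_of_nonneg_right _ ht0.le
      exact mul_le_mul_of_nonneg_left h6 (by positivity)
    have e8 : 2 * (3 / 2 : ℝ) * (1 + s) ^ 2 * a ^ 2 / t = 3 * (1 + s) ^ 2 * a ^ 2 / t := by ring
    rw [e8]
    linarith only [haw, hmain, h7]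

end Vale.Agent.P237.AllN.Corr
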