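import Vale.Agent.P237.AllN.FPnB
import Vale.Agent.P237.AllN.FTest
import Vale.Agent.P237.AllN.PcCorr

/-!
# P237, block D, region `0 ≤ l`, `1 ≤ √m x ≤ 3`, `u ≤ 0`, `m ≥ 27`
-/

namespace Vale.Agent.P237.AllN

open Real

/-! ## the function `φ(u) = u - log(1+u)`, `-1 < u ≤ 0` -/

theorem fpn_phi_nonneg {u : ℝ} (hu : 0 < 1 + u) : 0 ≤ u - log (1 + u) := by
  have := log_le_sub_one_of_pos hu
  linarith only [this]

/-- `φ ≤ W (3 + u)/6` -/
theorem fpn_phi_le {u : ℝ} (hu : 0 < 1 + u) (hu0 : u ≤ 0) :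
    u - log (1 + u) ≤ u ^ 2 / (1 + u) * ((3 + u) / 6) := by
  have hd : ∀ t : ℝ, 0 < 1 + t → HasDerivAt
      (fun t : ℝ => log (1 + t) - t + t ^ 2 / (1 + t) * ((3 + t) / 6))
      (t ^ 3 / (3 * (1 + t) ^ 2)) t := by
    intro t ht
    have e1 : HasDerivAt (fun t : ℝ => 1 + t) 1 t := by
      simpa only [id_eq] using (hasDerivAt_id t).const_add 1
    have e2 := e1.log ht.ne'
    have e3 := ((hasDerivAt_pow 2 t).div e1 ht.ne').mul
      (((hasDerivAt_id t).const_add 3).div_const 6)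
    refine ((e2.sub (hasDerivAt_id t)).add e3).congr_deriv ?_
    simp only [id, Pi.div_apply]
    push_cast
    field_simp
    ring
  have hmem : ∀ t ∈ Set.Icc u 0, 0 < 1 + t := fun t ht => by linarith only [hu, ht.1]
  have hanti : AntitoneOn (fun t : ℝ => log (1 + t) - t + t ^ 2 / (1 + t) * ((3 + t) / 6))
      (Set.Icc u 0) := by
    apply antitoneOn_of_deriv_nonpos (convex_Icc u 0)
    · intro t ht
      exact (hd t (hmem t ht)).continuousAt.continuousWithinAt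
    · intro t ht
      rw [interior_Icc] at ht
      exact (hd t (hmem t ⟨ht.1.le, ht.2.le⟩)).differentiableAt.differentiableWithinAt
    · intro t ht
      rw [interior_Icc] at ht
      have h1 := hmem t ⟨ht.1.le, ht.2.le⟩
      rw [(hd t h1).deriv]
      apply div_nonpos_of_nonpos_of_nonneg _ (by positivity)
      exact Odd.pow_nonpos (by decide) ht.2.le
  have h := hanti ⟨le_rfl, hu0⟩ ⟨hu0, le_rfl⟩ hu0
  simp only at h
  norm_num at h
  linarith only [h]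

/-- `φ² ≤ W` -/
theorem fpn_phi_sq {u : ℝ} (hu : 0 < 1 + u) (hu0 : u ≤ 0) :
    (u - log (1 + u)) ^ 2 ≤ u ^ 2 / (1 + u) := by
  set r := √(1 + u) with hr
  have hr0 : 0 < r := Real.sqrt_pos.2 hu
  have hr2 : r ^ 2 = 1 + u := Real.sq_sqrt hu.le
  have hr1 : r ≤ 1 := by nlinarith only [hu0, hr2]
  -- `-2 log r ≤ 1/r - r`
  have hd : ∀ t : ℝ, 0 < t → HasDerivAt (fun t : ℝ => t - 1 / t - 2 * log t)
      ((1 - 1 / t) ^ 2) t := by
    intro t ht
    have e1 := ((hasDerivAt_id t).sub ((hasDerivAt_const t (1 : ℝ)).div (hasDerivAt_id t) ht.ne')).sub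
      ((hasDerivAt_log ht.ne').const_mul 2)
    refine e1.congr_deriv ?_
    simp only [id]
    field_simp
    ring
  have hmono : MonotoneOn (fun t : ℝ => t - 1 / t - 2 * log t) (Set.Icc r 1) := by
    have hmem : ∀ t ∈ Set.Icc r 1, 0 < t := fun t ht => hr0.trans_le ht.1
    apply monotoneOn_of_deriv_nonneg (convex_Icc r 1)
    · intro t ht
      exact (hd t (hmem t ht)).continuousAt.continuousWithinAt
    · intro t ht
      rw [interior_Icc] at ht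
      exact (hd t (hmem t ⟨ht.1.le, ht.2.le⟩)).differentiableAt.differentiableWithinAt
    · intro t ht
      rw [interior_Icc] at ht
      rw [(hd t (hmem t ⟨ht.1.le, ht.2.le⟩)).deriv]
      (clear * -; positivity)
  have h := hmono ⟨le_rfl, hr1⟩ ⟨hr1, le_rfl⟩ hr1
  simp only at h
  norm_num at h
  have hlog : log (1 + u) = 2 * log r := by
    rw [← hr2, log_pow]
    norm_num
  have h0 := fpn_phi_nonneg hu
  have h1 : u - log (1 + u) ≤ -u / r := by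
    rw [hlog]
    have e : -u / r = r⁻¹ - r := by
      have : -u = 1 - r ^ 2 := by linarith only [hr2]
      rw [this]
      (clear * - hr0; field_simp)
    rw [e]
    linarith only [hu0, h]
  have h2 := pow_le_pow_left₀ h0 h1 2
  refine h2.trans (le_of_eq ?_)
  rw [div_pow, hr2]
  ring

/-! ## lower bound of `T` -/

/-- the `W`-part: `(B - κ(3-v)/6) W + c v l ≥ W/3` -/
theorem fpn_Wpart {B k c W v l : ℝ} (hW : 0 ≤ W) (hv0 : 0 ≤ v) (hv1 : v ≤ 1)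
    (hWv : W * (1 - v) = v ^ 2) (hk : 0 ≤ k) (hc : 0 ≤ c * l)
    (h : k / 2 + 1 / 3 ≤ B ∨ (k / 3 + 1 / 3 ≤ B ∧ k / 6 ≤ c * l)) :
    1 / 3 * W ≤ B * W - k * (W * ((3 - v) / 6)) + c * v * l := by
  rcases h with h | ⟨h1, h2⟩
  · have h3 := mul_le_mul_of_nonneg_right h hW
    have h4 : 0 ≤ k * (W * (v / 6)) := by positivity
    have h5 : 0 ≤ c * l * v := mul_nonneg hc hv0
    linarith
  · have h3 := mul_le_mul_of_nonneg_right h1 hW
    have h4 := mul_le_mul_of_nonneg_right h2 hv0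
    -- `(k/3 - k (3-v)/6) W + k v/6 = k/6 (v - W (1-v)) = k/6 (v - v²)`
    have h5 : k / 3 * W - k * (W * ((3 - v) / 6)) + k / 6 * v = k / 6 * (v * (1 - v)) := by
      have : k / 3 * W - k * (W * ((3 - v) / 6)) + k / 6 * v = k / 6 * (v - W * (1 - v)) := by ring
      rw [this, hWv]
      ring
    have h6 : 0 ≤ k / 6 * (v * (1 - v)) :=
      mul_nonneg (by (clear * - hk; positivity)) (mul_nonneg hv0 (by linarith only [hv1]))
    linarith

/-- `3(m-3)z²/s⁵ - 9z/s³ = 3z(w-3)/s⁵` -/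
theorem fpn_lam {m z s : ℝ} (hs : 0 < s) (hsz : s ^ 2 = 1 - z) :
    3 * (m - 3) * (z ^ 2 / s ^ 5) - 9 * (z / s ^ 3) = 3 * z * (m * z - 3) / s ^ 5 := by
  have h1 : z / s ^ 3 = z * (1 - z) / s ^ 5 := by
    rw [← hsz]
    field_simp
  rw [h1]
  field_simp
  ring

/-- the `l²`-part with the kernel sums -/
theorem fpn_Lpart {m z s l G : ℝ} (hm : 0 ≤ m) (hz : 0 < z) (hs : 0 < s) (hsz : s ^ 2 = 1 - z)
    (hl : 0 ≤ l) (hl2 : l ≤ 1 / 2)
    (hA : 11 / 10 * (m * z) ≤ 2 * (m * z + 3 * z) - l * (m * z * fpU z l + fpV z l) +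
      3 * z * (m * z - 3) / s ^ 5 - 2 * z / s ^ 3 * (2 / 5 + 13 * z / 20 + 22 * z ^ 3 / 5) +
      3 / 25 * (m * z + 3 * z) * (m * z / s ^ 2 - 3))
    (hG : -(2 / s * ((2 / 5 + 13 * z / 20 + 22 * z ^ 3 / 5) * (z / s ^ 2)) * l ^ 2) ≤ G) :
    11 / 10 * (m * z) * l ^ 2 ≤ (m + 3) * z * (exp (-(2 * l)) - 1 + 2 * l) + dpS0 m z l +
      (3 * (m - 3) * (z ^ 2 / s ^ 5) - 9 * (z / s ^ 3)) * l ^ 2 + G +
      3 / 25 * (m + 3) * z * ((m * (z / s ^ 2) - 3) * l ^ 2) := by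
  have h1 := dpS0_ge' (m := m) (z := z) hm hz.le hl hl2
  have h2 := mul_le_mul_of_nonneg_right hA (sq_nonneg l)
  have h3 : l ^ 3 * z * kB' m z l = l ^ 2 * (l * (m * z * fpU z l + fpV z l)) := by
    rw [← fp_kB]
    ring
  rw [h3] at h1
  rw [fpn_lam hs hsz]
  have h4 : 2 * z / s ^ 3 * (2 / 5 + 13 * z / 20 + 22 * z ^ 3 / 5) * l ^ 2 =
      2 / s * ((2 / 5 + 13 * z / 20 + 22 * z ^ 3 / 5) * (z / s ^ 2)) * l ^ 2 := by
    (clear * - hz hs; field_simp)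
  have h5 : 3 / 25 * (m * z + 3 * z) * (m * z / s ^ 2 - 3) * l ^ 2 =
      3 / 25 * (m + 3) * z * ((m * (z / s ^ 2) - 3) * l ^ 2) := by
    field_simp
  linarith

/-- lower bound of `T` -/
theorem fpn_T {m z s l u G N : ℝ} (hm : 27 ≤ m) (hz : 0 < z) (hs : 0 < s) (hsz : s ^ 2 = 1 - z)
    (hw1 : 1 ≤ m * z) (hw9 : m * z ≤ 9) (hl : 0 ≤ l) (hL : l ≤ 11 / 25 ∨ (48 ≤ m ∧ l ≤ 19 / 40))
    (hu : 0 < 1 + u) (hu0 : u ≤ 0) (hN : log (1 + u) - u ≤ N)
    (hG : -(2 / s * ((2 / 5 + 13 * z / 20 + 22 * z ^ 3 / 5) * (z / s ^ 2)) * l ^ 2) ≤ G) :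
    11 / 10 * (m * z) * l ^ 2 + 1 / 3 * (u ^ 2 / (1 + u)) ≤ dpT m z s l u G N := by
  have hs1 : s ≤ 1 := by (clear * - hz hsz hs; nlinarith)
  have hz' : z = 1 - s ^ 2 := by linarith only [hsz]
  have hl2 : l ≤ 1 / 2 := by rcases hL with h | ⟨-, h⟩ <;> linarith only [h]
  have hm0 : 0 ≤ m := by linarith only [hm]
  have hA := fpn_A (w := m * z) hs hs1 hz' hw1 hw9 hl (by
    rcases hL with h | ⟨h1, h2⟩
    · left; exact ⟨mul_le_mul_of_nonneg_right hm hz.le, h⟩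
    · right; exact ⟨mul_le_mul_of_nonneg_right h1 hz.le, h2⟩)
  have h1 := fpn_Lpart hm0 hz hs hsz hl hl2 hA hG
  set W := u ^ 2 / (1 + u) with hW
  have hW0 : 0 ≤ W := by (clear * - hu; positivity)
  have hWv : W * (1 - -u) = (-u) ^ 2 := by
    rw [hW]
    have : 1 - -u = 1 + u := by ring
    rw [this]
    (clear * - hu; field_simp)
  -- the `W` part
  obtain ⟨k1, g, hk1, hg, hBB, hκ, hgz⟩ : ∃ k1 g : ℝ, 0 ≤ k1 ∧ 0 ≤ g ∧
      (k1 / 2 / s + 1 / 3 ≤ fpCKr s z l + 4 * s ^ 2 * fpAr l ∨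
      (k1 / 3 / s + 1 / 3 ≤ fpCKr s z l + 4 * s ^ 2 * fpAr l ∧
        k1 / 6 / s ≤ 6 / 25 * g * z * l)) ∧ 2 * (m + 1) / (m - 1) ≤ k1 ∧ g ≤ m + 3 := by
    rcases hL with h | ⟨h1, h2⟩
    · refine ⟨28 / 13, 30, by norm_num, by norm_num, fpn_B hs hs1 hz' hl _ _ (Or.inl ⟨?_, h, rfl,
        rfl⟩), ?_, by linarith only [hm]⟩
      · nlinarith only [hw9, hm]
      · rw [div_le_iff₀ (by linarith only [hm])]; linarith only [hm]
    · refine ⟨98 / 47, 51, by norm_num, by norm_num, fpn_B hs hs1 hz' hl _ _ (Or.inr ⟨?_, h2, rfl,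
        rfl⟩), ?_, by linarith only [h1]⟩
      · nlinarith only [hw9, h1]
      · rw [div_le_iff₀ (by linarith only [h1])]; linarith only [h1]
  have hphi := fpn_phi_le hu hu0
  have hphi0 := fpn_phi_nonneg hu
  have hC := mul_le_mul_of_nonneg_right (ksC_ge' (s := s) hz.le hl hl2) hW0
  have hE := fpAr_le hl hl2
  set B := fpCKr s z l + 4 * s ^ 2 * fpAr l with hB
  have hWp := fpn_Wpart (B := B) (k := k1 / s) (c := 6 / 25 * (m + 3) * z) (W := W) (v := -u)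
    (l := l) hW0 (by linarith only [hu0]) (by linarith only [hu]) hWv (by (clear * - hk1 hs; positivity)) (by (clear * - hm hz hl; positivity)) (by
      rcases hBB with h | ⟨h, h'⟩
      · left
        have : k1 / s / 2 = k1 / 2 / s := by ring
        rw [this]; exact h
      · right
        have e1 : k1 / s / 3 = k1 / 3 / s := by ring
        have e2 : k1 / s / 6 = k1 / 6 / s := by ring
        rw [e1, e2]
        refine ⟨h, h'.trans ?_⟩
        have : 6 / 25 * g * z ≤ 6 / 25 * (m + 3) * z := by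
          apply mul_le_mul_of_nonneg_right _ hz.le
          linarith only [hgz]
        exact mul_le_mul_of_nonneg_right this hl)
  -- the `N` term
  have hNt : -(k1 / s * (W * ((3 - -u) / 6))) ≤ 2 * (m + 1) / ((m - 1) * s) * N := by
    have e1 : 2 * (m + 1) / ((m - 1) * s) = 2 * (m + 1) / (m - 1) / s := by
      rw [div_div]
    have h2 : 2 * (m + 1) / (m - 1) / s ≤ k1 / s := div_le_div_of_nonneg_right hκ hs.le
    have h3 : 0 ≤ 2 * (m + 1) / (m - 1) / s := by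
      apply div_nonneg (div_nonneg (by linarith only [hm]) (by linarith only [hm])) hs.le
    rw [e1]
    have h4 : -(u - log (1 + u)) ≤ N := by linarith only [hN]
    have h5 : W * ((3 - -u) / 6) = W * ((3 + u) / 6) := by ring
    have h6 : 2 * (m + 1) / (m - 1) / s * (u - log (1 + u)) ≤ k1 / s * (W * ((3 + u) / 6)) :=
      mul_le_mul h2 hphi hphi0 (by (clear * - hk1 hs; positivity))
    have h7 := mul_le_mul_of_nonneg_left h4 h3
    rw [h5]
    linarith only [h6, h7]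
  have hEW : 4 * s ^ 2 * fpAr l * W ≤ 4 * s ^ 2 * exp (-(2 * l)) * W := by
    apply mul_le_mul_of_nonneg_right _ hW0
    exact mul_le_mul_of_nonneg_left hE (by positivity)
  unfold dpT
  rw [dpS_eq, ← hW]
  simp only [hB, fpCKr] at hWp
  have hfin := add_le_add (add_le_add h1 hWp) (add_le_add (add_le_add hC hEW) hNt)
  linarith only [h1, hC, hNt, hEW, hWp]

/-! ## upper bound of `e₁ - T`, lower bound of `e₁` -/

/-- facts about `s`, `z`, `y = z/s²` -/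
theorem fpn_y {z s : ℝ} (hz : 0 < z) (hs : 0 < s) (hsz : s ^ 2 = 1 - z) :
    z / s ^ 2 = (1 / s - 1) * (1 / s + 1) ∧ 0 ≤ 1 / s - 1 := by
  have hs1 : s ≤ 1 := by nlinarith only [hz, hsz]
  refine ⟨?_, ?_⟩
  · have : z = 1 - s ^ 2 := by linarith only [hsz]
    rw [this]
    field_simp
    ring
  · rw [sub_nonneg, le_div_iff₀ hs]
    linarith only [hs1]

theorem fpn_inv_le {z s : ℝ} (hz : 0 < z) (hs : 0 < s) (hsz : s ^ 2 = 1 - z) :
    1 / s - 1 ≤ z / s ^ 2 / 2 := by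
  obtain ⟨h1, h2⟩ := fpn_y hz hs hsz
  rw [h1]
  nlinarith only [h2]

theorem fpn_r_le {m z s c : ℝ} (hm : 0 < m) (hz : 0 < z) (hs : 0 < s) (hsz : s ^ 2 = 1 - z)
    (hc2 : c ≤ 1) (hc3 : c ^ 2 ≤ (m + 1) / (m + 2)) :
    2 * c / s - 2 + 2 * (1 - c) * (1 - m * (z / s ^ 2)) ≤ 2 * (z / s ^ 2) / (m + 2) := by
  obtain ⟨h1, h2⟩ := fpn_y hz hs hsz
  have h3 := fpn_inv_le hz hs hsz
  set y := z / s ^ 2 with hy
  have hy0 : 0 < y := by positivity
  have hc4 : 1 / (2 * (m + 2)) ≤ 1 - c := by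
    by_contra h
    push Not at h
    have h5 : 1 - 1 / (2 * (m + 2)) < c := by linarith only [h]
    have h6 : 0 ≤ 1 - 1 / (2 * (m + 2)) := by
      rw [sub_nonneg, div_le_one (by positivity)]
      linarith only [hm]
    have h7 : (1 - 1 / (2 * (m + 2))) ^ 2 < c ^ 2 := pow_lt_pow_left₀ h5 h6 (by norm_num)
    have h8 : (m + 1) / (m + 2) ≤ (1 - 1 / (2 * (m + 2))) ^ 2 := by
      have : (1 - 1 / (2 * (m + 2))) ^ 2 - (m + 1) / (m + 2) = 1 / (4 * (m + 2) ^ 2) := by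
        field_simp
        ring
      have h9 : 0 ≤ 1 / (4 * (m + 2) ^ 2) := by positivity
      linarith only [this, h9]
    linarith only [hc3, h7, h8]
  have e1 : 2 * c / s - 2 + 2 * (1 - c) * (1 - m * y) =
      2 * c * (1 / s - 1) - 2 * (1 - c) * (m * y) := by
    field_simp
    ring
  rw [e1]
  have h4 : 2 * c * (1 / s - 1) ≤ y := by nlinarith only [h3, hc2, h2]
  have h5 : m * y / (m + 2) ≤ 2 * (1 - c) * (m * y) := by
    have h6 := mul_le_mul_of_nonneg_right hc4 (by positivity : 0 ≤ 2 * (m * y))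
    have e2 : 1 / (2 * (m + 2)) * (2 * (m * y)) = m * y / (m + 2) := by
      (clear * - hy0 hm; field_simp)
    (clear * - h6 e2; linarith)
  have e3 : 2 * y / (m + 2) = y - m * y / (m + 2) := by
    field_simp
    ring
  linarith only [h4, h5, e3]

theorem fpn_r_ge {m z s c : ℝ} (hm : 27 ≤ m) (hz : 0 < z) (hs : 0 < s) (hsz : s ^ 2 = 1 - z)
    (hz3 : z ≤ 1 / 3) (hc1 : 1 - 1 / (2 * m) ≤ c) :
    -(z / s ^ 2 / 7) ≤ 2 * c / s - 2 + 2 * (1 - c) * (1 - m * (z / s ^ 2)) := by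
  obtain ⟨h1, h2⟩ := fpn_y hz hs hsz
  have hs8 : 4 / 5 ≤ s := by nlinarith only [hsz, hz3, hs]
  have hinv : 1 / s ≤ 5 / 4 := by rw [div_le_iff₀ hs]; linarith only [hs8]
  have hm0 : (0 : ℝ) < m := by linarith only [hm]
  set y := z / s ^ 2 with hy
  have hy0 : 0 < y := by positivity
  have e1 : 2 * c / s - 2 + 2 * (1 - c) * (1 - m * y) =
      2 * c * (1 / s - 1) - 2 * (1 - c) * (m * y) := by
    field_simp
    ring
  rw [e1]
  have hc5 : 53 / 54 ≤ c := by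
    have : 1 / (2 * m) ≤ 1 / 54 := by
      apply one_div_le_one_div_of_le <;> linarith only [hm]
    linarith only [hc1, this]
  have h3 : 2 * (1 - c) * (m * y) ≤ y := by
    have h4 : (1 - c) ≤ 1 / (2 * m) := by linarith only [hc1]
    have h5 := mul_le_mul_of_nonneg_right h4 (by positivity : 0 ≤ 2 * (m * y))
    have e2 : 1 / (2 * m) * (2 * (m * y)) = y := by (clear * - hm hy0; field_simp)
    linarith only [h5, e2]
  have h4 : 4 / 9 * y ≤ 1 / s - 1 := by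
    rw [h1]
    nlinarith only [h2, hinv]
  have h5 : 2 * (53 / 54) * (4 / 9 * y) ≤ 2 * c * (1 / s - 1) :=
    mul_le_mul (by linarith only [hc5]) h4 (by positivity) (by linarith only [hc5])
  linarith only [hy0, h3, h5]

theorem fpn_psi {l : ℝ} (hl : 0 ≤ l) : exp (-(2 * l)) - 1 + 2 * l ≤ 2 * l ^ 2 := by
  have := Corr.exp_le_quad (x := -(2 * l)) (by linarith)
  have e : (-(2 * l)) ^ 2 / 2 = 2 * l ^ 2 := by ring
  linarith only [this]

theorem fpn_qu {s c u : ℝ} (hs : 0 < s) (hs1 : s ≤ 1) (hc0 : 0 ≤ c) (hu0 : u ≤ 0) :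
    (2 * c / s - 2 * s ^ 2 + 2 * (1 - c)) * u ≤ 0 := by
  apply mul_nonpos_of_nonneg_of_nonpos _ hu0
  have h2 : 2 * c ≤ 2 * c / s := by
    rw [le_div_iff₀ hs]; nlinarith only [hs1, hc0]
  nlinarith only [hs1, h2, hs]

theorem fpn_Nt {m s c φ N : ℝ} (hm : 27 ≤ m) (hs : 0 < s) (hc1 : 1 - 1 / (2 * m) ≤ c)
    (hc2 : c ≤ 1) (hφ : 0 ≤ φ) (hN : -φ ≤ N) :
    (2 * c / s - 2 * (m + 1) / ((m - 1) * s)) * N ≤ 191 / 1000 / s * φ := by
  have e1 : 2 * (m + 1) / ((m - 1) * s) - 2 * c / s = (4 / (m - 1) + 2 * (1 - c)) / s := by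
    have : m - 1 ≠ 0 := by linarith only [hm]
    field_simp
    ring
  have h2 : 4 / (m - 1) ≤ 4 / 26 := by
    apply div_le_div_of_nonneg_left <;> linarith only [hm]
  have h3 : 2 * (1 - c) ≤ 1 / 27 := by
    have h4 : 1 / (2 * m) ≤ 1 / 54 := by apply one_div_le_one_div_of_le <;> linarith only [hm]
    linarith only [hc1, h4]
  have h4 : (4 / (m - 1) + 2 * (1 - c)) / s ≤ 191 / 1000 / s := by
    apply div_le_div_of_nonneg_right _ hs.le
    linarith only [h2, h3]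
  have h5 : 0 ≤ (4 / (m - 1) + 2 * (1 - c)) / s := by
    apply div_nonneg _ hs.le
    have : 0 ≤ 4 / (m - 1) := div_nonneg (by norm_num) (by linarith only [hm])
    linarith only [hc2, this]
  have h6 : (2 * c / s - 2 * (m + 1) / ((m - 1) * s)) * N =
      (4 / (m - 1) + 2 * (1 - c)) / s * (-N) := by rw [← e1]; ring
  rw [h6]
  calc (4 / (m - 1) + 2 * (1 - c)) / s * (-N) ≤ (4 / (m - 1) + 2 * (1 - c)) / s * φ :=
        mul_le_mul_of_nonneg_left (by linarith only [hN]) h5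
    _ ≤ _ := mul_le_mul_of_nonneg_right h4 hφ

theorem fpn_lin {m z s l : ℝ} (hm : 27 ≤ m) (hz : 0 < z) (hs : 0 < s) (hsz : s ^ 2 = 1 - z)
    (hw9 : m * z ≤ 9) (hl : 0 ≤ l) (hL : l ≤ 11 / 25 ∨ (48 ≤ m ∧ l ≤ 19 / 40)) :
    (9 / 10 * (m * z) + 6 * z) * l ^ 2 + 2 * (z / s ^ 2) / (m + 2) * l ≤ m * z / 2 * l := by
  have key : (9 / 10 * (m * z) + 6 * z) * l + 2 * (z / s ^ 2) / (m + 2) ≤ m * z / 2 := by
    have hmz : 27 * z ≤ m * z := mul_le_mul_of_nonneg_right hm hz.le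
    rcases hL with h | ⟨h1, h2⟩
    · have hz1 : z ≤ 1 / 3 := by linarith only [hw9, hmz]
      have hy : z / s ^ 2 ≤ 3 / 2 * z := by
        rw [div_le_iff₀ (by positivity), hsz]; nlinarith only [hm, hz, hw9]
      have hy2 : 2 * (z / s ^ 2) / (m + 2) ≤ 2 * (3 / 2 * z) / 29 :=
        div_le_div₀ (by positivity) (by linarith only [hy]) (by norm_num) (by linarith only [hm])
      have h3 : (9 / 10 * (m * z) + 6 * z) * l ≤ (9 / 10 * (m * z) + 6 * z) * (11 / 25) :=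
        mul_le_mul_of_nonneg_left h (by positivity)
      linarith
    · have hmz2 : 48 * z ≤ m * z := mul_le_mul_of_nonneg_right h1 hz.le
      have hz2 : z ≤ 3 / 16 := by linarith only [hw9, hmz2]
      have hy : z / s ^ 2 ≤ 16 / 13 * z := by
        rw [div_le_iff₀ (by positivity), hsz]; nlinarith only [hmz2, hz, hw9]
      have hy2 : 2 * (z / s ^ 2) / (m + 2) ≤ 2 * (16 / 13 * z) / 50 :=
        div_le_div₀ (by positivity) (by linarith only [hy]) (by norm_num) (by linarith only [h1])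
      have h3 : (9 / 10 * (m * z) + 6 * z) * l ≤ (9 / 10 * (m * z) + 6 * z) * (19 / 40) :=
        mul_le_mul_of_nonneg_left h2 (by positivity)
      linarith only [hz, hmz2, hy2, h3]
  have h5 := mul_le_mul_of_nonneg_right key hl
  linarith only [h5]

/-- upper bound of `e₁ - T` -/
theorem fpn_P {m z s l u c G N : ℝ} (hm : 27 ≤ m) (hz : 0 < z) (hs : 0 < s) (hsz : s ^ 2 = 1 - z)
    (hw1 : 1 ≤ m * z) (hw9 : m * z ≤ 9) (hl : 0 ≤ l) (hL : l ≤ 11 / 25 ∨ (48 ≤ m ∧ l ≤ 19 / 40))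
    (hu : 0 < 1 + u) (hu0 : u ≤ 0) (hc1 : 1 - 1 / (2 * m) ≤ c) (hc2 : c ≤ 1)
    (hc3 : c ^ 2 ≤ (m + 1) / (m + 2)) (hN : log (1 + u) - u ≤ N)
    (hG : -(2 / s * ((2 / 5 + 13 * z / 20 + 22 * z ^ 3 / 5) * (z / s ^ 2)) * l ^ 2) ≤ G) :
    dpE m z s l u c N - dpT m z s l u G N ≤
      m * z / 2 * l + 191 / 1000 / s * (u - log (1 + u)) := by
  have hs1 : s ≤ 1 := by nlinarith only [hz, hsz]
  have hz' : z = 1 - s ^ 2 := by linarith only [hsz]
  have hl2 : l ≤ 1 / 2 := by rcases hL with h | ⟨-, h⟩ <;> linarith only [h]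
  have hm0 : 0 < m := by linarith only [hm]
  have hA := fpn_A (w := m * z) hs hs1 hz' hw1 hw9 hl (by
    rcases hL with h | ⟨h1, h2⟩
    · left; exact ⟨mul_le_mul_of_nonneg_right hm hz.le, h⟩
    · right; exact ⟨mul_le_mul_of_nonneg_right h1 hz.le, h2⟩)
  have h1 := fpn_Lpart hm0.le hz hs hsz hl hl2 hA hG
  have hc0 : 0 ≤ c := by
    have : 1 / (2 * m) ≤ 1 := by rw [div_le_one (by positivity)]; linarith only [hm]
    linarith only [hc1, this]
  have hr := mul_le_mul_of_nonneg_right (fpn_r_le hm0 hz hs hsz hc2 hc3) hl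
  set W := u ^ 2 / (1 + u) with hW
  have hW0 : 0 ≤ W := by (clear * - hu; positivity)
  have hphi0 := fpn_phi_nonneg hu
  have hC := mul_le_mul_of_nonneg_right (ksC_ge' (s := s) hz.le hl hl2) hW0
  have hCK : 0 ≤ fpCKr s z l := by
    apply fpn_CK hs hs1 hz' hl
    rcases hL with h | ⟨h1, h2⟩
    · left; exact ⟨by nlinarith only [hw9, hm], h⟩
    · right; exact ⟨by nlinarith only [hw9, h1], h2⟩
  have hCK' := mul_nonneg hCK hW0
  unfold fpCKr at hCK'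
  have hψ' := mul_le_mul_of_nonneg_left (fpn_psi hl) (by positivity : 0 ≤ (m + 3) * z)
  have hq := fpn_qu hs hs1 hc0 hu0
  have hNt := fpn_Nt hm hs hc1 hc2 hphi0 (by linarith only [hN] : -(u - log (1 + u)) ≤ N)
  have hlin := fpn_lin hm hz hs hsz hw9 hl hL
  have hcross : 3 / 25 * (m + 3) * z * (2 * u * l) ≤ 0 := by
    have h3 : 0 ≤ 3 / 25 * (m + 3) * z * (2 * l) := by (clear * - hm hz hl; positivity)
    have h4 := mul_nonneg h3 (by linarith only [hu0] : 0 ≤ -u)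
    linarith only [h4]
  unfold dpT dpE
  rw [dpS_eq, ← hW]
  have hfin := add_le_add (add_le_add (add_le_add h1 hCK') (add_le_add hC hψ'))
    (add_le_add (add_le_add hr hq) (add_le_add (add_le_add hNt hlin) hcross))
  linarith only [h1, hr, hC, hCK', hψ', hq, hNt, hlin, hcross]

/-- `1/s - 4 s² e^{-2l} ≤ 3/20` -/
theorem fpn_d {m z s l : ℝ} (hm : 27 ≤ m) (hz : 0 < z) (hs : 0 < s) (hsz : s ^ 2 = 1 - z)
    (hw9 : m * z ≤ 9) (hL : l ≤ 11 / 25 ∨ (48 ≤ m ∧ l ≤ 19 / 40)) :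
    1 / s - 4 * s ^ 2 * exp (-(2 * l)) ≤ 3 / 20 := by
  have h1 := fpn_inv_le hz hs hsz
  have hmz : 27 * z ≤ m * z := mul_le_mul_of_nonneg_right hm hz.le
  rcases hL with h | ⟨h2, h⟩
  · have hz1 : z ≤ 1 / 3 := by linarith only [hw9, hmz]
    have hy : z / s ^ 2 ≤ 1 / 2 := by
      rw [div_le_iff₀ (by positivity), hsz]; linarith only [hw9, hmz]
    have hE : 414 / 1000 ≤ exp (-(2 * l)) := by
      have h3 := fpAr_le (l := 11 / 25) (by norm_num) (by norm_num)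
      have h4 : exp (-(2 * (11 / 25))) ≤ exp (-(2 * l)) := exp_le_exp.2 (by linarith only [h])
      refine le_trans ?_ (h3.trans h4)
      unfold fpAr
      norm_num
    have h5 : 4 * (2 / 3) * (414 / 1000) ≤ 4 * s ^ 2 * exp (-(2 * l)) :=
      mul_le_mul (by rw [hsz]; linarith only [hw9, hmz]) hE (by norm_num) (by positivity)
    linarith only [h1, hy, h5]
  · have hmz2 : 48 * z ≤ m * z := mul_le_mul_of_nonneg_right h2 hz.le
    have hz2 : z ≤ 3 / 16 := by linarith only [hw9, hmz2]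
    have hy : z / s ^ 2 ≤ 3 / 13 := by
      rw [div_le_iff₀ (by positivity), hsz]; linarith only [hw9, hmz2]
    have hE : 38 / 100 ≤ exp (-(2 * l)) := by
      have h3 := fpAr_le (l := 19 / 40) (by norm_num) (by norm_num)
      have h4 : exp (-(2 * (19 / 40))) ≤ exp (-(2 * l)) := exp_le_exp.2 (by linarith only [h])
      refine le_trans ?_ (h3.trans h4)
      unfold fpAr
      norm_num
    have h5 : 4 * (13 / 16) * (38 / 100) ≤ 4 * s ^ 2 * exp (-(2 * l)) :=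
      mul_le_mul (by rw [hsz]; linarith only [hw9, hmz2]) hE (by norm_num) (by positivity)
    linarith only [h1, hy, h5]

/-- lower bound of `e₁` -/
theorem fpn_E {m z s l u c N : ℝ} (hm : 27 ≤ m) (hz : 0 < z) (hs : 0 < s) (hsz : s ^ 2 = 1 - z)
    (hw9 : m * z ≤ 9) (hl : 0 ≤ l) (hL : l ≤ 11 / 25 ∨ (48 ≤ m ∧ l ≤ 19 / 40))
    (hu : 0 < 1 + u) (hu0 : u ≤ 0) (hc1 : 1 - 1 / (2 * m) ≤ c) (hc2 : c ≤ 1)
    (hN : log (1 + u) - u ≤ N) :
    -((m * (z / s ^ 2) / 9 + 3 / 20) * (-u) + m * (z / s ^ 2) / 189 * l) ≤ dpE m z s l u c N := by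
  have hs1 : s ≤ 1 := by nlinarith only [hz, hsz]
  have hm0 : 0 < m := by linarith only [hm]
  have hmz : 27 * z ≤ m * z := mul_le_mul_of_nonneg_right hm hz.le
  have hz3 : z ≤ 1 / 3 := by linarith only [hw9, hmz]
  have hc0 : 0 ≤ c := by
    have : 1 / (2 * m) ≤ 1 := by rw [div_le_one (by positivity)]; linarith only [hm]
    linarith only [hc1, this]
  set y := z / s ^ 2 with hy
  have hy0 : 0 < y := by positivity
  have hzy : z ≤ y := by
    rw [hy, le_div_iff₀ (by positivity)]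
    nlinarith only [hz, hsz]
  have hyY : 27 * y ≤ m * y := mul_le_mul_of_nonneg_right hm hy0.le
  set W := u ^ 2 / (1 + u) with hW
  have hW0 : 0 ≤ W := by (clear * - hu; positivity)
  have hWv : W * (1 + u) = u ^ 2 := by
    rw [hW]; (clear * - hu; field_simp)
  have hphi := fpn_phi_le hu hu0
  have hphi0 := fpn_phi_nonneg hu
  rw [← hW] at hphi
  have hd := mul_le_mul_of_nonneg_right (fpn_d hm hz hs hsz hw9 hL) hW0
  have hr := mul_le_mul_of_nonneg_right (fpn_r_ge (c := c) hm hz hs hsz hz3 hc1) hl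
  rw [← hy] at hr
  have hψ : 0 ≤ (m + 3) * z * (exp (-(2 * l)) - 1 + 2 * l) := by
    have := add_one_le_exp (-(2 * l))
    apply mul_nonneg (by positivity)
    linarith only [this]
  -- the `N` term: `(2c/s) N ≥ -(1/s) W (3+u)/3`
  have hNt : -(1 / s * W - 1 / 3 * (-u) * W) ≤ 2 * c / s * N := by
    have h1 : 0 ≤ 2 * c / s := by (clear * - hc0 hs; positivity)
    have h2 : 2 * c / s ≤ 2 * (1 / s) := by
      rw [div_le_iff₀ hs]
      have : 2 * (1 / s) * s = 2 := by (clear * - hs; field_simp)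
      rw [this]; linarith only [hc2]
    have h3 := mul_le_mul_of_nonneg_left hN h1
    have h4 : 2 * c / s * (u - log (1 + u)) ≤ 2 * (1 / s) * (W * ((3 + u) / 6)) :=
      mul_le_mul h2 hphi hphi0 (by positivity)
    have h5 : 1 ≤ 1 / s := by rw [le_div_iff₀ hs]; linarith only [hs1]
    have h6 : 0 ≤ (1 / s - 1) * (W * (-u)) :=
      mul_nonneg (by linarith only [h5]) (mul_nonneg hW0 (by linarith only [hu0]))
    nlinarith only [h3, h4, h6]
  -- `q u ≥ -(y + 2z) v`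
  have hq : -((3 * y) * (-u)) ≤ (2 * c / s - 2 * s ^ 2 + 2 * (1 - c)) * u := by
    have h1 := fpn_inv_le hz hs hsz
    rw [← hy] at h1
    have h2 : 2 * c / s - 2 * s ^ 2 + 2 * (1 - c) ≤ 3 * y := by
      have e : 2 * c / s - 2 * s ^ 2 + 2 * (1 - c) = 2 * c * (1 / s - 1) + 2 * z := by
        rw [hsz]; field_simp; ring
      rw [e]
      have h3 : 0 ≤ 1 / s - 1 := (fpn_y hz hs hsz).2
      have h4 : 2 * c * (1 / s - 1) ≤ 2 * 1 * (1 / s - 1) := by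
        apply mul_le_mul_of_nonneg_right _ h3
        linarith only [hc2]
      linarith only [hzy, h1, h4]
    have h5 := mul_le_mul_of_nonneg_right h2 (by linarith only [hu0] : 0 ≤ -u)
    linarith only [h5]
  have hY9 : 3 * y * (-u) ≤ m * y / 9 * (-u) := by
    apply mul_le_mul_of_nonneg_right _ (by linarith only [hu0])
    linarith only [hyY]
  have hY189 : y / 7 * l ≤ m * y / 189 * l := by
    apply mul_le_mul_of_nonneg_right _ hl
    linarith only [hyY]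
  -- `3/20 W - (1/3) v W ≤ 3/20 v`
  have hWW : 3 / 20 * W - 1 / 3 * (-u) * W ≤ 3 / 20 * (-u) := by
    have h1 : 3 / 20 * W - 3 / 20 * (-u) * W = 3 / 20 * u ^ 2 := by
      rw [← hWv]; ring
    have h2 : 0 ≤ (1 / 3 - 3 / 20) * ((-u) * W) := by
      have : 0 ≤ (-u) * W := mul_nonneg (by linarith only [hu0]) hW0
      (clear * - this; positivity)
    have h3 : u ^ 2 ≤ -u := by nlinarith only [hu, hu0]
    nlinarith only [hWv, h2, h3]
  unfold dpE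
  rw [← hW, ← hy]
  have hfin := add_le_add (add_le_add (add_le_add hd hr) (add_le_add hψ hNt))
    (add_le_add (add_le_add hq hY9) (add_le_add hY189 hWW))
  linarith only [hd, hr, hψ, hNt, hq, hY9, hY189, hWW]

theorem fpn_cauchy {a b p q α β M : ℝ} (hα : 0 < α) (hβ : 0 < β) (h : a ^ 2 / α + b ^ 2 / β ≤ M) :
    (a * p + b * q) ^ 2 ≤ M * (α * p ^ 2 + β * q ^ 2) := by
  have h1 : (a * p + b * q) ^ 2 ≤ (a ^ 2 / α + b ^ 2 / β) * (α * p ^ 2 + β * q ^ 2) := by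
    have e : (a ^ 2 / α + b ^ 2 / β) * (α * p ^ 2 + β * q ^ 2) - (a * p + b * q) ^ 2 =
        (α * b * p - β * a * q) ^ 2 / (α * β) := by
      field_simp
      ring
    have : 0 ≤ (α * b * p - β * a * q) ^ 2 / (α * β) := by (clear * - hα hβ; positivity)
    linarith
  exact h1.trans (mul_le_mul_of_nonneg_right h (by positivity))

/-- lower bound of `ρ` -/
theorem fpn_rho {m y : ℝ} (hm : 27 ≤ m) :
    (2 + 5 * (m * y) + 25 / 27 * (m * y) ^ 2) / 10 ≤ dpR m y := by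
  unfold dpR
  have h1 : 0 ≤ m * y ^ 2 * (m - 27) := by
    apply mul_nonneg (mul_nonneg (by linarith) (sq_nonneg y)) (by linarith only [hm])
  linarith

theorem fpn_n0 {Y ρ : ℝ} (hY : 1 ≤ Y) (h : (2 + 5 * Y + 25 / 27 * Y ^ 2) / 10 ≤ ρ) : 0 < ρ := by
  nlinarith

theorem fpn_s1 {s z : ℝ} (hs : 0 < s) (hz : 0 < z) (hsz : s ^ 2 = 1 - z) : s ≤ 1 := by
  nlinarith only [hz, hsz]

theorem fpn_n1 {Y ρ : ℝ} (h : (2 + 5 * Y + 25 / 27 * Y ^ 2) / 10 ≤ ρ) :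
    Y / 2 * (19 / 40) + 191 / 1000 * (1 + Y / 54) * (Y / 2) ≤ 44 / 100 * ρ := by
  nlinarith [sq_nonneg (Y - 29 / 20)]

theorem fpn_n2 {Y w K ρ : ℝ} (hY : 1 ≤ Y) (h : (2 + 5 * Y + 25 / 27 * Y ^ 2) / 10 ≤ ρ)
    (hK : K ≤ (191 / 1000) ^ 2 * (1 + Y / 27)) (hw : w ≤ Y) :
    5 / 22 * w + K / (1 / 3) ≤ 45 / 100 * ρ := by
  nlinarith only [hY, h, hK, hw]

theorem fpn_n3 {Y ρ : ℝ} (hY : 1 ≤ Y) (h : (2 + 5 * Y + 25 / 27 * Y ^ 2) / 10 ≤ ρ) :
    (Y / 9 + 3 / 20) * 1 + Y / 189 * (19 / 40) ≤ 44 / 100 * ρ := by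
  nlinarith [mul_nonneg (by linarith : 0 ≤ Y - 1) (by linarith : 0 ≤ Y - 1)]

theorem fpn_n4 {Y ρ : ℝ} (hY : 1 ≤ Y) (h : (2 + 5 * Y + 25 / 27 * Y ^ 2) / 10 ≤ ρ) :
    (Y / 9 + 3 / 20) ^ 2 / (1 / 3) + Y / 1000 ≤ 45 / 100 * ρ := by
  nlinarith [mul_nonneg (by linarith : 0 ≤ Y - 1) (by linarith : 0 ≤ Y - 1)]

theorem fpn_mid {w K φ W l ρ : ℝ} (hw0 : 0 < w) (hρ0 : 0 < ρ) (hφ2 : φ ^ 2 ≤ W)
    (h : 5 / 22 * w + K ^ 2 / (1 / 3) ≤ 45 / 100 * ρ) :
    (w / 2 * l + K * φ) ^ 2 ≤ 45 / 100 * (ρ * (11 / 10 * w * l ^ 2 + 1 / 3 * W)) := by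
  have e1 : (w / 2) ^ 2 / (11 / 10 * w) = 5 / 22 * w := by
    field_simp
    ring
  rw [← e1] at h
  have h2 := fpn_cauchy (p := l) (q := φ) (by positivity : 0 < 11 / 10 * w)
    (by norm_num : (0 : ℝ) < 1 / 3) h
  have h3 : 11 / 10 * w * l ^ 2 + 1 / 3 * φ ^ 2 ≤ 11 / 10 * w * l ^ 2 + 1 / 3 * W := by linarith only [hφ2]
  have h4 := mul_le_mul_of_nonneg_left h3 (by positivity : 0 ≤ 45 / 100 * ρ)
  linarith only [h2, h4]

theorem fpn_mid2 {w Y W u l ρ : ℝ} (hw0 : 0 < w) (hρ0 : 0 < ρ) (hY1 : 1 ≤ Y)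
    (hYw : 2 / 3 * Y ≤ w) (hvW : (-u) ^ 2 ≤ W)
    (h : (Y / 9 + 3 / 20) ^ 2 / (1 / 3) + Y / 1000 ≤ 45 / 100 * ρ) :
    ((Y / 9 + 3 / 20) * (-u) + Y / 189 * l) ^ 2 ≤
      45 / 100 * (ρ * (11 / 10 * w * l ^ 2 + 1 / 3 * W)) := by
  have e1 : (Y / 189) ^ 2 / (11 / 10 * w) ≤ Y / 1000 := by
    rw [div_le_iff₀ (by positivity)]
    nlinarith only [hYw, hY1]
  have h1 : (Y / 9 + 3 / 20) ^ 2 / (1 / 3) + (Y / 189) ^ 2 / (11 / 10 * w) ≤ 45 / 100 * ρ := by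
    linarith
  have h2 := fpn_cauchy (p := -u) (q := l) (by norm_num : (0 : ℝ) < 1 / 3)
    (by positivity : 0 < 11 / 10 * w) h1
  have h3 : 1 / 3 * (-u) ^ 2 + 11 / 10 * w * l ^ 2 ≤ 11 / 10 * w * l ^ 2 + 1 / 3 * W := by linarith only [hvW]
  have h4 := mul_le_mul_of_nonneg_left h3 (by positivity : 0 ≤ 45 / 100 * ρ)
  linarith only [h2, h4]

theorem fpn_final {T e ρ w Y K φ W u l : ℝ} (hT : 11 / 10 * w * l ^ 2 + 1 / 3 * W ≤ T)
    (hP : e - T ≤ w / 2 * l + K * φ) (hE : -((Y / 9 + 3 / 20) * (-u) + Y / 189 * l) ≤ e)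
    (hY1 : 1 ≤ Y) (hw0 : 0 < w) (hwY : w ≤ Y) (hYw : 2 / 3 * Y ≤ w)
    (hρ : (2 + 5 * Y + 25 / 27 * Y ^ 2) / 10 ≤ ρ) (hl : 0 ≤ l) (hl3 : l ≤ 19 / 40)
    (hu : 0 < 1 + u) (hu0 : u ≤ 0) (hW0 : 0 ≤ W) (hWp : u ≠ 0 → 0 < W) (hvW : (-u) ^ 2 ≤ W)
    (hφ0 : 0 ≤ φ) (hφ2 : φ ^ 2 ≤ W) (hφY : φ ≤ Y / 2) (hK0 : 0 ≤ K)
    (hK : K ≤ 191 / 1000 * (1 + Y / 54)) (hK2 : K ^ 2 ≤ (191 / 1000) ^ 2 * (1 + Y / 27)) :
    JTest T e ρ u := by
  have hρ0 : 0 < ρ := fpn_n0 hY1 hρ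
  have hnu : 0 ≤ -u := by linarith only [hu0]
  have hE0 : 0 ≤ (Y / 9 + 3 / 20) * (-u) := mul_nonneg (by positivity) hnu
  refine JTest.of_theta (T0 := 11 / 10 * w * l ^ 2 + 1 / 3 * W)
    (P := w / 2 * l + K * φ)
    (E := (Y / 9 + 3 / 20) * (-u) + Y / 189 * l) (θ := 44 / 100) (θ1 := 45 / 100)
    hT (by (clear * - hw0 hW0; positivity)) ?_ hρ0 (by norm_num) (by norm_num) hP (by (clear * - hw0 hl hK0 hφ0; positivity)) ?_ ?_ hE
    (by (clear * - hY1 hnu hl; positivity)) ?_ ?_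
  · intro hu1
    have := hWp hu1
    (clear * - hw0 this; positivity)
  · have h1 : w / 2 * l ≤ Y / 2 * (19 / 40) :=
      mul_le_mul (by linarith only [hwY]) hl3 hl (by linarith only [hY1])
    have h2 : K * φ ≤ 191 / 1000 * (1 + Y / 54) * (Y / 2) :=
      mul_le_mul hK hφY hφ0 (by positivity)
    linarith only [h1, h2, fpn_n1 hρ]
  · exact fpn_mid hw0 hρ0 hφ2 (fpn_n2 hY1 hρ hK2 hwY)
  · have h1 : (Y / 9 + 3 / 20) * (-u) ≤ (Y / 9 + 3 / 20) * 1 :=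
      mul_le_mul_of_nonneg_left (by linarith only [hu]) (by positivity)
    have h2 : Y / 189 * l ≤ Y / 189 * (19 / 40) := mul_le_mul_of_nonneg_left hl3 (by positivity)
    linarith only [h1, h2, fpn_n3 hY1 hρ]
  · exact fpn_mid2 hw0 hρ0 hY1 hYw hvW (fpn_n4 hY1 hρ)

/-- **the region `u ≤ 0`, `1 ≤ m x² ≤ 9`, `0 ≤ l`** -/
theorem fpn_region {m z s l u c G N : ℝ} (hm : 27 ≤ m) (hz : 0 < z) (hs : 0 < s)
    (hsz : s ^ 2 = 1 - z) (hw1 : 1 ≤ m * z) (hw9 : m * z ≤ 9) (hl : 0 ≤ l)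
    (hL : l ≤ 11 / 25 ∨ (48 ≤ m ∧ l ≤ 19 / 40)) (hu : 0 < 1 + u) (hu0 : u ≤ 0)
    (hc1 : 1 - 1 / (2 * m) ≤ c) (hc2 : c ≤ 1) (hc3 : c ^ 2 ≤ (m + 1) / (m + 2))
    (hN : log (1 + u) - u ≤ N) (hv : m * log s ≤ log (1 + u))
    (hG : -(2 / s * ((2 / 5 + 13 * z / 20 + 22 * z ^ 3 / 5) * (z / s ^ 2)) * l ^ 2) ≤ G) :
    JTest (dpT m z s l u G N) (dpE m z s l u c N) (dpR m (z / s ^ 2)) u := by
  have hm0 : 0 < m := by linarith only [hm]
  have hmz : 27 * z ≤ m * z := mul_le_mul_of_nonneg_right hm hz.le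
  have hz3 : z ≤ 1 / 3 := by linarith only [hw9, hmz]
  have hl3 : l ≤ 19 / 40 := by rcases hL with h | ⟨-, h⟩ <;> linarith only [h]
  have hs1 : s ≤ 1 := fpn_s1 hs hz hsz
  have hinv := fpn_inv_le hz hs hsz
  have hyeq := (fpn_y hz hs hsz).1
  have hy0 : 0 < z / s ^ 2 := by positivity
  have hyY : 27 * (z / s ^ 2) ≤ m * (z / s ^ 2) := mul_le_mul_of_nonneg_right hm hy0.le
  have hzy : z ≤ z / s ^ 2 := by
    rw [le_div_iff₀ (by positivity), hsz]
    nlinarith only [hz]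
  have hwY : m * z ≤ m * (z / s ^ 2) := mul_le_mul_of_nonneg_left hzy hm0.le
  have hYw : 2 / 3 * (m * (z / s ^ 2)) ≤ m * z := by
    have h1 : z / s ^ 2 ≤ 3 / 2 * z := by
      rw [div_le_iff₀ (by positivity), hsz]; nlinarith only [hm, hz, hw9]
    have := mul_le_mul_of_nonneg_left h1 hm0.le
    linarith only [this]
  have hWp : u ≠ 0 → 0 < u ^ 2 / (1 + u) := fun h => by (clear * - h hu; positivity)
  have hvW : (-u) ^ 2 ≤ u ^ 2 / (1 + u) := by
    rw [le_div_iff₀ hu, neg_sq]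
    nlinarith only [hu0]
  have hφY : u - log (1 + u) ≤ m * (z / s ^ 2) / 2 := by
    have h1 : -log s ≤ 1 / s - 1 := by
      have := log_le_sub_one_of_pos (show 0 < 1 / s by positivity)
      rwa [log_div one_ne_zero hs.ne', log_one, zero_sub] at this
    have h3 := mul_le_mul_of_nonneg_left (h1.trans hinv) hm0.le
    linarith only [hu0, hv, h3]
  have hK : 191 / 1000 / s ≤ 191 / 1000 * (1 + m * (z / s ^ 2) / 54) := by
    have : 191 / 1000 / s = 191 / 1000 * (1 / s) := by ring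
    rw [this]
    linarith only [hinv, hyY]
  have hK2 : (191 / 1000 / s) ^ 2 ≤ (191 / 1000) ^ 2 * (1 + m * (z / s ^ 2) / 27) := by
    have e : (191 / 1000 / s) ^ 2 = (191 / 1000) ^ 2 * (1 + z / s ^ 2) := by
      rw [hyeq]
      field_simp
      ring
    rw [e]
    linarith only [hyY]
  exact fpn_final (fpn_T hm hz hs hsz hw1 hw9 hl hL hu hu0 hN hG)
    (fpn_P hm hz hs hsz hw1 hw9 hl hL hu hu0 hc1 hc2 hc3 hN hG)
    (fpn_E hm hz hs hsz hw9 hl hL hu hu0 hc1 hc2 hN) (hw1.trans hwY) (by linarith only [hz, hmz]) hwY hYw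
    (fpn_rho hm) hl hl3 hu hu0 (by (clear * - hu; positivity)) hWp hvW (fpn_phi_nonneg hu) (fpn_phi_sq hu hu0)
    hφY (by positivity) hK hK2

end Vale.Agent.P237.AllN
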