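import Vale.Agent.P237.AllN.FAllB
import Vale.Agent.P237.AllN.FPn
import Vale.Agent.P237.AllN.FCor

/-!
# P237, block D: the pointwise test for `0 < l`, `1 ≤ m x² ≤ 9`, `u ≤ 0`
-/

open Set

namespace Vale.Agent.P237.AllN

open Alm

variable {m : ℕ} {r τ τ' T : ℝ → ℝ} {x : ℝ}

/-- one bound for `l` on `1 ≤ m x² ≤ 9` -/
theorem FSteps.mid {m : ℕ} {q l : ℝ} (S : FSteps m q l) (h1 : 1 ≤ q) (h9 : q ≤ 9) :
    l ≤ 19 / 40 := by
  rcases le_total q (25 / 4) with a | a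
  · have := S.st2 (by linarith) a; linarith
  rcases le_total q (121 / 16) with b | b
  · have := S.st3 a b; linarith
  · exact S.st4 b h9

theorem FSteps.mid' {m : ℕ} {q l : ℝ} (S : FSteps m q l) (hm : m ≤ 47) (h1 : 1 ≤ q)
    (h9 : q ≤ 9) : l ≤ 11 / 25 := by
  rcases le_total q (25 / 4) with a | a
  · have := S.st2 (by linarith) a; linarith
  rcases le_total q (121 / 16) with b | b
  · have := S.st3' hm a b; linarith
  · exact S.st4' hm b h9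

/-- **region `0 < l`, `1 ≤ m x² ≤ 9`, `u ≤ 0`** -/
theorem IsTrans.jt_mid_neg (hm : 27 ≤ m) (hr : IsProf r) (h : IsTrans m r τ τ' T)
    (hN : (∫ y in (-1 : ℝ)..1, r y ^ (m - 1)) ^ m * aInt m ^ (m - 1) ≤
      aInt (m - 1) ^ m * (∫ y in (-1 : ℝ)..1, r y ^ m) ^ (m - 1))
    (hx : x ∈ Ioo (0 : ℝ) 1) (h1 : 1 ≤ (m : ℝ) * x ^ 2) (h9 : (m : ℝ) * x ^ 2 ≤ 9)
    (hl : 0 < lf τ x) (hu : uf τ τ' x ≤ 0) :
    JTest (dpT m (x ^ 2) (sq x) (lf τ x) (uf τ τ' x) (jG τ x) (jN m (lf τ x) (uf τ τ' x)))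
      (dpE m (x ^ 2) (sq x) (lf τ x) (uf τ τ' x) (fc m) (jN m (lf τ x) (uf τ τ' x)))
      (dpR m (x ^ 2 / sq x ^ 2)) (uf τ τ' x) := by
  have F := h.ffacts (by omega) hr hx
  have S := h.fsteps hm hr hN hx
  have hm' : (27 : ℝ) ≤ m := by exact_mod_cast hm
  have hm0 : (0 : ℝ) < m := by linarith
  have hL : (x ^ 2 ≤ 1 / 3 ∧ lf τ x ≤ 11 / 25) ∨ ((48 : ℝ) ≤ m ∧ lf τ x ≤ 19 / 40) := by
    rcases le_or_gt m 47 with h47 | h47
    · exact Or.inl ⟨by nlinarith, S.mid' h47 h1 h9⟩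
    · exact Or.inr ⟨by exact_mod_cast h47, S.mid h1 h9⟩
  refine fpn_region hm' F.z0 F.s0 F.hs h1 h9 hl.le ?_ F.u0 hu F.c0 F.c1 F.c2
    (fa_N_ge hm0) F.sm ?_
  · rcases hL with a | a
    · exact Or.inl a.2
    · exact Or.inr a
  · rw [h.jG_eq hx]
    have e : x ^ 2 / (sq x * (1 + sq x) ^ 2) * lf τ x =
        x ^ 2 * lf τ x / (sq x * (1 + sq x) ^ 2) := by ring
    rw [e]
    refine fcor_G' hx.1 hl.le ?_ (h.fa_exp hx).le
    rcases hL with a | a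
    · exact Or.inl a
    · exact Or.inr ⟨by nlinarith [a.1], a.2⟩

end Vale.Agent.P237.AllN
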