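import Mathlib

/-!
# P237, block D (`m ≥ 25`), region `l > 0`: the functionals in real variables

`z = x²`, `s = √(1-z)`, `y = z/s²`, `G` = correction `2(g₀(x e^l) - g₀(x) + z l/(s(1+s)²))`,
`N = m(e^(Y/m) - 1) - l - u`, `Y = l + log(1+u)`, `c = a_m/a_(m-1)`.
-/

namespace Vale.Agent.P237.AllN

/-- one term of the kernel sum: `k` the power, `κz = κ_k z^(k-1)` -/
noncomputable def dpK (m z s l W k κz : ℝ) : ℝ :=
  κz * ((2 * k - 1) * ((m + 1 + 2 * k) * z - 2 * (k - 1)) / (2 * k) *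
      (Real.exp (-(2 * k * l)) - 1 + 2 * k * l) -
    (m + 1 + 2 * k) * z / (2 * k) * (Real.exp (2 * k * l) - 1 - 2 * k * l) -
    2 * k * (k - 1) * ((m + 1 + 2 * k) * z - (2 * k - 1)) * l ^ 2 +
    s ^ 2 * W * (2 * (2 * k - 1) * (Real.exp (-(2 * k * l)) - 1) + 4 * k * (k - 1) * l))

/-- the kernel sum, `k = 2..6` -/
noncomputable def dpS (m z s l W : ℝ) : ℝ :=
  dpK m z s l W 2 (3 / 4 * z) + dpK m z s l W 3 (5 / 8 * z ^ 2) +
  dpK m z s l W 4 (35 / 64 * z ^ 3) + dpK m z s l W 5 (63 / 128 * z ^ 4) +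
  dpK m z s l W 6 (231 / 512 * z ^ 5)

/-- `T` for `l ≥ 0` (convex hybrid, potential `-(3/25)(m+3) z l²`) -/
noncomputable def dpT (m z s l u G N : ℝ) : ℝ :=
  (m + 3) * z * (Real.exp (-(2 * l)) - 1 + 2 * l) +
  (3 * (m - 3) * (z ^ 2 / s ^ 5) - 9 * (z / s ^ 3)) * l ^ 2 +
  (4 / s - 4 * s / (1 + s) - 2 * s ^ 2 + 4 * s ^ 2 * Real.exp (-(2 * l)) - 6 * (z / s ^ 3) * l) *
    (u ^ 2 / (1 + u)) +
  G + 2 * (m + 1) / ((m - 1) * s) * N + dpS m z s l (u ^ 2 / (1 + u)) +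
  3 / 25 * (m + 3) * z * ((m * (z / s ^ 2) - 3) * l ^ 2 - 2 * u * l)

/-- `e₁` -/
noncomputable def dpE (m z s l u c N : ℝ) : ℝ :=
  (m + 3) * z * (Real.exp (-(2 * l)) - 1 + 2 * l) +
  4 * s ^ 2 * Real.exp (-(2 * l)) * (u ^ 2 / (1 + u)) + 2 * c / s * N +
  (2 * c / s - 2 * s ^ 2 + 2 * (1 - c)) * u +
  (2 * c / s - 2 + 2 * (1 - c) * (1 - m * (z / s ^ 2))) * l

/-- `ρ` -/
noncomputable def dpR (m y : ℝ) : ℝ := (2 + 5 * m * y + m * (m - 2) * y ^ 2) / 10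

/-- the `J`-test from a lower bound of `T`, an upper bound `P` of `e - T`, a lower bound of `e` -/
theorem dp_jtest {T T0 e ρ P E : ℝ} (hT : T0 ≤ T) (hT0 : 0 ≤ T0) (hP : e - T ≤ P) (hP0 : 0 ≤ P)
    (hPρ : P ≤ ρ) (h1 : P ^ 2 ≤ T0 * (ρ - P)) (hE : -E ≤ e) (hE0 : 0 ≤ E) (hEρ : E ≤ ρ)
    (h2 : E ^ 2 ≤ T0 * (ρ - E)) : 0 ≤ T ∧ 0 ≤ ρ + e ∧ e ^ 2 ≤ T * (ρ + e) := by
  have hT' : 0 ≤ T := hT0.trans hT
  have h1' : P ^ 2 ≤ T * (ρ - P) := h1.trans (mul_le_mul_of_nonneg_right hT (by linarith))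
  have h2' : E ^ 2 ≤ T * (ρ - E) := h2.trans (mul_le_mul_of_nonneg_right hT (by linarith))
  refine ⟨hT', by linarith, ?_⟩
  rcases le_total 0 e with he | he
  · have key : T * (ρ + e) - e ^ 2 = T * (ρ - (e - T)) - (e - T) ^ 2 := by ring
    rcases le_total 0 (e - T) with hp | hp
    · have h3 : (e - T) ^ 2 ≤ P ^ 2 := pow_le_pow_left₀ hp hP 2
      have h4 : T * (ρ - P) ≤ T * (ρ - (e - T)) := mul_le_mul_of_nonneg_left (by linarith) hT'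
      linarith
    · have key2 : T * (ρ + e) - e ^ 2 = T * ρ + (T - e) * e := by ring
      have h3 : 0 ≤ T * ρ := mul_nonneg hT' (hP0.trans hPρ)
      have h4 : 0 ≤ (T - e) * e := mul_nonneg (by linarith) he
      linarith
  · have h3 : e ^ 2 ≤ E ^ 2 := by
      have : (-e) ^ 2 ≤ E ^ 2 := pow_le_pow_left₀ (by linarith) (by linarith) 2
      simpa using this
    have h4 : T * (ρ - E) ≤ T * (ρ + e) := mul_le_mul_of_nonneg_left (by linarith) hT'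
    linarith

end Vale.Agent.P237.AllN
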