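import Vale.Agent.P237.AllN.FNeg5
import Vale.Agent.P237.AllN.FPosDef

/-!
# P237, block D: region `l ≤ 0` in the variables of `FPosDef`
-/

set_option linter.all false

namespace Vale.Agent.P237.AllN

/-- `T` for `l ≤ 0`: log lines, potential `H l²`, `H = 3z(1+z)/s` -/
noncomputable def dnT (m z s l u G N : ℝ) : ℝ :=
  (m + 3) * z * (Real.exp (-(2 * l)) - 1 + 2 * l) +
  (3 * (m - 3) * (z ^ 2 / s ^ 5) - 9 * (z / s ^ 3)) * l ^ 2 +
  (4 / s - 4 * s / (1 + s) - 2 * s ^ 2 + 4 * s ^ 2 * Real.exp (-(2 * l)) - 6 * (z / s ^ 3) * l) *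
    (u ^ 2 / (1 + u)) +
  G + 2 * (m + 1) / ((m - 1) * s) * N +
  ((1 - m * (z / s ^ 2)) * (3 * z * (1 + z) / s) * l ^ 2 +
    (6 * z * (1 + 2 * z) / s + 3 * z ^ 2 * (1 + z) / s ^ 3) * l ^ 2 +
    2 * (3 * z * (1 + z) / s) * l * u)

namespace FNeg

theorem exp_taylor {a : ℝ} (ha : 0 ≤ a) :
    1 + 2 * a + 2 * a ^ 2 + 4 / 3 * a ^ 3 + 2 / 3 * a ^ 4 ≤ Real.exp (2 * a) := by
  have h := Real.sum_le_exp_of_nonneg (by (clear * - ha; positivity) : 0 ≤ 2 * a) 5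
  simp only [Finset.sum_range_succ, Finset.sum_range_zero, Nat.factorial] at h
  norm_num at h
  linarith

theorem Tf_eq {m z s l u G N E : ℝ} (hs : 0 < s) (hs2 : s ^ 2 = 1 - z) (hm : m - 1 ≠ 0)
    (hE : E = Real.exp (-(2 * l))) :
    Tf m (2 * (m + 1) / (m - 1)) (1 / s) (z / s ^ 2) (-l) u E G N = dnT m z s l u G N := by
  have hz : z = 1 - s ^ 2 := by (clear * - hs2; linarith)
  have hs1 : (1 + s) ≠ 0 := by linarith only [hs]
  unfold Tf dnT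
  rw [← hE]
  have e1 : z / s ^ 2 / (1 / s) ^ 2 = z := by field_simp
  have e2 : 4 * (1 / s) - 4 / (1 + 1 / s) - 2 / (1 / s) ^ 2 + 4 * E / (1 / s) ^ 2
      + 6 * (z / s ^ 2) * (1 / s) * (-l) =
      4 / s - 4 * s / (1 + s) - 2 * s ^ 2 + 4 * s ^ 2 * E - 6 * (z / s ^ 3) * l := by
    field_simp
    ring
  have e3 : 6 * (z / s ^ 2) * (1 + 2 * (z / s ^ 2)) / (1 / s) ^ 3 * (-l) * u
      = -(2 * (3 * z * (1 + z) / s) * l * u) := by
    rw [hz]; field_simp; ring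
  have e4 : 3 * (z / s ^ 2 / (1 / s)) ^ 3 * ((m - 3) * (z / s ^ 2) - 7) * (-l) ^ 2
      = (3 * (m - 3) * (z ^ 2 / s ^ 5) - 9 * (z / s ^ 3)) * l ^ 2 +
        ((1 - m * (z / s ^ 2)) * (3 * z * (1 + z) / s) * l ^ 2 +
        (6 * z * (1 + 2 * z) / s + 3 * z ^ 2 * (1 + z) / s ^ 3) * l ^ 2) := by
    rw [hz]; field_simp; ring
  have e5 : 2 * (m + 1) / (m - 1) * (1 / s) * N = 2 * (m + 1) / ((m - 1) * s) * N := by
    (clear * - hs hm; field_simp)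
  rw [e1, e2, e3, e4, e5]
  ring

theorem ef_eq {m c z s l u N E : ℝ} (hs : 0 < s) (hE : E = Real.exp (-(2 * l))) :
    ef m c (1 / s) (z / s ^ 2) (-l) u E N = dpE m z s l u c N := by
  unfold ef dpE
  rw [← hE]
  have e1 : z / s ^ 2 / (1 / s) ^ 2 = z := by (clear * - hs; field_simp)
  have e2 : 4 * E / (1 / s) ^ 2 = 4 * s ^ 2 * E := by (clear * - hs; field_simp)
  have e3 : 2 * c * (1 / s) = 2 * c / s := by ring
  have e4 : 2 / (1 / s) ^ 2 = 2 * s ^ 2 := by field_simp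
  rw [e1, e2, e3, e4]
  ring

theorem rho_eq {m y : ℝ} : rhof m y = dpR m y := by
  unfold rhof dpR; ring

end FNeg

open FNeg in
/-- quantitative form of the J-test in the region `l ≤ 0` -/
theorem fneg_quant {m z s l u c G N : ℝ} (hm : 15 ≤ m) (hz : 0 < z) (hs : 0 < s)
    (hs2 : s ^ 2 = 1 - z) (hl : l ≤ 0) (hl2 : l ^ 2 ≤ 87 / 500 * m) (hu : 0 < 1 + u)
    (hus : u * s ≤ 1) (hu2 : 0 ≤ u → u ^ 2 ≤ 4 / 25 * (m * (z / s ^ 2)))
    (hu3 : -(m / 2 * (z / s ^ 2)) ≤ u) (hc1 : 1 - 1 / (2 * m) ≤ c) (hc2 : c ≤ 1)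
    (hN : Real.log (1 + u) - u ≤ N)
    (hG : -(z * (1 + 2 * s - s ^ 2) / (s ^ 3 * (1 + s) ^ 2) * l ^ 2) ≤ G) :
    0 < dpR m (z / s ^ 2) + dpE m z s l u c N ∧
    dpE m z s l u c N ^ 2 + 1 / 100 * (dpR m (z / s ^ 2) * (9 / 5 * (u ^ 2 / (1 + u)) +
        (m + 3) * z * l ^ 2)) ≤
      dnT m z s l u G N * (dpR m (z / s ^ 2) + dpE m z s l u c N) := by
  have hm1 : m - 1 ≠ 0 := by linarith only [hm]
  have hs1 : s ≤ 1 := by nlinarith only [hz, hs2]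
  have hσ1 : 1 ≤ 1 / s := by rw [le_div_iff₀ hs]; linarith only [hs1]
  have hy : (1 / s) ^ 2 = 1 + z / s ^ 2 := by
    have : z = 1 - s ^ 2 := by linarith only [hs2]
    rw [this]; field_simp; ring
  have hy0 : 0 < z / s ^ 2 := by positivity
  have hus' : u ≤ 1 / s := by rw [le_div_iff₀ hs]; exact hus
  have hEe : Real.exp (-(2 * l)) = Real.exp (2 * (-l)) := by congr 1; ring
  have hE := exp_taylor (a := -l) (by linarith only [hl])
  rw [← hEe] at hE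
  have hcc := sco hσ1 hy
  have hccz : z / s ^ 2 * (1 / s) * (1 - 2 / (1 / s + 1) ^ 2)
      = z * (1 + 2 * s - s ^ 2) / (s ^ 3 * (1 + s) ^ 2) := by
    field_simp
    ring
  have hCr : -(z / s ^ 2 * (1 / s) * (1 - 2 / (1 / s + 1) ^ 2) * (-l) ^ 2) ≤ G := by
    rw [hccz]
    have : (-l) ^ 2 = l ^ 2 := by ring
    rw [this]; exact hG
  have h := core (m := m) (c := c) (κ := 2 * (m + 1) / (m - 1)) (σ := 1 / s) (y := z / s ^ 2)
    (a := -l) (u := u) (E := Real.exp (-(2 * l))) (Cr := G) (N := N)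
    (cc := z / s ^ 2 * (1 / s) * (1 - 2 / (1 / s + 1) ^ 2))
    hm hσ1 hy hy0 (by linarith only [hl]) (by nlinarith only [hl2]) (by linarith only [hu]) hus'
    (fun h0 => by have := hu2 h0; linarith only [this]) (by linarith only [hu3]) hE hc1 hc2 rfl hcc hCr hN
  rw [Tf_eq hs hs2 hm1 rfl, ef_eq hs rfl, rho_eq] at h
  have e1 : z / s ^ 2 / (1 / s) ^ 2 = z := by field_simp
  rw [e1] at h
  refine ⟨h.1, le_trans ?_ h.2⟩
  have hρ0 : 0 ≤ dpR m (z / s ^ 2) := by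
    unfold dpR
    have : 0 ≤ m - 2 := by linarith only [hm]
    have : 0 ≤ m := by linarith only [hm]
    (clear l u c G N hs2 hl hl2 hu hus hu2 hu3 hc1 hc2 hN hG hm1 hs1 hσ1 hy hy0 hus' hEe hE hcc hccz hCr h e1 this; positivity)
  have h3 : (m + 3) * z * l ^ 2 ≤ (m + 3) * z * ((-l) ^ 2 * (1 + 2 / 3 * (-l) + 1 / 3 * (-l) ^ 2)) := by
    have : 0 < m + 3 := by linarith only [hm]
    apply mul_le_mul_of_nonneg_left _ (by positivity)
    have h5 : 0 ≤ (-l) ^ 2 * (2 / 3 * (-l) + 1 / 3 * (-l) ^ 2) := by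
      have : 0 ≤ -l := by linarith only [hl]
      (clear * - this; positivity)
    nlinarith only [h5]
  have h4 := mul_le_mul_of_nonneg_left h3 hρ0
  linarith only [h4]

/-- the J-test in the region `l ≤ 0` -/
theorem fneg_region {m z s l u c G N : ℝ} (hm : 15 ≤ m) (hz : 0 < z) (hs : 0 < s)
    (hs2 : s ^ 2 = 1 - z) (hl : l ≤ 0) (hl2 : l ^ 2 ≤ 87 / 500 * m) (hu : 0 < 1 + u)
    (hus : u * s ≤ 1) (hu2 : 0 ≤ u → u ^ 2 ≤ 4 / 25 * (m * (z / s ^ 2)))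
    (hu3 : -(m / 2 * (z / s ^ 2)) ≤ u) (hc1 : 1 - 1 / (2 * m) ≤ c) (hc2 : c ≤ 1)
    (hN : Real.log (1 + u) - u ≤ N)
    (hG : -(z * (1 + 2 * s - s ^ 2) / (s ^ 3 * (1 + s) ^ 2) * l ^ 2) ≤ G) :
    0 < dpR m (z / s ^ 2) + dpE m z s l u c N ∧
    dpE m z s l u c N ^ 2 ≤ dnT m z s l u G N * (dpR m (z / s ^ 2) + dpE m z s l u c N) ∧
    ((u ≠ 0 ∨ l ≠ 0) →
      dpE m z s l u c N ^ 2 < dnT m z s l u G N * (dpR m (z / s ^ 2) + dpE m z s l u c N)) := by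
  obtain ⟨h1, h2⟩ := fneg_quant hm hz hs hs2 hl hl2 hu hus hu2 hu3 hc1 hc2 hN hG
  have hρ0 : 0 < dpR m (z / s ^ 2) := by
    unfold dpR
    have : 0 ≤ m - 2 := by linarith only [hm]
    have : 0 ≤ m := by linarith only [hm]
    (clear l u c G N hs2 hl hl2 hu hus hu2 hu3 hc1 hc2 hN hG h1 h2 this; positivity)
  have hm3 : 0 < m + 3 := by linarith only [hm]
  have hW : 0 ≤ u ^ 2 / (1 + u) := by (clear * - hu; positivity)
  have hZ : 0 ≤ (m + 3) * z * l ^ 2 := by (clear * - hm hz; positivity)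
  have h0 : 0 ≤ 1 / 100 * (dpR m (z / s ^ 2) * (9 / 5 * (u ^ 2 / (1 + u)) + (m + 3) * z * l ^ 2)) := by
    (clear * - hρ0 hu hm hz; positivity)
  refine ⟨h1, by linarith only [h2, h0], fun hne => ?_⟩
  have h3 : 0 < 1 / 100 * (dpR m (z / s ^ 2) * (9 / 5 * (u ^ 2 / (1 + u)) + (m + 3) * z * l ^ 2)) := by
    have : 0 < 9 / 5 * (u ^ 2 / (1 + u)) + (m + 3) * z * l ^ 2 := by
      rcases hne with hne | hne
      · have : 0 < u ^ 2 / (1 + u) := by (clear * - hne hu; positivity)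
        linarith only [hZ, this]
      · have : 0 < (m + 3) * z * l ^ 2 := by positivity
        linarith only [hW, this]
    (clear * - hρ0 this; positivity)
  linarith only [h2, h3]

end Vale.Agent.P237.AllN
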