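import Vale.Agent.P237.AllN.Brid1

/-!
# P237, block D, region `l ≤ 0`: the correction term
-/

set_option linter.all false

open Set Real

namespace Vale.Agent.P237.AllN
namespace FNeg

theorem corr_poly {s S : ℝ} (hs : 0 < s) (hsS : s ≤ S) (hS : S ≤ 1) :
    2 * s ^ 2 * (1 + s) * (1 + s + S * (1 - s)) ≤ (S + s) * (S * (1 + S)) * (1 + 2 * s - s ^ 2) := by
  have hA : 0 < 1 + 2 * s - s ^ 2 := by nlinarith
  have h1 : s * (1 + s + S * (1 - s)) ≤ S * (1 + 2 * s - s ^ 2) := by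
    have : 0 ≤ (S - s) * (1 + s) := mul_nonneg (by linarith only [hsS]) (by linarith only [hs])
    linarith
  have h2 : 2 * s ^ 2 * (1 + s) * (1 + s + S * (1 - s)) ≤ 2 * s * (1 + s) * (S * (1 + 2 * s - s ^ 2)) := by
    have := mul_le_mul_of_nonneg_left h1 (by positivity : 0 ≤ 2 * s * (1 + s))
    linarith
  have h3 : 2 * s * (1 + s) ≤ (S + s) * (1 + S) := by
    apply mul_le_mul (by linarith only [hsS]) (by linarith only [hsS]) (by linarith only [hs]) (by linarith only [hs, hsS])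
  have h4 := mul_le_mul_of_nonneg_right h3 (mul_nonneg (by linarith only [hs, hsS]) hA.le : 0 ≤ S * (1 + 2 * s - s ^ 2))
  linarith only [h2, h4]

theorem corr_alg {s S z : ℝ} (hs : 0 < s) (hsS : s ≤ S) (hS : S ≤ 1) :
    (1 - s) / (s * (1 + s)) - (1 - S) / (S * (1 + S)) ≤
      (1 + 2 * s - s ^ 2) / (s ^ 3 * (1 + s) ^ 2) * ((S ^ 2 - s ^ 2) / 2) := by
  have hS0 : 0 < S := by linarith
  have h := corr_poly hs hsS hS
  have e1 : (1 - s) / (s * (1 + s)) - (1 - S) / (S * (1 + S))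
      = (S - s) * (1 + s + S * (1 - s)) / (s * (1 + s) * (S * (1 + S))) := by
    field_simp; ring
  have e2 : (1 + 2 * s - s ^ 2) / (s ^ 3 * (1 + s) ^ 2) * ((S ^ 2 - s ^ 2) / 2)
      = (S - s) * ((S + s) * (1 + 2 * s - s ^ 2)) / (2 * s ^ 3 * (1 + s) ^ 2) := by
    field_simp; ring
  rw [e1, e2, div_le_div_iff₀ (by positivity) (by positivity)]
  have h2 := mul_le_mul_of_nonneg_left h (mul_nonneg (by linarith only [hsS] : 0 ≤ S - s) (by (clear * - hs; positivity) : 0 ≤ s * (1 + s)))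
  nlinarith only [h2]

/-- derivative bound -/
theorem corr_der {x l : ℝ} (hx0 : 0 < x) (hx1 : x < 1) (hl : l ≤ 0) :
    2 * (-(x * exp l) ^ 2 / (sq (x * exp l) * (1 + sq (x * exp l)) ^ 2) +
      x ^ 2 / (sq x * (1 + sq x) ^ 2)) +
      2 * (x ^ 2 * (1 + 2 * sq x - sq x ^ 2) / (sq x ^ 3 * (1 + sq x) ^ 2)) * l ≤ 0 := by
  have he : exp l ≤ 1 := exp_le_one_iff.2 hl
  have hτ0 : 0 < x * exp l := by (clear * - hx0; positivity)
  have hτx : x * exp l ≤ x := by nlinarith only [hx0, he]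
  have hτ1 : x * exp l < 1 := by linarith only [hx1, hτx]
  set τ := x * exp l with hτ
  have hs2 : sq x ^ 2 = 1 - x ^ 2 := br_sq_sq ⟨by linarith only [hx0], hx1.le⟩
  have hS2 : sq τ ^ 2 = 1 - τ ^ 2 := br_sq_sq ⟨by linarith only [hτ0], hτ1.le⟩
  have hs0 : 0 < sq x := br_sq_pos ⟨by linarith only [hx0], hx1⟩
  have hS0 : 0 < sq τ := br_sq_pos ⟨by linarith only [hτ0], hτ1⟩
  have hS1 : sq τ ≤ 1 := br_sq_le_one τ
  have hsS : sq x ≤ sq τ := by
    by_contra hcon
    push Not at hcon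
    nlinarith only [hs2, hS2, hτ0, hτx, hcon, hS0]
  have hlog : (x ^ 2 - τ ^ 2) / (2 * x ^ 2) ≤ -l := by
    have h1 : exp (2 * l) = (τ / x) ^ 2 := by
      rw [hτ]
      have : exp (2 * l) = exp l ^ 2 := by rw [← exp_nat_mul]; norm_num
      rw [this]; (clear * - hx0; field_simp)
    have h2 := add_one_le_exp (2 * l)
    rw [h1] at h2
    have h3 : (x ^ 2 - τ ^ 2) / (2 * x ^ 2) = (1 - (τ / x) ^ 2) / 2 := by (clear * - hx0; field_simp)
    rw [h3]; linarith only [h2]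
  generalize sq x = s at *
  generalize sq τ = S at *
  have ha := corr_alg (z := 0) hs0 hsS hS1
  have e1 : -τ ^ 2 / (S * (1 + S) ^ 2) = -((1 - S) / (S * (1 + S))) := by
    have : τ ^ 2 = (1 - S) * (1 + S) := by linarith only [hS2]
    rw [neg_div, this]; (clear * - hS0; field_simp)
  have e2 : x ^ 2 / (s * (1 + s) ^ 2) = (1 - s) / (s * (1 + s)) := by
    have : x ^ 2 = (1 - s) * (1 + s) := by linarith only [hs2]
    rw [this]; (clear * - hs0; field_simp)
  rw [e1, e2]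
  have hA : 0 < 1 + 2 * s - s ^ 2 := by nlinarith only [hs2, hs0]
  have h5 := mul_le_mul_of_nonneg_left hlog (by (clear * - hx0 hA hs0; positivity) : 0 ≤ x ^ 2 * (1 + 2 * s - s ^ 2) / (s ^ 3 * (1 + s) ^ 2))
  have e3 : x ^ 2 * (1 + 2 * s - s ^ 2) / (s ^ 3 * (1 + s) ^ 2) * ((x ^ 2 - τ ^ 2) / (2 * x ^ 2))
      = (1 + 2 * s - s ^ 2) / (s ^ 3 * (1 + s) ^ 2) * ((S ^ 2 - s ^ 2) / 2) := by
    have : x ^ 2 - τ ^ 2 = S ^ 2 - s ^ 2 := by linarith only [hs2, hS2]
    rw [this]; (clear * - hx0 hs0 hA; field_simp)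
  rw [e3] at h5
  linarith only [ha, h5]

/-- **the correction term**, `l ≤ 0` -/
theorem corr_ge {x l : ℝ} (hx0 : 0 < x) (hx1 : x < 1) (hl : l ≤ 0) :
    -(x ^ 2 * (1 + 2 * sq x - sq x ^ 2) / (sq x ^ 3 * (1 + sq x) ^ 2) * l ^ 2) ≤
      2 * (bg (x * exp l) - bg x + x ^ 2 * l / (sq x * (1 + sq x) ^ 2)) := by
  have hs0 : 0 < sq x := br_sq_pos ⟨by linarith only [hx0], hx1⟩
  set A := x ^ 2 / (sq x * (1 + sq x) ^ 2) with hA
  set C := x ^ 2 * (1 + 2 * sq x - sq x ^ 2) / (sq x ^ 3 * (1 + sq x) ^ 2) with hC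
  have hd : ∀ y : ℝ, y ≤ 0 → HasDerivAt (fun y => 2 * (bg (x * exp y) - bg x + A * y) + C * y ^ 2)
      (2 * (-(x * exp y) ^ 2 / (sq (x * exp y) * (1 + sq (x * exp y)) ^ 2) + A) + 2 * C * y) y := by
    intro y hy
    have he : exp y ≤ 1 := exp_le_one_iff.2 hy
    have hτ0 : 0 < x * exp y := by positivity
    have hτ1 : x * exp y < 1 := by nlinarith only [hx1, hx0, he]
    have h1 : HasDerivAt (fun y => x * exp y) (x * exp y) y := (hasDerivAt_exp y).const_mul x
    have h2 := (bg_hasDerivAt (y := x * exp y) ⟨by linarith only [hτ0], hτ1⟩).comp y h1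
    have h3 : HasDerivAt (fun y => A * y) A y := by simpa using (hasDerivAt_id y).const_mul A
    have h4 : HasDerivAt (fun y => C * y ^ 2) (2 * C * y) y := by
      have := (hasDerivAt_pow 2 y).const_mul C
      refine this.congr_deriv ?_
      simp only [Nat.cast_ofNat, Nat.add_one_sub_one, pow_one]; ring
    have h5 := (((h2.sub_const (bg x)).add h3).const_mul 2).add h4
    refine h5.congr_deriv ?_
    ring
  have hanti : AntitoneOn (fun y => 2 * (bg (x * exp y) - bg x + A * y) + C * y ^ 2) (Iic 0) := by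
    apply antitoneOn_of_deriv_nonpos (convex_Iic 0)
    · intro y hy; exact (hd y hy).continuousAt.continuousWithinAt
    · intro y hy
      rw [interior_Iic] at hy
      exact (hd y (le_of_lt hy)).differentiableAt.differentiableWithinAt
    · intro y hy
      rw [interior_Iic] at hy
      rw [(hd y (le_of_lt hy)).deriv]
      exact corr_der hx0 hx1 (le_of_lt hy)
  have h := hanti (mem_Iic.2 hl) (mem_Iic.2 le_rfl) hl
  simp only [exp_zero, mul_one, sub_self, mul_zero, add_zero, zero_add] at h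
  have e : x ^ 2 * l / (sq x * (1 + sq x) ^ 2) = A * l := by rw [hA]; ring
  rw [e]
  norm_num at h
  linarith only [h]

end FNeg
end Vale.Agent.P237.AllN
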