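import Vale.Agent.P237.AllN.FPosA9

/-!
# P237, block D, `l > 0`, `m z ≤ 1`: the pointwise test, `u ≤ 0` and final statement
-/

namespace Vale.Agent.P237.AllN

theorem pa_algT3 {M l W Q A β κ : ℝ} (hMl : 0 ≤ M * l ^ 2) (hM0 : 0 < M) (hQ : Q ≤ 0)
    (hW : 0 ≤ W) (hA : 0.797 ≤ A) (hβ : 0.33 ≤ β - κ / 2) :
    0.797 * (M * l ^ 2) + 0.33 * W ≤
    M * l ^ 2 * (A + 84 / 625 * M) + β * W - κ * (W / 2) - Q := by
  have h1 := mul_le_mul_of_nonneg_right hA hMl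
  have h2 := mul_le_mul_of_nonneg_right hβ hW
  have h3 : 0 ≤ M * (M * l ^ 2) := mul_nonneg hM0.le hMl
  linarith only [hQ, h1, h2, h3]

theorem pa_algP3 {M z l W Q q A ν κ : ℝ} (hMl : 0 ≤ M * l ^ 2) (hM0 : 0 < M) (hl : 0 ≤ l)
    (hW : 0 ≤ W) (hQ : Q ≤ 0) (hzl : z * l ≤ 1 / 25 * (M * l)) (hq : q ≤ 0)
    (hA : A ≤ 0.8832) (hν : ν + κ / 2 ≤ 0.13) :
    M * l ^ 2 * (A - 84 / 625 * M) + 1042 / 1000 * z * l + ν * W + κ * (W / 2) + Q + q ≤
    M * ((0.0417 + 0.8832 * l) * l) + 0.13 * W := by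
  have h1 := mul_le_mul_of_nonneg_right hA hMl
  have h2 := mul_le_mul_of_nonneg_right hν hW
  have h3 : 0 ≤ M * (M * l ^ 2) := mul_nonneg hM0.le hMl
  have h4 : 0 ≤ M * l := by positivity
  norm_num at h1 h2 ⊢
  linarith

theorem pa_Qneg {m z u l : ℝ} (hm : 25 ≤ m) (hz0 : 0 < z) (hl0 : 0 ≤ l) (hu : u ≤ 0) :
    6 / 25 * (m + 3) * z * u * l ≤ 0 := by
  have h : 0 ≤ 6 / 25 * (m + 3) * z * -u * l := by
    have : 0 ≤ -u := by linarith only [hu]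
    positivity
  linarith only [h]

theorem pa_eneg {z l u s W q β : ℝ} (hW : 0 ≤ W) (hσ : 1 / s ≤ β)
    (hq1 : q ≤ 3042 / 1000 * z) (hu : u ≤ 0) :
    -(62 / 1000 * (z * l) + 3.042 * (z * -u)) ≤
      β * W - 2 / s * (W / 2) + q * u - 62 / 1000 * z * l := by
  have h1 := mul_le_mul_of_nonneg_right hσ hW
  have h2 := mul_le_mul_of_nonneg_right hq1 (by linarith only [hu] : 0 ≤ -u)
  have e : 2 / s * (W / 2) = 1 / s * W := by ring
  rw [e]
  generalize 1 / s * W = X at h1 ⊢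
  norm_num at h2 ⊢
  linarith only [h1, h2]

/-- `u ≤ 0`, `l ≤ 2/5` -/
theorem pa_neg1 {m z s l u c G N : ℝ} (hm : 25 ≤ m) (hz0 : 0 < z) (hs0 : 0 < s)
    (hs : s ^ 2 = 1 - z) (hM : m * z ≤ 1) (hl0 : 0 ≤ l) (hl : l ≤ 2 / 5)
    (hc0 : 1 - 1 / (2 * m) ≤ c) (hc : c ≤ 1) (hu0 : u ≤ 0)
    (hu1 : -(m / 2 * z) ≤ u) (hN : Real.log (1 + u) - u ≤ N)
    (hG : -(4 / 5 * (z * l ^ 2)) ≤ G) :
    JTest (dpT m z s l u G N) (dpE m z s l u c N) (dpR m (z / s ^ 2)) u := by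
  have hz : z ≤ 1 / 25 := by nlinarith only [hM, hm]
  have hu2 : -(m * z / 2) ≤ u := by linarith only [hu1]
  have hu : 0 < 1 + u := by linarith only [hM, hu1]
  have hM0 : 0 < m * z := by positivity
  have hW0 : 0 ≤ u ^ 2 / (1 + u) := by (clear * - hu; positivity)
  have hφ0 : 0 ≤ u ^ 2 / (1 + u) / 2 := by (clear * - hu; positivity)
  have hNφ : -(u ^ 2 / (1 + u) / 2) ≤ N := by
    have hφ := pa_phi_neg hu hu0
    linarith only [hN, hφ]
  have hσ : 1 / s ≤ 1.02084 := by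
    have := pa_inv_le hs0 hs hz0.le hz
    norm_num at this ⊢
    linarith only [hz, this]
  have hg : 1.556 * l ^ 2 ≤ Real.exp (-(2 * l)) - 1 + 2 * l := by
    apply pa_psi hl0
    norm_num
    nlinarith only [hl]
  have ht3 := pa_cube1 hs0 hs hz0.le hz
  have hS := pa_S1 (s := s) (by linarith only [hm] : 0 ≤ m) hz0.le hz hM hl0 hl
  have hC := pa_C1 hs0 hs hz0.le hz hl0 hl
  have hsa : 1.725 ≤ 4 * s ^ 2 * Real.exp (-(2 * l)) := by
    have ha := pa_a1 hl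
    have h1 : 0.96 ≤ s ^ 2 := by rw [hs]; norm_num; linarith only [hz]
    have h2 := mul_le_mul h1 ha (by norm_num) (sq_nonneg s)
    norm_num at h2 ⊢
    linarith only [h2]
  have hβ : 1.70 ≤ 4 * s ^ 2 * Real.exp (-(2 * l)) + dpC z s l := by
    norm_num at hsa ⊢
    linarith only [hz, hC, hsa]
  have hν : -0.024 ≤ dpC z s l := by norm_num; linarith only [hz, hC]
  have hκ : 2 * (m + 1) / ((m - 1) * s) ≤ 2.212 :=
    (pa_kappa hm hs0 hσ).trans (by norm_num)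
  have hκ' : 2 * (m + 1) / ((m - 1) * s) - 2 * c / s ≤ 0.211 :=
    (pa_kappa' hm hs0 hσ hc0).trans (by norm_num)
  have hT := pa_lower (K := 11.9742) hm hz0.le hs0 hs hu hl0 hg ht3 hG hS hβ hNφ hφ0 hκ
    (by norm_num) hM (by norm_num)
  have hP := pa_upper (K := 11.9742) (u := u) hm hz0.le hs0 hs hu hl0 hz hc0 hc ht3 hG hS
    hν hNφ hφ0 hκ' (by norm_num) (by norm_num) hM
  have he := pa_e1 (u := u) hm hz0.le hs0 hs hu hl0 hz hc0 hc hg (by norm_num) hsa hNφ hφ0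
  have hρ : 0.2 + 0.5 * (m * z) ≤ dpR m (z / s ^ 2) := by
    have := pa_rho hm hs0 hs hz0.le
    have h2 := sq_nonneg (m * z)
    norm_num at this ⊢
    linarith only [h2, this]
  have hq := pa_q hs0 hs hz0.le hz ((by norm_num : (0:ℝ) ≤ 49/50).trans (pa_c_ge hm hc0)) hc
  have hQ := pa_Qneg hm hz0 hl0 hu0
  have hzM : z ≤ 1 / 25 * (m * z) := by nlinarith only [hm, hz0]
  have hzl : z * l ≤ 1 / 25 * (m * z * l) := by
    have := mul_le_mul_of_nonneg_right hzM hl0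
    linarith only [this]
  have hqu : (2 * c / s - 2 * s ^ 2 + 2 * (1 - c)) * u ≤ 0 :=
    mul_nonpos_of_nonneg_of_nonpos hq.1 hu0
  have hMl : 0 ≤ m * z * l ^ 2 := by (clear * - hm hz0; positivity)
  have hE := pa_eneg (l := l) (s := s) (β := 1.725) hW0 (hσ.trans (by norm_num)) hq.2 hu0
  have hT' := (pa_algT3 (M := m * z) (l := l) (W := u ^ 2 / (1 + u))
    (A := 28 / 25 * (1.556 - 9 / 25) - 11.9742 / 25) (β := 1.70) (κ := 2.212)
    hMl hM0 hQ hW0 (by norm_num) (by norm_num)).trans hT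
  have hP' := hP.trans (pa_algP3 (M := m * z) (l := l) (W := u ^ 2 / (1 + u)) (z := z)
    (A := 11.9742 / 25 + 252 / 625) (ν := 0.024) (κ := 0.211)
    hMl hM0 hl0 hW0 hQ hzl hqu (by norm_num) (by norm_num))
  exact pa_fin3 hM0 hM hz0 hzM hl0 (by linarith only [hl]) (fun _ => hl) hu0 hu2 hT' hP' (hE.trans he) hρ

/-- `u ≤ 0`, `2/5 ≤ l ≤ 1/2` -/
theorem pa_neg2 {m z s l u c G N : ℝ} (hm : 25 ≤ m) (hz0 : 0 < z) (hs0 : 0 < s)
    (hs : s ^ 2 = 1 - z) (hM : m * z ≤ 16 / 25) (hl0 : 2 / 5 ≤ l) (hl : l ≤ 1 / 2)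
    (hl1 : 16 / 25 ≤ m * z → l ≤ 2 / 5)
    (hc0 : 1 - 1 / (2 * m) ≤ c) (hc : c ≤ 1) (hu0 : u ≤ 0)
    (hu1 : -(m / 2 * z) ≤ u) (hN : Real.log (1 + u) - u ≤ N)
    (hG : -(4 / 5 * (z * l ^ 2)) ≤ G) :
    JTest (dpT m z s l u G N) (dpE m z s l u c N) (dpR m (z / s ^ 2)) u := by
  have hl00 : 0 ≤ l := by linarith only [hl0]
  have hz' : z ≤ 16 / 625 := by nlinarith only [hM, hm]
  have hz : z ≤ 1 / 25 := by linarith only [hz']
  have hu2 : -(m * z / 2) ≤ u := by linarith only [hu1]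
  have hu : 0 < 1 + u := by linarith only [hM, hu1]
  have hM0 : 0 < m * z := by positivity
  have hM1 : m * z ≤ 1 := by linarith only [hM]
  have hW0 : 0 ≤ u ^ 2 / (1 + u) := by (clear * - hu; positivity)
  have hφ0 : 0 ≤ u ^ 2 / (1 + u) / 2 := by (clear * - hu; positivity)
  have hNφ : -(u ^ 2 / (1 + u) / 2) ≤ N := by
    have hφ := pa_phi_neg hu hu0
    linarith only [hN, hφ]
  have hσ : 1 / s ≤ 1.013338 := by
    have := pa_inv_le hs0 hs hz0.le hz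
    norm_num at this ⊢
    linarith only [hz', this]
  have hg : 1.46666 * l ^ 2 ≤ Real.exp (-(2 * l)) - 1 + 2 * l := by
    apply pa_psi hl00
    norm_num
    nlinarith only [hl]
  have ht3 := pa_cube2 hs0 hs hz0.le hz'
  have hS := pa_S2 (s := s) (by linarith only [hm] : 0 ≤ m) hz0.le hz' hM hl00 hl
  have hC := pa_C2 hs0 hs hz0.le hz' hl0 hl
  have hsa : 1.4335 ≤ 4 * s ^ 2 * Real.exp (-(2 * l)) := by
    have ha := pa_a2 hl
    have h1 : 0.9744 ≤ s ^ 2 := by rw [hs]; norm_num; linarith only [hz']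
    have h2 := mul_le_mul h1 ha (by norm_num) (sq_nonneg s)
    norm_num at h2 ⊢
    linarith only [h2]
  have hβ : 1.4335 ≤ 4 * s ^ 2 * Real.exp (-(2 * l)) + dpC z s l := by
    norm_num at hsa ⊢
    linarith only [hC, hsa]
  have hν : -0 ≤ dpC z s l := by norm_num; linarith only [hC]
  have hκ : 2 * (m + 1) / ((m - 1) * s) ≤ 2.1956 :=
    (pa_kappa hm hs0 hσ).trans (by norm_num)
  have hκ' : 2 * (m + 1) / ((m - 1) * s) - 2 * c / s ≤ 0.2095 :=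
    (pa_kappa' hm hs0 hσ hc0).trans (by norm_num)
  have hT := pa_lower (K := 11.06) hm hz0.le hs0 hs hu hl00 hg ht3 hG hS hβ hNφ hφ0 hκ
    (by norm_num) hM1 (by norm_num)
  have hP := pa_upper (K := 11.06) (u := u) hm hz0.le hs0 hs hu hl00 hz hc0 hc ht3 hG hS
    hν hNφ hφ0 hκ' (by norm_num) (by norm_num) hM1
  have he := pa_e1 (u := u) hm hz0.le hs0 hs hu hl00 hz hc0 hc hg (by norm_num) hsa hNφ hφ0
  have hρ : 0.2 + 0.5 * (m * z) ≤ dpR m (z / s ^ 2) := by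
    have := pa_rho hm hs0 hs hz0.le
    have h2 := sq_nonneg (m * z)
    norm_num at this ⊢
    linarith only [h2, this]
  have hq := pa_q hs0 hs hz0.le hz ((by norm_num : (0:ℝ) ≤ 49/50).trans (pa_c_ge hm hc0)) hc
  have hQ := pa_Qneg hm hz0 hl00 hu0
  have hzM : z ≤ 1 / 25 * (m * z) := by nlinarith only [hm, hz0]
  have hzl : z * l ≤ 1 / 25 * (m * z * l) := by
    have := mul_le_mul_of_nonneg_right hzM hl00
    linarith only [this]
  have hqu : (2 * c / s - 2 * s ^ 2 + 2 * (1 - c)) * u ≤ 0 :=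
    mul_nonpos_of_nonneg_of_nonpos hq.1 hu0
  have hMl : 0 ≤ m * z * l ^ 2 := by positivity
  have hE := pa_eneg (l := l) (s := s) (β := 1.4335) hW0 (hσ.trans (by norm_num)) hq.2 hu0
  have hT' := (pa_algT3 (M := m * z) (l := l) (W := u ^ 2 / (1 + u))
    (A := 28 / 25 * (1.46666 - 9 / 25) - 11.06 / 25) (β := 1.4335) (κ := 2.1956)
    hMl hM0 hQ hW0 (by norm_num) (by norm_num)).trans hT
  have hP' := hP.trans (pa_algP3 (M := m * z) (l := l) (W := u ^ 2 / (1 + u)) (z := z)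
    (A := 11.06 / 25 + 252 / 625) (ν := 0) (κ := 0.2095)
    hMl hM0 hl00 hW0 hQ hzl hqu (by norm_num) (by norm_num))
  exact pa_fin3 hM0 hM1 hz0 hzM hl00 hl hl1 hu0 hu2 hT' hP' (hE.trans he) hρ

/-- The pointwise test of block D on `m z ≤ 1`, `0 ≤ l`. -/
theorem fpos_le_one {m z s l u c G N : ℝ} (hm : 25 ≤ m) (hz0 : 0 < z) (hs0 : 0 < s)
    (hs : s ^ 2 = 1 - z) (hM : m * z ≤ 1) (hl0 : 0 ≤ l) (hl : l ≤ 1 / 2)
    (hl1 : 16 / 25 ≤ m * z → l ≤ 2 / 5)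
    (hc0 : 1 - 1 / (2 * m) ≤ c) (hc : c ≤ 1)
    (hu1 : 0 ≤ u → u ^ 2 ≤ 4 / 25 * (m * (z / s ^ 2))) (hu2 : -(m / 2 * z) ≤ u)
    (hN : Real.log (1 + u) - u ≤ N) (hG : -(4 / 5 * (z * l ^ 2)) ≤ G) :
    JTest (dpT m z s l u G N) (dpE m z s l u c N) (dpR m (z / s ^ 2)) u := by
  rcases le_total 0 u with h | h
  · rcases le_total l (2 / 5) with h' | h'
    · exact pa_pos1 hm hz0 hs0 hs hM hl0 h' hc0 hc h (hu1 h) hN hG
    · rcases le_total (m * z) (16 / 25) with h2 | h2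
      · exact pa_pos2 hm hz0 hs0 hs h2 h' hl hc0 hc h (hu1 h) hN hG
      · exact pa_pos1 hm hz0 hs0 hs hM hl0 (hl1 h2) hc0 hc h (hu1 h) hN hG
  · rcases le_total l (2 / 5) with h' | h'
    · exact pa_neg1 hm hz0 hs0 hs hM hl0 h' hc0 hc h hu2 hN hG
    · rcases le_total (m * z) (16 / 25) with h2 | h2
      · exact pa_neg2 hm hz0 hs0 hs h2 h' hl hl1 hc0 hc h hu2 hN hG
      · exact pa_neg1 hm hz0 hs0 hs hM hl0 (hl1 h2) hc0 hc h hu2 hN hG

end Vale.Agent.P237.AllN
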