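import Vale.Agent.P237.AllN.FPosA2
import Vale.Agent.P237.AllN.Brid2

/-!
# P237, block D, `l > 0`, `m z ≤ 1`: the correction term
-/

open Set

namespace Vale.Agent.P237.AllN

/-- algebra of the correction term: `q` bounds `(e^(2l) - 1 - 2l)/l²`, `s ≥ s1`, `r ≥ r1` -/
theorem pg_core {z s r Q l q L zb s1 r1 : ℝ} (hz0 : 0 ≤ z) (hzb : z ≤ zb) (hs1 : 0 < s1)
    (hr1 : 0 < r1) (hs : s1 ≤ s) (hs' : s ≤ 1) (hr : r1 ≤ r) (hrs : r ≤ s)
    (hsr : (s - r) * (s + r) = z * Q) (hl0 : 0 ≤ l) (hl : l ≤ L) (hq : 0 ≤ q)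
    (hQ : Q ≤ 2 * l + q * l ^ 2)
    (hnum : 4 * (zb * (2 + q * L)) ≤ (s1 + r1) * (s1 * (1 + s1) *
      (2 / 5 * ((1 + s1) * (s1 + r1) * (1 + r1)) - q)))
    (hq2 : q ≤ 2 / 5 * ((1 + s1) * (s1 + r1) * (1 + r1))) :
    -(4 / 5 * (z * l ^ 2)) ≤ 2 * (r / (1 + r) - s / (1 + s) + z / (s * (1 + s) ^ 2) * l) := by
  have hs0 : 0 < s := hs1.trans_le hs
  have hr0 : 0 < r := hr1.trans_le hr
  have hd : 0 ≤ s - r := by linarith only [hrs]
  -- `(s - r)(s1 + r1) ≤ zb (2 + q L) l`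
  have h1 : (s - r) * (s1 + r1) ≤ zb * (2 + q * L) * l := by
    have a1 : (s - r) * (s1 + r1) ≤ (s - r) * (s + r) :=
      mul_le_mul_of_nonneg_left (by linarith only [hs, hr]) hd
    have a2 : z * Q ≤ z * ((2 + q * L) * l) := by
      apply mul_le_mul_of_nonneg_left _ hz0
      refine hQ.trans ?_
      have : q * l * l ≤ q * L * l := by
        apply mul_le_mul_of_nonneg_right _ hl0
        exact mul_le_mul_of_nonneg_left hl hq
      nlinarith only [this]
    have a3 : 0 ≤ (2 + q * L) * l := by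
      have : 0 ≤ L := hl0.trans hl
      (clear * - hq this hl0; positivity)
    have a4 := mul_le_mul_of_nonneg_right hzb a3
    linarith only [hsr, a1, a2, a4]
  have hL0 : 0 ≤ L := hl0.trans hl
  have hB : s1 * (1 + s1) * (2 / 5 * ((1 + s1) * (s1 + r1) * (1 + r1)) - q) ≤
      s * (1 + s) * (2 / 5 * ((1 + s) * (s + r) * (1 + r)) - q) := by
    have b1 : 2 / 5 * ((1 + s1) * (s1 + r1) * (1 + r1)) ≤ 2 / 5 * ((1 + s) * (s + r) * (1 + r)) := by
      (clear * - hs hr hs1 hr1 hs0 hr0; gcongr)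
    have b2 : s1 * (1 + s1) ≤ s * (1 + s) := by (clear * - hs hs1 hs0; gcongr)
    exact mul_le_mul b2 (by linarith only [b1]) (by linarith only [hq2]) (by positivity)
  have h2 : 4 * (s - r) ≤ l * (s * (1 + s) * (2 / 5 * ((1 + s) * (s + r) * (1 + r)) - q)) := by
    have c0 : 0 < s1 + r1 := by linarith only [hs1, hr1]
    have c1 : 4 * (s - r) * (s1 + r1) ≤ (l * (s1 * (1 + s1) *
        (2 / 5 * ((1 + s1) * (s1 + r1) * (1 + r1)) - q))) * (s1 + r1) := by
      have := mul_le_mul_of_nonneg_right hnum hl0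
      linarith
    have c2 := le_of_mul_le_mul_right c1 c0
    exact c2.trans (mul_le_mul_of_nonneg_left hB hl0)
  have h3 : (s - r) * (1 + 2 * s + r) ≤
      l * (s * (1 + s) * (2 / 5 * ((1 + s) * (s + r) * (1 + r)) - q)) := by
    refine le_trans ?_ h2
    have : (s - r) * (1 + 2 * s + r) ≤ (s - r) * 4 :=
      mul_le_mul_of_nonneg_left (by linarith only [hs', hrs]) hd
    linarith only [this]
  have e : 2 * (r / (1 + r) - s / (1 + s) + z / (s * (1 + s) ^ 2) * l) + 4 / 5 * (z * l ^ 2) =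
      2 * z * (l * ((s + r) * (1 + r)) + 2 / 5 * l ^ 2 * (s * (1 + s) ^ 2 * ((s + r) * (1 + r))) -
        Q * (s * (1 + s))) / (s * (1 + s) ^ 2 * ((s + r) * (1 + r))) := by
    have e1 : r / (1 + r) - s / (1 + s) = -(z * Q) / ((s + r) * (1 + r) * (1 + s)) := by
      rw [← hsr]
      have : s + r ≠ 0 := by positivity
      field_simp
      ring
    rw [e1]
    field_simp
    ring
  have h4 : 0 ≤ l * ((s + r) * (1 + r)) + 2 / 5 * l ^ 2 * (s * (1 + s) ^ 2 * ((s + r) * (1 + r))) -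
        Q * (s * (1 + s)) := by
    have d1 : Q * (s * (1 + s)) ≤ (2 * l + q * l ^ 2) * (s * (1 + s)) :=
      mul_le_mul_of_nonneg_right hQ (by positivity)
    have d2 := mul_le_mul_of_nonneg_left h3 hl0
    nlinarith only [d1, d2]
  have h5 : 0 ≤ 2 * z * (l * ((s + r) * (1 + r)) + 2 / 5 * l ^ 2 *
      (s * (1 + s) ^ 2 * ((s + r) * (1 + r))) - Q * (s * (1 + s))) /
      (s * (1 + s) ^ 2 * ((s + r) * (1 + r))) := by (clear * - hz0 h4 hs0 hr0; positivity)
  linarith only [e, h5]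

theorem pg_exp {l : ℝ} (h0 : 0 ≤ l) (h1 : l ≤ 1 / 2) :
    Real.exp (2 * l) ≤ 1 + 2 * l + 2 * l ^ 2 + 16 / 9 * l ^ 3 := by
  have h2 := Real.exp_bound' (x := 2 * l) (by linarith only [h0]) (by linarith only [h1]) (n := 3) (by norm_num)
  simp only [Finset.sum_range_succ, Finset.sum_range_zero, Nat.factorial] at h2
  refine h2.trans (le_of_eq ?_)
  norm_num
  ring

/-- the correction term, `x² ≤ 1/25`, `l ≤ 2/5` or `x² ≤ 16/625`, `l ≤ 1/2` -/
theorem pg_corr {x l : ℝ} (hx : x ∈ Ioo (0 : ℝ) 1) (hl0 : 0 ≤ l)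
    (h : (x ^ 2 ≤ 1 / 25 ∧ l ≤ 2 / 5) ∨ (x ^ 2 ≤ 16 / 625 ∧ l ≤ 1 / 2)) :
    -(4 / 5 * (x ^ 2 * l ^ 2)) ≤
      2 * (bg (x * Real.exp l) - bg x + x ^ 2 / (sq x * (1 + sq x) ^ 2) * l) := by
  have hz0 : 0 ≤ x ^ 2 := sq_nonneg x
  have hl : l ≤ 1 / 2 := by rcases h with h | h <;> linarith only [h]
  have hxx : x ^ 2 ≤ 1 / 25 := by rcases h with h | h <;> linarith only [h]
  have hE : Real.exp l ^ 2 = Real.exp (2 * l) := by
    rw [← Real.exp_nat_mul]; norm_num
  have hE1 : 1 ≤ Real.exp (2 * l) := Real.one_le_exp (by linarith only [hl0])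
  have hEe : Real.exp (2 * l) ≤ 27183 / 10000 :=
    (Real.exp_le_exp.2 (by linarith only [hl])).trans pa_exp1
  have ht : (x * Real.exp l) ^ 2 = x ^ 2 * Real.exp (2 * l) := by rw [mul_pow, hE]
  have ht1 : 0 < 1 - (x * Real.exp l) ^ 2 := by
    rw [ht]
    have := mul_le_mul hxx hEe (Real.exp_pos _).le (by norm_num)
    norm_num at this
    linarith only [this]
  have hr2 : sq (x * Real.exp l) ^ 2 = 1 - x ^ 2 * Real.exp (2 * l) := by
    unfold sq
    rw [Real.sq_sqrt ht1.le, ht]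
  have hs2 : sq x ^ 2 = 1 - x ^ 2 := by
    unfold sq
    rw [Real.sq_sqrt (by linarith only [hxx])]
  have hs0 : 0 ≤ sq x := Real.sqrt_nonneg _
  have hr0 : 0 ≤ sq (x * Real.exp l) := Real.sqrt_nonneg _
  have hs1 : sq x ≤ 1 := by
    apply le_of_pow_le_pow_left₀ (n := 2) (by norm_num) (by norm_num)
    rw [hs2]; linarith only [hz0]
  have hrs : sq (x * Real.exp l) ≤ sq x := by
    apply le_of_pow_le_pow_left₀ (n := 2) (by norm_num) hs0
    rw [hs2, hr2]
    nlinarith only [hE1]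
  have hsr : (sq x - sq (x * Real.exp l)) * (sq x + sq (x * Real.exp l)) =
      x ^ 2 * (Real.exp (2 * l) - 1) := by
    have : (sq x - sq (x * Real.exp l)) * (sq x + sq (x * Real.exp l)) =
      sq x ^ 2 - sq (x * Real.exp l) ^ 2 := by ring
    rw [this, hs2, hr2]
    ring
  have hexp := pg_exp hl0 hl
  unfold bg
  generalize sq (x * Real.exp l) = r at *
  generalize sq x = s at *
  rcases h with ⟨h1, h2⟩ | ⟨h1, h2⟩
  · have hE45 : Real.exp (2 * l) ≤ 22256 / 10000 := by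
      refine (Real.exp_le_exp.2 ?_).trans pa_exp45
      linarith only [h2]
    have hQ : Real.exp (2 * l) - 1 ≤ 2 * l + 2.7112 * l ^ 2 := by
      have : 0 ≤ l ^ 2 * (2 / 5 - l) := mul_nonneg (sq_nonneg l) (by linarith only [h2])
      norm_num
      nlinarith only [hexp, this]
    refine pg_core (zb := 1 / 25) (s1 := 0.97979) (r1 := 0.9544) (L := 2 / 5) (q := 2.7112)
      hz0 h1 (by norm_num) (by norm_num) ?_ hs1 ?_ hrs hsr hl0 h2 (by norm_num) hQ
      (by norm_num) (by norm_num)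
    · apply le_of_pow_le_pow_left₀ (n := 2) (by norm_num) hs0
      rw [hs2]; norm_num; linarith only [hxx]
    · apply le_of_pow_le_pow_left₀ (n := 2) (by norm_num) hr0
      rw [hr2]
      have := mul_le_mul h1 hE45 (Real.exp_pos _).le (by norm_num)
      norm_num at this ⊢; linarith only [this]
  · have hQ : Real.exp (2 * l) - 1 ≤ 2 * l + 2.889 * l ^ 2 := by
      have : 0 ≤ l ^ 2 * (1 / 2 - l) := mul_nonneg (sq_nonneg l) (by linarith only [hl])
      norm_num
      nlinarith only [hexp, this]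
    refine pg_core (zb := 16 / 625) (s1 := 0.9871) (r1 := 0.9645) (L := 1 / 2) (q := 2.889)
      hz0 h1 (by norm_num) (by norm_num) ?_ hs1 ?_ hrs hsr hl0 h2 (by norm_num) hQ
      (by norm_num) (by norm_num)
    · apply le_of_pow_le_pow_left₀ (n := 2) (by norm_num) hs0
      rw [hs2]; norm_num; linarith only [h1]
    · apply le_of_pow_le_pow_left₀ (n := 2) (by norm_num) hr0
      rw [hr2]
      have := mul_le_mul h1 hEe (Real.exp_pos _).le (by norm_num)
      norm_num at this ⊢; linarith only [this]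

end Vale.Agent.P237.AllN
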