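import Vale.Agent.P237.AllN.FAllB
import Vale.Agent.P237.AllN.FPosB
import Vale.Agent.P237.AllN.FPosG
import Vale.Agent.P237.AllN.FNeg
import Vale.Agent.P237.AllN.FNegG

/-!
# P237, block D: the pointwise test for `l ≤ 0`, and for `0 < l`, `m x² ≤ 1`
-/

open Set

namespace Vale.Agent.P237.AllN

open Alm

/-- the two forms of `T` for `l ≤ 0` agree -/
theorem dmT_eq {m z s l u G N : ℝ} (hs : 0 < s) (hz : s ^ 2 = 1 - z) :
    dmT m z s l u G N = dnT m z s l u G N := by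
  have key : 3 * (z ^ 3 / s ^ 3) * ((m - 3) * (z / s ^ 2) - 7) =
      (3 * (m - 3) * (z ^ 2 / s ^ 5) - 9 * (z / s ^ 3)) +
      ((1 - m * (z / s ^ 2)) * (3 * z * (1 + z) / s) +
      (6 * z * (1 + 2 * z) / s + 3 * z ^ 2 * (1 + z) / s ^ 3)) := by
    have hz' : z = 1 - s ^ 2 := by linarith
    subst hz'
    field_simp
    ring
  unfold dmT dnT
  linear_combination l ^ 2 * key

variable {m : ℕ} {r τ τ' T : ℝ → ℝ} {x : ℝ}

/-- **region `l ≤ 0`** -/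
theorem IsTrans.jt_neg (hm : 15 ≤ m) (hr : IsProf r) (h : IsTrans m r τ τ' T)
    (hx : x ∈ Ioo (0 : ℝ) 1) (hl : lf τ x ≤ 0) :
    JTest (dmT m (x ^ 2) (sq x) (lf τ x) (uf τ τ' x) (jG τ x) (jN m (lf τ x) (uf τ τ' x)))
      (dpE m (x ^ 2) (sq x) (lf τ x) (uf τ τ' x) (fc m) (jN m (lf τ x) (uf τ τ' x)))
      (dpR m (x ^ 2 / sq x ^ 2)) (uf τ τ' x) := by
  have F := h.ffacts hm hr hx
  have hm' : (15 : ℝ) ≤ m := by exact_mod_cast hm
  have hm0 : (0 : ℝ) < m := by linarith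
  rw [dmT_eq F.s0 F.hs]
  obtain ⟨h1, h2, h3⟩ := fneg_region (G := jG τ x) hm' F.z0 F.s0 F.hs hl (F.lneg hl) F.u0 F.us
    F.uw F.ul F.c0 F.c1 (fa_N_ge hm0 (l := lf τ x)) (by
      rw [h.jG_eq hx]
      have := FNeg.corr_ge hx.1 hx.2 hl
      have e : x ^ 2 * lf τ x / (sq x * (1 + sq x) ^ 2) =
          x ^ 2 / (sq x * (1 + sq x) ^ 2) * lf τ x := by ring
      rw [e] at this
      exact this)
  exact ⟨h1, h2, fun hu => h3 (Or.inl hu)⟩

/-- **region `0 < l`, `m x² ≤ 1`** -/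
theorem IsTrans.jt_le_one (hm : 27 ≤ m) (hr : IsProf r) (h : IsTrans m r τ τ' T)
    (hN : (∫ y in (-1 : ℝ)..1, r y ^ (m - 1)) ^ m * aInt m ^ (m - 1) ≤
      aInt (m - 1) ^ m * (∫ y in (-1 : ℝ)..1, r y ^ m) ^ (m - 1))
    (hx : x ∈ Ioo (0 : ℝ) 1) (hX : (m : ℝ) * x ^ 2 ≤ 1) (hl : 0 < lf τ x) :
    JTest (dpT m (x ^ 2) (sq x) (lf τ x) (uf τ τ' x) (jG τ x) (jN m (lf τ x) (uf τ τ' x)))
      (dpE m (x ^ 2) (sq x) (lf τ x) (uf τ τ' x) (fc m) (jN m (lf τ x) (uf τ τ' x)))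
      (dpR m (x ^ 2 / sq x ^ 2)) (uf τ τ' x) := by
  have F := h.ffacts (by omega) hr hx
  have S := h.fsteps hm hr hN hx
  have hm' : (27 : ℝ) ≤ m := by exact_mod_cast hm
  have hm0 : (0 : ℝ) < m := by linarith
  have hl12 : lf τ x ≤ 1 / 2 := by
    rcases le_total ((m : ℝ) * x ^ 2) (16 / 25) with h1 | h1
    · exact S.st1 h1
    · have := S.st2 h1 (by linarith); linarith
  refine fpos_le_one (by linarith) F.z0 F.s0 F.hs hX hl.le hl12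
    (fun h1 => S.st2 h1 (by linarith)) F.c0 F.c1 F.uw (by linarith [h.fin_u_ge' (by omega) hr hx])
    (fa_N_ge hm0) ?_
  rw [h.jG_eq hx]
  refine pg_corr hx hl.le ?_
  rcases le_total ((m : ℝ) * x ^ 2) (16 / 25) with h1 | h1
  · right
    exact ⟨by nlinarith, S.st1 h1⟩
  · left
    exact ⟨by nlinarith, S.st2 h1 (by linarith)⟩

end Vale.Agent.P237.AllN
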