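import Vale.Agent.P237.AllN.KronEx
import Vale.Agent.P237.AllN.Brid1

/-!
# P237, block D: lower bounds for the correction `2 (bg (x e^l) - bg x + z l / (s (1+s)²))`, `l ≥ 0`
-/

namespace Vale.Agent.P237.AllN

open PolyPos

/-- the polynomial of the correction bound (`s = √(1-z)`, `q` the coefficient) -/
noncomputable def fgH (s l q : ℝ) : ℝ :=
  s ^ 5 * (1 + s) ^ 2 * q - (1 - s) ^ 2 * (s ^ 3 + 1 / 2 * (1 + s) ^ 2 * q * l) ^ 2 -
    (2 + 4 / 3 * l + 2 / 3 * l ^ 2 + 8 / 25 * l ^ 3) * s ^ 8 -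
    (2 + 2 * l + 4 / 3 * l ^ 2 + 2 / 3 * l ^ 3 + 8 / 25 * l ^ 4) *
      (2 * (1 - s) * s ^ 4 * (s ^ 3 + 1 / 2 * (1 + s) ^ 2 * q * l) +
        (1 - s) ^ 2 * l * (s ^ 3 + 1 / 2 * (1 + s) ^ 2 * q * l) ^ 2)

/-- Taylor bound of `e^(2l)` -/
theorem fg_exp {l : ℝ} (h0 : 0 ≤ l) (h1 : 2 * l ≤ 1) :
    Real.exp (2 * l) ≤ 1 + 2 * l + 2 * l ^ 2 + 4 / 3 * l ^ 3 + 2 / 3 * l ^ 4 + 8 / 25 * l ^ 5 := by
  have h := Real.exp_bound' (x := 2 * l) (by linarith only [h0]) h1 (n := 5) (by norm_num)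
  refine h.trans (le_of_eq ?_)
  simp only [Finset.sum_range_succ, Finset.sum_range_zero, Nat.factorial]
  push_cast
  ring

/-- the correction bound from the polynomial inequality -/
theorem fg_core {x l q : ℝ} (hx1 : x ^ 2 < 1) (hl0 : 0 ≤ l) (hl : 2 * l ≤ 1) (hq : 0 ≤ q)
    (hH : 0 ≤ fgH (sq x) l q) :
    -(x ^ 2 * q / (1 - x ^ 2) ^ 2 * l ^ 2) ≤
      2 * (bg (x * Real.exp l) - bg x + x ^ 2 / (sq x * (1 + sq x) ^ 2) * l) := by
  set s : ℝ := sq x with hs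
  have hs2 : s ^ 2 = 1 - x ^ 2 := by
    rw [hs, sq, Real.sq_sqrt (by linarith)]
  have hs0 : 0 < s := by
    rw [hs, sq]
    exact Real.sqrt_pos.2 (by linarith only [hx1])
  have hs1 : s ≤ 1 := by nlinarith only [hs2]
  have hz : x ^ 2 = (1 - s) * (1 + s) := by linarith
  have h1s : 0 < 1 + s := by linarith
  have hp : 0 ≤ 1 - s := by linarith only [hs1]
  have hzs : 1 - x ^ 2 = s ^ 2 := hs2.symm
  -- the two functions
  set NG : ℝ := s ^ 5 - (1 - s) * (s ^ 3 * l + 1 / 2 * (1 + s) ^ 2 * q * l ^ 2) with hNG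
  set dd : ℝ := s ^ 4 + (1 - s) * (s ^ 3 * l + 1 / 2 * (1 + s) ^ 2 * q * l ^ 2) with hdd
  have hM : 0 ≤ s ^ 3 * l + 1 / 2 * (1 + s) ^ 2 * q * l ^ 2 := by (clear * - hs0 hl0 hq; positivity)
  have hdd0 : 0 < dd := by
    have : 0 < s ^ 4 := by positivity
    have : 0 ≤ (1 - s) * (s ^ 3 * l + 1 / 2 * (1 + s) ^ 2 * q * l ^ 2) := mul_nonneg hp hM
    (clear hl hH hz h1s hzs hdd; linarith)
  have hsum : NG + dd = s ^ 4 * (1 + s) := by
    rw [hNG, hdd]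
    ring
  have hD0 : 0 < s ^ 4 * (1 + s) := by (clear * - hs0; positivity)
  -- the main inequality
  have key : NG ^ 2 ≤ (1 - x ^ 2 * Real.exp (2 * l)) * dd ^ 2 := by
    have he := fg_exp hl0 hl
    have h1 : 1 - x ^ 2 * (1 + 2 * l + 2 * l ^ 2 + 4 / 3 * l ^ 3 + 2 / 3 * l ^ 4 +
        8 / 25 * l ^ 5) ≤ 1 - x ^ 2 * Real.exp (2 * l) := by
      have := mul_le_mul_of_nonneg_left he (sq_nonneg x)
      linarith only [this]
    refine le_trans ?_ (mul_le_mul_of_nonneg_right h1 (sq_nonneg dd))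
    have h2 : 0 ≤ (1 - s) * (1 + s) * l ^ 2 * fgH s l q := by (clear * - hs1 hs0 hH; positivity)
    have h3 : (1 - x ^ 2 * (1 + 2 * l + 2 * l ^ 2 + 4 / 3 * l ^ 3 + 2 / 3 * l ^ 4 +
        8 / 25 * l ^ 5)) * dd ^ 2 - NG ^ 2 = (1 - s) * (1 + s) * l ^ 2 * fgH s l q := by
      rw [hz, hNG, hdd, fgH]
      ring
    linarith only [h2, h3]
  have hbg : NG / (s ^ 4 * (1 + s)) ≤ bg (x * Real.exp l) := by
    have hsq0 : 0 ≤ sq (x * Real.exp l) := Real.sqrt_nonneg _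
    rcases le_or_gt NG 0 with hn | hn
    · have : NG / (s ^ 4 * (1 + s)) ≤ 0 := div_nonpos_of_nonpos_of_nonneg hn hD0.le
      refine this.trans ?_
      unfold bg
      (clear * - hsq0; positivity)
    · have h4 : NG / dd ≤ sq (x * Real.exp l) := by
        unfold sq
        apply Real.le_sqrt_of_sq_le
        have e1 : (x * Real.exp l) ^ 2 = x ^ 2 * Real.exp (2 * l) := by
          rw [mul_pow, ← Real.exp_nat_mul]
          norm_num
        rw [e1, div_pow, div_le_iff₀ (by (clear * - hs0 hs1 hl0 hq; positivity))]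
        exact key
      have h5 : 0 < NG / dd := div_pos hn hdd0
      unfold bg
      rw [div_le_div_iff₀ hD0 (by linarith only [h4, h5]), ← hsum]
      have h6 : NG ≤ sq (x * Real.exp l) * dd := by
        rw [div_le_iff₀ hdd0] at h4
        exact h4
      nlinarith only [h6]
  have e2 : NG / (s ^ 4 * (1 + s)) = s / (1 + s) - x ^ 2 / (s * (1 + s) ^ 2) * l -
      1 / 2 * (x ^ 2 * q / (1 - x ^ 2) ^ 2 * l ^ 2) := by
    rw [hzs, hz, hNG]
    field_simp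
    ring
  have e3 : bg x = s / (1 + s) := by rw [bg, ← hs]
  rw [e3]
  linarith only [hbg, e2]

/-- the same polynomial as an expression, `q = a + b z + c z²` -/
def fgE (a b c : Fr) : Ex :=
  let s := Ex.X
  let l := Ex.Y
  let k (n : ℤ) (d : ℕ) : Ex := Ex.c ⟨n, d⟩
  let z := k 1 0 - s * s
  let p := k 1 0 - s
  let r := k 1 0 + s
  let q := Ex.c a + Ex.c b * z + Ex.c c * (z * z)
  let s2 := s * s
  let s3 := s2 * s
  let s4 := s2 * s2
  let M := s3 + k 1 1 * (r * r) * q * l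
  s4 * s * (r * r) * q - p * p * (M * M) -
    (k 2 0 + k 4 2 * l + k 2 2 * (l * l) + k 8 24 * (l * (l * l))) * (s4 * s4) -
    (k 2 0 + k 2 0 * l + k 4 2 * (l * l) + k 2 2 * (l * (l * l)) +
      k 8 24 * ((l * l) * (l * l))) *
      (k 2 0 * p * s4 * M + p * p * l * (M * M))

theorem fgE_R (a b c : Fr) (s l : ℝ) :
    (fgE a b c).R s l = fgH s l (a.R + b.R * (1 - s ^ 2) + c.R * (1 - s ^ 2) ^ 2) := by
  simp only [fgE, Ex.R_sub, Ex.R_mul, Ex.R_X, Ex.R_add, Ex.R_c, Ex.R_Y, fgH]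
  simp only [show ∀ (n : ℤ) (d : ℕ), Fr.R ⟨n, d⟩ = (n : ℝ) / ((d : ℝ) + 1) from fun _ _ => rfl]
  push_cast
  ring

/-- the correction bound from the check of the expression -/
theorem fg_of_check {B L f : ℕ} {a b c : Fr} {A' D' : ℕ} {A : ℤ} {D : ℕ} (hD : 0 < D) (hD' : 0 < D')
    (hA : A < D) (hA' : 0 < A')
    (h : Ex.nn B L f A D D 0 A' D' (fgE a b c) = true)
    {x l : ℝ} (hx1 : x ^ 2 < 1) (hx : (D : ℝ) ^ 2 * x ^ 2 ≤ (D : ℝ) ^ 2 - (A : ℝ) ^ 2)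
    (hA0 : 0 ≤ A)
    (hl0 : 0 ≤ l) (hl1 : (D' : ℝ) * l ≤ A') (hl : 2 * l ≤ 1)
    (hq : 0 ≤ a.R + b.R * x ^ 2 + c.R * (x ^ 2) ^ 2) :
    -(x ^ 2 * (a.R + b.R * x ^ 2 + c.R * (x ^ 2) ^ 2) / (1 - x ^ 2) ^ 2 * l ^ 2) ≤
      2 * (bg (x * Real.exp l) - bg x + x ^ 2 / (sq x * (1 + sq x) ^ 2) * l) := by
  apply fg_core hx1 hl0 hl hq
  have hs2 : sq x ^ 2 = 1 - x ^ 2 := by
    rw [sq, Real.sq_sqrt (by linarith only [hx1])]
  have hs0 : 0 ≤ sq x := Real.sqrt_nonneg _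
  have hs1 : sq x ≤ 1 := by nlinarith only [hs2]
  have hDr : (0 : ℝ) < D := by exact_mod_cast hD
  have hAr : (0 : ℝ) ≤ A := by exact_mod_cast hA0
  have h1 : (A : ℝ) ≤ D * sq x := by
    have : (A : ℝ) ^ 2 ≤ (D * sq x) ^ 2 := by
      rw [mul_pow, hs2]
      linarith only [hx]
    exact le_of_sq_le_sq this (by positivity)
  have h2 := Ex.nn_closed hD hD' hA (by exact_mod_cast hA') h (x := sq x) (y := l) h1
    (by push_cast; nlinarith only [hs1]) (by push_cast; (clear * - hD' hl0; positivity)) (by push_cast; exact hl1)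
  rw [fgE_R] at h2
  have e : (1 - sq x ^ 2) = x ^ 2 := by linarith only [hs2]
  rw [e] at h2
  exact h2

theorem fg1_40_check : Ex.nn (2 ^ 512) 40 4000 4 5 5 0 2 5
    (fgE ⟨27, 39⟩ ⟨3, 9⟩ ⟨29, 9⟩) = true := by
  (clear * -; decide +kernel)

/-- correction bound, `0 ≤ l ≤ 2/5`, `x² ≤ 9/25` -/
theorem fg1_40 {x l : ℝ} (hx : x ^ 2 ≤ 9 / 25) (hl0 : 0 ≤ l) (hl1 : l ≤ 2 / 5) :
    -(x ^ 2 * (27 / 40 + 3 / 10 * x ^ 2 + 29 / 10 * (x ^ 2) ^ 2) / (1 - x ^ 2) ^ 2 * l ^ 2) ≤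
      2 * (bg (x * Real.exp l) - bg x + x ^ 2 / (sq x * (1 + sq x) ^ 2) * l) := by
  have h := fg_of_check (x := x) (l := l) (by norm_num) (by norm_num) (by norm_num) (by norm_num)
    fg1_40_check (by linarith) (by push_cast; linarith only [hx]) (by norm_num) hl0 (by push_cast; linarith only [hl1])
    (by linarith) (by
      simp only [Fr.R]
      push_cast
      nlinarith only [])
  simp only [Fr.R] at h
  push_cast at h
  norm_num at h ⊢
  linarith only [h]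

theorem fg1_44_check : Ex.nn (2 ^ 512) 40 4000 40 49 49 0 11 25
    (fgE ⟨97, 99⟩ ⟨-9, 3⟩ ⟨91, 9⟩) = true := by
  (clear * -; decide +kernel)

/-- correction bound, `0 ≤ l ≤ 11/25`, `x² ≤ 1/3` -/
theorem fg1_44 {x l : ℝ} (hx : x ^ 2 ≤ 1 / 3) (hl0 : 0 ≤ l) (hl1 : l ≤ 11 / 25) :
    -(x ^ 2 * (97 / 100 - 9 / 4 * x ^ 2 + 91 / 10 * (x ^ 2) ^ 2) / (1 - x ^ 2) ^ 2 * l ^ 2) ≤
      2 * (bg (x * Real.exp l) - bg x + x ^ 2 / (sq x * (1 + sq x) ^ 2) * l) := by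
  have h := fg_of_check (x := x) (l := l) (by norm_num) (by norm_num) (by norm_num) (by norm_num)
    fg1_44_check (by linarith only [hx]) (by push_cast; linarith only [hx]) (by norm_num) hl0 (by push_cast; linarith only [hl1])
    (by linarith only [hl1]) (by
      simp only [Fr.R]
      push_cast
      nlinarith only [])
  simp only [Fr.R] at h
  push_cast at h
  norm_num at h
  rw [sub_eq_add_neg (97 / 100 : ℝ)]
  exact h

theorem fg1_43_check : Ex.nn (2 ^ 512) 40 4000 22 25 25 0 43 100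
    (fgE ⟨86, 124⟩ ⟨19, 39⟩ ⟨2, 0⟩) = true := by
  (clear * -; decide +kernel)

/-- correction bound, `0 ≤ l ≤ 43/100`, `x² ≤ 9/40` -/
theorem fg1_43 {x l : ℝ} (hx : x ^ 2 ≤ 9 / 40) (hl0 : 0 ≤ l) (hl1 : l ≤ 43 / 100) :
    -(x ^ 2 * (86 / 125 + 19 / 40 * x ^ 2 + 2 * (x ^ 2) ^ 2) / (1 - x ^ 2) ^ 2 * l ^ 2) ≤
      2 * (bg (x * Real.exp l) - bg x + x ^ 2 / (sq x * (1 + sq x) ^ 2) * l) := by
  have h := fg_of_check (x := x) (l := l) (by norm_num) (by norm_num) (by norm_num) (by norm_num)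
    fg1_43_check (by (clear * - hx; linarith)) (by push_cast; linarith only [hx]) (by norm_num) hl0 (by push_cast; linarith)
    (by linarith only [hl1]) (by
      simp only [Fr.R]
      push_cast
      nlinarith only [])
  simp only [Fr.R] at h
  push_cast at h
  norm_num at h ⊢
  linarith only [h]

theorem fg1_475_check : Ex.nn (2 ^ 512) 40 4000 22 25 25 0 19 40
    (fgE ⟨143, 199⟩ ⟨1, 1⟩ ⟨3, 0⟩) = true := by
  (clear * -; decide +kernel)

/-- correction bound, `0 ≤ l ≤ 19/40`, `x² ≤ 9/40` -/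
theorem fg1_475 {x l : ℝ} (hx : x ^ 2 ≤ 9 / 40) (hl0 : 0 ≤ l) (hl1 : l ≤ 19 / 40) :
    -(x ^ 2 * (143 / 200 + 1 / 2 * x ^ 2 + 3 * (x ^ 2) ^ 2) / (1 - x ^ 2) ^ 2 * l ^ 2) ≤
      2 * (bg (x * Real.exp l) - bg x + x ^ 2 / (sq x * (1 + sq x) ^ 2) * l) := by
  have h := fg_of_check (x := x) (l := l) (by norm_num) (by norm_num) (by norm_num) (by norm_num)
    fg1_475_check (by linarith only [hx]) (by push_cast; linarith only [hx]) (by norm_num) hl0 (by push_cast; linarith only [hl1])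
    (by linarith only [hl1]) (by
      simp only [Fr.R]
      push_cast
      nlinarith only [])
  simp only [Fr.R] at h
  push_cast at h
  norm_num at h ⊢
  linarith only [h]

theorem fg1_50_check : Ex.nn (2 ^ 512) 40 4000 63 64 64 0 1 2
    (fgE ⟨29, 39⟩ ⟨19, 24⟩ ⟨3, 1⟩) = true := by
  (clear * -; decide +kernel)

/-- correction bound, `0 ≤ l ≤ 1/2`, `x² ≤ 3/100` -/
theorem fg1_50 {x l : ℝ} (hx : x ^ 2 ≤ 3 / 100) (hl0 : 0 ≤ l) (hl1 : l ≤ 1 / 2) :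
    -(x ^ 2 * (29 / 40 + 19 / 25 * x ^ 2 + 3 / 2 * (x ^ 2) ^ 2) / (1 - x ^ 2) ^ 2 * l ^ 2) ≤
      2 * (bg (x * Real.exp l) - bg x + x ^ 2 / (sq x * (1 + sq x) ^ 2) * l) := by
  have h := fg_of_check (x := x) (l := l) (by norm_num) (by norm_num) (by norm_num) (by norm_num)
    fg1_50_check (by linarith) (by push_cast; linarith) (by norm_num) hl0 (by push_cast; linarith only [hl1])
    (by linarith only [hl1]) (by
      simp only [Fr.R]
      push_cast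
      nlinarith only [])
  simp only [Fr.R] at h
  push_cast at h
  norm_num at h ⊢
  linarith only [h]

end Vale.Agent.P237.AllN
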