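import Vale.Agent.P237.AllN.Kron

/-!
# Polynomial expressions in two variables, positivity on trees of boxes
-/

namespace Vale.Agent.P237.AllN.PolyPos

/-- polynomial expressions -/
inductive Ex
  | c (a : Fr)
  | X
  | Y
  | add (a b : Ex)
  | sub (a b : Ex)
  | mul (a b : Ex)

instance : Add Ex := ⟨Ex.add⟩
instance : Sub Ex := ⟨Ex.sub⟩
instance : Mul Ex := ⟨Ex.mul⟩

/-- real value -/
noncomputable def Ex.R (x y : ℝ) : Ex → ℝ
  | .c a => a.R
  | .X => x
  | .Y => y
  | .add a b => a.R x y + b.R x y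
  | .sub a b => a.R x y - b.R x y
  | .mul a b => a.R x y * b.R x y

/-- equation lemmas of the match, generated once here -/
theorem Ex.R_c286 (x y : ℝ) (a : Fr) : (Ex.c a).R x y = a.R := by simp only [Ex.R]
theorem Ex.R_c (x y : ℝ) (a : Fr) : (Ex.c a).R x y = a.R := rfl
theorem Ex.R_X (x y : ℝ) : Ex.X.R x y = x := rfl
theorem Ex.R_Y (x y : ℝ) : Ex.Y.R x y = y := rfl
theorem Ex.R_add (x y : ℝ) (a b : Ex) : (a + b).R x y = a.R x y + b.R x y := rfl
theorem Ex.R_sub (x y : ℝ) (a b : Ex) : (a - b).R x y = a.R x y - b.R x y := rfl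
theorem Ex.R_mul (x y : ℝ) (a b : Ex) : (a * b).R x y = a.R x y * b.R x y := rfl

/-- encoded value -/
noncomputable def Ex.K (b e : ℕ) (kx ky : KV) (E : Ex) : KV :=
  Ex.rec (motive := fun _ => KV) KV.c kx ky (fun _ _ p q => KV.lin b e 1 p q)
    (fun _ _ p q => KV.lin b e (-1) p q) (fun _ _ p q => KV.mul p q) E

theorem Ex.sem (b e : ℕ) {kx ky : KV} {fx fy : ℝ → ℝ → ℝ} (hx : Sem b e kx fx)
    (hy : Sem b e ky fy) : ∀ E : Ex, Sem b e (Ex.K b e kx ky E) fun t s => E.R (fx t s) (fy t s)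
  | .c a => sem_c b e a
  | .X => hx
  | .Y => hy
  | .add p q => by
    have h := sem_lin (σ := 1) rfl (Ex.sem b e hx hy p) (Ex.sem b e hx hy q)
    simp only [Int.cast_one, one_mul] at h
    exact h
  | .sub p q => by
    have h := sem_lin (σ := -1) rfl (Ex.sem b e hx hy p) (Ex.sem b e hx hy q)
    simp only [Int.cast_neg, Int.cast_one, neg_mul, one_mul, ← sub_eq_add_neg] at h
    exact h
  | .mul p q => sem_mul (Ex.sem b e hx hy p) (Ex.sem b e hx hy q)

/-- positivity check of an expression on a box -/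
noncomputable def Ex.nn (b L fuel : ℕ) (A B : ℤ) (D : ℕ) (A' B' : ℤ) (D' : ℕ) (E : Ex) : Bool :=
  KV.nn b L fuel (Ex.K b (b ^ L) (KV.x (b ^ L) A B D) (KV.y b A' B' D') E)

theorem Ex.nn_sound {b L fuel : ℕ} {A B : ℤ} {D : ℕ} {A' B' : ℤ} {D' : ℕ} {E : Ex}
    (hD : 0 < D) (hD' : 0 < D') (h : Ex.nn b L fuel A B D A' B' D' E = true) {x y : ℝ}
    (h0 : (A : ℝ) ≤ D * x) (h1 : (D : ℝ) * x < B) (h2 : (A' : ℝ) ≤ D' * y)
    (h3 : (D' : ℝ) * y < B') : 0 ≤ E.R x y := by
  have key : ∀ {A B : ℤ} {D : ℕ} {x : ℝ}, 0 < D → (A : ℝ) ≤ D * x → (D : ℝ) * x < B →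
      ∃ t : ℝ, 0 ≤ t ∧ (A + B * t) / (D * (1 + t)) = x := by
    intro A B D x hD h0 h1
    have hD' : (0 : ℝ) < D := by exact_mod_cast hD
    have hd : 0 < (B : ℝ) - D * x := by linarith only [h1]
    refine ⟨(D * x - A) / (B - D * x), div_nonneg (by linarith only [h0]) hd.le, ?_⟩
    have h2 : (1 : ℝ) + (D * x - A) / (B - D * x) = (B - A) / (B - D * x) := by
      field_simp
      ring
    have h3 : (0 : ℝ) < B - A := by linarith only [h0, h1]
    rw [h2]
    field_simp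
    ring
  obtain ⟨t, ht, hxt⟩ := key hD h0 h1
  obtain ⟨s, hs, hys⟩ := key hD' h2 h3
  have hS := Ex.sem b (b ^ L) (sem_x b (b ^ L) A B hD) (sem_y b (b ^ L) A' B' hD') E
  have := PolyPos.nn_sound hS h ht hs
  simpa only [hxt, hys] using this

theorem Ex.continuous_left (y : ℝ) : ∀ E : Ex, Continuous fun x => E.R x y
  | .c _ => continuous_const
  | .X => continuous_id
  | .Y => continuous_const
  | .add p q => (Ex.continuous_left y p).add (Ex.continuous_left y q)
  | .sub p q => (Ex.continuous_left y p).sub (Ex.continuous_left y q)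
  | .mul p q => (Ex.continuous_left y p).mul (Ex.continuous_left y q)

theorem Ex.continuous_right (x : ℝ) : ∀ E : Ex, Continuous fun y => E.R x y
  | .c _ => continuous_const
  | .X => continuous_const
  | .Y => continuous_id
  | .add p q => (Ex.continuous_right x p).add (Ex.continuous_right x q)
  | .sub p q => (Ex.continuous_right x p).sub (Ex.continuous_right x q)
  | .mul p q => (Ex.continuous_right x p).mul (Ex.continuous_right x q)

theorem Ex.nn_closed {b L fuel : ℕ} {A B : ℤ} {D : ℕ} {A' B' : ℤ} {D' : ℕ} {E : Ex}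
    (hD : 0 < D) (hD' : 0 < D') (hAB : A < B) (hAB' : A' < B')
    (h : Ex.nn b L fuel A B D A' B' D' E = true) {x y : ℝ}
    (h0 : (A : ℝ) ≤ D * x) (h1 : (D : ℝ) * x ≤ B) (h2 : (A' : ℝ) ≤ D' * y)
    (h3 : (D' : ℝ) * y ≤ B') : 0 ≤ E.R x y := by
  have hDr : (0 : ℝ) < D := by exact_mod_cast hD
  have hDr' : (0 : ℝ) < D' := by exact_mod_cast hD'
  have hABr : (A : ℝ) / D < B / D := div_lt_div_of_pos_right (by exact_mod_cast hAB) hDr
  have hABr' : (A' : ℝ) / D' < B' / D' := div_lt_div_of_pos_right (by exact_mod_cast hAB') hDr'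
  have base : ∀ x y : ℝ, x ∈ Set.Ico ((A : ℝ) / D) (B / D) → y ∈ Set.Ico ((A' : ℝ) / D') (B' / D') →
      0 ≤ E.R x y := by
    intro x y hx hy
    refine Ex.nn_sound hD hD' h ?_ ?_ ?_ ?_
    · have := hx.1
      rw [div_le_iff₀ hDr] at this
      linarith only [this]
    · have := hx.2
      rw [lt_div_iff₀ hDr] at this
      linarith only [this]
    · have := hy.1
      rw [div_le_iff₀ hDr'] at this
      linarith only [this]
    · have := hy.2
      rw [lt_div_iff₀ hDr'] at this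
      linarith only [this]
  have hy : y ∈ Set.Icc ((A' : ℝ) / D') (B' / D') := by
    refine ⟨?_, ?_⟩
    · rw [div_le_iff₀ hDr']
      linarith only [h2]
    · rw [le_div_iff₀ hDr']
      linarith only [h3]
  have hx : x ∈ Set.Icc ((A : ℝ) / D) (B / D) := by
    refine ⟨?_, ?_⟩
    · rw [div_le_iff₀ hDr]
      linarith only [h0]
    · rw [le_div_iff₀ hDr]
      linarith only [h1]
  have hstep : ∀ x ∈ Set.Ico ((A : ℝ) / D) (B / D), 0 ≤ E.R x y := by
    intro x hx
    have hcl : IsClosed {y : ℝ | 0 ≤ E.R x y} :=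
      isClosed_le continuous_const (Ex.continuous_right x E)
    have hsub : Set.Ico ((A' : ℝ) / D') (B' / D') ⊆ {y : ℝ | 0 ≤ E.R x y} :=
      fun y hy => base x y hx hy
    have := hcl.closure_subset_iff.2 hsub
    rw [closure_Ico hABr'.ne] at this
    exact this hy
  have hcl : IsClosed {x : ℝ | 0 ≤ E.R x y} :=
    isClosed_le continuous_const (Ex.continuous_left y E)
  have := hcl.closure_subset_iff.2 (fun x hx => hstep x hx)
  rw [closure_Ico hABr.ne] at this
  exact this hx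

/-- check on a tree of boxes: on leaves all members of one family are nonnegative, on `out` boxes
the region expression is positive -/
noncomputable def tchkE (b L fuel : ℕ) (F : List (List Ex)) (Lo : Ex) (t : PT) :
    ℤ → ℤ → ℕ → ℤ → ℤ → ℕ → Bool :=
  PT.rec (motive := fun _ => ℤ → ℤ → ℕ → ℤ → ℤ → ℕ → Bool)
    (fun i A B D A' B' D' => (F.getD i [Ex.c ⟨-1, 0⟩]).all (Ex.nn b L fuel A B D A' B' D'))
    (fun A B D A' B' D' => Ex.nn b L fuel A B D A' B' D' (Lo - Ex.c ⟨1, 999999⟩))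
    (fun _ _ l r A B D A' B' D' =>
      l (2 * A) (A + B) (2 * D) A' B' D' && r (A + B) (2 * B) (2 * D) A' B' D')
    (fun _ _ l r A B D A' B' D' =>
      l A B D (2 * A') (A' + B') (2 * D') && r A B D (A' + B') (2 * B') (2 * D')) t

theorem tchkE_sound {b L fuel : ℕ} {F : List (List Ex)} {Lo : Ex} {x y : ℝ}
    (hLo : Lo.R x y ≤ 0) :
    ∀ (t : PT) (A B : ℤ) (D : ℕ) (A' B' : ℤ) (D' : ℕ), 0 < D → 0 < D' → A < B → A' < B' →
      tchkE b L fuel F Lo t A B D A' B' D' = true →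
      (A : ℝ) ≤ D * x → (D : ℝ) * x ≤ B → (A' : ℝ) ≤ D' * y → (D' : ℝ) * y ≤ B' →
      ∃ i, ∀ E ∈ F.getD i [Ex.c ⟨-1, 0⟩], 0 ≤ E.R x y
  | .leaf i, A, B, D, A', B', D', hD, hD', hA, hA', h, h0, h1, h2, h3 => by
    refine ⟨i, fun E hE => ?_⟩
    have h : (F.getD i [Ex.c ⟨-1, 0⟩]).all (Ex.nn b L fuel A B D A' B' D') = true := h
    rw [List.all_eq_true] at h
    exact Ex.nn_closed hD hD' hA hA' (h E hE) h0 h1 h2 h3
  | .out, A, B, D, A', B', D', hD, hD', hA, hA', h, h0, h1, h2, h3 => by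
    exfalso
    have h : Ex.nn b L fuel A B D A' B' D' (Lo - Ex.c ⟨1, 999999⟩) = true := h
    have h4 := Ex.nn_closed hD hD' hA hA' h h0 h1 h2 h3
    rw [Ex.R_sub, Ex.R_c] at h4
    have h5 : (0 : ℝ) < Fr.R ⟨1, 999999⟩ := by
      unfold Fr.R
      norm_num
    linarith only [hLo, h4, h5]
  | .sx l r, A, B, D, A', B', D', hD, hD', hA, hA', h, h0, h1, h2, h3 => by
    have h : (tchkE b L fuel F Lo l (2 * A) (A + B) (2 * D) A' B' D' &&
      tchkE b L fuel F Lo r (A + B) (2 * B) (2 * D) A' B' D') = true := h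
    rw [Bool.and_eq_true] at h
    rcases lt_or_ge (((2 * D : ℕ) : ℝ) * x) ((A + B : ℤ) : ℝ) with h4 | h4
    · exact tchkE_sound hLo l _ _ _ _ _ _ (by omega) hD' (by omega) hA' h.1
        (by push_cast at *; linarith only [h0]) h4.le h2 h3
    · exact tchkE_sound hLo r _ _ _ _ _ _ (by omega) hD' (by omega) hA' h.2 h4
        (by push_cast at *; linarith only [h1]) h2 h3
  | .sy l r, A, B, D, A', B', D', hD, hD', hA, hA', h, h0, h1, h2, h3 => by
    have h : (tchkE b L fuel F Lo l A B D (2 * A') (A' + B') (2 * D') &&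
      tchkE b L fuel F Lo r A B D (A' + B') (2 * B') (2 * D')) = true := h
    rw [Bool.and_eq_true] at h
    rcases lt_or_ge (((2 * D' : ℕ) : ℝ) * y) ((A' + B' : ℤ) : ℝ) with h4 | h4
    · exact tchkE_sound hLo l _ _ _ _ _ _ hD (by omega) hA (by omega) h.1 h0 h1
        (by push_cast at *; linarith only [h2]) h4.le
    · exact tchkE_sound hLo r _ _ _ _ _ _ hD (by omega) hA (by omega) h.2 h0 h1 h4
        (by push_cast at *; linarith only [h3])

/-- the four polynomials of the psd test: `a - e`, `ab - Wd²`, `ac - Wf²`, determinant -/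
def psdE (E : Ent Ex) : List Ex :=
  [E.a - E.e, E.a * E.b - E.W * (E.d * E.d), E.a * E.c - E.W * (E.f * E.f),
    E.a * (E.b * E.c - E.g * E.g) -
      E.W * (E.c * (E.d * E.d) - Ex.c ⟨2, 0⟩ * (E.g * (E.d * E.f)) + E.b * (E.f * E.f))]

theorem psdE_sound {E : Ent Ex} {x y : ℝ} (h : ∀ p ∈ psdE E, 0 ≤ p.R x y) :
    E.e.R x y ≤ E.a.R x y ∧
    0 ≤ E.a.R x y * E.b.R x y - E.W.R x y * E.d.R x y ^ 2 ∧
    0 ≤ E.a.R x y * E.c.R x y - E.W.R x y * E.f.R x y ^ 2 ∧
    0 ≤ E.a.R x y * (E.b.R x y * E.c.R x y - E.g.R x y ^ 2) - E.W.R x y *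
      (E.c.R x y * E.d.R x y ^ 2 - 2 * E.g.R x y * E.d.R x y * E.f.R x y +
        E.b.R x y * E.f.R x y ^ 2) := by
  simp only [psdE, List.mem_cons, List.not_mem_nil, or_false, forall_eq_or_imp, forall_eq] at h
  obtain ⟨h1, h2, h3, h4⟩ := h
  simp only [Ex.R_sub, Ex.R_add, Ex.R_mul, Ex.R_c] at h1 h2 h3 h4
  have e2 : Fr.R ⟨2, 0⟩ = 2 := by simp [Fr.R]
  rw [e2] at h4
  refine ⟨by linarith only [h1], by linarith only [h2], by linarith only [h3], by linarith only [h4]⟩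

end Vale.Agent.P237.AllN.PolyPos
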