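import Vale.Agent.P237.AllN.FKs2
import Vale.Agent.P237.AllN.KronEx

/-!
# P237, block D, `l > 0`: lower bounds of the kernel part of `T`
(lemmas (K1), (K2) of helper730), three ranges of `l`
-/

open Finset

namespace Vale.Agent.P237.AllN

open PolyPos

/-- `1 - X²` -/
def exZ : Ex := Ex.c ⟨1, 0⟩ - Ex.X * Ex.X

theorem ks_polyL {q : List ℤ} {A D : ℤ} (hA : 0 < A) (hD : 0 < D) {l : ℝ} (h0 : 0 ≤ l)
    (h1 : l ≤ A / D) (h : auto1 8 0 A D q = true) : 0 ≤ ev1 q l := by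
  have hA' : (0 : ℝ) < A := by exact_mod_cast hA
  have hD' : (0 : ℝ) < D := by exact_mod_cast hD
  apply ev1_closed (a := 0) (b := A / D) (by (clear * - hA hD; positivity)) _ h0 h1
  intro x hx0 hx1
  rw [lt_div_iff₀ hD'] at hx1
  exact auto1_sound (n := 8) (A := 0) (B := A) (D := D) hD h
    (by push_cast; positivity) (by linarith)

/-! ## range `l ≤ 2 / 5` -/

theorem ks_h_two_a {l : ℝ} (h0 : 0 ≤ l) (h1 : l ≤ 2 / 5) :
    3 * kpt (4 * l) + kct (4 * l) ≤ l ^ 3 * (128 / 3 - 26211 / 1250 * l + 15309 / 500 * l ^ 2) := by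
  have h := ks_polyL (A := 2) (D := 5) (q := padd (psm (1260 ^ 2) [-15000, 120000, -120000, 320000, -157266, 229635])
    (padd (psm 22500 (ppow kAL 2)) (psm (-7500) (ppow kBH 2)))) (by norm_num) (by norm_num)
    h0 (by push_cast; (clear * - h1; linarith)) (by (clear * -; decide +kernel))
  have hE := ks_E_ge' 2 h0 (by (clear * - h1; linarith))
  have hB := ks_B_le' 2 h0 (by linarith only [h1])
  rw [ev1_padd, ev1_padd, ev1_psm, ev1_psm, ev1_psm, ev1_ppow, ev1_ppow] at h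
  simp only [ev1_cons, ev1_nil] at h
  rw [show -(2 * ((2 : ℕ) : ℝ) * l) = -(4 * l) by push_cast; ring] at hE
  rw [show 2 * ((2 : ℕ) : ℝ) * l = 4 * l by push_cast; ring] at hB
  generalize ev1 kAL l ^ 2 = A at *
  generalize ev1 kBH l ^ 2 = B at *
  push_cast at h
  simp only [kpt, kct]
  linarith

theorem ks_p_two_a {l : ℝ} (h0 : 0 ≤ l) (h1 : l ≤ 2 / 5) :
    l ^ 3 * (32 / 3 - 1067 / 100 * l + 6697 / 1000 * l ^ 2) ≤ kpt (4 * l) := by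
  have h := ks_polyL (A := 2) (D := 5) (q := padd (psm (1260 ^ 2) [3000, -12000, 24000, -32000, 32010, -20091])
    (psm (-3000) (ppow kAH 2))) (by norm_num) (by norm_num)
    h0 (by push_cast; linarith) (by (clear * -; decide +kernel))
  have hE := ks_E_le' 2 h0 (by linarith)
  rw [ev1_padd, ev1_psm, ev1_psm, ev1_ppow] at h
  simp only [ev1_cons, ev1_nil] at h
  rw [show -(2 * ((2 : ℕ) : ℝ) * l) = -(4 * l) by push_cast; ring] at hE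
  generalize ev1 kAH l ^ 2 = A at *
  push_cast at h
  simp only [kpt]
  nlinarith only [hE, h]

theorem ks_e_two_a {l : ℝ} (h0 : 0 ≤ l) (h1 : l ≤ 2 / 5) :
    l * (-16 + 21163 / 500 * l - 766 / 25 * l ^ 2) ≤ 6 * (Real.exp (-(4 * l)) - 1) + 8 * l := by
  have h := ks_polyL (A := 2) (D := 5) (q := padd (psm (1260 ^ 2) [-3000, 12000, -21163, 15320])
    (psm 3000 (ppow kAL 2))) (by norm_num) (by norm_num)
    h0 (by push_cast; linarith) (by (clear * -; decide +kernel))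
  have hE := ks_E_ge' 2 h0 (by linarith only [h1])
  rw [ev1_padd, ev1_psm, ev1_psm, ev1_ppow] at h
  simp only [ev1_cons, ev1_nil] at h
  rw [show -(2 * ((2 : ℕ) : ℝ) * l) = -(4 * l) by push_cast; ring] at hE
  generalize ev1 kAL l ^ 2 = A at *
  push_cast at h
  linarith

theorem ks_h_three_a {l : ℝ} (h0 : 0 ≤ l) (h1 : l ≤ 2 / 5) :
    5 * kpt (6 * l) + kct (6 * l) ≤ l ^ 3 * (216 - 104223 / 500 * l + 3127 / 10 * l ^ 2) := by
  have h := ks_polyL (A := 2) (D := 5) (q := padd (psm (1260 ^ 3) [-2000, 18000, -36000, 108000, -104223, 156350])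
    (padd (psm 2500 (ppow kAL 3)) (psm (-500) (ppow kBH 3)))) (by norm_num) (by norm_num)
    h0 (by push_cast; linarith only [h1]) (by (clear * -; decide +kernel))
  have hE := ks_E_ge' 3 h0 (by linarith only [h1])
  have hB := ks_B_le' 3 h0 (by linarith)
  rw [ev1_padd, ev1_padd, ev1_psm, ev1_psm, ev1_psm, ev1_ppow, ev1_ppow] at h
  simp only [ev1_cons, ev1_nil] at h
  rw [show -(2 * ((3 : ℕ) : ℝ) * l) = -(6 * l) by push_cast; ring] at hE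
  rw [show 2 * ((3 : ℕ) : ℝ) * l = 6 * l by push_cast; ring] at hB
  generalize ev1 kAL l ^ 3 = A at *
  generalize ev1 kBH l ^ 3 = B at *
  push_cast at h
  simp only [kpt, kct]
  linarith

theorem ks_p_three_a {l : ℝ} (h0 : 0 ≤ l) (h1 : l ≤ 2 / 5) :
    l ^ 3 * (36 - 5401 / 100 * l + 9139 / 200 * l ^ 2) ≤ kpt (6 * l) := by
  have h := ks_polyL (A := 2) (D := 5) (q := padd (psm (1260 ^ 3) [200, -1200, 3600, -7200, 10802, -9139])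
    (psm (-200) (ppow kAH 3))) (by norm_num) (by norm_num)
    h0 (by push_cast; linarith) (by (clear * -; decide +kernel))
  have hE := ks_E_le' 3 h0 (by linarith only [h1])
  rw [ev1_padd, ev1_psm, ev1_psm, ev1_ppow] at h
  simp only [ev1_cons, ev1_nil] at h
  rw [show -(2 * ((3 : ℕ) : ℝ) * l) = -(6 * l) by push_cast; ring] at hE
  generalize ev1 kAH l ^ 3 = A at *
  push_cast at h
  simp only [kpt]
  linarith

theorem ks_e_three_a {l : ℝ} (h0 : 0 ≤ l) (h1 : l ≤ 2 / 5) :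
    l * (-36 + 35779 / 250 * l - 124867 / 1000 * l ^ 2) ≤ 10 * (Real.exp (-(6 * l)) - 1) + 24 * l := by
  have h := ks_polyL (A := 2) (D := 5) (q := padd (psm (1260 ^ 3) [-10000, 60000, -143116, 124867])
    (psm 10000 (ppow kAL 3))) (by norm_num) (by norm_num)
    h0 (by push_cast; linarith) (by (clear * -; decide +kernel))
  have hE := ks_E_ge' 3 h0 (by linarith only [h1])
  rw [ev1_padd, ev1_psm, ev1_psm, ev1_ppow] at h
  simp only [ev1_cons, ev1_nil] at h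
  rw [show -(2 * ((3 : ℕ) : ℝ) * l) = -(6 * l) by push_cast; ring] at hE
  generalize ev1 kAL l ^ 3 = A at *
  push_cast at h
  linarith

theorem ks_h_four_a {l : ℝ} (h0 : 0 ≤ l) (h1 : l ≤ 2 / 5) :
    7 * kpt (8 * l) + kct (8 * l) ≤ l ^ 3 * (2048 / 3 - 195259 / 200 * l + 162797 / 100 * l ^ 2) := by
  have h := ks_polyL (A := 2) (D := 5) (q := padd (psm (1260 ^ 4) [-3600, 38400, -115200, 409600, -585777, 976782])
    (padd (psm 4200 (ppow kAL 4)) (psm (-600) (ppow kBH 4)))) (by norm_num) (by norm_num)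
    h0 (by push_cast; linarith) (by (clear * -; decide +kernel))
  have hE := ks_E_ge' 4 h0 (by linarith only [h1])
  have hB := ks_B_le' 4 h0 (by linarith)
  rw [ev1_padd, ev1_padd, ev1_psm, ev1_psm, ev1_psm, ev1_ppow, ev1_ppow] at h
  simp only [ev1_cons, ev1_nil] at h
  rw [show -(2 * ((4 : ℕ) : ℝ) * l) = -(8 * l) by push_cast; ring] at hE
  rw [show 2 * ((4 : ℕ) : ℝ) * l = 8 * l by push_cast; ring] at hB
  generalize ev1 kAL l ^ 4 = A at *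
  generalize ev1 kBH l ^ 4 = B at *
  push_cast at h
  simp only [kpt, kct]
  linarith

theorem ks_p_four_a {l : ℝ} (h0 : 0 ≤ l) (h1 : l ≤ 2 / 5) :
    l ^ 3 * (256 / 3 - 17067 / 100 * l + 87257 / 500 * l ^ 2) ≤ kpt (8 * l) := by
  have h := ks_polyL (A := 2) (D := 5) (q := padd (psm (1260 ^ 4) [1500, -12000, 48000, -128000, 256005, -261771])
    (psm (-1500) (ppow kAH 4))) (by norm_num) (by norm_num)
    h0 (by push_cast; linarith) (by (clear * -; decide +kernel))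
  have hE := ks_E_le' 4 h0 (by linarith only [h1])
  rw [ev1_padd, ev1_psm, ev1_psm, ev1_ppow] at h
  simp only [ev1_cons, ev1_nil] at h
  rw [show -(2 * ((4 : ℕ) : ℝ) * l) = -(8 * l) by push_cast; ring] at hE
  generalize ev1 kAH l ^ 4 = A at *
  push_cast at h
  simp only [kpt]
  linarith

theorem ks_e_four_a {l : ℝ} (h0 : 0 ≤ l) (h1 : l ≤ 2 / 5) :
    l * (-64 + 31961 / 100 * l - 30887 / 100 * l ^ 2) ≤ 14 * (Real.exp (-(8 * l)) - 1) + 48 * l := by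
  have h := ks_polyL (A := 2) (D := 5) (q := padd (psm (1260 ^ 4) [-1400, 11200, -31961, 30887])
    (psm 1400 (ppow kAL 4))) (by norm_num) (by norm_num)
    h0 (by push_cast; linarith only [h1]) (by (clear * -; decide +kernel))
  have hE := ks_E_ge' 4 h0 (by linarith only [h1])
  rw [ev1_padd, ev1_psm, ev1_psm, ev1_ppow] at h
  simp only [ev1_cons, ev1_nil] at h
  rw [show -(2 * ((4 : ℕ) : ℝ) * l) = -(8 * l) by push_cast; ring] at hE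
  generalize ev1 kAL l ^ 4 = A at *
  push_cast at h
  linarith

theorem ks_h_five_a {l : ℝ} (h0 : 0 ≤ l) (h1 : l ≤ 2 / 5) :
    9 * kpt (10 * l) + kct (10 * l) ≤ l ^ 3 * (5000 / 3 - 12641 / 4 * l + 59249 / 10 * l ^ 2) := by
  have h := ks_polyL (A := 2) (D := 5) (q := padd (psm (1260 ^ 5) [-480, 6000, -24000, 100000, -189615, 355494])
    (padd (psm 540 (ppow kAL 5)) (psm (-60) (ppow kBH 5)))) (by norm_num) (by norm_num)
    h0 (by push_cast; linarith only [h1]) (by (clear * -; decide +kernel))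
  have hE := ks_E_ge' 5 h0 (by linarith only [h1])
  have hB := ks_B_le' 5 h0 (by linarith)
  rw [ev1_padd, ev1_padd, ev1_psm, ev1_psm, ev1_psm, ev1_ppow, ev1_ppow] at h
  simp only [ev1_cons, ev1_nil] at h
  rw [show -(2 * ((5 : ℕ) : ℝ) * l) = -(10 * l) by push_cast; ring] at hE
  rw [show 2 * ((5 : ℕ) : ℝ) * l = 10 * l by push_cast; ring] at hB
  generalize ev1 kAL l ^ 5 = A at *
  generalize ev1 kBH l ^ 5 = B at *
  push_cast at h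
  simp only [kpt, kct]
  linarith

theorem ks_p_five_a {l : ℝ} (h0 : 0 ≤ l) (h1 : l ≤ 2 / 5) :
    l ^ 3 * (500 / 3 - 41667 / 100 * l + 60812 / 125 * l ^ 2) ≤ kpt (10 * l) := by
  have h := ks_polyL (A := 2) (D := 5) (q := padd (psm (1260 ^ 5) [1500, -15000, 75000, -250000, 625005, -729744])
    (psm (-1500) (ppow kAH 5))) (by norm_num) (by norm_num)
    h0 (by push_cast; linarith) (by (clear * -; decide +kernel))
  have hE := ks_E_le' 5 h0 (by linarith only [h1])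
  rw [ev1_padd, ev1_psm, ev1_psm, ev1_ppow] at h
  simp only [ev1_cons, ev1_nil] at h
  rw [show -(2 * ((5 : ℕ) : ℝ) * l) = -(10 * l) by push_cast; ring] at hE
  generalize ev1 kAH l ^ 5 = A at *
  push_cast at h
  simp only [kpt]
  linarith

theorem ks_e_five_a {l : ℝ} (h0 : 0 ≤ l) (h1 : l ≤ 2 / 5) :
    l * (-100 + 14423 / 25 * l - 59341 / 100 * l ^ 2) ≤ 18 * (Real.exp (-(10 * l)) - 1) + 80 * l := by
  have h := ks_polyL (A := 2) (D := 5) (q := padd (psm (1260 ^ 5) [-1800, 18000, -57692, 59341])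
    (psm 1800 (ppow kAL 5))) (by norm_num) (by norm_num)
    h0 (by push_cast; linarith only [h1]) (by (clear * -; decide +kernel))
  have hE := ks_E_ge' 5 h0 (by linarith only [h1])
  rw [ev1_padd, ev1_psm, ev1_psm, ev1_ppow] at h
  simp only [ev1_cons, ev1_nil] at h
  rw [show -(2 * ((5 : ℕ) : ℝ) * l) = -(10 * l) by push_cast; ring] at hE
  generalize ev1 kAL l ^ 5 = A at *
  push_cast at h
  linarith

theorem ks_h_six_a {l : ℝ} (h0 : 0 ≤ l) (h1 : l ≤ 2 / 5) :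
    11 * kpt (12 * l) + kct (12 * l) ≤ l ^ 3 * (3456 - 409851 / 50 * l + 173519 / 10 * l ^ 2) := by
  have h := ks_polyL (A := 2) (D := 5) (q := padd (psm (1260 ^ 6) [-500, 7200, -36000, 172800, -409851, 867595])
    (padd (psm 550 (ppow kAL 6)) (psm (-50) (ppow kBH 6)))) (by norm_num) (by norm_num)
    h0 (by push_cast; linarith only [h1]) (by (clear * -; decide +kernel))
  have hE := ks_E_ge' 6 h0 (by linarith only [h1])
  have hB := ks_B_le' 6 h0 (by linarith)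
  rw [ev1_padd, ev1_padd, ev1_psm, ev1_psm, ev1_psm, ev1_ppow, ev1_ppow] at h
  simp only [ev1_cons, ev1_nil] at h
  rw [show -(2 * ((6 : ℕ) : ℝ) * l) = -(12 * l) by push_cast; ring] at hE
  rw [show 2 * ((6 : ℕ) : ℝ) * l = 12 * l by push_cast; ring] at hB
  generalize ev1 kAL l ^ 6 = A at *
  generalize ev1 kBH l ^ 6 = B at *
  push_cast at h
  simp only [kpt, kct]
  linarith

theorem ks_p_six_a {l : ℝ} (h0 : 0 ≤ l) (h1 : l ≤ 2 / 5) :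
    l ^ 3 * (288 - 86401 / 100 * l + 27828 / 25 * l ^ 2) ≤ kpt (12 * l) := by
  have h := ks_polyL (A := 2) (D := 5) (q := padd (psm (1260 ^ 6) [100, -1200, 7200, -28800, 86401, -111312])
    (psm (-100) (ppow kAH 6))) (by norm_num) (by norm_num)
    h0 (by push_cast; linarith) (by (clear * -; decide +kernel))
  have hE := ks_E_le' 6 h0 (by linarith only [h1])
  rw [ev1_padd, ev1_psm, ev1_psm, ev1_ppow] at h
  simp only [ev1_cons, ev1_nil] at h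
  rw [show -(2 * ((6 : ℕ) : ℝ) * l) = -(12 * l) by push_cast; ring] at hE
  generalize ev1 kAH l ^ 6 = A at *
  push_cast at h
  simp only [kpt]
  linarith

theorem ks_e_six_a {l : ℝ} (h0 : 0 ≤ l) (h1 : l ≤ 2 / 5) :
    l * (-144 + 22908 / 25 * l - 98173 / 100 * l ^ 2) ≤ 22 * (Real.exp (-(12 * l)) - 1) + 120 * l := by
  have h := ks_polyL (A := 2) (D := 5) (q := padd (psm (1260 ^ 6) [-2200, 26400, -91632, 98173])
    (psm 2200 (ppow kAL 6))) (by norm_num) (by norm_num)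
    h0 (by push_cast; linarith) (by (clear * -; decide +kernel))
  have hE := ks_E_ge' 6 h0 (by linarith only [h1])
  rw [ev1_padd, ev1_psm, ev1_psm, ev1_ppow] at h
  simp only [ev1_cons, ev1_nil] at h
  rw [show -(2 * ((6 : ℕ) : ℝ) * l) = -(12 * l) by push_cast; ring] at hE
  generalize ev1 kAL l ^ 6 = A at *
  push_cast at h
  linarith

/-- cubic remainder, `w = m z` -/
noncomputable def kD_a (w z l : ℝ) : ℝ :=
  3 / 16 * ((w + 5 * z) * (128 / 3 - 26211 / 1250 * l + 15309 / 500 * l ^ 2) - 6 * (32 / 3 - 1067 / 100 * l + 6697 / 1000 * l ^ 2)) +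
  5 / 48 * z * ((w + 7 * z) * (216 - 104223 / 500 * l + 3127 / 10 * l ^ 2) - 20 * (36 - 5401 / 100 * l + 9139 / 200 * l ^ 2)) +
  35 / 512 * z ^ 2 * ((w + 9 * z) * (2048 / 3 - 195259 / 200 * l + 162797 / 100 * l ^ 2) - 42 * (256 / 3 - 17067 / 100 * l + 87257 / 500 * l ^ 2)) +
  63 / 1280 * z ^ 3 * ((w + 11 * z) * (5000 / 3 - 12641 / 4 * l + 59249 / 10 * l ^ 2) - 72 * (500 / 3 - 41667 / 100 * l + 60812 / 125 * l ^ 2)) +
  77 / 2048 * z ^ 4 * ((w + 13 * z) * (3456 - 409851 / 50 * l + 173519 / 10 * l ^ 2) - 110 * (288 - 86401 / 100 * l + 27828 / 25 * l ^ 2))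

theorem dpS0_ge_a {m z l : ℝ} (hm : 0 ≤ m) (hz : 0 ≤ z) (h0 : 0 ≤ l) (h1 : l ≤ 2 / 5) :
    -(l ^ 3 * z * kD_a (m * z) z l) ≤ dpS0 m z l := by
  have a2 := ks_h_two_a h0 h1
  have b2 := ks_p_two_a h0 h1
  have a3 := ks_h_three_a h0 h1
  have b3 := ks_p_three_a h0 h1
  have a4 := ks_h_four_a h0 h1
  have b4 := ks_p_four_a h0 h1
  have a5 := ks_h_five_a h0 h1
  have b5 := ks_p_five_a h0 h1
  have a6 := ks_h_six_a h0 h1
  have b6 := ks_p_six_a h0 h1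
  have c2 : 3 / 16 * z * (6 * (l ^ 3 * (32 / 3 - 1067 / 100 * l + 6697 / 1000 * l ^ 2)) - (m + 5) * z * (l ^ 3 * (128 / 3 - 26211 / 1250 * l + 15309 / 500 * l ^ 2))) ≤
      3 / 16 * z * (3 * (2 - (m + 5) * z) * kpt (4 * l) - (m + 5) * z * kct (4 * l)) := by
    apply mul_le_mul_of_nonneg_left _ (by positivity)
    have d1 := mul_le_mul_of_nonneg_left a2 (by positivity : 0 ≤ (m + 5) * z)
    linarith only [b2, d1]
  have c3 : 5 / 48 * z ^ 2 * (20 * (l ^ 3 * (36 - 5401 / 100 * l + 9139 / 200 * l ^ 2)) - (m + 7) * z * (l ^ 3 * (216 - 104223 / 500 * l + 3127 / 10 * l ^ 2))) ≤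
      5 / 48 * z ^ 2 * (5 * (4 - (m + 7) * z) * kpt (6 * l) - (m + 7) * z * kct (6 * l)) := by
    apply mul_le_mul_of_nonneg_left _ (by positivity)
    have d1 := mul_le_mul_of_nonneg_left a3 (by positivity : 0 ≤ (m + 7) * z)
    linarith only [b3, d1]
  have c4 : 35 / 512 * z ^ 3 * (42 * (l ^ 3 * (256 / 3 - 17067 / 100 * l + 87257 / 500 * l ^ 2)) - (m + 9) * z * (l ^ 3 * (2048 / 3 - 195259 / 200 * l + 162797 / 100 * l ^ 2))) ≤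
      35 / 512 * z ^ 3 * (7 * (6 - (m + 9) * z) * kpt (8 * l) - (m + 9) * z * kct (8 * l)) := by
    apply mul_le_mul_of_nonneg_left _ (by (clear * - hz; positivity))
    have d1 := mul_le_mul_of_nonneg_left a4 (by (clear * - hm hz; positivity) : 0 ≤ (m + 9) * z)
    (clear * - b4 d1; linarith)
  have c5 : 63 / 1280 * z ^ 4 * (72 * (l ^ 3 * (500 / 3 - 41667 / 100 * l + 60812 / 125 * l ^ 2)) - (m + 11) * z * (l ^ 3 * (5000 / 3 - 12641 / 4 * l + 59249 / 10 * l ^ 2))) ≤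
      63 / 1280 * z ^ 4 * (9 * (8 - (m + 11) * z) * kpt (10 * l) - (m + 11) * z * kct (10 * l)) := by
    apply mul_le_mul_of_nonneg_left _ (by (clear * -; positivity))
    have d1 := mul_le_mul_of_nonneg_left a5 (by positivity : 0 ≤ (m + 11) * z)
    linarith only [b5, d1]
  have c6 : 77 / 2048 * z ^ 5 * (110 * (l ^ 3 * (288 - 86401 / 100 * l + 27828 / 25 * l ^ 2)) - (m + 13) * z * (l ^ 3 * (3456 - 409851 / 50 * l + 173519 / 10 * l ^ 2))) ≤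
      77 / 2048 * z ^ 5 * (11 * (10 - (m + 13) * z) * kpt (12 * l) - (m + 13) * z * kct (12 * l)) := by
    apply mul_le_mul_of_nonneg_left _ (by positivity)
    have d1 := mul_le_mul_of_nonneg_left a6 (by positivity : 0 ≤ (m + 13) * z)
    linarith only [b6, d1]
  simp only [kD_a, dpS0]
  linarith only [c2, c3, c4, c5, c6]

def exK1_a (W : Ex) : Ex :=
  Ex.X * (Ex.c ⟨61, 9⟩ + Ex.c ⟨5, 1⟩ * exZ + Ex.c ⟨53, 0⟩ * (exZ * exZ)) + Ex.c ⟨3, 0⟩ * (W - Ex.c ⟨3, 0⟩ * exZ) -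
  Ex.c ⟨9, 0⟩ * (Ex.X * Ex.X) - Ex.X * Ex.X * Ex.X * Ex.X * Ex.X * Ex.Y * (
    Ex.c ⟨3, 15⟩ * ((W + Ex.c ⟨5, 0⟩ * exZ) * (Ex.c ⟨128, 2⟩ + Ex.c ⟨-26211, 1249⟩ * Ex.Y + Ex.c ⟨15309, 499⟩ * (Ex.Y * Ex.Y)) - Ex.c ⟨6, 0⟩ * (Ex.c ⟨32, 2⟩ + Ex.c ⟨-1067, 99⟩ * Ex.Y + Ex.c ⟨6697, 999⟩ * (Ex.Y * Ex.Y))) +
    Ex.c ⟨5, 47⟩ * exZ * ((W + Ex.c ⟨7, 0⟩ * exZ) * (Ex.c ⟨216, 0⟩ + Ex.c ⟨-104223, 499⟩ * Ex.Y + Ex.c ⟨3127, 9⟩ * (Ex.Y * Ex.Y)) - Ex.c ⟨20, 0⟩ * (Ex.c ⟨36, 0⟩ + Ex.c ⟨-5401, 99⟩ * Ex.Y + Ex.c ⟨9139, 199⟩ * (Ex.Y * Ex.Y))) +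
    Ex.c ⟨35, 511⟩ * exZ * exZ * ((W + Ex.c ⟨9, 0⟩ * exZ) * (Ex.c ⟨2048, 2⟩ + Ex.c ⟨-195259, 199⟩ * Ex.Y + Ex.c ⟨162797, 99⟩ * (Ex.Y * Ex.Y)) - Ex.c ⟨42, 0⟩ * (Ex.c ⟨256, 2⟩ + Ex.c ⟨-17067, 99⟩ * Ex.Y + Ex.c ⟨87257, 499⟩ * (Ex.Y * Ex.Y))) +
    Ex.c ⟨63, 1279⟩ * exZ * exZ * exZ * ((W + Ex.c ⟨11, 0⟩ * exZ) * (Ex.c ⟨5000, 2⟩ + Ex.c ⟨-12641, 3⟩ * Ex.Y + Ex.c ⟨59249, 9⟩ * (Ex.Y * Ex.Y)) - Ex.c ⟨72, 0⟩ * (Ex.c ⟨500, 2⟩ + Ex.c ⟨-41667, 99⟩ * Ex.Y + Ex.c ⟨60812, 124⟩ * (Ex.Y * Ex.Y))) +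
    Ex.c ⟨77, 2047⟩ * exZ * exZ * exZ * exZ * ((W + Ex.c ⟨13, 0⟩ * exZ) * (Ex.c ⟨3456, 0⟩ + Ex.c ⟨-409851, 49⟩ * Ex.Y + Ex.c ⟨173519, 9⟩ * (Ex.Y * Ex.Y)) - Ex.c ⟨110, 0⟩ * (Ex.c ⟨288, 0⟩ + Ex.c ⟨-86401, 99⟩ * Ex.Y + Ex.c ⟨27828, 24⟩ * (Ex.Y * Ex.Y))))

theorem exK1_a_R (W : Ex) (s l : ℝ) : (exK1_a W).R s l =
    s * (61 / 10 + 5 / 2 * (1 - s ^ 2) + 53 * (1 - s ^ 2) ^ 2) +
      3 * (W.R s l - 3 * (1 - s ^ 2)) - 9 * s ^ 2 - s ^ 5 * l * kD_a (W.R s l) (1 - s ^ 2) l := by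
  simp only [exK1_a, exZ, Ex.R_sub, Ex.R_add, Ex.R_mul, Ex.R_X, Ex.R_c, Fr.R, Ex.R_Y, kD_a]
  push_cast
  ring

theorem exK1_a_0 : tchkE (2 ^ 1024) 40 4000 [[exK1_a (Ex.c ⟨1, 0⟩)]] (Ex.c ⟨0, 0⟩)
    (.leaf 0) 4 5 5 0 2 5 = true := by
  (clear * -; decide +kernel)

theorem exK1_a_1 : tchkE (2 ^ 1024) 40 4000 [[exK1_a (Ex.c ⟨9, 0⟩)]] (Ex.c ⟨0, 0⟩)
    (.sx (.leaf 0) (.leaf 0)) 4 5 5 0 2 5 = true := by
  (clear * -; decide +kernel)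

theorem kK1_a {m z s l : ℝ} (hm : 0 ≤ m) (hz0 : 0 ≤ z) (hz : z ≤ 9 / 25) (hs : 0 < s)
    (hsz : s ^ 2 = 1 - z) (h0 : 0 ≤ l) (h1 : l ≤ 2 / 5) (hw0 : 1 ≤ m * z) (hw1 : m * z ≤ 9) :
    -(z * (61 / 10 + 5 / 2 * z + 53 * z ^ 2) / (1 - z) ^ 2 * l ^ 2) ≤
      dpS0 m z l + (3 * (m - 3) * (z ^ 2 / s ^ 5) - 9 * (z / s ^ 3)) * l ^ 2 := by
  have hs1 : s ≤ 1 := by nlinarith only [hz0, hsz]
  have hs0 : 4 / 5 ≤ s := by nlinarith only [hz, hsz, hs]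
  have e0 : 0 ≤ (exK1_a (Ex.c ⟨1, 0⟩)).R s l := by
    obtain ⟨i, hi⟩ := tchkE_sound (x := s) (y := l) (by simp [Ex.R_c, Fr.R]) _ _ _ _ _ _ _ (by norm_num) (by norm_num)
      (by norm_num) (by norm_num) exK1_a_0 (by push_cast; linarith only [hs0]) (by push_cast; linarith only [hs1])
      (by push_cast; linarith only [h0]) (by push_cast; linarith only [h1])
    rcases i with _ | i
    · exact hi _ (by simp)
    · exfalso
      have := hi (Ex.c ⟨-1, 0⟩) (by simp)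
      simp [Ex.R_c, Fr.R] at this
      linarith only [this]
  have e1 : 0 ≤ (exK1_a (Ex.c ⟨9, 0⟩)).R s l := by
    obtain ⟨i, hi⟩ := tchkE_sound (x := s) (y := l) (by simp [Ex.R_c, Fr.R]) _ _ _ _ _ _ _ (by norm_num) (by norm_num)
      (by norm_num) (by norm_num) exK1_a_1 (by push_cast; linarith only [hs0]) (by push_cast; linarith only [hs1])
      (by push_cast; linarith only [h0]) (by push_cast; linarith only [h1])
    rcases i with _ | i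
    · exact hi _ (by simp)
    · exfalso
      have := hi (Ex.c ⟨-1, 0⟩) (by simp)
      simp [Ex.R_c, Fr.R] at this
      linarith only [this]
  rw [exK1_a_R] at e0 e1
  simp only [Ex.R_c, Fr.R] at e0 e1
  rw [hsz] at e0 e1
  rw [show (1 : ℝ) - (1 - z) = z by ring] at e0 e1
  have hD := dpS0_ge_a hm hz0 h0 h1
  set w := m * z with hw
  have aff : 0 ≤ s * (61 / 10 + 5 / 2 * z + 53 * z ^ 2) + 3 * (w - 3 * z) - 9 * s ^ 2 -
      s ^ 5 * l * kD_a w z l := by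
    have i1 := mul_nonneg (sub_nonneg.2 hw1) e0
    have i2 := mul_nonneg (sub_nonneg.2 hw0) e1
    push_cast at i1 i2
    have i3 : (9 - 1) * (s * (61 / 10 + 5 / 2 * z + 53 * z ^ 2) + 3 * (w - 3 * z) -
        9 * s ^ 2 - s ^ 5 * l * kD_a w z l) =
        (9 - w) * (s * (61 / 10 + 5 / 2 * z + 53 * z ^ 2) + 3 * (1 - 3 * z) -
        9 * s ^ 2 - s ^ 5 * l * kD_a (1) z l) +
        (w - 1) * (s * (61 / 10 + 5 / 2 * z + 53 * z ^ 2) + 3 * (9 - 3 * z) -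
        9 * s ^ 2 - s ^ 5 * l * kD_a (9) z l) := by
      simp only [kD_a]
      ring
    norm_num at i1 i2 i3 ⊢
    linarith only [hsz, i1, i2, i3]
  have h2 := mul_nonneg (div_nonneg (mul_nonneg hz0 (sq_nonneg l)) (pow_pos hs 5).le) aff
  have h3 : z * l ^ 2 / s ^ 5 * (s * (61 / 10 + 5 / 2 * z + 53 * z ^ 2) + 3 * (w - 3 * z) - 9 * s ^ 2 -
      s ^ 5 * l * kD_a w z l) = z * (61 / 10 + 5 / 2 * z + 53 * z ^ 2) / (1 - z) ^ 2 * l ^ 2 +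
      (3 * (m - 3) * (z ^ 2 / s ^ 5) - 9 * (z / s ^ 3)) * l ^ 2 - l ^ 3 * z * kD_a w z l := by
    rw [← hsz, hw]
    generalize kD_a (m * z) z l = K
    field_simp
    ring
  rw [h3] at h2
  linarith only [hD, h2]

/-- lower bound of `ksC / (s² z l)` -/
noncomputable def kQ_a (z l : ℝ) : ℝ :=
  3 / 4 * (-16 + 21163 / 500 * l - 766 / 25 * l ^ 2) + 5 / 8 * z * (-36 + 35779 / 250 * l - 124867 / 1000 * l ^ 2) + 35 / 64 * z ^ 2 * (-64 + 31961 / 100 * l - 30887 / 100 * l ^ 2) + 63 / 128 * z ^ 3 * (-100 + 14423 / 25 * l - 59341 / 100 * l ^ 2) + 231 / 512 * z ^ 4 * (-144 + 22908 / 25 * l - 98173 / 100 * l ^ 2)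

theorem ksC_ge_a {z s l : ℝ} (hz : 0 ≤ z) (h0 : 0 ≤ l) (h1 : l ≤ 2 / 5) :
    s ^ 2 * z * l * kQ_a z l ≤ ksC z s l := by
  have c2 := mul_le_mul_of_nonneg_left (ks_e_two_a h0 h1) (by positivity : 0 ≤ s ^ 2 * (3 / 4 * z))
  have c3 := mul_le_mul_of_nonneg_left (ks_e_three_a h0 h1) (by positivity : 0 ≤ s ^ 2 * (5 / 8 * z ^ 2))
  have c4 := mul_le_mul_of_nonneg_left (ks_e_four_a h0 h1) (by positivity : 0 ≤ s ^ 2 * (35 / 64 * z ^ 3))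
  have c5 := mul_le_mul_of_nonneg_left (ks_e_five_a h0 h1) (by positivity : 0 ≤ s ^ 2 * (63 / 128 * z ^ 4))
  have c6 := mul_le_mul_of_nonneg_left (ks_e_six_a h0 h1) (by positivity : 0 ≤ s ^ 2 * (231 / 512 * z ^ 5))
  simp only [ksC, kQ_a]
  linarith

def exK2_a : Ex :=
  Ex.c ⟨2, 0⟩ * (Ex.X * Ex.X) * (Ex.c ⟨2, 0⟩ + Ex.c ⟨4, 0⟩ * Ex.X + Ex.c ⟨2, 0⟩ * (Ex.X * Ex.X) +
    Ex.X * Ex.X * Ex.X) - Ex.c ⟨6, 0⟩ * Ex.Y * ((Ex.c ⟨1, 0⟩ + Ex.X) * (Ex.c ⟨1, 0⟩ + Ex.X)) +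
  Ex.X * Ex.X * Ex.X * Ex.X * Ex.X * ((Ex.c ⟨1, 0⟩ + Ex.X) * (Ex.c ⟨1, 0⟩ + Ex.X)) *
    (Ex.Y * (Ex.c ⟨3, 3⟩ * (Ex.c ⟨-16, 0⟩ + Ex.c ⟨21163, 499⟩ * Ex.Y + Ex.c ⟨-766, 24⟩ * (Ex.Y * Ex.Y)) + Ex.c ⟨5, 7⟩ * exZ * (Ex.c ⟨-36, 0⟩ + Ex.c ⟨35779, 249⟩ * Ex.Y + Ex.c ⟨-124867, 999⟩ * (Ex.Y * Ex.Y)) + Ex.c ⟨35, 63⟩ * exZ * exZ * (Ex.c ⟨-64, 0⟩ + Ex.c ⟨31961, 99⟩ * Ex.Y + Ex.c ⟨-30887, 99⟩ * (Ex.Y * Ex.Y)) + Ex.c ⟨63, 127⟩ * exZ * exZ * exZ * (Ex.c ⟨-100, 0⟩ + Ex.c ⟨14423, 24⟩ * Ex.Y + Ex.c ⟨-59341, 99⟩ * (Ex.Y * Ex.Y)) + Ex.c ⟨231, 511⟩ * exZ * exZ * exZ * exZ * (Ex.c ⟨-144, 0⟩ + Ex.c ⟨22908, 24⟩ * Ex.Y + Ex.c ⟨-98173, 99⟩ * (Ex.Y * Ex.Y))) -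
      Ex.c ⟨9, 1⟩ * (Ex.c ⟨1, 0⟩ - Ex.c ⟨4, 0⟩ * Ex.Y + Ex.c ⟨5, 0⟩ * (Ex.Y * Ex.Y)))

theorem exK2_a_R (s l : ℝ) : exK2_a.R s l =
    2 * s ^ 2 * (2 + 4 * s + 2 * s ^ 2 + s ^ 3) - 6 * l * (1 + s) ^ 2 +
      s ^ 5 * (1 + s) ^ 2 * (l * kQ_a (1 - s ^ 2) l - 9 / 2 * (1 - 4 * l + 5 * l ^ 2)) := by
  simp only [exK2_a, exZ, Ex.R_add, Ex.R_sub, Ex.R_mul, Ex.R_c, Ex.R_X, Ex.R_Y, Fr.R, kQ_a]
  push_cast
  ring

theorem exK2_a_chk : tchkE (2 ^ 1024) 40 4000 [[exK2_a]] (Ex.c ⟨0, 0⟩)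
    (.leaf 0) 4 5 5 0 2 5 = true := by
  (clear * -; decide +kernel)

theorem kK2_a {z s l : ℝ} (hz0 : 0 ≤ z) (hz : z ≤ 9 / 25) (hs : 0 < s)
    (hsz : s ^ 2 = 1 - z) (h0 : 0 ≤ l) (h1 : l ≤ 2 / 5) :
    9 / 2 * z * (1 - z) * (1 - 4 * l + 5 * l ^ 2) ≤
      4 / s - 4 * s / (1 + s) - 2 * s ^ 2 - 6 * (z / s ^ 3) * l + ksC z s l := by
  have hs1 : s ≤ 1 := by nlinarith only [hz0, hsz]
  have hs0 : 4 / 5 ≤ s := by nlinarith only [hz, hsz, hs]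
  have e0 : 0 ≤ exK2_a.R s l := by
    obtain ⟨i, hi⟩ := tchkE_sound (x := s) (y := l) (by simp [Ex.R_c, Fr.R]) _ _ _ _ _ _ _ (by norm_num) (by norm_num)
      (by norm_num) (by norm_num) exK2_a_chk (by push_cast; linarith only [hs0]) (by push_cast; linarith only [hs1])
      (by push_cast; linarith only [h0]) (by push_cast; linarith only [h1])
    rcases i with _ | i
    · exact hi _ (by simp)
    · exfalso
      have := hi (Ex.c ⟨-1, 0⟩) (by simp only [Int.reduceNeg, List.getD_eq_getElem?_getD, List.length_cons, List.length_nil, zero_add, Order.lt_one_iff, Nat.add_eq_zero_iff, one_ne_zero, and_false, not_false_eq_true, getElem?_neg, Option.getD_none, List.mem_cons, List.not_mem_nil, or_false])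
      simp only [Int.reduceNeg, Ex.R_c, Fr.R, Int.cast_neg, Int.cast_one, CharP.cast_eq_zero, zero_add, div_one, Left.nonneg_neg_iff] at this
      linarith only [this]
  rw [exK2_a_R] at e0
  have hQ := ksC_ge_a (s := s) hz0 h0 h1
  have hz' : z = 1 - s ^ 2 := by linarith only [hsz]
  subst hz'
  have h2 := mul_nonneg (div_nonneg (sub_nonneg.2 hs1) (mul_pos (pow_pos hs 3) (by linarith only [hs] : 0 < 1 + s)).le) e0
  have h3 : (1 - s) / (s ^ 3 * (1 + s)) * (2 * s ^ 2 * (2 + 4 * s + 2 * s ^ 2 + s ^ 3) - 6 * l * (1 + s) ^ 2 +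
      s ^ 5 * (1 + s) ^ 2 * (l * kQ_a (1 - s ^ 2) l - 9 / 2 * (1 - 4 * l + 5 * l ^ 2))) =
      4 / s - 4 * s / (1 + s) - 2 * s ^ 2 - 6 * ((1 - s ^ 2) / s ^ 3) * l +
      s ^ 2 * (1 - s ^ 2) * l * kQ_a (1 - s ^ 2) l -
      9 / 2 * (1 - s ^ 2) * (1 - (1 - s ^ 2)) * (1 - 4 * l + 5 * l ^ 2) := by
    generalize kQ_a (1 - s ^ 2) l = K
    have : (1 : ℝ) + s ≠ 0 := by linarith only [hs]
    field_simp
    ring
  rw [h3] at h2
  linarith only [hQ, h2]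

/-- the whole kernel part -/
theorem kK_a {m z s l W : ℝ} (hm : 0 ≤ m) (hz0 : 0 ≤ z) (hz : z ≤ 9 / 25) (hs : 0 < s)
    (hsz : s ^ 2 = 1 - z) (h0 : 0 ≤ l) (h1 : l ≤ 2 / 5) (hw0 : 1 ≤ m * z)
    (hw1 : m * z ≤ 9) (hW : 0 ≤ W) :
    -(z * (61 / 10 + 5 / 2 * z + 53 * z ^ 2) / (1 - z) ^ 2 * l ^ 2) +
      9 / 2 * z * (1 - z) * (1 - 4 * l + 5 * l ^ 2) * W ≤
      (3 * (m - 3) * (z ^ 2 / s ^ 5) - 9 * (z / s ^ 3)) * l ^ 2 +
      (4 / s - 4 * s / (1 + s) - 2 * s ^ 2 - 6 * (z / s ^ 3) * l) * W + dpS m z s l W := by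
  have a1 := kK1_a hm hz0 hz hs hsz h0 h1 hw0 hw1
  have a2 := mul_le_mul_of_nonneg_right (kK2_a hz0 hz hs hsz h0 h1) hW
  rw [dpS_eq]
  linarith

end Vale.Agent.P237.AllN
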