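import Vale.Agent.P237.AllN.FPuR
import Vale.Agent.P237.AllN.FPuE
import Vale.Agent.P237.AllN.FKs3
import Vale.Agent.P237.AllN.FKs3b
import Vale.Agent.P237.AllN.FKs3c
import Vale.Agent.P237.AllN.FKs3d
import Vale.Agent.P237.AllN.FKs3e

/-!
# P237, block D, `l > 0`, `1 ≤ m z ≤ 9`, `u ≥ 0`: the pointwise test
-/

namespace Vale.Agent.P237.AllN

open PolyPos

theorem fpu_of_ok {d : FpuD} {m z s l u c G N w : ℝ} (hm : 27 ≤ m) (hz0 : 0 < z)
    (hs0 : 0 < s) (hs : s ^ 2 = 1 - z) (hz : z ≤ 1 / 3) (hw : w = m * z) (hw1 : 1 ≤ w)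
    (hl : 0 ≤ l) (hlL : l ≤ d.L.R) (hL : d.L.R ≤ 12 / 25) (hu : 0 ≤ u) (hu1 : u ≤ 5 / 4)
    (hC : 4 ≤ d.C.R)
    (hc0 : 1 - 1 / (2 * m) ≤ c) (hc : c ≤ 1) (hc2 : c ^ 2 ≤ (m + 1) / (m + 2))
    (hE : 1 - 2 * l + d.e.R * l ^ 2 ≤ Real.exp (-(2 * l)))
    (hK : -(z * d.g z / (1 - z) ^ 2 * l ^ 2) +
      9 / 2 * z * (1 - z) * (1 - 4 * l + d.C.R * l ^ 2) * (u ^ 2 / (1 + u)) ≤
      (3 * (m - 3) * (z ^ 2 / s ^ 5) - 9 * (z / s ^ 3)) * l ^ 2 +
      (4 / s - 4 * s / (1 + s) - 2 * s ^ 2 - 6 * (z / s ^ 3) * l) * (u ^ 2 / (1 + u)) +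
      dpS m z s l (u ^ 2 / (1 + u)))
    (hG : -(z * d.q z / (1 - z) ^ 2 * l ^ 2) ≤ G)
    (hN : Real.log (1 + u) - u ≤ N) (hl1 : 1 / 2 ≤ d.l1.R) (hl2 : 0 < d.l2.R)
    (h : FpuOK d z w u) :
    JTest (dpT m z s l u G N) (dpE m z s l u c N) (dpR m (z / s ^ 2)) u := by
  obtain ⟨h1, h2, h3, h4, h5⟩ := h
  have hN' : -(u ^ 2 / (2 + 31 / 25 * u)) ≤ N := by
    have := log_E2 hu hu1
    linarith only [hN, this]
  exact fpu_core hm hz0 hs0 hs hz hw hw1 hl hlL hL hu hu1 hC hc0 hc hc2 hE hK hG hN' hl1 hl2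
    h1 h2 h3 (fun _ => h4) (fun _ => h5)

/-- **(E1)**, `l ≤ 11/25` -/
theorem exp_E1e {l : ℝ} (hl : 0 ≤ l) (hl1 : l ≤ 11 / 25) :
    1 - 2 * l + 1522 / 1000 * l ^ 2 ≤ Real.exp (-(2 * l)) := by
  refine exp_quad hl hl1 (by norm_num) ?_
  refine exp_num (by norm_num) (by norm_num) (by norm_num) ?_
  simp only [Finset.sum_range_succ, Finset.sum_range_zero, Nat.factorial]
  norm_num

/-- **region `0 ≤ l`, `1 ≤ m z ≤ 9`, `u ≥ 0`, `m ≥ 27`** -/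
theorem fpu_region {m z s l u c G N : ℝ} (hm : 27 ≤ m) (hz0 : 0 < z) (hs0 : 0 < s)
    (hs : s ^ 2 = 1 - z) (hw1 : 1 ≤ m * z) (hw9 : m * z ≤ 9) (hl : 0 ≤ l)
    (hL : (l ≤ 2 / 5 ∧ m * z ≤ 121 / 16) ∨ (l ≤ 43 / 100 ∧ 121 / 16 ≤ m * z ∧ m ≤ 31) ∨
      (l ≤ 11 / 25 ∧ 121 / 16 ≤ m * z ∧ 31 ≤ m ∧ m ≤ 47) ∨
      (l ≤ 19 / 40 ∧ 25 / 4 ≤ m * z ∧ 48 ≤ m))
    (hu : 0 ≤ u) (hu1 : u ^ 2 ≤ 4 / 25 * (m * (z / s ^ 2))) (hu2 : u * s ≤ 1)
    (hc0 : 1 - 1 / (2 * m) ≤ c) (hc : c ≤ 1) (hc2 : c ^ 2 ≤ (m + 1) / (m + 2))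
    (hN : Real.log (1 + u) - u ≤ N)
    (hGa : l ≤ 2 / 5 → z ≤ 9 / 25 →
      -(z * (27 / 40 + 3 / 10 * z + 29 / 10 * z ^ 2) / (1 - z) ^ 2 * l ^ 2) ≤ G)
    (hGb : l ≤ 11 / 25 → z ≤ 1 / 3 →
      -(z * (97 / 100 - 9 / 4 * z + 91 / 10 * z ^ 2) / (1 - z) ^ 2 * l ^ 2) ≤ G)
    (hGc : l ≤ 19 / 40 → z ≤ 9 / 40 →
      -(z * (143 / 200 + 1 / 2 * z + 3 * z ^ 2) / (1 - z) ^ 2 * l ^ 2) ≤ G) :
    JTest (dpT m z s l u G N) (dpE m z s l u c N) (dpR m (z / s ^ 2)) u := by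
  have hmz : 27 * z ≤ m * z := mul_le_mul_of_nonneg_right hm hz0.le
  have hm0 : 0 ≤ m := by linarith only [hm]
  have hz3 : z ≤ 1 / 3 := by linarith only [hw9, hmz]
  have hz1 : 0 < 1 - z := by linarith only [hw9, hmz]
  have u1 : u ^ 2 * (1 - z) ≤ 4 / 25 * (m * z) := by
    have e : 4 / 25 * (m * z) = 4 / 25 * (m * (z / s ^ 2)) * (1 - z) := by
      rw [← hs]
      (clear * - hs0 hz0 hm; field_simp)
    rw [e]
    exact mul_le_mul_of_nonneg_right hu1 hz1.le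
  have u2 : u ^ 2 * (1 - z) ≤ 1 := by
    rw [← hs, ← mul_pow]
    exact pow_le_one₀ (by positivity) hu2
  have hu5 : u ≤ 5 / 4 := fpu_ub (z := z) (zM := 1 / 3) hz3 (by norm_num) (K := 1) u2
    (by norm_num) (by norm_num)
  have hW : 0 ≤ u ^ 2 / (1 + u) := by (clear * - hu; positivity)
  rcases hL with ⟨h1, h2⟩ | ⟨h1, h2, h3⟩ | ⟨h1, h2, h3, h4⟩ | ⟨h1, h2, h3⟩
  · -- `l ≤ 2/5`
    have hE := exp_E1a hl h1
    have hK := kK_a hm0 hz0.le (by linarith only [hw9, hmz]) hs0 hs hl h1 hw1 hw9 hW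
    have hG := hGa h1 (by linarith only [hw9, hmz])
    have key : ∀ d : FpuD, d.e = ⟨779, 499⟩ → d.C = ⟨5, 0⟩ → d.g0 = ⟨61, 9⟩ → d.g1 = ⟨5, 1⟩ →
        d.g2 = ⟨53, 0⟩ → d.q0 = ⟨27, 39⟩ → d.q1 = ⟨3, 9⟩ → d.q2 = ⟨29, 9⟩ → d.L = ⟨2, 4⟩ →
        1 / 2 ≤ d.l1.R → 0 < d.l2.R → FpuOK d z (m * z) u →
        JTest (dpT m z s l u G N) (dpE m z s l u c N) (dpR m (z / s ^ 2)) u := by
      intro d a1 a2 a3 a4 a5 a6 a7 a8 a9 b1 b2 b3
      refine fpu_of_ok (d := d) hm hz0 hs0 hs hz3 rfl hw1 hl ?_ ?_ hu hu5 ?_ hc0 hc hc2 ?_ ?_ ?_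
        hN b1 b2 b3
      · rw [a9]; simp only [Fr.R]; push_cast; linarith only [h1]
      · rw [a9]; simp only [Fr.R]; norm_num
      · rw [a2]; simp only [Fr.R]; norm_num
      · rw [a1]; simp only [Fr.R]; push_cast
        linarith only [hE]
      · rw [FpuD.g, a2, a3, a4, a5]; simp only [Fr.R]; push_cast
        convert hK using 2 <;> ring
      · rw [FpuD.q, a6, a7, a8]; simp only [Fr.R]; push_cast
        convert hG using 2; ring
    rcases le_total (m * z) 2 with i1 | i1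
    · exact key fpuD1 rfl rfl rfl rfl rfl rfl rfl rfl rfl
        (by simp only [fpuD1, Fr.R]; norm_num) (by simp only [fpuD1, Fr.R]; norm_num)
        (fpu_ok1 hz0.le hmz hw1 i1 hu u1 u2)
    rcases le_total (m * z) 3 with i2 | i2
    · exact key fpuD2 rfl rfl rfl rfl rfl rfl rfl rfl rfl
        (by simp only [fpuD2, Fr.R]; norm_num) (by simp only [fpuD2, Fr.R]; norm_num)
        (fpu_ok2 hz0.le hmz i1 i2 hu u1 u2)
    rcases le_total (m * z) 4 with i3 | i3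
    · exact key fpuD3 rfl rfl rfl rfl rfl rfl rfl rfl rfl
        (by simp only [fpuD3, Fr.R]; norm_num) (by simp only [fpuD3, Fr.R]; norm_num)
        (fpu_ok3 hz0.le hmz i2 i3 hu u1 u2)
    rcases le_total (m * z) 5 with i4 | i4
    · exact key fpuD4 rfl rfl rfl rfl rfl rfl rfl rfl rfl
        (by simp only [fpuD4, Fr.R]; norm_num) (by simp only [fpuD4, Fr.R]; norm_num)
        (fpu_ok4 hz0.le hmz i3 i4 hu u1 u2)
    rcases le_total (m * z) (25 / 4) with i5 | i5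
    · exact key fpuD5 rfl rfl rfl rfl rfl rfl rfl rfl rfl
        (by simp only [fpuD5, Fr.R]; norm_num) (by simp only [fpuD5, Fr.R]; norm_num)
        (fpu_ok5 hz0.le hmz i4 i5 hu u1 u2)
    · exact key fpuD6 rfl rfl rfl rfl rfl rfl rfl rfl rfl
        (by simp only [fpuD6, Fr.R]; norm_num) (by simp only [fpuD6, Fr.R]; norm_num)
        (fpu_ok6 hz0.le hmz i5 h2 hu u1 u2)
  · -- `l ≤ 43/100`
    have hM : m * z ≤ 31 * z := mul_le_mul_of_nonneg_right h3 hz0.le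
    have hE := exp_E1b hl h1
    have hK := kK_b hm0 hz0.le (by linarith only [hw9, hmz]) hs0 hs hl h1 (by linarith only [h2]) hw9 hW
    have hG := hGb (by linarith only [h1]) hz3
    have key : ∀ d : FpuD, d.e = ⟨1531, 999⟩ → d.C = ⟨47, 9⟩ → d.g0 = ⟨7, 0⟩ → d.g1 = ⟨12, 0⟩ →
        d.g2 = ⟨52, 0⟩ → d.q0 = ⟨97, 99⟩ → d.q1 = ⟨-9, 3⟩ → d.q2 = ⟨91, 9⟩ → d.L = ⟨43, 99⟩ →
        1 / 2 ≤ d.l1.R → 0 < d.l2.R → FpuOK d z (m * z) u →
        JTest (dpT m z s l u G N) (dpE m z s l u c N) (dpR m (z / s ^ 2)) u := by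
      intro d a1 a2 a3 a4 a5 a6 a7 a8 a9 b1 b2 b3
      refine fpu_of_ok (d := d) hm hz0 hs0 hs hz3 rfl hw1 hl ?_ ?_ hu hu5 ?_ hc0 hc hc2 ?_ ?_ ?_
        hN b1 b2 b3
      · rw [a9]; simp only [Fr.R]; push_cast; linarith only [h1]
      · rw [a9]; simp only [Fr.R]; norm_num
      · rw [a2]; simp only [Fr.R]; norm_num
      · rw [a1]; simp only [Fr.R]; push_cast
        linarith only [hE]
      · rw [FpuD.g, a2, a3, a4, a5]; simp only [Fr.R]; push_cast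
        convert hK using 2 <;> ring
      · rw [FpuD.q, a6, a7, a8]; simp only [Fr.R]; push_cast
        convert hG using 2; ring
    rcases le_total (m * z) 8 with i1 | i1
    · exact key fpuD7 rfl rfl rfl rfl rfl rfl rfl rfl rfl
        (by simp only [fpuD7, Fr.R]; norm_num) (by simp only [fpuD7, Fr.R]; norm_num)
        (fpu_ok7 hmz hM h2 i1 hu u1 u2)
    rcases le_total (m * z) (17 / 2) with i2 | i2
    · exact key fpuD8 rfl rfl rfl rfl rfl rfl rfl rfl rfl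
        (by simp only [fpuD8, Fr.R]; norm_num) (by simp only [fpuD8, Fr.R]; norm_num)
        (fpu_ok8 hmz hM i1 i2 hu u1 u2)
    · exact key fpuD9 rfl rfl rfl rfl rfl rfl rfl rfl rfl
        (by simp only [fpuD9, Fr.R]; norm_num) (by simp only [fpuD9, Fr.R]; norm_num)
        (fpu_ok9 hmz hM i2 hw9 hu u1 u2)
  · -- `l ≤ 11/25`
    have hM : m * z ≤ 47 * z := mul_le_mul_of_nonneg_right h4 hz0.le
    have hm31 : 31 * z ≤ m * z := mul_le_mul_of_nonneg_right h3 hz0.le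
    have hE := exp_E1e hl h1
    have hK := kK_d hm0 hz0.le (by linarith only [h2, hM]) hz3 hs0 hs hl h1 h2 hw9 hW
    have hG := hGb h1 hz3
    refine fpu_of_ok (d := fpuD10) hm hz0 hs0 hs hz3 rfl hw1 hl ?_ ?_ hu hu5 ?_ hc0 hc hc2 ?_ ?_
      ?_ hN (by simp only [fpuD10, Fr.R]; norm_num) (by simp only [fpuD10, Fr.R]; norm_num)
      (fpu_ok10 hm31 hM h2 hw9 hu u1 u2)
    · simp only [fpuD10, Fr.R]; push_cast; linarith only [h1]
    · simp only [fpuD10, Fr.R]; norm_num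
    · simp only [fpuD10, Fr.R]; norm_num
    · simp only [fpuD10, Fr.R]; push_cast
      linarith only [hE]
    · simp only [FpuD.g, fpuD10, Fr.R]; push_cast
      convert hK using 2 <;> ring
    · simp only [FpuD.q, fpuD10, Fr.R]; push_cast
      convert hG using 2; ring
  · -- `l ≤ 19/40`
    have hm48 : 48 * z ≤ m * z := mul_le_mul_of_nonneg_right h3 hz0.le
    have hE := exp_E1c hl h1
    have hG := hGc h1 (by linarith only [hw9, hm48])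
    rcases le_total (m * z) (121 / 16) with i1 | i1
    · have hK := kK_e hm0 hz0.le (by linarith only [hw9, hm48]) hs0 hs hl h1 h2 hw9 hW
      refine fpu_of_ok (d := fpuD11) hm hz0 hs0 hs hz3 rfl hw1 hl ?_ ?_ hu hu5 ?_ hc0 hc hc2 ?_ ?_
        ?_ hN (by simp only [fpuD11, Fr.R]; norm_num) (by simp only [fpuD11, Fr.R]; norm_num)
        (fpu_ok11 hz0.le hm48 h2 i1 hu u1 u2)
      · simp only [fpuD11, Fr.R]; push_cast; linarith only [h1]
      · simp only [fpuD11, Fr.R]; norm_num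
      · simp only [fpuD11, Fr.R]; norm_num
      · simp only [fpuD11, Fr.R]; push_cast
        linarith only [hE]
      · simp only [FpuD.g, fpuD11, Fr.R]; push_cast
        convert hK using 2 <;> ring
      · simp only [FpuD.q, fpuD11, Fr.R]; push_cast
        convert hG using 2; ring
    · have hK := kK_c hm0 hz0.le (by linarith only [hw9, hm48]) hs0 hs hl h1 i1 hw9 hW
      refine fpu_of_ok (d := fpuD12) hm hz0 hs0 hs hz3 rfl hw1 hl ?_ ?_ hu hu5 ?_ hc0 hc hc2 ?_ ?_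
        ?_ hN (by simp only [fpuD12, Fr.R]; norm_num) (by simp only [fpuD12, Fr.R]; norm_num)
        (fpu_ok12 hz0.le hm48 i1 hw9 hu u1 u2)
      · simp only [fpuD12, Fr.R]; push_cast; linarith only [h1]
      · simp only [fpuD12, Fr.R]; norm_num
      · simp only [fpuD12, Fr.R]; norm_num
      · simp only [fpuD12, Fr.R]; push_cast
        linarith only [hE]
      · simp only [FpuD.g, fpuD12, Fr.R]; push_cast
        convert hK using 2 <;> ring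
      · simp only [FpuD.q, fpuD12, Fr.R]; push_cast
        convert hG using 2; ring

end Vale.Agent.P237.AllN
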