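import Vale.Agent.P237.AllN.FAllB
import Vale.Agent.P237.AllN.ApSt5
import Vale.Agent.P237.AllN.FPuZ
import Vale.Agent.P237.AllN.FG1

/-!
# P237, block D: the pointwise test for `0 < l`, `1 ≤ m x² ≤ 9`, `0 ≤ u`
-/

open Set

namespace Vale.Agent.P237.AllN

open Alm

variable {m : ℕ} {r τ τ' T : ℝ → ℝ} {x : ℝ}

/-- **region `0 < l`, `1 ≤ m x² ≤ 9`, `0 ≤ u`** -/
theorem IsTrans.jt_mid_pos (hm : 27 ≤ m) (hr : IsProf r) (h : IsTrans m r τ τ' T)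
    (hN : (∫ y in (-1 : ℝ)..1, r y ^ (m - 1)) ^ m * aInt m ^ (m - 1) ≤
      aInt (m - 1) ^ m * (∫ y in (-1 : ℝ)..1, r y ^ m) ^ (m - 1))
    (hx : x ∈ Ioo (0 : ℝ) 1) (h1 : 1 ≤ (m : ℝ) * x ^ 2) (h9 : (m : ℝ) * x ^ 2 ≤ 9)
    (hl : 0 < lf τ x) (hu : 0 ≤ uf τ τ' x) :
    JTest (dpT m (x ^ 2) (sq x) (lf τ x) (uf τ τ' x) (jG τ x) (jN m (lf τ x) (uf τ τ' x)))
      (dpE m (x ^ 2) (sq x) (lf τ x) (uf τ τ' x) (fc m) (jN m (lf τ x) (uf τ τ' x)))
      (dpR m (x ^ 2 / sq x ^ 2)) (uf τ τ' x) := by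
  have F := h.ffacts (by omega) hr hx
  have S := h.fsteps hm hr hN hx
  have hm' : (27 : ℝ) ≤ m := by exact_mod_cast hm
  have hm0 : (0 : ℝ) < m := by linarith
  refine fpu_region hm' F.z0 F.s0 F.hs h1 h9 hl.le ?_ hu (F.uw hu) F.us F.c0 F.c1 F.c2
    (fa_N_ge hm0) ?_ ?_ ?_
  · rcases le_total ((m : ℝ) * x ^ 2) (25 / 4) with a | a
    · exact Or.inl ⟨S.st2 (by linarith) a, by linarith⟩
    rcases le_or_gt m 47 with h47 | h47
    · rcases le_total ((m : ℝ) * x ^ 2) (121 / 16) with b | b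
      · exact Or.inl ⟨S.st3' h47 a b, b⟩
      · rcases le_or_gt m 30 with h30 | h30
        · refine Or.inr (Or.inl ⟨h.ap_last' (by omega) h30 hr hN hx b h9, b, ?_⟩)
          have : (m : ℝ) ≤ 30 := by exact_mod_cast h30
          linarith
        · refine Or.inr (Or.inr (Or.inl ⟨S.st4' h47 b h9, b, ?_, ?_⟩))
          · exact_mod_cast h30
          · exact_mod_cast h47
    · refine Or.inr (Or.inr (Or.inr ⟨?_, a, ?_⟩))
      · rcases le_total ((m : ℝ) * x ^ 2) (121 / 16) with b | b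
        · have := S.st3 a b; linarith
        · exact S.st4 b h9
      · exact_mod_cast h47
  · intro hl1 hz1
    rw [h.jG_eq hx]
    exact fg1_40 hz1 hl.le hl1
  · intro hl1 hz1
    rw [h.jG_eq hx]
    exact fg1_44 hz1 hl.le hl1
  · intro hl1 hz1
    rw [h.jG_eq hx]
    exact fg1_475 hz1 hl.le hl1

end Vale.Agent.P237.AllN
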