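import Vale.Agent.P237.AllN.FAllN
import Vale.Agent.P237.AllN.FAllM
import Vale.Agent.P237.AllN.FAllP

/-!
# P237, block D: `OneDF m 1` for `m ≥ 27` from the far region `0 < l`, `9 ≤ m x²`
-/

open Set

namespace Vale.Agent.P237.AllN

open Alm

/-- the pointwise test in the far region `0 < l`, `9 ≤ m x²` -/
def FarTest (m : ℕ) : Prop := ∀ r τ τ' T : ℝ → ℝ, IsProf r → IsTrans m r τ τ' T →
  (∫ y in (-1 : ℝ)..1, r y ^ (m - 1)) ^ m * aInt m ^ (m - 1) ≤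
    aInt (m - 1) ^ m * (∫ y in (-1 : ℝ)..1, r y ^ m) ^ (m - 1) →
  ∀ x ∈ Ioo (0 : ℝ) 1, 9 ≤ (m : ℝ) * x ^ 2 → 0 < lf τ x →
    JTest (dpT m (x ^ 2) (sq x) (lf τ x) (uf τ τ' x) (jG τ x) (jN m (lf τ x) (uf τ τ' x)))
      (dpE m (x ^ 2) (sq x) (lf τ x) (uf τ τ' x) (fc m) (jN m (lf τ x) (uf τ τ' x)))
      (dpR m (x ^ 2 / sq x ^ 2)) (uf τ τ' x)

/-- block D from the far region -/
theorem oneDF_of_far {m : ℕ} (hm : 27 ≤ m) (hfar : FarTest m) : OneDF m 1 := by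
  refine oneDF_of_test' (by omega) fun r τ τ' T hr h hN x hx => ⟨fun hl => ?_, fun hl =>
    h.jt_neg (by omega) hr hx hl⟩
  rcases le_total ((m : ℝ) * x ^ 2) 1 with h1 | h1
  · exact h.jt_le_one hm hr hN hx h1 hl
  rcases le_total ((m : ℝ) * x ^ 2) 9 with h9 | h9
  · rcases le_total (uf τ τ' x) 0 with hu | hu
    · exact h.jt_mid_neg hm hr hN hx h1 h9 hl hu
    · exact h.jt_mid_pos hm hr hN hx h1 h9 hl hu
  · exact hfar r τ τ' T hr h hN x hx h9 hl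

end Vale.Agent.P237.AllN
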