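import Vale.Agent.P237.AllN.FKs4
import Vale.Agent.P237.AllN.FTest

/-!
# P237, block D, `X ≥ 3`, `u ≤ 0`, `x ≤ 7/10`: assembly of the test from (S), (V), (X)
-/

set_option linter.all false

namespace Vale.Agent.P237.AllN.FXnA

theorem exp_pade {l : ℝ} (hl : 0 ≤ l) : 1 - l ≤ (1 + l) * Real.exp (-(2 * l)) := by
  have hmono : MonotoneOn (fun t : ℝ => (1 + t) * Real.exp (-(2 * t)) - 1 + t) (Set.Ici 0) := by
    have hd : ∀ t : ℝ, HasDerivAt (fun t : ℝ => (1 + t) * Real.exp (-(2 * t)) - 1 + t)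
        (1 * Real.exp (-(2 * t)) + (1 + t) * (Real.exp (-(2 * t)) * (-(2 * 1))) + 1) t := by
      intro t
      have h1 : HasDerivAt (fun t : ℝ => Real.exp (-(2 * t)))
          (Real.exp (-(2 * t)) * (-(2 * 1))) t := by
        exact ((hasDerivAt_id t).const_mul 2).neg.exp
      have h2 : HasDerivAt (fun t : ℝ => 1 + t) 1 t := by
        simpa using (hasDerivAt_id t).const_add 1
      exact ((h2.mul h1).sub_const 1).add (hasDerivAt_id t)
    apply monotoneOn_of_deriv_nonneg (convex_Ici 0)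
    · exact fun t _ => (hd t).continuousAt.continuousWithinAt
    · exact fun t _ => (hd t).differentiableAt.differentiableWithinAt
    · intro t ht
      rw [(hd t).deriv]
      simp only [Set.nonempty_Iio, interior_Ici', Set.mem_Ioi] at ht
      have h3 : 2 * t + 1 ≤ Real.exp (2 * t) := Real.add_one_le_exp _
      have h4 : Real.exp (-(2 * t)) * Real.exp (2 * t) = 1 := by
        rw [← Real.exp_add]; simp
      have h5 : 0 < Real.exp (-(2 * t)) := Real.exp_pos _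
      nlinarith [mul_le_mul_of_nonneg_left h3 h5.le]
  have h := hmono (Set.mem_Ici.2 le_rfl) (Set.mem_Ici.2 hl) hl
  simp only [add_zero, mul_zero, neg_zero, Real.exp_zero, mul_one, sub_self] at h
  linarith

/-- `2 l² ≤ (1+l) (e^{-2l} - 1 + 2l)` -/
theorem a1_ge {l : ℝ} (hl : 0 ≤ l) :
    2 * l ^ 2 ≤ (1 + l) * (Real.exp (-(2 * l)) - 1 + 2 * l) := by
  have := exp_pade hl
  linarith

theorem a1_pos {l : ℝ} (hl : 0 < l) : 0 < Real.exp (-(2 * l)) - 1 + 2 * l := by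
  have h := a1_ge hl.le
  have h2 : 0 < 2 * l ^ 2 := by positivity
  by_contra hc
  push Not at hc
  nlinarith

/-- `a²/2 ≤ -a - log (1-a)` -/
theorem g_ge {u : ℝ} (hu : 0 < 1 + u) (hu0 : u ≤ 0) : u ^ 2 ≤ 2 * (u - Real.log (1 + u)) := by
  -- `log (1+u) ≤ u - u²/2` for `-1 < u ≤ 0`
  have hanti : MonotoneOn (fun t : ℝ => Real.log (1 + t) - t + t ^ 2 / 2) (Set.Ioc (-1) 0) := by
    have hd : ∀ t : ℝ, 0 < 1 + t → HasDerivAt (fun t : ℝ => Real.log (1 + t) - t + t ^ 2 / 2)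
        (1 / (1 + t) - 1 + (2 : ℕ) * t ^ (2 - 1) * 1 / 2) t := by
      intro t ht
      have h1 : HasDerivAt (fun t : ℝ => Real.log (1 + t)) (1 / (1 + t)) t := by
        have h2 : HasDerivAt (fun t : ℝ => 1 + t) 1 t := by
          simpa only [id_eq] using (hasDerivAt_id t).const_add 1
        exact h2.log ht.ne'
      exact (h1.sub (hasDerivAt_id t)).add (((hasDerivAt_id t).pow 2).div_const 2)
    apply monotoneOn_of_deriv_nonneg (convex_Ioc (-1) 0)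
    · intro t ht
      exact (hd t (by linarith [ht.1])).continuousAt.continuousWithinAt
    · intro t ht
      rw [interior_Ioc] at ht
      exact (hd t (by linarith [ht.1])).differentiableAt.differentiableWithinAt
    · intro t ht
      rw [interior_Ioc] at ht
      have h1 : 0 < 1 + t := by linarith [ht.1]
      rw [(hd t h1).deriv]
      have e : 1 / (1 + t) - 1 + ((2 : ℕ) : ℝ) * t ^ (2 - 1) * 1 / 2 = t ^ 2 / (1 + t) := by
        field_simp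
        push_cast
        ring
      rw [e]
      (clear * - h1; positivity)
  have h := hanti (Set.mem_Ioc.2 ⟨by linarith, hu0⟩) (Set.mem_Ioc.2 ⟨by norm_num, le_rfl⟩) hu0
  simp only [add_zero, Real.log_one, sub_self, ne_eq, OfNat.ofNat_ne_zero, not_false_eq_true, zero_pow, zero_div] at h
  linarith

/-- the difference of `dpT` and its value at `u = 0` -/
theorem dpT_sub (m z s l u G N : ℝ) :
    dpT m z s l u G N = dpT m z s l 0 G 0 +
      (4 * s ^ 2 * Real.exp (-(2 * l)) +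
        (4 / s - 4 * s / (1 + s) - 2 * s ^ 2 - 6 * (z / s ^ 3) * l + ksC z s l)) *
        (u ^ 2 / (1 + u)) + 2 * (m + 1) / ((m - 1) * s) * N - 6 / 25 * (m + 3) * z * l * u := by
  unfold dpT
  rw [dpS_eq, dpS_eq]
  simp only [ne_eq, OfNat.ofNat_ne_zero, not_false_eq_true, zero_pow, zero_div, mul_zero, zero_mul,
    add_zero, sub_zero]
  ring


/-- elementary facts: `σ = 1/s`, `y = z/s²` -/
theorem geo {m z s : ℝ} (hm : 27 ≤ m) (hz : 0 < z) (hz1 : z ≤ 49 / 100)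
    (hs : 0 < s) (hs2 : s ^ 2 = 1 - z) (hw : 9 ≤ m * z) :
    ∃ σ y : ℝ, σ = 1 / s ∧ y = z / s ^ 2 ∧ σ * s = 1 ∧ 1 < σ ∧ σ ≤ 500 / 357 ∧ y = σ ^ 2 - 1 ∧
      y * s ^ 2 = z ∧ 0 < y ∧ y ≤ 49 / 51 ∧ 9 * σ ^ 2 ≤ m * y ∧ 9 ≤ m * y ∧
      51 / 100 * y ≤ z ∧ s < 1 ∧ 357 / 500 ≤ s := by
  have hm0 : (0 : ℝ) < m := by linarith only [hm]
  have hs1 : s < 1 := by nlinarith only [hs2, hz]
  have hs714 : 357 / 500 ≤ s := by
    by_contra h
    push Not at h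
    have : s ^ 2 < (357 / 500) ^ 2 := by
      apply pow_lt_pow_left₀ h hs.le (by norm_num)
    norm_num at this
    linarith only [hz1, hs2, this]
  have hσs : 1 / s * s = 1 := by field_simp
  have hσ0 : 0 < 1 / s := by positivity
  have hσ1 : 1 < 1 / s := by nlinarith only [hs, hs1, hσs]
  have hσ2 : 1 / s ≤ 500 / 357 := by
    have : 1 / s * (357 / 500) ≤ 1 / s * s := mul_le_mul_of_nonneg_left hs714 hσ0.le
    linarith only [hσs, this]
  have hyσ : z / s ^ 2 = (1 / s) ^ 2 - 1 := by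
    field_simp
    linarith only [hs2]
  have hys : z / s ^ 2 * s ^ 2 = z := by field_simp
  have hy0 : 0 < z / s ^ 2 := by (clear * - hz hs; positivity)
  have hyl : z / s ^ 2 ≤ 49 / 51 := by
    rw [div_le_iff₀ (by positivity), hs2]
    linarith only [hz1]
  have hY : 9 * (1 / s) ^ 2 ≤ m * (z / s ^ 2) := by
    have e : m * (z / s ^ 2) = (m * z) * (1 / s) ^ 2 := by
      field_simp
    rw [e]
    exact mul_le_mul_of_nonneg_right hw (by positivity)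
  refine ⟨1 / s, z / s ^ 2, rfl, rfl, hσs, hσ1, hσ2, hyσ, hys, hy0, hyl, hY, by nlinarith only [hyσ, hy0, hY], ?_,
    hs1, hs714⟩
  nlinarith only [hs2, hys, hz, hyl]

/-- lower bounds of `ρ` -/
theorem rho {m σ y ρ : ℝ} (hm : 27 ≤ m) (hσ1 : 1 < σ) (hyσ : y = σ ^ 2 - 1) (hy0 : 0 < y)
    (hY : 9 * σ ^ 2 ≤ m * y) (hρd : ρ = (2 + 5 * m * y + m * (m - 2) * y ^ 2) / 10) :
    4 / 3 * (m * y) * σ ≤ ρ ∧ 5 / 2 * (m * y ^ 2) ≤ ρ ∧ 12 * σ ^ 3 ≤ ρ ∧ 4 / 3 * (m * y) ≤ ρ ∧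
      27 / 2 * y + 135 / 2 * y ^ 2 ≤ ρ := by
  have hσ0 : 0 < σ := by linarith only [hσ1]
  have hm0 : 0 < m := by linarith only [hm]
  have hρ1 : 4 / 3 * (m * y) * σ ≤ ρ := by
    have h3 : 25 / 3 * σ ^ 2 ≤ (m - 2) * y := by nlinarith only [hY, hm]
    have h4 : 40 / 3 * σ ≤ 5 + (m - 2) * y := by (clear * - hσ1 h3; nlinarith)
    have h5 : (m * y) * (40 / 3 * σ) ≤ (m * y) * (5 + (m - 2) * y) :=
      mul_le_mul_of_nonneg_left h4 (by positivity)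
    rw [hρd]
    linarith
  refine ⟨hρ1, ?_, ?_, ?_, ?_⟩
  · have : 0 ≤ m * y ^ 2 * (m - 27) := by
      apply mul_nonneg (by positivity) (by linarith only [hm])
    have h6 : 0 < m * y := by positivity
    rw [hρd]
    nlinarith only [hY, this]
  · refine le_trans ?_ hρ1
    have := mul_le_mul_of_nonneg_right hY hσ0.le
    nlinarith only [this]
  · refine le_trans ?_ hρ1
    have : 0 < 4 / 3 * (m * y) := by positivity
    nlinarith only [hσ1, hY]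
  · rw [hρd]
    have h6 : 27 * y ≤ m * y := mul_le_mul_of_nonneg_right hm hy0.le
    have h7 : 675 * y ^ 2 ≤ m * (m - 2) * y ^ 2 := by
      apply mul_le_mul_of_nonneg_right _ (sq_nonneg y)
      nlinarith only [hm]
    linarith only [h6, h7]

/-- `κ = κ₁ σ`, `k₀ = 2.37 σ - κ`, `η = κ - 2 c σ` -/
theorem kap {m σ c κ : ℝ} (hm : 27 ≤ m) (hσ0 : 0 < σ) (hκe : κ = 2 * (m + 1) / (m - 1) * σ)
    (hc1 : 1 - 1 / (2 * m) ≤ c) (hc2 : c ≤ 1) :
    0 < κ ∧ 27 / 125 * σ ≤ 237 / 100 * σ - κ ∧ 0 ≤ κ - 2 * c * σ ∧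
      (κ - 2 * c * σ) * m ≤ 129 / 25 * σ ∧ (κ - 2 * c * σ) ≤ 43 / 225 * σ := by
  have hm0 : 0 < m := by linarith only [hm]
  have hκ1 : 2 * (m + 1) / (m - 1) ≤ 28 / 13 := by
    rw [div_le_iff₀ (by linarith only [hm])]
    linarith
  have hκ2 : 2 ≤ 2 * (m + 1) / (m - 1) := by
    rw [le_div_iff₀ (by linarith only [hm])]
    linarith only []
  have hη0 : 0 ≤ κ - 2 * c * σ := by
    rw [hκe]
    nlinarith only [hσ0, hc2, hκ2]
  have hηm : (κ - 2 * c * σ) * m ≤ 129 / 25 * σ := by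
    have h3 : (2 * (m + 1) / (m - 1) - 2 * c) * m ≤ 129 / 25 := by
      have h4 : 2 * (m + 1) / (m - 1) = 2 + 4 / (m - 1) := by
        have : m - 1 ≠ 0 := by linarith only [hm]
        field_simp
        ring
      have h5 : 4 / (m - 1) * m ≤ 54 / 13 := by
        rw [div_mul_eq_mul_div, div_le_iff₀ (by linarith only [hm])]
        linarith only [hm]
      have h6 : 2 * m - 1 ≤ 2 * c * m := by
        have h7 := mul_le_mul_of_nonneg_right hc1 (show (0 : ℝ) ≤ 2 * m by linarith only [hm])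
        have h8 : (1 - 1 / (2 * m)) * (2 * m) = 2 * m - 1 := by (clear * - hm; field_simp)
        linarith only [h7, h8]
      rw [h4]
      linarith
    have : (κ - 2 * c * σ) * m = (2 * (m + 1) / (m - 1) - 2 * c) * m * σ := by
      rw [hκe]; ring
    rw [this]
    exact mul_le_mul_of_nonneg_right h3 hσ0.le
  refine ⟨by rw [hκe]; (clear * - hκ2 hσ0; positivity), ?_, hη0, hηm, by nlinarith only [hηm, hm, hη0]⟩
  rw [hκe]
  nlinarith only [hσ0, hκ1]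

/-- bounds of `r` -/
theorem rr {m σ y c r : ℝ} (hm : 27 ≤ m) (hσ1 : 1 < σ) (hyσ : y = σ ^ 2 - 1) (hY9 : 9 ≤ m * y)
    (hc1 : 1 - 1 / (2 * m) ≤ c) (hc2 : c ≤ 1) (hc3 : c ^ 2 ≤ (m + 1) / (m + 2))
    (hre : r = 2 * c * σ - 2 + 2 * (1 - c) * (1 - m * y)) :
    r ≤ 2 * y / (m + 2) ∧ -((σ - 1) ^ 2 + (σ - 1) / m) ≤ r := by
  have hm0 : 0 < m := by linarith only [hm]
  constructor
  · have hcm : c ≤ 1 - 1 / (2 * (m + 2)) := by
      have h3 : c ^ 2 ≤ (1 - 1 / (2 * (m + 2))) ^ 2 := by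
        refine hc3.trans ?_
        have h4 : (m + 1) / (m + 2) = 1 - 1 / (m + 2) := by
          field_simp
          ring
        rw [h4]
        have h5 : (1 - 1 / (2 * (m + 2))) ^ 2 = 1 - 1 / (m + 2) + (1 / (2 * (m + 2))) ^ 2 := by
          field_simp
          ring
        rw [h5]
        nlinarith only []
      have h6 : 0 ≤ 1 - 1 / (2 * (m + 2)) := by
        have : 1 / (2 * (m + 2)) ≤ 1 := by
          rw [div_le_one (by linarith only [hm])]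
          linarith only [hm]
        linarith only [this]
      exact le_of_sq_le_sq h3 h6
    rw [hre, le_div_iff₀ (by linarith only [hm])]
    have h3 : (1 - c) * (m + 2) ≥ 1 / 2 := by
      have := mul_le_mul_of_nonneg_right hcm (show (0 : ℝ) ≤ m + 2 by linarith only [hm])
      have h4 : (1 - 1 / (2 * (m + 2))) * (m + 2) = (m + 2) - 1 / 2 := by
        (clear * - hm; field_simp)
      linarith only [this, h4]
    have h5 : (2 * c * σ - 2 + 2 * (1 - c) * (1 - m * y)) * (m + 2) =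
        (2 * σ - 2) * (m + 2) - 2 * ((1 - c) * (m + 2)) * (σ - 1 + m * y) := by ring
    rw [h5]
    have h6 : 0 < σ - 1 + m * y := by linarith only [hσ1, hY9]
    have h7 : 1 / 2 * (σ - 1 + m * y) ≤ ((1 - c) * (m + 2)) * (σ - 1 + m * y) :=
      mul_le_mul_of_nonneg_right h3 h6.le
    have h8 : 2 * σ - 2 ≤ y := by
      rw [hyσ]
      nlinarith only [sq_nonneg (σ - 1)]
    have h9 := mul_le_mul_of_nonneg_right h8 (show (0 : ℝ) ≤ m + 2 by linarith only [hm])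
    (clear * - hσ1 h7 h9; nlinarith)
  · rw [hre]
    have h1c : 2 * (1 - c) ≤ 1 / m := by
      have h3 : 1 / (2 * m) = 1 / m / 2 := by field_simp
      rw [h3] at hc1
      linarith only [hc1]
    have h4 : 2 * c * σ - 2 + 2 * (1 - c) * (1 - m * y) =
        2 * σ - 2 - 2 * (1 - c) * (σ - 1 + m * y) := by ring
    rw [h4]
    have h5 : 2 * (1 - c) * (σ - 1 + m * y) ≤ 1 / m * (σ - 1 + m * y) :=
      mul_le_mul_of_nonneg_right h1c (by linarith only [hσ1, hY9])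
    have h6 : 1 / m * (σ - 1 + m * y) = (σ - 1) / m + y := by
      field_simp
    rw [h6] at h5
    have h7 : (σ - 1) ^ 2 = y + 2 - 2 * σ := by rw [hyσ]; ring
    rw [h7]
    linarith only [h5]

/-- `q² ≤ (49/1000) σ ρ`, `q = 2σ - 2s²` -/
theorem qsq {s σ y ρ : ℝ} (hσs : σ * s = 1) (hs : 0 < s) (hs1 : s < 1) (hs714 : 357 / 500 ≤ s)
    (hys : y * s ^ 2 = 1 - s ^ 2) (hρ12 : 12 * σ ^ 3 ≤ ρ)
    (hρ5 : 27 / 2 * y + 135 / 2 * y ^ 2 ≤ ρ) :
    (2 * σ - 2 * s ^ 2) ^ 2 ≤ 49 / 1000 * (σ * ρ) := by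
  have hqs : (2 * σ - 2 * s ^ 2) * s = 2 * (1 - s ^ 3) := by
    have : (2 * σ - 2 * s ^ 2) * s = 2 * (σ * s) - 2 * s ^ 3 := by ring
    rw [this, hσs]
    ring
  have key : ((2 * σ - 2 * s ^ 2) * s) ^ 2 ≤ 49 / 1000 * (s * ρ) := by
    rw [hqs]
    rcases le_total (41 / 50) s with h3 | h3
    · have h4 : s * (1 - s ^ 3) ≤ 3825 / 10000 := by
        nlinarith only [hs1, h3, mul_nonneg (sub_nonneg.2 h3) (sub_nonneg.2 hs1.le)]
      have h5 : 0 ≤ s * (1 - s ^ 3) := by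
        apply mul_nonneg hs.le
        have : s ^ 3 ≤ 1 := pow_le_one₀ hs.le hs1.le
        linarith only [this]
      have h6 : (s * (1 - s ^ 3)) ^ 2 ≤ (3825 / 10000) ^ 2 := pow_le_pow_left₀ h5 h4 2
      have h7 : 12 * σ ^ 2 ≤ s * ρ := by
        have := mul_le_mul_of_nonneg_left hρ12 hs.le
        have h8 : s * (12 * σ ^ 3) = 12 * σ ^ 2 * (σ * s) := by ring
        rw [h8, hσs, mul_one] at this
        exact this
      have h8 : (2 * (1 - s ^ 3)) ^ 2 = 4 * (s * (1 - s ^ 3)) ^ 2 * σ ^ 2 := by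
        have h10 : 4 * (s * (1 - s ^ 3)) ^ 2 * σ ^ 2 = 4 * ((σ * s) ^ 2 * (1 - s ^ 3) ^ 2) := by
          ring
        rw [h10, hσs]
        ring
      rw [h8]
      have h9 : 4 * (s * (1 - s ^ 3)) ^ 2 * σ ^ 2 ≤ 4 * (3825 / 10000) ^ 2 * σ ^ 2 := by
        apply mul_le_mul_of_nonneg_right _ (sq_nonneg σ)
        linarith only [h6]
      have h11 : 0 ≤ σ ^ 2 := by (clear * -; positivity)
      linarith
    · have h4 : (1 - s ^ 2) * (135 / 2 - 54 * s ^ 2) ≤ s ^ 4 * ρ := by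
        have h6 := mul_le_mul_of_nonneg_left hρ5 (show 0 ≤ s ^ 4 by positivity)
        have h7 : s ^ 4 * (27 / 2 * y + 135 / 2 * y ^ 2) =
            27 / 2 * (y * s ^ 2) * s ^ 2 + 135 / 2 * (y * s ^ 2) ^ 2 := by ring
        rw [h7, hys] at h6
        nlinarith only [h6]
      have h5 : (1 - s) * s ^ 3 ≤ 27 / 256 := by
        have h6 : 27 / 256 - (1 - s) * s ^ 3 = (s - 3 / 4) ^ 2 * (s ^ 2 + s / 2 + 3 / 16) := by
          ring
        have h7 : 0 ≤ (s - 3 / 4) ^ 2 * (s ^ 2 + s / 2 + 3 / 16) := by (clear * - hs; positivity)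
        linarith only [h7]
      have h6 : (1 + s + s ^ 2) ^ 2 ≤ (24924 / 10000) ^ 2 := by
        apply pow_le_pow_left₀ (by positivity)
        nlinarith only [h3, hs]
      have h7 : (1 - s) * s ^ 3 * (1 + s + s ^ 2) ^ 2 ≤ 27 / 256 * (24924 / 10000) ^ 2 := by
        apply mul_le_mul h5 h6 (by positivity) (by norm_num)
      have h8 : 56 ≤ (1 + s) * (135 / 2 - 54 * s ^ 2) := by
        nlinarith only [h3, hs]
      have h9 : 4 * ((1 - s) * s ^ 3 * (1 + s + s ^ 2) ^ 2) ≤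
          49 / 1000 * ((1 + s) * (135 / 2 - 54 * s ^ 2)) := by
        linarith
      have h10 : 4 * (1 - s ^ 3) ^ 2 * s ^ 3 ≤
          49 / 1000 * ((1 - s ^ 2) * (135 / 2 - 54 * s ^ 2)) := by
        have h11 := mul_le_mul_of_nonneg_left h9 (show 0 ≤ 1 - s by linarith only [hs1])
        have h12 : 4 * (1 - s ^ 3) ^ 2 * s ^ 3 =
            (1 - s) * (4 * ((1 - s) * s ^ 3 * (1 + s + s ^ 2) ^ 2)) := by ring
        have h13 : 49 / 1000 * ((1 - s ^ 2) * (135 / 2 - 54 * s ^ 2)) =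
            (1 - s) * (49 / 1000 * ((1 + s) * (135 / 2 - 54 * s ^ 2))) := by ring
        rw [h12, h13]
        exact h11
      have h14 : 4 * (1 - s ^ 3) ^ 2 * s ^ 3 ≤ 49 / 1000 * (s * ρ) * s ^ 3 := by
        have : 49 / 1000 * (s * ρ) * s ^ 3 = 49 / 1000 * (s ^ 4 * ρ) := by ring
        rw [this]
        linarith only [h4, h10]
      have h15 : 0 < s ^ 3 := by positivity
      have h16 := le_of_mul_le_mul_right h14 h15
      linarith only [h16]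
  have h3 : (2 * σ - 2 * s ^ 2) ^ 2 = ((2 * σ - 2 * s ^ 2) * s) ^ 2 * σ ^ 2 := by
    have : ((2 * σ - 2 * s ^ 2) * s) ^ 2 * σ ^ 2 = (2 * σ - 2 * s ^ 2) ^ 2 * (σ * s) ^ 2 := by ring
    rw [this, hσs]
    ring
  rw [h3]
  have h4 := mul_le_mul_of_nonneg_right key (sq_nonneg σ)
  have h5 : 49 / 1000 * (s * ρ) * σ ^ 2 = 49 / 1000 * (σ * ρ) * (σ * s) := by ring
  rw [h5, hσs, mul_one] at h4
  exact h4

/-- the upper side -/
theorem upper {ρ Xa g sig xi chi k0 η R1 Th : ℝ} (hρ : 0 < ρ) (hX : Xa ≤ chi * ρ) (hX0 : 0 < Xa)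
    (hg0 : 0 ≤ g) (hk0 : 0 < k0) (hη : 0 ≤ η) (hf1 : η * g ≤ 9 / 100 * ρ)
    (hf2 : η ^ 2 * g ≤ 2 / 25 * ρ * k0) (hR0 : 0 ≤ R1) (hR1 : R1 ≤ ρ / 100)
    (hR2 : R1 ^ 2 ≤ 1 / 70000 * ρ * Xa) (hxs : 19 / 100 ≤ sig - xi) (hsig : sig ≤ 1)
    (h1 : (1 - sig) ^ 2 * chi ≤ 13 / 25 * (sig - xi)) (h2 : (1 - sig) * chi ≤ 1 / 5)
    (hTh : Th = (sig - xi) * Xa + k0 * g) :
    0 ≤ (1 - sig) * Xa + η * g + R1 ∧ (1 - sig) * Xa + η * g + R1 ≤ 3 / 10 * ρ ∧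
      ((1 - sig) * Xa + η * g + R1) ^ 2 ≤ 31 / 50 * (ρ * Th) := by
  have hThX : 19 / 100 * Xa ≤ Th := by
    rw [hTh]
    have h3 := mul_le_mul_of_nonneg_right hxs hX0.le
    have h4 : 0 ≤ k0 * g := by (clear * - hk0 hg0; positivity)
    linarith only [h3, h4]
  have hA : ((1 - sig) * Xa + η * g) ^ 2 ≤ 3 / 5 * (ρ * Th) := by
    have h3 : ((1 - sig) * Xa) ^ 2 ≤ 13 / 25 * (ρ * ((sig - xi) * Xa)) := by
      have h4 : (1 - sig) ^ 2 * Xa ≤ (1 - sig) ^ 2 * (chi * ρ) :=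
        mul_le_mul_of_nonneg_left hX (sq_nonneg _)
      have h5 : (1 - sig) ^ 2 * (chi * ρ) ≤ 13 / 25 * (sig - xi) * ρ := by
        have := mul_le_mul_of_nonneg_right h1 hρ.le
        (clear * - this; linarith)
      have h6 := mul_le_mul_of_nonneg_right (h4.trans h5) hX0.le
      have e1 : ((1 - sig) * Xa) ^ 2 = (1 - sig) ^ 2 * Xa * Xa := by ring
      rw [e1]
      linarith only [h6]
    have h4 : (η * g) ^ 2 ≤ 2 / 25 * (ρ * (k0 * g)) := by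
      have := mul_le_mul_of_nonneg_right hf2 hg0
      have e1 : (η * g) ^ 2 = η ^ 2 * g * g := by ring
      rw [e1]
      (clear * - this; linarith)
    have h5 := sq_nonneg (2 * ((1 - sig) * Xa) - 13 * (η * g))
    have h6 : ((1 - sig) * Xa + η * g) ^ 2 ≤ 15 / 13 * ((1 - sig) * Xa) ^ 2 +
        15 / 2 * (η * g) ^ 2 := by linarith
    rw [hTh]
    linarith only [h3, h4, h5]
  have hR1T : R1 ^ 2 ≤ 1 / 13000 * (ρ * Th) := by
    have h3 : ρ * (19 / 100 * Xa) ≤ ρ * Th := mul_le_mul_of_nonneg_left hThX hρ.le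
    have h4 : 0 ≤ ρ * Xa := by positivity
    linarith only [hR2, h3, h4]
  have hX1 : 0 ≤ (1 - sig) * Xa := mul_nonneg (by linarith only [hsig]) hX0.le
  have hηg : 0 ≤ η * g := mul_nonneg hη hg0
  have hS0 : 0 ≤ ρ * Th := by
    have : 0 ≤ Th := by linarith only [hX0, hThX]
    (clear * - hρ this; positivity)
  refine ⟨by linarith only [hR0, hX1, hηg], ?_, ?_⟩
  · have h3 : (1 - sig) * Xa ≤ (1 - sig) * (chi * ρ) :=
      mul_le_mul_of_nonneg_left hX (by linarith only [hsig])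
    have h4 : (1 - sig) * (chi * ρ) ≤ 1 / 5 * ρ := by
      have := mul_le_mul_of_nonneg_right h2 hρ.le
      linarith only [this]
    (clear * - hf1 hR1 h3 h4; linarith)
  · have h3 := sq_nonneg (((1 - sig) * Xa + η * g) - 50 * R1)
    have h4 : ((1 - sig) * Xa + η * g + R1) ^ 2 ≤ 51 / 50 * ((1 - sig) * Xa + η * g) ^ 2 +
        51 * R1 ^ 2 := by linarith
    (clear * - hA hR1T hS0 h3; linarith)

/-- the lower side -/
theorem lower {ρ Xa g k0 q a R2 Th σ : ℝ} (hρ12 : 12 ≤ ρ) (hX0 : 0 < Xa) (hσ0 : 0 < σ)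
    (hg0 : 0 ≤ g) (hag : a ^ 2 ≤ 2 * g) (ha0 : 0 ≤ a) (ha1 : a ≤ 1)
    (hk0 : 27 / 125 * σ ≤ k0) (hq0 : 0 ≤ q) (hq : q ≤ 179 / 100)
    (hqsq : q ^ 2 ≤ 49 / 1000 * (σ * ρ))
    (hR0 : 0 ≤ R2) (hR2 : R2 ≤ ρ / 100) (hR2T : R2 ^ 2 ≤ 1 / 1400 * (ρ * Th))
    (hThg : k0 * g ≤ Th) :
    0 ≤ q * a + R2 ∧ q * a + R2 ≤ 4 / 25 * ρ ∧ (q * a + R2) ^ 2 ≤ 51 / 100 * (ρ * Th) := by
  have hqa : (q * a) ^ 2 ≤ 5 / 11 * (ρ * (k0 * g)) := by
    have h3 : (q * a) ^ 2 = q ^ 2 * a ^ 2 := by ring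
    have h4 : q ^ 2 * a ^ 2 ≤ 49 / 1000 * (σ * ρ) * (2 * g) :=
      mul_le_mul hqsq hag (sq_nonneg _) (by (clear * - hσ0 hρ12; positivity))
    have h5 : 27 / 125 * σ * (ρ * g) ≤ k0 * (ρ * g) :=
      mul_le_mul_of_nonneg_right hk0 (by positivity)
    have h6 : 0 ≤ σ * (ρ * g) := by positivity
    rw [h3]
    nlinarith only [h4, h5]
  have h00 : 0 ≤ q * a := mul_nonneg hq0 ha0
  refine ⟨by linarith only [hR0, h00], ?_, ?_⟩
  · have h4 : q * a ≤ 179 / 100 * 1 := mul_le_mul hq ha1 ha0 (by (clear * -; norm_num))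
    linarith only [hρ12, hR2, h4]
  · have h3 := sq_nonneg (q * a - 10 * R2)
    have h5 : (q * a + R2) ^ 2 ≤ 11 / 10 * (q * a) ^ 2 + 11 * R2 ^ 2 := by linarith
    have h4 : ρ * (k0 * g) ≤ ρ * Th := mul_le_mul_of_nonneg_left hThg (by linarith only [hρ12])
    have h6 : 0 ≤ ρ * (k0 * g) := by
      have : 0 ≤ k0 := le_trans (by positivity) hk0
      (clear * - hρ12 this hg0; positivity)
    linarith only [hR2T, hqa, h3, h4, h6]

/-- `(f1)`, `(f2)` -/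
theorem ff {m y σ g η k0 ρ : ℝ} (hm : 27 ≤ m) (hy0 : 0 < y) (hσ0 : 0 < σ) (hg0 : 0 ≤ g)
    (hη0 : 0 ≤ η) (hηm : η * m ≤ 129 / 25 * σ) (hηm' : η ≤ 43 / 225 * σ)
    (hgY : g ≤ m * y / 2) (hρ1 : 4 / 3 * (m * y) * σ ≤ ρ) (hk0' : 27 / 125 * σ ≤ k0) :
    η * g ≤ 9 / 100 * ρ ∧ η ^ 2 * g ≤ 2 / 25 * ρ * k0 := by
  have hm0 : 0 < m := by linarith only [hm]
  have hyσ0 : 0 < y * σ := by positivity
  have hyσ2 : 0 < y * σ ^ 2 := by positivity
  constructor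
  · have h3 : η * g ≤ η * (m * y / 2) := mul_le_mul_of_nonneg_left hgY hη0
    have h4 : η * (m * y / 2) ≤ 129 / 25 * σ * (y / 2) := by
      have := mul_le_mul_of_nonneg_right hηm (show 0 ≤ y / 2 by positivity)
      (clear * - this; linarith)
    have h5 : 27 * (y * σ) ≤ m * (y * σ) := mul_le_mul_of_nonneg_right hm hyσ0.le
    linarith
  · have h3 : η ^ 2 * g ≤ η ^ 2 * (m * y / 2) := mul_le_mul_of_nonneg_left hgY (sq_nonneg _)
    have h4 : η ^ 2 * (m * y / 2) ≤ 43 / 225 * σ * (129 / 25 * σ) * (y / 2) := by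
      have h5 : η * (η * m) ≤ 43 / 225 * σ * (129 / 25 * σ) :=
        mul_le_mul hηm' hηm (by positivity) (by positivity)
      have := mul_le_mul_of_nonneg_right h5 (show 0 ≤ y / 2 by positivity)
      linarith only [this]
    have h5 : 27 * (y * σ ^ 2) ≤ m * (y * σ ^ 2) := mul_le_mul_of_nonneg_right hm hyσ2.le
    have h6 : 2 / 25 * (4 / 3 * (m * y) * σ) * (27 / 125 * σ) ≤ 2 / 25 * ρ * k0 := by
      have : 0 ≤ ρ := le_trans (by positivity) hρ1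
      apply mul_le_mul (by linarith only [hρ1]) hk0' (by positivity) (by positivity)
    linarith only [hyσ2, h3, h4, h5, h6]

/-- bounds of `l` -/
theorem ell {m z y l A Xa : ℝ} (hm : 27 ≤ m) (hz : 0 < z) (hy0 : 0 < y) (hzy : 51 / 100 * y ≤ z)
    (hl0 : 0 < l) (hl18 : l ≤ m / 18) (ha1 : 2 * l ^ 2 ≤ (1 + l) * A) (hA : 0 < A)
    (hXa : Xa = (m + 3) * z * A) : 51 / 5 * (y * l ^ 2) ≤ Xa := by
  have hm0 : 0 < m := by linarith only [hm]
  have h3 : 2 * l ^ 2 ≤ m / 10 * A := by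
    refine ha1.trans (mul_le_mul_of_nonneg_right ?_ hA.le)
    linarith only [hm, hl18]
  have h4 : z * (2 * l ^ 2) ≤ z * (m / 10 * A) :=
    mul_le_mul_of_nonneg_left h3 hz.le
  have h5 : 0 ≤ z * A := by positivity
  have h6 : 20 * z * l ^ 2 ≤ Xa := by
    rw [hXa]
    linarith
  have := mul_le_mul_of_nonneg_right hzy (show 0 ≤ 20 * l ^ 2 by positivity)
  linarith only [hXa, h4, h5, this]

theorem r1 {m y l ρ Xa : ℝ} (hm : 27 ≤ m) (hy0 : 0 < y) (hl0 : 0 < l) (hl18 : l ≤ m / 18)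
    (hX : 51 / 5 * (y * l ^ 2) ≤ Xa) (hρY : 4 / 3 * (m * y) ≤ ρ) (hX0 : 0 < Xa) :
    0 ≤ 2 * y / (m + 2) * l ∧ 2 * y / (m + 2) * l ≤ ρ / 100 ∧
      (2 * y / (m + 2) * l) ^ 2 ≤ 1 / 70000 * ρ * Xa := by
  have hm0 : 0 < m := by linarith only [hm]
  have h0 : 0 ≤ 2 * y / (m + 2) * l := by (clear * - hy0 hm hl0; positivity)
  have hle : 2 * y / (m + 2) ≤ 2 * y / 29 :=
    div_le_div_of_nonneg_left (by positivity) (by norm_num) (by linarith only [hm])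
  refine ⟨h0, ?_, ?_⟩
  · have h3 : 2 * y / (m + 2) * l ≤ 2 * y / 29 * (m / 18) :=
      mul_le_mul hle hl18 hl0.le (by positivity)
    have h4 : 0 < m * y := by positivity
    linarith only [hρY, h3, h4]
  · have h3 : (2 * y / (m + 2) * l) ^ 2 ≤ (2 * y / 29 * l) ^ 2 :=
      pow_le_pow_left₀ h0 (mul_le_mul_of_nonneg_right hle hl0.le) 2
    have h6 : (2 * y / 29 * l) ^ 2 = 4 / 841 * y * (y * l ^ 2) := by ring
    have h7 : 4 / 841 * y * (y * l ^ 2) ≤ 4 / 841 * y * (5 / 51 * Xa) := by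
      apply mul_le_mul_of_nonneg_left _ (by positivity)
      linarith only [hX]
    have h8 : y ≤ ρ / 36 := by
      have := mul_le_mul_of_nonneg_right hm hy0.le
      linarith only [hρY, this]
    have h9 := mul_le_mul_of_nonneg_right h8 hX0.le
    have h10 : 0 ≤ ρ * Xa := by
      have : 0 ≤ ρ := by linarith only [hy0, h8]
      (clear * - this hX0; positivity)
    linarith only [h3, h7, h9, h10]

theorem r2 {m y σ l ρ Xa Th : ℝ} (hm : 27 ≤ m) (hy0 : 0 < y) (hyl : y ≤ 49 / 51)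
    (hσ1 : 1 < σ) (hyσ : y = σ ^ 2 - 1) (hY9 : 9 ≤ m * y) (hl0 : 0 < l) (hl18 : l ≤ m / 18)
    (hX : 51 / 5 * (y * l ^ 2) ≤ Xa) (hρ2 : 5 / 2 * (m * y ^ 2) ≤ ρ) (hX0 : 0 < Xa)
    (hThX : 19 / 100 * Xa ≤ Th) :
    0 ≤ ((σ - 1) ^ 2 + (σ - 1) / m) * l ∧ ((σ - 1) ^ 2 + (σ - 1) / m) * l ≤ ρ / 100 ∧
      (((σ - 1) ^ 2 + (σ - 1) / m) * l) ^ 2 ≤ 1 / 1400 * (ρ * Th) := by
  have hm0 : 0 < m := by linarith only [hm]
  have h0 : 0 ≤ (σ - 1) / m := div_nonneg (by linarith only [hσ1]) hm0.le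
  have h00 : 0 ≤ ((σ - 1) ^ 2 + (σ - 1) / m) * l := by positivity
  have hR2y : ((σ - 1) ^ 2 + (σ - 1) / m) * l ≤ 11 / 36 * y ^ 2 * l := by
    apply mul_le_mul_of_nonneg_right _ hl0.le
    have h3 : σ - 1 ≤ y / 2 := by
      rw [hyσ]
      nlinarith only [sq_nonneg (σ - 1)]
    have h4 : (σ - 1) ^ 2 ≤ (y / 2) ^ 2 := pow_le_pow_left₀ (by linarith only [hσ1]) h3 2
    have h5 : (σ - 1) / m ≤ y ^ 2 / 18 := by
      rw [div_le_iff₀ hm0]
      nlinarith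
    linarith only [h4, h5]
  have hmy : 0 < m * y ^ 2 := by positivity
  have h8 : 135 / 2 * y ^ 2 ≤ ρ := by
    refine le_trans ?_ hρ2
    have := mul_le_mul_of_nonneg_right hm (sq_nonneg y)
    linarith only [this]
  have hρ0 : 0 < ρ := lt_of_lt_of_le (by positivity) h8
  refine ⟨h00, ?_, ?_⟩
  · have h3 : 11 / 36 * y ^ 2 * l ≤ 11 / 36 * y ^ 2 * (m / 18) :=
      mul_le_mul_of_nonneg_left hl18 (by positivity)
    linarith only [hρ2, hR2y, hmy, h3]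
  · have h3 : (((σ - 1) ^ 2 + (σ - 1) / m) * l) ^ 2 ≤ (11 / 36 * y ^ 2 * l) ^ 2 :=
      pow_le_pow_left₀ h00 hR2y 2
    have h5 : (11 / 36 * y ^ 2 * l) ^ 2 = 121 / 1296 * y ^ 3 * (y * l ^ 2) := by ring
    have h6 : 121 / 1296 * y ^ 3 * (y * l ^ 2) ≤ 121 / 1296 * y ^ 3 * (5 / 51 * Xa) := by
      apply mul_le_mul_of_nonneg_left _ (by (clear * - hy0; positivity))
      linarith only [hX]
    have h7 : y ^ 3 ≤ 49 / 51 * y ^ 2 := by
      have := mul_le_mul_of_nonneg_right hyl (sq_nonneg y)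
      linarith only [this]
    have h9 : y ^ 3 * Xa ≤ 98 / 6885 * ρ * Xa := by
      apply mul_le_mul_of_nonneg_right _ hX0.le
      linarith only [h8, h7]
    have h10 : ρ * (19 / 100 * Xa) ≤ ρ * Th := mul_le_mul_of_nonneg_left hThX hρ0.le
    have h11 : 0 < ρ * Xa := by (clear * - hρ0 hX0; positivity)
    linarith only [h3, h6, h9, h10, h11]


/-- the last step, in abstract variables -/
theorem fin {T e ρ Xa g W N T0 ba CK κ σ c η k0 Th sig xi F qc q rl R1 R2 u : ℝ}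
    (hρ : 0 < ρ) (hXpos : 0 < Xa) (hg0 : 0 ≤ g) (hW : 0 ≤ W) (hσ0 : 0 < σ) (hc0 : 0 ≤ c)
    (hc2 : c ≤ 1) (hu0 : u ≤ 0) (hNg : -g ≤ N) (hκpos : 0 < κ) (hCK : 0 ≤ CK) (hη0 : 0 ≤ η)
    (hxi : xi ≤ 1) (hxs : 19 / 100 ≤ sig - xi)
    (hTu : T = T0 + (F + CK) * W + κ * N + ba) (hS : sig * Xa ≤ T0 + ba)
    (hV : 237 / 100 * σ * g ≤ F * W + xi * Xa)
    (hEe : e = Xa + F * W + 2 * c * σ * N + qc * u + rl)
    (hk0 : k0 = 237 / 100 * σ - κ) (hk0p : 0 < k0) (hη : η = κ - 2 * c * σ)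
    (hTh : Th = (sig - xi) * Xa + k0 * g) (hqc : 0 ≤ qc) (hqcq : qc ≤ q)
    (hrR1 : rl ≤ R1) (hrR2 : -R2 ≤ rl)
    (hPh0 : 0 ≤ (1 - sig) * Xa + η * g + R1) (hPhρ : (1 - sig) * Xa + η * g + R1 ≤ 3 / 10 * ρ)
    (hPhsq : ((1 - sig) * Xa + η * g + R1) ^ 2 ≤ 31 / 50 * (ρ * Th))
    (hE00 : 0 ≤ q * (-u) + R2) (hE0ρ : q * (-u) + R2 ≤ 4 / 25 * ρ)
    (hE0sq : (q * (-u) + R2) ^ 2 ≤ 51 / 100 * (ρ * Th)) : JTest T e ρ u := by
  have hkg : 0 ≤ k0 * g := by (clear * - hk0p hg0; positivity)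
  have hThpos : 0 < Th := by
    rw [hTh]
    have h3 : 0 < (sig - xi) * Xa := mul_pos (by linarith only [hxs]) hXpos
    linarith only [h3, hkg]
  have hκN : κ * (-g) ≤ κ * N := mul_le_mul_of_nonneg_left hNg hκpos.le
  have hCKW : 0 ≤ CK * W := mul_nonneg hCK hW
  have hTTh : Th ≤ T := by
    rw [hTh, hk0, hTu]
    linarith only [hκN, hCKW, hS, hV]
  have hPh : e - T ≤ (1 - sig) * Xa + η * g + R1 := by
    have h3 : qc * u ≤ 0 := mul_nonpos_of_nonneg_of_nonpos hqc hu0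
    have h4 : η * (-g) ≤ η * N := mul_le_mul_of_nonneg_left hNg hη0
    have h5 : η * N = κ * N - 2 * c * σ * N := by rw [hη]; ring
    rw [hEe, hTu]
    linarith only [h3, h4, h5, hCKW, hS, hrR1]
  have hElow : -(q * (-u) + R2) ≤ e := by
    have h3 : 2 * c * σ * (-g) ≤ 2 * c * σ * N := mul_le_mul_of_nonneg_left hNg (by (clear * - hc0 hσ0; positivity))
    have h4 : 2 * c * σ * g ≤ 237 / 100 * σ * g := by
      apply mul_le_mul_of_nonneg_right _ hg0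
      apply mul_le_mul_of_nonneg_right _ hσ0.le
      linarith only [hc2]
    have h5 : xi * Xa ≤ 1 * Xa := mul_le_mul_of_nonneg_right hxi hXpos.le
    have h6 : qc * (-u) ≤ q * (-u) :=
      mul_le_mul_of_nonneg_right hqcq (by linarith only [hu0])
    rw [hEe]
    linarith only [h3, h4, h5, h6, hrR2, hV]
  have h4 : 0 < ρ * Th := by (clear * - hρ hThpos; positivity)
  refine JTest.of_bounds (T0 := Th) (P := (1 - sig) * Xa + η * g + R1) (E := q * (-u) + R2)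
    (θ := 9 / 10) hTTh hThpos.le (fun _ => hThpos) (by (clear * -; norm_num)) hPh hPh0
    (by linarith only [hPhρ, hρ]) ?_ hElow hE00 (by linarith only [hE0ρ, hρ]) ?_
  · have h3 : Th * (7 / 10 * ρ) ≤ Th * (ρ - ((1 - sig) * Xa + η * g + R1)) := by
      apply mul_le_mul_of_nonneg_left _ hThpos.le
      linarith only [hPhρ]
    linarith only [h3, h4, hPhsq]
  · have h3 : Th * (21 / 25 * ρ) ≤ Th * (ρ - (q * (-u) + R2)) := by
      apply mul_le_mul_of_nonneg_left _ hThpos.le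
      linarith only [hE0ρ]
    linarith only [h3, h4, hE0sq]

/-- **(A)** the test from (S), (V), (X) -/
theorem fxnA {m z s l u c G N sig xi chi : ℝ} (hm : 27 ≤ m) (hz : 0 < z) (hz1 : z ≤ 49 / 100)
    (hs : 0 < s) (hs2 : s ^ 2 = 1 - z) (hw : 9 ≤ m * z) (hl : 0 < l)
    (hT : z * Real.exp (2 * l) ≤ 1) (hu : 0 < 1 + u) (hu0 : u ≤ 0)
    (hc1 : 1 - 1 / (2 * m) ≤ c) (hc2 : c ≤ 1) (hc3 : c ^ 2 ≤ (m + 1) / (m + 2))
    (hN : Real.log (1 + u) - u ≤ N) (hv : m * Real.log s ≤ Real.log (1 + u))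
    (hS : sig * ((m + 3) * z * (Real.exp (-(2 * l)) - 1 + 2 * l)) ≤
      dpT m z s l 0 G 0 + 6 / 25 * (m + 3) * z * l * (-u))
    (hV : 237 / 100 / s * (u - Real.log (1 + u)) ≤
      4 * s ^ 2 * Real.exp (-(2 * l)) * (u ^ 2 / (1 + u)) +
        xi * ((m + 3) * z * (Real.exp (-(2 * l)) - 1 + 2 * l)))
    (hX : (m + 3) * z * (Real.exp (-(2 * l)) - 1 + 2 * l) ≤ chi * dpR m (z / s ^ 2))
    (hxi : 0 ≤ xi) (hxs : 19 / 100 ≤ sig - xi) (hsig : sig ≤ 1)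
    (h1 : (1 - sig) ^ 2 * chi ≤ 13 / 25 * (sig - xi)) (h2 : (1 - sig) * chi ≤ 1 / 5) :
    JTest (dpT m z s l u G N) (dpE m z s l u c N) (dpR m (z / s ^ 2)) u := by
  have hm0 : (0 : ℝ) < m := by linarith only [hm]
  obtain ⟨σ, y, hσ, hy, hσs, hσ1, hσ2, hyσ, hys, hy0, hyl, hY, hY9, hzy, hs1, hs714⟩ :=
    geo hm hz hz1 hs hs2 hw
  have hσ0 : 0 < σ := by linarith only [hσ1]
  have hCK := kK3 hz hs hs2 hT
  have hTu := dpT_sub m z s l u G N
  have ha1 := a1_ge hl.le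
  have ha1p := a1_pos hl
  have hl18 : l ≤ m / 18 := by
    have h3 : 2 * l + 1 ≤ Real.exp (2 * l) := Real.add_one_le_exp _
    have h4 : z * (2 * l + 1) ≤ 1 := (mul_le_mul_of_nonneg_left h3 hz.le).trans hT
    have h5 : 9 * (2 * l + 1) ≤ m * 1 := by
      calc 9 * (2 * l + 1) ≤ (m * z) * (2 * l + 1) :=
            mul_le_mul_of_nonneg_right hw (by linarith only [hl])
        _ = m * (z * (2 * l + 1)) := by ring
        _ ≤ m * 1 := mul_le_mul_of_nonneg_left h4 hm0.le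
    linarith only [h5]
  have hlogs : -Real.log s ≤ y / 2 := by
    have h3 := Real.log_le_sub_one_of_pos (show (0 : ℝ) < (s ^ 2)⁻¹ by positivity)
    rw [Real.log_inv, Real.log_pow] at h3
    have h4 : (s ^ 2)⁻¹ - 1 = y := by
      rw [hyσ, hσ]
      (clear * - hs; field_simp)
    push_cast at h3
    linarith only [h3, h4]
  have hg := g_ge hu hu0
  have hcs : 2 * c / s = 2 * c * σ := by rw [hσ]; ring
  have hκ' : 237 / 100 / s = 237 / 100 * σ := by rw [hσ]; ring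
  have hκe : 2 * (m + 1) / ((m - 1) * s) = 2 * (m + 1) / (m - 1) * σ := by
    rw [hσ]
    have : m - 1 ≠ 0 := by linarith only [hm]
    field_simp
  obtain ⟨κ, hκd⟩ : ∃ κ, κ = 2 * (m + 1) / (m - 1) * σ := ⟨_, rfl⟩
  obtain ⟨hκpos, hk0', hη0, hηm, hηm'⟩ := kap hm hσ0 hκd hc1 hc2
  obtain ⟨ρ, hρd⟩ : ∃ ρ, ρ = dpR m y := ⟨_, rfl⟩
  obtain ⟨hρ1, hρ2, hρ3, hρY, hρ5⟩ := rho hm hσ1 hyσ hy0 hY (ρ := ρ) hρd
  have hρ12 : 12 ≤ ρ := by
    refine le_trans ?_ hρ3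
    have : 1 ≤ σ ^ 3 := one_le_pow₀ hσ1.le
    linarith only [this]
  have hρpos : 0 < ρ := by linarith only [hyσ, hy0, hY, hρY]
  have hEe : dpE m z s l u c N = (m + 3) * z * (Real.exp (-(2 * l)) - 1 + 2 * l) +
      4 * s ^ 2 * Real.exp (-(2 * l)) * (u ^ 2 / (1 + u)) + 2 * c * σ * N +
      (2 * c * σ - 2 * s ^ 2 + 2 * (1 - c)) * u +
      (2 * c * σ - 2 + 2 * (1 - c) * (1 - m * y)) * l := by
    rw [dpE, ← hy, hcs]
  rw [← hy, ← hρd]
  rw [← hy, ← hρd] at hX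
  rw [hκ'] at hV
  rw [hκe, ← hκd] at hTu
  obtain ⟨CK, hCKd⟩ : ∃ CK, CK =
    4 / s - 4 * s / (1 + s) - 2 * s ^ 2 - 6 * (z / s ^ 3) * l + ksC z s l := ⟨_, rfl⟩
  rw [← hCKd] at hTu hCK
  obtain ⟨T0, hT0⟩ : ∃ T0, T0 = dpT m z s l 0 G 0 := ⟨_, rfl⟩
  rw [← hT0] at hTu hS
  obtain ⟨T, hTd⟩ : ∃ T, T = dpT m z s l u G N := ⟨_, rfl⟩
  rw [← hTd] at hTu ⊢
  obtain ⟨e, hed⟩ : ∃ e, e = dpE m z s l u c N := ⟨_, rfl⟩
  rw [← hed] at hEe ⊢
  have hEpos : 0 < Real.exp (-(2 * l)) := Real.exp_pos _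
  obtain ⟨E, hE⟩ : ∃ E, E = Real.exp (-(2 * l)) := ⟨_, rfl⟩
  rw [← hE] at hTu hEe hS hV hX ha1 ha1p hEpos
  obtain ⟨Xa, hXa⟩ : ∃ Xa, Xa = (m + 3) * z * (E - 1 + 2 * l) := ⟨_, rfl⟩
  have hXpos : 0 < Xa := by
    rw [hXa]
    exact mul_pos (by positivity) ha1p
  have hlX := ell hm hz hy0 hzy hl hl18 ha1 ha1p hXa
  rw [← hXa] at hEe hS hV hX
  have hW : 0 ≤ u ^ 2 / (1 + u) := by (clear * - hu; positivity)
  obtain ⟨W, hWd⟩ : ∃ W, W = u ^ 2 / (1 + u) := ⟨_, rfl⟩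
  rw [← hWd] at hTu hEe hV hW
  obtain ⟨g, hgd⟩ : ∃ g, g = u - Real.log (1 + u) := ⟨_, rfl⟩
  rw [← hgd] at hV hg
  have hNg : -g ≤ N := by rw [hgd]; linarith only [hN]
  have hgY : g ≤ m * y / 2 := by
    have := mul_le_mul_of_nonneg_left hlogs hm0.le
    rw [hgd]
    linarith only [hu0, hv, this]
  have hg0 : 0 ≤ g := by linarith only [hg, sq_nonneg u]
  clear hgd hWd hE hed hTd hT0 hCKd
  obtain ⟨hf1, hf2⟩ := ff hm hy0 hσ0 hg0 hη0 hηm hηm' hgY hρ1 hk0'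
  obtain ⟨r, hre⟩ : ∃ r, r = 2 * c * σ - 2 + 2 * (1 - c) * (1 - m * y) := ⟨_, rfl⟩
  obtain ⟨hrl, hrR⟩ := rr hm hσ1 hyσ hY9 hc1 hc2 hc3 hre
  rw [← hre] at hEe
  obtain ⟨hR10, hR1ρ, hR1sq⟩ := r1 hm hy0 hl hl18 hlX hρY hXpos
  have hrR1 : r * l ≤ 2 * y / (m + 2) * l := mul_le_mul_of_nonneg_right hrl hl.le
  obtain ⟨R1, hR1⟩ : ∃ R1, R1 = 2 * y / (m + 2) * l := ⟨_, rfl⟩
  rw [← hR1] at hR10 hR1ρ hR1sq hrR1
  obtain ⟨k0, hk0⟩ : ∃ k0, k0 = 237 / 100 * σ - κ := ⟨_, rfl⟩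
  rw [← hk0] at hk0' hf2
  have hk0pos : 0 < k0 := lt_of_lt_of_le (by positivity) hk0'
  obtain ⟨η, hη⟩ : ∃ η, η = κ - 2 * c * σ := ⟨_, rfl⟩
  rw [← hη] at hη0 hηm hηm' hf1 hf2
  obtain ⟨Th, hTh⟩ : ∃ Th, Th = (sig - xi) * Xa + k0 * g := ⟨_, rfl⟩
  obtain ⟨hPh0, hPhρ, hPhsq⟩ := upper hρpos hX hXpos hg0 hk0pos hη0 hf1 hf2 hR10 hR1ρ hR1sq hxs
    hsig h1 h2 hTh
  have hkg : 0 ≤ k0 * g := by (clear * - hk0pos hg0; positivity)
  have hThX : 19 / 100 * Xa ≤ Th := by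
    rw [hTh]
    have h3 := mul_le_mul_of_nonneg_right hxs hXpos.le
    linarith only [hkg, h3]
  have hThg : k0 * g ≤ Th := by
    rw [hTh]
    have h3 : 0 ≤ (sig - xi) * Xa := mul_nonneg (by linarith only [hxs]) hXpos.le
    linarith only [h3]
  have hThpos : 0 < Th := lt_of_lt_of_le (by (clear * - hXpos; positivity)) hThX
  have hc0 : 0 ≤ c := by
    have : 1 / (2 * m) ≤ 1 := by
      rw [div_le_one (by linarith only [hm])]
      linarith only [hm]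
    linarith only [this, hc1]
  have hqc : 0 ≤ 2 * c * σ - 2 * s ^ 2 + 2 * (1 - c) := by
    have h3 : 2 * c * 1 ≤ 2 * c * σ := mul_le_mul_of_nonneg_left hσ1.le (by linarith only [hc0])
    linarith only [h3, hs2, hz]
  -- lower side
  obtain ⟨hR20, hR2ρ, hR2T⟩ := r2 hm hy0 hyl hσ1 hyσ hY9 hl hl18 hlX hρ2 hXpos hThX
  have hrR2 : -(((σ - 1) ^ 2 + (σ - 1) / m) * l) ≤ r * l := by
    have := mul_le_mul_of_nonneg_right hrR hl.le
    linarith only [this]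
  obtain ⟨R2, hR2⟩ : ∃ R2, R2 = ((σ - 1) ^ 2 + (σ - 1) / m) * l := ⟨_, rfl⟩
  rw [← hR2] at hR20 hR2ρ hR2T hrR2
  have hqsq := qsq hσs hs hs1 hs714 (by rw [hys]; linarith only [hs2]) hρ3 hρ5
  have hqcq : 2 * c * σ - 2 * s ^ 2 + 2 * (1 - c) ≤ 2 * σ - 2 * s ^ 2 := by
    have h3 : 0 ≤ (1 - c) * (σ - 1) :=
      mul_nonneg (by linarith only [hc2]) (by linarith only [hσ1])
    linarith only [h3]
  have hq1 : 2 * σ - 2 * s ^ 2 ≤ 179 / 100 := by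
    linarith only [hs2, hz1, hσ2]
  obtain ⟨q, hq⟩ : ∃ q, q = 2 * σ - 2 * s ^ 2 := ⟨_, rfl⟩
  rw [← hq] at hqsq hqcq hq1
  have hq0 : 0 ≤ q := hqc.trans hqcq
  obtain ⟨hE00, hE0ρ, hE0sq⟩ := lower (a := -u) hρ12 hXpos hσ0 hg0 (by rw [neg_sq]; exact hg)
    (by linarith only [hu0]) (by linarith only [hu]) hk0' hq0 hq1 hqsq hR20 hR2ρ hR2T hThg
  exact fin (ba := 6 / 25 * (m + 3) * z * l * (-u)) (F := 4 * s ^ 2 * E)
    (qc := 2 * c * σ - 2 * s ^ 2 + 2 * (1 - c)) (rl := r * l) hρpos hXpos hg0 hW hσ0 hc0 hc2 hu0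
    hNg hκpos hCK hη0 (by linarith only [hxs, hsig]) hxs (by rw [hTu]; ring) hS hV hEe hk0 hk0pos
    hη hTh hqc hqcq hrR1 hrR2 hPh0 hPhρ hPhsq hE00 hE0ρ hE0sq

end Vale.Agent.P237.AllN.FXnA
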