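import Vale.Agent.P237.AllN.FXnV

/-!
# P237, block D: (X) with `chi = 4/25` on `67/200 ≤ z ≤ 49/100`
-/

namespace Vale.Agent.P237.AllN

namespace PolyPos

/-- tree 5 of (X) -/
def fxT5 : PT3 :=
  .sy (.sy (.out 0) (.sy (.sy (.out 0) (.sy (.sy (.out 0) (.leaf 2)) (.leaf 2))) (.leaf 2)))
    (.leaf 2)

theorem fx_chk5 : tchk3 (2 ^ 1024) 12 4000 (fxF ⟨4, 24⟩ ⟨177, 49⟩)
    fxLo fxT5 67 98 200 0 1 1 0 1 1 = true := by
  decide +kernel

end PolyPos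

open PolyPos

/-- **(X)** on the last zone -/
theorem fv_X5 {m z s l : ℝ} (hm : 27 ≤ m) (hw : 9 ≤ m * z) (hs : 0 < s)
    (hsz : s ^ 2 = 1 - z) (hz : z ≤ 49 / 100) (hl : 0 < l)
    (hzE : z ≤ Real.exp (-(2 * l)))
    (hcap2 : 34 / 125 ≤ z → 354 / 100 ≤ m * z * Real.exp (-(2 * l)))
    (h1 : 67 / 200 ≤ z) :
    (m + 3) * z * (Real.exp (-(2 * l)) - 1 + 2 * l) ≤ 4 / 25 * dpR m (z / s ^ 2) := by
  have hE0 : 0 < Real.exp (-(2 * l)) := Real.exp_pos _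
  have hE1 : Real.exp (-(2 * l)) ≤ 1 := by
    rw [Real.exp_le_one_iff]; linarith
  have hz0 : 0 < z := by linarith
  have hm27 : 27 * z ≤ m * z := by nlinarith
  have r4 : Fr.R ⟨177, 49⟩ = 354 / 100 := by simp only [Fr.R]; norm_num
  refine fv_Xfin hs hsz hl (by positivity) ?_
  have r : Fr.R ⟨4, 24⟩ = 4 / 25 := by simp only [Fr.R]; norm_num
  have := fx_core (chi := ⟨4, 24⟩) (c := ⟨177, 49⟩) (t := fxT5) (A := 67) (B := 98)
    (D := 200)
    (by norm_num) (by norm_num) fx_chk5 hm27 hw (by rw [r4]; exact hcap2 (by linarith)) hE0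
    hE1 (by rw [r]; norm_num) hzE (by push_cast; linarith) (by push_cast; linarith)
  rw [r] at this
  exact this

end Vale.Agent.P237.AllN
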