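import Vale.Agent.P237.AllN.FAllB

/-!
# P237, block D: the a-priori box for `√m x ≥ 3` as ONE inequality (lemma (c) of 844's note)

`m z e^{-2l} ≥ 33/10`, and `≥ 354/100` if `m ≤ 47` or `z ≥ 34/125`.
-/

open Set

namespace Vale.Agent.P237.AllN

open Alm

theorem fxc_exp_le {x : ℝ} (h0 : 0 ≤ x) (h1 : x ≤ 1) :
    Real.exp x ≤ 1 + x + x ^ 2 / 2 + x ^ 3 / 6 + x ^ 4 / 24 + x ^ 5 / 120 + 7 * x ^ 6 / 4320 := by
  have h := Real.exp_bound' h0 h1 (n := 6) (by norm_num)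
  simp only [Finset.sum_range_succ, Finset.sum_range_zero, Nat.factorial] at h
  norm_num at h
  linarith

theorem fxc_exp95 : Real.exp (19 / 20) ≤ 25858 / 10000 := by
  have h1 : Real.exp (19 / 40 : ℝ) ≤ 160803 / 100000 := by
    have := fxc_exp_le (x := 19 / 40) (by norm_num) (by norm_num)
    refine this.trans ?_
    norm_num
  have e : Real.exp (19 / 20 : ℝ) = Real.exp (19 / 40) ^ 2 := by
    rw [← Real.exp_nat_mul]; norm_num
  rw [e]
  calc Real.exp (19 / 40 : ℝ) ^ 2 ≤ (160803 / 100000) ^ 2 :=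
        pow_le_pow_left₀ (Real.exp_pos _).le h1 2
    _ ≤ _ := by norm_num

theorem fxc_exp88 : Real.exp (22 / 25) ≤ 24110 / 10000 := by
  have h1 : Real.exp (11 / 25 : ℝ) ≤ 155272 / 100000 := by
    have := fxc_exp_le (x := 11 / 25) (by norm_num) (by norm_num)
    refine this.trans ?_
    norm_num
  have e : Real.exp (22 / 25 : ℝ) = Real.exp (11 / 25) ^ 2 := by
    rw [← Real.exp_nat_mul]; norm_num
  rw [e]
  calc Real.exp (11 / 25 : ℝ) ^ 2 ≤ (155272 / 100000) ^ 2 :=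
        pow_le_pow_left₀ (Real.exp_pos _).le h1 2
    _ ≤ _ := by norm_num

/-- real-variable core: `E ≥ z`, cap inequality with `κ = 9 e^{-2c}`, `B < κ/λ²` -/
theorem fxc_core {m z s s3 E κ B lam : ℝ} (hm : 27 ≤ m) (hz : 0 < z) (hs : 0 < s)
    (hs3 : 0 ≤ s3) (hzE : z ≤ E)
    (hcap : κ * (1 + s) ^ 2 ≤ m * z * E * (1 + s3) ^ 2)
    (hB : 0 < B) (hlam : B * lam ^ 2 ≤ κ)
    (hkey : m * z ^ 2 < B → 1 + s3 ≤ lam * (1 + s)) : B ≤ m * z * E := by
  by_contra hlt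
  push Not at hlt
  have hm0 : 0 < m := by linarith only [hm]
  have h1 : m * z ^ 2 < B := by
    have : m * z * z ≤ m * z * E := mul_le_mul_of_nonneg_left hzE (by positivity)
    linarith
  have h2 := hkey h1
  have h3 : (1 + s3) ^ 2 ≤ lam ^ 2 * (1 + s) ^ 2 := by
    rw [← mul_pow]
    exact pow_le_pow_left₀ (by (clear * - hs3; positivity)) h2 2
  have h4 : 0 < (1 + s3) ^ 2 := by positivity
  have h5 : m * z * E * (1 + s3) ^ 2 < B * (1 + s3) ^ 2 := mul_lt_mul_of_pos_right hlt h4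
  have h6 : B * (1 + s3) ^ 2 ≤ B * (lam ^ 2 * (1 + s) ^ 2) := mul_le_mul_of_nonneg_left h3 hB.le
  have h7 : B * lam ^ 2 * (1 + s) ^ 2 ≤ κ * (1 + s) ^ 2 :=
    mul_le_mul_of_nonneg_right hlam (by positivity)
  linarith

/-- `m ≥ 48` -/
theorem fxc_key48 {m z s s3 : ℝ} (hm : 48 ≤ m) (hz : 0 < z) (hs : 0 < s) (hsz : s ^ 2 = 1 - z)
    (hs3 : s3 ^ 2 = 1 - 9 / m) (h : m * z ^ 2 < 33 / 10) :
    1 + s3 ≤ 10269 / 10000 * (1 + s) := by
  have hm0 : 0 < m := by linarith only [hm]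
  have h9 : 30 / 11 * z ^ 2 ≤ 9 / m := by
    rw [le_div_iff₀ hm0]
    linarith
  have hz2 : z ^ 2 ≤ 33 / 480 := by nlinarith only [h, hm]
  have hz1 : z ≤ 2623 / 10000 := by nlinarith only [h, hm]
  have hs1 : s ≤ 1 := by nlinarith only [hsz, hz]
  have hs0 : 858 / 1000 ≤ s := by nlinarith only [hsz, hz1, hs]
  have hz' : z = 1 - s ^ 2 := by linarith only [hsz]
  have hp : 0 ≤ (10269 / 10000 * (1 + s) - 1) ^ 2 - 1 + 30 / 11 * (1 - s ^ 2) ^ 2 := by
    nlinarith only [hs0, sq_nonneg ((s - 895 / 1000) * (s + 1))]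
  have h4 : s3 ^ 2 ≤ (10269 / 10000 * (1 + s) - 1) ^ 2 := by
    rw [hs3]
    rw [← hz'] at hp
    linarith only [h9, hp]
  have h5 : s3 ≤ 10269 / 10000 * (1 + s) - 1 := by
    apply le_of_sq_le_sq h4
    linarith only [hs0]
  linarith only [h5]

/-- `27 ≤ m ≤ 47` -/
theorem fxc_key47 {m z s s3 : ℝ} (hm : 27 ≤ m) (hm47 : m ≤ 47) (hz : 0 < z) (hs : 0 < s)
    (hsz : s ^ 2 = 1 - z) (hs3 : s3 ^ 2 = 1 - 9 / m) (h : m * z ^ 2 < 354 / 100) :
    1 + s3 ≤ 102685 / 100000 * (1 + s) := by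
  have hm0 : 0 < m := by linarith only [hm]
  have hz2 : z ^ 2 ≤ 354 / 2700 := by nlinarith only [h, hm]
  have hz1 : z ≤ 3622 / 10000 := by nlinarith only [hz2]
  have hs1 : s ≤ 1 := by nlinarith only [hsz, hz]
  have hs0 : 798 / 1000 ≤ s := by nlinarith only [hsz, hz1, hz2, hs]
  have hz' : z = 1 - s ^ 2 := by linarith only [hsz]
  rcases le_total s (8497 / 10000) with h8 | h8
  · have h9 : 900 / 354 * z ^ 2 ≤ 9 / m := by
      rw [le_div_iff₀ hm0]
      nlinarith only [h]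
    have hp : 0 ≤ (102685 / 100000 * (1 + s) - 1) ^ 2 - 1 + 900 / 354 * (1 - s ^ 2) ^ 2 := by
      nlinarith only [hs0, h8, sq_nonneg (s - 8497 / 10000)]
    have h4 : s3 ^ 2 ≤ (102685 / 100000 * (1 + s) - 1) ^ 2 := by
      rw [hs3]
      rw [← hz'] at hp
      linarith
    have h5 : s3 ≤ 102685 / 100000 * (1 + s) - 1 := by
      apply le_of_sq_le_sq h4
      linarith only [hs0]
    linarith only [h5]
  · have h9 : (9 : ℝ) / 47 ≤ 9 / m := by
      apply div_le_div_of_nonneg_left (by norm_num) hm0 hm47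
    have h5 : s3 ≤ 899173 / 1000000 := by
      apply le_of_sq_le_sq _ (by norm_num)
      rw [hs3]
      norm_num at h9 ⊢
      linarith only [h9]
    linarith only [h8, h5]

/-- **(c), real variables**: `cap` is the conclusion of `IsTrans.fa_l3` -/
theorem fxc_main48 {m z s l : ℝ} (hm : 48 ≤ m) (hz : 0 < z) (hs : 0 < s)
    (hsz : s ^ 2 = 1 - z) (hzE : z * Real.exp (2 * l) ≤ 1)
    (hcap : Real.exp (2 * (l - 19 / 40)) * (9 * (1 + s) ^ 2) ≤
      m * z * (1 + Real.sqrt (1 - 9 / m)) ^ 2) :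
    33 / 10 ≤ m * z * Real.exp (-(2 * l)) := by
  have hm0 : 0 < m := by linarith only [hm]
  have h9m : 9 / m ≤ 1 := by rw [div_le_one hm0]; linarith only [hm]
  have hE : 0 < Real.exp (2 * l) := Real.exp_pos _
  have hEE : Real.exp (-(2 * l)) * Real.exp (2 * l) = 1 := by
    rw [← Real.exp_add]; norm_num
  have hE' : 0 < Real.exp (-(2 * l)) := Real.exp_pos _
  refine fxc_core (s := s) (s3 := Real.sqrt (1 - 9 / m)) (κ := 9 * Real.exp (-(19 / 20)))
    (lam := 10269 / 10000) (by linarith only [hm]) hz hs (Real.sqrt_nonneg _) ?_ ?_ (by norm_num) ?_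
    fun h => fxc_key48 hm hz hs hsz (Real.sq_sqrt (by linarith only [h9m])) h
  · have := mul_le_mul_of_nonneg_right hzE hE'.le
    nlinarith only [this, hz, hEE]
  · have h1 : Real.exp (2 * (l - 19 / 40)) = Real.exp (2 * l) * Real.exp (-(19 / 20)) := by
      rw [← Real.exp_add]; ring_nf
    rw [h1] at hcap
    have h2 := mul_le_mul_of_nonneg_left hcap hE'.le
    have e1 : Real.exp (-(2 * l)) * (Real.exp (2 * l) * Real.exp (-(19 / 20)) *
        (9 * (1 + s) ^ 2)) = 9 * Real.exp (-(19 / 20)) * (1 + s) ^ 2 := by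
      linear_combination (Real.exp (-(19 / 20)) * (9 * (1 + s) ^ 2)) * hEE
    rw [e1] at h2
    linarith only [h2]
  · rw [Real.exp_neg]
    have h1 := fxc_exp95
    have h0 : 0 < Real.exp (19 / 20) := Real.exp_pos _
    rw [← div_eq_mul_inv, le_div_iff₀ h0]
    linarith

theorem fxc_main47 {m z s l : ℝ} (hm : 27 ≤ m) (hm47 : m ≤ 47) (hz : 0 < z) (hs : 0 < s)
    (hsz : s ^ 2 = 1 - z) (hzE : z * Real.exp (2 * l) ≤ 1)
    (hcap : Real.exp (2 * (l - 11 / 25)) * (9 * (1 + s) ^ 2) ≤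
      m * z * (1 + Real.sqrt (1 - 9 / m)) ^ 2) :
    354 / 100 ≤ m * z * Real.exp (-(2 * l)) := by
  have hm0 : 0 < m := by linarith only [hm]
  have h9m : 9 / m ≤ 1 := by rw [div_le_one hm0]; linarith only [hm]
  have hE : 0 < Real.exp (2 * l) := Real.exp_pos _
  have hEE : Real.exp (-(2 * l)) * Real.exp (2 * l) = 1 := by
    rw [← Real.exp_add]; norm_num
  have hE' : 0 < Real.exp (-(2 * l)) := Real.exp_pos _
  refine fxc_core (s := s) (s3 := Real.sqrt (1 - 9 / m)) (κ := 9 * Real.exp (-(22 / 25)))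
    (lam := 102685 / 100000) (by linarith only [hm]) hz hs (Real.sqrt_nonneg _) ?_ ?_ (by norm_num) ?_
    fun h => fxc_key47 hm hm47 hz hs hsz (Real.sq_sqrt (by linarith only [h9m])) h
  · have := mul_le_mul_of_nonneg_right hzE hE'.le
    nlinarith only [this, hz, hEE]
  · have h1 : Real.exp (2 * (l - 11 / 25)) = Real.exp (2 * l) * Real.exp (-(22 / 25)) := by
      rw [← Real.exp_add]; ring_nf
    rw [h1] at hcap
    have h2 := mul_le_mul_of_nonneg_left hcap hE'.le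
    have e1 : Real.exp (-(2 * l)) * (Real.exp (2 * l) * Real.exp (-(22 / 25)) *
        (9 * (1 + s) ^ 2)) = 9 * Real.exp (-(22 / 25)) * (1 + s) ^ 2 := by
      linear_combination (Real.exp (-(22 / 25)) * (9 * (1 + s) ^ 2)) * hEE
    rw [e1] at h2
    linarith only [h2]
  · rw [Real.exp_neg]
    have h1 := fxc_exp88
    have h0 : 0 < Real.exp (22 / 25) := Real.exp_pos _
    rw [← div_eq_mul_inv, le_div_iff₀ h0]
    nlinarith only [h1]

variable {m : ℕ} {r τ τ' T : ℝ → ℝ} {x : ℝ}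

/-- **(c)**: `m z e^{-2l} ≥ 33/10`, and `≥ 354/100` if `m ≤ 47` or `34/125 ≤ z` -/
theorem IsTrans.fx_cap (hm : 27 ≤ m) (hr : IsProf r) (h : IsTrans m r τ τ' T)
    (hN : (∫ y in (-1 : ℝ)..1, r y ^ (m - 1)) ^ m * aInt m ^ (m - 1) ≤
      aInt (m - 1) ^ m * (∫ y in (-1 : ℝ)..1, r y ^ m) ^ (m - 1))
    (hx : x ∈ Ioo (0 : ℝ) 1) (hX : 9 ≤ (m : ℝ) * x ^ 2) :
    33 / 10 ≤ m * x ^ 2 * Real.exp (-(2 * lf τ x)) ∧
    (m ≤ 47 → 354 / 100 ≤ m * x ^ 2 * Real.exp (-(2 * lf τ x))) ∧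
    (34 / 125 ≤ x ^ 2 → 354 / 100 ≤ m * x ^ 2 * Real.exp (-(2 * lf τ x))) := by
  have F := h.ffacts (by omega) hr hx
  have hm' : (27 : ℝ) ≤ m := by exact_mod_cast hm
  have hm0 : (0 : ℝ) < m := by linarith only [hm']
  have A : m ≤ 47 → 354 / 100 ≤ m * x ^ 2 * Real.exp (-(2 * lf τ x)) := fun h47 =>
    fxc_main47 hm' (by exact_mod_cast h47) F.z0 F.s0 F.hs F.le.le
      (h.fa_l3 hm hr hN hx hX (Or.inr ⟨h47, rfl⟩))
  rcases le_or_gt m 47 with h47 | h47
  · have := A h47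
    exact ⟨by linarith, A, fun _ => this⟩
  · have h48 : (48 : ℝ) ≤ m := by exact_mod_cast h47
    refine ⟨fxc_main48 h48 F.z0 F.s0 F.hs F.le.le (h.fa_l3 hm hr hN hx hX (Or.inl rfl)), A,
      fun hz => ?_⟩
    have hE' : 0 < Real.exp (-(2 * lf τ x)) := Real.exp_pos _
    have hEE : Real.exp (-(2 * lf τ x)) * Real.exp (2 * lf τ x) = 1 := by
      rw [← Real.exp_add]; norm_num
    have hzE : x ^ 2 ≤ Real.exp (-(2 * lf τ x)) := by
      have := mul_le_mul_of_nonneg_right F.le.le hE'.le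
      nlinarith only [this, hEE]
    have h1 : (m : ℝ) * x ^ 2 * x ^ 2 ≤ m * x ^ 2 * Real.exp (-(2 * lf τ x)) :=
      mul_le_mul_of_nonneg_left hzE (by positivity)
    have h2 : 34 / 125 * (34 / 125) ≤ x ^ 2 * x ^ 2 := mul_le_mul hz hz (by norm_num) (by (clear * - hz; positivity))
    nlinarith only [h48, h1, h2]

end Vale.Agent.P237.AllN
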