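import Vale.Agent.P237.AllN.FAllB
import Vale.Agent.P237.AllN.FxCap
import Vale.Agent.P237.AllN.FxTail
import Vale.Agent.P237.AllN.FXnA
import Vale.Agent.P237.AllN.FXnV5

/-!
# P237, block D: the pointwise test for `0 < l`, `9 ≤ m x²`, `x² ≤ 49/100`, `u ≤ 0`,
from inequality (S)
-/

open Set

namespace Vale.Agent.P237.AllN

/-- the zones of (S) -/
def FxnZone (z sig : ℝ) : Prop :=
  (z ≤ 17 / 100 ∧ sig = 1 / 2) ∨ (17 / 100 ≤ z ∧ z ≤ 6 / 25 ∧ sig = 3 / 8) ∨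
    (6 / 25 ≤ z ∧ z ≤ 34 / 125 ∧ sig = 7 / 25) ∨
    (34 / 125 ≤ z ∧ z ≤ 31 / 100 ∧ sig = 8 / 25) ∨
    (31 / 100 ≤ z ∧ z ≤ 67 / 200 ∧ sig = 1 / 4) ∨ (67 / 200 ≤ z ∧ sig = 49 / 200)

/-- the test from (S), real variables -/
theorem fxn_of_S {m z s l u c G N : ℝ} (hm : 27 ≤ m) (hz : 0 < z) (hz1 : z ≤ 49 / 100)
    (hs : 0 < s) (hs2 : s ^ 2 = 1 - z) (hw : 9 ≤ m * z) (hl : 0 < l)
    (hT : z * Real.exp (2 * l) ≤ 1) (hu : 0 < 1 + u) (hu0 : u ≤ 0)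
    (hc1 : 1 - 1 / (2 * m) ≤ c) (hc2 : c ≤ 1) (hc3 : c ^ 2 ≤ (m + 1) / (m + 2))
    (hN : Real.log (1 + u) - u ≤ N) (hv : m * Real.log s ≤ Real.log (1 + u))
    (hcap : 33 / 10 ≤ m * z * Real.exp (-(2 * l)))
    (hcap2 : 34 / 125 ≤ z → 354 / 100 ≤ m * z * Real.exp (-(2 * l)))
    (hS : ∀ sig, FxnZone z sig → sig * ((m + 3) * z * (Real.exp (-(2 * l)) - 1 + 2 * l)) ≤
      dpT m z s l 0 G 0 + 6 / 25 * (m + 3) * z * l * (-u)) :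
    JTest (dpT m z s l u G N) (dpE m z s l u c N) (dpR m (z / s ^ 2)) u := by
  have hzE : z ≤ Real.exp (-(2 * l)) := by
    have hE : 0 < Real.exp (2 * l) := Real.exp_pos _
    rw [Real.exp_neg, ← one_div, le_div_iff₀ hE]
    exact hT
  rcases le_total z (17 / 100) with h1 | h1
  · exact FXnA.fxnA hm hz hz1 hs hs2 hw hl hT hu hu0 hc1 hc2 hc3 hN hv (hS (1 / 2) (Or.inl ⟨h1, rfl⟩))
      (fv_V hm hw hs hs2 hz1 hl hu hu0 hzE hcap hcap2 (xi := 1 / 40)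
        (Or.inl ⟨by linarith, rfl⟩))
      (fv_X hm hw hs hs2 hz1 hl hzE hcap hcap2 (chi := 2 / 5) (Or.inl ⟨h1, rfl⟩))
      (by norm_num) (by norm_num) (by norm_num) (by norm_num) (by norm_num)
  rcases le_total z (6 / 25) with h2 | h2
  · exact FXnA.fxnA hm hz hz1 hs hs2 hw hl hT hu hu0 hc1 hc2 hc3 hN hv
      (hS (3 / 8) (Or.inr (Or.inl ⟨h1, h2, rfl⟩)))
      (fv_V hm hw hs hs2 hz1 hl hu hu0 hzE hcap hcap2 (xi := 1 / 40)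
        (Or.inl ⟨by linarith, rfl⟩))
      (fv_X hm hw hs hs2 hz1 hl hzE hcap hcap2 (chi := 3 / 10)
        (Or.inr (Or.inl ⟨h1, h2, rfl⟩)))
      (by norm_num) (by norm_num) (by norm_num) (by norm_num) (by norm_num)
  rcases le_total z (34 / 125) with h3 | h3
  · exact FXnA.fxnA hm hz hz1 hs hs2 hw hl hT hu hu0 hc1 hc2 hc3 hN hv
      (hS (7 / 25) (Or.inr (Or.inr (Or.inl ⟨h2, h3, rfl⟩))))
      (fv_V hm hw hs hs2 hz1 hl hu hu0 hzE hcap hcap2 (xi := 1 / 40)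
        (Or.inl ⟨by linarith, rfl⟩))
      (fv_X hm hw hs hs2 hz1 hl hzE hcap hcap2 (chi := 6 / 25)
        (Or.inr (Or.inr (Or.inl ⟨h2, h3, rfl⟩))))
      (by norm_num) (by norm_num) (by norm_num) (by norm_num) (by norm_num)
  rcases le_total z (31 / 100) with h4 | h4
  · exact FXnA.fxnA hm hz hz1 hs hs2 hw hl hT hu hu0 hc1 hc2 hc3 hN hv
      (hS (8 / 25) (Or.inr (Or.inr (Or.inr (Or.inl ⟨h3, h4, rfl⟩)))))
      (fv_V hm hw hs hs2 hz1 hl hu hu0 hzE hcap hcap2 (xi := 1 / 40)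
        (Or.inl ⟨h4, rfl⟩))
      (fv_X hm hw hs hs2 hz1 hl hzE hcap hcap2 (chi := 21 / 100)
        (Or.inr (Or.inr (Or.inr (Or.inl ⟨h3, h4, rfl⟩)))))
      (by norm_num) (by norm_num) (by norm_num) (by norm_num) (by norm_num)
  rcases le_total z (67 / 200) with h5 | h5
  · exact FXnA.fxnA hm hz hz1 hs hs2 hw hl hT hu hu0 hc1 hc2 hc3 hN hv
      (hS (1 / 4) (Or.inr (Or.inr (Or.inr (Or.inr (Or.inl ⟨h4, h5, rfl⟩))))))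
      (fv_V hm hw hs hs2 hz1 hl hu hu0 hzE hcap hcap2 (xi := 11 / 200)
        (Or.inr ⟨h4, rfl⟩))
      (fv_X hm hw hs hs2 hz1 hl hzE hcap hcap2 (chi := 9 / 50)
        (Or.inr (Or.inr (Or.inr (Or.inr ⟨h4, rfl⟩)))))
      (by norm_num) (by norm_num) (by norm_num) (by norm_num) (by norm_num)
  · exact FXnA.fxnA hm hz hz1 hs hs2 hw hl hT hu hu0 hc1 hc2 hc3 hN hv
      (hS (49 / 200) (Or.inr (Or.inr (Or.inr (Or.inr (Or.inr ⟨h5, rfl⟩))))))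
      (fv_V hm hw hs hs2 hz1 hl hu hu0 hzE hcap hcap2 (xi := 11 / 200)
        (Or.inr ⟨h4, rfl⟩))
      (fv_X5 hm hw hs hs2 hz1 hl hzE hcap2 h5)
      (by norm_num) (by norm_num) (by norm_num) (by norm_num) (by norm_num)

open Alm

variable {m : ℕ} {r τ τ' T : ℝ → ℝ} {x : ℝ}

/-- **region `0 < l`, `9 ≤ m x²`, `x² ≤ 49/100`, `u ≤ 0`** from (S) -/
theorem IsTrans.jt_far_neg_of (hm : 27 ≤ m) (hr : IsProf r) (h : IsTrans m r τ τ' T)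
    (hN : (∫ y in (-1 : ℝ)..1, r y ^ (m - 1)) ^ m * aInt m ^ (m - 1) ≤
      aInt (m - 1) ^ m * (∫ y in (-1 : ℝ)..1, r y ^ m) ^ (m - 1))
    (hx : x ∈ Ioo (0 : ℝ) 1) (h9 : 9 ≤ (m : ℝ) * x ^ 2) (hz : x ^ 2 ≤ 49 / 100)
    (hl : 0 < lf τ x) (hu : uf τ τ' x ≤ 0)
    (hS : ∀ sig, FxnZone (x ^ 2) sig →
      sig * (((m : ℝ) + 3) * x ^ 2 * (Real.exp (-(2 * lf τ x)) - 1 + 2 * lf τ x)) ≤
        dpT m (x ^ 2) (sq x) (lf τ x) 0 (jG τ x) 0 +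
          6 / 25 * ((m : ℝ) + 3) * x ^ 2 * lf τ x * (-uf τ τ' x)) :
    JTest (dpT m (x ^ 2) (sq x) (lf τ x) (uf τ τ' x) (jG τ x) (jN m (lf τ x) (uf τ τ' x)))
      (dpE m (x ^ 2) (sq x) (lf τ x) (uf τ τ' x) (fc m) (jN m (lf τ x) (uf τ τ' x)))
      (dpR m (x ^ 2 / sq x ^ 2)) (uf τ τ' x) := by
  have F := h.ffacts (by omega) hr hx
  have hm' : (27 : ℝ) ≤ m := by exact_mod_cast hm
  have hm0 : (0 : ℝ) < m := by linarith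
  obtain ⟨hc1, -, hc3⟩ := h.fx_cap hm hr hN hx h9
  exact fxn_of_S hm' F.z0 hz F.s0 F.hs h9 hl F.le.le F.u0 hu F.c0 F.c1 F.c2 (fa_N_ge hm0) F.sm
    hc1 hc3 hS

end Vale.Agent.P237.AllN
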