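import Vale.Agent.P237.AllN.PolyArith

/-!
# P237, all dimensions: polynomial inequalities for the hybrid kernel
-/

namespace Vale.Agent.P237.AllN

open PolyPos

/-- `z = 1 - s²` -/
def fz : List ℤ := [1, 0, -1]

/-- `s` -/
def fs : List ℤ := [0, 1]

/-- `30 - 39 s² + 10 s⁴` -/
def fN : List ℤ := [30, 0, -39, 0, 10]

/-- `10 - 8 s² + s⁴` -/
def fD : List ℤ := [10, 0, -8, 0, 1]

/-- `512 Σ κ_k z^k`, `k = 2..6` -/
def fA0 : List ℤ := padd (psm 384 (ppow fz 2)) (padd (psm 320 (ppow fz 3)) (padd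
  (psm 280 (ppow fz 4)) (padd (psm 252 (ppow fz 5)) (psm 231 (ppow fz 6)))))

/-- `512 Σ k κ_k z^(k-1)` -/
def fA1 : List ℤ := padd (psm 768 fz) (padd (psm 960 (ppow fz 2)) (padd
  (psm 1120 (ppow fz 3)) (padd (psm 1260 (ppow fz 4)) (psm 1386 (ppow fz 5)))))

/-- `512 Σ k (k-1) κ_k z^(k-2)` -/
def fA2 : List ℤ := padd [768] (padd (psm 1920 fz) (padd
  (psm 3360 (ppow fz 2)) (padd (psm 5040 (ppow fz 3)) (psm 6930 (ppow fz 4)))))

/-- `512 Σ_{k=2..5} κ_k (2k-1) z^(2k)` -/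
def fB1 : List ℤ := padd (psm 1152 (ppow fz 4)) (padd (psm 1600 (ppow fz 6)) (padd
  (psm 1960 (ppow fz 8)) (psm 2268 (ppow fz 10))))

/-- `512 Σ_{k=2..5} κ_k z^(2k)` -/
def fB2 : List ℤ := padd (psm 384 (ppow fz 4)) (padd (psm 320 (ppow fz 6)) (padd
  (psm 280 (ppow fz 8)) (psm 252 (ppow fz 10))))

/-- `512 s³ hK` -/
def fH0 : List ℤ := padd [0, 0, 1024, -1024] (psm (-1) (pmul (ppow fs 3) (padd (psm 512 fz) fA0)))

/-- `512 s³ z hK1 / z` -/
def fH1 : List ℤ := padd [512, 0, 0, -512] (psm (-1) (pmul (ppow fs 3) fA1))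

/-- `512 s⁵ z² hK2 / z²` -/
def fH2 : List ℤ := padd [768] (psm (-1) (pmul (ppow fs 5) fA2))

/-- (C1) -/
def fP1 : List ℤ := padd (psm 3 (pmul fD (padd (pmul (ppow fs 3) fB1) (padd
  (psm 2 (pmul fz fH1)) (psm (-1) fH0))))) (psm (-1) (pmul fN (pmul fz fH2)))

/-- (C2) -/
def fP2 : List ℤ := padd (psm 3 (pmul fD (padd (pmul (ppow fs 3) fB2) fH0)))
  (psm (-1) (pmul fN (pmul (ppow fs 2) fH1)))

set_option maxRecDepth 100000 in
theorem fH1_nonneg {s : ℝ} (h0 : 0 ≤ s) (h1 : s < 1) : 0 ≤ ev1 fH1 s :=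
  auto1_sound (n := 5) (A := 0) (B := 1) (D := 1) (by norm_num) (by (clear * -; decide +kernel))
    (by simpa only [Int.cast_zero, Int.cast_one, one_mul] using h0) (by simpa only [Int.cast_one, one_mul] using h1)

set_option maxRecDepth 100000 in
theorem fH2_nonneg {s : ℝ} (h0 : 0 ≤ s) (h1 : s < 1) : 0 ≤ ev1 fH2 s :=
  auto1_sound (n := 5) (A := 0) (B := 1) (D := 1) (by norm_num) (by (clear * -; decide +kernel))
    (by simpa only [Int.cast_zero, Int.cast_one, one_mul] using h0) (by simpa using h1)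

set_option maxRecDepth 100000 in
theorem fP1_nonneg {s : ℝ} (h0 : 0 ≤ s) (h1 : s < 1) : 0 ≤ ev1 fP1 s :=
  auto1_sound (n := 6) (A := 0) (B := 1) (D := 1) (by norm_num) (by decide +kernel)
    (by simpa only [Int.cast_zero, Int.cast_one, one_mul] using h0) (by simpa only [Int.cast_one, one_mul] using h1)

set_option maxRecDepth 100000 in
theorem fP2_nonneg {s : ℝ} (h0 : 0 ≤ s) (h1 : s < 1) : 0 ≤ ev1 fP2 s :=
  auto1_sound (n := 6) (A := 0) (B := 1) (D := 1) (by norm_num) (by (clear * -; decide +kernel))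
    (by simpa only [Int.cast_zero, Int.cast_one, one_mul] using h0) (by simpa only [Int.cast_one, one_mul] using h1)

end Vale.Agent.P237.AllN
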