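import Vale.Agent.P237.AllN.KerMix
import Vale.Agent.P237.AllN.KerFPoly

/-!
# P237, all dimensions: the kernel of the scheme with the Fisher term

`kF a b = K(ab) log(b/a)` for `ab > 0`, `0` for `ab ≤ 0`, `K(z) = 2((1-z)^(-1/2) - 1) - z`.
Every tangent line with nonnegative slope is admissible (`kFq_le`), and so is every line of the
convex hybrid kernel (powers `2..6` replaced by differences) with contact `q ≤ a` (`kH_le`).
-/

open MeasureTheory Metric Set Module Filter Topology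

namespace Vale.Agent.P237.AllN

open PolyPos

noncomputable def fK (z : ℝ) : ℝ := 2 * (Real.sqrt (1 - z))⁻¹ - 2 - z

noncomputable def fK1 (z : ℝ) : ℝ := (Real.sqrt (1 - z))⁻¹ ^ 3 - 1

noncomputable def fK2 (z : ℝ) : ℝ := 3 * (Real.sqrt (1 - z))⁻¹ ^ 5 / 2

theorem fK_hasDerivAt {z : ℝ} (hz : z < 1) : HasDerivAt fK (fK1 z) z := by
  have h := (((isqrt_hasDerivAt hz).const_mul 2).sub_const 2).sub (hasDerivAt_id z)
  refine h.congr_deriv ?_
  unfold fK1
  ring

theorem fK1_hasDerivAt {z : ℝ} (hz : z < 1) : HasDerivAt fK1 (fK2 z) z := by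
  have h := ((isqrt_hasDerivAt hz).pow 3).sub_const 1
  refine h.congr_deriv ?_
  unfold fK2
  norm_num
  ring

/-- data of the log lines -/
theorem kF_data : KData fK fK1 fK2 (fun _ => 0) (fun _ => 0) (fun _ => 0) where
  hK := fun _ h => fK_hasDerivAt h
  hK1 := fun _ h => fK1_hasDerivAt h
  hφ := fun t => hasDerivAt_const t 0
  hφ1 := fun t => hasDerivAt_const t 0

theorem fK_eq {s : ℝ} (h0 : 0 < s) : fK (1 - s ^ 2) = (1 - s) ^ 2 * (2 + s) / s := by
  unfold fK
  rw [sub_sub_cancel, Real.sqrt_sq h0.le]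
  field_simp
  ring

theorem fK1_eq {s : ℝ} (h0 : 0 < s) : fK1 (1 - s ^ 2) = (1 - s ^ 3) / s ^ 3 := by
  unfold fK1
  rw [sub_sub_cancel, Real.sqrt_sq h0.le]
  field_simp

theorem fK2_eq {s : ℝ} (h0 : 0 < s) : fK2 (1 - s ^ 2) = 3 / (2 * s ^ 5) := by
  unfold fK2
  rw [sub_sub_cancel, Real.sqrt_sq h0.le]
  field_simp

/-- `0 < K(z)` -/
theorem fK_pos {z : ℝ} (h0 : 0 < z) (h1 : z < 1) : 0 < fK z := by
  obtain ⟨s, hs0, hs1, rfl⟩ := exists_s h0 h1
  rw [fK_eq hs0]
  have : 0 < 1 - s := by linarith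
  positivity

theorem fK1_pos {z : ℝ} (h0 : 0 < z) (h1 : z < 1) : 0 < fK1 z := by
  obtain ⟨s, hs0, hs1, rfl⟩ := exists_s h0 h1
  rw [fK1_eq hs0]
  have : 0 < 1 - s ^ 3 := by
    have := pow_lt_one₀ hs0.le hs1 (n := 3) (by norm_num)
    linarith
  positivity

theorem fK_le {z : ℝ} (h0 : 0 < z) (h1 : z < 1) : fK z ≤ 2 * (z / Real.sqrt (1 - z)) := by
  have h := (lK_bds h0 h1).2
  have e : fK z = 2 * lK z - z := by unfold fK lK; ring
  rw [e]
  linarith

/-- structure: where the slope is nonnegative the kernel is strictly convex -/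
theorem fK_conv {z Λ : ℝ} (h0 : 0 < z) (h1 : z < 1) (hL : Λ ≤ -Real.log z)
    (hs : z * fK1 z * Λ ≤ fK z) : 0 < 2 * (z * fK1 z) - fK z - z ^ 2 * fK2 z * Λ := by
  obtain ⟨s, hs0, hs1, rfl⟩ := exists_s h0 h1
  rw [fK1_eq hs0, fK_eq hs0] at *
  rw [fK2_eq hs0]
  have h1s : 0 < 1 - s := by linarith only [hs1]
  have hz : 1 - s ^ 2 = (1 - s) * (1 + s) := by ring
  have e : 2 * ((1 - s ^ 2) * ((1 - s ^ 3) / s ^ 3)) - (1 - s) ^ 2 * (2 + s) / s -
      (1 - s ^ 2) ^ 2 * (3 / (2 * s ^ 5)) * Λ =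
      (1 - s) ^ 2 / (2 * s ^ 5) *
        (2 * s ^ 2 * (2 + 4 * s + 2 * s ^ 2 + s ^ 3) - 3 * (1 + s) ^ 2 * Λ) := by
    rw [hz]
    field_simp
    ring
  rw [e]
  apply mul_pos (by positivity)
  rcases le_total s (2 / 5) with hc | hc
  · -- `Λ ≤ s²/(1-s²)`
    have h2 : 0 < 1 - s ^ 2 := by nlinarith only [h0]
    have hL2 : Λ ≤ s ^ 2 / (1 - s ^ 2) := by
      have h3 := Real.log_le_sub_one_of_pos (x := (1 - s ^ 2)⁻¹) (by positivity)
      rw [Real.log_inv] at h3
      have e2 : (1 - s ^ 2)⁻¹ - 1 = s ^ 2 / (1 - s ^ 2) := by field_simp; ring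
      linarith only [hL, h3, e2]
    have h4 : 3 * (1 + s) ^ 2 * Λ ≤ 3 * (1 + s) ^ 2 * (s ^ 2 / (1 - s ^ 2)) :=
      mul_le_mul_of_nonneg_left hL2 (by positivity)
    have h5 : 3 * (1 + s) ^ 2 * (s ^ 2 / (1 - s ^ 2)) <
        2 * s ^ 2 * (2 + 4 * s + 2 * s ^ 2 + s ^ 3) := by
      rw [← mul_div_assoc, div_lt_iff₀ h2, hz]
      have h6 : 0 < s ^ 2 * (1 + s) * (2 * (2 + 4 * s + 2 * s ^ 2 + s ^ 3) * (1 - s) -
          3 * (1 + s)) := by
        apply mul_pos (by positivity)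
        nlinarith only [hc, hs0, h0]
      nlinarith only [h6]
    linarith only [h4, h5]
  · -- `Λ ≤ K/dK`
    have h3 : Λ ≤ s ^ 2 * (2 + s) / ((1 + s) * (1 + s + s ^ 2)) := by
      rw [le_div_iff₀ (by positivity)]
      have e2 : (1 - s ^ 2) * ((1 - s ^ 3) / s ^ 3) * Λ - (1 - s) ^ 2 * (2 + s) / s =
          (1 - s) ^ 2 / s ^ 3 * (Λ * ((1 + s) * (1 + s + s ^ 2)) - s ^ 2 * (2 + s)) := by
        field_simp
        ring
      by_contra hcon
      push Not at hcon
      have : 0 < (1 - s) ^ 2 / s ^ 3 * (Λ * ((1 + s) * (1 + s + s ^ 2)) - s ^ 2 * (2 + s)) := by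
        apply mul_pos (by positivity)
        linarith only [hcon]
      linarith only [hs, e2, this]
    have h4 : 3 * (1 + s) ^ 2 * Λ ≤
        3 * (1 + s) ^ 2 * (s ^ 2 * (2 + s) / ((1 + s) * (1 + s + s ^ 2))) :=
      mul_le_mul_of_nonneg_left h3 (by positivity)
    have h5 : 3 * (1 + s) ^ 2 * (s ^ 2 * (2 + s) / ((1 + s) * (1 + s + s ^ 2))) <
        2 * s ^ 2 * (2 + 4 * s + 2 * s ^ 2 + s ^ 3) := by
      rw [← mul_div_assoc, div_lt_iff₀ (by positivity)]
      have h6 : 0 < s ^ 2 * (1 + s) * (2 * (2 + 4 * s + 2 * s ^ 2 + s ^ 3) * (1 + s + s ^ 2) -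
          3 * (1 + s) * (2 + s)) := by
        apply mul_pos (by positivity)
        nlinarith only [hc, pow_pos hs0 5]
      nlinarith only [h6]
    linarith only [h4, h5]

/-! ## lines with nonnegative slope in a function with the up-set property -/

/-- if `g' ≥ 0` implies `g'' > 0`, then tangents with nonnegative slope are below `g` -/
theorem upset_tangent {c : ℝ} {g g' g'' : ℝ → ℝ}
    (hg : ∀ b ∈ Ioo 0 c, HasDerivAt g (g' b) b) (hg' : ∀ b ∈ Ioo 0 c, HasDerivAt g' (g'' b) b)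
    (hpos : ∀ b ∈ Ioo 0 c, 0 ≤ g' b → 0 < g'' b) {q b : ℝ} (hq : q ∈ Ioo 0 c) (hb : b ∈ Ioo 0 c)
    (hs : 0 ≤ g' q) : g q + g' q * (b - q) ≤ g b := by
  -- persistence
  have pers : ∀ t0 ∈ Ioo 0 c, ∀ t1 ∈ Ioo 0 c, t0 ≤ t1 → 0 ≤ g' t0 → 0 ≤ g' t1 := by
    intro t0 h0 t1 h1 h01 hh
    have hsub : Icc t0 t1 ⊆ Ioo 0 c := fun y hy => ⟨h0.1.trans_le hy.1, hy.2.trans_lt h1.2⟩
    have key := image_le_of_deriv_right_lt_deriv_boundary (f := fun y => -g' y)
      (f' := fun y => -g'' y) (B := fun _ => (0 : ℝ)) (B' := fun _ => 0) (a := t0) (b := t1)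
      (fun y hy => ((hg' y (hsub hy)).continuousAt.neg).continuousWithinAt)
      (fun y hy => ((hg' y (hsub ⟨hy.1, hy.2.le⟩)).neg).hasDerivWithinAt)
      (by simpa only [Left.neg_nonpos_iff] using hh) (fun y => hasDerivAt_const y 0)
      (fun y hy he => by
        have h3 : 0 < g'' y := hpos y (hsub ⟨hy.1, hy.2.le⟩) (by simp at he; linarith)
        simpa using h3)
    have := key (right_mem_Icc.2 h01)
    simpa only [ge_iff_le, Left.neg_nonpos_iff] using this
  -- convexity where `g' ≥ 0`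
  have conv : ∀ t0 ∈ Ioo 0 c, 0 ≤ g' t0 → ∀ p ∈ Ico t0 c, ∀ r ∈ Ico t0 c,
      g p + g' p * (r - p) ≤ g r := by
    intro t0 h0 hh p hp r hr
    have hsub : Ico t0 c ⊆ Ioo 0 c := fun y hy => ⟨h0.1.trans_le hy.1, hy.2⟩
    exact tangent_le_of_deriv2' (s := Ico t0 c) ordConnected_Ico
      (fun y hy => hg y (hsub hy)) (fun y hy => hg' y (hsub hy))
      (fun y hy => (hpos y (hsub hy) (pers t0 h0 y (hsub hy) hy.1 hh)).le) hp hr
  rcases le_total q b with h | h
  · exact conv q hq hs q ⟨le_rfl, hq.2⟩ b ⟨h, hb.2⟩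
  · by_cases hbs : 0 ≤ g' b
    · exact conv b hb hbs q ⟨h, hq.2⟩ b ⟨le_rfl, hb.2⟩
    · push Not at hbs
      -- the zero of `g'` between `b` and `q`
      have hcont : ContinuousOn g' (Icc b q) := fun y hy =>
        (hg' y ⟨hb.1.trans_le hy.1, hy.2.trans_lt hq.2⟩).continuousAt.continuousWithinAt
      obtain ⟨t, ht, ht0⟩ := intermediate_value_Icc h hcont (show (0 : ℝ) ∈ Icc (g' b) (g' q) from
        ⟨hbs.le, hs⟩)
      have htI : t ∈ Ioo 0 c := ⟨hb.1.trans_le ht.1, ht.2.trans_lt hq.2⟩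
      have h1 := conv t htI ht0.ge q ⟨ht.2, hq.2⟩ t ⟨le_rfl, htI.2⟩
      -- `g' ≤ 0` on `[b,t]`
      have hneg : ∀ y ∈ Icc b t, g' y ≤ 0 := by
        intro y hy
        by_contra hcon
        push Not at hcon
        have hyI : y ∈ Ioo 0 c := ⟨hb.1.trans_le hy.1, hy.2.trans_lt htI.2⟩
        rcases hy.2.eq_or_lt with he | he
        · rw [he, ht0] at hcon; exact lt_irrefl _ hcon
        · -- strictly positive after `y`
          have hst : StrictMonoOn g' (Icc y t) := by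
            apply strictMonoOn_of_deriv_pos (convex_Icc y t)
            · exact fun w hw => (hg' w ⟨hyI.1.trans_le hw.1, hw.2.trans_lt htI.2⟩).continuousAt.continuousWithinAt
            · intro w hw
              rw [interior_Icc] at hw
              have hwI : w ∈ Ioo 0 c := ⟨hyI.1.trans hw.1, hw.2.trans htI.2⟩
              rw [(hg' w hwI).deriv]
              exact hpos w hwI (pers y hyI w hwI hw.1.le hcon.le)
          have := hst (left_mem_Icc.2 he.le) (right_mem_Icc.2 he.le) he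
          rw [ht0] at this
          linarith
      have h2 : g t ≤ g b := by
        have hanti : AntitoneOn g (Icc b t) := by
          apply antitoneOn_of_deriv_nonpos (convex_Icc b t)
          · exact fun w hw => (hg w ⟨hb.1.trans_le hw.1, hw.2.trans_lt htI.2⟩).continuousAt.continuousWithinAt
          · intro w hw
            rw [interior_Icc] at hw
            exact (hg w ⟨hb.1.trans hw.1, hw.2.trans htI.2⟩).differentiableAt.differentiableWithinAt
          · intro w hw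
            rw [interior_Icc] at hw
            rw [(hg w ⟨hb.1.trans hw.1, hw.2.trans htI.2⟩).deriv]
            exact hneg w ⟨hw.1.le, hw.2.le⟩
        exact hanti (left_mem_Icc.2 ht.1) (right_mem_Icc.2 ht.1) ht.1
      have h3 : g' q * (b - q) ≤ g' q * (t - q) := mul_le_mul_of_nonneg_left (by linarith [ht.1]) hs
      linarith

/-! ## the kernel -/

noncomputable def kF (a b : ℝ) : ℝ := if 0 < a * b then fK (a * b) * Real.log (b / a) else 0

theorem kF_pos {a b : ℝ} (ha : 0 < a) (hb : 0 < b) : kF a b = fK (a * b) * Real.log (b / a) := by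
  unfold kF
  rw [if_pos (mul_pos ha hb)]

theorem kF_nonpos {a b : ℝ} (ha : 0 < a) (hb : b ≤ 0) : kF a b = 0 := by
  unfold kF
  rw [if_neg (by nlinarith)]

theorem kF_symm (a b : ℝ) : kF (-a) (-b) = kF a b := by
  unfold kF
  rw [neg_mul_neg, neg_div_neg_eq]

theorem kF_anti (a b : ℝ) : kF a b = -kF b a := by
  unfold kF
  rw [mul_comm b a]
  split_ifs with h
  · have : Real.log (b / a) = -Real.log (a / b) := by rw [← Real.log_inv, inv_div]
    rw [this]
    ring
  · ring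

theorem kF_eq_kL {a b : ℝ} : kF a b = 2 * kL (1 / 2) 0 a b -
    (if 0 < a * b then (1 / 2) * b ^ 2 - (1 / 2) * a ^ 2 else 0) := by
  unfold kF kL
  split_ifs with h
  · have e : fK (a * b) = 2 * (lK (a * b) - 1 / 2 * (a * b)) := by unfold fK lK; ring
    rw [e]
    ring
  · ring

theorem kF_bound {a b : ℝ} (ha : a ∈ Icc (-1 : ℝ) 1) (hb : b ∈ Icc (-1 : ℝ) 1) :
    |kF a b| ≤ 2 * Real.sqrt (1 - a * b) := by
  unfold kF
  split_ifs with h
  · have e : fK (a * b) = 2 * (lK (a * b) - 1 / 2 * (a * b)) := by unfold fK lK; ring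
    rw [e, mul_assoc, abs_mul, abs_two]
    have := kLlog_bound (k := 1 / 2) (by norm_num) le_rfl ha hb h
    linarith only [this]
  · simp only [abs_zero, Nat.ofNat_pos, mul_nonneg_iff_of_pos_left, Real.sqrt_nonneg]

theorem kF_meas : Measurable (Function.uncurry kF) := by
  have e : Function.uncurry kF = fun x : ℝ × ℝ =>
      if 0 < x.1 * x.2 then fK (x.1 * x.2) * Real.log (x.2 / x.1) else 0 := rfl
  rw [e]
  have hK : Measurable fK := by unfold fK; fun_prop
  refine Measurable.ite (measurableSet_lt measurable_const (measurable_fst.mul measurable_snd))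
    ?_ measurable_const
  exact (hK.comp (measurable_fst.mul measurable_snd)).mul
    (Real.measurable_log.comp (measurable_snd.div measurable_fst))

theorem kF_kern2 : Kern2 kF where
  meas := kF_meas
  bdd := by
    refine ⟨4, fun a ha b hb => (kF_bound ha hb).trans ?_⟩
    have h2 : Real.sqrt (1 - a * b) ≤ 2 := by
      rw [Real.sqrt_le_left (by norm_num)]
      nlinarith [ha.1, ha.2, hb.1, hb.2]
    linarith
  anti := fun a _ b _ => kF_anti a b
  symm := kF_symm
  corner := by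
    intro η hη
    refine ⟨min (1 / 2) (η ^ 2 / 8), by positivity, fun a ha b hb => ?_⟩
    set δ := min (1 / 2 : ℝ) (η ^ 2 / 8) with hδ
    have hδ1 : δ ≤ 1 / 2 := min_le_left _ _
    have hδ3 : δ ≤ η ^ 2 / 8 := min_le_right _ _
    have hδ0 : 0 < δ := by positivity
    have ha' : a ∈ Icc (-1 : ℝ) 1 := ⟨by linarith only [hδ1, ha.1], ha.2⟩
    have hb' : b ∈ Icc (-1 : ℝ) 1 := ⟨by linarith only [hδ1, hb.1], hb.2⟩
    refine (kF_bound ha' hb').trans ?_
    have h2 : Real.sqrt (1 - a * b) ≤ η / 2 := by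
      rw [Real.sqrt_le_left (by positivity)]
      nlinarith only [hδ3, hδ1, hδ0, ha.1, hb.1]
    linarith only [h2]

/-! ## log lines -/

/-- intercept of the log line with contact `q` -/
noncomputable def kFc (a q : ℝ) : ℝ := gC fK fK1 (fun _ => 0) (fun _ => 0) a q

/-- slope of the log line with contact `q` -/
noncomputable def kFp (a q : ℝ) : ℝ := gD fK fK1 (fun _ => 0) a q

theorem kF_gV_deriv {a b : ℝ} (ha : 0 < a) (hb : 0 < b) (hab : a * b < 1) :
    HasDerivAt (gV fK (fun _ => 0) a) (kFp a b) b := by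
  have h := gV_has kF_data (hasDerivAt_const b a) (hasDerivAt_id b) ha hb hab
  refine h.congr_deriv ?_
  simp [kFp]

theorem kFp_deriv {a b : ℝ} (ha : 0 < a) (hb : 0 < b) (hab : a * b < 1) :
    HasDerivAt (kFp a) (gDD fK fK1 fK2 (fun _ => 0) a b) b := by
  have h := gD_has kF_data (hasDerivAt_const b a) (hasDerivAt_id b) ha hb hab
  refine h.congr_deriv ?_
  simp

theorem kFp_mul {a q : ℝ} (hq : 0 < q) :
    kFp a q * q = fK (a * q) - a * q * fK1 (a * q) * -Real.log (q / a) := by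
  unfold kFp gD
  field_simp
  ring

theorem kFcp {a q : ℝ} (b : ℝ) :
    kFc a q + kFp a q * b = gV fK (fun _ => 0) a q + kFp a q * (b - q) := by
  unfold kFc kFp gC
  ring

theorem kF_gV {a b : ℝ} (ha : 0 < a) (hb : 0 < b) : gV fK (fun _ => 0) a b = kF a b := by
  rw [kF_pos ha hb]
  unfold gV
  ring

theorem neg_log_div_le {a b : ℝ} (ha : 0 < a) (ha1 : a ≤ 1) (hb : 0 < b) :
    -Real.log (b / a) ≤ -Real.log (a * b) := by
  have : Real.log (a * b) ≤ Real.log (b / a) := by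
    apply Real.log_le_log (by positivity)
    rw [le_div_iff₀ ha]
    have h1 : a * a ≤ 1 := by nlinarith
    nlinarith only [hb, h1]
  linarith

/-- where the slope is nonnegative the kernel is convex -/
theorem kF_upset {a b : ℝ} (ha : 0 < a) (ha1 : a ≤ 1) (hb : 0 < b) (hab : a * b < 1)
    (hs : 0 ≤ kFp a b) : 0 < gDD fK fK1 fK2 (fun _ => 0) a b := by
  have hz0 : 0 < a * b := mul_pos ha hb
  have h1 : 0 ≤ kFp a b * b := mul_nonneg hs hb.le
  rw [kFp_mul hb] at h1
  have h2 := fK_conv hz0 hab (neg_log_div_le ha ha1 hb) (by linarith)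
  have h3 : 0 < b ^ 2 * gDD fK fK1 fK2 (fun _ => 0) a b := by
    have e : b ^ 2 * gDD fK fK1 fK2 (fun _ => 0) a b =
        2 * (a * b * fK1 (a * b)) - fK (a * b) -
          (a * b) ^ 2 * fK2 (a * b) * -Real.log (b / a) := by
      unfold gDD
      field_simp
      ring
    rw [e]
    exact h2
  exact (mul_pos_iff_of_pos_left (by positivity)).1 h3

/-- log lines with nonnegative slope, positive side (contact anywhere, `b` up to `1/a`) -/
theorem kFq_pos {a q b : ℝ} (ha : 0 < a) (ha1 : a ≤ 1) (hq : 0 < q) (hq1 : a * q < 1)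
    (hs : 0 ≤ kFp a q) (hb0 : 0 < b) (hb : a * b < 1) :
    gV fK (fun _ => 0) a q + kFp a q * (b - q) ≤ gV fK (fun _ => 0) a b := by
  have hlt : ∀ y ∈ Ioo 0 (1 / a), a * y < 1 := fun y hy => by
    have := hy.2; rw [lt_div_iff₀ ha] at this; linarith
  exact upset_tangent (c := 1 / a) (g'' := gDD fK fK1 fK2 (fun _ => 0) a)
    (fun y hy => kF_gV_deriv ha hy.1 (hlt y hy)) (fun y hy => kFp_deriv ha hy.1 (hlt y hy))
    (fun y hy => kF_upset ha ha1 hy.1 (hlt y hy)) ⟨hq, by rw [lt_div_iff₀ ha]; linarith⟩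
    ⟨hb0, by rw [lt_div_iff₀ ha]; linarith⟩ hs

/-- **log lines with nonnegative slope are admissible** -/
theorem kFq_le {a q b : ℝ} (ha : 0 < a) (ha1 : a < 1) (hq : 0 < q) (hq1 : a * q < 1)
    (hs : 0 ≤ kFp a q) (hb : b ∈ Icc (-1 : ℝ) 1) : kFc a q + kFp a q * b ≤ kF a b := by
  have hpos : ∀ b, 0 < b → b ≤ 1 → kFc a q + kFp a q * b ≤ kF a b := by
    intro b hb0 hb1
    rw [kFcp, ← kF_gV ha hb0]
    exact kFq_pos ha ha1.le hq hq1 hs hb0 (by nlinarith only [ha1, ha, hb1])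
  rcases lt_or_ge 0 b with h | h
  · exact hpos b h hb.2
  · rw [kF_nonpos ha h]
    -- the value at `a` is `0`
    have h1 := hpos a ha ha1.le
    rw [kF_pos ha ha, div_self ha.ne', Real.log_one, mul_zero] at h1
    have h2 : kFp a q * b ≤ kFp a q * a := mul_le_mul_of_nonneg_left (by linarith) hs
    linarith

/-- contact `q ≥ a`: the slope is nonnegative -/
theorem kFp_nonneg_of_le {a q : ℝ} (ha : 0 < a) (hqa : a ≤ q) (hq1 : a * q < 1) :
    0 ≤ kFp a q := by
  have hq : 0 < q := ha.trans_le hqa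
  have hz0 : 0 < a * q := mul_pos ha hq
  have h1 : 0 ≤ Real.log (q / a) := Real.log_nonneg (by rw [le_div_iff₀ ha]; linarith)
  have h2 := fK_pos hz0 hq1
  have h3 := fK1_pos hz0 hq1
  have h4 : 0 ≤ q * kFp a q := by
    rw [mul_comm, kFp_mul hq]
    have : 0 ≤ a * q * fK1 (a * q) * Real.log (q / a) := by positivity
    linarith only [h2, this]
  exact nonneg_of_mul_nonneg_right h4 hq

end Vale.Agent.P237.AllN
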