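import Vale.Agent.P237.AllN.FRho
import Vale.Agent.P237.AllN.Brid7
import Vale.Agent.P237.AllN.KerF

/-!
# P237, all dimensions: value at the ball of the kernel of the Fisher route
-/

open MeasureTheory Metric Set Module Filter Topology

namespace Vale.Agent.P237.AllN

/-- the correction of the Fisher route keeps the properties of a kernel -/
theorem Kern2.addφ2 {A : ℝ → ℝ → ℝ} (hA : Kern2 A) (m : ℕ) :
    Kern2 (fun a b => A a b + 2 * (bφ m b - bφ m a)) := by
  have h := Kern2.addφ (Kern2.addφ hA m) m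
  have e : (fun a b => A a b + (bφ m b - bφ m a) + (bφ m b - bφ m a)) =
      fun a b => A a b + 2 * (bφ m b - bφ m a) := by
    funext a b
    ring
  rw [e] at h
  exact h

theorem fK_sq {x : ℝ} (hx : x ∈ Ioo (0 : ℝ) 1) :
    fK (x ^ 2) = (1 - sq x) ^ 2 * (2 + sq x) / sq x := by
  rw [sqx_sq hx]
  exact fK_eq (sqx_pos hx)

theorem fK1_sq {x : ℝ} (hx : x ∈ Ioo (0 : ℝ) 1) :
    fK1 (x ^ 2) = (1 - sq x ^ 3) / sq x ^ 3 := by
  rw [sqx_sq hx]
  exact fK1_eq (sqx_pos hx)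

theorem x2_lt_one {x : ℝ} (hx : x ∈ Ioo (0 : ℝ) 1) : x ^ 2 < 1 := by
  nlinarith [hx.1, hx.2]

theorem fK_comp_der {x : ℝ} (hx : x ∈ Ioo (0 : ℝ) 1) :
    HasDerivAt (fun x => fK (x ^ 2)) (fK1 (x ^ 2) * (2 * x)) x := by
  have e0 : HasDerivAt (fun x : ℝ => x ^ 2) (2 * x) x := by simpa using hasDerivAt_pow 2 x
  exact HasDerivAt.comp_of_eq x (fK_hasDerivAt (x2_lt_one hx)) e0 rfl

theorem bkx_der (m : ℕ) {x : ℝ} (hx : x ∈ Ioo (0 : ℝ) 1) : HasDerivAt (bk m) (bkd m x) x :=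
  bk_hasDerivAt m (mem_neg hx)

/-- constant part of the ball pair -/
noncomputable def fbc (m : ℕ) (x : ℝ) : ℝ := -fK (x ^ 2) - 2 * (x * bk m x)

noncomputable def fbc' (m : ℕ) (x : ℝ) : ℝ :=
  -(fK1 (x ^ 2) * (2 * x)) - 2 * (bk m x + x * bkd m x)

/-- slope of the ball pair -/
noncomputable def fbp (m : ℕ) (x : ℝ) : ℝ := fK (x ^ 2) / x + 2 * bk m x

noncomputable def fbp' (m : ℕ) (x : ℝ) : ℝ :=
  (fK1 (x ^ 2) * (2 * x) * x - fK (x ^ 2)) / x ^ 2 + 2 * bkd m x

/-- primitive -/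
noncomputable def fbΨ (m : ℕ) (x : ℝ) : ℝ :=
  2 * (x * sq x ^ m * bg x + bN m x) - x * sq x ^ (m + 2)

noncomputable def fbΨ' (m : ℕ) (x : ℝ) : ℝ :=
  2 * (sq x ^ (m - 1) * (-((m : ℝ) + 1) + ((m : ℝ) + 2 - bgm m) * sq x)) -
    sq x ^ m * (1 - ((m : ℝ) + 3) * x ^ 2)

theorem fbΨ_der {m : ℕ} (hm : 1 ≤ m) {x : ℝ} (hx : x ∈ Ioo (0 : ℝ) 1) :
    HasDerivAt (fbΨ m) (fbΨ' m x) x := by
  refine (((ball_prim_der hm hx).const_mul 2).sub (xs_der (m + 2) hx)).congr_deriv ?_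
  unfold fbΨ'
  have hs := (sqx_pos hx).ne'
  have hxs := sqx_sq hx
  have e : sq x ^ (m + 2) * (1 - ((m + 2 : ℕ) : ℝ) * (x ^ 2 / sq x ^ 2)) =
      sq x ^ m * (1 - ((m : ℝ) + 3) * x ^ 2) := by
    push_cast
    rw [pow_add]
    field_simp
    rw [hxs]
    ring
  rw [e]

theorem fb_identity {m : ℕ} (hm : 1 ≤ m) {x : ℝ} (hx : x ∈ Ioo (0 : ℝ) 1) :
    fbΨ' m x = (((m : ℝ) + 1) * fbc m x + (x * fbc' m x + fbp' m x) / 1) * sq x ^ m := by
  have hphi := phi_value (m := m) (isTrans_id m) hx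
  simp only [mul_one, div_one, one_mul] at hphi
  have hs := (sqx_pos hx).ne'
  have hs0 := sqx_pos hx
  have hxs := sqx_sq hx
  have hx0 := hx.1.ne'
  have e0 : bg x = sq x / (1 + sq x) := rfl
  have hpow : sq x ^ m = sq x ^ (m - 1) * sq x := by
    obtain ⟨n, rfl⟩ := Nat.exists_eq_add_of_le' hm
    rw [Nat.add_sub_cancel, pow_succ]
  have e1 : ((m : ℝ) + 1) * fbc m x + (x * fbc' m x + fbp' m x) / 1 =
      (-((m : ℝ) + 1) * fK (x ^ 2) + 2 * sq x ^ 2 * fK1 (x ^ 2) - fK (x ^ 2) / x ^ 2) +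
      2 * (((m : ℝ) + 1) * (-(x * bk m x)) + (x * (-(bk m x + x * bkd m x)) + bkd m x)) := by
    unfold fbc fbc' fbp'
    field_simp
    rw [show sq x ^ 2 = 1 - x ^ 2 by rw [hxs]; ring]
    ring
  rw [e1, hphi, e0, fK_sq hx, fK1_sq hx]
  have hx2 : x ^ 2 ≠ 0 := pow_ne_zero 2 hx0
  have e2 : (1 - sq x) ^ 2 * (2 + sq x) / sq x / x ^ 2 =
      (1 - sq x) * (2 + sq x) / (sq x * (1 + sq x)) := by
    rw [div_div, div_eq_div_iff (by positivity) (by positivity), hxs]
    ring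
  rw [e2]
  unfold fbΨ'
  rw [hpow, hxs]
  field_simp
  ring

/-- **value at the ball**, Fisher route -/
theorem ball_valueF {m : ℕ} (hm : 4 ≤ m) {A : ℝ → ℝ → ℝ} (hA : Kern2 A)
    (hS : ∀ x ∈ Ioo (0 : ℝ) 1, ∀ b ∈ Icc (-1 : ℝ) 1, -fK (x ^ 2) + fK (x ^ 2) / x * b ≤ A x b) :
    AdmGe m (fun a b => A a b + 2 * (bφ m b - bφ m a)) sq 0 := by
  have hT := isTrans_id m
  have hr := isProf_sq
  have hK1c : ContinuousOn (fun x : ℝ => fK1 (x ^ 2)) (Ioo 0 1) := fun x hx => by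
    have e0 : HasDerivAt (fun x : ℝ => x ^ 2) (2 * x) x := by simpa using hasDerivAt_pow 2 x
    exact (HasDerivAt.comp_of_eq x (fK1_hasDerivAt (x2_lt_one hx)) e0
      rfl).continuousAt.continuousWithinAt
  have hKc : ContinuousOn (fun x : ℝ => fK (x ^ 2)) (Ioo 0 1) := fun x hx =>
    (fK_comp_der hx).continuousAt.continuousWithinAt
  have hbk : ContinuousOn (bk m) (Ioo 0 1) := fun x hx =>
    (bkx_der m hx).continuousAt.continuousWithinAt
  have hbkd : ContinuousOn (bkd m) (Ioo 0 1) := bkd_tau_cont hT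
  have hid : ContinuousOn (fun x : ℝ => x) (Ioo (0 : ℝ) 1) := continuousOn_id
  have hKnn : ∀ x ∈ Ioo (0 : ℝ) 1, 0 ≤ fK (x ^ 2) := fun x hx =>
    (fK_pos (by have := hx.1; positivity) (x2_lt_one hx)).le
  have hKle : ∀ x ∈ Ioo (0 : ℝ) (1 / 2), fK (x ^ 2) ≤ 4 * x ^ 2 := fun x hx => by
    have hx1 : x ∈ Ioo (0 : ℝ) 1 := ⟨hx.1, by linarith [hx.2]⟩
    have h1 := fK_le (z := x ^ 2) (by have := hx.1; positivity) (x2_lt_one hx1)
    have h2 := sq_half hx
    have h3 : x ^ 2 / Real.sqrt (1 - x ^ 2) ≤ 2 * x ^ 2 := by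
      have h4 : Real.sqrt (1 - x ^ 2) = sq x := rfl
      rw [h4, div_le_iff₀ (by linarith)]
      nlinarith [sq_nonneg x]
    linarith
  refine admGe_of_cert0 (m := m) (by omega) (c := fbc m) (c' := fbc' m) (p := fbp m)
    (p' := fbp' m) (μ := 0) (x₀ := 0) (Ψ := fbΨ m) (Ψ' := fbΨ' m)
    (Kern2.addφ2 hA m) hr hT ?_ ?_ ?_ ?_ ?_ ?_ ?_ ?_ ?_ ?_ ?_ ?_ ?_ ?_ ?_
  · unfold aInt
    rfl
  · intro x hx
    exact ((fK_comp_der hx).neg).sub (((hasDerivAt_id' x).mul (bkx_der m hx)).const_mul 2)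
      |>.congr_deriv (by unfold fbc'; ring)
  · unfold fbc'
    exact ((hK1c.mul (continuousOn_const.mul hid)).neg).sub
      (continuousOn_const.mul (hbk.add (hid.mul hbkd)))
  · intro x hx
    exact ((fK_comp_der hx).div (hasDerivAt_id' x) hx.1.ne').add ((bkx_der m hx).const_mul 2)
      |>.congr_deriv (by unfold fbp'; ring)
  · unfold fbp'
    exact ((((hK1c.mul (continuousOn_const.mul hid)).mul hid).sub hKc).div (hid.pow 2)
      fun x hx => pow_ne_zero 2 hx.1.ne').add (continuousOn_const.mul hbkd)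
  · intro x hx b hb
    have h1 := hS x hx b hb
    have h2 := bφ_tangent m (mem_neg hx) hb
    unfold fbc fbp
    linarith
  · refine ⟨3, fun x hx => ?_⟩
    have hx1 : x ∈ Ioo (0 : ℝ) 1 := ⟨hx.1, by linarith [hx.2]⟩
    have h1 := hKle x hx
    have h2 := hKnn x hx1
    have h3 : |x * bk m x| ≤ 1 := by
      rw [abs_mul, abs_of_pos hx.1]
      have := bk_abs_le m x
      nlinarith [hx.1, hx.2, abs_nonneg (bk m x)]
    have h4 := abs_le.1 h3
    have h5 : x ^ 2 ≤ 1 / 4 := by nlinarith [hx.1, hx.2]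
    unfold fbc
    rw [abs_le]
    constructor <;> linarith [h4.1, h4.2]
  · have h1 : Tendsto (fun x : ℝ => 4 * x) (𝓝[>] 0) (𝓝 0) := by
      have : Tendsto (fun x : ℝ => 4 * x) (𝓝 0) (𝓝 (4 * 0)) :=
        (continuous_const.mul continuous_id).tendsto 0
      rw [mul_zero] at this
      exact this.mono_left nhdsWithin_le_nhds
    have h2 : Tendsto (fun x => fK (x ^ 2) / x) (𝓝[>] 0) (𝓝 0) := by
      refine squeeze_zero' ?_ ?_ h1
      · filter_upwards [Ioo_mem_nhdsGT (zero_lt_one' ℝ)] with x hx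
        exact div_nonneg (hKnn x hx) hx.1.le
      · filter_upwards [Ioo_mem_nhdsGT (by norm_num : (0 : ℝ) < 1 / 2)] with x hx
        rw [div_le_iff₀ hx.1]
        have := hKle x hx
        linarith
    have h3 := (bk_tau_tendsto (m := m) (by omega) hr hT).const_mul 2
    rw [mul_zero] at h3
    have := h2.add h3
    rw [add_zero] at this
    exact this
  · have h2 : Tendsto (fun x => 5 * sq x) (𝓝[<] 1) (𝓝 0) := by
      have := sq_tendsto_one.const_mul 5
      rwa [mul_zero] at this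
    refine squeeze_zero_norm' ?_ h2
    filter_upwards [Ioo_mem_nhdsLT (zero_lt_one' ℝ)] with x hx
    have hs := sqx_pos hx
    have hs1 := br_sq_le_one x
    have e : sq x ^ (m + 2) * fbc m x = -(sq x * (sq x ^ m * ((1 - sq x) ^ 2 * (2 + sq x)))) -
        2 * (sq x * (sq x ^ (m + 1) * (x * bk m x))) := by
      unfold fbc
      rw [fK_sq hx, pow_add, pow_succ]
      field_simp
      ring
    have p : ∀ k : ℕ, |sq x ^ k| ≤ 1 := fun k => by
      rw [abs_of_nonneg (pow_nonneg hs.le k)]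
      exact pow_le_one₀ hs.le hs1
    have b1 : |sq x ^ m * ((1 - sq x) ^ 2 * (2 + sq x))| ≤ 3 := by
      rw [abs_mul]
      have h5 : |(1 - sq x) ^ 2 * (2 + sq x)| ≤ 3 := by
        rw [abs_of_nonneg (by positivity)]
        have h6 : (1 - sq x) ^ 2 ≤ 1 := by nlinarith
        nlinarith [sq_nonneg (1 - sq x)]
      calc |sq x ^ m| * |(1 - sq x) ^ 2 * (2 + sq x)| ≤ 1 * 3 :=
            mul_le_mul (p m) h5 (abs_nonneg _) zero_le_one
        _ = 3 := one_mul 3
    have b2 : |sq x ^ (m + 1) * (x * bk m x)| ≤ 1 := by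
      rw [abs_mul, abs_mul, abs_of_pos hx.1]
      have h4 := bk_abs_le m x
      have h6 : x * |bk m x| ≤ 1 := by nlinarith [hx.1, hx.2, abs_nonneg (bk m x)]
      calc |sq x ^ (m + 1)| * (x * |bk m x|) ≤ 1 * 1 :=
            mul_le_mul (p _) h6 (mul_nonneg hx.1.le (abs_nonneg _)) zero_le_one
        _ = 1 := one_mul 1
    rw [Real.norm_eq_abs, e]
    refine (abs_sub _ _).trans ?_
    have c1 : |-(sq x * (sq x ^ m * ((1 - sq x) ^ 2 * (2 + sq x))))| ≤ sq x * 3 := by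
      rw [abs_neg, abs_mul, abs_of_pos hs]
      exact mul_le_mul_of_nonneg_left b1 hs.le
    have c2 : |2 * (sq x * (sq x ^ (m + 1) * (x * bk m x)))| ≤ 2 * (sq x * 1) := by
      rw [abs_mul, abs_two, abs_mul, abs_of_pos hs]
      exact mul_le_mul_of_nonneg_left (mul_le_mul_of_nonneg_left b2 hs.le) two_pos.le
    linarith
  · exact le_rfl
  · exact fun x hx => (fbΨ_der (by omega) hx).continuousAt.continuousWithinAt
  · exact fun x hx _ => fbΨ_der (by omega) hx
  · have hc : Continuous (fbΨ m) := by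
      have h1 := br_sq_cont
      have h2 := bg_cont
      have h3 := bN_cont m
      unfold fbΨ
      fun_prop
    have := hc.tendsto 0
    have e : fbΨ m 0 = 0 := by unfold fbΨ; rw [bN_zero]; simp
    rw [e] at this
    exact this.mono_left nhdsWithin_le_nhds
  · have hc : Continuous (fbΨ m) := by
      have h1 := br_sq_cont
      have h2 := bg_cont
      have h3 := bN_cont m
      unfold fbΨ
      fun_prop
    have := hc.tendsto 1
    have e : fbΨ m 1 = 0 := by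
      unfold fbΨ
      rw [bN_one, br_sq_one, zero_pow (by omega : m ≠ 0), zero_pow (by omega : m + 2 ≠ 0)]
      simp
    rw [e] at this
    exact this.mono_left nhdsWithin_le_nhds
  · intro x hx _
    rw [zero_mul, add_zero, fb_identity (by omega) hx]

/-- the kernel of the Fisher route -/
theorem ball_value_kF {m : ℕ} (hm : 4 ≤ m) :
    AdmGe m (fun a b => (kF a b + (bφ m b - bφ m a)) + (bφ m b - bφ m a)) sq 0 := by
  have e : (fun a b => (kF a b + (bφ m b - bφ m a)) + (bφ m b - bφ m a)) =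
      fun a b => kF a b + 2 * (bφ m b - bφ m a) := by
    funext a b
    ring
  rw [e]
  refine ball_valueF hm kF_kern2 fun x hx b hb => ?_
  have hx0 := hx.1
  have h1 := kFq_le (a := x) (q := x) hx.1 hx.2 hx.1 (by nlinarith [hx.2])
    (kFp_nonneg_of_le hx.1 le_rfl (by nlinarith [hx.2])) hb
  have e1 : kFc x x = -fK (x ^ 2) := by
    unfold kFc gC gV gD
    rw [div_self hx0.ne', Real.log_one, show x * x = x ^ 2 by ring]
    field_simp
    ring
  have e2 : kFp x x = fK (x ^ 2) / x := by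
    unfold kFp gD
    rw [div_self hx0.ne', Real.log_one, show x * x = x ^ 2 by ring]
    ring
  rw [e1, e2] at h1
  exact h1

end Vale.Agent.P237.AllN
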