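import Vale.Agent.P237.AllN.FisT

/-!
# P237, all dimensions: certificates with the Fisher type functional
-/

open MeasureTheory Metric Set Module Filter Topology

namespace Vale.Agent.P237.AllN

/-- The one-dimensional statement from values of the two functionals. -/
theorem oneDF_of_values {m : ℕ} {θ : ℝ} (hθ : 0 ≤ θ) {A : ℝ → ℝ → ℝ} (hA : Kern2 A)
    (hb : AdmGe m A sq 0)
    (h : ∀ r : ℝ → ℝ, IsProf r →
      (∫ y in (-1 : ℝ)..1, r y ^ (m - 1)) ^ m * aInt m ^ (m - 1) ≤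
        aInt (m - 1) ^ m * (∫ y in (-1 : ℝ)..1, r y ^ m) ^ (m - 1) →
      (∃ k : ℝ, ∀ y ∈ Ioo (-1 : ℝ) 1, r y = k * Real.sqrt (1 - y ^ 2)) ∨
      ∃ v w : ℝ, AdmGe m A r v ∧ FisGe m r w ∧ 0 < w ∧
        θ * ((∫ y in (-1 : ℝ)..1, r y ^ m) / w - 1) * (∫ y in (-1 : ℝ)..1, r y ^ m) < v) :
    OneDF m θ := by
  refine ⟨hθ, A, hA.toKern, fun ε hε => ?_, fun r hr hN => ?_⟩
  · obtain ⟨c, c', p, p', h1, h2⟩ := hb ε hε
    refine ⟨c, c', p, p', h1, ?_⟩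
    rw [zero_sub] at h2
    exact h2
  · rcases h r hr hN with h1 | ⟨v, w, hv, hw, hw0, hlt⟩
    · exact Or.inl h1
    · refine Or.inr fun Q hQ0 hQ => ?_
      have h2 := hQ.mul_le hQ0 hw
      have hI0 : 0 ≤ ∫ y in (-1 : ℝ)..1, r y ^ m := (mul_nonneg hQ0 hw0.le).trans h2
      have h3 : Q ≤ (∫ y in (-1 : ℝ)..1, r y ^ m) / w := by
        rw [le_div_iff₀ hw0]
        exact h2
      have h4 : θ * (Q - 1) * (∫ y in (-1 : ℝ)..1, r y ^ m) ≤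
          θ * ((∫ y in (-1 : ℝ)..1, r y ^ m) / w - 1) * (∫ y in (-1 : ℝ)..1, r y ^ m) :=
        mul_le_mul_of_nonneg_right (mul_le_mul_of_nonneg_left (by linarith) hθ) hI0
      obtain ⟨c, c', p, p', k1, k2⟩ := hv ((v - θ * ((∫ y in (-1 : ℝ)..1, r y ^ m) / w - 1) *
        (∫ y in (-1 : ℝ)..1, r y ^ m)) / 2) (by linarith)
      exact ⟨c, c', p, p', k1, by linarith⟩

/-- Positivity of an integral over `(0,1)` from a pointwise inequality with a primitive. -/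
theorem fis_int_pos {F W Ψ Ψ' : ℝ → ℝ} {x₀ : ℝ} (hF : ContinuousOn F (Ioo 0 1))
    (hFi : IntervalIntegrable F volume 0 1) (hΨ : ContinuousOn Ψ (Ioo 0 1))
    (hΨd : ∀ x ∈ Ioo (0 : ℝ) 1, x ≠ x₀ → HasDerivAt Ψ (Ψ' x) x)
    (hΨ0 : Tendsto Ψ (𝓝[>] 0) (𝓝 0)) (hΨ1 : Tendsto Ψ (𝓝[<] 1) (𝓝 0))
    (hW : ∀ x ∈ Ioo (0 : ℝ) 1, x ≠ x₀ → 0 ≤ W x)
    (hW1 : ∃ x ∈ Ioo (0 : ℝ) 1, ContinuousAt W x ∧ 0 < W x)
    (hid : ∀ x ∈ Ioo (0 : ℝ) 1, x ≠ x₀ → W x + Ψ' x ≤ F x) :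
    0 < ∫ x in (0 : ℝ)..1, F x := by
  obtain ⟨a, b, w, ha, hab, hb, hw, hWw⟩ := ass_gain hW1
  have hw0 : 0 < w * (b - a) := mul_pos hw (by linarith)
  obtain ⟨κ, hκ⟩ : ∃ κ : ℝ, κ = w * (b - a) / 8 := ⟨_, rfl⟩
  have hκ0 : 0 < κ := by rw [hκ]; positivity
  have hI0 : ∀ᶠ x in 𝓝[>] (0 : ℝ), x ∈ Ioo (0 : ℝ) a := Ioo_mem_nhdsGT ha
  have hI1 : ∀ᶠ x in 𝓝[<] (1 : ℝ), x ∈ Ioo b 1 := Ioo_mem_nhdsLT hb
  obtain ⟨α, hα, A1, A2⟩ := (hI0.and ((ass_small hΨ0 hκ0).and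
    (ass_small (fis_prim_zero hFi) hκ0))).exists
  obtain ⟨β, hβ, B1, B2⟩ := (hI1.and ((ass_small hΨ1 hκ0).and
    (ass_small (fis_prim_one hFi) hκ0))).exists
  have hsub : ∀ {u v : ℝ}, α ≤ u → v ≤ β → Icc u v ⊆ Ioo (0 : ℝ) 1 := fun hu hv x hx =>
    ⟨hα.1.trans_le (hu.trans hx.1), (hx.2.trans hv).trans_lt hβ.2⟩
  have hsubi : ∀ {u v : ℝ}, 0 ≤ u → u ≤ v → v ≤ 1 → IntervalIntegrable F volume u v := by
    intro u v hu huv hv
    refine hFi.mono_set ?_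
    rw [uIcc_of_le huv, uIcc_of_le zero_le_one]
    exact Icc_subset_Icc hu hv
  have piece : ∀ {u v q : ℝ}, α ≤ u → u ≤ v → v ≤ β →
      (∀ x ∈ Ioo u v, x ≠ x₀ → q ≤ W x) → q * (v - u) + (Ψ v - Ψ u) ≤ ∫ x in u..v, F x := by
    intro u v q hu huv hv hq
    refine ass_int_ge (x₀ := x₀) (Ψ' := Ψ') huv (hF.mono (hsub hu hv)) (hΨ.mono (hsub hu hv)) ?_ ?_
    · intro x hx hx0
      exact hΨd x (hsub hu hv ⟨hx.1.le, hx.2.le⟩) hx0
    · intro x hx hx0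
      have h2 := hid x (hsub hu hv ⟨hx.1.le, hx.2.le⟩) hx0
      have h3 := hq x hx hx0
      linarith
  have hαa := hα.2.le
  have hbβ := hβ.1.le
  have p1 := piece (q := 0) le_rfl hαa (hab.le.trans hbβ)
    (fun x hx hx0 => hW x (hsub le_rfl (hab.le.trans hbβ) ⟨hx.1.le, hx.2.le⟩) hx0)
  have p2 := piece (q := w) hαa hab.le hbβ (fun x hx _ => hWw x ⟨hx.1.le, hx.2.le⟩)
  have p3 := piece (q := 0) (hαa.trans hab.le) hbβ le_rfl
    (fun x hx hx0 => hW x (hsub (hαa.trans hab.le) le_rfl ⟨hx.1.le, hx.2.le⟩) hx0)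
  have hadd : ∫ x in (0 : ℝ)..1, F x = (∫ x in (0 : ℝ)..α, F x) + (∫ x in α..a, F x) +
      (∫ x in a..b, F x) + (∫ x in b..β, F x) + ∫ x in β..1, F x := by
    rw [intervalIntegral.integral_add_adjacent_intervals (hsubi le_rfl hα.1.le (by linarith))
      (hsubi hα.1.le hαa (by linarith)),
      intervalIntegral.integral_add_adjacent_intervals (hsubi le_rfl ha.le (by linarith))
      (hsubi ha.le hab.le hb.le),
      intervalIntegral.integral_add_adjacent_intervals (hsubi le_rfl (by linarith) hb.le)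
      (hsubi (by linarith) hbβ hβ.2.le),
      intervalIntegral.integral_add_adjacent_intervals (hsubi le_rfl (by linarith) hβ.2.le)
      (hsubi (by linarith) hβ.2.le le_rfl)]
  have q1 := (abs_lt.1 A1).2
  have q2 := (abs_lt.1 A2).1
  have q3 := (abs_lt.1 B1).1
  have q4 := (abs_lt.1 B2).1
  rw [hadd]
  have hκw : w * (b - a) = 8 * κ := by rw [hκ]; ring
  linarith

theorem fis_quad {x a A b : ℝ} (hA : 0 < A) (hb : 0 ≤ b) (h : b + a ^ 2 / A < x) :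
    0 < A + b ∧ (a + b) ^ 2 / (A + b) < x := by
  have hAb : 0 < A + b := by linarith
  refine ⟨hAb, lt_of_le_of_lt ?_ h⟩
  rw [div_le_iff₀ hAb]
  have e : (b + a ^ 2 / A) * (A + b) - (a + b) ^ 2 = b * (A - a) ^ 2 / A := by
    field_simp
    ring
  have : 0 ≤ b * (A - a) ^ 2 / A := by positivity
  linarith

theorem fis_tangent {W e d t : ℝ} (hd : 0 < d) (h : e ^ 2 ≤ W * d) :
    0 ≤ W - 2 * t * e + t ^ 2 * d := by
  have h1 : 0 ≤ (W - 2 * t * e + t ^ 2 * d) * d := by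
    nlinarith [sq_nonneg (e - t * d)]
  exact nonneg_of_mul_nonneg_left h1 hd

theorem fis_tangent_lt {W e d t : ℝ} (hd : 0 < d) (h : e ^ 2 < W * d) :
    0 < W - 2 * t * e + t ^ 2 * d := by
  have h1 : 0 < (W - 2 * t * e + t ^ 2 * d) * d := by
    nlinarith [sq_nonneg (e - t * d)]
  exact (mul_pos_iff_of_pos_right hd).1 h1

/-- **Certificates with the Fisher type functional of weight one.** Here
`N x = s^(m-1) (τ'^(1/m) - 1)`. -/
theorem values_of_cert {m : ℕ} (hm : 3 ≤ m) {A : ℝ → ℝ → ℝ} (hA : Kern2 A) {r : ℝ → ℝ}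
    (hr : IsProf r) {τ τ' T : ℝ → ℝ} (hT : IsTrans m r τ τ' T)
    (hN : (∫ y in (-1 : ℝ)..1, r y ^ (m - 1)) ^ m * aInt m ^ (m - 1) ≤
      aInt (m - 1) ^ m * (∫ y in (-1 : ℝ)..1, r y ^ m) ^ (m - 1))
    {c c' p p' q q' : ℝ → ℝ}
    (hc : ∀ x ∈ Ioo (0 : ℝ) 1, HasDerivAt c (c' x) x) (hc' : ContinuousOn c' (Ioo 0 1))
    (hp : ∀ x ∈ Ioo (0 : ℝ) 1, HasDerivAt p (p' x) x) (hp' : ContinuousOn p' (Ioo 0 1))
    (hle : ∀ x ∈ Ioo (0 : ℝ) 1, ∀ b ∈ Icc (-1 : ℝ) 1, c x + p x * b ≤ A (τ x) b)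
    (hc0 : ∃ C : ℝ, ∀ x ∈ Ioo (0 : ℝ) (1/2), |c x| ≤ C)
    (hp0 : Tendsto p (𝓝[>] 0) (𝓝 0))
    (hc1 : Tendsto (fun x => sq x ^ (m + 2) * c x) (𝓝[<] 1) (𝓝 0))
    (hq : ∀ x ∈ Ioo (0 : ℝ) 1, HasDerivAt q (q' x) x) (hq' : ContinuousOn q' (Ioo 0 1))
    (hq0 : Tendsto q (𝓝[>] 0) (𝓝 0)) (hq1 : ∃ C : ℝ, ∀ x ∈ Ioo (1/2 : ℝ) 1, |q x| ≤ C)
    {k j : ℝ → ℝ}
    (hk : ∀ x ∈ Ioo (0 : ℝ) 1, k x = ((m : ℝ) + 1) * c x + (τ x * c' x + p' x) / τ' x)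
    (hj : ∀ x ∈ Ioo (0 : ℝ) 1, j x = -((m : ℝ) + 1) * q x ^ 2 +
      2 * (q' x / τ' x) * (1 - τ x * q x))
    (hIk : IntervalIntegrable (fun x => k x * sq x ^ m) volume 0 1)
    (hIj : IntervalIntegrable (fun x => j x * sq x ^ m) volume 0 1)
    {μ μ₁ : ℝ} (hμ₁ : 0 ≤ μ₁) (hμ : μ₁ ≤ μ) {x₀ : ℝ} {W e ρ Ψ Ψ' Ψ₁ Ψ₁' : ℝ → ℝ}
    (hρ : ContinuousOn ρ (Ioo 0 1)) (hρi : IntervalIntegrable ρ volume 0 1)
    (hρ1 : ∫ x in (0 : ℝ)..1, ρ x = ∫ x in (0 : ℝ)..1, sq x ^ m)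
    (hΨ : ContinuousOn Ψ (Ioo 0 1)) (hΨd : ∀ x ∈ Ioo (0 : ℝ) 1, x ≠ x₀ → HasDerivAt Ψ (Ψ' x) x)
    (hΨ0 : Tendsto Ψ (𝓝[>] 0) (𝓝 0)) (hΨ1 : Tendsto Ψ (𝓝[<] 1) (𝓝 0))
    (gΨ : ContinuousOn Ψ₁ (Ioo 0 1))
    (gΨd : ∀ x ∈ Ioo (0 : ℝ) 1, x ≠ x₀ → HasDerivAt Ψ₁ (Ψ₁' x) x)
    (gΨ0 : Tendsto Ψ₁ (𝓝[>] 0) (𝓝 0)) (gΨ1 : Tendsto Ψ₁ (𝓝[<] 1) (𝓝 0))
    (hpos : ∀ x ∈ Ioo (0 : ℝ) 1, 0 < ρ x + e x)
    (hW : ∀ x ∈ Ioo (0 : ℝ) 1, x ≠ x₀ → e x ^ 2 ≤ W x * (ρ x + e x))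
    (hW1 : ∃ x ∈ Ioo (0 : ℝ) 1, ContinuousAt W x ∧ ContinuousAt e x ∧
      e x ^ 2 < W x * (ρ x + e x))
    (hid : ∀ x ∈ Ioo (0 : ℝ) 1, x ≠ x₀ →
      W x + Ψ' x ≤ (k x + j x - 1) * sq x ^ m +
        μ * (sq x ^ (m - 1) * τ' x ^ (1 / (m : ℝ)) - sq x ^ (m - 1)))
    (hid1 : ∀ x ∈ Ioo (0 : ℝ) 1, x ≠ x₀ →
      e x + Ψ₁' x = (j x - 1) * sq x ^ m +
        μ₁ * (sq x ^ (m - 1) * τ' x ^ (1 / (m : ℝ)) - sq x ^ (m - 1))) :
    ∃ v w : ℝ, AdmGe m A r v ∧ FisGe m r w ∧ 0 < w ∧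
      (1 : ℝ) * ((∫ y in (-1 : ℝ)..1, r y ^ m) / w - 1) * (∫ y in (-1 : ℝ)..1, r y ^ m) < v := by
  have hm1 : 1 ≤ m := by omega
  have hZr := ass_Zr_pos (m := m) hr
  have hZm := ass_Zm_pos m
  obtain ⟨hcon, hcle⟩ := hT.constraint (by omega) hr hN
  have hSi : IntervalIntegrable (fun x => sq x ^ (m - 1)) volume 0 1 :=
    (ass_sq_cont.pow (m - 1)).intervalIntegrable 0 1
  have hsmi : IntervalIntegrable (fun x => sq x ^ m) volume 0 1 :=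
    (ass_sq_cont.pow m).intervalIntegrable 0 1
  -- the two values
  have hIk' : IntervalIntegrable (fun x => (((m : ℝ) + 1) * c x + (τ x * c' x + p' x) / τ' x) *
      sq x ^ m) volume 0 1 := by
    rw [intervalIntegrable_iff_integrableOn_Ioo_of_le zero_le_one] at hIk ⊢
    refine hIk.congr_fun (fun x hx => ?_) measurableSet_Ioo
    simp only
    rw [hk x hx]
  have hIj' : IntervalIntegrable (fun x => (-((m : ℝ) + 1) * q x ^ 2 +
      2 * (q' x / τ' x) * (1 - τ x * q x)) * sq x ^ m) volume 0 1 := by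
    rw [intervalIntegrable_iff_integrableOn_Ioo_of_le zero_le_one] at hIj ⊢
    refine hIj.congr_fun (fun x hx => ?_) measurableSet_Ioo
    simp only
    rw [hj x hx]
  have hv := admGe_integral hm1 hA hr hT hc hc' hp hp' hle hc0 hp0 hc1 hIk'
  have hw := fisGe_integral hm1 hr hT hq hq' hq0 hq1 hIj'
  have ek : ∫ x in (0 : ℝ)..1, (((m : ℝ) + 1) * c x + (τ x * c' x + p' x) / τ' x) * sq x ^ m =
      ∫ x in (0 : ℝ)..1, k x * sq x ^ m := by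
    rw [intervalIntegral.integral_of_le zero_le_one, intervalIntegral.integral_of_le zero_le_one,
      integral_Ioc_eq_integral_Ioo, integral_Ioc_eq_integral_Ioo]
    refine setIntegral_congr_fun measurableSet_Ioo fun x hx => ?_
    rw [hk x hx]
  have ej : ∫ x in (0 : ℝ)..1, (-((m : ℝ) + 1) * q x ^ 2 +
      2 * (q' x / τ' x) * (1 - τ x * q x)) * sq x ^ m = ∫ x in (0 : ℝ)..1, j x * sq x ^ m := by
    rw [intervalIntegral.integral_of_le zero_le_one, intervalIntegral.integral_of_le zero_le_one,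
      integral_Ioc_eq_integral_Ioo, integral_Ioc_eq_integral_Ioo]
    refine setIntegral_congr_fun measurableSet_Ioo fun x hx => ?_
    rw [hj x hx]
  rw [ek] at hv
  rw [ej] at hw
  set Nf : ℝ → ℝ := fun x => sq x ^ (m - 1) * τ' x ^ (1 / (m : ℝ)) - sq x ^ (m - 1) with hNf
  have hNi : IntervalIntegrable Nf volume 0 1 := hcon.sub hSi
  have hN0 : ∫ x in (0 : ℝ)..1, Nf x ≤ 0 := by
    rw [hNf, intervalIntegral.integral_sub hcon hSi]
    linarith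
  set Kh := ∫ x in (0 : ℝ)..1, k x * sq x ^ m with hKh
  set Jh := ∫ x in (0 : ℝ)..1, j x * sq x ^ m with hJh
  set Nh := ∫ x in (0 : ℝ)..1, Nf x with hNh
  set Zm := ∫ x in (0 : ℝ)..1, sq x ^ m with hZmd
  -- continuity
  have hkc : ContinuousOn k (Ioo 0 1) :=
    (ass_E_cont hT hc hc' hp').congr fun x hx => hk x hx
  have hτc : ContinuousOn τ (Ioo 0 1) := fun x hx => (hT.der x hx).continuousAt.continuousWithinAt
  have hqc : ContinuousOn q (Ioo 0 1) := fun x hx => (hq x hx).continuousAt.continuousWithinAt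
  have hjc : ContinuousOn j (Ioo 0 1) := by
    refine ContinuousOn.congr ?_ fun x hx => hj x hx
    exact (continuousOn_const.mul (hqc.pow 2)).add ((continuousOn_const.mul
      (hq'.div hT.cont fun x hx => (hT.pos x hx).ne')).mul (continuousOn_const.sub (hτc.mul hqc)))
  have hNc : ContinuousOn Nf (Ioo 0 1) := ass_K_cont hT
  have hsc : ContinuousOn (fun x => sq x ^ m) (Ioo (0 : ℝ) 1) := (ass_sq_cont.pow m).continuousOn
  -- the family of inequalities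
  have key : ∀ t : ℝ, 0 < (Kh + Jh - Zm + μ * Nh) - (2 * t - t ^ 2) * (Jh - Zm + μ₁ * Nh) +
      t ^ 2 * Zm := by
    intro t
    have h1 := fis_int_pos (F := fun x => (k x * sq x ^ m + j x * sq x ^ m - sq x ^ m + μ * Nf x) -
        (2 * t - t ^ 2) * (j x * sq x ^ m - sq x ^ m + μ₁ * Nf x) + t ^ 2 * ρ x)
      (W := fun x => W x - 2 * t * e x + t ^ 2 * (ρ x + e x))
      (Ψ := fun x => Ψ x - (2 * t - t ^ 2) * Ψ₁ x) (Ψ' := fun x => Ψ' x - (2 * t - t ^ 2) * Ψ₁' x)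
      (x₀ := x₀)
      (((((hkc.mul hsc).add (hjc.mul hsc)).sub hsc).add (continuousOn_const.mul hNc)).sub
        (continuousOn_const.mul (((hjc.mul hsc).sub hsc).add (continuousOn_const.mul hNc))) |>.add
        (continuousOn_const.mul hρ))
      (((((hIk.add hIj).sub hsmi).add (hNi.const_mul μ)).sub
        (((hIj.sub hsmi).add (hNi.const_mul μ₁)).const_mul (2 * t - t ^ 2))).add
        (hρi.const_mul (t ^ 2)))
      (hΨ.sub (continuousOn_const.mul gΨ))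
      (fun x hx hx0 => (hΨd x hx hx0).sub ((gΨd x hx hx0).const_mul _))
      (by simpa using hΨ0.sub (gΨ0.const_mul (2 * t - t ^ 2)))
      (by simpa using hΨ1.sub (gΨ1.const_mul (2 * t - t ^ 2)))
      (fun x hx hx0 => fis_tangent (hpos x hx) (hW x hx hx0))
      (by
        obtain ⟨x, hx, hWc, hec, hlt⟩ := hW1
        have hρx : ContinuousAt ρ x := hρ.continuousAt (isOpen_Ioo.mem_nhds hx)
        exact ⟨x, hx, (hWc.sub (hec.const_mul _)).add ((hρx.add hec).const_mul _),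
          fis_tangent_lt (hpos x hx) hlt⟩)
      (fun x hx hx0 => by
        have h2 := hid x hx hx0
        have h3 := hid1 x hx hx0
        have h4 : (j x - 1) * sq x ^ m + μ₁ * Nf x - (e x + Ψ₁' x) = 0 := by
          rw [h3]
          ring
        have h5 : (k x * sq x ^ m + j x * sq x ^ m - sq x ^ m + μ * Nf x) -
            (2 * t - t ^ 2) * (j x * sq x ^ m - sq x ^ m + μ₁ * Nf x) + t ^ 2 * ρ x -
            (W x - 2 * t * e x + t ^ 2 * (ρ x + e x) + (Ψ' x - (2 * t - t ^ 2) * Ψ₁' x)) =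
            ((k x + j x - 1) * sq x ^ m + μ * Nf x - (W x + Ψ' x)) -
            (2 * t - t ^ 2) * ((j x - 1) * sq x ^ m + μ₁ * Nf x - (e x + Ψ₁' x)) := by ring
        rw [h4, mul_zero, sub_zero] at h5
        have h6 : W x + Ψ' x ≤ (k x + j x - 1) * sq x ^ m + μ * Nf x := h2
        linarith)
    have hIe : ∫ x in (0 : ℝ)..1, ((k x * sq x ^ m + j x * sq x ^ m - sq x ^ m + μ * Nf x) -
        (2 * t - t ^ 2) * (j x * sq x ^ m - sq x ^ m + μ₁ * Nf x) + t ^ 2 * ρ x) =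
        (Kh + Jh - Zm + μ * Nh) - (2 * t - t ^ 2) * (Jh - Zm + μ₁ * Nh) + t ^ 2 * Zm := by
      rw [intervalIntegral.integral_add ((((hIk.add hIj).sub hsmi).add (hNi.const_mul μ)).sub
          (((hIj.sub hsmi).add (hNi.const_mul μ₁)).const_mul (2 * t - t ^ 2)))
          (hρi.const_mul (t ^ 2)),
        intervalIntegral.integral_sub (((hIk.add hIj).sub hsmi).add (hNi.const_mul μ))
          (((hIj.sub hsmi).add (hNi.const_mul μ₁)).const_mul (2 * t - t ^ 2)),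
        intervalIntegral.integral_const_mul, intervalIntegral.integral_const_mul,
        intervalIntegral.integral_add ((hIk.add hIj).sub hsmi) (hNi.const_mul μ),
        intervalIntegral.integral_add (hIj.sub hsmi) (hNi.const_mul μ₁),
        intervalIntegral.integral_sub (hIk.add hIj) hsmi,
        intervalIntegral.integral_sub hIj hsmi,
        intervalIntegral.integral_add hIk hIj, intervalIntegral.integral_const_mul,
        intervalIntegral.integral_const_mul, hρ1]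
    rw [hIe] at h1
    exact h1
  -- positivity of the denominator
  have hA0 : 0 < Jh + μ₁ * Nh := by
    have h1 := fis_int_pos (F := fun x => (j x * sq x ^ m - sq x ^ m + μ₁ * Nf x) + ρ x)
      (W := fun x => ρ x + e x) (Ψ := Ψ₁) (Ψ' := Ψ₁') (x₀ := x₀)
      ((((hjc.mul hsc).sub hsc).add (continuousOn_const.mul hNc)).add hρ)
      (((hIj.sub hsmi).add (hNi.const_mul μ₁)).add hρi) gΨ gΨd gΨ0 gΨ1
      (fun x hx _ => (hpos x hx).le)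
      (by
        obtain ⟨x, hx, hWc, hec, hlt⟩ := hW1
        have hρx : ContinuousAt ρ x := hρ.continuousAt (isOpen_Ioo.mem_nhds hx)
        exact ⟨x, hx, hρx.add hec, hpos x hx⟩)
      (fun x hx hx0 => by
        have h3 := hid1 x hx hx0
        have h4 : (j x - 1) * sq x ^ m + μ₁ * Nf x = e x + Ψ₁' x := h3.symm
        linarith)
    have hIe : ∫ x in (0 : ℝ)..1, ((j x * sq x ^ m - sq x ^ m + μ₁ * Nf x) + ρ x) =
        (Jh - Zm + μ₁ * Nh) + Zm := by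
      rw [intervalIntegral.integral_add ((hIj.sub hsmi).add (hNi.const_mul μ₁)) hρi,
        intervalIntegral.integral_add (hIj.sub hsmi) (hNi.const_mul μ₁),
        intervalIntegral.integral_sub hIj hsmi, intervalIntegral.integral_const_mul, hρ1]
    rw [hIe] at h1
    linarith
  have hk1 := key ((Jh - Zm + μ₁ * Nh) / (Jh + μ₁ * Nh))
  have hkk : (2 * ((Jh - Zm + μ₁ * Nh) / (Jh + μ₁ * Nh)) -
      ((Jh - Zm + μ₁ * Nh) / (Jh + μ₁ * Nh)) ^ 2) * (Jh - Zm + μ₁ * Nh) -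
      ((Jh - Zm + μ₁ * Nh) / (Jh + μ₁ * Nh)) ^ 2 * Zm =
      (Jh - Zm + μ₁ * Nh) ^ 2 / (Jh + μ₁ * Nh) := by
    field_simp
    ring
  obtain ⟨hJ0, hq2⟩ := fis_quad (x := Kh + Jh - Zm) (a := Jh - Zm + μ₁ * Nh)
    (A := Jh + μ₁ * Nh) (b := -(μ₁ * Nh)) hA0 (by nlinarith) (by nlinarith)
  have e1 : Jh + μ₁ * Nh + -(μ₁ * Nh) = Jh := by ring
  have e2 : Jh - Zm + μ₁ * Nh + -(μ₁ * Nh) = Jh - Zm := by ring
  rw [e1] at hJ0 hq2
  rw [e2] at hq2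
  set Zr := ∫ t in (0 : ℝ)..1, r t ^ m with hZrd
  have hI2 : ∫ y in (-1 : ℝ)..1, r y ^ m = 2 * Zr := by
    rw [hZrd]
    exact integral_even_eq (fun y => by simp only [hr.even])
      (Alm.prof_pow_ii hr m ⟨le_rfl, zero_le_one⟩ ⟨zero_le_one, le_rfl⟩)
  refine ⟨_, _, hv, hw, by positivity, ?_⟩
  rw [hI2]
  have e3 : 2 * Zr / (2 * (Zr / Zm) * Jh) = Zm / Jh := by field_simp
  rw [e3]
  have e4 : 2 * (Zr / Zm) * Kh - 1 * (Zm / Jh - 1) * (2 * Zr) =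
      2 * (Zr / Zm) * ((Kh + Jh - Zm) - (Jh - Zm) ^ 2 / Jh) := by
    field_simp
    ring
  have h5 : 0 < 2 * (Zr / Zm) * ((Kh + Jh - Zm) - (Jh - Zm) ^ 2 / Jh) := by
    have : 0 < (Kh + Jh - Zm) - (Jh - Zm) ^ 2 / Jh := by linarith
    positivity
  linarith

end Vale.Agent.P237.AllN
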