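import Vale.Agent.P237.AllN.Brid5
import Vale.Agent.P237.AllN.FisC

/-!
# P237, all dimensions: the Fisher type functional with the test `x²/τ`
-/

open MeasureTheory Metric Set Module Filter Topology

namespace Vale.Agent.P237.AllN

/-- test function `x²/τ` -/
noncomputable def jq (τ : ℝ → ℝ) (x : ℝ) : ℝ := x ^ 2 / τ x

/-- its derivative -/
noncomputable def jq' (τ τ' : ℝ → ℝ) (x : ℝ) : ℝ := 2 * x / τ x - x ^ 2 * τ' x / τ x ^ 2

/-- integrand of the Fisher type functional -/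
noncomputable def jF (m : ℕ) (τ τ' : ℝ → ℝ) (x : ℝ) : ℝ :=
  -((m : ℝ) + 1) * jq τ x ^ 2 + 2 * (jq' τ τ' x / τ' x) * (1 - τ x * jq τ x)

section

variable {m : ℕ} {r τ τ' T : ℝ → ℝ} {x : ℝ}

theorem jq_der (h : IsTrans m r τ τ' T) (hx : x ∈ Ioo (0 : ℝ) 1) :
    HasDerivAt (jq τ) (jq' τ τ' x) x := by
  have h1 := tr_pos h hx
  have e0 : HasDerivAt (fun x : ℝ => x ^ 2) (2 * x) x := by simpa using hasDerivAt_pow 2 x
  refine (e0.div (h.der x hx) h1.ne').congr_deriv ?_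
  unfold jq'
  field_simp

theorem jq_eq (h : IsTrans m r τ τ' T) (hx : x ∈ Ioo (0 : ℝ) 1) :
    jq τ x = x * Real.exp (-lf τ x) := by
  unfold jq
  rw [Real.exp_neg, exp_lf h hx]
  have h1 := (tr_pos h hx).ne'
  have h2 := hx.1.ne'
  field_simp

theorem jq_cont (h : IsTrans m r τ τ' T) : ContinuousOn (jq τ) (Ioo 0 1) :=
  fun _ hx => (jq_der h hx).continuousAt.continuousWithinAt

theorem jq'_cont (h : IsTrans m r τ τ' T) : ContinuousOn (jq' τ τ') (Ioo 0 1) := by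
  have h1 := tau_cont h
  have h2 := h.cont
  have hid : ContinuousOn (fun x : ℝ => x) (Ioo (0 : ℝ) 1) := continuousOn_id
  unfold jq'
  exact ((continuousOn_const.mul hid).div h1 fun x hx => (tr_pos h hx).ne').sub
    (((hid.pow 2).mul h2).div (h1.pow 2) fun x hx => (pow_pos (tr_pos h hx) 2).ne')

theorem jq_le (hm : 1 ≤ m) (hr : IsProf r) (h : IsTrans m r τ τ' T) :
    ∃ C : ℝ, 0 ≤ C ∧ ∀ x ∈ Ioo (0 : ℝ) 1, |jq τ x| ≤ C * x := by
  obtain ⟨C, hC, hb⟩ := lf_bdd hm hr h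
  refine ⟨Real.exp C, (Real.exp_pos _).le, fun x hx => ?_⟩
  rw [jq_eq h hx, abs_mul, abs_of_pos hx.1, abs_of_pos (Real.exp_pos _), mul_comm]
  apply mul_le_mul_of_nonneg_right _ hx.1.le
  apply Real.exp_le_exp.2
  have := (abs_le.1 (hb x hx)).1
  linarith

theorem jq_tendsto_zero (hm : 1 ≤ m) (hr : IsProf r) (h : IsTrans m r τ τ' T) :
    Tendsto (jq τ) (𝓝[>] 0) (𝓝 0) := by
  obtain ⟨C, hC, hb⟩ := jq_le hm hr h
  have h1 : Tendsto (fun x : ℝ => C * x) (𝓝[>] 0) (𝓝 0) := by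
    have : Tendsto (fun x : ℝ => C * x) (𝓝 0) (𝓝 (C * 0)) :=
      (continuous_const.mul continuous_id).tendsto 0
    rw [mul_zero] at this
    exact this.mono_left nhdsWithin_le_nhds
  refine squeeze_zero_norm' ?_ h1
  filter_upwards [Ioo_mem_nhdsGT (zero_lt_one' ℝ)] with x hx
  exact hb x hx

theorem jq_bdd (hm : 1 ≤ m) (hr : IsProf r) (h : IsTrans m r τ τ' T) :
    ∃ C : ℝ, ∀ x ∈ Ioo (1 / 2 : ℝ) 1, |jq τ x| ≤ C := by
  obtain ⟨C, hC, hb⟩ := jq_le hm hr h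
  refine ⟨C, fun x hx => (hb x ⟨by linarith [hx.1], hx.2⟩).trans ?_⟩
  nlinarith [hx.2]

/-- closed form of the integrand -/
theorem jF_eq (h : IsTrans m r τ τ' T) (hx : x ∈ Ioo (0 : ℝ) 1) :
    jF m τ τ' x = Real.exp (-(2 * lf τ x)) * (-((m : ℝ) + 1) * x ^ 2 +
      2 * sq x ^ 2 * (2 / (1 + uf τ τ' x) - 1)) := by
  have h1 := (tr_pos h hx).ne'
  have h2 := hx.1.ne'
  have h3 := (uf_pos h hx).ne'
  have h4 := (h.pos x hx).ne'
  have e1 : Real.exp (-(2 * lf τ x)) = x ^ 2 / τ x ^ 2 := by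
    rw [show -(2 * lf τ x) = -lf τ x + -lf τ x by ring, Real.exp_add, Real.exp_neg, exp_lf h hx]
    field_simp
  have e2 : 1 + uf τ τ' x = x * τ' x / τ x := by unfold uf; ring
  have hs := sqx_sq hx
  rw [e1, e2]
  unfold jF jq' jq
  have e3 : 1 - τ x * (x ^ 2 / τ x) = sq x ^ 2 := by
    rw [mul_div_cancel₀ _ h1, hs]
    ring
  rw [e3]
  field_simp

theorem jF_cont (h : IsTrans m r τ τ' T) : ContinuousOn (jF m τ τ') (Ioo 0 1) := by
  unfold jF
  exact (continuousOn_const.mul ((jq_cont h).pow 2)).add ((continuousOn_const.mul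
    ((jq'_cont h).div h.cont fun x hx => (h.pos x hx).ne')).mul
      (continuousOn_const.sub ((tau_cont h).mul (jq_cont h))))

/-- `s^m/(1+u)` is bounded -/
theorem pow_div_bdd (hm : 1 ≤ m) (hr : IsProf r) (h : IsTrans m r τ τ' T) :
    ∃ C : ℝ, 0 ≤ C ∧ ∀ x ∈ Ioo (0 : ℝ) 1, |sq x ^ m / (1 + uf τ τ' x)| ≤ C := by
  obtain ⟨C, hC, hb⟩ := lf_bdd hm hr h
  have hZr := ass_Zr_pos (m := m) hr
  have hZm := ass_Zm_pos m
  have hr0 : 0 ≤ r 0 := Alm.prof_nn hr ⟨le_rfl, zero_le_one⟩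
  refine ⟨Real.exp C * (r 0 ^ m * (∫ t in (0 : ℝ)..1, sq t ^ m) / ∫ t in (0 : ℝ)..1, r t ^ m),
    by positivity, fun x hx => ?_⟩
  have h1 := tr_pos h hx
  have h4 := h.pos x hx
  have hs := sqx_pos hx
  have e2 : 1 + uf τ τ' x = x * τ' x / τ x := by unfold uf; ring
  have he := h.eqn x hx
  have e : sq x ^ m / (1 + uf τ τ' x) = (τ x / x) * (r (τ x) ^ m *
      (∫ t in (0 : ℝ)..1, sq t ^ m) / ∫ t in (0 : ℝ)..1, r t ^ m) := by
    rw [e2]
    have h2 := hx.1.ne'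
    rw [div_div_eq_mul_div, mul_div_assoc', div_eq_div_iff (by positivity) hZr.ne']
    field_simp
    linear_combination (-(1:ℝ)) * he
  have hrt : 0 ≤ r (τ x) := Alm.prof_nn hr ⟨(h.mem x hx).1.le, (h.mem x hx).2.le⟩
  have hle : r (τ x) ≤ r 0 := Alm.prof_le_zero hr ⟨(h.mem x hx).1.le, (h.mem x hx).2.le⟩
  rw [e, abs_mul, abs_of_pos (div_pos h1 hx.1), abs_of_nonneg (by positivity)]
  refine mul_le_mul ?_ ?_ (by positivity) (Real.exp_pos _).le
  · rw [← exp_lf h hx]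
    exact Real.exp_le_exp.2 (abs_le.1 (hb x hx)).2
  · apply div_le_div_of_nonneg_right _ hZr.le
    apply mul_le_mul_of_nonneg_right _ hZm.le
    exact pow_le_pow_left₀ hrt hle m

theorem jF_ii (hm : 1 ≤ m) (hr : IsProf r) (h : IsTrans m r τ τ' T) :
    IntervalIntegrable (fun x => jF m τ τ' x * sq x ^ m) volume 0 1 := by
  obtain ⟨C, hC, hb⟩ := lf_bdd hm hr h
  obtain ⟨D, hD, hd⟩ := pow_div_bdd hm hr h
  have hs1 := br_sq_le_one
  rw [intervalIntegrable_iff_integrableOn_Ioo_of_le zero_le_one]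
  have hc : ContinuousOn (fun x => jF m τ τ' x * sq x ^ m) (Ioo 0 1) :=
    (jF_cont h).mul (br_sq_cont.pow m).continuousOn
  refine Integrable.of_bound (hc.aestronglyMeasurable measurableSet_Ioo)
    (Real.exp (2 * C) * (((m : ℝ) + 1) + 2 * (2 * D + 1))) ?_
  · refine (ae_restrict_mem measurableSet_Ioo).mono fun x hx => ?_
    have hs := sqx_pos hx
    have hsp : 0 ≤ sq x ^ m := pow_nonneg hs.le m
    have hsp1 : sq x ^ m ≤ 1 := pow_le_one₀ hs.le (hs1 x)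
    have hs2 : sq x ^ 2 ≤ 1 := pow_le_one₀ hs.le (hs1 x)
    have hx2 : x ^ 2 ≤ 1 := pow_le_one₀ hx.1.le hx.2.le
    rw [jF_eq h hx, Real.norm_eq_abs]
    have e : Real.exp (-(2 * lf τ x)) * (-((m : ℝ) + 1) * x ^ 2 +
        2 * sq x ^ 2 * (2 / (1 + uf τ τ' x) - 1)) * sq x ^ m =
        Real.exp (-(2 * lf τ x)) * (-(((m : ℝ) + 1) * (x ^ 2 * sq x ^ m)) +
        2 * (sq x ^ 2 * (2 * (sq x ^ m / (1 + uf τ τ' x)) - sq x ^ m))) := by
      have h3 := (uf_pos h hx).ne'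
      field_simp
    rw [e, abs_mul, abs_of_pos (Real.exp_pos _)]
    have h1 : Real.exp (-(2 * lf τ x)) ≤ Real.exp (2 * C) := by
      apply Real.exp_le_exp.2
      have := (abs_le.1 (hb x hx)).1
      linarith
    refine mul_le_mul h1 ?_ (abs_nonneg _) (Real.exp_pos _).le
    refine (abs_add_le _ _).trans (add_le_add ?_ ?_)
    · rw [abs_neg, abs_of_nonneg (by positivity)]
      have : x ^ 2 * sq x ^ m ≤ 1 := by nlinarith [sq_nonneg x]
      nlinarith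
    · rw [abs_mul, abs_two, abs_mul, abs_of_nonneg (sq_nonneg (sq x))]
      have h5 : |2 * (sq x ^ m / (1 + uf τ τ' x)) - sq x ^ m| ≤ 2 * D + 1 := by
        refine (abs_sub _ _).trans ?_
        rw [abs_mul, abs_two, abs_of_nonneg hsp]
        linarith [hd x hx]
      have h6 : sq x ^ 2 * |2 * (sq x ^ m / (1 + uf τ τ' x)) - sq x ^ m| ≤ 1 * (2 * D + 1) :=
        mul_le_mul hs2 h5 (abs_nonneg _) zero_le_one
      linarith

/-! ### the potential -/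

/-- derivative of `x s^m` -/
theorem xs_der (m : ℕ) (hx : x ∈ Ioo (0 : ℝ) 1) :
    HasDerivAt (fun x => x * sq x ^ m) (sq x ^ m * (1 - (m : ℝ) * (x ^ 2 / sq x ^ 2))) x := by
  have hs := sqx_pos hx
  have hd := sqx_der hx
  rcases Nat.eq_zero_or_pos m with rfl | hm
  · simpa using hasDerivAt_id' x
  · obtain ⟨n, rfl⟩ := Nat.exists_eq_add_of_le' hm
    refine ((hasDerivAt_id x).mul (hd.pow (n + 1))).congr_deriv ?_
    simp only [Pi.pow_apply, id, Nat.add_sub_cancel]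
    push_cast
    rw [pow_succ]
    field_simp
    ring

/-- derivative of a null primitive `x s^m H` -/
theorem null_der (m : ℕ) (hx : x ∈ Ioo (0 : ℝ) 1) {H : ℝ → ℝ} {H' : ℝ} (hH : HasDerivAt H H' x) :
    HasDerivAt (fun x => x * sq x ^ m * H x)
      (sq x ^ m * ((1 - (m : ℝ) * (x ^ 2 / sq x ^ 2)) * H x + x * H')) x := by
  refine ((xs_der m hx).mul hH).congr_deriv ?_
  ring

/-- potential of the Fisher part: `x s^m (2 s² e^(-2l) - s²)` -/
noncomputable def jΨ (m : ℕ) (τ : ℝ → ℝ) (x : ℝ) : ℝ :=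
  x * sq x ^ m * (2 * sq x ^ 2 * Real.exp (-(2 * lf τ x)) - sq x ^ 2)

/-- its derivative -/
noncomputable def jΨ' (m : ℕ) (τ τ' : ℝ → ℝ) (x : ℝ) : ℝ :=
  sq x ^ m * ((1 - (m : ℝ) * (x ^ 2 / sq x ^ 2)) *
    (2 * sq x ^ 2 * Real.exp (-(2 * lf τ x)) - sq x ^ 2) +
    (-(4 * x ^ 2 * Real.exp (-(2 * lf τ x))) - 4 * sq x ^ 2 * Real.exp (-(2 * lf τ x)) * uf τ τ' x +
      2 * x ^ 2))

theorem sq2_der (hx : x ∈ Ioo (0 : ℝ) 1) : HasDerivAt (fun x => sq x ^ 2) (-(2 * x)) x := by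
  refine ((sqx_der hx).pow 2).congr_deriv ?_
  have := (sqx_pos hx).ne'
  simp only [Nat.add_one_sub_one, pow_one]
  push_cast
  field_simp

theorem jΨ_der (h : IsTrans m r τ τ' T) (hx : x ∈ Ioo (0 : ℝ) 1) :
    HasDerivAt (jΨ m τ) (jΨ' m τ τ' x) x := by
  have hl := lf_hasDerivAt h hx
  have h2 := sq2_der hx
  have he : HasDerivAt (fun x => Real.exp (-(2 * lf τ x)))
      (Real.exp (-(2 * lf τ x)) * (-(2 * (uf τ τ' x / x)))) x := ((hl.const_mul 2).fun_neg).exp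
  have e0 : HasDerivAt (fun x => 2 * sq x ^ 2 * Real.exp (-(2 * lf τ x)) - sq x ^ 2)
      (2 * (-(2 * x)) * Real.exp (-(2 * lf τ x)) + 2 * sq x ^ 2 *
        (Real.exp (-(2 * lf τ x)) * (-(2 * (uf τ τ' x / x)))) - -(2 * x)) x :=
    ((h2.const_mul 2).mul he).sub h2
  refine (null_der m hx e0).congr_deriv ?_
  unfold jΨ'
  have hx0 := hx.1.ne'
  have e1 : x * (2 * (-(2 * x)) * Real.exp (-(2 * lf τ x)) + 2 * sq x ^ 2 *
        (Real.exp (-(2 * lf τ x)) * (-(2 * (uf τ τ' x / x)))) - -(2 * x)) =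
      -(4 * x ^ 2 * Real.exp (-(2 * lf τ x))) -
        4 * sq x ^ 2 * Real.exp (-(2 * lf τ x)) * uf τ τ' x + 2 * x ^ 2 := by
    field_simp
    ring
  rw [e1]

/-- **identity of the Fisher part** -/
theorem jF_identity (h : IsTrans m r τ τ' T) (hx : x ∈ Ioo (0 : ℝ) 1) :
    (jF m τ τ' x - 1) * sq x ^ m = sq x ^ m * (((m : ℝ) + 3) * x ^ 2 *
      (Real.exp (-(2 * lf τ x)) - 1) + 4 * sq x ^ 2 * Real.exp (-(2 * lf τ x)) *
      (uf τ τ' x ^ 2 / (1 + uf τ τ' x))) + jΨ' m τ τ' x := by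
  rw [jF_eq h hx]
  have hs := (sqx_pos hx).ne'
  have hu := (uf_pos h hx).ne'
  have hxs := sqx_sq hx
  unfold jΨ'
  rw [hxs]
  field_simp
  ring

/-- limits of a null primitive -/
theorem null_tendsto_zero {H : ℝ → ℝ} {C : ℝ} (m : ℕ)
    (hH : ∀ x ∈ Ioo (0 : ℝ) (1 / 2), |H x| ≤ C) :
    Tendsto (fun x => x * sq x ^ m * H x) (𝓝[>] 0) (𝓝 0) := by
  have h1 : Tendsto (fun x : ℝ => x * C) (𝓝[>] 0) (𝓝 0) := by
    have : Tendsto (fun x : ℝ => x * C) (𝓝 0) (𝓝 (0 * C)) :=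
      (continuous_id.mul continuous_const).tendsto 0
    rw [zero_mul] at this
    exact this.mono_left nhdsWithin_le_nhds
  refine squeeze_zero_norm' ?_ h1
  filter_upwards [Ioo_mem_nhdsGT (by norm_num : (0 : ℝ) < 1 / 2)] with x hx
  have hs := br_sq_nonneg x
  have hp : sq x ^ m ≤ 1 := pow_le_one₀ hs (br_sq_le_one x)
  rw [Real.norm_eq_abs, abs_mul, abs_mul, abs_of_pos hx.1, abs_of_nonneg (pow_nonneg hs m)]
  have h2 := hH x hx
  have h3 : sq x ^ m * |H x| ≤ 1 * C := mul_le_mul hp h2 (abs_nonneg _) zero_le_one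
  rw [mul_assoc]
  exact mul_le_mul_of_nonneg_left (by linarith) hx.1.le

theorem null_tendsto_one {H : ℝ → ℝ} {C : ℝ} {m k : ℕ} (hk : k < m)
    (hH : ∀ x ∈ Ioo (0 : ℝ) 1, |H x| * sq x ^ k ≤ C) :
    Tendsto (fun x => x * sq x ^ m * H x) (𝓝[<] 1) (𝓝 0) := by
  have h1 : Tendsto (fun x => sq x * C) (𝓝[<] 1) (𝓝 0) := by
    have := sq_tendsto_one.mul_const C
    rwa [zero_mul] at this
  refine squeeze_zero_norm' ?_ h1
  filter_upwards [Ioo_mem_nhdsLT (zero_lt_one' ℝ)] with x hx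
  have hs := sqx_pos hx
  have hs1 := br_sq_le_one x
  obtain ⟨n, rfl⟩ := Nat.exists_eq_add_of_lt hk
  rw [Real.norm_eq_abs, abs_mul, abs_mul, abs_of_pos hx.1, abs_of_nonneg (pow_nonneg hs.le _)]
  have h2 := hH x hx
  have hC : 0 ≤ C := le_trans (by positivity) h2
  have e : x * sq x ^ (k + n + 1) * |H x| = (x * sq x ^ n) * (sq x * (|H x| * sq x ^ k)) := by ring
  rw [e]
  have h3 : x * sq x ^ n ≤ 1 := by
    have := pow_le_one₀ (n := n) hs.le hs1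
    nlinarith [hx.1, hx.2, pow_nonneg hs.le n]
  have h4 : sq x * (|H x| * sq x ^ k) ≤ sq x * C := mul_le_mul_of_nonneg_left h2 hs.le
  calc (x * sq x ^ n) * (sq x * (|H x| * sq x ^ k)) ≤ 1 * (sq x * (|H x| * sq x ^ k)) :=
        mul_le_mul_of_nonneg_right h3 (by positivity)
    _ ≤ sq x * C := by rw [one_mul]; exact h4

end

end Vale.Agent.P237.AllN
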