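import Vale.Agent.P237.AllN.KerF

/-!
# P237, all dimensions: convex hybrid lines for `kF`

`S(a,b) = φ(b) - φ(a) + H(ab) log(b/a)`, `φ(t) = Σ_{k=2..6} κ_k t^(2k)/(2k)`,
`H(z) = K(z) - Σ_{k=2..6} κ_k z^k`, `κ = 3/4, 5/8, 35/64, 63/128, 231/512`.
For every contact `q ≤ a < 1` the tangent line of `S(a,·)` at `q` is below `kF a ·` on `[-1,1]`.
-/

open MeasureTheory Metric Set Module Filter Topology

namespace Vale.Agent.P237.AllN

open PolyPos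

noncomputable def hφ (t : ℝ) : ℝ :=
  3 / 16 * t ^ 4 + 5 / 48 * t ^ 6 + 35 / 512 * t ^ 8 + 63 / 1280 * t ^ 10 + 77 / 2048 * t ^ 12

noncomputable def hφ1 (t : ℝ) : ℝ :=
  3 / 4 * t ^ 3 + 5 / 8 * t ^ 5 + 35 / 64 * t ^ 7 + 63 / 128 * t ^ 9 + 231 / 512 * t ^ 11

noncomputable def hφ2 (t : ℝ) : ℝ :=
  9 / 4 * t ^ 2 + 25 / 8 * t ^ 4 + 245 / 64 * t ^ 6 + 567 / 128 * t ^ 8 + 2541 / 512 * t ^ 10

noncomputable def hK (z : ℝ) : ℝ :=
  fK z - (3 / 4 * z ^ 2 + 5 / 8 * z ^ 3 + 35 / 64 * z ^ 4 + 63 / 128 * z ^ 5 + 231 / 512 * z ^ 6)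

noncomputable def hK1 (z : ℝ) : ℝ :=
  fK1 z - (3 / 2 * z + 15 / 8 * z ^ 2 + 35 / 16 * z ^ 3 + 315 / 128 * z ^ 4 + 693 / 256 * z ^ 5)

noncomputable def hK2 (z : ℝ) : ℝ :=
  fK2 z - (3 / 2 + 15 / 4 * z + 105 / 16 * z ^ 2 + 315 / 32 * z ^ 3 + 3465 / 256 * z ^ 4)

theorem hφ_hasDerivAt (t : ℝ) : HasDerivAt hφ (hφ1 t) t := by
  have h := (((((hasDerivAt_pow 4 t).const_mul (3 / 16)).add
    ((hasDerivAt_pow 6 t).const_mul (5 / 48))).add
    ((hasDerivAt_pow 8 t).const_mul (35 / 512))).add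
    ((hasDerivAt_pow 10 t).const_mul (63 / 1280))).add
    ((hasDerivAt_pow 12 t).const_mul (77 / 2048))
  refine h.congr_deriv ?_
  unfold hφ1
  norm_num
  ring

theorem hφ1_hasDerivAt (t : ℝ) : HasDerivAt hφ1 (hφ2 t) t := by
  have h := (((((hasDerivAt_pow 3 t).const_mul (3 / 4)).add
    ((hasDerivAt_pow 5 t).const_mul (5 / 8))).add
    ((hasDerivAt_pow 7 t).const_mul (35 / 64))).add
    ((hasDerivAt_pow 9 t).const_mul (63 / 128))).add
    ((hasDerivAt_pow 11 t).const_mul (231 / 512))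
  refine h.congr_deriv ?_
  unfold hφ2
  norm_num
  ring

theorem hK_hasDerivAt {z : ℝ} (hz : z < 1) : HasDerivAt hK (hK1 z) z := by
  have h := (fK_hasDerivAt hz).sub ((((((hasDerivAt_pow 2 z).const_mul (3 / 4)).add
    ((hasDerivAt_pow 3 z).const_mul (5 / 8))).add
    ((hasDerivAt_pow 4 z).const_mul (35 / 64))).add
    ((hasDerivAt_pow 5 z).const_mul (63 / 128))).add
    ((hasDerivAt_pow 6 z).const_mul (231 / 512)))
  refine h.congr_deriv ?_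
  unfold hK1
  norm_num
  ring

theorem hK1_hasDerivAt {z : ℝ} (hz : z < 1) : HasDerivAt hK1 (hK2 z) z := by
  have h := (fK1_hasDerivAt hz).sub ((((((hasDerivAt_id z).const_mul (3 / 2)).add
    ((hasDerivAt_pow 2 z).const_mul (15 / 8))).add
    ((hasDerivAt_pow 3 z).const_mul (35 / 16))).add
    ((hasDerivAt_pow 4 z).const_mul (315 / 128))).add
    ((hasDerivAt_pow 5 z).const_mul (693 / 256)))
  refine h.congr_deriv ?_
  unfold hK2
  norm_num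
  ring

theorem kH_data : KData hK hK1 hK2 hφ hφ1 hφ2 where
  hK := fun _ h => hK_hasDerivAt h
  hK1 := fun _ h => hK1_hasDerivAt h
  hφ := hφ_hasDerivAt
  hφ1 := hφ1_hasDerivAt

/-! ## evaluation of the polynomials -/

theorem ev_fz (s : ℝ) : ev1 fz s = 1 - s ^ 2 := by
  simp only [fz, ev1_cons, ev1_nil]; push_cast; ring

theorem ev_fs (s : ℝ) : ev1 fs s = s := by
  simp only [fs, ev1_cons, ev1_nil]; push_cast; ring

theorem ev_fN (s : ℝ) : ev1 fN s = 30 - 39 * s ^ 2 + 10 * s ^ 4 := by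
  simp only [fN, ev1_cons, ev1_nil]; push_cast; ring

theorem ev_fD (s : ℝ) : ev1 fD s = 10 - 8 * s ^ 2 + s ^ 4 := by
  simp only [fD, ev1_cons, ev1_nil]; push_cast; ring

section
variable {s : ℝ}

theorem ev_fH0 (h0 : 0 < s) : ev1 fH0 s = 512 * s ^ 3 * hK (1 - s ^ 2) := by
  unfold hK
  rw [fK_eq h0]
  simp only [fH0, fA0, ev1_padd, ev1_psm, ev1_pmul, ev1_ppow, ev_fz, ev_fs, ev1_cons, ev1_nil]
  push_cast
  field_simp
  ring

theorem ev_fH1 (h0 : 0 < s) : ev1 fH1 s = 512 * s ^ 3 * hK1 (1 - s ^ 2) := by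
  unfold hK1
  rw [fK1_eq h0]
  simp only [fH1, fA1, ev1_padd, ev1_psm, ev1_pmul, ev1_ppow, ev_fz, ev_fs, ev1_cons, ev1_nil]
  push_cast
  field_simp
  ring

theorem ev_fH2 (h0 : 0 < s) : ev1 fH2 s = 512 * s ^ 5 * hK2 (1 - s ^ 2) := by
  unfold hK2
  rw [fK2_eq h0]
  simp only [fH2, fA2, ev1_padd, ev1_psm, ev1_pmul, ev1_ppow, ev_fz, ev_fs, ev1_cons, ev1_nil]
  push_cast
  field_simp
  ring

theorem hK1_nonneg (h0 : 0 < s) (h1 : s < 1) : 0 ≤ hK1 (1 - s ^ 2) := by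
  have h := fH1_nonneg h0.le h1
  rw [ev_fH1 h0] at h
  exact nonneg_of_mul_nonneg_right h (by positivity)

theorem hK2_nonneg (h0 : 0 < s) (h1 : s < 1) : 0 ≤ hK2 (1 - s ^ 2) := by
  have h := fH2_nonneg h0.le h1
  rw [ev_fH2 h0] at h
  exact nonneg_of_mul_nonneg_right h (by positivity)

end

/-- (C1) -/
theorem kH_C1 {z : ℝ} (h0 : 0 < z) (h1 : z < 1) :
    z ^ 2 * hK2 z * -Real.log z ≤
      9 / 4 * z ^ 4 + 25 / 8 * z ^ 6 + 245 / 64 * z ^ 8 + 567 / 128 * z ^ 10 +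
      2 * (z * hK1 z) - hK z := by
  obtain ⟨s, hs0, hs1, rfl⟩ := exists_s h0 h1
  have hX := hK2_nonneg hs0 hs1
  have hX' : 0 ≤ (1 - s ^ 2) ^ 2 * hK2 (1 - s ^ 2) := by positivity
  have hL := mul_le_mul_of_nonneg_left (neg_log_le hs0 hs1) hX'
  refine hL.trans ?_
  have hp := fP1_nonneg hs0.le hs1
  simp only [fP1, fB1, ev1_padd, ev1_psm, ev1_pmul, ev1_ppow, ev_fz, ev_fs, ev_fN, ev_fD,
    ev_fH0 hs0, ev_fH1 hs0, ev_fH2 hs0] at hp
  push_cast at hp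
  have hD : (0 : ℝ) < 10 - 8 * s ^ 2 + s ^ 4 := by nlinarith only [h0]
  obtain ⟨D, hDe⟩ : ∃ D, D = 10 - 8 * s ^ 2 + s ^ 4 := ⟨_, rfl⟩
  obtain ⟨N, hNe⟩ : ∃ N, N = 30 - 39 * s ^ 2 + 10 * s ^ 4 := ⟨_, rfl⟩
  obtain ⟨H0, hH0⟩ : ∃ H, H = hK (1 - s ^ 2) := ⟨_, rfl⟩
  obtain ⟨H1, hH1⟩ : ∃ H, H = hK1 (1 - s ^ 2) := ⟨_, rfl⟩
  obtain ⟨H2, hH2⟩ : ∃ H, H = hK2 (1 - s ^ 2) := ⟨_, rfl⟩
  obtain ⟨z, hz⟩ : ∃ z, z = 1 - s ^ 2 := ⟨_, rfl⟩
  rw [← hDe, ← hNe, ← hH0, ← hH1, ← hH2, ← hz] at hp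
  rw [← hDe] at hD
  rw [← hDe, ← hNe, ← hH0, ← hH1, ← hH2, ← hz]
  rw [← hz] at h0
  rw [← sub_nonneg]
  have e : 9 / 4 * z ^ 4 + 25 / 8 * z ^ 6 + 245 / 64 * z ^ 8 + 567 / 128 * z ^ 10 +
      2 * (z * H1) - H0 - z ^ 2 * H2 * (s ^ 2 * N / (3 * z * D)) =
      (3 * (D * (s ^ 3 * (1152 * z ^ 4 + (1600 * z ^ 6 + (1960 * z ^ 8 + 2268 * z ^ 10))) +
        (2 * (z * (512 * s ^ 3 * H1)) + -1 * (512 * s ^ 3 * H0)))) +
        -1 * (N * (z * (512 * s ^ 5 * H2)))) / (3 * 512 * s ^ 3 * D) := by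
    field_simp
    ring
  rw [e]
  (clear * - hp hs0 hD; positivity)

/-- (C2) -/
theorem kH_C2 {z : ℝ} (h0 : 0 < z) (h1 : z < 1) :
    z * hK1 z * -Real.log z - hK z ≤
      3 / 4 * z ^ 4 + 5 / 8 * z ^ 6 + 35 / 64 * z ^ 8 + 63 / 128 * z ^ 10 := by
  obtain ⟨s, hs0, hs1, rfl⟩ := exists_s h0 h1
  have hX := hK1_nonneg hs0 hs1
  have hX' : 0 ≤ (1 - s ^ 2) * hK1 (1 - s ^ 2) := by positivity
  have hL := mul_le_mul_of_nonneg_left (neg_log_le hs0 hs1) hX'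
  refine (sub_le_sub_right hL _).trans ?_
  have hp := fP2_nonneg hs0.le hs1
  simp only [fP2, fB2, ev1_padd, ev1_psm, ev1_pmul, ev1_ppow, ev_fz, ev_fs, ev_fN, ev_fD,
    ev_fH0 hs0, ev_fH1 hs0] at hp
  push_cast at hp
  have hD : (0 : ℝ) < 10 - 8 * s ^ 2 + s ^ 4 := by (clear * - hs0 hs1 h0; nlinarith [sq_nonneg (s ^ 2)])
  obtain ⟨D, hDe⟩ : ∃ D, D = 10 - 8 * s ^ 2 + s ^ 4 := ⟨_, rfl⟩
  obtain ⟨N, hNe⟩ : ∃ N, N = 30 - 39 * s ^ 2 + 10 * s ^ 4 := ⟨_, rfl⟩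
  obtain ⟨H0, hH0⟩ : ∃ H, H = hK (1 - s ^ 2) := ⟨_, rfl⟩
  obtain ⟨H1, hH1⟩ : ∃ H, H = hK1 (1 - s ^ 2) := ⟨_, rfl⟩
  obtain ⟨z, hz⟩ : ∃ z, z = 1 - s ^ 2 := ⟨_, rfl⟩
  rw [← hDe, ← hNe, ← hH0, ← hH1, ← hz] at hp
  rw [← hDe] at hD
  rw [← hDe, ← hNe, ← hH0, ← hH1, ← hz]
  rw [← hz] at h0
  rw [← sub_nonneg]
  have e : 3 / 4 * z ^ 4 + 5 / 8 * z ^ 6 + 35 / 64 * z ^ 8 + 63 / 128 * z ^ 10 -
      (z * H1 * (s ^ 2 * N / (3 * z * D)) - H0) =
      (3 * (D * (s ^ 3 * (384 * z ^ 4 + (320 * z ^ 6 + (280 * z ^ 8 + 252 * z ^ 10))) +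
        512 * s ^ 3 * H0)) +
        -1 * (N * (s ^ 2 * (512 * s ^ 3 * H1)))) / (3 * 512 * s ^ 3 * D) := by
    field_simp
    ring
  rw [e]
  (clear * - hp hs0 hD; positivity)

/-! ## the hybrid lines -/

/-- intercept of the hybrid line with contact `q` -/
noncomputable def kHc (a q : ℝ) : ℝ := gC hK hK1 hφ hφ1 a q

/-- slope of the hybrid line with contact `q` -/
noncomputable def kHp (a q : ℝ) : ℝ := gD hK hK1 hφ1 a q

theorem kH_gV_deriv {a b : ℝ} (ha : 0 < a) (hb : 0 < b) (hab : a * b < 1) :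
    HasDerivAt (gV hK hφ a) (kHp a b) b := by
  have h := gV_has kH_data (hasDerivAt_const b a) (hasDerivAt_id b) ha hb hab
  refine h.congr_deriv ?_
  simp [kHp]

theorem kHp_deriv {a b : ℝ} (ha : 0 < a) (hb : 0 < b) (hab : a * b < 1) :
    HasDerivAt (kHp a) (gDD hK hK1 hK2 hφ2 a b) b := by
  have h := gD_has kH_data (hasDerivAt_const b a) (hasDerivAt_id b) ha hb hab
  refine h.congr_deriv ?_
  simp

theorem kH_gDD_nonneg {a b : ℝ} (ha : 0 < a) (ha1 : a ≤ 1) (hb : 0 < b) (hab : a * b < 1) :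
    0 ≤ gDD hK hK1 hK2 hφ2 a b := by
  have hz0 : 0 < a * b := mul_pos ha hb
  have hC1 := kH_C1 hz0 hab
  obtain ⟨s, hs0, hs1, hs⟩ := exists_s hz0 hab
  have hK2' : 0 ≤ hK2 (a * b) := by rw [hs]; exact hK2_nonneg hs0 hs1
  have hl := mul_le_mul_of_nonneg_left (neg_log_div_le ha ha1 hb)
    (by positivity : 0 ≤ (a * b) ^ 2 * hK2 (a * b))
  have hzb : a * b ≤ b := by (clear * - ha1 hb; nlinarith)
  have p4 : (a * b) ^ 4 ≤ b ^ 4 := pow_le_pow_left₀ hz0.le hzb 4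
  have p6 : (a * b) ^ 6 ≤ b ^ 6 := pow_le_pow_left₀ hz0.le hzb 6
  have p8 : (a * b) ^ 8 ≤ b ^ 8 := pow_le_pow_left₀ hz0.le hzb 8
  have p10 : (a * b) ^ 10 ≤ b ^ 10 := pow_le_pow_left₀ hz0.le hzb 10
  have p12 : 0 ≤ b ^ 12 := by positivity
  have key : 0 ≤ b ^ 2 * gDD hK hK1 hK2 hφ2 a b := by
    have e : b ^ 2 * gDD hK hK1 hK2 hφ2 a b =
        9 / 4 * b ^ 4 + 25 / 8 * b ^ 6 + 245 / 64 * b ^ 8 + 567 / 128 * b ^ 10 +
        2541 / 512 * b ^ 12 - (a * b) ^ 2 * hK2 (a * b) * -Real.log (b / a) +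
        2 * (a * b * hK1 (a * b)) - hK (a * b) := by
      unfold gDD hφ2
      field_simp
      ring
    rw [e]
    (clear * - hC1 hl p4 p6 p8 p10 p12; linarith)
  exact nonneg_of_mul_nonneg_right key (by positivity)

theorem kH_tangent {a q b : ℝ} (ha : 0 < a) (ha1 : a ≤ 1) (hq : 0 < q) (hq1 : a * q < 1)
    (hb0 : 0 < b) (hb : a * b < 1) :
    gV hK hφ a q + kHp a q * (b - q) ≤ gV hK hφ a b := by
  have hlt : ∀ y ∈ Ioo 0 (1 / a), a * y < 1 := fun y hy => by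
    have := hy.2; rw [lt_div_iff₀ ha] at this; linarith only [this]
  exact tangent_le_of_deriv2 (c := 1 / a)
    (fun y hy => kH_gV_deriv ha hy.1 (hlt y hy)) (fun y hy => kHp_deriv ha hy.1 (hlt y hy))
    (fun y hy => kH_gDD_nonneg ha ha1 hy.1 (hlt y hy)) ⟨hq, by rw [lt_div_iff₀ ha]; linarith⟩
    ⟨hb0, by rw [lt_div_iff₀ ha]; linarith⟩

/-- the slope is nonnegative for contact `q ≤ a` -/
theorem kHp_nonneg {a q : ℝ} (ha : 0 < a) (ha1 : a < 1) (hq : 0 < q) (hqa : q ≤ a) :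
    0 ≤ kHp a q := by
  have hq1 : a * q < 1 := by nlinarith
  have hz0 : 0 < a * q := mul_pos ha hq
  have hC2 := kH_C2 hz0 hq1
  obtain ⟨s, hs0, hs1, hs⟩ := exists_s hz0 hq1
  have hK1' : 0 ≤ hK1 (a * q) := by rw [hs]; exact hK1_nonneg hs0 hs1
  have hl := mul_le_mul_of_nonneg_left (neg_log_div_le ha ha1.le hq)
    (by (clear * - ha hq hK1'; positivity) : 0 ≤ a * q * hK1 (a * q))
  have hzb : a * q ≤ q := by nlinarith only [ha1, hq]
  have p4 : (a * q) ^ 4 ≤ q ^ 4 := pow_le_pow_left₀ hz0.le hzb 4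
  have p6 : (a * q) ^ 6 ≤ q ^ 6 := pow_le_pow_left₀ hz0.le hzb 6
  have p8 : (a * q) ^ 8 ≤ q ^ 8 := pow_le_pow_left₀ hz0.le hzb 8
  have p10 : (a * q) ^ 10 ≤ q ^ 10 := pow_le_pow_left₀ hz0.le hzb 10
  have p12 : 0 ≤ q ^ 12 := by positivity
  have key : 0 ≤ q * kHp a q := by
    have e : q * kHp a q = 3 / 4 * q ^ 4 + 5 / 8 * q ^ 6 + 35 / 64 * q ^ 8 + 63 / 128 * q ^ 10 +
        231 / 512 * q ^ 12 - (a * q * hK1 (a * q) * -Real.log (q / a) - hK (a * q)) := by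
      unfold kHp gD hφ1
      field_simp
      ring
    rw [e]
    linarith only [hC2, hl, p4, p6, p8, p10, p12]
  exact nonneg_of_mul_nonneg_right key hq

theorem pow_two_log_le {a b : ℝ} (hb : 0 < b) (hba : b ≤ a) (k : ℕ) :
    2 * (k : ℝ) * ((a * b) ^ k * Real.log (a / b)) ≤ a ^ (2 * k) - b ^ (2 * k) := by
  have ha : 0 < a := hb.trans_le hba
  have hl := two_log_le (x := (a / b) ^ k) (by
    apply one_le_pow₀; rw [le_div_iff₀ hb]; linarith)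
  rw [Real.log_pow] at hl
  have h1 : 0 ≤ (a * b) ^ k := by positivity
  have h2 := mul_le_mul_of_nonneg_left hl h1
  have e : (a * b) ^ k * ((a / b) ^ k - 1 / (a / b) ^ k) = a ^ (2 * k) - b ^ (2 * k) := by
    rw [div_pow, mul_pow]
    have hak : a ^ k ≠ 0 := by positivity
    have hbk : b ^ k ≠ 0 := by positivity
    field_simp
    ring
  rw [e] at h2
  linarith only [h2]

/-- the hybrid kernel is below `kF` for `b ≤ a` -/
theorem kH_le_kF_of_le {a b : ℝ} (hb : 0 < b) (hba : b ≤ a) : gV hK hφ a b ≤ kF a b := by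
  have ha : 0 < a := hb.trans_le hba
  rw [kF_pos ha hb]
  have hlog : Real.log (b / a) = -Real.log (a / b) := by rw [← Real.log_inv, inv_div]
  have h2 := pow_two_log_le hb hba 2
  have h3 := pow_two_log_le hb hba 3
  have h4 := pow_two_log_le hb hba 4
  have h5 := pow_two_log_le hb hba 5
  have h6 := pow_two_log_le hb hba 6
  unfold gV hK hφ
  rw [hlog]
  push_cast at h2 h3 h4 h5 h6
  linarith

theorem kHp_diag {a : ℝ} (ha : 0 < a) : kHp a a = kFp a a := by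
  unfold kHp kFp gD
  rw [div_self ha.ne', Real.log_one]
  unfold hφ1 hK
  field_simp
  ring

/-- **the hybrid lines with contact `q ≤ a` are admissible for `kF`** -/
theorem kH_le {a q b : ℝ} (ha : 0 < a) (ha1 : a < 1) (hq : 0 < q) (hqa : q ≤ a)
    (hb : b ∈ Icc (-1 : ℝ) 1) : kHc a q + kHp a q * b ≤ kF a b := by
  have hq1 : a * q < 1 := by nlinarith
  have hp := kHp_nonneg ha ha1 hq hqa
  have ecp : ∀ b, kHc a q + kHp a q * b = gV hK hφ a q + kHp a q * (b - q) := by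
    intro b
    unfold kHc kHp gC
    ring
  have haa : a * a < 1 := by nlinarith only [ha1, ha]
  have hdiag : gV hK hφ a a = 0 := by
    unfold gV
    rw [div_self ha.ne', Real.log_one]
    ring
  -- value at `a`
  have hva := kH_tangent ha ha1.le hq hq1 ha haa
  rw [hdiag] at hva
  rcases le_or_gt b 0 with hb0 | hb0
  · rw [kF_nonpos ha hb0, ecp]
    have : kHp a q * (b - q) ≤ kHp a q * (a - q) := mul_le_mul_of_nonneg_left (by linarith) hp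
    linarith
  · rcases le_total b a with hba | hba
    · rw [ecp]
      exact (kH_tangent ha ha1.le hq hq1 hb0 (by nlinarith only [ha1, ha, hba])).trans (kH_le_kF_of_le hb0 hba)
    · -- `b ≥ a`
      have hT := kFq_le ha ha1 ha haa (kFp_nonneg_of_le ha le_rfl haa) hb
      rw [kFcp] at hT
      have hva0 : gV fK (fun _ => 0) a a = 0 := by
        unfold gV
        rw [div_self ha.ne', Real.log_one]
        ring
      rw [hva0] at hT
      -- slopes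
      have hc := kH_tangent ha ha1.le ha haa hq hq1
      rw [hdiag, kHp_diag ha] at hc
      have hmono : kHp a q * (a - q) ≤ kFp a a * (a - q) := by linarith
      have hsl : kHp a q * (b - a) ≤ kFp a a * (b - a) := by
        rcases hqa.eq_or_lt with he | he
        · rw [he, kHp_diag ha]
        · have h3 : kHp a q ≤ kFp a a := by
            by_contra hcon
            push Not at hcon
            nlinarith only [hva, hc, he, hcon]
          exact mul_le_mul_of_nonneg_right h3 (by linarith only [hba])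
      rw [ecp]
      have e1 : kHp a q * (b - q) = kHp a q * (b - a) + kHp a q * (a - q) := by ring
      linarith only [hva, hT, hsl]

/-! ## the standard test point `q = x²/τ`, `τ = x e^l` -/

/-- hybrid line, `l ≥ 0` -/
theorem kH_std_le {x l b : ℝ} (hx : x ∈ Ioo (0 : ℝ) 1) (hl : 0 ≤ l)
    (hτ : x * Real.exp l < 1) (hb : b ∈ Icc (-1 : ℝ) 1) :
    kHc (x * Real.exp l) (x ^ 2 / (x * Real.exp l)) +
      kHp (x * Real.exp l) (x ^ 2 / (x * Real.exp l)) * b ≤ kF (x * Real.exp l) b := by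
  have hx0 := hx.1
  have h1 : 1 ≤ Real.exp l := Real.one_le_exp hl
  apply kH_le (by positivity) hτ (by positivity) _ hb
  rw [div_le_iff₀ (by positivity)]
  have : x ≤ x * Real.exp l := by nlinarith
  nlinarith only [h1, this]

/-- log line, `l ≤ 0` -/
theorem kF_std_le {x l b : ℝ} (hx : x ∈ Ioo (0 : ℝ) 1) (hl : l ≤ 0)
    (hb : b ∈ Icc (-1 : ℝ) 1) :
    kFc (x * Real.exp l) (x ^ 2 / (x * Real.exp l)) +
      kFp (x * Real.exp l) (x ^ 2 / (x * Real.exp l)) * b ≤ kF (x * Real.exp l) b := by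
  have hx0 := hx.1
  have h1 : Real.exp l ≤ 1 := Real.exp_le_one_iff.2 hl
  have hτ0 : 0 < x * Real.exp l := by positivity
  have hτx : x * Real.exp l ≤ x := by nlinarith
  have hz : x * Real.exp l * (x ^ 2 / (x * Real.exp l)) = x ^ 2 := by (clear * - hx0; field_simp)
  have hz1 : x * Real.exp l * (x ^ 2 / (x * Real.exp l)) < 1 := by rw [hz]; nlinarith only [hx0, hx.2]
  refine kFq_le hτ0 (by linarith [hx.2]) (by positivity) hz1 ?_ hb
  apply kFp_nonneg_of_le hτ0 _ hz1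
  rw [le_div_iff₀ hτ0]
  nlinarith only [hτ0, hτx]

end Vale.Agent.P237.AllN
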