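import Vale.Agent.P237.AllN.Brid8
import Vale.Agent.P237.AllN.FisC
import Vale.Agent.P237.AllN.FJ
import Vale.Agent.P237.AllN.KerH

/-!
# P237, all dimensions: bridge for the Fisher route, part 1: pairs with primitives
-/

open MeasureTheory Metric Set Module Filter Topology

namespace Vale.Agent.P237.AllN

/-- A pair `(c,p)` of functions of `x` along a transport, with primitive `Ψ` and pointwise
functional `T`. -/
structure FPair (m : ℕ) (τ τ' c c' p p' Ψ Ψ' T : ℝ → ℝ) : Prop where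
  dc : ∀ x ∈ Ioo (0 : ℝ) 1, HasDerivAt c (c' x) x
  cc : ContinuousOn c' (Ioo 0 1)
  dp : ∀ x ∈ Ioo (0 : ℝ) 1, HasDerivAt p (p' x) x
  cp : ContinuousOn p' (Ioo 0 1)
  dΨ : ∀ x ∈ Ioo (0 : ℝ) 1, HasDerivAt Ψ (Ψ' x) x
  id : ∀ x ∈ Ioo (0 : ℝ) 1, (((m : ℝ) + 1) * c x + (τ x * c' x + p' x) / τ' x) * sq x ^ m =
    sq x ^ m * T x + Ψ' x
  c0 : ∃ C : ℝ, ∀ x ∈ Ioo (0 : ℝ) (1 / 2), |c x| ≤ C
  p0 : Tendsto p (𝓝[>] 0) (𝓝 0)
  c1 : Tendsto (fun x => sq x ^ (m + 2) * c x) (𝓝[<] 1) (𝓝 0)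
  Ψ0 : Tendsto Ψ (𝓝[>] 0) (𝓝 0)
  Ψ1 : Tendsto Ψ (𝓝[<] 1) (𝓝 0)
  int : ∃ C : ℝ, ∀ x ∈ Ioo (0 : ℝ) 1,
    |((m : ℝ) + 1) * c x + (τ x * c' x + p' x) / τ' x| * sq x ^ (m + 1) ≤ C

theorem FPair.add {m : ℕ} {τ τ' c c' p p' Ψ Ψ' T d d' q q' Φ Φ' S : ℝ → ℝ}
    (h : FPair m τ τ' c c' p p' Ψ Ψ' T) (g : FPair m τ τ' d d' q q' Φ Φ' S) :
    FPair m τ τ' (fun x => c x + d x) (fun x => c' x + d' x) (fun x => p x + q x)
      (fun x => p' x + q' x) (fun x => Ψ x + Φ x) (fun x => Ψ' x + Φ' x) (fun x => T x + S x) where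
  dc := fun x hx => (h.dc x hx).add (g.dc x hx)
  cc := h.cc.add g.cc
  dp := fun x hx => (h.dp x hx).add (g.dp x hx)
  cp := h.cp.add g.cp
  dΨ := fun x hx => (h.dΨ x hx).add (g.dΨ x hx)
  id := fun x hx => by
    have e1 := h.id x hx
    have e2 := g.id x hx
    rw [show ((m : ℝ) + 1) * (c x + d x) + (τ x * (c' x + d' x) + (p' x + q' x)) / τ' x =
      (((m : ℝ) + 1) * c x + (τ x * c' x + p' x) / τ' x) +
      (((m : ℝ) + 1) * d x + (τ x * d' x + q' x) / τ' x) by ring]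
    linear_combination e1 + e2
  c0 := by
    obtain ⟨C, hC⟩ := h.c0
    obtain ⟨D, hD⟩ := g.c0
    exact ⟨C + D, fun x hx => (abs_add_le _ _).trans (add_le_add (hC x hx) (hD x hx))⟩
  p0 := by simpa using h.p0.add g.p0
  c1 := by
    have := h.c1.add g.c1
    rw [add_zero] at this
    refine this.congr fun x => ?_
    ring
  Ψ0 := by simpa using h.Ψ0.add g.Ψ0
  Ψ1 := by simpa using h.Ψ1.add g.Ψ1
  int := by
    obtain ⟨C, hC⟩ := h.int
    obtain ⟨D, hD⟩ := g.int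
    refine ⟨C + D, fun x hx => ?_⟩
    rw [show ((m : ℝ) + 1) * (c x + d x) + (τ x * (c' x + d' x) + (p' x + q' x)) / τ' x =
      (((m : ℝ) + 1) * c x + (τ x * c' x + p' x) / τ' x) +
      (((m : ℝ) + 1) * d x + (τ x * d' x + q' x) / τ' x) by ring]
    refine (mul_le_mul_of_nonneg_right (abs_add_le _ _) (pow_nonneg (Real.sqrt_nonneg _) _)).trans ?_
    rw [add_mul]
    exact add_le_add (hC x hx) (hD x hx)

theorem FPair.smul {m : ℕ} {τ τ' c c' p p' Ψ Ψ' T : ℝ → ℝ}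
    (h : FPair m τ τ' c c' p p' Ψ Ψ' T) (k : ℝ) :
    FPair m τ τ' (fun x => k * c x) (fun x => k * c' x) (fun x => k * p x)
      (fun x => k * p' x) (fun x => k * Ψ x) (fun x => k * Ψ' x) (fun x => k * T x) where
  dc := fun x hx => (h.dc x hx).const_mul k
  cc := continuousOn_const.mul h.cc
  dp := fun x hx => (h.dp x hx).const_mul k
  cp := continuousOn_const.mul h.cp
  dΨ := fun x hx => (h.dΨ x hx).const_mul k
  id := fun x hx => by
    have e1 := h.id x hx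
    rw [show ((m : ℝ) + 1) * (k * c x) + (τ x * (k * c' x) + (k * p' x)) / τ' x =
      k * (((m : ℝ) + 1) * c x + (τ x * c' x + p' x) / τ' x) by ring]
    linear_combination k * e1
  c0 := by
    obtain ⟨C, hC⟩ := h.c0
    refine ⟨|k| * C, fun x hx => ?_⟩
    rw [abs_mul]
    exact mul_le_mul_of_nonneg_left (hC x hx) (abs_nonneg _)
  p0 := by simpa using h.p0.const_mul k
  c1 := by
    have := h.c1.const_mul k
    rw [mul_zero] at this
    refine this.congr fun x => ?_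
    ring
  Ψ0 := by simpa using h.Ψ0.const_mul k
  Ψ1 := by simpa using h.Ψ1.const_mul k
  int := by
    obtain ⟨C, hC⟩ := h.int
    refine ⟨|k| * C, fun x hx => ?_⟩
    rw [show ((m : ℝ) + 1) * (k * c x) + (τ x * (k * c' x) + (k * p' x)) / τ' x =
      k * (((m : ℝ) + 1) * c x + (τ x * c' x + p' x) / τ' x) by ring, abs_mul, mul_assoc]
    exact mul_le_mul_of_nonneg_left (hC x hx) (abs_nonneg _)

section

variable {m : ℕ} {r τ τ' T : ℝ → ℝ}

/-! ### lower bound for `1 + u` -/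

theorem log_abs_le {q : ℝ} (hq : 0 < q) : |Real.log q| ≤ |q - 1| * (1 + 1 / q) := by
  have h1 := Real.log_le_sub_one_of_pos hq
  have h2 := Real.log_le_sub_one_of_pos (inv_pos.2 hq)
  rw [Real.log_inv] at h2
  have hi : 0 < 1 / q := by positivity
  have e : q⁻¹ - 1 = (1 - q) * (1 / q) := by field_simp
  rw [e] at h2
  rw [abs_le]
  constructor
  · have h3 : (1 - q) * (1 / q) ≤ |q - 1| * (1 / q) := by
      apply mul_le_mul_of_nonneg_right _ hi.le
      rw [abs_sub_comm]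
      exact le_abs_self _
    nlinarith only [h2, h3, abs_nonneg (q - 1)]
  · nlinarith only [h1, le_abs_self (q - 1), mul_nonneg (abs_nonneg (q - 1)) hi.le]

/-- crude bounds for `w = u/(1+u)`: `s^m |w| ≤ C` and `s^m |l| |w| ≤ C s²` -/
theorem uw_bdd (hm : 2 ≤ m) (hr : IsProf r) (h : IsTrans m r τ τ' T) :
    ∃ C : ℝ, 0 ≤ C ∧ ∀ x ∈ Ioo (0 : ℝ) 1,
      sq x ^ m * |uf τ τ' x / (1 + uf τ τ' x)| ≤ C ∧
      sq x ^ m * (|lf τ x| * |uf τ τ' x / (1 + uf τ τ' x)|) ≤ C * sq x ^ 2 := by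
  obtain ⟨C0, hC0, hz⟩ := h.near_zero (by omega) hr
  obtain ⟨C1, hC1, ho⟩ := h.near_one (by omega) hr
  obtain ⟨Cl, hCl, hlb⟩ := lf_bdd (by omega) hr h
  have hZr := ass_Zr_pos (m := m) hr
  have hZm := ass_Zm_pos m
  set Zr := ∫ t in (0 : ℝ)..1, r t ^ m with hZrd
  set Zm := ∫ t in (0 : ℝ)..1, sq t ^ m with hZmd
  set R := r 0 ^ m with hR
  have hR0 : 0 < R := pow_pos (hr.pos 0 ⟨by norm_num, by norm_num⟩) m
  set K := C0 * (Zm / Zr) with hK
  have hK0 : 0 < K := by positivity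
  -- `s^m/(1+u) = (τ/x) r(τ)^m Zm/Zr`
  have key : ∀ x ∈ Ioo (0 : ℝ) 1, sq x ^ m * (1 / (1 + uf τ τ' x)) ≤ K * r (τ x) ^ m ∧
      0 ≤ r (τ x) ^ m ∧ r (τ x) ^ m ≤ R := by
    intro x hx
    have hu := uf_pos h hx
    have ht := h.mem x hx
    have hx0 := hx.1
    have hp := h.pos x hx
    have hmem : τ x ∈ Icc (0 : ℝ) 1 := ⟨ht.1.le, ht.2.le⟩
    have r0 : 0 ≤ r (τ x) ^ m := pow_nonneg (Alm.prof_nn hr hmem) m
    have rR : r (τ x) ^ m ≤ R := pow_le_pow_left₀ (Alm.prof_nn hr hmem) (Alm.prof_le_zero hr hmem) m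
    refine ⟨?_, r0, rR⟩
    have e1 : 1 / (1 + uf τ τ' x) = τ x / x / τ' x := by
      unfold uf
      have := ht.1.ne'
      field_simp
      ring
    have e2 := h.eqn x hx
    rw [← hZrd, ← hZmd] at e2
    have e3 : sq x ^ m = τ' x * r (τ x) ^ m * Zm / Zr := by
      rw [e2]; (clear * - hZr; field_simp)
    rw [e1, e3, hK]
    have e4 : τ' x * r (τ x) ^ m * Zm / Zr * (τ x / x / τ' x) =
        (τ x / x) * (Zm / Zr * r (τ x) ^ m) := by
      (clear * - hp hx0 hZr hZm; field_simp)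
    rw [e4, mul_assoc]
    apply mul_le_mul_of_nonneg_right _ (by (clear * - hZm hZr r0; positivity))
    rw [div_le_iff₀ hx0]
    exact (hz x hx).2
  have hw : ∀ x ∈ Ioo (0 : ℝ) 1, |uf τ τ' x / (1 + uf τ τ' x)| ≤ 1 + 1 / (1 + uf τ τ' x) := by
    intro x hx
    have hu := uf_pos h hx
    have e : uf τ τ' x / (1 + uf τ τ' x) = 1 - 1 / (1 + uf τ τ' x) := by field_simp; ring
    rw [e]
    refine (abs_sub _ _).trans ?_
    rw [abs_one, abs_of_pos (by (clear * - hu; positivity))]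
  set D := 2 * (1 + C0) * (C1 + R) with hD
  have hD0 : 0 ≤ D := by (clear * - hC0 hC1 hR0; positivity)
  -- `|l| r(τ)^m ≤ D s² + ...`
  have hl2 : ∀ x ∈ Ioo (0 : ℝ) 1, |lf τ x| * r (τ x) ^ m ≤ (D + 4 * (Cl * R)) * sq x ^ 2 := by
    intro x hx
    obtain ⟨_, r0, rR⟩ := key x hx
    have hs := sqx_pos hx
    have hs1 := br_sq_le_one x
    have hss := sqx_sq hx
    have hx0 := hx.1
    have ht := h.mem x hx
    rcases le_total x (1 / 2) with h2 | h2
    · have h3 : 1 / 4 ≤ sq x ^ 2 := by nlinarith only [hss, h2, hx0]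
      have h4 : |lf τ x| * r (τ x) ^ m ≤ Cl * R :=
        mul_le_mul (hlb x hx) rR r0 hCl
      have h5 : 0 ≤ Cl * R := by (clear * - hCl hR0; positivity)
      nlinarith only [h4, hD0, h3, h5]
    · have hq : 0 < τ x / x := div_pos ht.1 hx0
      have h3 := log_abs_le hq
      have h4 : 1 / (τ x / x) ≤ C0 := by
        rw [one_div_div, div_le_iff₀ ht.1]
        exact (hz x hx).1
      have h5 : |τ x / x - 1| ≤ 2 * ((1 - τ x) + (1 - x)) := by
        have e : τ x / x - 1 = (τ x - x) / x := by (clear * - hx0; field_simp)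
        rw [e, abs_div, abs_of_pos hx0, div_le_iff₀ hx0]
        have h6 : |τ x - x| ≤ (1 - τ x) + (1 - x) := by
          rw [abs_le]; constructor <;> linarith only [ht.2, hx.2]
        nlinarith only [h6, h2, ht.2, hx.2]
      have h6 : |lf τ x| ≤ 2 * ((1 - τ x) + (1 - x)) * (1 + C0) := by
        unfold lf
        refine h3.trans ?_
        apply mul_le_mul h5 (by linarith only [h4]) (by (clear * - hq; positivity))
        linarith only [ht.2, hx.2]
      have h7 : (1 - τ x) * r (τ x) ^ m ≤ C1 * sq x ^ 2 := by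
        refine (ho x hx).1.trans ?_
        apply mul_le_mul_of_nonneg_left _ hC1.le
        exact pow_le_pow_of_le_one hs.le hs1 (by omega)
      have h8 : (1 - x) * r (τ x) ^ m ≤ R * sq x ^ 2 := by
        have h9 : 1 - x ≤ sq x ^ 2 := by nlinarith only [hss, hx0]
        calc (1 - x) * r (τ x) ^ m ≤ sq x ^ 2 * R :=
              mul_le_mul h9 rR r0 (pow_nonneg hs.le 2)
          _ = R * sq x ^ 2 := mul_comm _ _
      calc |lf τ x| * r (τ x) ^ m ≤ 2 * ((1 - τ x) + (1 - x)) * (1 + C0) * r (τ x) ^ m :=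
            mul_le_mul_of_nonneg_right h6 r0
        _ = 2 * (1 + C0) * ((1 - τ x) * r (τ x) ^ m + (1 - x) * r (τ x) ^ m) := by ring
        _ ≤ 2 * (1 + C0) * (C1 * sq x ^ 2 + R * sq x ^ 2) := by
            apply mul_le_mul_of_nonneg_left (add_le_add h7 h8) (by positivity)
        _ = D * sq x ^ 2 := by rw [hD]; ring
        _ ≤ _ := by
            have : 0 ≤ 4 * (Cl * R) * sq x ^ 2 := by (clear * - hCl hR0 hs; positivity)
            nlinarith only [this]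
  refine ⟨(1 + K * R) + (Cl + K * (D + 4 * (Cl * R))), by (clear * - hC0 hZm hZr hR0 hCl hC1; positivity), fun x hx => ⟨?_, ?_⟩⟩
  · obtain ⟨h1, r0, rR⟩ := key x hx
    have hs := sqx_pos hx
    have hs1 := br_sq_le_one x
    have hp : sq x ^ m ≤ 1 := pow_le_one₀ hs.le hs1
    have h2 : 0 ≤ Cl + K * (D + 4 * (Cl * R)) := by (clear * - hCl hC0 hZm hZr hC1 hR0; positivity)
    calc sq x ^ m * |uf τ τ' x / (1 + uf τ τ' x)| ≤ sq x ^ m * (1 + 1 / (1 + uf τ τ' x)) :=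
          mul_le_mul_of_nonneg_left (hw x hx) (pow_nonneg hs.le m)
      _ = sq x ^ m + sq x ^ m * (1 / (1 + uf τ τ' x)) := by ring
      _ ≤ 1 + K * R := add_le_add hp (h1.trans (mul_le_mul_of_nonneg_left rR hK0.le))
      _ ≤ _ := by linarith only [h2]
  · obtain ⟨h1, r0, rR⟩ := key x hx
    have hs := sqx_pos hx
    have hs1 := br_sq_le_one x
    have hp : sq x ^ m ≤ sq x ^ 2 := pow_le_pow_of_le_one hs.le hs1 hm
    have hs2 : 0 ≤ sq x ^ 2 := pow_nonneg hs.le 2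
    have h2 : 0 ≤ 1 + K * R := by (clear * - hC0 hZm hZr hR0; positivity)
    calc sq x ^ m * (|lf τ x| * |uf τ τ' x / (1 + uf τ τ' x)|) ≤
          sq x ^ m * (|lf τ x| * (1 + 1 / (1 + uf τ τ' x))) :=
          mul_le_mul_of_nonneg_left (mul_le_mul_of_nonneg_left (hw x hx) (abs_nonneg _))
            (pow_nonneg hs.le m)
      _ = sq x ^ m * |lf τ x| + |lf τ x| * (sq x ^ m * (1 / (1 + uf τ τ' x))) := by ring
      _ ≤ sq x ^ 2 * Cl + |lf τ x| * (K * r (τ x) ^ m) :=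
          add_le_add (mul_le_mul hp (hlb x hx) (abs_nonneg _) hs2)
            (mul_le_mul_of_nonneg_left h1 (abs_nonneg _))
      _ = sq x ^ 2 * Cl + K * (|lf τ x| * r (τ x) ^ m) := by ring
      _ ≤ sq x ^ 2 * Cl + K * ((D + 4 * (Cl * R)) * sq x ^ 2) :=
          add_le_add le_rfl (mul_le_mul_of_nonneg_left (hl2 x hx) hK0.le)
      _ ≤ _ := by nlinarith only [h2]

end

end Vale.Agent.P237.AllN
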