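import Vale.Agent.P237.AllN.FBri1

/-!
# P237, all dimensions: bridge for the Fisher route, part 2: the log line of `kF` with correction
-/

open MeasureTheory Metric Set Module Filter Topology

namespace Vale.Agent.P237.AllN

/-- potential of the log line -/
noncomputable def flG (x s l : ℝ) : ℝ :=
  -(4 / s - 4 * (s / (1 + s)) - 2 * s ^ 2) * l + 3 * (x ^ 2 / s ^ 3) * l ^ 2

/-- functional of the log line of `K = 2/s - 2 - z` with correction `2 g₀` -/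
noncomputable def flT (m x s l u gτ gx : ℝ) : ℝ :=
  (4 / s - 4 * (s / (1 + s)) - 6 * (x ^ 2 / s ^ 3) * l - 2 * s ^ 2) * (u ^ 2 / (1 + u)) +
    2 * (gτ - gx) +
    (2 * (m + 3) * x ^ 2 + 2 * (x ^ 2 / (s * (1 + s) ^ 2)) - 2 * (m + 1) * (x ^ 2 / s ^ 3)) * l +
    (3 * (m - 3) * (x ^ 4 / s ^ 5) - 9 * (x ^ 2 / s ^ 3)) * l ^ 2

noncomputable def flc (m : ℕ) (τ : ℝ → ℝ) (x : ℝ) : ℝ := 2 * prc m τ x + x ^ 2

noncomputable def flp (m : ℕ) (τ : ℝ → ℝ) (x : ℝ) : ℝ := 2 * prp m τ x - τ x * (1 - 2 * lf τ x)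

noncomputable def flc' (m : ℕ) (τ τ' : ℝ → ℝ) (x : ℝ) : ℝ := 2 * prc' m τ τ' x + 2 * x

noncomputable def flp' (m : ℕ) (τ τ' : ℝ → ℝ) (x : ℝ) : ℝ :=
  2 * prp' m τ τ' x - (τ' x * (1 - 2 * lf τ x) - τ x * (2 * (uf τ τ' x / x)))

noncomputable def flΨ (m : ℕ) (τ : ℝ → ℝ) (x : ℝ) : ℝ :=
  2 * (x * sq x ^ m * bg x + bN m x) - x * sq x ^ (m + 2) + x * sq x ^ m * flG x (sq x) (lf τ x)

noncomputable def flΨ' (m : ℕ) (τ τ' : ℝ → ℝ) (x : ℝ) : ℝ :=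
  2 * (sq x ^ (m - 1) * (-((m : ℝ) + 1) + ((m : ℝ) + 2 - bgm m) * sq x)) -
    sq x ^ m * (1 - ((m : ℝ) + 3) * x ^ 2) +
    sq x ^ m * ((1 - (m : ℝ) * (x ^ 2 / sq x ^ 2)) * flG x (sq x) (lf τ x) +
      (-(4 * (x ^ 2 / sq x ^ 3) + 4 * (x ^ 2 / (sq x * (1 + sq x) ^ 2)) + 4 * x ^ 2) * lf τ x +
        3 * (2 * (x ^ 2 / sq x ^ 3) + 3 * (x ^ 4 / sq x ^ 5)) * lf τ x ^ 2) +
      (-(4 / sq x - 4 * (sq x / (1 + sq x)) - 2 * sq x ^ 2) + 6 * (x ^ 2 / sq x ^ 3) * lf τ x) *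
        uf τ τ' x)

section

variable {m : ℕ} {r τ τ' T : ℝ → ℝ} {x : ℝ}

theorem flG_der (h : IsTrans m r τ τ' T) (hx : x ∈ Ioo (0 : ℝ) 1) :
    HasDerivAt (fun x => flG x (sq x) (lf τ x))
      (((-(4 * (x ^ 2 / sq x ^ 3) + 4 * (x ^ 2 / (sq x * (1 + sq x) ^ 2)) + 4 * x ^ 2) * lf τ x +
        3 * (2 * (x ^ 2 / sq x ^ 3) + 3 * (x ^ 4 / sq x ^ 5)) * lf τ x ^ 2) +
      (-(4 / sq x - 4 * (sq x / (1 + sq x)) - 2 * sq x ^ 2) + 6 * (x ^ 2 / sq x ^ 3) * lf τ x) *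
        uf τ τ' x) / x) x := by
  have hs := sqx_pos hx
  have hd := sqx_der hx
  have hl := lf_hasDerivAt h hx
  have hx0 := hx.1
  have h1s : (1 + sq x) ≠ 0 := by positivity
  have d2 : HasDerivAt (fun x : ℝ => x ^ 2) (2 * x) x := by simpa only [Nat.cast_ofNat, Nat.add_one_sub_one, pow_one] using hasDerivAt_pow 2 x
  have e1 := ((hasDerivAt_const x (4 : ℝ)).div hd hs.ne')
  have e2 := ((hd.div (hd.const_add 1) h1s).const_mul 4)
  have e3 := (hd.pow 2).const_mul 2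
  have e4 := (d2.div (hd.pow 3) (pow_pos hs 3).ne').const_mul 3
  have e := (((e1.sub e2).sub e3).neg.mul hl).add (e4.mul (hl.pow 2))
  refine e.congr_deriv ?_
  simp only [Pi.sub_apply, Pi.pow_apply, Pi.div_apply, Pi.neg_apply]
  push_cast
  field_simp
  ring

theorem flΨ_der (hm : 1 ≤ m) (h : IsTrans m r τ τ' T) (hx : x ∈ Ioo (0 : ℝ) 1) :
    HasDerivAt (flΨ m τ) (flΨ' m τ τ' x) x := by
  have hs := sqx_pos hx
  have hx0 := hx.1
  have hb := ball_prim_der hm hx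
  have h1 := xs_der (m + 2) hx
  have h2 := xs_der m hx
  have h3 := flG_der h hx
  have e := ((hb.const_mul 2).sub h1).add (h2.mul h3)
  refine e.congr_deriv ?_
  unfold flΨ'
  have hxs := sqx_sq hx
  rw [pow_add (sq x) m 2]
  push_cast
  have e5 : sq x ^ m * sq x ^ 2 * (1 - ((m : ℝ) + 2) * (x ^ 2 / sq x ^ 2)) =
      sq x ^ m * (1 - ((m : ℝ) + 3) * x ^ 2) := by
    field_simp
    rw [hxs]
    ring
  rw [e5]
  field_simp
  ring

theorem flc_der (h : IsTrans m r τ τ' T) (hx : x ∈ Ioo (0 : ℝ) 1) :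
    HasDerivAt (flc m τ) (flc' m τ τ' x) x := by
  have d2 : HasDerivAt (fun x : ℝ => x ^ 2) (2 * x) x := by simpa only [Nat.cast_ofNat, Nat.add_one_sub_one, pow_one] using hasDerivAt_pow 2 x
  exact ((prc_der h hx).const_mul 2).add d2

theorem flp_der (h : IsTrans m r τ τ' T) (hx : x ∈ Ioo (0 : ℝ) 1) :
    HasDerivAt (flp m τ) (flp' m τ τ' x) x := by
  have hl := lf_hasDerivAt h hx
  refine (((prp_der h hx).const_mul 2).sub ((h.der x hx).mul ((hl.const_mul 2).const_sub 1))).congr_deriv ?_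
  unfold flp'
  ring

theorem flc'_cont (h : IsTrans m r τ τ' T) : ContinuousOn (flc' m τ τ') (Ioo 0 1) :=
  (continuousOn_const.mul (prc'_cont h)).add (continuousOn_const.mul continuousOn_id)

theorem flp'_cont (h : IsTrans m r τ τ' T) : ContinuousOn (flp' m τ τ') (Ioo 0 1) := by
  have h1 := tau_cont h
  have h2 := h.cont
  have h3 := lf_cont h
  have h4 := uf_cont h
  exact (continuousOn_const.mul (prp'_cont h)).sub ((h2.mul (continuousOn_const.sub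
    (continuousOn_const.mul h3))).sub (h1.mul (continuousOn_const.mul
      (h4.div continuousOn_id fun x hx => hx.1.ne'))))

/-- value of the log line, before the potentials -/
theorem fl_value (h : IsTrans m r τ τ' T) (hx : x ∈ Ioo (0 : ℝ) 1) :
    ((m : ℝ) + 1) * flc m τ x + (τ x * flc' m τ τ' x + flp' m τ τ' x) / τ' x =
    2 / sq x * (((-((m : ℝ) + 1) + ((m : ℝ) + 2) * sq x - sq x ^ 2 / (1 + sq x)) +
      lf τ x * (((m : ℝ) - 3) * (x ^ 2 / sq x ^ 2) - (2 * (m : ℝ) + 3) + 2 * ((m : ℝ) + 1) * sq x) -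
      (2 * (1 - sq x ^ 2 / (1 + sq x)) - 3 * (x ^ 2 / sq x ^ 2) * lf τ x) *
        (uf τ τ' x / (1 + uf τ τ' x))) + sq x * (bg (τ x) - bgm m)) +
    (((m : ℝ) + 3) * x ^ 2 - 1 + 2 * lf τ x +
      2 * sq x ^ 2 * (uf τ τ' x / (1 + uf τ τ' x))) := by
  have hs := sqx_pos hx
  have hu := uf_pos h hx
  have hx0 := hx.1
  have ht := tr_pos h hx
  have hxs := sqx_sq hx
  have h1 : ((m : ℝ) + 1) * flc m τ x + (τ x * flc' m τ τ' x + flp' m τ τ' x) / τ' x =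
      2 * (((m : ℝ) + 1) * prc m τ x + (τ x * prc' m τ τ' x + prp' m τ τ' x) / τ' x) +
      (((m : ℝ) + 1) * x ^ 2 + (τ x * (2 * x) - (τ' x * (1 - 2 * lf τ x) -
        τ x * (2 * (uf τ τ' x / x)))) / τ' x) := by
    unfold flc flc' flp'
    ring
  have h2 : ((m : ℝ) + 1) * x ^ 2 + (τ x * (2 * x) - (τ' x * (1 - 2 * lf τ x) -
        τ x * (2 * (uf τ τ' x / x)))) / τ' x = ((m : ℝ) + 3) * x ^ 2 - 1 + 2 * lf τ x +
      2 * sq x ^ 2 * (uf τ τ' x / (1 + uf τ τ' x)) := by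
    rw [tau'_eq h hx, show sq x ^ 2 = 1 - x ^ 2 by rw [hxs]; ring]
    field_simp
    ring
  rw [h1, h2, ← plain_value h hx]
  (clear * - hu hs; field_simp)

theorem fl_id (hm : 1 ≤ m) (h : IsTrans m r τ τ' T) (hx : x ∈ Ioo (0 : ℝ) 1) :
    (((m : ℝ) + 1) * flc m τ x + (τ x * flc' m τ τ' x + flp' m τ τ' x) / τ' x) * sq x ^ m =
    sq x ^ m * flT m x (sq x) (lf τ x) (uf τ τ' x) (bg (τ x)) (bg x) + flΨ' m τ τ' x := by
  rw [fl_value h hx]
  have hs := sqx_pos hx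
  have hu := uf_pos h hx
  have hxs := sqx_sq hx
  have e0 : bg x = sq x / (1 + sq x) := rfl
  have hpow : sq x ^ m = sq x ^ (m - 1) * sq x := by
    obtain ⟨n, rfl⟩ := Nat.exists_eq_add_of_le' hm
    rw [Nat.add_sub_cancel, pow_succ]
  unfold flΨ' flT flG
  rw [hpow, e0, show x ^ 4 = (x ^ 2) ^ 2 by ring, hxs]
  set s := sq x
  set l := lf τ x
  set u := uf τ τ' x
  have h1s : (1 + s) ≠ 0 := by positivity
  field_simp
  ring

end

end Vale.Agent.P237.AllN
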