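import Vale.Agent.P237.AllN.FBri2

/-!
# P237, all dimensions: bridge for the Fisher route, part 3: limits and integrability, log line
-/

open MeasureTheory Metric Set Module Filter Topology

namespace Vale.Agent.P237.AllN

section

variable {m : ℕ} {r τ τ' T : ℝ → ℝ}

theorem pow_s_le {x : ℝ} (hx : x ∈ Ioo (0 : ℝ) 1) (k : ℕ) : |sq x ^ k| ≤ 1 := by
  have hs := sqx_pos hx
  rw [abs_of_nonneg (pow_nonneg hs.le k)]
  exact pow_le_one₀ hs.le (br_sq_le_one x)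

theorem flG_bdd {x l C : ℝ} (hx : x ∈ Ioo (0 : ℝ) 1) (hl : |l| ≤ C) {m : ℕ} (hm : 4 ≤ m) :
    |x * sq x ^ m * flG x (sq x) l| ≤ (10 * C + 3 * C ^ 2) * (|x| * sq x ^ (m - 3)) := by
  obtain ⟨n, rfl⟩ := Nat.exists_eq_add_of_le' hm
  have hs := sqx_pos hx
  have hs1 := br_sq_le_one x
  have hx0 := hx.1
  have hC : 0 ≤ C := (abs_nonneg _).trans hl
  have e1 : n + 4 - 3 = n + 1 := rfl
  have e : x * sq x ^ (n + 4) * flG x (sq x) l =
      (-(4 * sq x ^ 2 - 4 * sq x ^ 4 / (1 + sq x) - 2 * sq x ^ 5) * l + 3 * x ^ 2 * l ^ 2) *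
        (x * sq x ^ (n + 1)) := by
    unfold flG
    rw [show sq x ^ (n + 4) = sq x ^ (n + 1) * sq x ^ 3 by ring]
    (clear * - hs hx0; field_simp)
  rw [e1, e, abs_mul, abs_mul x, abs_of_nonneg (pow_nonneg hs.le (n + 1))]
  apply mul_le_mul_of_nonneg_right _ (by positivity)
  have h2 := pow_s_le hx 2
  have h5 := pow_s_le hx 5
  have h4 : |sq x ^ 4 / (1 + sq x)| ≤ 1 := by
    rw [abs_of_nonneg (by positivity), div_le_one (by positivity)]
    have := pow_s_le hx 4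
    rw [abs_of_nonneg (by positivity)] at this
    linarith only [hs, this]
  rw [abs_of_nonneg (pow_nonneg hs.le 2)] at h2
  rw [abs_of_nonneg (pow_nonneg hs.le 5)] at h5
  rw [abs_of_nonneg (by positivity)] at h4
  have h3 : |-(4 * sq x ^ 2 - 4 * sq x ^ 4 / (1 + sq x) - 2 * sq x ^ 5)| ≤ 10 := by
    have g1 : 0 ≤ sq x ^ 2 := by positivity
    have g2 : 0 ≤ sq x ^ 4 / (1 + sq x) := by positivity
    have g3 : 0 ≤ sq x ^ 5 := by positivity
    rw [show 4 * sq x ^ 4 / (1 + sq x) = 4 * (sq x ^ 4 / (1 + sq x)) by ring, abs_le]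
    constructor <;> linarith only [h2, g2, g3, h5, h4, g1]
  have hx2 : x ^ 2 ≤ 1 := pow_le_one₀ hx0.le hx.2.le
  have hl2 : l ^ 2 ≤ C ^ 2 := by
    rw [← sq_abs]
    exact pow_le_pow_left₀ (abs_nonneg _) hl 2
  refine (abs_add_le _ _).trans (add_le_add ?_ ?_)
  · rw [abs_mul]
    exact mul_le_mul h3 hl (abs_nonneg _) (by norm_num)
  · rw [abs_of_nonneg (by positivity)]
    have : x ^ 2 * l ^ 2 ≤ 1 * C ^ 2 := mul_le_mul hx2 hl2 (by positivity) zero_le_one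
    linarith only [this]

theorem flΨ_bound (hm : 4 ≤ m) (hr : IsProf r) (h : IsTrans m r τ τ' T) :
    ∃ K : ℝ, ∀ x ∈ Ioo (0 : ℝ) 1, |flΨ m τ x| ≤
      2 * (|x * sq x ^ m * bg x| + |bN m x|) + |x| * sq x ^ (m + 2) +
        K * (|x| * sq x ^ (m - 3)) := by
  obtain ⟨C, hC, hb⟩ := lf_bdd (by omega) hr h
  refine ⟨10 * C + 3 * C ^ 2, fun x hx => ?_⟩
  have hs := sqx_pos hx
  unfold flΨ
  refine (abs_add_le _ _).trans (add_le_add ((abs_sub _ _).trans (add_le_add ?_ ?_))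
    (flG_bdd hx (hb x hx) hm))
  · rw [abs_mul, abs_two]
    exact mul_le_mul_of_nonneg_left (abs_add_le _ _) (by norm_num)
  · rw [abs_mul, abs_of_nonneg (pow_nonneg hs.le (m + 2))]

theorem flΨ_zero (hm : 4 ≤ m) (hr : IsProf r) (h : IsTrans m r τ τ' T) :
    Tendsto (flΨ m τ) (𝓝[>] 0) (𝓝 0) := by
  obtain ⟨K, hK⟩ := flΨ_bound hm hr h
  have hc : Continuous fun x : ℝ => 2 * (|x * sq x ^ m * bg x| + |bN m x|) +
      |x| * sq x ^ (m + 2) + K * (|x| * sq x ^ (m - 3)) := by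
    have h1 := br_sq_cont
    have h2 := bg_cont
    have h3 := bN_cont m
    (clear * - h1 h2 h3; fun_prop)
  have ht := hc.tendsto 0
  have e : 2 * (|(0 : ℝ) * sq 0 ^ m * bg 0| + |bN m 0|) +
      |(0 : ℝ)| * sq 0 ^ (m + 2) + K * (|(0 : ℝ)| * sq 0 ^ (m - 3)) = 0 := by
    rw [bN_zero, abs_zero]; simp only [zero_mul, abs_zero, add_zero, mul_zero]
  rw [e] at ht
  refine squeeze_zero_norm' ?_ (ht.mono_left nhdsWithin_le_nhds)
  filter_upwards [Ioo_mem_nhdsGT (zero_lt_one' ℝ)] with x hx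
  rw [Real.norm_eq_abs]
  exact hK x hx

theorem flΨ_one (hm : 4 ≤ m) (hr : IsProf r) (h : IsTrans m r τ τ' T) :
    Tendsto (flΨ m τ) (𝓝[<] 1) (𝓝 0) := by
  obtain ⟨K, hK⟩ := flΨ_bound hm hr h
  have hc : Continuous fun x : ℝ => 2 * (|x * sq x ^ m * bg x| + |bN m x|) +
      |x| * sq x ^ (m + 2) + K * (|x| * sq x ^ (m - 3)) := by
    have h1 := br_sq_cont
    have h2 := bg_cont
    have h3 := bN_cont m
    fun_prop
  have ht := hc.tendsto 1
  have e : 2 * (|(1 : ℝ) * sq 1 ^ m * bg 1| + |bN m 1|) +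
      |(1 : ℝ)| * sq 1 ^ (m + 2) + K * (|(1 : ℝ)| * sq 1 ^ (m - 3)) = 0 := by
    rw [bN_one, br_sq_one, zero_pow (by omega : m ≠ 0), zero_pow (by omega : m + 2 ≠ 0),
      zero_pow (by omega : m - 3 ≠ 0)]
    simp
  rw [e] at ht
  refine squeeze_zero_norm' ?_ (ht.mono_left nhdsWithin_le_nhds)
  filter_upwards [Ioo_mem_nhdsLT (zero_lt_one' ℝ)] with x hx
  rw [Real.norm_eq_abs]
  exact hK x hx

theorem tau_lf_zero (hm : 1 ≤ m) (hr : IsProf r) (h : IsTrans m r τ τ' T) :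
    Tendsto (fun x => τ x * (1 - 2 * lf τ x)) (𝓝[>] 0) (𝓝 0) := by
  obtain ⟨C, hC, hb⟩ := lf_bdd hm hr h
  have h2 : Tendsto (fun x => (1 + 2 * C) * τ x) (𝓝[>] 0) (𝓝 0) := by
    have := (tau_tendsto_zero hm hr h).const_mul (1 + 2 * C)
    rwa [mul_zero] at this
  refine squeeze_zero_norm' ?_ h2
  filter_upwards [Ioo_mem_nhdsGT (zero_lt_one' ℝ)] with x hx
  have h4 := tr_pos h hx
  have h5 : |1 - 2 * lf τ x| ≤ 1 + 2 * C := by
    refine (abs_sub _ _).trans ?_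
    rw [abs_one, abs_mul, abs_two]
    linarith only [hb x hx]
  rw [Real.norm_eq_abs, abs_mul, abs_of_pos h4, mul_comm]
  exact mul_le_mul_of_nonneg_right h5 h4.le

theorem fl_int (hm : 4 ≤ m) (hr : IsProf r) (h : IsTrans m r τ τ' T) :
    ∃ C : ℝ, ∀ x ∈ Ioo (0 : ℝ) 1,
      |((m : ℝ) + 1) * flc m τ x + (τ x * flc' m τ τ' x + flp' m τ τ' x) / τ' x| *
        sq x ^ (m + 1) ≤ C := by
  obtain ⟨Cl, hCl, hlb⟩ := lf_bdd (by omega) hr h
  obtain ⟨Cw, hCw, hwb⟩ := uw_bdd (by omega) hr h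
  have hm4 : (4 : ℝ) ≤ m := by exact_mod_cast hm
  refine ⟨2 * ((2 * m + 4) + Cl * (5 * m + 8) + 5 * Cw) + 2 * (1 + |bgm m|) +
    ((m + 4 + 2 * Cl) + 2 * Cw), fun x hx => ?_⟩
  rw [fl_value h hx]
  obtain ⟨hw1, hw2⟩ := hwb x hx
  have hl := hlb x hx
  have hs := sqx_pos hx
  have hs1 := br_sq_le_one x
  have hx0 := hx.1
  have hx2 : x ^ 2 ≤ 1 := pow_le_one₀ hx0.le hx.2.le
  set s := sq x with hsd
  set l := lf τ x with hld
  set w := uf τ τ' x / (1 + uf τ τ' x) with hwd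
  have hpm : s ^ m ≤ 1 := pow_le_one₀ hs.le hs1
  have hpm0 : 0 ≤ s ^ m := pow_nonneg hs.le m
  have hpm1 : s ^ (m + 1) ≤ 1 := pow_le_one₀ hs.le hs1
  have hpm10 : 0 ≤ s ^ (m + 1) := pow_nonneg hs.le _
  have q1 : 0 ≤ s ^ 2 / (1 + s) := by (clear * - hs; positivity)
  have q2 : s ^ 2 / (1 + s) ≤ 1 := by rw [div_le_one (by positivity)]; nlinarith only [hs, hs1]
  -- decomposition
  have e : ∀ P Q R B Z : ℝ, (2 / s * ((P + l * Q - R * w) + s * B) + Z) * s ^ (m + 1) =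
      2 * (s ^ m * P + s ^ m * (l * Q) - s ^ m * (R * w)) + 2 * (s ^ (m + 1) * B) +
        s ^ (m + 1) * Z := by
    intro P Q R B Z
    rw [pow_succ]
    (clear * - hs; field_simp)
  rw [← abs_of_nonneg hpm10, ← abs_mul, e]
  have hP : |s ^ m * (-((m : ℝ) + 1) + ((m : ℝ) + 2) * s - s ^ 2 / (1 + s))| ≤ 2 * (m : ℝ) + 4 := by
    rw [abs_mul, abs_of_nonneg hpm0]
    have : |-((m : ℝ) + 1) + ((m : ℝ) + 2) * s - s ^ 2 / (1 + s)| ≤ 2 * (m : ℝ) + 4 := by
      rw [abs_le]; constructor <;> nlinarith only [hs, q2, hs1, q1]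
    calc _ ≤ 1 * (2 * (m : ℝ) + 4) := mul_le_mul hpm this (abs_nonneg _) zero_le_one
      _ = _ := one_mul _
  have hQ : |s ^ m * (l * (((m : ℝ) - 3) * (x ^ 2 / s ^ 2) - (2 * (m : ℝ) + 3) +
      2 * ((m : ℝ) + 1) * s))| ≤ Cl * (5 * m + 8) := by
    obtain ⟨n, rfl⟩ := Nat.exists_eq_add_of_le' (show 2 ≤ m by omega)
    have e1 : s ^ (n + 2) * (l * ((((n + 2 : ℕ) : ℝ) - 3) * (x ^ 2 / s ^ 2) -
        (2 * ((n + 2 : ℕ) : ℝ) + 3) + 2 * (((n + 2 : ℕ) : ℝ) + 1) * s)) =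
        l * ((((n + 2 : ℕ) : ℝ) - 3) * x ^ 2 * s ^ n - (2 * ((n + 2 : ℕ) : ℝ) + 3) * s ^ (n + 2) +
          2 * (((n + 2 : ℕ) : ℝ) + 1) * s ^ (n + 3)) := by
      rw [show s ^ (n + 2) = s ^ n * s ^ 2 by ring, show s ^ (n + 3) = s ^ n * s ^ 3 by ring]
      (clear * - hs; field_simp)
    rw [e1, abs_mul]
    apply mul_le_mul hl _ (abs_nonneg _) hCl
    have p1 : s ^ n ≤ 1 := pow_le_one₀ hs.le hs1
    have p2 : s ^ (n + 2) ≤ 1 := pow_le_one₀ hs.le hs1
    have p3 : s ^ (n + 3) ≤ 1 := pow_le_one₀ hs.le hs1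
    have p10 : 0 ≤ s ^ n := pow_nonneg hs.le _
    have p20 : 0 ≤ s ^ (n + 2) := pow_nonneg hs.le _
    have p30 : 0 ≤ s ^ (n + 3) := pow_nonneg hs.le _
    set M := ((n + 2 : ℕ) : ℝ) with hM
    have g1 : 0 ≤ (M - 3) * x ^ 2 * s ^ n := by
      have : 0 ≤ M - 3 := by linarith only [hm4]
      (clear * - this hx0 hs; positivity)
    have g2 : (M - 3) * x ^ 2 * s ^ n ≤ M - 3 := by
      have h3 : 0 ≤ M - 3 := by linarith only [hm4]
      calc (M - 3) * x ^ 2 * s ^ n ≤ (M - 3) * 1 * 1 := by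
            apply mul_le_mul _ p1 p10 (by linarith only [hm4])
            exact mul_le_mul_of_nonneg_left hx2 h3
        _ = M - 3 := by ring
    rw [abs_le]
    constructor <;> nlinarith only [hpm, hpm10, hm4, g1, hpm0, hpm1, g2]
  have hR : |s ^ m * ((2 * (1 - s ^ 2 / (1 + s)) - 3 * (x ^ 2 / s ^ 2) * l) * w)| ≤ 5 * Cw := by
    have e1 : s ^ m * ((2 * (1 - s ^ 2 / (1 + s)) - 3 * (x ^ 2 / s ^ 2) * l) * w) =
        2 * (1 - s ^ 2 / (1 + s)) * (s ^ m * w) - 3 * (x ^ 2 / s ^ 2) * (s ^ m * (l * w)) := by ring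
    rw [e1]
    have b1 : |2 * (1 - s ^ 2 / (1 + s)) * (s ^ m * w)| ≤ 2 * Cw := by
      rw [abs_mul, abs_mul (s ^ m), abs_of_nonneg hpm0]
      apply mul_le_mul _ hw1 (by (clear * - hs; positivity)) (by norm_num)
      rw [abs_le]; constructor <;> linarith only [q1, q2]
    have b2 : |3 * (x ^ 2 / s ^ 2) * (s ^ m * (l * w))| ≤ 3 * Cw := by
      rw [abs_mul, abs_of_nonneg (by positivity : 0 ≤ 3 * (x ^ 2 / s ^ 2)), abs_mul (s ^ m),
        abs_of_nonneg hpm0, abs_mul l]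
      calc 3 * (x ^ 2 / s ^ 2) * (s ^ m * (|l| * |w|)) ≤ 3 * (x ^ 2 / s ^ 2) * (Cw * s ^ 2) :=
            mul_le_mul_of_nonneg_left hw2 (by positivity)
        _ = 3 * Cw * x ^ 2 := by (clear * - hs hx0; field_simp)
        _ ≤ 3 * Cw * 1 := mul_le_mul_of_nonneg_left hx2 (by positivity)
        _ = 3 * Cw := mul_one _
    calc _ ≤ _ := abs_sub _ _
      _ ≤ 5 * Cw := by linarith only [b1, b2]
  have hB : |s ^ (m + 1) * (bg (τ x) - bgm m)| ≤ 1 + |bgm m| := by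
    rw [abs_mul, abs_of_nonneg hpm10]
    have h1 : |bg (τ x) - bgm m| ≤ 1 + |bgm m| := by
      refine (abs_sub _ _).trans ?_
      have : |bg (τ x)| ≤ 1 := by
        have h2 := sqx_pos (h.mem x hx)
        unfold bg
        rw [abs_of_nonneg (by (clear * - h2; positivity)), div_le_one (by positivity)]
        linarith only []
      linarith only [this]
    calc _ ≤ 1 * (1 + |bgm m|) := mul_le_mul hpm1 h1 (abs_nonneg _) zero_le_one
      _ = _ := one_mul _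
  have hZ : |s ^ (m + 1) * (((m : ℝ) + 3) * x ^ 2 - 1 + 2 * l + 2 * s ^ 2 * w)| ≤
      (m + 4 + 2 * Cl) + 2 * Cw := by
    have e1 : s ^ (m + 1) * (((m : ℝ) + 3) * x ^ 2 - 1 + 2 * l + 2 * s ^ 2 * w) =
      s ^ (m + 1) * (((m : ℝ) + 3) * x ^ 2 - 1 + 2 * l) + 2 * s ^ 3 * (s ^ m * w) := by ring
    rw [e1]
    refine (abs_add_le _ _).trans (add_le_add ?_ ?_)
    · rw [abs_mul, abs_of_nonneg hpm10]
      have : |((m : ℝ) + 3) * x ^ 2 - 1 + 2 * l| ≤ m + 4 + 2 * Cl := by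
        obtain ⟨l1, l2⟩ := abs_le.1 hl
        have : ((m : ℝ) + 3) * x ^ 2 ≤ m + 3 := by nlinarith only [hx2]
        have : 0 ≤ ((m : ℝ) + 3) * x ^ 2 := by positivity
        rw [abs_le]; constructor <;> linarith
      calc _ ≤ 1 * ((m : ℝ) + 4 + 2 * Cl) := mul_le_mul hpm1 this (abs_nonneg _) zero_le_one
        _ = _ := one_mul _
    · rw [abs_mul, abs_mul (s ^ m), abs_of_nonneg hpm0, abs_of_nonneg (by positivity)]
      have : 2 * s ^ 3 ≤ 2 := by
        have := pow_le_one₀ hs.le hs1 (n := 3)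
        linarith only [this]
      exact mul_le_mul this hw1 (by (clear * - hs; positivity)) (by norm_num)
  refine (abs_add_le _ _).trans (add_le_add ((abs_add_le _ _).trans (add_le_add ?_ ?_)) ?_)
  · rw [abs_mul, abs_two]
    apply mul_le_mul_of_nonneg_left _ (by norm_num)
    exact (abs_sub _ _).trans (add_le_add ((abs_add_le _ _).trans (add_le_add hP hQ)) hR)
  · rw [abs_mul, abs_two]
    exact mul_le_mul_of_nonneg_left hB (by norm_num)
  · exact hZ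

/-- **the log line of `kF` with correction as a pair with primitive** -/
theorem fl_pair (hm : 4 ≤ m) (hr : IsProf r) (h : IsTrans m r τ τ' T) :
    FPair m τ τ' (flc m τ) (flc' m τ τ') (flp m τ) (flp' m τ τ') (flΨ m τ) (flΨ' m τ τ')
      (fun x => flT m x (sq x) (lf τ x) (uf τ τ' x) (bg (τ x)) (bg x)) where
  dc := fun x hx => flc_der h hx
  cc := flc'_cont h
  dp := fun x hx => flp_der h hx
  cp := flp'_cont h
  dΨ := fun x hx => flΨ_der (by omega) h hx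
  id := fun x hx => fl_id (by omega) h hx
  c0 := by
    obtain ⟨C, hC⟩ := prc_bdd (by omega) hr h
    refine ⟨2 * C + 1, fun x hx => ?_⟩
    unfold flc
    refine (abs_add_le _ _).trans (add_le_add ?_ ?_)
    · rw [abs_mul, abs_two]
      exact mul_le_mul_of_nonneg_left (hC x hx) (by norm_num)
    · rw [abs_of_nonneg (sq_nonneg x)]
      nlinarith only [hx.1, hx.2]
  p0 := by
    have := ((prp_tendsto (by omega) hr h).const_mul 2).sub (tau_lf_zero (by omega) hr h)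
    rw [mul_zero, sub_zero] at this
    exact this
  c1 := by
    have h1 := (prc_tendsto_one (by omega) hr h).const_mul 2
    rw [mul_zero] at h1
    have h2 : Tendsto (fun x : ℝ => sq x ^ (m + 2) * x ^ 2) (𝓝[<] 1) (𝓝 0) := by
      have hc : Continuous fun x : ℝ => sq x ^ (m + 2) * x ^ 2 :=
        (br_sq_cont.pow _).mul (continuous_pow 2)
      have := hc.tendsto 1
      rw [br_sq_one, zero_pow (by omega), zero_mul] at this
      exact this.mono_left nhdsWithin_le_nhds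
    have := h1.add h2
    rw [add_zero] at this
    refine this.congr fun x => ?_
    unfold flc
    ring
  Ψ0 := flΨ_zero hm hr h
  Ψ1 := flΨ_one hm hr h
  int := fl_int hm hr h

end

end Vale.Agent.P237.AllN
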