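import Vale.Agent.P237.AllN.FBri3

/-!
# P237, all dimensions: bridge for the Fisher route, part 4: power pairs
-/

open MeasureTheory Metric Set Module Filter Topology

namespace Vale.Agent.P237.AllN

/-! ### functions cut off at zero -/

/-- `F` on `(0,∞)`, zero on `(-∞,0]` -/
noncomputable def cut0 (F : ℝ → ℝ) (l : ℝ) : ℝ := if 0 < l then F l else 0

theorem cut0_eq {F : ℝ → ℝ} (h0 : F 0 = 0) : cut0 F = fun l => F (max l 0) := by
  funext l
  unfold cut0
  split_ifs with h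
  · rw [max_eq_left h.le]
  · rw [max_eq_right (not_lt.1 h), h0]

theorem cut0_pos {F : ℝ → ℝ} {l : ℝ} (h : 0 < l) : cut0 F l = F l := if_pos h

theorem cut0_nonpos {F : ℝ → ℝ} {l : ℝ} (h : l ≤ 0) : cut0 F l = 0 := if_neg (not_lt.2 h)

theorem cut0_nonneg {F : ℝ → ℝ} {l : ℝ} (h0 : F 0 = 0) (h : 0 ≤ l) : cut0 F l = F l := by
  rw [cut0_eq h0]
  simp only [max_eq_left h]

theorem cut0_continuous {F : ℝ → ℝ} (hF : Continuous F) (h0 : F 0 = 0) : Continuous (cut0 F) := by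
  rw [cut0_eq h0]
  fun_prop

theorem cut0_hasDerivAt {F F' : ℝ → ℝ} (hF : ∀ l, HasDerivAt F (F' l) l) (h0 : F 0 = 0)
    (h1 : F' 0 = 0) (l : ℝ) : HasDerivAt (cut0 F) (cut0 F' l) l := by
  rcases lt_trichotomy l 0 with h | h | h
  · rw [cut0_nonpos h.le]
    refine (hasDerivAt_const l (0 : ℝ)).congr_of_eventuallyEq ?_
    filter_upwards [Iio_mem_nhds h] with y hy
    exact cut0_nonpos (le_of_lt hy)
  · subst h
    rw [cut0_nonpos le_rfl]
    have h2 := hF 0
    rw [h1, hasDerivAt_iff_isLittleO_nhds_zero] at h2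
    rw [hasDerivAt_iff_isLittleO_nhds_zero]
    refine Asymptotics.IsBigO.trans_isLittleO ?_ h2
    refine Asymptotics.IsBigO.of_bound 1 (Eventually.of_forall fun y => ?_)
    simp only [zero_add, smul_zero, sub_zero, h0, cut0_nonpos (le_refl (0 : ℝ)), one_mul]
    unfold cut0
    split_ifs
    · exact le_refl _
    · rw [norm_zero]
      exact norm_nonneg (F y)
  · rw [cut0_pos h]
    refine (hF l).congr_of_eventuallyEq ?_
    filter_upwards [Ioi_mem_nhds h] with y hy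
    exact cut0_pos hy

section

variable {m : ℕ} {r τ τ' T : ℝ → ℝ}

/-- a continuous function of `l` is bounded along the transport -/
theorem comp_lf_bdd (hm : 1 ≤ m) (hr : IsProf r) (h : IsTrans m r τ τ' T) {F : ℝ → ℝ}
    (hF : Continuous F) : ∃ C : ℝ, 0 ≤ C ∧ ∀ x ∈ Ioo (0 : ℝ) 1, |F (lf τ x)| ≤ C := by
  obtain ⟨Cl, hCl, hb⟩ := lf_bdd hm hr h
  obtain ⟨C, hC⟩ := (isCompact_Icc (a := -Cl) (b := Cl)).exists_bound_of_continuousOn hF.continuousOn
  refine ⟨|C|, abs_nonneg C, fun x hx => ?_⟩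
  have h1 := hC (lf τ x) (by
    have := abs_le.1 (hb x hx)
    exact ⟨this.1, this.2⟩)
  rw [Real.norm_eq_abs] at h1
  exact h1.trans (le_abs_self C)

/-- **pairs of power type** -/
theorem fpow_pair (n : ℕ) (hm : 4 ≤ m) (hr : IsProf r) (h : IsTrans m r τ τ' T)
    {C P G G' : ℝ → ℝ} (hC : ∀ l, HasDerivAt C ((2 * (n : ℝ) + 2) * C l - G' l) l)
    (hP : ∀ l, HasDerivAt P ((2 * (n : ℝ) + 1) * P l + Real.exp l * G' l) l)
    (hG : ∀ l, HasDerivAt G (G' l) l) (hGc : Continuous G') :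
    FPair m τ τ' (fun x => x ^ (2 * n + 2) * C (lf τ x))
      (fun x => x ^ (2 * n + 1) * ((2 * (n : ℝ) + 2) * C (lf τ x) +
        uf τ τ' x * ((2 * (n : ℝ) + 2) * C (lf τ x) - G' (lf τ x))))
      (fun x => x ^ (2 * n + 1) * P (lf τ x))
      (fun x => x ^ (2 * n) * ((2 * (n : ℝ) + 1) * P (lf τ x) +
        uf τ τ' x * ((2 * (n : ℝ) + 1) * P (lf τ x) + Real.exp (lf τ x) * G' (lf τ x))))
      (fun x => x ^ (2 * n + 1) * sq x ^ (m + 2) * G (lf τ x))
      (fun x => sq x ^ m * (x ^ (2 * n) * ((2 * (n : ℝ) + 1) * sq x ^ 2 - ((m : ℝ) + 2) * x ^ 2) *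
        G (lf τ x) + x ^ (2 * n) * sq x ^ 2 * uf τ τ' x * G' (lf τ x)))
      (fun x => ((m : ℝ) + 1 + 2 * ((n : ℝ) + 1)) * x ^ (2 * n + 2) * C (lf τ x) +
        (2 * (n : ℝ) + 1) * x ^ (2 * n) * Real.exp (-lf τ x) * P (lf τ x) -
        x ^ (2 * n) * ((2 * (n : ℝ) + 1) * sq x ^ 2 - ((m : ℝ) + 2) * x ^ 2) * G (lf τ x) -
        sq x ^ 2 * x ^ (2 * n) * G' (lf τ x) * (uf τ τ' x ^ 2 / (1 + uf τ τ' x))) := by
  have hCc : Continuous C := continuous_iff_continuousAt.2 fun l => (hC l).continuousAt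
  have hPc : Continuous P := continuous_iff_continuousAt.2 fun l => (hP l).continuousAt
  have hGc0 : Continuous G := continuous_iff_continuousAt.2 fun l => (hG l).continuousAt
  have hl := lf_cont h
  have hu := uf_cont h
  obtain ⟨BC, hBC, bC⟩ := comp_lf_bdd (by omega) hr h hCc
  obtain ⟨BP, hBP, bP⟩ := comp_lf_bdd (by omega) hr h hPc
  obtain ⟨BG, hBG, bG⟩ := comp_lf_bdd (by omega) hr h hGc0
  obtain ⟨BH, hBH, bH⟩ := comp_lf_bdd (by omega) hr h hGc
  obtain ⟨BE, hBE, bE⟩ := comp_lf_bdd (by omega) hr h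
    (F := fun l => Real.exp (-l) * P l) (by fun_prop)
  obtain ⟨Cw, hCw, hwb⟩ := uw_bdd (by omega) hr h
  have hCl : ContinuousOn (fun x => C (lf τ x)) (Ioo 0 1) := hCc.comp_continuousOn hl
  have hPl : ContinuousOn (fun x => P (lf τ x)) (Ioo 0 1) := hPc.comp_continuousOn hl
  have hGl : ContinuousOn (fun x => G' (lf τ x)) (Ioo 0 1) := hGc.comp_continuousOn hl
  have hEl : ContinuousOn (fun x => Real.exp (lf τ x)) (Ioo 0 1) :=
    Real.continuous_exp.comp_continuousOn hl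
  -- the value
  have hval : ∀ x ∈ Ioo (0 : ℝ) 1, ((m : ℝ) + 1) * (x ^ (2 * n + 2) * C (lf τ x)) +
      (τ x * (x ^ (2 * n + 1) * ((2 * (n : ℝ) + 2) * C (lf τ x) +
        uf τ τ' x * ((2 * (n : ℝ) + 2) * C (lf τ x) - G' (lf τ x)))) +
      x ^ (2 * n) * ((2 * (n : ℝ) + 1) * P (lf τ x) +
        uf τ τ' x * ((2 * (n : ℝ) + 1) * P (lf τ x) + Real.exp (lf τ x) * G' (lf τ x)))) / τ' x =
      ((m : ℝ) + 1 + 2 * ((n : ℝ) + 1)) * x ^ (2 * n + 2) * C (lf τ x) +
        (2 * (n : ℝ) + 1) * x ^ (2 * n) * (Real.exp (-lf τ x) * P (lf τ x)) +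
        x ^ (2 * n) * sq x ^ 2 * (uf τ τ' x / (1 + uf τ τ' x)) * G' (lf τ x) := by
    intro x hx
    have hx0 := hx.1
    have hup := uf_pos h hx
    have ht := tr_pos h hx
    have he : Real.exp (-lf τ x) = x / τ x := by
      rw [Real.exp_neg, exp_lf h hx, inv_div]
    have hxs := sqx_sq hx
    rw [tau'_eq h hx, exp_lf h hx, he]
    have e1 : sq x ^ 2 = 1 - x ^ 2 := by linarith only [hxs]
    rw [e1]
    have p1 : x ^ (2 * n + 2) = x ^ (2 * n) * x ^ 2 := by ring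
    have p2 : x ^ (2 * n + 1) = x ^ (2 * n) * x := by ring
    rw [p1, p2]
    field_simp
    ring
  refine ⟨?_, ?_, ?_, ?_, ?_, ?_, ?_, ?_, ?_, ?_, ?_, ?_⟩
  · intro x hx
    have hx0 := hx.1
    have e1 := (hasDerivAt_pow (2 * n + 2) x).mul ((hC (lf τ x)).comp x (lf_hasDerivAt h hx))
    refine e1.congr_deriv ?_
    simp only [Function.comp_apply]
    push_cast
    rw [show x ^ (2 * n + 2) = x ^ (2 * n + 1) * x by ring]
    (clear * - hx0; field_simp)
  · exact (continuousOn_pow _).mul ((continuousOn_const.mul hCl).add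
      (hu.mul ((continuousOn_const.mul hCl).sub hGl)))
  · intro x hx
    have hx0 := hx.1
    have e1 := (hasDerivAt_pow (2 * n + 1) x).mul ((hP (lf τ x)).comp x (lf_hasDerivAt h hx))
    refine e1.congr_deriv ?_
    simp only [Function.comp_apply]
    push_cast
    rw [show x ^ (2 * n + 1) = x ^ (2 * n) * x by ring]
    (clear * - hx0; field_simp)
  · exact (continuousOn_pow _).mul ((continuousOn_const.mul hPl).add
      (hu.mul ((continuousOn_const.mul hPl).add (hEl.mul hGl))))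
  · intro x hx
    have hx0 := hx.1
    have hs := sqx_pos hx
    have e1 := ((hasDerivAt_pow (2 * n + 1) x).mul ((sqx_der hx).pow (m + 2))).mul
      ((hG (lf τ x)).comp x (lf_hasDerivAt h hx))
    refine e1.congr_deriv ?_
    simp only [Function.comp_apply, Pi.mul_apply, Pi.pow_apply]
    push_cast
    rw [show x ^ (2 * n + 1) = x ^ (2 * n) * x by ring,
      show sq x ^ (m + 2) = sq x ^ m * sq x ^ 2 by ring,
      show sq x ^ (m + 1) = sq x ^ m * sq x by ring]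
    field_simp
    ring
  · intro x hx
    have hup := uf_pos h hx
    rw [hval x hx]
    have e2 : uf τ τ' x ^ 2 / (1 + uf τ τ' x) = uf τ τ' x - uf τ τ' x / (1 + uf τ τ' x) := by
      field_simp
      ring
    rw [e2]
    ring
  · refine ⟨BC, fun x hx => ?_⟩
    have hx' : x ∈ Ioo (0 : ℝ) 1 := ⟨hx.1, by linarith only [hx.2]⟩
    rw [abs_mul, abs_of_nonneg (pow_nonneg hx.1.le _)]
    have h1 : x ^ (2 * n + 2) ≤ 1 := pow_le_one₀ hx.1.le hx'.2.le
    calc x ^ (2 * n + 2) * |C (lf τ x)| ≤ 1 * BC :=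
          mul_le_mul h1 (bC x hx') (abs_nonneg _) zero_le_one
      _ = BC := one_mul _
  · have hc : Continuous fun x : ℝ => BP * x ^ (2 * n + 1) := by fun_prop
    have ht := hc.tendsto 0
    rw [zero_pow (by (clear * -; omega)), mul_zero] at ht
    refine squeeze_zero_norm' ?_ (ht.mono_left nhdsWithin_le_nhds)
    filter_upwards [Ioo_mem_nhdsGT (zero_lt_one' ℝ)] with x hx
    rw [Real.norm_eq_abs, abs_mul, abs_of_nonneg (pow_nonneg hx.1.le _), mul_comm]
    exact mul_le_mul_of_nonneg_right (bP x hx) (pow_nonneg hx.1.le _)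
  · have hc : Continuous fun x : ℝ => BC * sq x ^ (m + 2) := by
      have h1 := br_sq_cont
      fun_prop
    have ht := hc.tendsto 1
    rw [br_sq_one, zero_pow (by omega), mul_zero] at ht
    refine squeeze_zero_norm' ?_ (ht.mono_left nhdsWithin_le_nhds)
    filter_upwards [Ioo_mem_nhdsLT (zero_lt_one' ℝ)] with x hx
    have hs := sqx_pos hx
    rw [Real.norm_eq_abs, abs_mul, abs_of_nonneg (pow_nonneg hs.le _), abs_mul,
      abs_of_nonneg (pow_nonneg hx.1.le _), mul_comm BC]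
    refine mul_le_mul_of_nonneg_left ?_ (pow_nonneg hs.le _)
    have h1 : x ^ (2 * n + 2) ≤ 1 := pow_le_one₀ hx.1.le hx.2.le
    calc x ^ (2 * n + 2) * |C (lf τ x)| ≤ 1 * BC :=
          mul_le_mul h1 (bC x hx) (abs_nonneg _) zero_le_one
      _ = BC := one_mul _
  · have hc : Continuous fun x : ℝ => BG * x ^ (2 * n + 1) := by fun_prop
    have ht := hc.tendsto 0
    rw [zero_pow (by omega), mul_zero] at ht
    refine squeeze_zero_norm' ?_ (ht.mono_left nhdsWithin_le_nhds)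
    filter_upwards [Ioo_mem_nhdsGT (zero_lt_one' ℝ)] with x hx
    have hs := sqx_pos hx
    have h1 : sq x ^ (m + 2) ≤ 1 := pow_le_one₀ hs.le (br_sq_le_one x)
    rw [Real.norm_eq_abs, abs_mul, abs_mul, abs_of_nonneg (pow_nonneg hx.1.le _),
      abs_of_nonneg (pow_nonneg hs.le _)]
    have h2 : x ^ (2 * n + 1) * sq x ^ (m + 2) ≤ x ^ (2 * n + 1) :=
      mul_le_of_le_one_right (pow_nonneg hx.1.le _) h1
    calc x ^ (2 * n + 1) * sq x ^ (m + 2) * |G (lf τ x)| ≤ x ^ (2 * n + 1) * BG :=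
          mul_le_mul h2 (bG x hx) (abs_nonneg _) (pow_nonneg hx.1.le _)
      _ = _ := mul_comm _ _
  · have hc : Continuous fun x : ℝ => BG * sq x ^ (m + 2) := by
      have h1 := br_sq_cont
      fun_prop
    have ht := hc.tendsto 1
    rw [br_sq_one, zero_pow (by omega), mul_zero] at ht
    refine squeeze_zero_norm' ?_ (ht.mono_left nhdsWithin_le_nhds)
    filter_upwards [Ioo_mem_nhdsLT (zero_lt_one' ℝ)] with x hx
    have hs := sqx_pos hx
    have h1 : x ^ (2 * n + 1) ≤ 1 := pow_le_one₀ hx.1.le hx.2.le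
    rw [Real.norm_eq_abs, abs_mul, abs_mul, abs_of_nonneg (pow_nonneg hx.1.le _),
      abs_of_nonneg (pow_nonneg hs.le _)]
    have h2 : x ^ (2 * n + 1) * sq x ^ (m + 2) ≤ sq x ^ (m + 2) :=
      mul_le_of_le_one_left (pow_nonneg hs.le _) h1
    calc x ^ (2 * n + 1) * sq x ^ (m + 2) * |G (lf τ x)| ≤ sq x ^ (m + 2) * BG :=
          mul_le_mul h2 (bG x hx) (abs_nonneg _) (pow_nonneg hs.le _)
      _ = _ := mul_comm _ _
  · refine ⟨((m : ℝ) + 1 + 2 * ((n : ℝ) + 1)) * BC + (2 * (n : ℝ) + 1) * BE + Cw * BH,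
      fun x hx => ?_⟩
    rw [hval x hx]
    obtain ⟨hw1, _⟩ := hwb x hx
    have hs := sqx_pos hx
    have hs1 := br_sq_le_one x
    have hpm : sq x ^ (m + 1) ≤ 1 := pow_le_one₀ hs.le hs1
    have hpm0 : 0 ≤ sq x ^ (m + 1) := pow_nonneg hs.le _
    have hx2 : x ^ (2 * n + 2) ≤ 1 := pow_le_one₀ hx.1.le hx.2.le
    have hx20 : 0 ≤ x ^ (2 * n + 2) := pow_nonneg hx.1.le _
    have hx1 : x ^ (2 * n) ≤ 1 := pow_le_one₀ hx.1.le hx.2.le
    have hx10 : 0 ≤ x ^ (2 * n) := pow_nonneg hx.1.le _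
    have hn0 : (0 : ℝ) ≤ n := Nat.cast_nonneg n
    have hm0 : (0 : ℝ) ≤ m := Nat.cast_nonneg m
    rw [← abs_of_nonneg hpm0, ← abs_mul, add_mul, add_mul]
    refine (abs_add_le _ _).trans (add_le_add ((abs_add_le _ _).trans (add_le_add ?_ ?_)) ?_)
    · rw [abs_mul, abs_mul, abs_mul, abs_of_nonneg hpm0, abs_of_nonneg hx20,
        abs_of_nonneg (by (clear * - hm; positivity) : (0 : ℝ) ≤ (m : ℝ) + 1 + 2 * ((n : ℝ) + 1))]
      have h1 : x ^ (2 * n + 2) * |C (lf τ x)| * sq x ^ (m + 1) ≤ BC := by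
        calc x ^ (2 * n + 2) * |C (lf τ x)| * sq x ^ (m + 1) ≤ 1 * BC * 1 := by
              apply mul_le_mul (mul_le_mul hx2 (bC x hx) (abs_nonneg _) zero_le_one) hpm hpm0
                (by (clear * - hBC; positivity))
          _ = BC := by ring
      calc _ = ((m : ℝ) + 1 + 2 * ((n : ℝ) + 1)) *
            (x ^ (2 * n + 2) * |C (lf τ x)| * sq x ^ (m + 1)) := by ring
        _ ≤ _ := mul_le_mul_of_nonneg_left h1 (by (clear * - hm; positivity))
    · rw [abs_mul, abs_mul, abs_mul, abs_of_nonneg hpm0, abs_of_nonneg hx10,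
        abs_of_nonneg (by (clear * -; positivity) : (0 : ℝ) ≤ 2 * (n : ℝ) + 1)]
      have h1 : x ^ (2 * n) * |Real.exp (-lf τ x) * P (lf τ x)| * sq x ^ (m + 1) ≤ BE := by
        calc x ^ (2 * n) * |Real.exp (-lf τ x) * P (lf τ x)| * sq x ^ (m + 1) ≤ 1 * BE * 1 := by
              apply mul_le_mul (mul_le_mul hx1 (bE x hx) (abs_nonneg _) zero_le_one) hpm hpm0
                (by (clear * - hBE; positivity))
          _ = BE := by ring
      calc _ = (2 * (n : ℝ) + 1) *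
            (x ^ (2 * n) * |Real.exp (-lf τ x) * P (lf τ x)| * sq x ^ (m + 1)) := by ring
        _ ≤ _ := mul_le_mul_of_nonneg_left h1 (by (clear * -; positivity))
    · have e3 : x ^ (2 * n) * sq x ^ 2 * (uf τ τ' x / (1 + uf τ τ' x)) * G' (lf τ x) *
          sq x ^ (m + 1) = (x ^ (2 * n) * sq x ^ 3) *
          ((sq x ^ m * (uf τ τ' x / (1 + uf τ τ' x))) * G' (lf τ x)) := by ring
      rw [e3, abs_mul, abs_mul (sq x ^ m * _), abs_mul (sq x ^ m),
        abs_of_nonneg (pow_nonneg hs.le m), abs_of_nonneg (by (clear * - hx10 hs; positivity))]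
      have h3 : x ^ (2 * n) * sq x ^ 3 ≤ 1 := by
        calc x ^ (2 * n) * sq x ^ 3 ≤ 1 * 1 :=
              mul_le_mul hx1 (pow_le_one₀ hs.le hs1) (pow_nonneg hs.le _) zero_le_one
          _ = 1 := one_mul _
      calc _ ≤ 1 * (Cw * BH) := by
            apply mul_le_mul h3 _ (by (clear * - hs; positivity)) zero_le_one
            exact mul_le_mul hw1 (bH x hx) (abs_nonneg _) hCw
        _ = Cw * BH := one_mul _

end

/-! ### the functions of `l` for the power `k` -/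

/-- intercept function -/
noncomputable def hkC (k l : ℝ) : ℝ :=
  -(1 - 1 / (2 * k)) * Real.exp (-(2 * k * l)) - Real.exp (2 * k * l) / (2 * k) + 1 -
    2 * (k - 1) * l

/-- slope function -/
noncomputable def hkP (k l : ℝ) : ℝ := Real.exp l * (Real.exp (-(2 * k * l)) - 1 + 2 * k * l)

/-- potential -/
noncomputable def hkG (k l : ℝ) : ℝ :=
  (2 * k - 1) / k * (Real.exp (-(2 * k * l)) - 1 + 2 * k * l) - 2 * k * (k - 1) * l ^ 2

noncomputable def hkG' (k l : ℝ) : ℝ :=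
  -(2 * ((2 * k - 1) * (Real.exp (-(2 * k * l)) - 1) + 2 * k * (k - 1) * l))

theorem expk_der (k l : ℝ) :
    HasDerivAt (fun l => Real.exp (-(2 * k * l))) (-(2 * k) * Real.exp (-(2 * k * l))) l := by
  have h := (((hasDerivAt_id l).const_mul (2 * k)).neg).exp
  refine h.congr_deriv ?_
  simp only [_root_.id, Pi.neg_apply]
  ring

theorem expk_der' (k l : ℝ) :
    HasDerivAt (fun l => Real.exp (2 * k * l)) (2 * k * Real.exp (2 * k * l)) l := by
  have h := ((hasDerivAt_id l).const_mul (2 * k)).exp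
  refine h.congr_deriv ?_
  simp only [_root_.id]
  ring

theorem hkG_der {k : ℝ} (hk : 0 < k) (l : ℝ) : HasDerivAt (hkG k) (hkG' k l) l := by
  have h := ((((expk_der k l).sub_const 1).add ((hasDerivAt_id l).const_mul (2 * k))).const_mul
    ((2 * k - 1) / k)).sub ((hasDerivAt_pow 2 l).const_mul (2 * k * (k - 1)))
  refine h.congr_deriv ?_
  unfold hkG'
  simp only [Nat.cast_ofNat, Nat.add_one_sub_one, pow_one]
  field_simp
  ring

theorem hkC_der {k : ℝ} (hk : 0 < k) (l : ℝ) :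
    HasDerivAt (hkC k) (2 * k * hkC k l - hkG' k l) l := by
  have h := ((((expk_der k l).const_mul (-(1 - 1 / (2 * k)))).sub
    ((expk_der' k l).div_const (2 * k))).add_const 1).sub
    ((hasDerivAt_id l).const_mul (2 * (k - 1)))
  refine h.congr_deriv ?_
  unfold hkG' hkC
  field_simp
  ring

theorem hkP_der (k l : ℝ) :
    HasDerivAt (hkP k) ((2 * k - 1) * hkP k l + Real.exp l * hkG' k l) l := by
  have h := (Real.hasDerivAt_exp l).mul
    (((expk_der k l).sub_const 1).add ((hasDerivAt_id l).const_mul (2 * k)))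
  refine h.congr_deriv ?_
  unfold hkG' hkP
  simp only [Pi.add_apply, _root_.id]
  ring

theorem hkC_zero {k : ℝ} (hk : 0 < k) : hkC k 0 = 0 := by
  unfold hkC
  simp only [mul_zero, neg_zero, Real.exp_zero]
  field_simp
  ring

theorem hkP_zero (k : ℝ) : hkP k 0 = 0 := by
  unfold hkP
  simp

theorem hkG_zero (k : ℝ) : hkG k 0 = 0 := by
  unfold hkG
  simp

theorem hkG'_zero (k : ℝ) : hkG' k 0 = 0 := by
  unfold hkG'
  simp

theorem hkG'_cont (k : ℝ) : Continuous (hkG' k) := by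
  unfold hkG'
  fun_prop

/-- cut intercept function -/
theorem cutC_der {k : ℝ} (hk : 0 < k) (l : ℝ) :
    HasDerivAt (cut0 (hkC k)) (2 * k * cut0 (hkC k) l - cut0 (hkG' k) l) l := by
  have h := cut0_hasDerivAt (F := hkC k) (F' := fun l => 2 * k * hkC k l - hkG' k l)
    (hkC_der hk) (hkC_zero hk) (by simp only [hkC_zero hk, hkG'_zero]; ring) l
  refine h.congr_deriv ?_
  unfold cut0
  split_ifs <;> ring

theorem cutP_der {k : ℝ} (l : ℝ) :
    HasDerivAt (cut0 (hkP k)) ((2 * k - 1) * cut0 (hkP k) l + Real.exp l * cut0 (hkG' k) l) l := by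
  have h := cut0_hasDerivAt (F := hkP k) (F' := fun l => (2 * k - 1) * hkP k l +
    Real.exp l * hkG' k l) (hkP_der k) (hkP_zero k)
    (by simp only [hkP_zero, hkG'_zero]; ring) l
  refine h.congr_deriv ?_
  unfold cut0
  split_ifs <;> ring

theorem cutG_der {k : ℝ} (hk : 0 < k) (l : ℝ) :
    HasDerivAt (cut0 (hkG k)) (cut0 (hkG' k) l) l :=
  cut0_hasDerivAt (hkG_der hk) (hkG_zero k) (hkG'_zero k) l

/-- pointwise functional of the power `k = n + 1`, divided by `x^(2n)` -/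
noncomputable def hkT (k m x s l w : ℝ) : ℝ :=
  x ^ 2 * ((2 * k - 1) * (m + 3) / (2 * k) * Real.exp (-(2 * k * l)) -
    (m + 1 + 2 * k) / (2 * k) * Real.exp (2 * k * l) - (m + 2) * (k - 1) / k -
    2 * l * (1 - k * (m + 4))) -
    (2 * k - 1) * (k - 1) / k * s ^ 2 * (Real.exp (-(2 * k * l)) - 1 + 2 * k * l) +
    2 * k * (k - 1) * l ^ 2 * ((2 * k - 1) * s ^ 2 - (m + 2) * x ^ 2) +
    s ^ 2 * w * (2 * (2 * k - 1) * (Real.exp (-(2 * k * l)) - 1) + 4 * k * (k - 1) * l)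

theorem hkT_eq {k m x s l w : ℝ} (hk : 0 < k) (hxs : x ^ 2 = 1 - s ^ 2) :
    (m + 1 + 2 * k) * x ^ 2 * hkC k l + (2 * k - 1) * Real.exp (-l) * hkP k l -
      ((2 * k - 1) * s ^ 2 - (m + 2) * x ^ 2) * hkG k l - s ^ 2 * hkG' k l * w =
    hkT k m x s l w := by
  have he : Real.exp (-l) * hkP k l = Real.exp (-(2 * k * l)) - 1 + 2 * k * l := by
    unfold hkP
    rw [← mul_assoc, ← Real.exp_add, neg_add_cancel, Real.exp_zero, one_mul]
  rw [mul_assoc (2 * k - 1), he]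
  unfold hkC hkG hkG' hkT
  rw [hxs]
  field_simp
  ring

section

variable {m : ℕ} {r τ τ' T : ℝ → ℝ}

/-- **power pair cut at `l = 0`** -/
theorem fcut_pair (n : ℕ) (hm : 4 ≤ m) (hr : IsProf r) (h : IsTrans m r τ τ' T) :
    ∃ c' p' Ψ Ψ' : ℝ → ℝ,
      FPair m τ τ' (fun x => x ^ (2 * n + 2) * cut0 (hkC ((n : ℝ) + 1)) (lf τ x)) c'
        (fun x => x ^ (2 * n + 1) * cut0 (hkP ((n : ℝ) + 1)) (lf τ x)) p' Ψ Ψ'
        (fun x => x ^ (2 * n) * cut0 (fun l => hkT ((n : ℝ) + 1) m x (sq x) l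
          (uf τ τ' x ^ 2 / (1 + uf τ τ' x))) (lf τ x)) := by
  have hk : (0 : ℝ) < (n : ℝ) + 1 := by (clear * -; positivity)
  have h1 := fpow_pair n hm hr h (C := cut0 (hkC ((n : ℝ) + 1))) (P := cut0 (hkP ((n : ℝ) + 1)))
    (G := cut0 (hkG ((n : ℝ) + 1))) (G' := cut0 (hkG' ((n : ℝ) + 1)))
    (fun l => (cutC_der hk l).congr_deriv (by ring))
    (fun l => (cutP_der l).congr_deriv (by ring)) (cutG_der hk)
    (cut0_continuous (hkG'_cont _) (hkG'_zero _))
  refine ⟨_, _, _, _, ⟨h1.dc, h1.cc, h1.dp, h1.cp, h1.dΨ, fun x hx => ?_, h1.c0, h1.p0, h1.c1,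
    h1.Ψ0, h1.Ψ1, h1.int⟩⟩
  refine (h1.id x hx).trans ?_
  congr 2
  rcases le_or_gt (lf τ x) 0 with hl | hl
  · simp only [cut0_nonpos hl, mul_zero, zero_mul, add_zero, sub_zero]
  · simp only [cut0_pos hl]
    rw [← hkT_eq hk (sqx_sq hx)]
    ring

end

end Vale.Agent.P237.AllN
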