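import Vale.Agent.P237.AllN.FBri4

/-!
# P237, all dimensions: bridge for the Fisher route, part 4b: the hybrid pair
-/

open MeasureTheory Metric Set Module Filter Topology

namespace Vale.Agent.P237.AllN

/-- intercept of the hybrid correction -/
noncomputable def hybC (x l : ℝ) : ℝ :=
  3 / 4 * (x ^ 4 * cut0 (hkC 2) l) + 5 / 8 * (x ^ 6 * cut0 (hkC 3) l) +
    35 / 64 * (x ^ 8 * cut0 (hkC 4) l) + 63 / 128 * (x ^ 10 * cut0 (hkC 5) l) +
    231 / 512 * (x ^ 12 * cut0 (hkC 6) l)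

/-- slope of the hybrid correction -/
noncomputable def hybP (x l : ℝ) : ℝ :=
  3 / 4 * (x ^ 3 * cut0 (hkP 2) l) + 5 / 8 * (x ^ 5 * cut0 (hkP 3) l) +
    35 / 64 * (x ^ 7 * cut0 (hkP 4) l) + 63 / 128 * (x ^ 9 * cut0 (hkP 5) l) +
    231 / 512 * (x ^ 11 * cut0 (hkP 6) l)

/-- pointwise functional of the hybrid correction, `w = u²/(1+u)` -/
noncomputable def hybT (m x s l w : ℝ) : ℝ :=
  3 / 4 * (x ^ 2 * cut0 (fun l => hkT 2 m x s l w) l) +
    5 / 8 * (x ^ 4 * cut0 (fun l => hkT 3 m x s l w) l) +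
    35 / 64 * (x ^ 6 * cut0 (fun l => hkT 4 m x s l w) l) +
    63 / 128 * (x ^ 8 * cut0 (fun l => hkT 5 m x s l w) l) +
    231 / 512 * (x ^ 10 * cut0 (fun l => hkT 6 m x s l w) l)

theorem hybT_nonpos {m x s l w : ℝ} (hl : l ≤ 0) : hybT m x s l w = 0 := by
  unfold hybT
  simp only [cut0_nonpos hl, mul_zero, add_zero]

theorem hybT_pos {m x s l w : ℝ} (hl : 0 < l) : hybT m x s l w =
    3 / 4 * (x ^ 2 * hkT 2 m x s l w) + 5 / 8 * (x ^ 4 * hkT 3 m x s l w) +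
    35 / 64 * (x ^ 6 * hkT 4 m x s l w) + 63 / 128 * (x ^ 8 * hkT 5 m x s l w) +
    231 / 512 * (x ^ 10 * hkT 6 m x s l w) := by
  unfold hybT
  simp only [cut0_pos hl]

section

variable {m : ℕ} {r τ τ' T : ℝ → ℝ}

theorem fcut_pair' {n a b c : ℕ} {k : ℝ} (hk : k = (n : ℝ) + 1) (ha : a = 2 * n + 2)
    (hb : b = 2 * n + 1) (hc : c = 2 * n) (hm : 4 ≤ m) (hr : IsProf r)
    (h : IsTrans m r τ τ' T) :
    ∃ c' p' Ψ Ψ' : ℝ → ℝ,
      FPair m τ τ' (fun x => x ^ a * cut0 (hkC k) (lf τ x)) c'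
        (fun x => x ^ b * cut0 (hkP k) (lf τ x)) p' Ψ Ψ'
        (fun x => x ^ c * cut0 (fun l => hkT k m x (sq x) l
          (uf τ τ' x ^ 2 / (1 + uf τ τ' x))) (lf τ x)) := by
  subst hk ha hb hc
  exact fcut_pair n hm hr h

/-- **the hybrid pair** (`k = 2, ..., 6`) on top of the log line -/
theorem hyb_pair (hm : 4 ≤ m) (hr : IsProf r) (h : IsTrans m r τ τ' T) :
    ∃ c' p' Ψ Ψ' : ℝ → ℝ,
      FPair m τ τ' (fun x => flc m τ x + hybC x (lf τ x)) c'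
        (fun x => flp m τ x + hybP x (lf τ x)) p' Ψ Ψ'
        (fun x => flT m x (sq x) (lf τ x) (uf τ τ' x) (bg (τ x)) (bg x) +
          hybT m x (sq x) (lf τ x) (uf τ τ' x ^ 2 / (1 + uf τ τ' x))) := by
  obtain ⟨c2, p2, Ψ2, Ψ2', h2⟩ := fcut_pair' (n := 1) (a := 4) (b := 3) (c := 2) (k := 2)
    (by norm_num) rfl rfl rfl hm hr h
  obtain ⟨c3, p3, Ψ3, Ψ3', h3⟩ := fcut_pair' (n := 2) (a := 6) (b := 5) (c := 4) (k := 3)
    (by norm_num) rfl rfl rfl hm hr h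
  obtain ⟨c4, p4, Ψ4, Ψ4', h4⟩ := fcut_pair' (n := 3) (a := 8) (b := 7) (c := 6) (k := 4)
    (by norm_num) rfl rfl rfl hm hr h
  obtain ⟨c5, p5, Ψ5, Ψ5', h5⟩ := fcut_pair' (n := 4) (a := 10) (b := 9) (c := 8) (k := 5)
    (by norm_num) rfl rfl rfl hm hr h
  obtain ⟨c6, p6, Ψ6, Ψ6', h6⟩ := fcut_pair' (n := 5) (a := 12) (b := 11) (c := 10) (k := 6)
    (by norm_num) rfl rfl rfl hm hr h
  exact ⟨_, _, _, _, (fl_pair hm hr h).add (((((h2.smul (3 / 4)).add (h3.smul (5 / 8))).add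
    (h4.smul (35 / 64))).add (h5.smul (63 / 128))).add (h6.smul (231 / 512)))⟩

/-! ### validity -/

theorem kFc_std {x τ l : ℝ} (hx : x ∈ Ioo (0 : ℝ) 1) (hτ : 0 < τ) (hl : τ = x * Real.exp l) :
    kFc τ (x ^ 2 / τ) = 2 * bc0 (sq x) l + x ^ 2 := by
  have hs := sqx_pos hx
  have hxs := sqx_sq hx
  unfold kFc
  rw [gC_std _ _ _ _ hx.1 hτ hl]
  rw [hxs, fK_eq hs, fK1_eq hs]
  unfold bc0
  field_simp
  ring

theorem kFp_std {x τ l : ℝ} (hx : x ∈ Ioo (0 : ℝ) 1) (hτ : 0 < τ) (hl : τ = x * Real.exp l) :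
    kFp τ (x ^ 2 / τ) = τ * (2 * bM0 (sq x) l - (1 - 2 * l)) := by
  have hs := sqx_pos hx
  have hxs := sqx_sq hx
  have hs1 : 0 < 1 - sq x ^ 2 := by
    rw [← hxs]
    exact pow_pos hx.1 2
  have h1 : sq x < 1 := by nlinarith
  unfold kFp
  rw [gD_std _ _ _ hx.1 hτ hl]
  rw [hxs, fK_eq hs, fK1_eq hs]
  unfold bM0
  have e : (1 - sq x ^ 2) = (1 - sq x) * (1 + sq x) := by ring
  have h2 : (1 - sq x) ≠ 0 := by linarith
  have h3 : (1 + sq x) ≠ 0 := by positivity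
  rw [e]
  field_simp
  ring

theorem exp_pow_two_mul {l : ℝ} (k : ℕ) : Real.exp (2 * (k : ℝ) * l) = Real.exp l ^ (2 * k) := by
  rw [← Real.exp_nat_mul]
  push_cast
  rfl

theorem exp_pow_two_mul_neg {l : ℝ} (k : ℕ) :
    Real.exp (-(2 * (k : ℝ) * l)) = Real.exp (-l) ^ (2 * k) := by
  rw [← Real.exp_nat_mul]
  congr 1
  push_cast
  ring

theorem kHc_std {x τ l : ℝ} (hx : x ∈ Ioo (0 : ℝ) 1) (hτ : 0 < τ) (hl : τ = x * Real.exp l)
    (hl0 : 0 < l) : kHc τ (x ^ 2 / τ) = 2 * bc0 (sq x) l + x ^ 2 + hybC x l := by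
  have h0 := kFc_std hx hτ hl
  unfold kFc at h0
  rw [gC_std _ _ _ _ hx.1 hτ hl] at h0
  unfold kHc
  rw [gC_std _ _ _ _ hx.1 hτ hl]
  have hx0 := hx.1
  have hq : x ^ 2 / τ = x * Real.exp (-l) := by
    rw [hl, Real.exp_neg]
    field_simp
  have e2 := exp_pow_two_mul (l := l) 2
  have e3 := exp_pow_two_mul (l := l) 3
  have e4 := exp_pow_two_mul (l := l) 4
  have e5 := exp_pow_two_mul (l := l) 5
  have e6 := exp_pow_two_mul (l := l) 6
  have g2 := exp_pow_two_mul_neg (l := l) 2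
  have g3 := exp_pow_two_mul_neg (l := l) 3
  have g4 := exp_pow_two_mul_neg (l := l) 4
  have g5 := exp_pow_two_mul_neg (l := l) 5
  have g6 := exp_pow_two_mul_neg (l := l) 6
  push_cast at e2 e3 e4 e5 e6 g2 g3 g4 g5 g6
  unfold hybC
  simp only [cut0_pos hl0]
  unfold hkC
  rw [e2, e3, e4, e5, e6, g2, g3, g4, g5, g6, ← h0, hq, hl]
  unfold hφ hφ1 hK hK1
  ring

theorem kHp_std {x τ l : ℝ} (hx : x ∈ Ioo (0 : ℝ) 1) (hτ : 0 < τ) (hl : τ = x * Real.exp l)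
    (hl0 : 0 < l) :
    kHp τ (x ^ 2 / τ) = τ * (2 * bM0 (sq x) l - (1 - 2 * l)) + hybP x l := by
  have h0 := kFp_std hx hτ hl
  unfold kFp at h0
  rw [gD_std _ _ _ hx.1 hτ hl] at h0
  unfold kHp
  rw [gD_std _ _ _ hx.1 hτ hl]
  have hx0 := hx.1
  have hq : x ^ 2 / τ = x * Real.exp (-l) := by
    rw [hl, Real.exp_neg]
    field_simp
  have hq2 : τ / x ^ 2 = Real.exp l / x := by
    rw [hl]
    field_simp
  have g2 := exp_pow_two_mul_neg (l := l) 2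
  have g3 := exp_pow_two_mul_neg (l := l) 3
  have g4 := exp_pow_two_mul_neg (l := l) 4
  have g5 := exp_pow_two_mul_neg (l := l) 5
  have g6 := exp_pow_two_mul_neg (l := l) 6
  push_cast at g2 g3 g4 g5 g6
  unfold hybP
  simp only [cut0_pos hl0]
  unfold hkP
  rw [g2, g3, g4, g5, g6, ← h0, hq, hq2]
  have hEF : Real.exp l * Real.exp (-l) = 1 := by
    rw [← Real.exp_add, add_neg_cancel, Real.exp_zero]
  have p : ∀ j : ℕ, Real.exp l * Real.exp (-l) ^ (j + 1) = Real.exp (-l) ^ j := by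
    intro j
    rw [pow_succ, mul_comm (Real.exp (-l) ^ j), ← mul_assoc, hEF, one_mul]
  have p4 := p 3
  have p6 := p 5
  have p8 := p 7
  have p10 := p 9
  have p12 := p 11
  norm_num at p4 p6 p8 p10 p12
  unfold hφ1 hK hK1
  set E := Real.exp (-l)
  set F := Real.exp l
  have e : ∀ κ : ℝ, ∀ j : ℕ, F / x * (κ * (x ^ 2) ^ (j + 1)) = κ * (F * x ^ (2 * j + 1)) := by
    intro κ j
    have : (x ^ 2) ^ (j + 1) = x ^ (2 * j + 1) * x := by ring
    rw [this]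
    field_simp
  have hx1 : F / x * x = F := by field_simp
  linear_combination (-(3 / 4) * x ^ 3) * p4 + (-(5 / 8) * x ^ 5) * p6 +
    (-(35 / 64) * x ^ 7) * p8 + (-(63 / 128) * x ^ 9) * p10 + (-(231 / 512) * x ^ 11) * p12 +
    ((-(3 / 4) * x ^ 3 - 5 / 8 * x ^ 5 - 35 / 64 * x ^ 7 - 63 / 128 * x ^ 9 -
      231 / 512 * x ^ 11) + 2 * l * (3 / 4 * 2 * x ^ 3 + 5 / 8 * 3 * x ^ 5 + 35 / 64 * 4 * x ^ 7 +
      63 / 128 * 5 * x ^ 9 + 231 / 512 * 6 * x ^ 11)) * hx1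

/-- **validity of the hybrid line with correction** -/
theorem hyb_line_le (h : IsTrans m r τ τ' T) {x : ℝ} (hx : x ∈ Ioo (0 : ℝ) 1) {b : ℝ}
    (hb : b ∈ Icc (-1 : ℝ) 1) :
    (flc m τ x + hybC x (lf τ x)) + (flp m τ x + hybP x (lf τ x)) * b ≤
      (kF (τ x) b + (bφ m b - bφ m (τ x))) + (bφ m b - bφ m (τ x)) := by
  have ht := tr_pos h hx
  have he := tau_eq_exp h hx
  have h2 := bφ_tangent m (mem_neg (h.mem x hx)) hb
  rcases le_or_gt (lf τ x) 0 with hl | hl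
  · have h1 := kF_std_le (l := lf τ x) hx hl hb
    rw [← he, kFc_std hx ht he, kFp_std hx ht he] at h1
    unfold hybC hybP flc flp prc prp
    simp only [cut0_nonpos hl, mul_zero, add_zero]
    linarith
  · have h1 := kH_std_le (l := lf τ x) hx hl.le (by rw [← he]; exact (h.mem x hx).2) hb
    rw [← he, kHc_std hx ht he hl, kHp_std hx ht he hl] at h1
    unfold flc flp prc prp
    linarith

end

end Vale.Agent.P237.AllN
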