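import Vale.Agent.P237.AllN.FBri3

/-!
# P237, all dimensions: bridge for the Fisher route, part 5: constraint term and null potentials
-/

open MeasureTheory Metric Set Module Filter Topology

namespace Vale.Agent.P237.AllN

/-- `N = m (e^{(l+log(1+u))/m} - 1) - l - u` -/
noncomputable def jN (m l u : ℝ) : ℝ := m * (Real.exp ((l + Real.log (1 + u)) / m) - 1) - l - u

section

variable {m : ℕ} {r τ τ' T : ℝ → ℝ} {x : ℝ}

theorem rpow_tau'_exp (h : IsTrans m r τ τ' T) (hx : x ∈ Ioo (0 : ℝ) 1) :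
    τ' x ^ (1 / (m : ℝ)) = Real.exp ((lf τ x + Real.log (1 + uf τ τ' x)) / m) := by
  have hu := uf_pos h hx
  rw [rpow_tau' h hx, Real.rpow_def_of_pos hu, ← Real.exp_add]
  congr 1
  ring

/-- the potential of the constraint term -/
noncomputable def cnΨ (m : ℕ) (τ : ℝ → ℝ) (κ x : ℝ) : ℝ := κ * (x * sq x ^ (m - 1) * lf τ x)

noncomputable def cnΨ' (m : ℕ) (τ τ' : ℝ → ℝ) (κ x : ℝ) : ℝ :=
  κ * (sq x ^ (m - 1) * ((1 - ((m : ℝ) - 1) * (x ^ 2 / sq x ^ 2)) * lf τ x + uf τ τ' x))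

theorem cnΨ_der (hm : 2 ≤ m) (h : IsTrans m r τ τ' T) (κ : ℝ) (hx : x ∈ Ioo (0 : ℝ) 1) :
    HasDerivAt (cnΨ m τ κ) (cnΨ' m τ τ' κ x) x := by
  have h1 := xs_der (m - 1) hx
  have hl := lf_hasDerivAt h hx
  have hx0 := hx.1.ne'
  have e := (h1.mul hl).const_mul κ
  refine e.congr_deriv ?_
  unfold cnΨ'
  have : ((m - 1 : ℕ) : ℝ) = (m : ℝ) - 1 := by
    rw [Nat.cast_sub (by omega)]; simp
  rw [this]
  field_simp

/-- identity of the constraint term, multiplier `κ m` -/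
theorem cn_id (hm : 2 ≤ m) (h : IsTrans m r τ τ' T) (κ : ℝ) (hx : x ∈ Ioo (0 : ℝ) 1) :
    κ * m * (sq x ^ (m - 1) * τ' x ^ (1 / (m : ℝ)) - sq x ^ (m - 1)) =
    sq x ^ m * (κ / sq x * jN m (lf τ x) (uf τ τ' x) +
      κ * ((m : ℝ) - 1) * (x ^ 2 / sq x ^ 3) * lf τ x) + cnΨ' m τ τ' κ x := by
  rw [rpow_tau'_exp h hx]
  unfold cnΨ' jN
  have hs := sqx_pos hx
  have hpow : sq x ^ m = sq x ^ (m - 1) * sq x := by
    obtain ⟨n, rfl⟩ := Nat.exists_eq_add_of_le' (show 1 ≤ m by omega)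
    rw [Nat.add_sub_cancel, pow_succ]
  rw [hpow]
  field_simp
  ring

theorem bdd_tendsto_zero {f : ℝ → ℝ} {K : ℝ} {k : ℕ}
    (hf : ∀ x ∈ Ioo (0 : ℝ) 1, |f x| ≤ K * (|x| * sq x ^ k)) : Tendsto f (𝓝[>] 0) (𝓝 0) := by
  have hc : Continuous fun x : ℝ => K * (|x| * sq x ^ k) :=
    continuous_const.mul (continuous_abs.mul (br_sq_cont.pow k))
  have ht := hc.tendsto 0
  rw [abs_zero, zero_mul, mul_zero] at ht
  refine squeeze_zero_norm' ?_ (ht.mono_left nhdsWithin_le_nhds)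
  filter_upwards [Ioo_mem_nhdsGT (zero_lt_one' ℝ)] with x hx
  rw [Real.norm_eq_abs]
  exact hf x hx

theorem bdd_tendsto_one {f : ℝ → ℝ} {K : ℝ} {k : ℕ} (hk : k ≠ 0)
    (hf : ∀ x ∈ Ioo (0 : ℝ) 1, |f x| ≤ K * (|x| * sq x ^ k)) : Tendsto f (𝓝[<] 1) (𝓝 0) := by
  have hc : Continuous fun x : ℝ => K * (|x| * sq x ^ k) :=
    continuous_const.mul (continuous_abs.mul (br_sq_cont.pow k))
  have ht := hc.tendsto 1
  rw [br_sq_one, zero_pow hk, mul_zero, mul_zero] at ht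
  refine squeeze_zero_norm' ?_ (ht.mono_left nhdsWithin_le_nhds)
  filter_upwards [Ioo_mem_nhdsLT (zero_lt_one' ℝ)] with x hx
  rw [Real.norm_eq_abs]
  exact hf x hx

theorem cnΨ_bdd (hm : 2 ≤ m) (hr : IsProf r) (h : IsTrans m r τ τ' T) (κ : ℝ) :
    ∃ K : ℝ, ∀ x ∈ Ioo (0 : ℝ) 1, |cnΨ m τ κ x| ≤ K * (|x| * sq x ^ (m - 1)) := by
  obtain ⟨C, hC, hb⟩ := lf_bdd (by omega) hr h
  refine ⟨|κ| * C, fun x hx => ?_⟩
  have hs := sqx_pos hx
  unfold cnΨ
  rw [abs_mul, abs_mul, abs_mul, abs_of_pos (pow_pos hs _)]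
  have h1 : |x| * sq x ^ (m - 1) * |lf τ x| ≤ |x| * sq x ^ (m - 1) * C :=
    mul_le_mul_of_nonneg_left (hb x hx) (by positivity)
  calc |κ| * (|x| * sq x ^ (m - 1) * |lf τ x|) ≤ |κ| * (|x| * sq x ^ (m - 1) * C) :=
        mul_le_mul_of_nonneg_left h1 (abs_nonneg _)
    _ = _ := by ring

/-! ### null potentials `Q(x) l²`, different for `l > 0` and `l ≤ 0` -/

/-- switch -/
noncomputable def sw (l a b : ℝ) : ℝ := if 0 < l then a else b

theorem sw_pos {l a b : ℝ} (h : 0 < l) : sw l a b = a := if_pos h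

theorem sw_neg {l a b : ℝ} (h : l ≤ 0) : sw l a b = b := if_neg (not_lt.2 h)

theorem sw_abs_le {l a b : ℝ} : |sw l a b| ≤ |a| + |b| := by
  unfold sw
  split_ifs
  · linarith [abs_nonneg b]
  · linarith [abs_nonneg a]

/-- continuity of a switched function -/
theorem sw_cont {s : Set ℝ} {l f g : ℝ → ℝ} (hl : ContinuousOn l s) (hf : ContinuousOn f s)
    (hg : ContinuousOn g s) (h0 : ∀ x ∈ s, l x = 0 → f x = g x) :
    ContinuousOn (fun x => sw (l x) (f x) (g x)) s := by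
  rw [continuousOn_iff_continuous_domRestrict] at *
  have h1 : Continuous (fun x : s => if l x.1 ≤ 0 then g x.1 else f x.1) := by
    refine Continuous.if_le hg hf hl continuous_const ?_
    rintro ⟨x, hx⟩ h2
    exact (h0 x hx h2).symm
  refine h1.congr fun x => ?_
  show (if l x.1 ≤ 0 then g x.1 else f x.1) = sw (l x.1) (f x.1) (g x.1)
  unfold sw
  by_cases h2 : 0 < l x.1
  · rw [if_pos h2, if_neg (not_le.2 h2)]
  · rw [if_neg h2, if_pos (not_lt.1 h2)]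

/-- derivative of `Q(x) l²` with a switch at `l = 0` -/
theorem sw_der {l f g f' g' : ℝ → ℝ} {l' x : ℝ} (hl : HasDerivAt l l' x)
    (hf : HasDerivAt f (f' x) x) (hg : HasDerivAt g (g' x) x) :
    HasDerivAt (fun x => sw (l x) (f x) (g x) * l x ^ 2)
      (sw (l x) (f' x) (g' x) * l x ^ 2 + 2 * sw (l x) (f x) (g x) * l x * l') x := by
  rcases lt_trichotomy (l x) 0 with h | h | h
  · have e : HasDerivAt (fun x => g x * l x ^ 2) (g' x * l x ^ 2 + 2 * g x * l x * l') x := by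
      refine (hg.mul (hl.pow 2)).congr_deriv ?_
      simp only [Pi.pow_apply]
      push_cast
      ring
    rw [sw_neg h.le, sw_neg h.le]
    refine e.congr_of_eventuallyEq ?_
    filter_upwards [hl.continuousAt.eventually (Iio_mem_nhds h)] with y hy
    rw [sw_neg (le_of_lt hy)]
  · -- at `l x = 0`
    rw [h]
    have e : sw 0 (f' x) (g' x) * (0 : ℝ) ^ 2 + 2 * sw 0 (f x) (g x) * 0 * l' = 0 := by ring
    rw [e]
    -- `|F y| ≤ (|f y| + |g y|) l(y)²`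
    have hB : HasDerivAt (fun y => l y ^ 2) 0 x := by
      refine (hl.pow 2).congr_deriv ?_
      rw [h]
      simp
    have hO : (fun y => l y ^ 2) =o[𝓝 x] fun y => y - x := by
      have := hB.isLittleO
      rw [h] at this
      simpa using this
    have hbd : (fun y => sw (l y) (f y) (g y)) =O[𝓝 x] fun _ => (1 : ℝ) := by
      have h1 : (fun y => |f y| + |g y|) =O[𝓝 x] fun _ => (1 : ℝ) :=
        (hf.continuousAt.abs.add hg.continuousAt.abs).isBigO_one ℝ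
      refine Asymptotics.IsBigO.trans ?_ h1
      refine Asymptotics.isBigO_of_le _ fun y => ?_
      rw [Real.norm_eq_abs, Real.norm_eq_abs]
      exact sw_abs_le.trans (le_abs_self _)
    have h2 := hbd.mul_isLittleO hO
    simp only [one_mul] at h2
    rw [hasDerivAt_iff_isLittleO]
    refine h2.congr_left fun y => ?_
    rw [h]
    simp
  · have e : HasDerivAt (fun x => f x * l x ^ 2) (f' x * l x ^ 2 + 2 * f x * l x * l') x := by
      refine (hf.mul (hl.pow 2)).congr_deriv ?_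
      simp only [Pi.pow_apply]
      push_cast
      ring
    rw [sw_pos h, sw_pos h]
    refine e.congr_of_eventuallyEq ?_
    filter_upwards [hl.continuousAt.eventually (Ioi_mem_nhds h)] with y hy
    rw [sw_pos (mem_Ioi.1 hy)]

/-- potential `x s^m Q(x) l²` and its derivative -/
noncomputable def nuΨ (m : ℕ) (τ Qp Qm : ℝ → ℝ) (x : ℝ) : ℝ :=
  x * sq x ^ m * (sw (lf τ x) (Qp x) (Qm x) * lf τ x ^ 2)

noncomputable def nuT (m : ℝ) (x s l u q xq' : ℝ) : ℝ :=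
  (1 - m * (x ^ 2 / s ^ 2)) * q * l ^ 2 + xq' * l ^ 2 + 2 * q * l * u

theorem nuΨ_der (h : IsTrans m r τ τ' T) {Qp Qp' Qm Qm' : ℝ → ℝ}
    (hx : x ∈ Ioo (0 : ℝ) 1) (hp : HasDerivAt Qp (Qp' x) x) (hq : HasDerivAt Qm (Qm' x) x) :
    HasDerivAt (nuΨ m τ Qp Qm) (sq x ^ m * nuT m x (sq x) (lf τ x) (uf τ τ' x)
      (sw (lf τ x) (Qp x) (Qm x)) (x * sw (lf τ x) (Qp' x) (Qm' x))) x := by
  have h1 := xs_der m hx
  have h2 := sw_der (lf_hasDerivAt h hx) hp hq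
  refine (h1.mul h2).congr_deriv ?_
  unfold nuT
  have hx0 := hx.1.ne'
  have hs := sqx_pos hx
  field_simp
  ring

theorem nuΨ_bdd (hm : 4 ≤ m) (hr : IsProf r) (h : IsTrans m r τ τ' T) {Qp Qm : ℝ → ℝ} {K1 K2 : ℝ}
    (hp : ∀ x ∈ Ioo (0 : ℝ) 1, |Qp x| * sq x ^ 3 ≤ K1)
    (hq : ∀ x ∈ Ioo (0 : ℝ) 1, |Qm x| * sq x ^ 3 ≤ K2) :
    ∃ K : ℝ, ∀ x ∈ Ioo (0 : ℝ) 1, |nuΨ m τ Qp Qm x| ≤ K * (|x| * sq x ^ (m - 3)) := by
  obtain ⟨C, hC, hb⟩ := lf_bdd (by omega) hr h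
  refine ⟨(K1 + K2) * C ^ 2, fun x hx => ?_⟩
  have hs := sqx_pos hx
  have e : |nuΨ m τ Qp Qm x| =
      (|sw (lf τ x) (Qp x) (Qm x)| * sq x ^ 3) * lf τ x ^ 2 * (|x| * sq x ^ (m - 3)) := by
    unfold nuΨ
    obtain ⟨n, rfl⟩ := Nat.exists_eq_add_of_le' hm
    have e2 : n + 4 - 3 = n + 1 := rfl
    rw [e2, abs_mul, abs_mul, abs_mul, abs_of_nonneg (sq_nonneg (lf τ x)),
      abs_of_pos (pow_pos hs _), show sq x ^ (n + 4) = sq x ^ (n + 1) * sq x ^ 3 by ring]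
    ring
  rw [e]
  apply mul_le_mul_of_nonneg_right _ (by positivity)
  have h1 : |sw (lf τ x) (Qp x) (Qm x)| * sq x ^ 3 ≤ K1 + K2 := by
    calc _ ≤ (|Qp x| + |Qm x|) * sq x ^ 3 :=
          mul_le_mul_of_nonneg_right sw_abs_le (by positivity)
      _ ≤ K1 + K2 := by rw [add_mul]; exact add_le_add (hp x hx) (hq x hx)
  have h2 : lf τ x ^ 2 ≤ C ^ 2 := by
    rw [← sq_abs]
    exact pow_le_pow_left₀ (abs_nonneg _) (hb x hx) 2
  have h3 : 0 ≤ K1 + K2 := (by positivity : 0 ≤ |sw (lf τ x) (Qp x) (Qm x)| * sq x ^ 3).trans h1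
  exact mul_le_mul h1 h2 (sq_nonneg _) h3

end

end Vale.Agent.P237.AllN
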