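import Vale.Agent.P237.AllN.FBri5

/-!
# P237, all dimensions: bridge for the Fisher route, part 6: the J-test gives the two values
-/

open MeasureTheory Metric Set Module Filter Topology

namespace Vale.Agent.P237.AllN

/-- Fisher part of the functional, `a = e^{-2l}` -/
noncomputable def jT (m x s l u : ℝ) : ℝ :=
  (m + 3) * x ^ 2 * (Real.exp (-(2 * l)) - 1) +
    4 * s ^ 2 * Real.exp (-(2 * l)) * (u ^ 2 / (1 + u))

/-- `e₁` with the null function `q(x) l`, `xq' = x q'(x)`, `κ₁ = 2c` -/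
noncomputable def jE (m κ₁ x s l u q xq' : ℝ) : ℝ :=
  jT m x s l u + (κ₁ / s * jN m l u + κ₁ * (m - 1) * (x ^ 2 / s ^ 3) * l) +
    ((1 - m * (x ^ 2 / s ^ 2)) * (q * l) + xq' * l + q * u)

section

variable {m : ℕ} {r τ τ' T : ℝ → ℝ}

theorem jN_cont (h : IsTrans m r τ τ' T) :
    ContinuousOn (fun x => jN m (lf τ x) (uf τ τ' x)) (Ioo 0 1) := by
  have hl := lf_cont h
  have hu := uf_cont h
  have hlog : ContinuousOn (fun x => Real.log (1 + uf τ τ' x)) (Ioo 0 1) :=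
    (continuousOn_const.add hu).log fun x hx => (uf_pos h hx).ne'
  unfold jN
  exact ((continuousOn_const.mul ((Real.continuous_exp.comp_continuousOn
    ((hl.add hlog).div_const _)).sub continuousOn_const)).sub hl).sub hu

theorem W_cont (h : IsTrans m r τ τ' T) :
    ContinuousOn (fun x => uf τ τ' x ^ 2 / (1 + uf τ τ' x)) (Ioo 0 1) :=
  ((uf_cont h).pow 2).div (continuousOn_const.add (uf_cont h)) fun x hx => (uf_pos h hx).ne'

theorem jT_cont (h : IsTrans m r τ τ' T) :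
    ContinuousOn (fun x => jT m x (sq x) (lf τ x) (uf τ τ' x)) (Ioo 0 1) := by
  have hl := lf_cont h
  have hW := W_cont h
  have hs : ContinuousOn sq (Ioo (0 : ℝ) 1) := br_sq_cont.continuousOn
  have hid : ContinuousOn (fun x : ℝ => x) (Ioo (0 : ℝ) 1) := continuousOn_id
  have ha : ContinuousOn (fun x => Real.exp (-(2 * lf τ x))) (Ioo 0 1) :=
    Real.continuous_exp.comp_continuousOn (continuousOn_const.mul hl).neg
  unfold jT
  exact ((continuousOn_const.mul (hid.pow 2)).mul (ha.sub continuousOn_const)).add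
    (((continuousOn_const.mul (hs.pow 2)).mul ha).mul hW)

theorem inv_s_cont (k : ℕ) : ContinuousOn (fun x : ℝ => x ^ 2 / sq x ^ k) (Ioo (0 : ℝ) 1) :=
  (continuousOn_id.pow 2).div (br_sq_cont.continuousOn.pow k) fun y hy => sq_ne y hy k

theorem cn_cont (h : IsTrans m r τ τ' T) (κ : ℝ) :
    ContinuousOn (fun x => κ / sq x * jN m (lf τ x) (uf τ τ' x) +
      κ * ((m : ℝ) - 1) * (x ^ 2 / sq x ^ 3) * lf τ x) (Ioo 0 1) := by
  have hs : ContinuousOn sq (Ioo (0 : ℝ) 1) := br_sq_cont.continuousOn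
  exact ((continuousOn_const.div hs fun x hx => (sqx_pos hx).ne').mul (jN_cont h)).add
    ((continuousOn_const.mul (inv_s_cont 3)).mul (lf_cont h))

theorem jE_cont (h : IsTrans m r τ τ' T) (κ₁ : ℝ) {q q' : ℝ → ℝ}
    (hq : ∀ x ∈ Ioo (0 : ℝ) 1, HasDerivAt q (q' x) x) (hq' : ContinuousOn q' (Ioo 0 1)) :
    ContinuousOn (fun x => jE m κ₁ x (sq x) (lf τ x) (uf τ τ' x) (q x) (x * q' x)) (Ioo 0 1) := by
  have hqc : ContinuousOn q (Ioo 0 1) := fun x hx => (hq x hx).continuousAt.continuousWithinAt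
  have hid : ContinuousOn (fun x : ℝ => x) (Ioo (0 : ℝ) 1) := continuousOn_id
  have hl := lf_cont h
  have hu := uf_cont h
  unfold jE
  exact ((jT_cont h).add (cn_cont h κ₁)).add
    ((((continuousOn_const.sub (continuousOn_const.mul (inv_s_cont 2))).mul (hqc.mul hl)).add
      ((hid.mul hq').mul hl)).add (hqc.mul hu))

theorem nuT_cont (h : IsTrans m r τ τ' T) {Qp Qp' Qm Qm' : ℝ → ℝ}
    (hp : ∀ x ∈ Ioo (0 : ℝ) 1, HasDerivAt Qp (Qp' x) x) (hp' : ContinuousOn Qp' (Ioo 0 1))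
    (hq : ∀ x ∈ Ioo (0 : ℝ) 1, HasDerivAt Qm (Qm' x) x) (hq' : ContinuousOn Qm' (Ioo 0 1)) :
    ContinuousOn (fun x => nuT m x (sq x) (lf τ x) (uf τ τ' x)
      (sw (lf τ x) (Qp x) (Qm x)) (x * sw (lf τ x) (Qp' x) (Qm' x))) (Ioo 0 1) := by
  have hpc : ContinuousOn Qp (Ioo 0 1) := fun x hx => (hp x hx).continuousAt.continuousWithinAt
  have hqc : ContinuousOn Qm (Ioo 0 1) := fun x hx => (hq x hx).continuousAt.continuousWithinAt
  have hl := lf_cont h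
  have hu := uf_cont h
  have hid : ContinuousOn (fun x : ℝ => x) (Ioo (0 : ℝ) 1) := continuousOn_id
  have e : ∀ x, nuT m x (sq x) (lf τ x) (uf τ τ' x)
      (sw (lf τ x) (Qp x) (Qm x)) (x * sw (lf τ x) (Qp' x) (Qm' x)) =
      (1 - (m : ℝ) * (x ^ 2 / sq x ^ 2)) * (sw (lf τ x) (Qp x * lf τ x) (Qm x * lf τ x)) * lf τ x +
      x * (sw (lf τ x) (Qp' x * lf τ x) (Qm' x * lf τ x)) * lf τ x +
      2 * (sw (lf τ x) (Qp x * lf τ x) (Qm x * lf τ x)) * uf τ τ' x := by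
    intro x
    unfold nuT sw
    split_ifs <;> ring
  have c1 : ContinuousOn (fun x => sw (lf τ x) (Qp x * lf τ x) (Qm x * lf τ x)) (Ioo 0 1) :=
    sw_cont hl (hpc.mul hl) (hqc.mul hl) fun x _ h0 => by rw [h0, mul_zero, mul_zero]
  have c2 : ContinuousOn (fun x => sw (lf τ x) (Qp' x * lf τ x) (Qm' x * lf τ x)) (Ioo 0 1) :=
    sw_cont hl (hp'.mul hl) (hq'.mul hl) fun x _ h0 => by rw [h0, mul_zero, mul_zero]
  refine (((((continuousOn_const.sub (continuousOn_const.mul (inv_s_cont 2))).mul c1).mul hl).add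
    ((hid.mul c2).mul hl)).add ((continuousOn_const.mul c1).mul hu)).congr fun x _ => e x

/-- integrability of a function bounded by `C/s` after multiplication by `s^m` -/
theorem ii_of_int {k : ℝ → ℝ} {C : ℝ} (hk : ContinuousOn k (Ioo 0 1))
    (hb : ∀ x ∈ Ioo (0 : ℝ) 1, |k x| * sq x ^ (m + 1) ≤ C) :
    IntervalIntegrable (fun x => k x * sq x ^ m) volume 0 1 := by
  have hint : IntervalIntegrable (fun x : ℝ => (1 - x) ^ (-(1 / 2) : ℝ)) volume 0 1 := by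
    have h0 : IntervalIntegrable (fun x : ℝ => x ^ (-(1 / 2) : ℝ)) volume 0 1 :=
      intervalIntegral.intervalIntegrable_rpow' (by norm_num)
    have h1 := (h0.comp_sub_left 1).symm
    simpa only [one_div, sub_self, sub_zero] using h1
  rw [intervalIntegrable_iff_integrableOn_Ioo_of_le zero_le_one] at hint ⊢
  refine Integrable.mono' (hint.const_mul C)
    ((hk.mul (br_sq_cont.pow m).continuousOn).aestronglyMeasurable measurableSet_Ioo) ?_
  refine (ae_restrict_mem measurableSet_Ioo).mono fun x hx => ?_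
  have hs := sqx_pos hx
  have hxs := sqx_sq hx
  have hC : 0 ≤ C := le_trans (by (clear * - hs; positivity)) (hb x hx)
  have h1 : 0 < 1 - x := by linarith only [hx.2]
  -- `1/s ≤ (1-x)^(-1/2)`
  have h2 : 1 / sq x ≤ (1 - x) ^ (-(1 / 2) : ℝ) := by
    rw [Real.rpow_neg h1.le, ← Real.sqrt_eq_rpow, ← one_div]
    apply one_div_le_one_div_of_le (Real.sqrt_pos.2 h1)
    unfold sq
    apply Real.sqrt_le_sqrt
    nlinarith only [h1, hx.1]
  rw [Real.norm_eq_abs, abs_mul, abs_of_pos (pow_pos hs m)]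
  have h3 : |k x| * sq x ^ m ≤ C * (1 / sq x) := by
    rw [mul_one_div, le_div_iff₀ hs]
    have := hb x hx
    rw [pow_succ] at this
    linarith only [this]
  exact h3.trans (mul_le_mul_of_nonneg_left h2 hC)

/-- **the J-test gives the two values** -/
theorem values_of_jtest (hm : 4 ≤ m) {A : ℝ → ℝ → ℝ} (hA : Kern2 A) (hr : IsProf r)
    (hT : IsTrans m r τ τ' T)
    (hN : (∫ y in (-1 : ℝ)..1, r y ^ (m - 1)) ^ m * aInt m ^ (m - 1) ≤
      aInt (m - 1) ^ m * (∫ y in (-1 : ℝ)..1, r y ^ m) ^ (m - 1))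
    {c c' p p' ΨK ΨK' TK : ℝ → ℝ} (hK : FPair m τ τ' c c' p p' ΨK ΨK' TK)
    (hTK : ContinuousOn TK (Ioo 0 1))
    (hle : ∀ x ∈ Ioo (0 : ℝ) 1, ∀ b ∈ Icc (-1 : ℝ) 1, c x + p x * b ≤ A (τ x) b)
    {κ κ₁ : ℝ} (hκ₁ : 0 ≤ κ₁) (hκ : κ₁ ≤ κ)
    {Qp Qp' Qm Qm' : ℝ → ℝ} {K1 K2 K3 : ℝ}
    (hQp : ∀ x ∈ Ioo (0 : ℝ) 1, HasDerivAt Qp (Qp' x) x) (hQp' : ContinuousOn Qp' (Ioo 0 1))
    (hQm : ∀ x ∈ Ioo (0 : ℝ) 1, HasDerivAt Qm (Qm' x) x) (hQm' : ContinuousOn Qm' (Ioo 0 1))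
    (hQpb : ∀ x ∈ Ioo (0 : ℝ) 1, |Qp x| * sq x ^ 3 ≤ K1)
    (hQmb : ∀ x ∈ Ioo (0 : ℝ) 1, |Qm x| * sq x ^ 3 ≤ K2)
    {q q' : ℝ → ℝ}
    (hq : ∀ x ∈ Ioo (0 : ℝ) 1, HasDerivAt q (q' x) x) (hq' : ContinuousOn q' (Ioo 0 1))
    (hqb : ∀ x ∈ Ioo (0 : ℝ) 1, |q x| * sq x ^ 3 ≤ K3)
    {ρ : ℝ → ℝ} (hρ : ContinuousOn ρ (Ioo 0 1))
    (hρi : IntervalIntegrable (fun x => ρ x * sq x ^ m) volume 0 1)
    (hρ1 : ∫ x in (0 : ℝ)..1, ρ x * sq x ^ m = ∫ x in (0 : ℝ)..1, sq x ^ m)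
    (hJ : ∀ x ∈ Ioo (0 : ℝ) 1,
      0 < ρ x + jE m κ₁ x (sq x) (lf τ x) (uf τ τ' x) (q x) (x * q' x) ∧
      jE m κ₁ x (sq x) (lf τ x) (uf τ τ' x) (q x) (x * q' x) ^ 2 ≤
        (TK x + jT m x (sq x) (lf τ x) (uf τ τ' x) +
          (κ / sq x * jN m (lf τ x) (uf τ τ' x) +
            κ * ((m : ℝ) - 1) * (x ^ 2 / sq x ^ 3) * lf τ x) +
          nuT m x (sq x) (lf τ x) (uf τ τ' x) (sw (lf τ x) (Qp x) (Qm x))
            (x * sw (lf τ x) (Qp' x) (Qm' x))) *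
        (ρ x + jE m κ₁ x (sq x) (lf τ x) (uf τ τ' x) (q x) (x * q' x)) ∧
      (uf τ τ' x ≠ 0 →
        jE m κ₁ x (sq x) (lf τ x) (uf τ τ' x) (q x) (x * q' x) ^ 2 <
        (TK x + jT m x (sq x) (lf τ x) (uf τ τ' x) +
          (κ / sq x * jN m (lf τ x) (uf τ τ' x) +
            κ * ((m : ℝ) - 1) * (x ^ 2 / sq x ^ 3) * lf τ x) +
          nuT m x (sq x) (lf τ x) (uf τ τ' x) (sw (lf τ x) (Qp x) (Qm x))
            (x * sw (lf τ x) (Qp' x) (Qm' x))) *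
        (ρ x + jE m κ₁ x (sq x) (lf τ x) (uf τ τ' x) (q x) (x * q' x)))) :
    (∃ k : ℝ, ∀ y ∈ Ioo (-1 : ℝ) 1, r y = k * Real.sqrt (1 - y ^ 2)) ∨
    ∃ v w : ℝ, AdmGe m A r v ∧ FisGe m r w ∧ 0 < w ∧
      (1 : ℝ) * ((∫ y in (-1 : ℝ)..1, r y ^ m) / w - 1) * (∫ y in (-1 : ℝ)..1, r y ^ m) < v := by
  by_cases hu : ∀ x ∈ Ioo (0 : ℝ) 1, uf τ τ' x = 0
  · exact Or.inl (ball_of_u_zero (by omega) hr hT hu)
  right
  push Not at hu
  obtain ⟨x1, hx1, hux1⟩ := hu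
  have hm1 : 1 ≤ m := by omega
  have hm0 : (0 : ℝ) < m := by exact_mod_cast (by omega : 0 < m)
  set E : ℝ → ℝ := fun x => jE m κ₁ x (sq x) (lf τ x) (uf τ τ' x) (q x) (x * q' x) with hE
  set TT : ℝ → ℝ := fun x => TK x + jT m x (sq x) (lf τ x) (uf τ τ' x) +
          (κ / sq x * jN m (lf τ x) (uf τ τ' x) +
            κ * ((m : ℝ) - 1) * (x ^ 2 / sq x ^ 3) * lf τ x) +
          nuT m x (sq x) (lf τ x) (uf τ τ' x) (sw (lf τ x) (Qp x) (Qm x))
            (x * sw (lf τ x) (Qp' x) (Qm' x)) with hTT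
  have hsm : ContinuousOn (fun x => sq x ^ m) (Ioo (0 : ℝ) 1) := (br_sq_cont.pow m).continuousOn
  have hEc : ContinuousOn E (Ioo 0 1) := jE_cont hT κ₁ hq hq'
  have hTTc : ContinuousOn TT (Ioo 0 1) :=
    ((hTK.add (jT_cont hT)).add (cn_cont hT κ)).add (nuT_cont hT hQp hQp' hQm hQm')
  have hqc : ContinuousOn q (Ioo 0 1) := fun x hx => (hq x hx).continuousAt.continuousWithinAt
  -- the potential of `e₁`
  have hqψ : ∀ x ∈ Ioo (0 : ℝ) 1, HasDerivAt (fun x => x * sq x ^ m * (q x * lf τ x))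
      (sq x ^ m * ((1 - (m : ℝ) * (x ^ 2 / sq x ^ 2)) * (q x * lf τ x) + x * q' x * lf τ x +
        q x * uf τ τ' x)) x := by
    intro x hx
    have hl := lf_hasDerivAt hT hx
    have hx0 := hx.1.ne'
    refine (null_der m hx ((hq x hx).mul hl)).congr_deriv ?_
    simp only [Pi.mul_apply]
    field_simp
    ring
  obtain ⟨Cl, hCl, hlb⟩ := lf_bdd hm1 hr hT
  have hqlb : ∀ x ∈ Ioo (0 : ℝ) 1, |q x * lf τ x| * sq x ^ 3 ≤ K3 * Cl := by
    intro x hx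
    have hs := sqx_pos hx
    rw [abs_mul, mul_right_comm]
    exact mul_le_mul (hqb x hx) (hlb x hx) (abs_nonneg _)
      ((by (clear * - hs; positivity) : 0 ≤ |q x| * sq x ^ 3).trans (hqb x hx))
  have hqΨb : ∀ x ∈ Ioo (0 : ℝ) 1, |x * sq x ^ m * (q x * lf τ x)| ≤
      K3 * Cl * (|x| * sq x ^ (m - 3)) := by
    intro x hx
    have hs := sqx_pos hx
    obtain ⟨n, rfl⟩ := Nat.exists_eq_add_of_le' (show 3 ≤ m by omega)
    rw [Nat.add_sub_cancel, abs_mul, abs_mul, abs_of_pos (pow_pos hs _),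
      show |x| * sq x ^ (n + 3) * |q x * lf τ x| =
        (|q x * lf τ x| * sq x ^ 3) * (|x| * sq x ^ n) by ring]
    exact mul_le_mul_of_nonneg_right (hqlb x hx) (by (clear * - hs; positivity))
  obtain ⟨Kc, hKc⟩ := cnΨ_bdd (by omega) hr hT κ
  obtain ⟨Kc1, hKc1⟩ := cnΨ_bdd (by omega) hr hT κ₁
  obtain ⟨Kn, hKn⟩ := nuΨ_bdd hm hr hT hQpb hQmb
  -- limits of `jΨ`
  have hjb : ∀ x ∈ Ioo (0 : ℝ) 1, |jΨ m τ x| ≤ (2 * Real.exp (2 * Cl) + 1) * (|x| * sq x ^ m) := by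
    intro x hx
    have hs := sqx_pos hx
    have hs2 : sq x ^ 2 ≤ 1 := pow_le_one₀ hs.le (br_sq_le_one x)
    unfold jΨ
    rw [abs_mul, abs_mul, abs_of_pos (pow_pos hs m), mul_comm]
    apply mul_le_mul_of_nonneg_right _ (by (clear * - hs; positivity))
    refine (abs_sub _ _).trans (add_le_add ?_ ?_)
    · rw [abs_of_pos (by (clear * - hs; positivity))]
      have h1 : Real.exp (-(2 * lf τ x)) ≤ Real.exp (2 * Cl) := by
        apply Real.exp_le_exp.2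
        have := (abs_le.1 (hlb x hx)).1
        linarith only [this]
      have := mul_le_mul hs2 h1 (Real.exp_pos _).le zero_le_one
      linarith only [this]
    · rw [abs_of_pos (pow_pos hs 2)]
      exact hs2
  obtain ⟨Ck, hCk⟩ := hK.int
  have hkc : ContinuousOn (fun x => ((m : ℝ) + 1) * c x + (τ x * c' x + p' x) / τ' x)
      (Ioo 0 1) :=
    (continuousOn_const.mul fun x hx => (hK.dc x hx).continuousAt.continuousWithinAt).add
      ((((tau_cont hT).mul hK.cc).add hK.cp).div hT.cont fun x hx => (hT.pos x hx).ne')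
  refine values_of_cert (m := m) (by omega) hA hr hT hN hK.dc hK.cc hK.dp hK.cp hle hK.c0 hK.p0
    hK.c1 (q := jq τ) (q' := jq' τ τ') (fun x hx => jq_der hT hx) (jq'_cont hT)
    (jq_tendsto_zero hm1 hr hT) (jq_bdd hm1 hr hT)
    (k := fun x => ((m : ℝ) + 1) * c x + (τ x * c' x + p' x) / τ' x) (j := jF m τ τ')
    (fun _ _ => rfl) (fun _ _ => rfl) (ii_of_int hkc hCk) (jF_ii hm1 hr hT)
    (μ := κ * m) (μ₁ := κ₁ * m) (by (clear * - hκ₁ hm; positivity)) (mul_le_mul_of_nonneg_right hκ hm0.le)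
    (x₀ := 0) (W := fun x => sq x ^ m * TT x) (e := fun x => sq x ^ m * E x)
    (ρ := fun x => ρ x * sq x ^ m)
    (Ψ := fun x => ΨK x + jΨ m τ x + cnΨ m τ κ x - nuΨ m τ Qp Qm x)
    (Ψ' := fun x => ΨK' x + jΨ' m τ τ' x + cnΨ' m τ τ' κ x -
      sq x ^ m * nuT m x (sq x) (lf τ x) (uf τ τ' x)
      (sw (lf τ x) (Qp x) (Qm x)) (x * sw (lf τ x) (Qp' x) (Qm' x)))
    (Ψ₁ := fun x => jΨ m τ x + cnΨ m τ κ₁ x - x * sq x ^ m * (q x * lf τ x))
    (Ψ₁' := fun x => jΨ' m τ τ' x + cnΨ' m τ τ' κ₁ x - sq x ^ m *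
      ((1 - (m : ℝ) * (x ^ 2 / sq x ^ 2)) * (q x * lf τ x) + x * q' x * lf τ x +
        q x * uf τ τ' x))
    (hρ.mul hsm) hρi hρ1 ?_ ?_ ?_ ?_ ?_ ?_ ?_ ?_ ?_ ?_ ?_ ?_ ?_
  · intro x hx
    exact ((((hK.dΨ x hx).add (jΨ_der hT hx)).add (cnΨ_der (by omega) hT κ hx)).sub
      (nuΨ_der hT hx (hQp x hx) (hQm x hx))).continuousAt.continuousWithinAt
  · intro x hx _
    exact (((hK.dΨ x hx).add (jΨ_der hT hx)).add (cnΨ_der (by omega) hT κ hx)).sub
      (nuΨ_der hT hx (hQp x hx) (hQm x hx))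
  · simpa only [add_zero, sub_self] using     ((hK.Ψ0.add (bdd_tendsto_zero hjb)).add (bdd_tendsto_zero hKc)).sub (bdd_tendsto_zero hKn)
  · simpa using ((hK.Ψ1.add (bdd_tendsto_one (by omega) hjb)).add
      (bdd_tendsto_one (by omega) hKc)).sub (bdd_tendsto_one (by omega) hKn)
  · intro x hx
    exact (((jΨ_der hT hx).add (cnΨ_der (by omega) hT κ₁ hx)).sub
      (hqψ x hx)).continuousAt.continuousWithinAt
  · intro x hx _
    exact ((jΨ_der hT hx).add (cnΨ_der (by omega) hT κ₁ hx)).sub (hqψ x hx)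
  · simpa only [add_zero, sub_self] using     ((bdd_tendsto_zero hjb).add (bdd_tendsto_zero hKc1)).sub (bdd_tendsto_zero hqΨb)
  · simpa only [add_zero, sub_self] using     ((bdd_tendsto_one (by omega) hjb).add (bdd_tendsto_one (by omega) hKc1)).sub (bdd_tendsto_one (by omega) hqΨb)
  · intro x hx
    have h1 := (hJ x hx).1
    have hs := pow_pos (sqx_pos hx) m
    have : ρ x * sq x ^ m + sq x ^ m * E x = sq x ^ m * (ρ x + E x) := by ring
    rw [this]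
    exact mul_pos hs h1
  · intro x hx _
    have h1 := (hJ x hx).2.1
    have hs := pow_pos (sqx_pos hx) m
    have e1 : (sq x ^ m * E x) ^ 2 = (sq x ^ m) ^ 2 * E x ^ 2 := by ring
    have e2 : sq x ^ m * TT x * (ρ x * sq x ^ m + sq x ^ m * E x) =
        (sq x ^ m) ^ 2 * (TT x * (ρ x + E x)) := by ring
    rw [e1, e2]
    exact mul_le_mul_of_nonneg_left h1 (by (clear * - hs; positivity))
  · refine ⟨x1, hx1, (hsm.mul hTTc).continuousAt (isOpen_Ioo.mem_nhds hx1),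
      (hsm.mul hEc).continuousAt (isOpen_Ioo.mem_nhds hx1), ?_⟩
    have h1 := (hJ x1 hx1).2.2 hux1
    have hs := pow_pos (sqx_pos hx1) m
    have e1 : (sq x1 ^ m * E x1) ^ 2 = (sq x1 ^ m) ^ 2 * E x1 ^ 2 := by ring
    have e2 : sq x1 ^ m * TT x1 * (ρ x1 * sq x1 ^ m + sq x1 ^ m * E x1) =
        (sq x1 ^ m) ^ 2 * (TT x1 * (ρ x1 + E x1)) := by ring
    rw [e1, e2]
    exact mul_lt_mul_of_pos_left h1 (by (clear * - hs; positivity))
  · intro x hx _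
    have h1 := hK.id x hx
    have h2 := jF_identity hT hx
    have h3 := cn_id (by omega) hT κ hx
    apply le_of_eq
    simp only [hTT]
    unfold jT
    rw [show ((((m : ℝ) + 1) * c x + (τ x * c' x + p' x) / τ' x) + jF m τ τ' x - 1) * sq x ^ m =
      (((m : ℝ) + 1) * c x + (τ x * c' x + p' x) / τ' x) * sq x ^ m +
      (jF m τ τ' x - 1) * sq x ^ m by ring, h1, h2, h3]
    ring
  · intro x hx _
    have h2 := jF_identity hT hx
    have h3 := cn_id (by omega) hT κ₁ hx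
    simp only [hE]
    unfold jE jT
    rw [h2, h3]
    ring

end

end Vale.Agent.P237.AllN
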