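import Vale.Agent.P237.AllN.FJ

/-!
# P237, all dimensions: the comparison density `ρ`
-/

open MeasureTheory Metric Set Module Filter Topology

namespace Vale.Agent.P237.AllN

/-- `ρ s^m`, `ρ = (2 + 5 m y + m (m-2) y²)/10`, `y = x²/s²` -/
noncomputable def rhoF (m : ℕ) (x : ℝ) : ℝ :=
  (2 * sq x ^ m + 5 * m * (x ^ 2 * sq x ^ (m - 2)) +
    m * ((m : ℝ) - 2) * (x ^ 4 * sq x ^ (m - 4))) / 10

theorem rhoF_cont (m : ℕ) : Continuous (rhoF m) := by
  have := br_sq_cont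
  unfold rhoF
  fun_prop

theorem rhoF_eq {m : ℕ} (hm : 4 ≤ m) {x : ℝ} (hx : x ∈ Ioo (0 : ℝ) 1) :
    rhoF m x = sq x ^ m * ((2 + 5 * m * (x ^ 2 / sq x ^ 2) +
      m * ((m : ℝ) - 2) * (x ^ 2 / sq x ^ 2) ^ 2) / 10) := by
  have hs := (sqx_pos hx).ne'
  obtain ⟨n, rfl⟩ := Nat.exists_eq_add_of_le' hm
  unfold rhoF
  have e1 : n + 4 - 2 = n + 2 := rfl
  have e2 : n + 4 - 4 = n := rfl
  rw [e1, e2]
  field_simp
  ring

theorem rhoF_int {m : ℕ} (hm : 4 ≤ m) :
    ∫ x in (0 : ℝ)..1, rhoF m x = ∫ x in (0 : ℝ)..1, sq x ^ m := by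
  have hm0 : m ≠ 0 := by omega
  have hc := br_sq_cont
  have h1 : ∫ x in (0 : ℝ)..1, (rhoF m x - sq x ^ m) =
      (-(8 / 10) * (1 * sq 1 ^ m) - m / 10 * (1 ^ 3 * sq 1 ^ (m - 2))) -
      (-(8 / 10) * (0 * sq 0 ^ m) - m / 10 * (0 ^ 3 * sq 0 ^ (m - 2))) := by
    refine intervalIntegral.integral_eq_sub_of_hasDerivAt_of_le zero_le_one
      (f := fun x => -(8 / 10) * (x * sq x ^ m) - m / 10 * (x ^ 3 * sq x ^ (m - 2)))
      (by fun_prop) (fun x hx => ?_) (((rhoF_cont m).sub (hc.pow m)).intervalIntegrable _ _)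
    have hs := sqx_pos hx
    have d1 := xs_der m hx
    have d2 : HasDerivAt (fun x => x ^ 3 * sq x ^ (m - 2))
        (sq x ^ m * (3 * (x ^ 2 / sq x ^ 2) - ((m : ℝ) - 2) * (x ^ 2 / sq x ^ 2) ^ 2)) x := by
      have e := (hasDerivAt_pow 2 x).mul (xs_der (m - 2) hx)
      have e' := e.congr_of_eventuallyEq (f₁ := fun x => x ^ 3 * sq x ^ (m - 2))
        (Filter.Eventually.of_forall fun t => by
          simp only [Pi.mul_apply]
          ring)
      refine e'.congr_deriv ?_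
      obtain ⟨n, rfl⟩ := Nat.exists_eq_add_of_le' hm
      have e1 : n + 4 - 2 = n + 2 := rfl
      rw [e1]
      push_cast
      field_simp
      ring
    refine ((d1.const_mul (-(8 / 10))).sub (d2.const_mul ((m : ℝ) / 10))).congr_deriv ?_
    rw [rhoF_eq hm hx]
    ring
  rw [br_sq_one, zero_pow hm0, zero_pow (by omega : m - 2 ≠ 0)] at h1
  have hi : IntervalIntegrable (fun x => sq x ^ m) volume 0 1 := (hc.pow m).intervalIntegrable _ _
  rw [intervalIntegral.integral_sub ((rhoF_cont m).intervalIntegrable _ _) hi] at h1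
  norm_num at h1
  linarith

end Vale.Agent.P237.AllN
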