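import Vale.Agent.P237.AllN.FBri6
import Vale.Agent.P237.AllN.FRho
import Vale.Agent.P237.AllN.FBall
import Vale.Agent.P237.AllN.FTest
import Vale.Agent.P237.AllN.FIn

/-!
# P237, all dimensions: bridge for the Fisher route, part 7: `OneDF m 1` from the pointwise test
-/

open MeasureTheory Metric Set Module Filter Topology

namespace Vale.Agent.P237.AllN

/-- the correction `G = 2(g₀(τ) - g₀(x) + z l/(s(1+s)²))` -/
noncomputable def jG (τ : ℝ → ℝ) (x : ℝ) : ℝ :=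
  2 * (bg (τ x) - bg x + x ^ 2 / (sq x * (1 + sq x) ^ 2) * lf τ x)

/-- `W = u²/(1+u)` along a transport -/
noncomputable def jW (τ τ' : ℝ → ℝ) (x : ℝ) : ℝ := uf τ τ' x ^ 2 / (1 + uf τ τ' x)

/-- the pointwise test at `x` along a transport -/
def JTestAt (m : ℕ) (τ τ' : ℝ → ℝ) (x : ℝ) : Prop :=
  (0 < lf τ x → JTest
    (dpT m (x ^ 2) (sq x) (lf τ x) (uf τ τ' x) (jG τ x) (jN m (lf τ x) (uf τ τ' x)))
    (dpE m (x ^ 2) (sq x) (lf τ x) (uf τ τ' x) (fc m) (jN m (lf τ x) (uf τ τ' x)))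
    (dpR m (x ^ 2 / sq x ^ 2)) (uf τ τ' x)) ∧
  (lf τ x ≤ 0 → JTest
    (dmT m (x ^ 2) (sq x) (lf τ x) (uf τ τ' x) (jG τ x) (jN m (lf τ x) (uf τ τ' x)))
    (dpE m (x ^ 2) (sq x) (lf τ x) (uf τ τ' x) (fc m) (jN m (lf τ x) (uf τ τ' x)))
    (dpR m (x ^ 2 / sq x ^ 2)) (uf τ τ' x))

/-- the pair of block D: log lines for `l ≤ 0`, convex hybrid for `l > 0` -/
def FKPair (m : ℕ) (τ τ' : ℝ → ℝ) : Prop :=
  ∃ c c' p p' ΨK ΨK' : ℝ → ℝ,
    FPair m τ τ' c c' p p' ΨK ΨK' (fun x =>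
      flT m x (sq x) (lf τ x) (uf τ τ' x) (bg (τ x)) (bg x) +
      sw (lf τ x) (dpS m (x ^ 2) (sq x) (lf τ x) (jW τ τ' x)) 0) ∧
    ∀ x ∈ Ioo (0 : ℝ) 1, ∀ b ∈ Icc (-1 : ℝ) 1, c x + p x * b ≤
      (kF (τ x) b + (bφ m b - bφ m (τ x))) + (bφ m b - bφ m (τ x))

section

variable {m : ℕ} {r τ τ' T : ℝ → ℝ}

/-- derivative of `3 x² (1+x²)/s` -/
theorem fb_hQm_der {x : ℝ} (hx : x ∈ Ioo (0 : ℝ) 1) :
    HasDerivAt (fun x => 3 * (x ^ 2 * (1 + x ^ 2) / sq x))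
      (3 * (x * (2 + 3 * x ^ 2 - 3 * x ^ 4) / sq x ^ 3)) x := by
  have hs := sqx_pos hx
  have hxs := sqx_sq hx
  have h1 := sqx_der hx
  have h2 := (((hasDerivAt_pow 2 x).mul ((hasDerivAt_pow 2 x).const_add 1)).div h1 hs.ne').const_mul 3
  refine h2.congr_deriv ?_
  simp only [Pi.mul_apply]
  have e : sq x ^ 2 = 1 - x ^ 2 := by rw [hxs]; ring
  field_simp
  rw [e]
  ring

theorem fb_hQm_cont : ContinuousOn (fun x : ℝ => 3 * (x * (2 + 3 * x ^ 2 - 3 * x ^ 4) / sq x ^ 3))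
    (Ioo 0 1) := by
  refine continuousOn_const.mul (ContinuousOn.div ?_ (br_sq_cont.pow 3).continuousOn
    fun x hx => sq_ne x hx 3)
  fun_prop

/-- derivative of `2c/s - 2s² + 2(1-c)` -/
theorem fb_hq_der (c : ℝ) {x : ℝ} (hx : x ∈ Ioo (0 : ℝ) 1) :
    HasDerivAt (fun x => 2 * c / sq x - 2 * sq x ^ 2 + 2 * (1 - c))
      (2 * c * (x / sq x ^ 3) + 4 * x) x := by
  have hs := sqx_pos hx
  have h1 := sqx_der hx
  have h2 := (((hasDerivAt_const x (2 * c)).div h1 hs.ne').sub ((h1.pow 2).const_mul 2)).add_const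
    (2 * (1 - c))
  refine h2.congr_deriv ?_
  field_simp
  ring

theorem fb_hq_cont (c : ℝ) : ContinuousOn (fun x : ℝ => 2 * c * (x / sq x ^ 3) + 4 * x)
    (Ioo 0 1) := by
  refine (continuousOn_const.mul (continuousOn_id.div (br_sq_cont.pow 3).continuousOn
    fun x hx => sq_ne x hx 3)).add ?_
  fun_prop

/-- `dpK` at `l = 0` vanishes -/
theorem fb_dpK_zero (M z s W k κz : ℝ) : dpK M z s 0 W k κz = 0 := by
  unfold dpK
  simp only [mul_zero, neg_zero, Real.exp_zero, sub_self, add_zero, ne_eq, OfNat.ofNat_ne_zero, not_false_eq_true, zero_pow]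

theorem fb_dpS_zero (M z s W : ℝ) : dpS M z s 0 W = 0 := by
  unfold dpS
  simp only [fb_dpK_zero, add_zero]

theorem bg_tau_cont (h : IsTrans m r τ τ' T) : ContinuousOn (fun x => bg (τ x)) (Ioo 0 1) :=
  bg_cont.comp_continuousOn (tau_cont h)

theorem flT_cont (h : IsTrans m r τ τ' T) :
    ContinuousOn (fun x => flT m x (sq x) (lf τ x) (uf τ τ' x) (bg (τ x)) (bg x)) (Ioo 0 1) := by
  have hl := lf_cont h
  have hW := W_cont h
  have hs : ContinuousOn sq (Ioo (0 : ℝ) 1) := br_sq_cont.continuousOn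
  have hid : ContinuousOn (fun x : ℝ => x) (Ioo (0 : ℝ) 1) := continuousOn_id
  have hs0 : ∀ x ∈ Ioo (0 : ℝ) 1, sq x ≠ 0 := fun x hx => (sqx_pos hx).ne'
  have hs1 : ∀ x ∈ Ioo (0 : ℝ) 1, 1 + sq x ≠ 0 := fun x hx => by
    have := sqx_pos hx
    (clear * - this; positivity)
  have h1s : ContinuousOn (fun x => 1 + sq x) (Ioo (0 : ℝ) 1) := continuousOn_const.add hs
  have c1 : ContinuousOn (fun x => 4 / sq x - 4 * (sq x / (1 + sq x)) -
      6 * (x ^ 2 / sq x ^ 3) * lf τ x - 2 * sq x ^ 2) (Ioo 0 1) :=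
    (((continuousOn_const.div hs hs0).sub (continuousOn_const.mul (hs.div h1s hs1))).sub
      ((continuousOn_const.mul (inv_s_cont 3)).mul hl)).sub (continuousOn_const.mul (hs.pow 2))
  have c2 : ContinuousOn (fun x => bg (τ x) - bg x) (Ioo 0 1) :=
    (bg_tau_cont h).sub bg_cont.continuousOn
  have c3 : ContinuousOn (fun x : ℝ => 2 * ((m : ℝ) + 3) * x ^ 2 +
      2 * (x ^ 2 / (sq x * (1 + sq x) ^ 2)) - 2 * ((m : ℝ) + 1) * (x ^ 2 / sq x ^ 3))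
      (Ioo 0 1) :=
    ((continuousOn_const.mul (hid.pow 2)).add (continuousOn_const.mul ((hid.pow 2).div
      (hs.mul (h1s.pow 2)) fun x hx => mul_ne_zero (hs0 x hx) (pow_ne_zero 2 (hs1 x hx))))).sub
      (continuousOn_const.mul (inv_s_cont 3))
  have c4 : ContinuousOn (fun x : ℝ => 3 * ((m : ℝ) - 3) * (x ^ 4 / sq x ^ 5) -
      9 * (x ^ 2 / sq x ^ 3)) (Ioo 0 1) :=
    (continuousOn_const.mul ((hid.pow 4).div (hs.pow 5) fun x hx => sq_ne x hx 5)).sub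
      (continuousOn_const.mul (inv_s_cont 3))
  exact (((c1.mul hW).add (continuousOn_const.mul c2)).add (c3.mul hl)).add (c4.mul (hl.pow 2))

theorem fb_dpS_cont (h : IsTrans m r τ τ' T) :
    ContinuousOn (fun x => dpS m (x ^ 2) (sq x) (lf τ x) (jW τ τ' x)) (Ioo 0 1) := by
  have hl := lf_cont h
  have hW : ContinuousOn (jW τ τ') (Ioo 0 1) := W_cont h
  have hs : ContinuousOn sq (Ioo (0 : ℝ) 1) := br_sq_cont.continuousOn
  have hid : ContinuousOn (fun x : ℝ => x) (Ioo (0 : ℝ) 1) := continuousOn_id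
  have hK : ∀ (k : ℝ) {κz : ℝ → ℝ}, ContinuousOn κz (Ioo 0 1) →
      ContinuousOn (fun x => dpK m (x ^ 2) (sq x) (lf τ x) (jW τ τ' x) k (κz x)) (Ioo 0 1) := by
    intro k κz hκ
    unfold dpK
    (clear * - hκ hl hs hW; fun_prop)
  unfold dpS
  have hz : ∀ n : ℕ, ContinuousOn (fun x : ℝ => (x ^ 2) ^ n) (Ioo 0 1) := fun n => by fun_prop
  exact ((((hK 2 (by fun_prop)).add (hK 3 (continuousOn_const.mul (hz 2)))).add
    (hK 4 (continuousOn_const.mul (hz 3)))).add (hK 5 (continuousOn_const.mul (hz 4)))).add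
    (hK 6 (continuousOn_const.mul (hz 5)))

theorem fk_cont (h : IsTrans m r τ τ' T) :
    ContinuousOn (fun x => flT m x (sq x) (lf τ x) (uf τ τ' x) (bg (τ x)) (bg x) +
      sw (lf τ x) (dpS m (x ^ 2) (sq x) (lf τ x) (jW τ τ' x)) 0) (Ioo 0 1) :=
  (flT_cont h).add (sw_cont (lf_cont h) (fb_dpS_cont h) continuousOn_const fun x _ h0 => by
    rw [h0, fb_dpS_zero])

/-- the functional in the closed forms of the region files -/
theorem fb_tt_pos {M x s l u gτ gx G S : ℝ} (hx : x ^ 2 = 1 - s ^ 2) (hs : 0 < s)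
    (hM : M - 1 ≠ 0) (hG : G = 2 * (gτ - gx + x ^ 2 / (s * (1 + s) ^ 2) * l))
    (hS : S = dpS M (x ^ 2) s l (u ^ 2 / (1 + u))) {N : ℝ} :
    flT M x s l u gτ gx + S + jT M x s l u +
        (2 * (M + 1) / (M - 1) / s * N +
          2 * (M + 1) / (M - 1) * (M - 1) * (x ^ 2 / s ^ 3) * l) +
        nuT M x s l u (-(3 / 25 * (M + 3) * x ^ 2)) (x * (-(3 / 25 * (M + 3) * (2 * x)))) =
      dpT M (x ^ 2) s l u G N := by
  subst hG hS
  unfold flT jT nuT dpT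
  rw [show x ^ 4 = (x ^ 2) ^ 2 by ring,
    show x * (-(3 / 25 * (M + 3) * (2 * x))) = -(3 / 25 * (M + 3) * (2 * x ^ 2)) by ring, hx]
  have h1s : 1 + s ≠ 0 := by positivity
  field_simp
  ring

theorem fb_tt_neg {M x s l u gτ gx G : ℝ} (hx : x ^ 2 = 1 - s ^ 2) (hs : 0 < s)
    (hM : M - 1 ≠ 0) (hG : G = 2 * (gτ - gx + x ^ 2 / (s * (1 + s) ^ 2) * l)) {N : ℝ} :
    flT M x s l u gτ gx + 0 + jT M x s l u +
        (2 * (M + 1) / (M - 1) / s * N +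
          2 * (M + 1) / (M - 1) * (M - 1) * (x ^ 2 / s ^ 3) * l) +
        nuT M x s l u (3 * (x ^ 2 * (1 + x ^ 2) / s))
          (x * (3 * (x * (2 + 3 * x ^ 2 - 3 * x ^ 4) / s ^ 3))) =
      dmT M (x ^ 2) s l u G N := by
  subst hG
  unfold flT jT nuT dmT
  rw [show x ^ 4 = (x ^ 2) ^ 2 by ring,
    show x * (3 * (x * (2 + 3 * x ^ 2 - 3 * (x ^ 2) ^ 2) / s ^ 3)) =
      3 * (x ^ 2 * (2 + 3 * x ^ 2 - 3 * (x ^ 2) ^ 2) / s ^ 3) by ring, hx]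
  have h1s : 1 + s ≠ 0 := by (clear * - hs; positivity)
  field_simp
  ring

theorem fb_ee_eq {M x s l u c : ℝ} (hx : x ^ 2 = 1 - s ^ 2) (hs : 0 < s) :
    jE M (2 * c) x s l u (2 * c / s - 2 * s ^ 2 + 2 * (1 - c))
      (x * (2 * c * (x / s ^ 3) + 4 * x)) = dpE M (x ^ 2) s l u c (jN M l u) := by
  unfold jE jT dpE
  rw [show x * (2 * c * (x / s ^ 3) + 4 * x) = 2 * c * (x ^ 2 / s ^ 3) + 4 * x ^ 2 by ring, hx]
  field_simp
  ring

theorem fb_ae_ioc_ioo : ∀ᵐ x : ℝ, x ∈ Set.uIoc (0 : ℝ) 1 → x ∈ Ioo (0 : ℝ) 1 := by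
  have h1 : ∀ᵐ x : ℝ, x ≠ 1 := compl_mem_ae_iff.2 (measure_singleton 1)
  filter_upwards [h1] with x hx hx1
  rw [Set.uIoc_of_le zero_le_one] at hx1
  exact ⟨hx1.1, lt_of_le_of_ne hx1.2 hx⟩

theorem dpR_rhoF (hm : 4 ≤ m) {x : ℝ} (hx : x ∈ Ioo (0 : ℝ) 1) :
    rhoF m x = dpR m (x ^ 2 / sq x ^ 2) * sq x ^ m := by
  rw [rhoF_eq hm hx]
  unfold dpR
  ring

/-- **the values from the pointwise test** -/
theorem values_of_test (hm : 4 ≤ m) (hr : IsProf r) (hT : IsTrans m r τ τ' T)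
    (hN : (∫ y in (-1 : ℝ)..1, r y ^ (m - 1)) ^ m * aInt m ^ (m - 1) ≤
      aInt (m - 1) ^ m * (∫ y in (-1 : ℝ)..1, r y ^ m) ^ (m - 1))
    (hK : FKPair m τ τ') (hJ : ∀ x ∈ Ioo (0 : ℝ) 1, JTestAt m τ τ' x) :
    (∃ k : ℝ, ∀ y ∈ Ioo (-1 : ℝ) 1, r y = k * Real.sqrt (1 - y ^ 2)) ∨
    ∃ v w : ℝ, AdmGe m (fun a b => (kF a b + (bφ m b - bφ m a)) + (bφ m b - bφ m a)) r v ∧
      FisGe m r w ∧ 0 < w ∧
      (1 : ℝ) * ((∫ y in (-1 : ℝ)..1, r y ^ m) / w - 1) * (∫ y in (-1 : ℝ)..1, r y ^ m) < v := by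
  obtain ⟨c, c', p, p', ΨK, ΨK', hK, hle⟩ := hK
  have hm0 : (4 : ℝ) ≤ m := by exact_mod_cast hm
  have hc0 := (fc_pos m).le
  have hc1 := fc_le_one (m := m) (by omega)
  have hκ : 2 * fc m ≤ 2 * ((m : ℝ) + 1) / (m - 1) := by
    rw [le_div_iff₀ (by linarith only [hm0])]
    nlinarith only [hc0, hc1]
  refine values_of_jtest (m := m) hm (A := fun a b => (kF a b + (bφ m b - bφ m a)) +
      (bφ m b - bφ m a)) ((kF_kern2.addφ m).addφ m) hr hT hN hK (fk_cont hT) hle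
    (κ := 2 * ((m : ℝ) + 1) / (m - 1)) (κ₁ := 2 * fc m) (by (clear * - hc0; positivity)) hκ
    (Qp := fun x => -(3 / 25 * ((m : ℝ) + 3) * x ^ 2))
    (Qp' := fun x => -(3 / 25 * ((m : ℝ) + 3) * (2 * x)))
    (Qm := fun x => 3 * (x ^ 2 * (1 + x ^ 2) / sq x))
    (Qm' := fun x => 3 * (x * (2 + 3 * x ^ 2 - 3 * x ^ 4) / sq x ^ 3))
    (K1 := 3 / 25 * ((m : ℝ) + 3)) (K2 := 6) (K3 := 10) ?_ ?_ (fun x hx => fb_hQm_der hx) fb_hQm_cont
    ?_ ?_ (q := fun x => 2 * fc m / sq x - 2 * sq x ^ 2 + 2 * (1 - fc m))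
    (q' := fun x => 2 * fc m * (x / sq x ^ 3) + 4 * x) (fun x hx => fb_hq_der _ hx) (fb_hq_cont _) ?_
    (ρ := fun x => dpR m (x ^ 2 / sq x ^ 2)) ?_ ?_ ?_ ?_
  · intro x _
    refine ((hasDerivAt_pow 2 x).const_mul (3 / 25 * ((m : ℝ) + 3))).neg.congr_deriv ?_
    simp only [Nat.cast_ofNat, Nat.add_one_sub_one, pow_one]
  · fun_prop
  · intro x hx
    have hs := sqx_pos hx
    have h1 : sq x ^ 3 ≤ 1 := pow_le_one₀ hs.le (br_sq_le_one x)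
    have h2 : x ^ 2 ≤ 1 := pow_le_one₀ hx.1.le hx.2.le
    rw [abs_neg, abs_of_nonneg (by (clear * - hm; positivity))]
    calc 3 / 25 * ((m : ℝ) + 3) * x ^ 2 * sq x ^ 3 ≤ 3 / 25 * ((m : ℝ) + 3) * 1 * 1 := by (clear * - h2 hm h1 hs; gcongr)
      _ = _ := by ring
  · intro x hx
    have hs := sqx_pos hx
    have h1 : sq x ^ 2 ≤ 1 := pow_le_one₀ hs.le (br_sq_le_one x)
    have h2 : x ^ 2 ≤ 1 := pow_le_one₀ hx.1.le hx.2.le
    rw [abs_of_nonneg (by (clear * - hs; positivity))]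
    have e : 3 * (x ^ 2 * (1 + x ^ 2) / sq x) * sq x ^ 3 = 3 * (x ^ 2 * (1 + x ^ 2) * sq x ^ 2) := by
      (clear * - hs; field_simp)
    rw [e]
    calc 3 * (x ^ 2 * (1 + x ^ 2) * sq x ^ 2) ≤ 3 * (1 * (1 + 1) * 1) := by (clear * - h2 h1 hs; gcongr)
      _ = 6 := by norm_num
  · intro x hx
    have hs := sqx_pos hx
    have hs1 := br_sq_le_one x
    have h2 : sq x ^ 2 ≤ 1 := pow_le_one₀ hs.le hs1
    have h3 : sq x ^ 3 ≤ 1 := pow_le_one₀ hs.le hs1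
    have h5 : sq x ^ 5 ≤ 1 := pow_le_one₀ hs.le hs1
    have e : (2 * fc m / sq x - 2 * sq x ^ 2 + 2 * (1 - fc m)) * sq x ^ 3 =
        2 * fc m * sq x ^ 2 - 2 * sq x ^ 5 + 2 * (1 - fc m) * sq x ^ 3 := by
      (clear * - hs; field_simp)
    have e2 : |2 * fc m / sq x - 2 * sq x ^ 2 + 2 * (1 - fc m)| * sq x ^ 3 =
        |(2 * fc m / sq x - 2 * sq x ^ 2 + 2 * (1 - fc m)) * sq x ^ 3| := by
      rw [abs_mul, abs_of_pos (pow_pos hs 3)]
    rw [e2, e, abs_le]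
    have k2 : 0 ≤ sq x ^ 2 := by positivity
    have k3 : 0 ≤ sq x ^ 3 := by positivity
    have k5 : 0 ≤ sq x ^ 5 := by positivity
    constructor
    · nlinarith only [h5, hc0, hc1, k3]
    · nlinarith only [hc1, h2, hc0, h3, k3]
  · unfold dpR
    have := inv_s_cont 2
    fun_prop
  · refine ((rhoF_cont m).intervalIntegrable 0 1).congr_ae ?_
    rw [Filter.EventuallyEq, ae_restrict_iff' measurableSet_uIoc]
    filter_upwards [fb_ae_ioc_ioo] with x hx hx1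
    exact dpR_rhoF hm (hx hx1)
  · rw [← rhoF_int hm]
    refine intervalIntegral.integral_congr_ae ?_
    filter_upwards [fb_ae_ioc_ioo] with x hx hx1
    exact (dpR_rhoF hm (hx hx1)).symm
  · intro x hx
    have hs := sqx_pos hx
    have hxs := sqx_sq hx
    have hM : (m : ℝ) - 1 ≠ 0 := by
      have : (0 : ℝ) < m - 1 := by linarith only [hm0]
      exact this.ne'
    obtain ⟨h1, h2⟩ := hJ x hx
    rw [fb_ee_eq hxs hs]
    rcases lt_or_ge 0 (lf τ x) with hl | hl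
    · rw [sw_pos hl, sw_pos hl, sw_pos hl, fb_tt_pos (u := uf τ τ' x) (G := jG τ x)
        (S := dpS m (x ^ 2) (sq x) (lf τ x) (jW τ τ' x)) (gτ := bg (τ x)) (gx := bg x)
        hxs hs hM rfl rfl]
      exact h1 hl
    · rw [sw_neg hl, sw_neg hl, sw_neg hl, fb_tt_neg (u := uf τ τ' x) (G := jG τ x)
        (gτ := bg (τ x)) (gx := bg x) hxs hs hM rfl]
      exact h2 hl

/-- **`OneDF m 1` from the pointwise test** (block D) -/
theorem oneDF_of_test {m : ℕ} (hm : 4 ≤ m)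
    (hK : ∀ r τ τ' T : ℝ → ℝ, IsProf r → IsTrans m r τ τ' T → FKPair m τ τ')
    (hJ : ∀ r τ τ' T : ℝ → ℝ, IsProf r → IsTrans m r τ τ' T →
      (∫ y in (-1 : ℝ)..1, r y ^ (m - 1)) ^ m * aInt m ^ (m - 1) ≤
        aInt (m - 1) ^ m * (∫ y in (-1 : ℝ)..1, r y ^ m) ^ (m - 1) →
      ∀ x ∈ Ioo (0 : ℝ) 1, JTestAt m τ τ' x) : OneDF m 1 := by
  refine oneDF_of_values zero_le_one ((kF_kern2.addφ m).addφ m) (ball_value_kF hm)
    fun r hr hN => ?_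
  obtain ⟨τ, τ', T, hT⟩ := exists_trans (m := m) (by omega) hr
  exact values_of_test hm hr hT hN (hK r τ τ' T hr hT) (hJ r τ τ' T hr hT hN)

end

end Vale.Agent.P237.AllN
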