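import Vale.Agent.P237.AllN.FBri4b
import Vale.Agent.P237.AllN.FBri7

/-!
# P237, all dimensions: bridge for the Fisher route, part 8: the pair of block D and the final
form of the bridge
-/

open MeasureTheory Metric Set Module Filter Topology

namespace Vale.Agent.P237.AllN

/-- one power: the two closed forms agree -/
theorem hkT_dpK {k M x s l w κz : ℝ} (hk : k ≠ 0) (hs : s ^ 2 = 1 - x ^ 2) :
    κz * hkT k M x s l w = dpK M (x ^ 2) s l w k κz := by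
  unfold hkT dpK
  rw [hs]
  field_simp
  ring

theorem hybT_dpS {M x s l w : ℝ} (hs : s ^ 2 = 1 - x ^ 2) :
    hybT M x s l w = sw l (dpS M (x ^ 2) s l w) 0 := by
  rcases lt_or_ge 0 l with hl | hl
  · rw [hybT_pos hl, sw_pos hl]
    unfold dpS
    rw [← hkT_dpK (κz := 3 / 4 * x ^ 2) (by norm_num : (2 : ℝ) ≠ 0) hs,
      ← hkT_dpK (κz := 5 / 8 * (x ^ 2) ^ 2) (by norm_num : (3 : ℝ) ≠ 0) hs,
      ← hkT_dpK (κz := 35 / 64 * (x ^ 2) ^ 3) (by norm_num : (4 : ℝ) ≠ 0) hs,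
      ← hkT_dpK (κz := 63 / 128 * (x ^ 2) ^ 4) (by norm_num : (5 : ℝ) ≠ 0) hs,
      ← hkT_dpK (κz := 231 / 512 * (x ^ 2) ^ 5) (by norm_num : (6 : ℝ) ≠ 0) hs]
    ring
  · rw [hybT_nonpos hl, sw_neg hl]

/-- **the pair of block D** -/
theorem fkPair {m : ℕ} {r τ τ' T : ℝ → ℝ} (hm : 4 ≤ m) (hr : IsProf r)
    (h : IsTrans m r τ τ' T) : FKPair m τ τ' := by
  obtain ⟨c', p', Ψ, Ψ', hP⟩ := hyb_pair hm hr h
  refine ⟨_, c', _, p', Ψ, Ψ', ?_, fun x hx b hb => hyb_line_le h hx hb⟩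
  exact { hP with
    id := fun x hx => by
      have h1 := hP.id x hx
      have h2 := sqx_sq hx
      rw [hybT_dpS (by rw [h2]; ring)] at h1
      exact h1 }

/-- **block D: `OneDF m 1` from the pointwise test** -/
theorem oneDF_of_test' {m : ℕ} (hm : 4 ≤ m)
    (hJ : ∀ r τ τ' T : ℝ → ℝ, IsProf r → IsTrans m r τ τ' T →
      (∫ y in (-1 : ℝ)..1, r y ^ (m - 1)) ^ m * aInt m ^ (m - 1) ≤
        aInt (m - 1) ^ m * (∫ y in (-1 : ℝ)..1, r y ^ m) ^ (m - 1) →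
      ∀ x ∈ Ioo (0 : ℝ) 1, JTestAt m τ τ' x) : OneDF m 1 :=
  oneDF_of_test hm (fun _ _ _ _ hr hT => fkPair hm hr hT) hJ

end Vale.Agent.P237.AllN
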