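import Mathlib
import Vale.Agent.P237.Alm.Fisher

/-!
# P237, all dimensions: exchangeability together with the Fisher type inequality
-/

open MeasureTheory Metric Set Module

namespace Vale.Agent.P237.Exch

variable {E : Type*} [NormedAddCommGroup E] [NormedSpace ℝ E] [FiniteDimensional ℝ E]
  [MeasurableSpace E] [BorelSpace E] [Nontrivial E] (μ : Measure E) [μ.IsAddHaarMeasure]

/-- The normalised dual quadratic form: density with total mass `n` which controls all
Fisher type functionals. -/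
theorem exists_density (hd : 2 ≤ finrank ℝ E) :
    ∃ T : sphere (0 : E) 1 → ℝ, Integrable T μ.toSphere ∧
      ∫ z, T z ∂μ.toSphere = (finrank ℝ E : ℝ) ∧ (∀ z, 0 ≤ T z) ∧
      ∀ x : sphere (0 : E) 1, DifferentiableAt ℝ (fun y : E => ‖y‖) (x : E) →
        ∀ c c' p p' : ℝ → ℝ, (∀ y, HasDerivAt c (c' y) y) → Continuous c' →
        (∀ y, HasDerivAt p (p' y) y) → Continuous p' →
        (∀ y ∈ Icc (-1 : ℝ) 1, c y + p y ^ 2 / 4 ≤ 0) →
        T x * ∫ y in ball (0 : E) 1, ((finrank ℝ E : ℝ) * c (dg x y) + dg x y * c' (dg x y) +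
          p' (dg x y)) ∂μ ≤ 1 := by
  classical
  have hsymm : LinearMap.IsSymm (fshM μ) := ⟨fun v w => fshM_symm μ v w⟩
  obtain ⟨b, hb⟩ := LinearMap.BilinForm.exists_orthogonal_basis hsymm
  have hort : ∀ i j, i ≠ j → fshM μ (b i) (b j) = 0 := by
    intro i j hij
    exact hb hij
  have hm : ∀ i, 0 < fshM μ (b i) (b i) := fun i => fshM_pos μ hd (b.ne_zero i)
  obtain ⟨T, hT⟩ : ∃ T : sphere (0 : E) 1 → ℝ,
      T = fun z : sphere (0 : E) 1 => ∑ i, gr (b i) z * gr (b i) z / fshM μ (b i) (b i) :=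
    ⟨_, rfl⟩
  have iT0 : ∀ i, Integrable (fun z : sphere (0 : E) 1 =>
      gr (b i) z * gr (b i) z / fshM μ (b i) (b i)) μ.toSphere := fun i =>
    (fsh_int μ (b i) (b i)).div_const _
  have iT : Integrable T μ.toSphere := by
    rw [hT]
    exact integrable_finsetSum _ fun i _ => iT0 i
  have eT : ∫ z, T z ∂μ.toSphere = (finrank ℝ E : ℝ) := by
    rw [hT]
    rw [integral_finsetSum _ fun i _ => iT0 i]
    have h1 : ∀ i, ∫ z : sphere (0 : E) 1, gr (b i) z * gr (b i) z / fshM μ (b i) (b i)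
        ∂μ.toSphere = 1 := by
      intro i
      rw [integral_div, ← fshM_apply, div_self (hm i).ne']
    simp only [h1]
    simp
  have hT0 : ∀ z, 0 ≤ T z := by
    intro z
    rw [hT]
    exact Finset.sum_nonneg fun i _ => div_nonneg (mul_self_nonneg _) (hm i).le
  refine ⟨T, iT, eT, hT0, fun x hx c c' p p' hc hc' hp hp' hcp => ?_⟩
  rcases (hT0 x).eq_or_lt with h0 | hTpos
  · rw [← h0, zero_mul]
    exact zero_le_one
  -- the test vector
  obtain ⟨a, ha⟩ : ∃ a : Fin (finrank ℝ E) → ℝ,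
      a = fun i => (T x)⁻¹ * (gr (b i) x / fshM μ (b i) (b i)) := ⟨_, rfl⟩
  obtain ⟨v, hv⟩ : ∃ v : E, v = ∑ i, a i • b i := ⟨_, rfl⟩
  have hTx2 : T x = ∑ i, gr (b i) x * gr (b i) x / fshM μ (b i) (b i) := by rw [hT]
  have hdg : dg x v = 1 := by
    have h1 : dg x v = gr v (x : E) := rfl
    rw [h1, hv, fsh_gr_sum, ha]
    simp only
    have h2 : ∑ i, (T x)⁻¹ * (gr (b i) x / fshM μ (b i) (b i)) * gr (b i) x =
        (T x)⁻¹ * T x := by
      rw [hTx2, Finset.mul_sum]
      exact Finset.sum_congr rfl fun i _ => by ring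
    rw [h2, inv_mul_cancel₀ hTpos.ne']
  have hMv : fshM μ v v = (T x)⁻¹ := by
    have h1 : fshM μ v v = ∑ i, a i * (a i * fshM μ (b i) (b i)) := by
      rw [hv]
      simp only [map_sum, LinearMap.sum_apply, map_smul, LinearMap.smul_apply, smul_eq_mul]
      refine Finset.sum_congr rfl fun i _ => ?_
      rw [Finset.sum_eq_single i]
      · intro j _ hj
        rw [hort j i hj]
        ring
      · intro h
        exact absurd (Finset.mem_univ i) h
    have h2 : ∑ i, a i * (a i * fshM μ (b i) (b i)) = (T x)⁻¹ := by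
      have h3 : ∀ i, a i * (a i * fshM μ (b i) (b i)) = (T x)⁻¹ * (T x)⁻¹ *
          (gr (b i) x * gr (b i) x / fshM μ (b i) (b i)) := by
        intro i
        rw [ha]
        have := (hm i).ne'
        field_simp
      simp only [h3]
      rw [← Finset.mul_sum, ← hTx2, mul_assoc, inv_mul_cancel₀ hTpos.ne', mul_one]
    rw [h1, h2]
  have hcc : Continuous c := continuous_iff_continuousAt.2 fun y => (hc y).continuousAt
  have hpc : Continuous p := continuous_iff_continuousAt.2 fun y => (hp y).continuousAt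
  have hl := norm_dg_le x
  obtain ⟨M, hM⟩ := (isCompact_Icc (a := (-1:ℝ)) (b := 1)).exists_bound_of_continuousOn
    hcc.continuousOn
  obtain ⟨D, hD⟩ := (isCompact_Icc (a := (-1:ℝ)) (b := 1)).exists_bound_of_continuousOn
    hpc.continuousOn
  have hI : ∀ z : sphere (0 : E) 1, dg x z ∈ Icc (-1 : ℝ) 1 := by
    intro z
    have := mem_Icc_ratio hl (z : E)
    rwa [norm_eq_of_mem_sphere z, div_one] at this
  have hlm : Measurable fun z : sphere (0 : E) 1 => dg x z :=
    ((dg x).continuous.comp continuous_subtype_val).measurable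
  have i1 : Integrable (fun z : sphere (0 : E) 1 => c (dg x z)) μ.toSphere :=
    integrable_sphere μ (hcc.measurable.comp hlm) (C := M) fun z => hM _ (hI z)
  have i2 : Integrable (fun z : sphere (0 : E) 1 => gr v z * p (dg x z)) μ.toSphere := by
    refine integrable_sphere μ ((fsh_meas v).mul (hpc.measurable.comp hlm)) (C := ‖v‖ * D)
      fun z => ?_
    rw [abs_mul]
    exact mul_le_mul (abs_gr_le v _) (hD _ (hI z)) (abs_nonneg _) (norm_nonneg _)
  have ea := sphere_a μ (dg x) hc hc'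
  have eb := sphere_b μ hd (dg x) hl v hp hp'
  rw [hdg, one_mul] at eb
  have j1 := integrableOn_ball_comp μ (dg x) (f := fun y => (finrank ℝ E : ℝ) * c y + y * c' y)
    (by fun_prop)
  have j2 := integrableOn_ball_comp μ (dg x) hp'
  have e0 : ∫ y in ball (0 : E) 1, ((finrank ℝ E : ℝ) * c (dg x y) + dg x y * c' (dg x y) +
      p' (dg x y)) ∂μ = ∫ z : sphere (0 : E) 1, (c (dg x z) + gr v z * p (dg x z))
        ∂μ.toSphere := by
    rw [integral_add i1 i2, integral_add j1 j2, ← ea, ← eb]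
  have e1 : ∫ z : sphere (0 : E) 1, (c (dg x z) + gr v z * p (dg x z)) ∂μ.toSphere ≤
      fshM μ v v := by
    rw [fshM_apply]
    refine integral_mono (i1.add i2) (fsh_int μ v v) fun z => ?_
    have h1 := hcp _ (hI z)
    simp only
    nlinarith [sq_nonneg (p (dg x z) / 2 - gr v z)]
  rw [e0]
  calc T x * ∫ z : sphere (0 : E) 1, (c (dg x z) + gr v z * p (dg x z)) ∂μ.toSphere ≤
      T x * (T x)⁻¹ := mul_le_mul_of_nonneg_left (e1.trans hMv.le) hTpos.le
    _ = 1 := mul_inv_cancel₀ hTpos.ne'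

/-- **Exchangeability with the Fisher term**, almost everywhere form. -/
theorem exchF_ae {A : ℝ → ℝ → ℝ} (hA : Measurable (Function.uncurry A)) {C : ℝ}
    (hC : ∀ a ∈ Icc (-1 : ℝ) 1, ∀ b ∈ Icc (-1 : ℝ) 1, |A a b| ≤ C)
    (hanti : ∀ a ∈ Icc (-1 : ℝ) 1, ∀ b ∈ Icc (-1 : ℝ) 1, A a b = -A b a)
    {T : sphere (0 : E) 1 → ℝ} (hT : Integrable T μ.toSphere)
    (hT1 : ∫ z, T z ∂μ.toSphere = (finrank ℝ E : ℝ)) (θ : ℝ)
    (h0 : ∀ᵐ x : sphere (0 : E) 1 ∂μ.toSphere,
      θ * (T x * (μ (ball (0 : E) 1)).toReal - 1) * (μ (ball (0 : E) 1)).toReal ≤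
        ∫ z : sphere (0 : E) 1, A (pr z x) (pr x z) ∂μ.toSphere) :
    ∀ᵐ x : sphere (0 : E) 1 ∂μ.toSphere,
      ∫ z : sphere (0 : E) 1, A (pr z x) (pr x z) ∂μ.toSphere =
        θ * (T x * (μ (ball (0 : E) 1)).toReal - 1) * (μ (ball (0 : E) 1)).toReal := by
  obtain ⟨hint, hz⟩ := exch_zero (E := E) μ hA hC hanti
  have hσ : μ.toSphere.real univ = (finrank ℝ E : ℝ) * (μ (ball (0 : E) 1)).toReal := by
    rw [measureReal_def, μ.toSphere_apply_univ, ENNReal.toReal_mul, ENNReal.toReal_natCast]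
  set V := (μ (ball (0 : E) 1)).toReal with hV
  have iF : Integrable (fun x : sphere (0 : E) 1 => θ * (T x * V - 1) * V) μ.toSphere :=
    (((hT.mul_const V).sub (integrable_const _)).const_mul θ).mul_const V
  have hF : ∫ x : sphere (0 : E) 1, θ * (T x * V - 1) * V ∂μ.toSphere = 0 := by
    rw [integral_mul_const, integral_const_mul,
      integral_sub (hT.mul_const V) (integrable_const _), integral_mul_const, hT1, integral_const,
      hσ, smul_eq_mul]
    ring
  have iI := hint.integral_prod_left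
  have h1 : ∀ᵐ x : sphere (0 : E) 1 ∂μ.toSphere,
      0 ≤ (∫ z : sphere (0 : E) 1, A (pr z x) (pr x z) ∂μ.toSphere) - θ * (T x * V - 1) * V := by
    filter_upwards [h0] with x hx
    linarith
  have h2 : ∫ x : sphere (0 : E) 1, ((∫ z : sphere (0 : E) 1, A (pr z x) (pr x z) ∂μ.toSphere) -
      θ * (T x * V - 1) * V) ∂μ.toSphere = 0 := by
    rw [integral_sub iI iF, hF, sub_zero]
    exact hz
  have h3 := (integral_eq_zero_iff_of_nonneg_ae h1 (iI.sub iF)).1 h2
  filter_upwards [h3] with x hx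
  simp only [Pi.zero_apply] at hx
  linarith

end Vale.Agent.P237.Exch
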