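import Vale.Agent.P237.AllN.PolyArith
import Mathlib.Analysis.SpecialFunctions.Exp
import Mathlib.Analysis.Complex.Exponential

/-!
# P237, block D, `l > 0`: the kernel sums of the hybrid lines

`kpt t = 1 - t + t²/2 - e^{-t}`, `kct t = e^t - 1 - t - t²/2`, with `t = 2kl`.
-/

open Finset

namespace Vale.Agent.P237.AllN

open PolyPos

noncomputable def kpt (t : ℝ) : ℝ := 1 - t + t ^ 2 / 2 - Real.exp (-t)

noncomputable def kct (t : ℝ) : ℝ := Real.exp t - 1 - t - t ^ 2 / 2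

/-- `1260 ×` lower Taylor bound of `e^{-2l}` -/
def kAL : List ℤ := [1260, -2520, 2520, -1680, 840, -336, 112, -32, -9]

/-- `1260 ×` upper Taylor bound of `e^{-2l}` -/
def kAH : List ℤ := [1260, -2520, 2520, -1680, 840, -336, 112, -32, 9]

/-- `1260 ×` upper Taylor bound of `e^{2l}` -/
def kBH : List ℤ := [1260, 2520, 2520, 1680, 840, 336, 112, 32, 9]

theorem ks_taylor {y : ℝ} (hy : |y| ≤ 1) :
    |Real.exp y - (1 + y + y ^ 2 / 2 + y ^ 3 / 6 + y ^ 4 / 24 + y ^ 5 / 120 + y ^ 6 / 720 +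
      y ^ 7 / 5040)| ≤ |y| ^ 8 / 35840 := by
  have h := Real.exp_bound hy (n := 8) (by norm_num)
  simp only [sum_range_succ, sum_range_zero, Nat.factorial] at h
  norm_num at h
  refine le_trans (le_of_eq ?_) (h.trans (le_of_eq ?_))
  · congr 1
  · ring

theorem kAL_le {l : ℝ} (h0 : 0 ≤ l) (h1 : l ≤ 1 / 2) : ev1 kAL l ≤ 1260 * Real.exp (-(2 * l)) := by
  have h := ks_taylor (y := -(2 * l)) (by rw [abs_neg, abs_of_nonneg (by linarith only [h0])]; linarith only [h1])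
  rw [abs_neg, abs_of_nonneg (by linarith only [h0] : 0 ≤ 2 * l)] at h
  have h2 := (abs_le.1 h).1
  simp only [kAL, ev1_cons, ev1_nil]
  push_cast
  linarith

theorem kAH_ge {l : ℝ} (h0 : 0 ≤ l) (h1 : l ≤ 1 / 2) : 1260 * Real.exp (-(2 * l)) ≤ ev1 kAH l := by
  have h := ks_taylor (y := -(2 * l)) (by rw [abs_neg, abs_of_nonneg (by linarith only [h0])]; linarith only [h1])
  rw [abs_neg, abs_of_nonneg (by linarith only [h0] : 0 ≤ 2 * l)] at h
  have h2 := (abs_le.1 h).2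
  simp only [kAH, ev1_cons, ev1_nil]
  push_cast
  linarith

theorem kBH_ge {l : ℝ} (h0 : 0 ≤ l) (h1 : l ≤ 1 / 2) : 1260 * Real.exp (2 * l) ≤ ev1 kBH l := by
  have h := ks_taylor (y := 2 * l) (by rw [abs_of_nonneg (by linarith only [h0])]; linarith only [h1])
  rw [abs_of_nonneg (by linarith only [h0] : 0 ≤ 2 * l)] at h
  have h2 := (abs_le.1 h).2
  simp only [kBH, ev1_cons, ev1_nil]
  push_cast
  linarith

theorem kAL_nonneg {l : ℝ} (h0 : 0 ≤ l) (h1 : l ≤ 2 / 5) : 0 ≤ ev1 kAL l := by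
  apply ev1_closed (a := 0) (b := 2 / 5) (by norm_num) _ h0 h1
  intro x hx0 hx1
  exact auto1_sound (n := 4) (A := 0) (B := 2) (D := 5) (by norm_num) (by (clear * -; decide +kernel))
    (by push_cast; linarith only [hx0]) (by push_cast; linarith only [hx1])

theorem ks_E_ge (k : ℕ) {l : ℝ} (h0 : 0 ≤ l) (h1 : l ≤ 2 / 5) :
    ev1 kAL l ^ k ≤ 1260 ^ k * Real.exp (-(2 * k * l)) := by
  have h2 := pow_le_pow_left₀ (kAL_nonneg h0 h1) (kAL_le h0 (by linarith)) k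
  rw [mul_pow, ← Real.exp_nat_mul] at h2
  refine h2.trans (le_of_eq ?_)
  congr 2
  ring

theorem ks_E_le (k : ℕ) {l : ℝ} (h0 : 0 ≤ l) (h1 : l ≤ 2 / 5) :
    1260 ^ k * Real.exp (-(2 * k * l)) ≤ ev1 kAH l ^ k := by
  have h2 := pow_le_pow_left₀ (by positivity) (kAH_ge h0 (by linarith)) k
  rw [mul_pow, ← Real.exp_nat_mul] at h2
  refine le_trans (le_of_eq ?_) h2
  congr 2
  ring

theorem ks_B_le (k : ℕ) {l : ℝ} (h0 : 0 ≤ l) (h1 : l ≤ 2 / 5) :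
    1260 ^ k * Real.exp (2 * k * l) ≤ ev1 kBH l ^ k := by
  have h2 := pow_le_pow_left₀ (by positivity) (kBH_ge h0 (by linarith)) k
  rw [mul_pow, ← Real.exp_nat_mul] at h2
  refine le_trans (le_of_eq ?_) h2
  congr 2
  ring

theorem ks_poly {q : List ℤ} {l : ℝ} (h0 : 0 ≤ l) (h1 : l ≤ 2 / 5)
    (h : auto1 6 0 2 5 q = true) : 0 ≤ ev1 q l := by
  apply ev1_closed (a := 0) (b := 2 / 5) (by norm_num) _ h0 h1
  intro x hx0 hx1
  exact auto1_sound (n := 6) (A := 0) (B := 2) (D := 5) (by norm_num) h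
    (by push_cast; linarith only [hx0]) (by push_cast; linarith only [hx1])

theorem ks_w {l : ℝ} (h0 : 0 ≤ l) (h1 : l ≤ 2 / 5) :
    kpt (2 * l) ≤ l ^ 3 * (4 / 3 - 3 / 5 * l + 7 / 100 * l ^ 2) := by
  have h := ks_poly (q := padd (psm 1260 [-300, 600, -600, 400, -180, 21]) (psm 300 kAL)) h0 h1 (by (clear * -; decide +kernel))
  have hE := kAL_le h0 (by linarith)
  rw [ev1_padd, ev1_psm, ev1_psm] at h
  simp only [ev1_cons, ev1_nil] at h hE
  push_cast at h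
  simp only [kpt]
  linarith

theorem ks_h_two {l : ℝ} (h0 : 0 ≤ l) (h1 : l ≤ 2 / 5) :
    3 * kpt (4 * l) + kct (4 * l) ≤ l ^ 3 * (128 / 3 - 19 * l + 26 * l ^ 2) := by
  have h := ks_poly (q := padd (psm (1260 ^ 2) [-6, 48, -48, 128, -57, 78]) (padd (psm 9 (ppow kAL 2))
    (psm (-3) (ppow kBH 2)))) h0 h1 (by (clear * -; decide +kernel))
  have hE := ks_E_ge 2 h0 h1
  have hB := ks_B_le 2 h0 h1
  rw [ev1_padd, ev1_padd, ev1_psm, ev1_psm, ev1_psm, ev1_ppow, ev1_ppow] at h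
  simp only [ev1_cons, ev1_nil] at h
  rw [show -(2 * ((2 : ℕ) : ℝ) * l) = -(4 * l) by push_cast; ring] at hE
  rw [show 2 * ((2 : ℕ) : ℝ) * l = 4 * l by push_cast; ring] at hB
  generalize ev1 kAL l ^ 2 = A at *
  generalize ev1 kBH l ^ 2 = B at *
  push_cast at h
  simp only [kpt, kct]
  linarith

theorem ks_p_two {l : ℝ} (h0 : 0 ≤ l) (h1 : l ≤ 2 / 5) :
    l ^ 3 * (32 / 3 - 1067 / 100 * l + 133 / 20 * l ^ 2) ≤ kpt (4 * l) := by
  have h := ks_poly (q := padd (psm (1260 ^ 2) [300, -1200, 2400, -3200, 3201, -1995]) (psm (-300) (ppow kAH 2))) h0 h1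
    (by (clear * -; decide +kernel))
  have hE := ks_E_le 2 h0 h1
  rw [ev1_padd, ev1_psm, ev1_psm, ev1_ppow] at h
  simp only [ev1_cons, ev1_nil] at h
  rw [show -(2 * ((2 : ℕ) : ℝ) * l) = -(4 * l) by push_cast; ring] at hE
  generalize ev1 kAH l ^ 2 = A at *
  push_cast at h
  simp only [kpt]
  linarith

theorem ks_e_two {l : ℝ} (h0 : 0 ≤ l) (h1 : l ≤ 2 / 5) :
    l * (-16 + 423 / 10 * l - 153 / 5 * l ^ 2) ≤ 6 * (Real.exp (-(4 * l)) - 1) + 8 * l := by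
  have h := ks_poly (q := padd (psm (1260 ^ 2) [-60, 240, -423, 306]) (psm 60 (ppow kAL 2))) h0 h1
    (by (clear * -; decide +kernel))
  have hE := ks_E_ge 2 h0 h1
  rw [ev1_padd, ev1_psm, ev1_psm, ev1_ppow] at h
  simp only [ev1_cons, ev1_nil] at h
  rw [show -(2 * ((2 : ℕ) : ℝ) * l) = -(4 * l) by push_cast; ring] at hE
  generalize ev1 kAL l ^ 2 = A at *
  push_cast at h
  linarith

theorem ks_h_three {l : ℝ} (h0 : 0 ≤ l) (h1 : l ≤ 2 / 5) :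
    5 * kpt (6 * l) + kct (6 * l) ≤ l ^ 3 * (216 - 194 * l + 555 / 2 * l ^ 2) := by
  have h := ks_poly (q := padd (psm (1260 ^ 3) [-8, 72, -144, 432, -388, 555]) (padd (psm 10 (ppow kAL 3))
    (psm (-2) (ppow kBH 3)))) h0 h1 (by (clear * -; decide +kernel))
  have hE := ks_E_ge 3 h0 h1
  have hB := ks_B_le 3 h0 h1
  rw [ev1_padd, ev1_padd, ev1_psm, ev1_psm, ev1_psm, ev1_ppow, ev1_ppow] at h
  simp only [ev1_cons, ev1_nil] at h
  rw [show -(2 * ((3 : ℕ) : ℝ) * l) = -(6 * l) by push_cast; ring] at hE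
  rw [show 2 * ((3 : ℕ) : ℝ) * l = 6 * l by push_cast; ring] at hB
  generalize ev1 kAL l ^ 3 = A at *
  generalize ev1 kBH l ^ 3 = B at *
  push_cast at h
  simp only [kpt, kct]
  linarith

theorem ks_p_three {l : ℝ} (h0 : 0 ≤ l) (h1 : l ≤ 2 / 5) :
    l ^ 3 * (36 - 54 * l + 228 / 5 * l ^ 2) ≤ kpt (6 * l) := by
  have h := ks_poly (q := padd (psm (1260 ^ 3) [5, -30, 90, -180, 270, -228]) (psm (-5) (ppow kAH 3))) h0 h1
    (by (clear * -; decide +kernel))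
  have hE := ks_E_le 3 h0 h1
  rw [ev1_padd, ev1_psm, ev1_psm, ev1_ppow] at h
  simp only [ev1_cons, ev1_nil] at h
  rw [show -(2 * ((3 : ℕ) : ℝ) * l) = -(6 * l) by push_cast; ring] at hE
  generalize ev1 kAH l ^ 3 = A at *
  push_cast at h
  simp only [kpt]
  linarith

theorem ks_e_three {l : ℝ} (h0 : 0 ≤ l) (h1 : l ≤ 2 / 5) :
    l * (-36 + 1431 / 10 * l - 1249 / 10 * l ^ 2) ≤ 10 * (Real.exp (-(6 * l)) - 1) + 24 * l := by
  have h := ks_poly (q := padd (psm (1260 ^ 3) [-100, 600, -1431, 1249]) (psm 100 (ppow kAL 3))) h0 h1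
    (by (clear * -; decide +kernel))
  have hE := ks_E_ge 3 h0 h1
  rw [ev1_padd, ev1_psm, ev1_psm, ev1_ppow] at h
  simp only [ev1_cons, ev1_nil] at h
  rw [show -(2 * ((3 : ℕ) : ℝ) * l) = -(6 * l) by push_cast; ring] at hE
  generalize ev1 kAL l ^ 3 = A at *
  push_cast at h
  linarith

theorem ks_h_four {l : ℝ} (h0 : 0 ≤ l) (h1 : l ≤ 2 / 5) :
    7 * kpt (8 * l) + kct (8 * l) ≤ l ^ 3 * (2048 / 3 - 920 * l + 1490 * l ^ 2) := by
  have h := ks_poly (q := padd (psm (1260 ^ 4) [-18, 192, -576, 2048, -2760, 4470]) (padd (psm 21 (ppow kAL 4))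
    (psm (-3) (ppow kBH 4)))) h0 h1 (by (clear * -; decide +kernel))
  have hE := ks_E_ge 4 h0 h1
  have hB := ks_B_le 4 h0 h1
  rw [ev1_padd, ev1_padd, ev1_psm, ev1_psm, ev1_psm, ev1_ppow, ev1_ppow] at h
  simp only [ev1_cons, ev1_nil] at h
  rw [show -(2 * ((4 : ℕ) : ℝ) * l) = -(8 * l) by push_cast; ring] at hE
  rw [show 2 * ((4 : ℕ) : ℝ) * l = 8 * l by push_cast; ring] at hB
  generalize ev1 kAL l ^ 4 = A at *
  generalize ev1 kBH l ^ 4 = B at *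
  push_cast at h
  simp only [kpt, kct]
  linarith

theorem ks_p_four {l : ℝ} (h0 : 0 ≤ l) (h1 : l ≤ 2 / 5) :
    l ^ 3 * (256 / 3 - 1707 / 10 * l + 349 / 2 * l ^ 2) ≤ kpt (8 * l) := by
  have h := ks_poly (q := padd (psm (1260 ^ 4) [30, -240, 960, -2560, 5121, -5235]) (psm (-30) (ppow kAH 4))) h0 h1
    (by (clear * -; decide +kernel))
  have hE := ks_E_le 4 h0 h1
  rw [ev1_padd, ev1_psm, ev1_psm, ev1_ppow] at h
  simp only [ev1_cons, ev1_nil] at h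
  rw [show -(2 * ((4 : ℕ) : ℝ) * l) = -(8 * l) by push_cast; ring] at hE
  generalize ev1 kAH l ^ 4 = A at *
  push_cast at h
  simp only [kpt]
  linarith

theorem ks_e_four {l : ℝ} (h0 : 0 ≤ l) (h1 : l ≤ 2 / 5) :
    l * (-64 + 639 / 2 * l - 1544 / 5 * l ^ 2) ≤ 14 * (Real.exp (-(8 * l)) - 1) + 48 * l := by
  have h := ks_poly (q := padd (psm (1260 ^ 4) [-140, 1120, -3195, 3088]) (psm 140 (ppow kAL 4))) h0 h1
    (by (clear * -; decide +kernel))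
  have hE := ks_E_ge 4 h0 h1
  rw [ev1_padd, ev1_psm, ev1_psm, ev1_ppow] at h
  simp only [ev1_cons, ev1_nil] at h
  rw [show -(2 * ((4 : ℕ) : ℝ) * l) = -(8 * l) by push_cast; ring] at hE
  generalize ev1 kAL l ^ 4 = A at *
  push_cast at h
  linarith

theorem ks_h_five {l : ℝ} (h0 : 0 ≤ l) (h1 : l ≤ 2 / 5) :
    9 * kpt (10 * l) + kct (10 * l) ≤ l ^ 3 * (5000 / 3 - 2995 * l + 5519 * l ^ 2) := by
  have h := ks_poly (q := padd (psm (1260 ^ 5) [-24, 300, -1200, 5000, -8985, 16557]) (padd (psm 27 (ppow kAL 5))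
    (psm (-3) (ppow kBH 5)))) h0 h1 (by (clear * -; decide +kernel))
  have hE := ks_E_ge 5 h0 h1
  have hB := ks_B_le 5 h0 h1
  rw [ev1_padd, ev1_padd, ev1_psm, ev1_psm, ev1_psm, ev1_ppow, ev1_ppow] at h
  simp only [ev1_cons, ev1_nil] at h
  rw [show -(2 * ((5 : ℕ) : ℝ) * l) = -(10 * l) by push_cast; ring] at hE
  rw [show 2 * ((5 : ℕ) : ℝ) * l = 10 * l by push_cast; ring] at hB
  generalize ev1 kAL l ^ 5 = A at *
  generalize ev1 kBH l ^ 5 = B at *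
  push_cast at h
  simp only [kpt, kct]
  linarith

theorem ks_p_five {l : ℝ} (h0 : 0 ≤ l) (h1 : l ≤ 2 / 5) :
    l ^ 3 * (500 / 3 - 4167 / 10 * l + 973 / 2 * l ^ 2) ≤ kpt (10 * l) := by
  have h := ks_poly (q := padd (psm (1260 ^ 5) [30, -300, 1500, -5000, 12501, -14595]) (psm (-30) (ppow kAH 5))) h0 h1
    (by (clear * -; decide +kernel))
  have hE := ks_E_le 5 h0 h1
  rw [ev1_padd, ev1_psm, ev1_psm, ev1_ppow] at h
  simp only [ev1_cons, ev1_nil] at h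
  rw [show -(2 * ((5 : ℕ) : ℝ) * l) = -(10 * l) by push_cast; ring] at hE
  generalize ev1 kAH l ^ 5 = A at *
  push_cast at h
  simp only [kpt]
  linarith

theorem ks_e_five {l : ℝ} (h0 : 0 ≤ l) (h1 : l ≤ 2 / 5) :
    l * (-100 + 2884 / 5 * l - 2967 / 5 * l ^ 2) ≤ 18 * (Real.exp (-(10 * l)) - 1) + 80 * l := by
  have h := ks_poly (q := padd (psm (1260 ^ 5) [-90, 900, -2884, 2967]) (psm 90 (ppow kAL 5))) h0 h1
    (by (clear * -; decide +kernel))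
  have hE := ks_E_ge 5 h0 h1
  rw [ev1_padd, ev1_psm, ev1_psm, ev1_ppow] at h
  simp only [ev1_cons, ev1_nil] at h
  rw [show -(2 * ((5 : ℕ) : ℝ) * l) = -(10 * l) by push_cast; ring] at hE
  generalize ev1 kAL l ^ 5 = A at *
  push_cast at h
  linarith

theorem ks_h_six {l : ℝ} (h0 : 0 ≤ l) (h1 : l ≤ 2 / 5) :
    11 * kpt (12 * l) + kct (12 * l) ≤ l ^ 3 * (3456 - 7765 * l + 16284 * l ^ 2) := by
  have h := ks_poly (q := padd (psm (1260 ^ 6) [-10, 144, -720, 3456, -7765, 16284]) (padd (psm 11 (ppow kAL 6))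
    (psm (-1) (ppow kBH 6)))) h0 h1 (by (clear * -; decide +kernel))
  have hE := ks_E_ge 6 h0 h1
  have hB := ks_B_le 6 h0 h1
  rw [ev1_padd, ev1_padd, ev1_psm, ev1_psm, ev1_psm, ev1_ppow, ev1_ppow] at h
  simp only [ev1_cons, ev1_nil] at h
  rw [show -(2 * ((6 : ℕ) : ℝ) * l) = -(12 * l) by push_cast; ring] at hE
  rw [show 2 * ((6 : ℕ) : ℝ) * l = 12 * l by push_cast; ring] at hB
  generalize ev1 kAL l ^ 6 = A at *
  generalize ev1 kBH l ^ 6 = B at *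
  push_cast at h
  simp only [kpt, kct]
  linarith

theorem ks_p_six {l : ℝ} (h0 : 0 ≤ l) (h1 : l ≤ 2 / 5) :
    l ^ 3 * (288 - 864 * l + 2225 / 2 * l ^ 2) ≤ kpt (12 * l) := by
  have h := ks_poly (q := padd (psm (1260 ^ 6) [2, -24, 144, -576, 1728, -2225]) (psm (-2) (ppow kAH 6))) h0 h1
    (by (clear * -; decide +kernel))
  have hE := ks_E_le 6 h0 h1
  rw [ev1_padd, ev1_psm, ev1_psm, ev1_ppow] at h
  simp only [ev1_cons, ev1_nil] at h
  rw [show -(2 * ((6 : ℕ) : ℝ) * l) = -(12 * l) by push_cast; ring] at hE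
  generalize ev1 kAH l ^ 6 = A at *
  push_cast at h
  simp only [kpt]
  linarith

theorem ks_e_six {l : ℝ} (h0 : 0 ≤ l) (h1 : l ≤ 2 / 5) :
    l * (-144 + 4581 / 5 * l - 4909 / 5 * l ^ 2) ≤ 22 * (Real.exp (-(12 * l)) - 1) + 120 * l := by
  have h := ks_poly (q := padd (psm (1260 ^ 6) [-110, 1320, -4581, 4909]) (psm 110 (ppow kAL 6))) h0 h1
    (by (clear * -; decide +kernel))
  have hE := ks_E_ge 6 h0 h1
  rw [ev1_padd, ev1_psm, ev1_psm, ev1_ppow] at h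
  simp only [ev1_cons, ev1_nil] at h
  rw [show -(2 * ((6 : ℕ) : ℝ) * l) = -(12 * l) by push_cast; ring] at hE
  generalize ev1 kAL l ^ 6 = A at *
  push_cast at h
  linarith

/-- kernel sum (`Σ F_k + Λ_H l²`) of the hybrid line `KK = 6` -/
noncomputable def ksS (m z s l : ℝ) : ℝ :=
  (3 * (m - 3) * z ^ 2 / s ^ 5 - 9 * z / s ^ 3) * l ^ 2 +
  3 / 16 * z * (3 * (2 - (m + 5) * z) * kpt (4 * l) - (m + 5) * z * kct (4 * l)) +
  5 / 48 * z ^ 2 * (5 * (4 - (m + 7) * z) * kpt (6 * l) - (m + 7) * z * kct (6 * l)) +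
  35 / 512 * z ^ 3 * (7 * (6 - (m + 9) * z) * kpt (8 * l) - (m + 9) * z * kct (8 * l)) +
  63 / 1280 * z ^ 4 * (9 * (8 - (m + 11) * z) * kpt (10 * l) - (m + 11) * z * kct (10 * l)) +
  77 / 2048 * z ^ 5 * (11 * (10 - (m + 13) * z) * kpt (12 * l) - (m + 13) * z * kct (12 * l))

/-- coefficient of `W = u²/(1+u)` coming from the kernel, hybrid line `KK = 6` -/
noncomputable def kCK (z s l : ℝ) : ℝ :=
  4 / s - 4 * s / (1 + s) - 2 * s ^ 2 - 6 * z * l / s ^ 3 +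
  s ^ 2 * (3 / 4 * z * (6 * (Real.exp (-(4 * l)) - 1) + 8 * l) +
    5 / 8 * z ^ 2 * (10 * (Real.exp (-(6 * l)) - 1) + 24 * l) +
    35 / 64 * z ^ 3 * (14 * (Real.exp (-(8 * l)) - 1) + 48 * l) +
    63 / 128 * z ^ 4 * (18 * (Real.exp (-(10 * l)) - 1) + 80 * l) +
    231 / 512 * z ^ 5 * (22 * (Real.exp (-(12 * l)) - 1) + 120 * l))

/-- polynomial bound of the cubic remainder of `(m+3) z ψ(2l) + S` -/
noncomputable def kB (m z l : ℝ) : ℝ :=
  (m + 3) * (4 / 3 - 3 / 5 * l + 7 / 100 * l ^ 2) +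
  3 / 16 * ((m + 5) * z * (128 / 3 - 19 * l + 26 * l ^ 2) - 6 * (32 / 3 - 1067 / 100 * l + 133 / 20 * l ^ 2)) +
  5 / 48 * z * ((m + 7) * z * (216 - 194 * l + 555 / 2 * l ^ 2) - 20 * (36 - 54 * l + 228 / 5 * l ^ 2)) +
  35 / 512 * z ^ 2 * ((m + 9) * z * (2048 / 3 - 920 * l + 1490 * l ^ 2) - 42 * (256 / 3 - 1707 / 10 * l + 349 / 2 * l ^ 2)) +
  63 / 1280 * z ^ 3 * ((m + 11) * z * (5000 / 3 - 2995 * l + 5519 * l ^ 2) - 72 * (500 / 3 - 4167 / 10 * l + 973 / 2 * l ^ 2)) +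
  77 / 2048 * z ^ 4 * ((m + 13) * z * (3456 - 7765 * l + 16284 * l ^ 2) - 110 * (288 - 864 * l + 2225 / 2 * l ^ 2))

/-- polynomial lower bound of the `l`-dependent part of `C_K` (divided by `s² z l`) -/
noncomputable def kQ (z l : ℝ) : ℝ :=
  3 / 4 * (-16 + 423 / 10 * l - 153 / 5 * l ^ 2) + 5 / 8 * z * (-36 + 1431 / 10 * l - 1249 / 10 * l ^ 2) +
  35 / 64 * z ^ 2 * (-64 + 639 / 2 * l - 1544 / 5 * l ^ 2) + 63 / 128 * z ^ 3 * (-100 + 2884 / 5 * l - 2967 / 5 * l ^ 2) +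
  231 / 512 * z ^ 4 * (-144 + 4581 / 5 * l - 4909 / 5 * l ^ 2)

theorem ksS_ge {m z s l : ℝ} (hm : 0 ≤ m) (hz : 0 ≤ z) (h0 : 0 ≤ l) (h1 : l ≤ 2 / 5) :
    l ^ 2 * (2 * (m + 3) * z + (3 * (m - 3) * z ^ 2 / s ^ 5 - 9 * z / s ^ 3)) -
      l ^ 3 * z * kB m z l ≤
    (m + 3) * z * (Real.exp (-(2 * l)) - 1 + 2 * l) + ksS m z s l := by
  have w := ks_w h0 h1

  have a2 := ks_h_two h0 h1
  have b2 := ks_p_two h0 h1
  have a3 := ks_h_three h0 h1
  have b3 := ks_p_three h0 h1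
  have a4 := ks_h_four h0 h1
  have b4 := ks_p_four h0 h1
  have a5 := ks_h_five h0 h1
  have b5 := ks_p_five h0 h1
  have a6 := ks_h_six h0 h1
  have b6 := ks_p_six h0 h1
  have w' : (m + 3) * z * (2 * l ^ 2 - l ^ 3 * (4 / 3 - 3 / 5 * l + 7 / 100 * l ^ 2)) ≤
      (m + 3) * z * (Real.exp (-(2 * l)) - 1 + 2 * l) := by
    apply mul_le_mul_of_nonneg_left _ (by positivity)
    simp only [kpt] at w
    linarith only [w]
  have c2 : 3 / 16 * z * (6 * (l ^ 3 * (32 / 3 - 1067 / 100 * l + 133 / 20 * l ^ 2)) - (m + 5) * z * (l ^ 3 * (128 / 3 - 19 * l + 26 * l ^ 2))) ≤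
      3 / 16 * z * (3 * (2 - (m + 5) * z) * kpt (4 * l) - (m + 5) * z * kct (4 * l)) := by
    apply mul_le_mul_of_nonneg_left _ (by positivity)
    have d1 := mul_le_mul_of_nonneg_left a2 (by positivity : 0 ≤ (m + 5) * z)
    linarith only [b2, d1]
  have c3 : 5 / 48 * z ^ 2 * (20 * (l ^ 3 * (36 - 54 * l + 228 / 5 * l ^ 2)) - (m + 7) * z * (l ^ 3 * (216 - 194 * l + 555 / 2 * l ^ 2))) ≤
      5 / 48 * z ^ 2 * (5 * (4 - (m + 7) * z) * kpt (6 * l) - (m + 7) * z * kct (6 * l)) := by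
    apply mul_le_mul_of_nonneg_left _ (by (clear * -; positivity))
    have d1 := mul_le_mul_of_nonneg_left a3 (by positivity : 0 ≤ (m + 7) * z)
    linarith only [b3, d1]
  have c4 : 35 / 512 * z ^ 3 * (42 * (l ^ 3 * (256 / 3 - 1707 / 10 * l + 349 / 2 * l ^ 2)) - (m + 9) * z * (l ^ 3 * (2048 / 3 - 920 * l + 1490 * l ^ 2))) ≤
      35 / 512 * z ^ 3 * (7 * (6 - (m + 9) * z) * kpt (8 * l) - (m + 9) * z * kct (8 * l)) := by
    apply mul_le_mul_of_nonneg_left _ (by (clear * - hz; positivity))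
    have d1 := mul_le_mul_of_nonneg_left a4 (by positivity : 0 ≤ (m + 9) * z)
    linarith only [b4, d1]
  have c5 : 63 / 1280 * z ^ 4 * (72 * (l ^ 3 * (500 / 3 - 4167 / 10 * l + 973 / 2 * l ^ 2)) - (m + 11) * z * (l ^ 3 * (5000 / 3 - 2995 * l + 5519 * l ^ 2))) ≤
      63 / 1280 * z ^ 4 * (9 * (8 - (m + 11) * z) * kpt (10 * l) - (m + 11) * z * kct (10 * l)) := by
    apply mul_le_mul_of_nonneg_left _ (by (clear * -; positivity))
    have d1 := mul_le_mul_of_nonneg_left a5 (by (clear * - hm hz; positivity) : 0 ≤ (m + 11) * z)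
    linarith only [b5, d1]
  have c6 : 77 / 2048 * z ^ 5 * (110 * (l ^ 3 * (288 - 864 * l + 2225 / 2 * l ^ 2)) - (m + 13) * z * (l ^ 3 * (3456 - 7765 * l + 16284 * l ^ 2))) ≤
      77 / 2048 * z ^ 5 * (11 * (10 - (m + 13) * z) * kpt (12 * l) - (m + 13) * z * kct (12 * l)) := by
    apply mul_le_mul_of_nonneg_left _ (by (clear * - hz; positivity))
    have d1 := mul_le_mul_of_nonneg_left a6 (by positivity : 0 ≤ (m + 13) * z)
    linarith only [b6, d1]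
  simp only [kB, ksS]
  linarith only [w', c2, c3, c4, c5, c6]

theorem kCK_ge {z s l : ℝ} (hz : 0 ≤ z) (h0 : 0 ≤ l) (h1 : l ≤ 2 / 5) :
    4 / s - 4 * s / (1 + s) - 2 * s ^ 2 - 6 * z * l / s ^ 3 + s ^ 2 * z * l * kQ z l ≤
      kCK z s l := by
  have c2 := mul_le_mul_of_nonneg_left (ks_e_two h0 h1) (by positivity : 0 ≤ s ^ 2 * (3 / 4 * z))
  have c3 := mul_le_mul_of_nonneg_left (ks_e_three h0 h1) (by positivity : 0 ≤ s ^ 2 * (5 / 8 * z ^ 2))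
  have c4 := mul_le_mul_of_nonneg_left (ks_e_four h0 h1) (by positivity : 0 ≤ s ^ 2 * (35 / 64 * z ^ 3))
  have c5 := mul_le_mul_of_nonneg_left (ks_e_five h0 h1) (by (clear * -; positivity) : 0 ≤ s ^ 2 * (63 / 128 * z ^ 4))
  have c6 := mul_le_mul_of_nonneg_left (ks_e_six h0 h1) (by positivity : 0 ≤ s ^ 2 * (231 / 512 * z ^ 5))
  simp only [kCK, kQ]
  linarith

/-- the `k`-th power pair of the hybrid line in clean form.  `E = e^{-2kl}`, `E' = e^{2kl}` -/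
theorem ks_power_identity (k m z s l E E' W : ℝ) (hk : k ≠ 0) (hs : s ^ 2 = 1 - z) :
    (m + 1 + 2 * k) * z * (-(1 - 1 / (2 * k)) * E - E' / (2 * k) + 1 - 2 * (k - 1) * l) +
      (2 * k - 1) * (E - 1 + 2 * k * l) -
      ((2 * k - 1) * s ^ 2 - (m + 2) * z) *
        ((2 * k - 1) / k * (E - 1 + 2 * k * l) - 2 * k * (k - 1) * l ^ 2) +
      s ^ 2 * (2 * ((2 * k - 1) * (E - 1) + 2 * k * (k - 1) * l)) * W =
    1 / (2 * k) * ((2 * k - 1) * (2 * (k - 1) - (m + 1 + 2 * k) * z) *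
      (1 - 2 * k * l + (2 * k * l) ^ 2 / 2 - E) -
      (m + 1 + 2 * k) * z * (E' - 1 - 2 * k * l - (2 * k * l) ^ 2 / 2)) +
      s ^ 2 * (2 * (2 * k - 1) * (E - 1) + 4 * k * (k - 1) * l) * W := by
  rw [hs]
  field_simp
  ring

end Vale.Agent.P237.AllN
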