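import Vale.Agent.P237.AllN.FKs
import Vale.Agent.P237.AllN.FPosDef

/-!
# P237, block D, `l > 0`: the kernel sums `dpS` of the hybrid lines, bounds on `0 ≤ l ≤ 1/2`
-/

open Finset

namespace Vale.Agent.P237.AllN

open PolyPos

theorem kAL_nonneg' {l : ℝ} (h0 : 0 ≤ l) (h1 : l ≤ 1 / 2) : 0 ≤ ev1 kAL l := by
  apply ev1_closed (a := 0) (b := 1 / 2) (by norm_num) _ h0 h1
  intro x hx0 hx1
  exact auto1_sound (n := 4) (A := 0) (B := 1) (D := 2) (by norm_num) (by decide +kernel)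
    (by push_cast; linarith only [hx0]) (by push_cast; linarith only [hx1])

theorem ks_E_ge' (k : ℕ) {l : ℝ} (h0 : 0 ≤ l) (h1 : l ≤ 1 / 2) :
    ev1 kAL l ^ k ≤ 1260 ^ k * Real.exp (-(2 * k * l)) := by
  have h2 := pow_le_pow_left₀ (kAL_nonneg' h0 h1) (kAL_le h0 h1) k
  rw [mul_pow, ← Real.exp_nat_mul] at h2
  refine h2.trans (le_of_eq ?_)
  congr 2
  ring

theorem ks_E_le' (k : ℕ) {l : ℝ} (h0 : 0 ≤ l) (h1 : l ≤ 1 / 2) :
    1260 ^ k * Real.exp (-(2 * k * l)) ≤ ev1 kAH l ^ k := by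
  have h2 := pow_le_pow_left₀ (by positivity) (kAH_ge h0 h1) k
  rw [mul_pow, ← Real.exp_nat_mul] at h2
  refine le_trans (le_of_eq ?_) h2
  congr 2
  ring

theorem ks_B_le' (k : ℕ) {l : ℝ} (h0 : 0 ≤ l) (h1 : l ≤ 1 / 2) :
    1260 ^ k * Real.exp (2 * k * l) ≤ ev1 kBH l ^ k := by
  have h2 := pow_le_pow_left₀ (by positivity) (kBH_ge h0 h1) k
  rw [mul_pow, ← Real.exp_nat_mul] at h2
  refine le_trans (le_of_eq ?_) h2
  congr 2
  ring

theorem ks_poly' {q : List ℤ} {l : ℝ} (h0 : 0 ≤ l) (h1 : l ≤ 1 / 2)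
    (h : auto1 6 0 1 2 q = true) : 0 ≤ ev1 q l := by
  apply ev1_closed (a := 0) (b := 1 / 2) (by norm_num) _ h0 h1
  intro x hx0 hx1
  exact auto1_sound (n := 6) (A := 0) (B := 1) (D := 2) (by norm_num) h
    (by push_cast; linarith only [hx0]) (by push_cast; linarith only [hx1])

theorem ks_w' {l : ℝ} (h0 : 0 ≤ l) (h1 : l ≤ 1 / 2) :
    kpt (2 * l) ≤ l ^ 3 * (4 / 3 - 81 / 125 * l + 97 / 500 * l ^ 2) := by
  have h := ks_poly' (q := padd (psm 1260 [-1500, 3000, -3000, 2000, -972, 291]) (psm 1500 kAL)) h0 h1 (by (clear * -; decide +kernel))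
  have hE := kAL_le h0 h1
  rw [ev1_padd, ev1_psm, ev1_psm] at h
  simp only [ev1_cons, ev1_nil] at h hE
  push_cast at h
  simp only [kpt]
  linarith

theorem ks_h_two' {l : ℝ} (h0 : 0 ≤ l) (h1 : l ≤ 1 / 2) :
    3 * kpt (4 * l) + kct (4 * l) ≤ l ^ 3 * (128 / 3 - 21 * l + 617 / 20 * l ^ 2) := by
  have h := ks_poly' (q := padd (psm (1260 ^ 2) [-120, 960, -960, 2560, -1260, 1851]) (padd (psm 180 (ppow kAL 2))
    (psm (-60) (ppow kBH 2)))) h0 h1 (by (clear * -; decide +kernel))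
  have hE := ks_E_ge' 2 h0 h1
  have hB := ks_B_le' 2 h0 h1
  rw [ev1_padd, ev1_padd, ev1_psm, ev1_psm, ev1_psm, ev1_ppow, ev1_ppow] at h
  simp only [ev1_cons, ev1_nil] at h
  rw [show -(2 * ((2 : ℕ) : ℝ) * l) = -(4 * l) by push_cast; ring] at hE
  rw [show 2 * ((2 : ℕ) : ℝ) * l = 4 * l by push_cast; ring] at hB
  generalize ev1 kAL l ^ 2 = A at *
  generalize ev1 kBH l ^ 2 = B at *
  push_cast at h
  simp only [kpt, kct]
  linarith

theorem ks_p_two' {l : ℝ} (h0 : 0 ≤ l) (h1 : l ≤ 1 / 2) :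
    l ^ 3 * (32 / 3 - 1067 / 100 * l + 317 / 50 * l ^ 2) ≤ kpt (4 * l) := by
  have h := ks_poly' (q := padd (psm (1260 ^ 2) [300, -1200, 2400, -3200, 3201, -1902]) (psm (-300) (ppow kAH 2))) h0 h1
    (by (clear * -; decide +kernel))
  have hE := ks_E_le' 2 h0 h1
  rw [ev1_padd, ev1_psm, ev1_psm, ev1_ppow] at h
  simp only [ev1_cons, ev1_nil] at h
  rw [show -(2 * ((2 : ℕ) : ℝ) * l) = -(4 * l) by push_cast; ring] at hE
  generalize ev1 kAH l ^ 2 = A at *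
  push_cast at h
  simp only [kpt]
  linarith

theorem ks_e_two' {l : ℝ} (h0 : 0 ≤ l) (h1 : l ≤ 1 / 2) :
    l * (-16 + 201 / 5 * l - 26 * l ^ 2) ≤ 6 * (Real.exp (-(4 * l)) - 1) + 8 * l := by
  have h := ks_poly' (q := padd (psm (1260 ^ 2) [-30, 120, -201, 130]) (psm 30 (ppow kAL 2))) h0 h1
    (by (clear * -; decide +kernel))
  have hE := ks_E_ge' 2 h0 h1
  rw [ev1_padd, ev1_psm, ev1_psm, ev1_ppow] at h
  simp only [ev1_cons, ev1_nil] at h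
  rw [show -(2 * ((2 : ℕ) : ℝ) * l) = -(4 * l) by push_cast; ring] at hE
  generalize ev1 kAL l ^ 2 = A at *
  push_cast at h
  linarith

theorem ks_h_three' {l : ℝ} (h0 : 0 ≤ l) (h1 : l ≤ 1 / 2) :
    5 * kpt (6 * l) + kct (6 * l) ≤ l ^ 3 * (216 - 1049 / 5 * l + 637 / 2 * l ^ 2) := by
  have h := ks_poly' (q := padd (psm (1260 ^ 3) [-40, 360, -720, 2160, -2098, 3185]) (padd (psm 50 (ppow kAL 3))
    (psm (-10) (ppow kBH 3)))) h0 h1 (by (clear * -; decide +kernel))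
  have hE := ks_E_ge' 3 h0 h1
  have hB := ks_B_le' 3 h0 h1
  rw [ev1_padd, ev1_padd, ev1_psm, ev1_psm, ev1_psm, ev1_ppow, ev1_ppow] at h
  simp only [ev1_cons, ev1_nil] at h
  rw [show -(2 * ((3 : ℕ) : ℝ) * l) = -(6 * l) by push_cast; ring] at hE
  rw [show 2 * ((3 : ℕ) : ℝ) * l = 6 * l by push_cast; ring] at hB
  generalize ev1 kAL l ^ 3 = A at *
  generalize ev1 kBH l ^ 3 = B at *
  push_cast at h
  simp only [kpt, kct]
  linarith

theorem ks_p_three' {l : ℝ} (h0 : 0 ≤ l) (h1 : l ≤ 1 / 2) :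
    l ^ 3 * (36 - 54 * l + 212 / 5 * l ^ 2) ≤ kpt (6 * l) := by
  have h := ks_poly' (q := padd (psm (1260 ^ 3) [5, -30, 90, -180, 270, -212]) (psm (-5) (ppow kAH 3))) h0 h1
    (by (clear * -; decide +kernel))
  have hE := ks_E_le' 3 h0 h1
  rw [ev1_padd, ev1_psm, ev1_psm, ev1_ppow] at h
  simp only [ev1_cons, ev1_nil] at h
  rw [show -(2 * ((3 : ℕ) : ℝ) * l) = -(6 * l) by push_cast; ring] at hE
  generalize ev1 kAH l ^ 3 = A at *
  push_cast at h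
  simp only [kpt]
  linarith

theorem ks_e_three' {l : ℝ} (h0 : 0 ≤ l) (h1 : l ≤ 1 / 2) :
    l * (-36 + 1319 / 10 * l - 999 / 10 * l ^ 2) ≤ 10 * (Real.exp (-(6 * l)) - 1) + 24 * l := by
  have h := ks_poly' (q := padd (psm (1260 ^ 3) [-100, 600, -1319, 999]) (psm 100 (ppow kAL 3))) h0 h1
    (by (clear * -; decide +kernel))
  have hE := ks_E_ge' 3 h0 h1
  rw [ev1_padd, ev1_psm, ev1_psm, ev1_ppow] at h
  simp only [ev1_cons, ev1_nil] at h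
  rw [show -(2 * ((3 : ℕ) : ℝ) * l) = -(6 * l) by push_cast; ring] at hE
  generalize ev1 kAL l ^ 3 = A at *
  push_cast at h
  linarith

theorem ks_h_four' {l : ℝ} (h0 : 0 ≤ l) (h1 : l ≤ 1 / 2) :
    7 * kpt (8 * l) + kct (8 * l) ≤ l ^ 3 * (2048 / 3 - 989 * l + 1695 * l ^ 2) := by
  have h := ks_poly' (q := padd (psm (1260 ^ 4) [-18, 192, -576, 2048, -2967, 5085]) (padd (psm 21 (ppow kAL 4))
    (psm (-3) (ppow kBH 4)))) h0 h1 (by (clear * -; decide +kernel))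
  have hE := ks_E_ge' 4 h0 h1
  have hB := ks_B_le' 4 h0 h1
  rw [ev1_padd, ev1_padd, ev1_psm, ev1_psm, ev1_psm, ev1_ppow, ev1_ppow] at h
  simp only [ev1_cons, ev1_nil] at h
  rw [show -(2 * ((4 : ℕ) : ℝ) * l) = -(8 * l) by push_cast; ring] at hE
  rw [show 2 * ((4 : ℕ) : ℝ) * l = 8 * l by push_cast; ring] at hB
  generalize ev1 kAL l ^ 4 = A at *
  generalize ev1 kBH l ^ 4 = B at *
  push_cast at h
  simp only [kpt, kct]
  linarith

theorem ks_p_four' {l : ℝ} (h0 : 0 ≤ l) (h1 : l ≤ 1 / 2) :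
    l ^ 3 * (256 / 3 - 1707 / 10 * l + 797 / 5 * l ^ 2) ≤ kpt (8 * l) := by
  have h := ks_poly' (q := padd (psm (1260 ^ 4) [30, -240, 960, -2560, 5121, -4782]) (psm (-30) (ppow kAH 4))) h0 h1
    (by (clear * -; decide +kernel))
  have hE := ks_E_le' 4 h0 h1
  rw [ev1_padd, ev1_psm, ev1_psm, ev1_ppow] at h
  simp only [ev1_cons, ev1_nil] at h
  rw [show -(2 * ((4 : ℕ) : ℝ) * l) = -(8 * l) by push_cast; ring] at hE
  generalize ev1 kAH l ^ 4 = A at *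
  push_cast at h
  simp only [kpt]
  linarith

theorem ks_e_four' {l : ℝ} (h0 : 0 ≤ l) (h1 : l ≤ 1 / 2) :
    l * (-64 + 2871 / 10 * l - 2363 / 10 * l ^ 2) ≤ 14 * (Real.exp (-(8 * l)) - 1) + 48 * l := by
  have h := ks_poly' (q := padd (psm (1260 ^ 4) [-140, 1120, -2871, 2363]) (psm 140 (ppow kAL 4))) h0 h1
    (by (clear * -; decide +kernel))
  have hE := ks_E_ge' 4 h0 h1
  rw [ev1_padd, ev1_psm, ev1_psm, ev1_ppow] at h
  simp only [ev1_cons, ev1_nil] at h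
  rw [show -(2 * ((4 : ℕ) : ℝ) * l) = -(8 * l) by push_cast; ring] at hE
  generalize ev1 kAL l ^ 4 = A at *
  push_cast at h
  linarith

theorem ks_h_five' {l : ℝ} (h0 : 0 ≤ l) (h1 : l ≤ 1 / 2) :
    9 * kpt (10 * l) + kct (10 * l) ≤ l ^ 3 * (5000 / 3 - 3230 * l + 6397 * l ^ 2) := by
  have h := ks_poly' (q := padd (psm (1260 ^ 5) [-24, 300, -1200, 5000, -9690, 19191]) (padd (psm 27 (ppow kAL 5))
    (psm (-3) (ppow kBH 5)))) h0 h1 (by (clear * -; decide +kernel))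
  have hE := ks_E_ge' 5 h0 h1
  have hB := ks_B_le' 5 h0 h1
  rw [ev1_padd, ev1_padd, ev1_psm, ev1_psm, ev1_psm, ev1_ppow, ev1_ppow] at h
  simp only [ev1_cons, ev1_nil] at h
  rw [show -(2 * ((5 : ℕ) : ℝ) * l) = -(10 * l) by push_cast; ring] at hE
  rw [show 2 * ((5 : ℕ) : ℝ) * l = 10 * l by push_cast; ring] at hB
  generalize ev1 kAL l ^ 5 = A at *
  generalize ev1 kBH l ^ 5 = B at *
  push_cast at h
  simp only [kpt, kct]
  linarith

theorem ks_p_five' {l : ℝ} (h0 : 0 ≤ l) (h1 : l ≤ 1 / 2) :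
    l ^ 3 * (500 / 3 - 4167 / 10 * l + 2192 / 5 * l ^ 2) ≤ kpt (10 * l) := by
  have h := ks_poly' (q := padd (psm (1260 ^ 5) [30, -300, 1500, -5000, 12501, -13152]) (psm (-30) (ppow kAH 5))) h0 h1
    (by (clear * -; decide +kernel))
  have hE := ks_E_le' 5 h0 h1
  rw [ev1_padd, ev1_psm, ev1_psm, ev1_ppow] at h
  simp only [ev1_cons, ev1_nil] at h
  rw [show -(2 * ((5 : ℕ) : ℝ) * l) = -(10 * l) by push_cast; ring] at hE
  generalize ev1 kAH l ^ 5 = A at *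
  push_cast at h
  simp only [kpt]
  linarith

theorem ks_e_five' {l : ℝ} (h0 : 0 ≤ l) (h1 : l ≤ 1 / 2) :
    l * (-100 + 2539 / 5 * l - 2194 / 5 * l ^ 2) ≤ 18 * (Real.exp (-(10 * l)) - 1) + 80 * l := by
  have h := ks_poly' (q := padd (psm (1260 ^ 5) [-90, 900, -2539, 2194]) (psm 90 (ppow kAL 5))) h0 h1
    (by (clear * -; decide +kernel))
  have hE := ks_E_ge' 5 h0 h1
  rw [ev1_padd, ev1_psm, ev1_psm, ev1_ppow] at h
  simp only [ev1_cons, ev1_nil] at h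
  rw [show -(2 * ((5 : ℕ) : ℝ) * l) = -(10 * l) by push_cast; ring] at hE
  generalize ev1 kAL l ^ 5 = A at *
  push_cast at h
  linarith

theorem ks_h_six' {l : ℝ} (h0 : 0 ≤ l) (h1 : l ≤ 1 / 2) :
    11 * kpt (12 * l) + kct (12 * l) ≤ l ^ 3 * (3456 - 8456 * l + 19775 * l ^ 2) := by
  have h := ks_poly' (q := padd (psm (1260 ^ 6) [-10, 144, -720, 3456, -8456, 19775]) (padd (psm 11 (ppow kAL 6))
    (psm (-1) (ppow kBH 6)))) h0 h1 (by (clear * -; decide +kernel))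
  have hE := ks_E_ge' 6 h0 h1
  have hB := ks_B_le' 6 h0 h1
  rw [ev1_padd, ev1_padd, ev1_psm, ev1_psm, ev1_psm, ev1_ppow, ev1_ppow] at h
  simp only [ev1_cons, ev1_nil] at h
  rw [show -(2 * ((6 : ℕ) : ℝ) * l) = -(12 * l) by push_cast; ring] at hE
  rw [show 2 * ((6 : ℕ) : ℝ) * l = 12 * l by push_cast; ring] at hB
  generalize ev1 kAL l ^ 6 = A at *
  generalize ev1 kBH l ^ 6 = B at *
  push_cast at h
  simp only [kpt, kct]
  linarith

theorem ks_p_six' {l : ℝ} (h0 : 0 ≤ l) (h1 : l ≤ 1 / 2) :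
    l ^ 3 * (288 - 864 * l + 9919 / 10 * l ^ 2) ≤ kpt (12 * l) := by
  have h := ks_poly' (q := padd (psm (1260 ^ 6) [10, -120, 720, -2880, 8640, -9919]) (psm (-10) (ppow kAH 6))) h0 h1
    (by (clear * -; decide +kernel))
  have hE := ks_E_le' 6 h0 h1
  rw [ev1_padd, ev1_psm, ev1_psm, ev1_ppow] at h
  simp only [ev1_cons, ev1_nil] at h
  rw [show -(2 * ((6 : ℕ) : ℝ) * l) = -(12 * l) by push_cast; ring] at hE
  generalize ev1 kAH l ^ 6 = A at *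
  push_cast at h
  simp only [kpt]
  linarith

theorem ks_e_six' {l : ℝ} (h0 : 0 ≤ l) (h1 : l ≤ 1 / 2) :
    l * (-144 + 7939 / 10 * l - 1415 / 2 * l ^ 2) ≤ 22 * (Real.exp (-(12 * l)) - 1) + 120 * l := by
  have h := ks_poly' (q := padd (psm (1260 ^ 6) [-220, 2640, -7939, 7075]) (psm 220 (ppow kAL 6))) h0 h1
    (by (clear * -; decide +kernel))
  have hE := ks_E_ge' 6 h0 h1
  rw [ev1_padd, ev1_psm, ev1_psm, ev1_ppow] at h
  simp only [ev1_cons, ev1_nil] at h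
  rw [show -(2 * ((6 : ℕ) : ℝ) * l) = -(12 * l) by push_cast; ring] at hE
  generalize ev1 kAL l ^ 6 = A at *
  push_cast at h
  linarith

/-- the `W`-coefficient of `dpS` -/
noncomputable def ksC (z s l : ℝ) : ℝ :=
  s ^ 2 * (3 / 4 * z * (6 * (Real.exp (-(4 * l)) - 1) + 8 * l) +
    5 / 8 * z ^ 2 * (10 * (Real.exp (-(6 * l)) - 1) + 24 * l) +
    35 / 64 * z ^ 3 * (14 * (Real.exp (-(8 * l)) - 1) + 48 * l) +
    63 / 128 * z ^ 4 * (18 * (Real.exp (-(10 * l)) - 1) + 80 * l) +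
    231 / 512 * z ^ 5 * (22 * (Real.exp (-(12 * l)) - 1) + 120 * l))

/-- the `W`-free part of `dpS` in terms of `kpt`, `kct` -/
noncomputable def dpS0 (m z l : ℝ) : ℝ :=
  3 / 16 * z * (3 * (2 - (m + 5) * z) * kpt (4 * l) - (m + 5) * z * kct (4 * l)) +
  5 / 48 * z ^ 2 * (5 * (4 - (m + 7) * z) * kpt (6 * l) - (m + 7) * z * kct (6 * l)) +
  35 / 512 * z ^ 3 * (7 * (6 - (m + 9) * z) * kpt (8 * l) - (m + 9) * z * kct (8 * l)) +
  63 / 1280 * z ^ 4 * (9 * (8 - (m + 11) * z) * kpt (10 * l) - (m + 11) * z * kct (10 * l)) +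
  77 / 2048 * z ^ 5 * (11 * (10 - (m + 13) * z) * kpt (12 * l) - (m + 13) * z * kct (12 * l))

theorem dpS_eq (m z s l W : ℝ) : dpS m z s l W = dpS0 m z l + W * ksC z s l := by
  simp only [dpS, dpK, dpS0, kpt, kct, ksC]
  norm_num
  ring

theorem ksS_eq (m z s l : ℝ) :
    ksS m z s l = (3 * (m - 3) * z ^ 2 / s ^ 5 - 9 * z / s ^ 3) * l ^ 2 + dpS0 m z l := by
  simp only [ksS, dpS0]
  ring

theorem kCK_eq (z s l : ℝ) :
    kCK z s l = 4 / s - 4 * s / (1 + s) - 2 * s ^ 2 - 6 * z * l / s ^ 3 + ksC z s l := by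
  simp only [kCK, ksC]

/-- polynomial bound of the cubic remainder of `(m+3) z ψ(2l) + dpS0`, `l ≤ 1/2` -/
noncomputable def kB' (m z l : ℝ) : ℝ :=
  (m + 3) * (4 / 3 - 81 / 125 * l + 97 / 500 * l ^ 2) +
  3 / 16 * ((m + 5) * z * (128 / 3 - 21 * l + 617 / 20 * l ^ 2) - 6 * (32 / 3 - 1067 / 100 * l + 317 / 50 * l ^ 2)) +
  5 / 48 * z * ((m + 7) * z * (216 - 1049 / 5 * l + 637 / 2 * l ^ 2) - 20 * (36 - 54 * l + 212 / 5 * l ^ 2)) +
  35 / 512 * z ^ 2 * ((m + 9) * z * (2048 / 3 - 989 * l + 1695 * l ^ 2) - 42 * (256 / 3 - 1707 / 10 * l + 797 / 5 * l ^ 2)) +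
  63 / 1280 * z ^ 3 * ((m + 11) * z * (5000 / 3 - 3230 * l + 6397 * l ^ 2) - 72 * (500 / 3 - 4167 / 10 * l + 2192 / 5 * l ^ 2)) +
  77 / 2048 * z ^ 4 * ((m + 13) * z * (3456 - 8456 * l + 19775 * l ^ 2) - 110 * (288 - 864 * l + 9919 / 10 * l ^ 2))

/-- polynomial lower bound of `ksC` (divided by `s² z l`), `l ≤ 1/2` -/
noncomputable def kQ' (z l : ℝ) : ℝ :=
  3 / 4 * (-16 + 201 / 5 * l - 26 * l ^ 2) + 5 / 8 * z * (-36 + 1319 / 10 * l - 999 / 10 * l ^ 2) +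
  35 / 64 * z ^ 2 * (-64 + 2871 / 10 * l - 2363 / 10 * l ^ 2) + 63 / 128 * z ^ 3 * (-100 + 2539 / 5 * l - 2194 / 5 * l ^ 2) +
  231 / 512 * z ^ 4 * (-144 + 7939 / 10 * l - 1415 / 2 * l ^ 2)

/-- `l ≤ 2/5` -/
theorem dpS0_ge {m z l : ℝ} (hm : 0 ≤ m) (hz : 0 ≤ z) (h0 : 0 ≤ l) (h1 : l ≤ 2 / 5) :
    l ^ 2 * (2 * (m + 3) * z) - l ^ 3 * z * kB m z l ≤
    (m + 3) * z * (Real.exp (-(2 * l)) - 1 + 2 * l) + dpS0 m z l := by
  have h := ksS_ge (s := 1) hm hz h0 h1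
  rw [ksS_eq] at h
  (clear * - h; linarith)

/-- `l ≤ 2/5` -/
theorem ksC_ge {z s l : ℝ} (hz : 0 ≤ z) (h0 : 0 ≤ l) (h1 : l ≤ 2 / 5) :
    s ^ 2 * z * l * kQ z l ≤ ksC z s l := by
  have h := kCK_ge (s := s) hz h0 h1
  rw [kCK_eq] at h
  linarith only [h]

/-- `l ≤ 1/2` -/
theorem dpS0_ge' {m z l : ℝ} (hm : 0 ≤ m) (hz : 0 ≤ z) (h0 : 0 ≤ l) (h1 : l ≤ 1 / 2) :
    l ^ 2 * (2 * (m + 3) * z) - l ^ 3 * z * kB' m z l ≤
    (m + 3) * z * (Real.exp (-(2 * l)) - 1 + 2 * l) + dpS0 m z l := by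
  have w := ks_w' h0 h1

  have a2 := ks_h_two' h0 h1
  have b2 := ks_p_two' h0 h1
  have a3 := ks_h_three' h0 h1
  have b3 := ks_p_three' h0 h1
  have a4 := ks_h_four' h0 h1
  have b4 := ks_p_four' h0 h1
  have a5 := ks_h_five' h0 h1
  have b5 := ks_p_five' h0 h1
  have a6 := ks_h_six' h0 h1
  have b6 := ks_p_six' h0 h1
  have w' : (m + 3) * z * (2 * l ^ 2 - l ^ 3 * (4 / 3 - 81 / 125 * l + 97 / 500 * l ^ 2)) ≤
      (m + 3) * z * (Real.exp (-(2 * l)) - 1 + 2 * l) := by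
    apply mul_le_mul_of_nonneg_left _ (by (clear * - hm hz; positivity))
    simp only [kpt] at w
    linarith only [w]
  have c2 : 3 / 16 * z * (6 * (l ^ 3 * (32 / 3 - 1067 / 100 * l + 317 / 50 * l ^ 2)) - (m + 5) * z * (l ^ 3 * (128 / 3 - 21 * l + 617 / 20 * l ^ 2))) ≤
      3 / 16 * z * (3 * (2 - (m + 5) * z) * kpt (4 * l) - (m + 5) * z * kct (4 * l)) := by
    apply mul_le_mul_of_nonneg_left _ (by positivity)
    have d1 := mul_le_mul_of_nonneg_left a2 (by positivity : 0 ≤ (m + 5) * z)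
    linarith only [b2, d1]
  have c3 : 5 / 48 * z ^ 2 * (20 * (l ^ 3 * (36 - 54 * l + 212 / 5 * l ^ 2)) - (m + 7) * z * (l ^ 3 * (216 - 1049 / 5 * l + 637 / 2 * l ^ 2))) ≤
      5 / 48 * z ^ 2 * (5 * (4 - (m + 7) * z) * kpt (6 * l) - (m + 7) * z * kct (6 * l)) := by
    apply mul_le_mul_of_nonneg_left _ (by positivity)
    have d1 := mul_le_mul_of_nonneg_left a3 (by positivity : 0 ≤ (m + 7) * z)
    linarith only [b3, d1]
  have c4 : 35 / 512 * z ^ 3 * (42 * (l ^ 3 * (256 / 3 - 1707 / 10 * l + 797 / 5 * l ^ 2)) - (m + 9) * z * (l ^ 3 * (2048 / 3 - 989 * l + 1695 * l ^ 2))) ≤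
      35 / 512 * z ^ 3 * (7 * (6 - (m + 9) * z) * kpt (8 * l) - (m + 9) * z * kct (8 * l)) := by
    apply mul_le_mul_of_nonneg_left _ (by positivity)
    have d1 := mul_le_mul_of_nonneg_left a4 (by positivity : 0 ≤ (m + 9) * z)
    linarith only [b4, d1]
  have c5 : 63 / 1280 * z ^ 4 * (72 * (l ^ 3 * (500 / 3 - 4167 / 10 * l + 2192 / 5 * l ^ 2)) - (m + 11) * z * (l ^ 3 * (5000 / 3 - 3230 * l + 6397 * l ^ 2))) ≤
      63 / 1280 * z ^ 4 * (9 * (8 - (m + 11) * z) * kpt (10 * l) - (m + 11) * z * kct (10 * l)) := by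
    apply mul_le_mul_of_nonneg_left _ (by positivity)
    have d1 := mul_le_mul_of_nonneg_left a5 (by positivity : 0 ≤ (m + 11) * z)
    linarith only [b5, d1]
  have c6 : 77 / 2048 * z ^ 5 * (110 * (l ^ 3 * (288 - 864 * l + 9919 / 10 * l ^ 2)) - (m + 13) * z * (l ^ 3 * (3456 - 8456 * l + 19775 * l ^ 2))) ≤
      77 / 2048 * z ^ 5 * (11 * (10 - (m + 13) * z) * kpt (12 * l) - (m + 13) * z * kct (12 * l)) := by
    apply mul_le_mul_of_nonneg_left _ (by (clear * - hz; positivity))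
    have d1 := mul_le_mul_of_nonneg_left a6 (by positivity : 0 ≤ (m + 13) * z)
    linarith only [b6, d1]
  simp only [kB', dpS0]
  linarith only [w', c2, c3, c4, c5, c6]

/-- `l ≤ 1/2` -/
theorem ksC_ge' {z s l : ℝ} (hz : 0 ≤ z) (h0 : 0 ≤ l) (h1 : l ≤ 1 / 2) :
    s ^ 2 * z * l * kQ' z l ≤ ksC z s l := by
  have c2 := mul_le_mul_of_nonneg_left (ks_e_two' h0 h1) (by (clear * - hz; positivity) : 0 ≤ s ^ 2 * (3 / 4 * z))
  have c3 := mul_le_mul_of_nonneg_left (ks_e_three' h0 h1) (by positivity : 0 ≤ s ^ 2 * (5 / 8 * z ^ 2))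
  have c4 := mul_le_mul_of_nonneg_left (ks_e_four' h0 h1) (by positivity : 0 ≤ s ^ 2 * (35 / 64 * z ^ 3))
  have c5 := mul_le_mul_of_nonneg_left (ks_e_five' h0 h1) (by positivity : 0 ≤ s ^ 2 * (63 / 128 * z ^ 4))
  have c6 := mul_le_mul_of_nonneg_left (ks_e_six' h0 h1) (by positivity : 0 ≤ s ^ 2 * (231 / 512 * z ^ 5))
  simp only [ksC, kQ']
  linarith

end Vale.Agent.P237.AllN
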