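import Vale.Agent.P237.AllN.FKs2
import Vale.Agent.P237.AllN.KronEx

/-!
# P237, block D, `l > 0`: the `W`-coefficient of the kernel part is nonnegative for `x e^l ≤ 1`
-/

open Finset

namespace Vale.Agent.P237.AllN

open PolyPos

/-- `1 - X²` -/
def ks4Z : Ex := Ex.c ⟨1, 0⟩ - Ex.X * Ex.X

/-- `X⁵` -/
def ks4X5 : Ex := Ex.X * Ex.X * Ex.X * Ex.X * Ex.X

def ks4P1 : Ex := Ex.c ⟨6, 0⟩ - ks4X5 * (Ex.c ⟨6, 0⟩ + Ex.c ⟨15, 0⟩ * ks4Z +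
  Ex.c ⟨105, 3⟩ * (ks4Z * ks4Z) + Ex.c ⟨315, 7⟩ * (ks4Z * ks4Z * ks4Z) +
  Ex.c ⟨3465, 63⟩ * (ks4Z * ks4Z * (ks4Z * ks4Z)))

def ks4P2 : Ex :=
  Ex.c ⟨4, 0⟩ * (Ex.X * Ex.X) * (Ex.c ⟨1, 0⟩ + Ex.X) - Ex.c ⟨4, 0⟩ * (Ex.X * Ex.X * (Ex.X * Ex.X)) -
  Ex.c ⟨2, 0⟩ * ks4X5 * (Ex.c ⟨1, 0⟩ + Ex.X) -
  Ex.c ⟨1, 3⟩ * ((Ex.c ⟨1, 0⟩ - ks4Z * ks4Z) * (Ex.c ⟨1, 0⟩ + Ex.X) * ks4P1) +
  ks4X5 * (Ex.c ⟨1, 0⟩ + Ex.X) * (
    Ex.c ⟨9, 1⟩ * (ks4Z * (ks4Z * ks4Z - Ex.c ⟨1, 0⟩)) +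
    Ex.c ⟨25, 3⟩ * (ks4Z * ks4Z * (ks4Z * ks4Z * ks4Z - Ex.c ⟨1, 0⟩)) +
    Ex.c ⟨245, 31⟩ * (ks4Z * ks4Z * ks4Z * (ks4Z * ks4Z * (ks4Z * ks4Z) - Ex.c ⟨1, 0⟩)) +
    Ex.c ⟨567, 63⟩ * (ks4Z * ks4Z * (ks4Z * ks4Z) *
      (ks4Z * ks4Z * (ks4Z * ks4Z * ks4Z) - Ex.c ⟨1, 0⟩)) +
    Ex.c ⟨2541, 255⟩ * (ks4Z * ks4Z * (ks4Z * ks4Z * ks4Z) *
      (ks4Z * ks4Z * (ks4Z * ks4Z * (ks4Z * ks4Z)) - Ex.c ⟨1, 0⟩)))

theorem ks4P1_R (s y : ℝ) : ks4P1.R s y = 6 - s ^ 5 * (6 + 15 * (1 - s ^ 2) +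
    105 / 4 * (1 - s ^ 2) ^ 2 + 315 / 8 * (1 - s ^ 2) ^ 3 + 3465 / 64 * (1 - s ^ 2) ^ 4) := by
  simp only [ks4P1, ks4Z, ks4X5, Ex.R_add, Ex.R_sub, Ex.R_mul, Ex.R_c, Ex.R_X, Fr.R]
  push_cast
  ring

theorem ks4P2_R (s y : ℝ) : ks4P2.R s y =
    4 * s ^ 2 * (1 + s) - 4 * s ^ 4 - 2 * s ^ 5 * (1 + s) -
      (1 - (1 - s ^ 2) ^ 2) * (1 + s) / 4 * (6 - s ^ 5 * (6 + 15 * (1 - s ^ 2) +
        105 / 4 * (1 - s ^ 2) ^ 2 + 315 / 8 * (1 - s ^ 2) ^ 3 + 3465 / 64 * (1 - s ^ 2) ^ 4)) +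
      s ^ 5 * (1 + s) * (9 / 2 * (1 - s ^ 2) * ((1 - s ^ 2) ^ 2 - 1) +
        25 / 4 * (1 - s ^ 2) ^ 2 * ((1 - s ^ 2) ^ 3 - 1) +
        245 / 32 * (1 - s ^ 2) ^ 3 * ((1 - s ^ 2) ^ 4 - 1) +
        567 / 64 * (1 - s ^ 2) ^ 4 * ((1 - s ^ 2) ^ 5 - 1) +
        2541 / 256 * (1 - s ^ 2) ^ 5 * ((1 - s ^ 2) ^ 6 - 1)) := by
  simp only [ks4P2, ks4P1, ks4Z, ks4X5, Ex.R_add, Ex.R_sub, Ex.R_mul, Ex.R_c, Ex.R_X, Fr.R]
  push_cast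
  ring

theorem ks4_chk1 : tchkE (2 ^ 1024) 40 4000 [[ks4P1]] (Ex.c ⟨0, 0⟩) (.leaf 0) 0 1 1 0 1 1 = true := by
  (clear * -; decide +kernel)

theorem ks4_chk2 : tchkE (2 ^ 1024) 40 4000 [[ks4P2]] (Ex.c ⟨0, 0⟩) (.sx (.leaf 0) (.leaf 0))
    0 1 1 0 1 1 = true := by
  (clear * -; decide +kernel)

theorem ks4_of_chk {E : Ex} {t : PT} (h : tchkE (2 ^ 1024) 40 4000 [[E]] (Ex.c ⟨0, 0⟩) t
    0 1 1 0 1 1 = true) {s : ℝ} (h0 : 0 ≤ s) (h1 : s ≤ 1) : 0 ≤ E.R s 0 := by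
  obtain ⟨i, hi⟩ := tchkE_sound (x := s) (y := 0) (by simp [Ex.R_c, Fr.R]) _ _ _ _ _ _ _
    (by norm_num) (by norm_num) (by norm_num) (by norm_num) h (by push_cast; linarith only [h0])
    (by push_cast; linarith) (by push_cast; linarith) (by push_cast; linarith)
  rcases i with _ | i
  · exact hi _ (by simp)
  · exfalso
    have := hi (Ex.c ⟨-1, 0⟩) (by simp only [Int.reduceNeg, List.getD_eq_getElem?_getD, List.length_cons, List.length_nil, zero_add, Order.lt_one_iff, Nat.add_eq_zero_iff, one_ne_zero, and_false, not_false_eq_true, getElem?_neg, Option.getD_none, List.mem_cons, List.not_mem_nil, or_false])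
    simp only [Int.reduceNeg, Ex.R_c, Fr.R, Int.cast_neg, Int.cast_one, CharP.cast_eq_zero, zero_add, div_one, Left.nonneg_neg_iff] at this
    linarith only [this]

theorem ks4_exp {z l : ℝ} (hz : 0 < z) (k : ℕ) :
    z ^ k * (1 + 2 * k * (-(1 / 2 * Real.log z) - l)) ≤ Real.exp (-(2 * k * l)) := by
  have h1 : Real.exp (-(2 * k * l)) = z ^ k * Real.exp (2 * k * (-(1 / 2 * Real.log z) - l)) := by
    have h2 : z ^ k = Real.exp (k * Real.log z) := by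
      rw [mul_comm, Real.exp_mul, Real.exp_log hz, Real.rpow_natCast]
    rw [h2, ← Real.exp_add]
    congr 1
    ring
  rw [h1]
  apply mul_le_mul_of_nonneg_left _ (by positivity)
  have := Real.add_one_le_exp (2 * k * (-(1 / 2 * Real.log z) - l))
  linarith only [this]

theorem ks4_log {z : ℝ} (hz : 0 < z) (hz1 : z ≤ 1) : -(1 / 2 * Real.log z) ≤ (1 - z ^ 2) / (4 * z) := by
  -- `log r ≤ (r - 1/r)/2` for `r = 1/z ≥ 1`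
  have h1 : Real.log (1 / z) ≤ (1 / z - z) / 2 := by
    have h2 : 0 ≤ Real.log (1 / z) := Real.log_nonneg (by rw [le_div_iff₀ hz]; linarith)
    have h3 : Real.log (1 / z) ≤ Real.sinh (Real.log (1 / z)) := by
      have := Real.self_le_sinh_iff.2 h2
      exact this
    rw [Real.sinh_log (by positivity)] at h3
    simpa only [one_div, Real.log_inv, ge_iff_le, inv_inv] using h3
  rw [one_div, Real.log_inv] at h1
  have e : (1 - z ^ 2) / (4 * z) = (z⁻¹ - z) / 2 / 2 := by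
    field_simp
    ring
  rw [e]
  linarith only [h1]

/-- **(K3)** the `W`-coefficient of the kernel is nonnegative as long as `x e^l ≤ 1` -/
theorem kK3 {z s l : ℝ} (hz : 0 < z) (hs : 0 < s) (hsz : s ^ 2 = 1 - z)
    (hl : z * Real.exp (2 * l) ≤ 1) :
    0 ≤ 4 / s - 4 * s / (1 + s) - 2 * s ^ 2 - 6 * (z / s ^ 3) * l + ksC z s l := by
  have hz1 : z < 1 := by nlinarith only [hsz, hs]
  have hs1 : s ≤ 1 := by nlinarith only [hsz, hz]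
  have e1 := ks4_of_chk ks4_chk1 hs.le hs1
  have e2 := ks4_of_chk ks4_chk2 hs.le hs1
  rw [ks4P1_R] at e1
  rw [ks4P2_R] at e2
  have hz' : z = 1 - s ^ 2 := by linarith only [hsz]
  rw [← hz'] at e1 e2
  set P1 := 6 - s ^ 5 * (6 + 15 * z + 105 / 4 * z ^ 2 + 315 / 8 * z ^ 3 + 3465 / 64 * z ^ 4) with hP1
  set L := -(1 / 2 * Real.log z) with hL
  have hlL : 0 ≤ L - l := by
    have h1 : Real.log z + 2 * l ≤ 0 := by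
      have h2 : Real.log (z * Real.exp (2 * l)) ≤ 0 := Real.log_nonpos (by positivity) hl
      rwa [Real.log_mul hz.ne' (Real.exp_pos _).ne', Real.log_exp] at h2
    simp only [hL]
    linarith only [h1]
  have hLu : L ≤ (1 - z ^ 2) / (4 * z) := ks4_log hz hz1.le
  have a2 := ks4_exp (l := l) hz 2
  have a3 := ks4_exp (l := l) hz 3
  have a4 := ks4_exp (l := l) hz 4
  have a5 := ks4_exp (l := l) hz 5
  have a6 := ks4_exp (l := l) hz 6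
  rw [← hL] at a2 a3 a4 a5 a6
  push_cast at a2 a3 a4 a5 a6
  rw [show -(2 * 2 * l) = -(4 * l) by ring] at a2
  rw [show -(2 * 3 * l) = -(6 * l) by ring] at a3
  rw [show -(2 * 4 * l) = -(8 * l) by ring] at a4
  rw [show -(2 * 5 * l) = -(10 * l) by ring] at a5
  rw [show -(2 * 6 * l) = -(12 * l) by ring] at a6
  set d := L - l with hd
  have hl' : l = L - d := by simp only [hd]; ring
  -- the value after replacing the exponentials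
  have key : 4 / s - 4 * s / (1 + s) - 2 * s ^ 2 - 6 * (z / s ^ 3) * l +
      s ^ 2 * (3 / 4 * z * (6 * (z ^ 2 * (1 + 2 * 2 * d) - 1) + 8 * l) +
        5 / 8 * z ^ 2 * (10 * (z ^ 3 * (1 + 2 * 3 * d) - 1) + 24 * l) +
        35 / 64 * z ^ 3 * (14 * (z ^ 4 * (1 + 2 * 4 * d) - 1) + 48 * l) +
        63 / 128 * z ^ 4 * (18 * (z ^ 5 * (1 + 2 * 5 * d) - 1) + 80 * l) +
        231 / 512 * z ^ 5 * (22 * (z ^ 6 * (1 + 2 * 6 * d) - 1) + 120 * l)) ≤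
      4 / s - 4 * s / (1 + s) - 2 * s ^ 2 - 6 * (z / s ^ 3) * l + ksC z s l := by
    unfold ksC
    have b2 := mul_le_mul_of_nonneg_left a2 (by positivity : 0 ≤ s ^ 2 * (3 / 4 * z * 6))
    have b3 := mul_le_mul_of_nonneg_left a3 (by positivity : 0 ≤ s ^ 2 * (5 / 8 * z ^ 2 * 10))
    have b4 := mul_le_mul_of_nonneg_left a4 (by positivity : 0 ≤ s ^ 2 * (35 / 64 * z ^ 3 * 14))
    have b5 := mul_le_mul_of_nonneg_left a5 (by positivity : 0 ≤ s ^ 2 * (63 / 128 * z ^ 4 * 18))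
    have b6 := mul_le_mul_of_nonneg_left a6 (by positivity : 0 ≤ s ^ 2 * (231 / 512 * z ^ 5 * 22))
    linarith only [b2, b3, b4, b5, b6]
  refine le_trans ?_ key
  have h1 : 4 / s - 4 * s / (1 + s) - 2 * s ^ 2 - 6 * (z / s ^ 3) * l +
      s ^ 2 * (3 / 4 * z * (6 * (z ^ 2 * (1 + 2 * 2 * d) - 1) + 8 * l) +
        5 / 8 * z ^ 2 * (10 * (z ^ 3 * (1 + 2 * 3 * d) - 1) + 24 * l) +
        35 / 64 * z ^ 3 * (14 * (z ^ 4 * (1 + 2 * 4 * d) - 1) + 48 * l) +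
        63 / 128 * z ^ 4 * (18 * (z ^ 5 * (1 + 2 * 5 * d) - 1) + 80 * l) +
        231 / 512 * z ^ 5 * (22 * (z ^ 6 * (1 + 2 * 6 * d) - 1) + 120 * l)) =
      (1 / (s ^ 3 * (1 + s))) * (4 * s ^ 2 * (1 + s) - 4 * s ^ 4 - 2 * s ^ 5 * (1 + s) -
        (1 - z ^ 2) * (1 + s) / 4 * P1 +
        s ^ 5 * (1 + s) * (9 / 2 * z * (z ^ 2 - 1) + 25 / 4 * z ^ 2 * (z ^ 3 - 1) +
        245 / 32 * z ^ 3 * (z ^ 4 - 1) + 567 / 64 * z ^ 4 * (z ^ 5 - 1) +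
        2541 / 256 * z ^ 5 * (z ^ 6 - 1))) +
      z / s ^ 3 * (((1 - z ^ 2) / (4 * z) - L) * P1) + z / s ^ 3 * (d * P1) +
      d * (s ^ 2 * (18 * z ^ 3 + 75 / 2 * z ^ 5 + 245 / 4 * z ^ 7 + 2835 / 32 * z ^ 9 +
        7623 / 64 * z ^ 11)) := by
    rw [hl', hP1]
    have : (1 : ℝ) + s ≠ 0 := by linarith only [hs]
    field_simp
    ring
  rw [h1]
  have i1 : 0 ≤ (1 / (s ^ 3 * (1 + s))) * (4 * s ^ 2 * (1 + s) - 4 * s ^ 4 - 2 * s ^ 5 * (1 + s) -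
        (1 - z ^ 2) * (1 + s) / 4 * P1 +
        s ^ 5 * (1 + s) * (9 / 2 * z * (z ^ 2 - 1) + 25 / 4 * z ^ 2 * (z ^ 3 - 1) +
        245 / 32 * z ^ 3 * (z ^ 4 - 1) + 567 / 64 * z ^ 4 * (z ^ 5 - 1) +
        2541 / 256 * z ^ 5 * (z ^ 6 - 1))) := mul_nonneg (by positivity) e2
  have i2 : 0 ≤ z / s ^ 3 * (((1 - z ^ 2) / (4 * z) - L) * P1) :=
    mul_nonneg (by positivity) (mul_nonneg (sub_nonneg.2 hLu) e1)
  have i3 : 0 ≤ z / s ^ 3 * (d * P1) := mul_nonneg (by positivity) (mul_nonneg hlL e1)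
  have i4 : 0 ≤ d * (s ^ 2 * (18 * z ^ 3 + 75 / 2 * z ^ 5 + 245 / 4 * z ^ 7 + 2835 / 32 * z ^ 9 +
        7623 / 64 * z ^ 11)) := mul_nonneg hlL (by positivity)
  linarith only [i1, i2, i3, i4]

end Vale.Agent.P237.AllN
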