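import Vale.Agent.P237.AllN.StepN
import Vale.Agent.P237.AllN.EqDense
import Vale.Agent.P237.AllN.EqEll
import Vale.Agent.P237.AllN.EqMoment

/-!
# P237, all dimensions: the induction step, part 2: assembly
-/

open MeasureTheory Metric Set Module
open scoped Pointwise

namespace Vale.Agent.P237.AllN

/-- Petty's inequality in dimension `m`. -/
def PettyIneq (m : ℕ) : Prop :=
  ∀ (W : Type) [NormedAddCommGroup W] [InnerProductSpace ℝ W] [FiniteDimensional ℝ W]
    [MeasurableSpace W] [BorelSpace W],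
    finrank ℝ W = m → ∀ S : Set W, IsBody S → RC m * vol S ^ (m - 1) ≤ vol (projBody S)

theorem RC_pos {m : ℕ} (hm : 2 ≤ m) : 0 < RC m := by
  rw [RC_eq hm]
  have h1 := kappa_pos (m - 1)
  have h2 := kappa_pos m
  (clear * - h1 h2; positivity)

variable {V : Type} [NormedAddCommGroup V] [InnerProductSpace ℝ V] [FiniteDimensional ℝ V]
  [MeasurableSpace V] [BorelSpace V]

theorem JF_eq {m : ℕ} (hm : 1 ≤ m) (hd : finrank ℝ V = m + 1) (K : Set V) (u : V)
    (c c' p' : ℝ → ℝ) : JF K u c c' p' =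
      ∫ y in (-1 : ℝ)..1, (((m : ℝ) + 1) * c y + y * c' y + p' y) * rprof K u m y ^ m := by
  unfold JF
  rw [hd]
  refine intervalIntegral.integral_congr fun y _ => ?_
  simp only [rprof, prof_pow hm]
  push_cast
  rfl

/-- The fixed point data. -/
structure Fixed (K : Set V) (r : ℝ) : Prop where
  pos : 0 < r
  eq : projBody (projBody K) = r • K
  vol : vol (projBody K) = r * vol K

theorem oned_hyp {m : ℕ} (hm : 2 ≤ m) (hd : finrank ℝ V = m + 1) (hP : PettyIneq m) {K : Set V}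
    (hK : IsSymBody K) {r : ℝ} (hF : Fixed K r) (h : ratio K ≤ RC (m + 1)) {u : V}
    (hu : ‖u‖ = 1) :
    (∫ y in (-1 : ℝ)..1, rprof K u m y ^ (m - 1)) ^ m * aInt m ^ (m - 1) ≤
      aInt (m - 1) ^ m * (∫ y in (-1 : ℝ)..1, rprof K u m y ^ m) ^ (m - 1) := by
  have hR := RC_pos hm
  have h2 : finrank ℝ ((ℝ ∙ u)ᗮ : Submodule ℝ V) = m := finrank_perp_gen hd hu
  have h1 := ratio_ge_dir hm hd hK hR.le hu (hP _ h2) hF.pos hF.eq hF.vol
  have a1 := aInt_pos (m - 1)
  have a2 := aInt_pos m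
  have hv := vol_eq_rprof (m := m) (by omega) hK hu
  have p1 := Main.vol_pos hK.toIsBody
  have hpos := supp_pos hK hu
  have hI2 : 0 < ∫ y in (-1 : ℝ)..1, rprof K u m y ^ m := by
    rw [hv] at p1
    exact (mul_pos_iff_of_pos_left hpos).1 p1
  rw [RC_succ hm] at h
  set I1 := ∫ y in (-1 : ℝ)..1, rprof K u m y ^ (m - 1)
  set I2 := ∫ y in (-1 : ℝ)..1, rprof K u m y ^ m
  have h3 : RC m * I1 ^ m ≤ RC m * (aInt (m - 1) ^ m / aInt m ^ (m - 1)) * I2 ^ (m - 1) :=
    h1.trans (mul_le_mul_of_nonneg_right h (by (clear * - hI2; positivity)))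
  have h4 : I1 ^ m ≤ (aInt (m - 1) ^ m / aInt m ^ (m - 1)) * I2 ^ (m - 1) := by
    rw [mul_assoc] at h3
    exact le_of_mul_le_mul_left h3 hR
  calc I1 ^ m * aInt m ^ (m - 1) ≤
      ((aInt (m - 1) ^ m / aInt m ^ (m - 1)) * I2 ^ (m - 1)) * aInt m ^ (m - 1) :=
        mul_le_mul_of_nonneg_right h4 (by (clear * - a2; positivity))
    _ = aInt (m - 1) ^ m * I2 ^ (m - 1) := by
        (clear * - a2 hI2 a1; field_simp)

theorem integral_ball_prof {r : ℝ → ℝ} {k : ℝ}
    (h : ∀ y ∈ Ioo (-1 : ℝ) 1, r y = k * Real.sqrt (1 - y ^ 2)) (j : ℕ) :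
    ∫ y in (-1 : ℝ)..1, r y ^ j = k ^ j * aInt j := by
  unfold aInt
  rw [← intervalIntegral.integral_const_mul, intervalIntegral.integral_of_le (by norm_num),
    intervalIntegral.integral_of_le (by norm_num), integral_Ioc_eq_integral_Ioo,
    integral_Ioc_eq_integral_Ioo]
  refine setIntegral_congr_fun measurableSet_Ioo fun y hy => ?_
  simp only [h y hy, mul_pow]

/-- A ball profile in one direction gives the optimal lower bound. -/
theorem ratio_ge_of_ball_dir {m : ℕ} (hm : 2 ≤ m) (hd : finrank ℝ V = m + 1) (hP : PettyIneq m)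
    {K : Set V} (hK : IsSymBody K) {r : ℝ} (hF : Fixed K r) {u : V} (hu : ‖u‖ = 1) {k : ℝ}
    (hk : ∀ y ∈ Ioo (-1 : ℝ) 1, rprof K u m y = k * Real.sqrt (1 - y ^ 2)) :
    RC (m + 1) ≤ ratio K := by
  have hR := RC_pos hm
  have h2 : finrank ℝ ((ℝ ∙ u)ᗮ : Submodule ℝ V) = m := finrank_perp_gen hd hu
  have h1 := ratio_ge_dir hm hd hK hR.le hu (hP _ h2) hF.pos hF.eq hF.vol
  have a1 := aInt_pos (m - 1)
  have a2 := aInt_pos m
  have hprof := rprof_isProf (m := m) (by omega) hd hK hu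
  have hk0 : 0 < k := by
    have h3 := hprof.pos 0 (by norm_num)
    rw [hk 0 (by (clear * -; norm_num))] at h3
    simpa using h3
  rw [integral_ball_prof hk, integral_ball_prof hk] at h1
  rw [RC_succ hm, mul_div_assoc', div_le_iff₀ (by positivity)]
  obtain ⟨j, rfl⟩ : ∃ j, m = j + 2 := ⟨m - 2, by omega⟩
  simp only [show j + 2 - 1 = j + 1 by omega] at h1 ⊢
  have h5 : (k ^ ((j + 1) * (j + 2))) * (RC (j + 2) * aInt (j + 1) ^ (j + 2)) ≤
      (k ^ ((j + 1) * (j + 2))) * (ratio K * aInt (j + 2) ^ (j + 1)) := by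
    calc (k ^ ((j + 1) * (j + 2))) * (RC (j + 2) * aInt (j + 1) ^ (j + 2)) =
        RC (j + 2) * (k ^ (j + 1) * aInt (j + 1)) ^ (j + 2) := by rw [mul_pow, ← pow_mul]; ring
      _ ≤ ratio K * (k ^ (j + 2) * aInt (j + 2)) ^ (j + 1) := h1
      _ = _ := by rw [mul_pow, ← pow_mul, mul_comm (j + 2) (j + 1)]; ring
  exact le_of_mul_le_mul_left h5 (by positivity)

theorem ratio_ge_of_fixed_N {m : ℕ} (hm : 2 ≤ m) (h1 : OneD m) (hP : PettyIneq m)
    (hd : finrank ℝ V = m + 1) {K : Set V} (hK : IsSymBody K) {r : ℝ} (hF : Fixed K r) :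
    RC (m + 1) ≤ ratio K := by
  by_contra hcon
  push Not at hcon
  obtain ⟨A, hA, -, h⟩ := h1
  obtain ⟨C, hC⟩ := hA.bdd
  have : Nontrivial V := Module.nontrivial_of_finrank_pos (R := ℝ) (by omega)
  have : Fact (IsSymBody K) := ⟨hK⟩
  obtain ⟨u, hu, hall⟩ := exch_body K (by omega) hA.meas hC hA.anti
  rcases h _ (rprof_isProf (by omega) hd hK hu) (oned_hyp hm hd hP hK hF hcon.le hu) with
    ⟨k, hk⟩ | ⟨c, c', p, p', hadm, hpos⟩
  · exact absurd (ratio_ge_of_ball_dir hm hd hP hK hF hu hk) (not_le.2 hcon)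
  · have h2 := hall c c' p p' hadm
    rw [JF_eq (by omega) hd] at h2
    exact absurd h2 (not_le.2 hpos)

/-- Petty's inequality, ratio form. -/
theorem petty_ratio_N {m : ℕ} (hm : 2 ≤ m) (h1 : OneD m) (hP : PettyIneq m)
    (hd : finrank ℝ V = m + 1) {K : Set V} (hK : IsBody K) : RC (m + 1) ≤ ratio K := by
  have hd0 : 0 < finrank ℝ V := by omega
  obtain ⟨K₀, hK₀, hmin⟩ := exists_global_min (V := V) hd0
  obtain ⟨r, hr, hM, hv⟩ := Main.fixed_of_ratio_le hK₀ hd0
    (hmin _ (projBody_isSymBody hK₀.toIsBody))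
  calc RC (m + 1) ≤ ratio K₀ := ratio_ge_of_fixed_N hm h1 hP hd hK₀ ⟨hr, hM, hv⟩
    _ ≤ ratio (projBody K) := hmin _ (projBody_isSymBody hK)
    _ ≤ ratio K := Main.ratio_projBody_le hK hd0

theorem petty_ineq_N {m : ℕ} (hm : 2 ≤ m) (h1 : OneD m) (hP : PettyIneq m)
    (hd : finrank ℝ V = m + 1) {K : Set V} (hK : IsBody K) :
    RC (m + 1) * vol K ^ m ≤ vol (projBody K) := by
  have h := petty_ratio_N hm h1 hP hd hK
  have p1 := Main.vol_pos hK
  unfold ratio at h
  rw [hd, le_div_iff₀ (by positivity)] at h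
  simpa only [ge_iff_le, add_tsub_cancel_right] using h

theorem pettyIneq_succ {m : ℕ} (hm : 2 ≤ m) (h1 : OneD m) (hP : PettyIneq m) :
    PettyIneq (m + 1) := by
  intro W _ _ _ _ _ hd S hS
  exact petty_ineq_N hm h1 hP hd hS

/-- An extremal symmetric body is an ellipsoid. -/
theorem sym_eq_N {m : ℕ} (hm : 2 ≤ m) (h1 : OneD m) (hP : PettyIneq m)
    (hd : finrank ℝ V = m + 1) {K : Set V} (hK : IsSymBody K)
    (h : ratio K ≤ RC (m + 1)) :
    ∃ T : V ≃ₗ[ℝ] V, K = T '' closedBall (0 : V) 1 := by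
  have hd0 : 0 < finrank ℝ V := by omega
  obtain ⟨r, hr, hM, hv⟩ := Main.fixed_of_ratio_le hK hd0
    (h.trans (petty_ratio_N hm h1 hP hd (projBody_isSymBody hK.toIsBody).toIsBody))
  have hF : Fixed K r := ⟨hr, hM, hv⟩
  obtain ⟨A, hA, hball, h1d⟩ := h1
  obtain ⟨C, hC⟩ := hA.bdd
  have : Nontrivial V := Module.nontrivial_of_finrank_pos (R := ℝ) (by omega)
  have : Fact (IsSymBody K) := ⟨hK⟩
  have hae := exch_body_ae K (by omega) hA.meas hC hA.anti (by
    intro u hu ε hε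
    rcases h1d _ (rprof_isProf (by omega) hd hK hu) (oned_hyp hm hd hP hK hF h hu) with
      ⟨k, hk⟩ | ⟨c, c', p, p', hadm, hpos⟩
    · have hk0 : 0 < k := by
        have h3 := (rprof_isProf (m := m) (by omega) hd hK hu).pos 0 (by norm_num)
        rw [hk 0 (by (clear * -; norm_num))] at h3
        simpa using h3
      obtain ⟨c, c', p, p', hadm, hb⟩ := hball (ε / k ^ m) (by (clear * - hε hk0; positivity))
      refine ⟨c, c', p, p', hadm, ?_⟩
      rw [JF_eq (by omega) hd]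
      have e : ∫ y in (-1 : ℝ)..1, (((m : ℝ) + 1) * c y + y * c' y + p' y) * rprof K u m y ^ m =
          k ^ m * ∫ y in (-1 : ℝ)..1, (((m : ℝ) + 1) * c y + y * c' y + p' y) *
            Real.sqrt (1 - y ^ 2) ^ m := by
        rw [← intervalIntegral.integral_const_mul, intervalIntegral.integral_of_le (by norm_num),
          intervalIntegral.integral_of_le (by norm_num), integral_Ioc_eq_integral_Ioo,
          integral_Ioc_eq_integral_Ioo]
        refine setIntegral_congr_fun measurableSet_Ioo fun y hy => ?_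
        simp only [hk y hy, mul_pow]
        ring
      rw [e]
      have h4 := mul_le_mul_of_nonneg_left hb (by positivity : 0 ≤ k ^ m)
      have h5 : k ^ m * -(ε / k ^ m) = -ε := by (clear * - hk0 hε; field_simp)
      linarith only [h4, h5]
    · refine ⟨c, c', p, p', hadm, ?_⟩
      rw [JF_eq (by omega) hd]
      (clear hP h r hr hM hv hF A hA hball h1d C hC hu p hadm; linarith))
  have hae2 : ∀ᵐ x : sphere (0 : GS K) 1 ∂(gm K).toSphere, BallProf K (du K x) m := by
    filter_upwards [hae] with x hx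
    have hu := norm_du K hx.1
    rcases h1d _ (rprof_isProf (by omega) hd hK hu) (oned_hyp hm hd hP hK hF h hu) with
      ⟨k, hk⟩ | ⟨c, c', p, p', hadm, hpos⟩
    · refine ⟨k ^ m, fun t ht => ?_⟩
      rw [← prof_pow (by omega : 1 ≤ m), ← mul_pow, ← hk t ht]
      rfl
    · have h2 := hx.2 c c' p p' hadm
      rw [JF_eq (by omega) hd] at h2
      exact absurd h2 (not_le.2 hpos)
  refine ellipsoid_of_moments (n := m + 1) (by omega) hd hK fun y hy => ?_
  obtain ⟨x, hxd, hxP, hxy⟩ := good_dense K hae2 hy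
  refine ⟨dv K x, ?_, ?_⟩
  · rw [supp_dv K hxd]
    exact hxy
  · have hmom := ballProf_moment hd hK (norm_du K hxd) hxP
    have hn : ‖dv K x‖ ≠ 0 := norm_ne_zero_iff.2 (dv_ne_zero K hxd)
    have e1 : ∫ z in K, inner ℝ z (dv K x) ^ 2 = ‖dv K x‖ ^ 2 * ∫ z in K, inner ℝ z (du K x) ^ 2 := by
      rw [← integral_const_mul]
      refine integral_congr_ae (Filter.Eventually.of_forall fun z => ?_)
      simp only [du, inner_smul_right]
      (clear hP h r hr hM hv hF A hA hball h1d C hC hae hae2 y hy hxP hxy hmom; field_simp)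
    rw [e1, supp_dv K hxd, one_pow, one_mul]
    rw [supp_du K hxd] at hmom
    have e2 : (((m + 1 : ℕ) : ℝ) + 2) = (m : ℝ) + 3 := by push_cast; ring
    rw [e2]
    calc ((m : ℝ) + 3) * (‖dv K x‖ ^ 2 * ∫ z in K, inner ℝ z (du K x) ^ 2) =
        ‖dv K x‖ ^ 2 * (((m : ℝ) + 3) * ∫ z in K, inner ℝ z (du K x) ^ 2) := by ring
      _ = ‖dv K x‖ ^ 2 * (‖dv K x‖⁻¹ ^ 2 * vol K) := by rw [hmom]
      _ = vol K := by (clear hP h r hr hM hv hF A hA hball h1d C hC hae hae2 y hy hxd hxP hxy hmom e1 e2; field_simp)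

/-- An extremal body is an ellipsoid. -/
theorem petty_eq_N {m : ℕ} (hm : 2 ≤ m) (h1 : OneD m) (hP : PettyIneq m)
    (hd : finrank ℝ V = m + 1) {K : Set V} (hK : IsBody K)
    (h : vol (projBody K) = RC (m + 1) * vol K ^ m) :
    ∃ (a : V) (T : V ≃ₗ[ℝ] V), K = (fun x => a + T x) '' closedBall (0 : V) 1 := by
  have hd0 : 0 < finrank ℝ V := by omega
  have p1 := Main.vol_pos hK
  have hR : ratio K = RC (m + 1) := by
    unfold ratio
    rw [hd, h, div_eq_iff (by positivity), Nat.add_sub_cancel]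
  obtain ⟨c, r, hr, hcr⟩ := Main.petty_contract_eq_of_ratio hK hd0
    (by rw [hR]; exact petty_ratio_N hm h1 hP hd (Main.projBody_isBody hK))
  -- the translate `K' = r⁻¹ • Π² K` of `K`
  have hM : IsSymBody (projBody (projBody K)) := projBody_isSymBody (Main.projBody_isBody hK)
  have hK' : (fun x => (r⁻¹ • c) + x) '' K = r⁻¹ • projBody (projBody K) := by
    rw [hcr]
    ext y
    simp only [mem_image, mem_smul_set]
    constructor
    · rintro ⟨x, hx, rfl⟩
      exact ⟨c + r • x, ⟨r • x, ⟨x, hx, rfl⟩, rfl⟩, by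
        rw [smul_add, smul_smul, inv_mul_cancel₀ hr.ne', one_smul]⟩
    · rintro ⟨z, ⟨w, ⟨x, hx, rfl⟩, rfl⟩, rfl⟩
      exact ⟨x, hx, by rw [smul_add, smul_smul, inv_mul_cancel₀ hr.ne', one_smul]⟩
  have hsym : IsSymBody ((fun x => (r⁻¹ • c) + x) '' K) := by
    have hb : IsBody ((fun x => (r⁻¹ • c) + x) '' K) := IsBody.translate hK _
    refine ⟨hb, ?_⟩
    intro x hx
    rw [hK'] at hx ⊢
    obtain ⟨z, hz, rfl⟩ := hx
    exact ⟨-z, hM.symm z hz, by simp⟩
  obtain ⟨T, hT⟩ := sym_eq_N hm h1 hP hd hsym (by rw [ratio_translate, hR])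
  refine ⟨-(r⁻¹ • c), T, ?_⟩
  have h2 : (fun x => -(r⁻¹ • c) + x) '' ((fun x => (r⁻¹ • c) + x) '' K) = K := by
    rw [← image_comp]
    simp
  rw [← h2, hT, ← image_comp]
  rfl

/-- Ellipsoids attain equality. -/
theorem petty_ellipsoid_N {m : ℕ} (hm : 2 ≤ m) (hd : finrank ℝ V = m + 1) (a : V) (T : V ≃ₗ[ℝ] V) :
    vol (projBody ((fun x => a + T x) '' closedBall (0 : V) 1)) =
      RC (m + 1) * vol ((fun x => a + T x) '' closedBall (0 : V) 1) ^ m := by
  have hd0 : 0 < finrank ℝ V := by omega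
  have hB : IsSymBody (closedBall (0 : V) 1) := isSymBody_ball
  have he : (fun x => a + T x) '' closedBall (0 : V) 1 =
      (fun x => a + x) '' (T '' closedBall (0 : V) 1) := by
    rw [← image_comp]; rfl
  have hbody : IsBody ((fun x => a + T x) '' closedBall (0 : V) 1) := by
    rw [he]; exact IsBody.translate (IsSymBody.image T hB).toIsBody a
  have hR : ratio ((fun x => a + T x) '' closedBall (0 : V) 1) = RC (m + 1) := by
    rw [he, ratio_translate, ratio_image T hB.toIsBody hd0, ratio_ball (by omega) hd]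
  have p1 := Main.vol_pos hbody
  unfold ratio at hR
  rw [hd, div_eq_iff (by positivity), Nat.add_sub_cancel] at hR
  exact hR

open Statement in
/-- The induction step. -/
theorem pettyIn_succ {m : ℕ} (hm : 2 ≤ m) (h1 : OneD m) (hP : PettyIneq m)
    (hd : finrank ℝ V = m + 1) : PettyIn V (m + 1) := by
  intro K L hK hL
  have hK' : IsBody K := ⟨hK.1, hK.2.1, hK.2.2⟩
  obtain rfl := (isProjectionBody_iff hK).1 hL
  have hc : kappa (m + 1 - 1) ^ (m + 1) * kappa (m + 1) ^ (2 - ((m + 1 : ℕ) : ℤ)) *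
      Statement.vol K ^ (m + 1 - 1) = RC (m + 1) * P237.vol K ^ m := rfl
  rw [hc, isEllipsoid_iff]
  refine ⟨petty_ineq_N hm h1 hP hd hK', ?_, ?_⟩
  · intro h
    exact petty_eq_N hm h1 hP hd hK' h
  · rintro ⟨a, T, rfl⟩
    exact petty_ellipsoid_N hm hd a T

theorem RC_three : RC 3 = 3 * Real.pi ^ 2 / 4 := by
  unfold RC
  have h2 : (2 - ((3 : ℕ) : ℤ)) = -1 := by norm_num
  rw [h2, Statement.kappa_three, zpow_neg_one]
  norm_num
  rw [Statement.kappa_two]
  have := Real.pi_pos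
  field_simp

theorem pettyIneq_three : PettyIneq 3 := by
  intro W _ _ _ _ _ hd S hS
  rw [RC_three]
  exact Main.petty3 hd hS

/-- The inequality in all dimensions from the one-dimensional statements. -/
theorem pettyIneq_of_oneD (h : ∀ m : ℕ, 3 ≤ m → OneD m) : ∀ n : ℕ, 3 ≤ n → PettyIneq n := by
  intro n hn
  induction n, hn using Nat.le_induction with
  | base => exact pettyIneq_three
  | succ m hm ih => exact pettyIneq_succ (by omega) (h m hm) ih

/-- Petty's conjecture in all dimensions from the one-dimensional statements. -/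
theorem petty_of_oneD (h : ∀ m : ℕ, 3 ≤ m → OneD m) {n : ℕ} (hn : 3 ≤ n)
    (hd : finrank ℝ V = n) : Statement.PettyIn V n := by
  rcases hn.eq_or_lt with h3 | h3
  · subst h3
    exact Statement.petty_dim_three hd
  · obtain ⟨m, rfl⟩ : ∃ m, n = m + 1 := ⟨n - 1, by omega⟩
    exact pettyIn_succ (by omega) (h m (by omega)) (pettyIneq_of_oneD h m (by omega)) hd

end Vale.Agent.P237.AllN
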