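import Vale.Agent.P237.AllN.FIntf
import Vale.Agent.P237.AllN.MainN

/-!
# P237, all dimensions: the induction step with the Fisher term
-/

open MeasureTheory Metric Set Module
open scoped Pointwise

namespace Vale.Agent.P237.AllN

open Exch

/-- `Q` is at most the inverse of the Fisher type functional of the density `f`. -/
def FishP (n : ℕ) (f : ℝ → ℝ) (Q : ℝ) : Prop :=
  ∀ c c' p p' : ℝ → ℝ, (∀ y, HasDerivAt c (c' y) y) → Continuous c' →
    (∀ y, HasDerivAt p (p' y) y) → Continuous p' →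
    (∀ y ∈ Icc (-1 : ℝ) 1, c y + p y ^ 2 / 4 ≤ 0) →
    Q * ∫ y in (-1 : ℝ)..1, ((n : ℝ) * c y + y * c' y + p' y) * f y ≤ ∫ y in (-1 : ℝ)..1, f y

/-- The one-dimensional statement with the Fisher term of weight `θ`. -/
def OneDF (m : ℕ) (θ : ℝ) : Prop := 0 ≤ θ ∧ ∃ A : ℝ → ℝ → ℝ, Kern A ∧
  (∀ ε > (0 : ℝ), ∃ c c' p p' : ℝ → ℝ, Adm A c c' p p' ∧
    -ε ≤ ∫ y in (-1 : ℝ)..1, (((m : ℝ) + 1) * c y + y * c' y + p' y) * Real.sqrt (1 - y ^ 2) ^ m) ∧
  ∀ r : ℝ → ℝ, IsProf r →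
    (∫ y in (-1 : ℝ)..1, r y ^ (m - 1)) ^ m * aInt m ^ (m - 1) ≤
      aInt (m - 1) ^ m * (∫ y in (-1 : ℝ)..1, r y ^ m) ^ (m - 1) →
    (∃ k : ℝ, ∀ y ∈ Ioo (-1 : ℝ) 1, r y = k * Real.sqrt (1 - y ^ 2)) ∨
    ∀ Q : ℝ, 0 ≤ Q → FishP (m + 1) (fun y => r y ^ m) Q →
      ∃ c c' p p' : ℝ → ℝ, Adm A c c' p p' ∧
        θ * (Q - 1) * (∫ y in (-1 : ℝ)..1, r y ^ m) <
          ∫ y in (-1 : ℝ)..1, (((m : ℝ) + 1) * c y + y * c' y + p' y) * r y ^ m

theorem OneD.toF {m : ℕ} (h : OneD m) : OneDF m 0 := by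
  obtain ⟨A, hA, hb, h⟩ := h
  refine ⟨le_rfl, A, hA, hb, fun r hr hN => ?_⟩
  rcases h r hr hN with h1 | ⟨c, c', p, p', hadm, hpos⟩
  · exact Or.inl h1
  · refine Or.inr fun Q _ _ => ⟨c, c', p, p', hadm, ?_⟩
    rw [zero_mul, zero_mul]
    exact hpos

section

variable {V : Type*} [NormedAddCommGroup V] [InnerProductSpace ℝ V] [FiniteDimensional ℝ V]
  [MeasurableSpace V] [BorelSpace V]

variable (K : Set V) [hK : Fact (IsSymBody K)] [Nontrivial V]

/-- the slice function in the direction `u` -/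
noncomputable def slf (u : V) (t : ℝ) : ℝ := vol (slice K u (supp K u * t))

/-- **Exchangeability theorem with Fisher term for symmetric bodies.** -/
theorem exchF_body_ae (hd : 2 ≤ finrank ℝ V) {A : ℝ → ℝ → ℝ}
    (hA : Measurable (Function.uncurry A)) {C : ℝ}
    (hC : ∀ a ∈ Icc (-1 : ℝ) 1, ∀ b ∈ Icc (-1 : ℝ) 1, |A a b| ≤ C)
    (hanti : ∀ a ∈ Icc (-1 : ℝ) 1, ∀ b ∈ Icc (-1 : ℝ) 1, A a b = -A b a) (θ : ℝ)
    (h0 : ∀ u : V, ‖u‖ = 1 → ∀ Q : ℝ, 0 ≤ Q → FishP (finrank ℝ V) (slf K u) Q →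
      ∀ ε : ℝ, 0 < ε → ∃ c c' p p' : ℝ → ℝ, Adm A c c' p p' ∧
        θ * (Q - 1) * (∫ t in (-1 : ℝ)..1, slf K u t) - ε ≤ JF K u c c' p') :
    ∀ᵐ x : sphere (0 : GS K) 1 ∂(gm K).toSphere,
      DifferentiableAt ℝ (fun y : GS K => ‖y‖) (x : GS K) ∧
      ∃ Q : ℝ, 0 ≤ Q ∧ FishP (finrank ℝ V) (slf K (du K x)) Q ∧
        ∀ c c' p p' : ℝ → ℝ, Adm A c c' p p' →
          JF K (du K x) c c' p' ≤ θ * (Q - 1) * ∫ t in (-1 : ℝ)..1, slf K (du K x) t := by
  obtain ⟨T, hTi, hT1, hT0, hT⟩ := exists_density (gm K) (by rw [finrank_GS]; exact hd)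
  have hV : ∀ x : sphere (0 : GS K) 1, DifferentiableAt ℝ (fun y : GS K => ‖y‖) (x : GS K) →
      ((gm K) (ball (0 : GS K) 1)).toReal =
        supp K (du K x) * ∫ t in (-1 : ℝ)..1, slf K (du K x) t := by
    intro x hx
    have e2 := integral_dg K hx (F := fun _ => (1 : ℝ)) continuous_const
    rw [setIntegral_const, smul_eq_mul, mul_one] at e2
    simp only [one_mul] at e2
    exact e2
  set VB := ((gm K) (ball (0 : GS K) 1)).toReal with hVB
  have hVB0 : 0 < VB := ENNReal.toReal_pos (measure_ball_pos (gm K) 0 one_pos).ne'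
    measure_ball_lt_top.ne
  have hQ : ∀ x : sphere (0 : GS K) 1, DifferentiableAt ℝ (fun y : GS K => ‖y‖) (x : GS K) →
      FishP (finrank ℝ V) (slf K (du K x)) (T x * VB) := by
    intro x hx c c' p p' hc hc' hp hp' hcp
    have hcc : Continuous c := continuous_iff_continuousAt.2 fun y => (hc y).continuousAt
    have h1 := hT x hx c c' p p' hc hc' hp hp' hcp
    have h2 := integral_dg K hx (F := fun t => (finrank ℝ V : ℝ) * c t + t * c' t + p' t)
      (by fun_prop)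
    rw [finrank_GS, h2] at h1
    have hs : 0 < supp K (du K x) := supp_pos hK.out (norm_du K hx)
    have hI : 0 < ∫ t in (-1 : ℝ)..1, slf K (du K x) t := by
      have := hV x hx
      rw [this] at hVB0
      exact (mul_pos_iff_of_pos_left hs).1 hVB0
    rw [hV x hx]
    have h3 := mul_le_mul_of_nonneg_right h1 hI.le
    calc _ = T x * (supp K (du K x) * ∫ t in (-1 : ℝ)..1,
        ((finrank ℝ V : ℝ) * c t + t * c' t + p' t) *
          vol (slice K (du K x) (supp K (du K x) * t))) * ∫ t in (-1 : ℝ)..1, slf K (du K x) t := by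
          simp only [slf]
          ring
      _ ≤ _ := h3
      _ = _ := one_mul _
  have hae := exchF_ae (gm K) hA hC hanti hTi hT1 θ (by
    filter_upwards [ae_sphere (gm K)] with x hx
    have hpos : 0 < supp K (du K x) := supp_pos hK.out (norm_du K hx)
    refine le_of_forall_pos_le_add fun ε hε => ?_
    obtain ⟨c, c', p, p', hadm, hJ⟩ := h0 (du K x) (norm_du K hx) (T x * VB)
      (mul_nonneg (hT0 x) hVB0.le) (hQ x hx) (ε / supp K (du K x)) (by positivity)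
    have h2 := inner_lower (gm K) (by rw [finrank_GS]; exact hd) hA hC hx hadm.hc hadm.hc'
      hadm.hp hadm.hp' hadm.hsup
    rw [integral_adm K hx hadm] at h2
    have h3 := mul_le_mul_of_nonneg_left hJ hpos.le
    have h4 : supp K (du K x) * (θ * (T x * VB - 1) * (∫ t in (-1 : ℝ)..1, slf K (du K x) t) -
        ε / supp K (du K x)) = θ * (T x * VB - 1) * VB - ε := by
      have e := hV x hx
      rw [mul_sub, mul_div_cancel₀ _ hpos.ne']
      calc _ = θ * (T x * VB - 1) * (supp K (du K x) * ∫ t in (-1 : ℝ)..1, slf K (du K x) t) - ε := by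
            ring
        _ = _ := by rw [← e]
    rw [h4] at h3
    linarith)
  filter_upwards [hae, ae_sphere (gm K)] with x hx hxd
  refine ⟨hxd, T x * VB, mul_nonneg (hT0 x) hVB0.le, hQ x hxd, fun c c' p p' hadm => ?_⟩
  have hpos : 0 < supp K (du K x) := supp_pos hK.out (norm_du K hxd)
  have h2 := inner_lower (gm K) (by rw [finrank_GS]; exact hd) hA hC hxd hadm.hc hadm.hc'
      hadm.hp hadm.hp' hadm.hsup
  rw [integral_adm K hxd hadm, hx] at h2
  have e := hV x hxd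
  have h5 : θ * (T x * VB - 1) * VB = supp K (du K x) *
      (θ * (T x * VB - 1) * ∫ t in (-1 : ℝ)..1, slf K (du K x) t) := by
    calc θ * (T x * VB - 1) * VB = θ * (T x * VB - 1) *
        (supp K (du K x) * ∫ t in (-1 : ℝ)..1, slf K (du K x) t) := by rw [← e]
      _ = _ := by ring
  rw [h5] at h2
  exact le_of_mul_le_mul_left h2 hpos

end

variable {V : Type} [NormedAddCommGroup V] [InnerProductSpace ℝ V] [FiniteDimensional ℝ V]
  [MeasurableSpace V] [BorelSpace V]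

theorem slf_eq {m : ℕ} (hm : 1 ≤ m) (K : Set V) (u : V) :
    slf K u = fun y => rprof K u m y ^ m := by
  funext y
  simp only [slf, rprof, prof_pow hm]

/-- second moment of the ball law -/
theorem aInt_moment (m : ℕ) : ((m : ℝ) + 3) * ∫ y in (-1 : ℝ)..1, y ^ 2 * Real.sqrt (1 - y ^ 2) ^ m =
    aInt m := by
  have hd : ∀ y ∈ Ioo (-1 : ℝ) 1, HasDerivAt (fun y : ℝ => y * Real.sqrt (1 - y ^ 2) ^ (m + 2))
      (Real.sqrt (1 - y ^ 2) ^ m - ((m : ℝ) + 3) * (y ^ 2 * Real.sqrt (1 - y ^ 2) ^ m)) y := by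
    intro y hy
    have h0 : 0 < 1 - y ^ 2 := by nlinarith [hy.1, hy.2]
    have e2 : HasDerivAt (fun y : ℝ => 1 - y ^ 2) (-(2 * y)) y := by
      have := (hasDerivAt_pow 2 y).const_sub 1
      refine this.congr_deriv ?_
      simp
    have e3 := ((e2.sqrt h0.ne').pow (m + 2))
    have e4 := (hasDerivAt_id y).mul e3
    refine e4.congr_deriv ?_
    have hs : 0 < Real.sqrt (1 - y ^ 2) := Real.sqrt_pos.2 h0
    have hsq : Real.sqrt (1 - y ^ 2) ^ 2 = 1 - y ^ 2 := Real.sq_sqrt h0.le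
    simp only [id, Pi.pow_apply, show m + 2 - 1 = m + 1 by omega]
    have e5 : Real.sqrt (1 - y ^ 2) ^ (m + 2) = Real.sqrt (1 - y ^ 2) ^ m * (1 - y ^ 2) := by
      rw [pow_add, hsq]
    rw [e5, pow_succ]
    field_simp
    push_cast
    ring
  have hcont : Continuous (fun y : ℝ => y * Real.sqrt (1 - y ^ 2) ^ (m + 2)) := by fun_prop
  have i1 : Continuous (fun y : ℝ => Real.sqrt (1 - y ^ 2) ^ m) := by fun_prop
  have i2 : Continuous (fun y : ℝ => y ^ 2 * Real.sqrt (1 - y ^ 2) ^ m) := by fun_prop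
  have h := intervalIntegral.integral_eq_sub_of_hasDerivAt_of_le (by norm_num : (-1 : ℝ) ≤ 1)
    hcont.continuousOn hd ((i1.sub (i2.const_mul _)).intervalIntegrable _ _)
  rw [intervalIntegral.integral_sub (i1.intervalIntegrable _ _)
    ((i2.const_mul _).intervalIntegrable _ _), intervalIntegral.integral_const_mul] at h
  simp at h
  unfold aInt
  linarith

/-- for ball profiles `Q ≤ 1` -/
theorem FishP.le_one {m : ℕ} {r : ℝ → ℝ} {k : ℝ} (hk0 : 0 < k)
    (hk : ∀ y ∈ Ioo (-1 : ℝ) 1, r y = k * Real.sqrt (1 - y ^ 2)) {Q : ℝ}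
    (h : FishP (m + 1) (fun y => r y ^ m) Q) : Q ≤ 1 := by
  have h1 := h (fun y => -y ^ 2) (fun y => -(2 * y)) (fun y => 2 * y) (fun _ => 2)
    (fun y => by
      have := (hasDerivAt_pow 2 y).neg
      refine this.congr_deriv ?_
      simp) (by fun_prop) (fun y => by
      have := (hasDerivAt_id y).const_mul 2
      refine this.congr_deriv ?_
      simp) continuous_const (fun y _ => by
      have : -y ^ 2 + (2 * y) ^ 2 / 4 = 0 := by ring
      exact this.le)
  rw [integral_ball_prof hk] at h1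
  have e1 : ∫ y in (-1 : ℝ)..1, (((m + 1 : ℕ) : ℝ) * (-y ^ 2) + y * (-(2 * y)) + 2) * r y ^ m =
      k ^ m * aInt m := by
    have e2 : ∫ y in (-1 : ℝ)..1, (((m + 1 : ℕ) : ℝ) * (-y ^ 2) + y * (-(2 * y)) + 2) * r y ^ m =
        ∫ y in (-1 : ℝ)..1, k ^ m * (2 * Real.sqrt (1 - y ^ 2) ^ m - ((m : ℝ) + 3) *
          (y ^ 2 * Real.sqrt (1 - y ^ 2) ^ m)) := by
      rw [intervalIntegral.integral_of_le (by norm_num), intervalIntegral.integral_of_le (by norm_num),
        integral_Ioc_eq_integral_Ioo, integral_Ioc_eq_integral_Ioo]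
      refine setIntegral_congr_fun measurableSet_Ioo fun y hy => ?_
      simp only [hk y hy, mul_pow]
      push_cast
      ring
    have i1 : Continuous (fun y : ℝ => Real.sqrt (1 - y ^ 2) ^ m) := by fun_prop
    have i2 : Continuous (fun y : ℝ => y ^ 2 * Real.sqrt (1 - y ^ 2) ^ m) := by fun_prop
    rw [e2, intervalIntegral.integral_const_mul,
      intervalIntegral.integral_sub ((i1.const_mul _).intervalIntegrable _ _)
      ((i2.const_mul _).intervalIntegrable _ _), intervalIntegral.integral_const_mul,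
      intervalIntegral.integral_const_mul, aInt_moment]
    have : ∫ y in (-1 : ℝ)..1, Real.sqrt (1 - y ^ 2) ^ m = aInt m := rfl
    rw [this]
    ring
  rw [e1] at h1
  have h2 : 0 < k ^ m * aInt m := mul_pos (pow_pos hk0 m) (aInt_pos m)
  nlinarith

theorem integral_ball_JF {m : ℕ} {r : ℝ → ℝ} {k : ℝ}
    (hk : ∀ y ∈ Ioo (-1 : ℝ) 1, r y = k * Real.sqrt (1 - y ^ 2)) (F : ℝ → ℝ) :
    ∫ y in (-1 : ℝ)..1, F y * r y ^ m =
      k ^ m * ∫ y in (-1 : ℝ)..1, F y * Real.sqrt (1 - y ^ 2) ^ m := by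
  rw [← intervalIntegral.integral_const_mul, intervalIntegral.integral_of_le (by norm_num),
    intervalIntegral.integral_of_le (by norm_num), integral_Ioc_eq_integral_Ioo,
    integral_Ioc_eq_integral_Ioo]
  refine setIntegral_congr_fun measurableSet_Ioo fun y hy => ?_
  simp only [hk y hy, mul_pow]
  ring

/-- common part: the almost everywhere statement under the one-dimensional hypothesis -/
theorem oneDF_ae {m : ℕ} (hm : 2 ≤ m) {θ : ℝ} (h1 : OneDF m θ) (hP : PettyIneq m)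
    (hd : finrank ℝ V = m + 1) {K : Set V} [hK : Fact (IsSymBody K)] [Nontrivial V] {r : ℝ}
    (hF : Fixed K r) (h : ratio K ≤ RC (m + 1)) :
    ∀ᵐ x : sphere (0 : GS K) 1 ∂(gm K).toSphere,
      DifferentiableAt ℝ (fun y : GS K => ‖y‖) (x : GS K) ∧
      ∃ k : ℝ, ∀ y ∈ Ioo (-1 : ℝ) 1, rprof K (du K x) m y = k * Real.sqrt (1 - y ^ 2) := by
  obtain ⟨hθ, A, hA, hball, h1d⟩ := h1
  obtain ⟨C, hC⟩ := hA.bdd
  have hI0 : ∀ u : V, ‖u‖ = 1 → 0 < ∫ y in (-1 : ℝ)..1, rprof K u m y ^ m := by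
    intro u hu
    have hv := vol_eq_rprof (m := m) (by omega) hK.out hu
    have p1 := Main.vol_pos hK.out.toIsBody
    rw [hv] at p1
    exact (mul_pos_iff_of_pos_left (supp_pos hK.out hu)).1 p1
  have hae := exchF_body_ae K (by omega) hA.meas hC hA.anti θ (by
    intro u hu Q hQ0 hQ ε hε
    rw [slf_eq (m := m) (by omega), hd] at hQ
    rw [slf_eq (m := m) (by omega)]
    rcases h1d _ (rprof_isProf (by omega) hd hK.out hu) (oned_hyp hm hd hP hK.out hF h hu) with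
      ⟨k, hk⟩ | h2
    · have hk0 : 0 < k := by
        have h3 := (rprof_isProf (m := m) (by omega) hd hK.out hu).pos 0 (by norm_num)
        rw [hk 0 (by norm_num)] at h3
        simpa using h3
      obtain ⟨c, c', p, p', hadm, hb⟩ := hball (ε / k ^ m) (by positivity)
      refine ⟨c, c', p, p', hadm, ?_⟩
      have hQ1 := FishP.le_one hk0 hk hQ
      rw [JF_eq (by omega) hd, integral_ball_JF hk]
      have h4 := mul_le_mul_of_nonneg_left hb (by positivity : 0 ≤ k ^ m)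
      have h5 : k ^ m * -(ε / k ^ m) = -ε := by field_simp
      have h6 : θ * (Q - 1) * ∫ t in (-1 : ℝ)..1, rprof K u m t ^ m ≤ 0 :=
        mul_nonpos_of_nonpos_of_nonneg (mul_nonpos_of_nonneg_of_nonpos hθ (by linarith))
          (hI0 u hu).le
      linarith
    · obtain ⟨c, c', p, p', hadm, hpos⟩ := h2 Q hQ0 hQ
      refine ⟨c, c', p, p', hadm, ?_⟩
      rw [JF_eq (by omega) hd]
      linarith)
  filter_upwards [hae] with x hx
  refine ⟨hx.1, ?_⟩
  have hu := norm_du K hx.1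
  obtain ⟨Q, hQ0, hQ, hall⟩ := hx.2
  rw [slf_eq (m := m) (by omega), hd] at hQ
  rw [slf_eq (m := m) (by omega)] at hall
  rcases h1d _ (rprof_isProf (by omega) hd hK.out hu) (oned_hyp hm hd hP hK.out hF h hu) with
    h2 | h2
  · exact h2
  · obtain ⟨c, c', p, p', hadm, hpos⟩ := h2 Q hQ0 hQ
    have h3 := hall c c' p p' hadm
    rw [JF_eq (by omega) hd] at h3
    exact absurd h3 (not_le.2 hpos)

theorem ratio_ge_of_fixed_F {m : ℕ} (hm : 2 ≤ m) {θ : ℝ} (h1 : OneDF m θ) (hP : PettyIneq m)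
    (hd : finrank ℝ V = m + 1) {K : Set V} (hK : IsSymBody K) {r : ℝ} (hF : Fixed K r) :
    RC (m + 1) ≤ ratio K := by
  by_contra hcon
  push Not at hcon
  have : Nontrivial V := Module.nontrivial_of_finrank_pos (R := ℝ) (by omega)
  have : Fact (IsSymBody K) := ⟨hK⟩
  have hae := oneDF_ae hm h1 hP hd hF hcon.le
  have h3 : ∀ᵐ _ : sphere (0 : GS K) 1 ∂(gm K).toSphere, False := by
    filter_upwards [hae] with x hx
    obtain ⟨k, hk⟩ := hx.2
    exact absurd (ratio_ge_of_ball_dir hm hd hP hK hF (norm_du K hx.1) hk) (not_le.2 hcon)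
  have h4 : (gm K).toSphere = 0 := by
    rw [Filter.eventually_false_iff_eq_bot, ae_eq_bot] at h3
    exact h3
  exact Measure.toSphere_ne_zero (gm K) h4

/-- Petty's inequality, ratio form. -/
theorem petty_ratio_F {m : ℕ} (hm : 2 ≤ m) {θ : ℝ} (h1 : OneDF m θ) (hP : PettyIneq m)
    (hd : finrank ℝ V = m + 1) {K : Set V} (hK : IsBody K) : RC (m + 1) ≤ ratio K := by
  have hd0 : 0 < finrank ℝ V := by omega
  obtain ⟨K₀, hK₀, hmin⟩ := exists_global_min (V := V) hd0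
  obtain ⟨r, hr, hM, hv⟩ := Main.fixed_of_ratio_le hK₀ hd0
    (hmin _ (projBody_isSymBody hK₀.toIsBody))
  calc RC (m + 1) ≤ ratio K₀ := ratio_ge_of_fixed_F hm h1 hP hd hK₀ ⟨hr, hM, hv⟩
    _ ≤ ratio (projBody K) := hmin _ (projBody_isSymBody hK)
    _ ≤ ratio K := Main.ratio_projBody_le hK hd0

theorem petty_ineq_F {m : ℕ} (hm : 2 ≤ m) {θ : ℝ} (h1 : OneDF m θ) (hP : PettyIneq m)
    (hd : finrank ℝ V = m + 1) {K : Set V} (hK : IsBody K) :
    RC (m + 1) * vol K ^ m ≤ vol (projBody K) := by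
  have h := petty_ratio_F hm h1 hP hd hK
  have p1 := Main.vol_pos hK
  unfold ratio at h
  rw [hd, le_div_iff₀ (by positivity)] at h
  simpa using h

theorem pettyIneq_succ_F {m : ℕ} (hm : 2 ≤ m) {θ : ℝ} (h1 : OneDF m θ) (hP : PettyIneq m) :
    PettyIneq (m + 1) := by
  intro W _ _ _ _ _ hd S hS
  exact petty_ineq_F hm h1 hP hd hS

/-- An extremal symmetric body is an ellipsoid. -/
theorem sym_eq_F {m : ℕ} (hm : 2 ≤ m) {θ : ℝ} (h1 : OneDF m θ) (hP : PettyIneq m)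
    (hd : finrank ℝ V = m + 1) {K : Set V} (hK : IsSymBody K)
    (h : ratio K ≤ RC (m + 1)) :
    ∃ T : V ≃ₗ[ℝ] V, K = T '' closedBall (0 : V) 1 := by
  have hd0 : 0 < finrank ℝ V := by omega
  obtain ⟨r, hr, hM, hv⟩ := Main.fixed_of_ratio_le hK hd0
    (h.trans (petty_ratio_F hm h1 hP hd (projBody_isSymBody hK.toIsBody).toIsBody))
  have hF : Fixed K r := ⟨hr, hM, hv⟩
  have : Nontrivial V := Module.nontrivial_of_finrank_pos (R := ℝ) (by omega)
  have : Fact (IsSymBody K) := ⟨hK⟩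
  have hae := oneDF_ae hm h1 hP hd hF h
  have hae2 : ∀ᵐ x : sphere (0 : GS K) 1 ∂(gm K).toSphere, BallProf K (du K x) m := by
    filter_upwards [hae] with x hx
    obtain ⟨k, hk⟩ := hx.2
    refine ⟨k ^ m, fun t ht => ?_⟩
    rw [← prof_pow (by omega : 1 ≤ m), ← mul_pow, ← hk t ht]
    rfl
  refine ellipsoid_of_moments (n := m + 1) (by omega) hd hK fun y hy => ?_
  obtain ⟨x, hxd, hxP, hxy⟩ := good_dense K hae2 hy
  refine ⟨dv K x, ?_, ?_⟩
  · rw [supp_dv K hxd]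
    exact hxy
  · have hmom := ballProf_moment hd hK (norm_du K hxd) hxP
    have hn : ‖dv K x‖ ≠ 0 := norm_ne_zero_iff.2 (dv_ne_zero K hxd)
    have e1 : ∫ z in K, inner ℝ z (dv K x) ^ 2 = ‖dv K x‖ ^ 2 * ∫ z in K, inner ℝ z (du K x) ^ 2 := by
      rw [← integral_const_mul]
      refine integral_congr_ae (Filter.Eventually.of_forall fun z => ?_)
      simp only [du, inner_smul_right]
      field_simp
    rw [e1, supp_dv K hxd, one_pow, one_mul]
    rw [supp_du K hxd] at hmom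
    have e2 : (((m + 1 : ℕ) : ℝ) + 2) = (m : ℝ) + 3 := by push_cast; ring
    rw [e2]
    calc ((m : ℝ) + 3) * (‖dv K x‖ ^ 2 * ∫ z in K, inner ℝ z (du K x) ^ 2) =
        ‖dv K x‖ ^ 2 * (((m : ℝ) + 3) * ∫ z in K, inner ℝ z (du K x) ^ 2) := by ring
      _ = ‖dv K x‖ ^ 2 * (‖dv K x‖⁻¹ ^ 2 * vol K) := by rw [hmom]
      _ = vol K := by field_simp

/-- Symmetric rigidity implies rigidity. -/
theorem petty_eq_of_sym {m : ℕ} (hm : 2 ≤ m) (hrat : ∀ K : Set V, IsBody K → RC (m + 1) ≤ ratio K)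
    (hsy : ∀ K : Set V, IsSymBody K → ratio K ≤ RC (m + 1) →
      ∃ T : V ≃ₗ[ℝ] V, K = T '' closedBall (0 : V) 1)
    (hd : finrank ℝ V = m + 1) {K : Set V} (hK : IsBody K)
    (h : vol (projBody K) = RC (m + 1) * vol K ^ m) :
    ∃ (a : V) (T : V ≃ₗ[ℝ] V), K = (fun x => a + T x) '' closedBall (0 : V) 1 := by
  have hd0 : 0 < finrank ℝ V := by omega
  have p1 := Main.vol_pos hK
  have hR : ratio K = RC (m + 1) := by
    unfold ratio
    rw [hd, h, div_eq_iff (by positivity), Nat.add_sub_cancel]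
  obtain ⟨c, r, hr, hcr⟩ := Main.petty_contract_eq_of_ratio hK hd0
    (by rw [hR]; exact hrat _ (Main.projBody_isBody hK))
  have hM : IsSymBody (projBody (projBody K)) := projBody_isSymBody (Main.projBody_isBody hK)
  have hK' : (fun x => (r⁻¹ • c) + x) '' K = r⁻¹ • projBody (projBody K) := by
    rw [hcr]
    ext y
    simp only [mem_image, mem_smul_set]
    constructor
    · rintro ⟨x, hx, rfl⟩
      exact ⟨c + r • x, ⟨r • x, ⟨x, hx, rfl⟩, rfl⟩, by
        rw [smul_add, smul_smul, inv_mul_cancel₀ hr.ne', one_smul]⟩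
    · rintro ⟨z, ⟨w, ⟨x, hx, rfl⟩, rfl⟩, rfl⟩
      exact ⟨x, hx, by rw [smul_add, smul_smul, inv_mul_cancel₀ hr.ne', one_smul]⟩
  have hsym : IsSymBody ((fun x => (r⁻¹ • c) + x) '' K) := by
    have hb : IsBody ((fun x => (r⁻¹ • c) + x) '' K) := IsBody.translate hK _
    refine ⟨hb, ?_⟩
    intro x hx
    rw [hK'] at hx ⊢
    obtain ⟨z, hz, rfl⟩ := hx
    exact ⟨-z, hM.symm z hz, by simp⟩
  obtain ⟨T, hT⟩ := hsy _ hsym (by rw [ratio_translate, hR])
  refine ⟨-(r⁻¹ • c), T, ?_⟩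
  have h2 : (fun x => -(r⁻¹ • c) + x) '' ((fun x => (r⁻¹ • c) + x) '' K) = K := by
    rw [← image_comp]
    simp
  rw [← h2, hT, ← image_comp]
  rfl

open Statement in
/-- The induction step. -/
theorem pettyIn_succ_F {m : ℕ} (hm : 2 ≤ m) {θ : ℝ} (h1 : OneDF m θ) (hP : PettyIneq m)
    (hd : finrank ℝ V = m + 1) : PettyIn V (m + 1) := by
  intro K L hK hL
  have hK' : IsBody K := ⟨hK.1, hK.2.1, hK.2.2⟩
  obtain rfl := (isProjectionBody_iff hK).1 hL
  have hc : kappa (m + 1 - 1) ^ (m + 1) * kappa (m + 1) ^ (2 - ((m + 1 : ℕ) : ℤ)) *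
      Statement.vol K ^ (m + 1 - 1) = RC (m + 1) * P237.vol K ^ m := rfl
  rw [hc, isEllipsoid_iff]
  refine ⟨petty_ineq_F hm h1 hP hd hK', ?_, ?_⟩
  · intro h
    exact petty_eq_of_sym hm (fun K hK => petty_ratio_F hm h1 hP hd hK)
      (fun K hK h => sym_eq_F hm h1 hP hd hK h) hd hK' h
  · rintro ⟨a, T, rfl⟩
    exact petty_ellipsoid_N hm hd a T

/-- The inequality in all dimensions from the one-dimensional statements. -/
theorem pettyIneq_of_oneDF {N : ℕ} (h : ∀ m : ℕ, 3 ≤ m → m < N → ∃ θ : ℝ, OneDF m θ) :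
    ∀ n : ℕ, 3 ≤ n → n ≤ N → PettyIneq n := by
  intro n hn
  induction n, hn using Nat.le_induction with
  | base => exact fun _ => pettyIneq_three
  | succ m hm ih =>
    intro hN
    obtain ⟨θ, hθ⟩ := h m hm (by omega)
    exact pettyIneq_succ_F (by omega) hθ (ih (by omega))

/-- Petty's conjecture in dimensions `3 ≤ n ≤ N` from the one-dimensional statements. -/
theorem petty_of_oneDF {N : ℕ} (h : ∀ m : ℕ, 3 ≤ m → m < N → ∃ θ : ℝ, OneDF m θ) {n : ℕ}
    (hn : 3 ≤ n) (hN : n ≤ N) (hd : finrank ℝ V = n) : Statement.PettyIn V n := by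
  rcases hn.eq_or_lt with h3 | h3
  · subst h3
    exact Statement.petty_dim_three hd
  · obtain ⟨m, rfl⟩ : ∃ m, n = m + 1 := ⟨n - 1, by omega⟩
    obtain ⟨θ, hθ⟩ := h m (by omega) (by omega)
    exact pettyIn_succ_F (by omega) hθ (pettyIneq_of_oneDF h m (by omega) (by omega)) hd

end Vale.Agent.P237.AllN
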