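import Mathlib

/-!
# P237, block D, region `l ≤ 0`, part 1: one-variable lemmas, lower bound of `T`
-/

set_option linter.all false

namespace Vale.Agent.P237.AllN
namespace FNeg


theorem sC0 {σ : ℝ} (h : 1 ≤ σ) :
    1.5 * (2 * (σ - 1) + 2 * (1 - 1 / σ ^ 2)) ≤ 4 * σ - 4 / (1 + σ) - 2 / σ ^ 2 := by
  obtain ⟨t, ht, rfl⟩ : ∃ t : ℝ, 0 ≤ t ∧ σ = 1 + t := ⟨σ - 1, by linarith, by ring⟩
  have e : 4 * (1 + t) - 4 / (1 + (1 + t)) - 2 / (1 + t) ^ 2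
      - 1.5 * (2 * ((1 + t) - 1) + 2 * (1 - 1 / (1 + t) ^ 2))
      = (5 * t ^ 2 + 5 * t ^ 3 + t ^ 4) / ((1 + (1 + t)) * (1 + t) ^ 2) := by
    field_simp; ring
  have h2 : 0 ≤ (5 * t ^ 2 + 5 * t ^ 3 + t ^ 4) / ((1 + (1 + t)) * (1 + t) ^ 2) := by (clear * - ht; positivity)
  linarith

theorem sb {σ : ℝ} (h : 1 ≤ σ) :
    1.05 + 8 / 7 * σ ≤ (4 * σ - 4 / (1 + σ) - 2 / σ ^ 2) + 4 / σ ^ 2 - 1.8 := by
  obtain ⟨t, ht, rfl⟩ : ∃ t : ℝ, 0 ≤ t ∧ σ = 1 + t := ⟨σ - 1, by linarith, by ring⟩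
  have e : (4 * (1 + t) - 4 / (1 + (1 + t)) - 2 / (1 + t) ^ 2) + 4 / (1 + t) ^ 2 - 1.8
      - (1.05 + 8 / 7 * (1 + t))
      = (1 / 70 - 1 / 4 * t + 361 / 35 * t ^ 2 + 1601 / 140 * t ^ 3 + 20 / 7 * t ^ 4)
        / ((1 + (1 + t)) * (1 + t) ^ 2) := by
    field_simp; ring
  have h1 : 0 ≤ 1 / 70 - 1 / 4 * t + 361 / 35 * t ^ 2 + 1601 / 140 * t ^ 3 + 20 / 7 * t ^ 4 := by
    have : 0 ≤ t ^ 3 := by positivity
    have : 0 ≤ t ^ 4 := by positivity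
    (clear h e; nlinarith [sq_nonneg (t - 0.0125)])
  have h2 : 0 ≤ (1 / 70 - 1 / 4 * t + 361 / 35 * t ^ 2 + 1601 / 140 * t ^ 3 + 20 / 7 * t ^ 4)
        / ((1 + (1 + t)) * (1 + t) ^ 2) := by (clear * - h1 ht; positivity)
  linarith only [e, h2]

theorem sf {σ : ℝ} (h : 1 ≤ σ) :
    0 ≤ (4 * σ - 4 / (1 + σ) - 2 / σ ^ 2) + 4 / σ ^ 2 - 1.8 - 16 / 7 * σ + 8 / 7 * σ / (2 + σ) := by
  obtain ⟨t, ht, rfl⟩ : ∃ t : ℝ, 0 ≤ t ∧ σ = 1 + t := ⟨σ - 1, by linarith, by ring⟩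
  have e : (4 * (1 + t) - 4 / (1 + (1 + t)) - 2 / (1 + t) ^ 2) + 4 / (1 + t) ^ 2 - 1.8
      - 16 / 7 * (1 + t) + 8 / 7 * (1 + t) / (2 + (1 + t))
      = (62 / 35 - 41 / 35 * t + 699 / 35 * t ^ 2 + 1059 / 35 * t ^ 3 + 457 / 35 * t ^ 4
          + 12 / 7 * t ^ 5) / ((1 + (1 + t)) * (1 + t) ^ 2 * (2 + (1 + t))) := by
    field_simp; ring
  rw [e]
  have h1 : 0 ≤ 62 / 35 - 41 / 35 * t + 699 / 35 * t ^ 2 + 1059 / 35 * t ^ 3 + 457 / 35 * t ^ 4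
          + 12 / 7 * t ^ 5 := by
    have : 0 ≤ t ^ 3 := by positivity
    have : 0 ≤ t ^ 4 := by positivity
    have : 0 ≤ t ^ 5 := by positivity
    (clear h e; nlinarith [sq_nonneg (t - 0.03)])
  positivity

theorem sqb3 {σ : ℝ} (h : 1 ≤ σ) :
    2 * (σ - 1) + 2 * (1 - 1 / σ ^ 2) ≤ 3 * (σ ^ 2 - 1) := by
  obtain ⟨t, ht, rfl⟩ : ∃ t : ℝ, 0 ≤ t ∧ σ = 1 + t := ⟨σ - 1, by linarith, by ring⟩
  have e : 3 * ((1 + t) ^ 2 - 1) - (2 * ((1 + t) - 1) + 2 * (1 - 1 / (1 + t) ^ 2))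
      = (9 * t ^ 2 + 10 * t ^ 3 + 3 * t ^ 4) / (1 + t) ^ 2 := by
    field_simp; ring
  have h2 : 0 ≤ (9 * t ^ 2 + 10 * t ^ 3 + 3 * t ^ 4) / (1 + t) ^ 2 := by (clear * - ht; positivity)
  linarith

theorem sqb {σ y : ℝ} (h : 1 ≤ σ) (hy : σ ^ 2 = 1 + y) :
    2 * (σ - 1) + 2 * (1 - 1 / σ ^ 2) ≤ y + 2 * y / (1 + y) := by
  have h1 : 1 - 1 / σ ^ 2 = y / (1 + y) := by
    rw [hy]; have : (1 + y) ≠ 0 := by rw [← hy]; positivity
    field_simp; ring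
  have h2 : 2 * (σ - 1) ≤ y := by nlinarith only [hy, sq_nonneg (σ - 1)]
  have h3 : 2 * (y / (1 + y)) = 2 * y / (1 + y) := by ring
  rw [h1]; linarith

theorem sco {σ y : ℝ} (h : 1 ≤ σ) (hy : σ ^ 2 = 1 + y) :
    y * σ * (1 - 2 / (σ + 1) ^ 2) ≤ y * (1 + y) / 2 := by
  have hy0 : 0 ≤ y := by nlinarith only [h, hy]
  have e : σ ^ 2 / 2 - σ * (1 - 2 / (σ + 1) ^ 2) = σ * ((σ - 1) ^ 2 * (σ + 2)) / (2 * (σ + 1) ^ 2) := by
    have : (σ + 1) ≠ 0 := by linarith only [h]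
    field_simp; ring
  have h2 : 0 ≤ σ * ((σ - 1) ^ 2 * (σ + 2)) / (2 * (σ + 1) ^ 2) := by positivity
  have h3 : σ * (1 - 2 / (σ + 1) ^ 2) ≤ (1 + y) / 2 := by rw [← hy]; linarith only [e, h2]
  nlinarith only [h3, hy0]

theorem sco0 {σ y : ℝ} (h : 1 ≤ σ) (hy : σ ^ 2 = 1 + y) :
    0 ≤ y * σ * (1 - 2 / (σ + 1) ^ 2) := by
  have hy0 : 0 ≤ y := by nlinarith
  have : 2 / (σ + 1) ^ 2 ≤ 1 := by
    rw [div_le_one (by positivity)]; linarith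
  have : 0 ≤ 1 - 2 / (σ + 1) ^ 2 := by linarith
  positivity

/-- `1/σ^3` bounds -/
theorem s3le {σ y : ℝ} (h : 1 ≤ σ) (hy : σ ^ 2 = 1 + y) : 1 + y ≤ σ ^ 3 := by
  rw [← hy]; nlinarith [sq_nonneg σ]
theorem s3ge {σ y : ℝ} (h : 1 ≤ σ) (hy : σ ^ 2 = 1 + y) : σ ^ 3 ≤ (1 + y) ^ 2 := by
  rw [← hy]; have : σ ^ 3 ≤ σ ^ 4 := pow_le_pow_right₀ h (by norm_num)
  calc σ ^ 3 ≤ σ ^ 4 := this
    _ = (σ ^ 2) ^ 2 := by ring

theorem sA1 {σ y : ℝ} (h : 1 ≤ σ) (hy : σ ^ 2 = 1 + y) :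
    6 * y * (1 + 2 * y) / σ ^ 3 ≤ 6.54 * y := by
  have hy0 : 0 ≤ y := by nlinarith only [h, hy]
  have hσ : 0 < σ := by linarith
  rw [div_le_iff₀ (by positivity)]
  have h1 : (1 + 2 * y) ^ 2 ≤ (1.09 * σ ^ 3) ^ 2 := by
    have e : (1.09 * σ ^ 3) ^ 2 = 1.1881 * (1 + y) ^ 3 := by rw [← hy]; ring
    rw [e]
    nlinarith only [hy0, sq_nonneg (y - 0.5)]
  have h2 : 1 + 2 * y ≤ 1.09 * σ ^ 3 := by
    exact (pow_le_pow_iff_left₀ (by positivity) (by positivity) two_ne_zero).1 h1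
  nlinarith only [h2, hy0]

theorem sA1w {σ y u : ℝ} (h : 1 ≤ σ) (hy : σ ^ 2 = 1 + y) (hu : 0 ≤ u) (hu1 : u ≤ σ) :
    6 * y * (1 + 2 * y) / σ ^ 3 * (u / (1 + u)) ≤ 3.74 * y := by
  have hy0 : 0 ≤ y := by nlinarith only [h, hy]
  have hσ : 0 < σ := by linarith
  have h1 : u / (1 + u) ≤ σ / (1 + σ) := by
    rw [div_le_div_iff₀ (by linarith) (by linarith only [h])]; linarith
  have h2 : 6 * (1 + 2 * y) / σ ^ 3 * (σ / (1 + σ)) ≤ 3.74 := by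
    have e : 6 * (1 + 2 * y) / σ ^ 3 * (σ / (1 + σ)) = 6 * (1 + 2 * y) / (σ ^ 2 * (1 + σ)) := by
      (clear * - h hy0; field_simp)
    rw [e, div_le_iff₀ (by positivity)]
    have hy' : y = σ ^ 2 - 1 := by linarith only [hy]
    rw [hy']
    nlinarith only [hσ, sq_nonneg (σ - 1.4724)]
  have h3 : 0 ≤ 6 * y * (1 + 2 * y) / σ ^ 3 := by (clear * - hy0 h; positivity)
  calc 6 * y * (1 + 2 * y) / σ ^ 3 * (u / (1 + u)) ≤ 6 * y * (1 + 2 * y) / σ ^ 3 * (σ / (1 + σ)) :=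
        mul_le_mul_of_nonneg_left h1 h3
    _ = y * (6 * (1 + 2 * y) / σ ^ 3 * (σ / (1 + σ))) := by ring
    _ ≤ y * 3.74 := mul_le_mul_of_nonneg_left h2 hy0
    _ = 3.74 * y := by ring

theorem k2a {y : ℝ} (hy : 0 ≤ y) : (1 + y) ^ 2 / 2 + 3 * y ^ 2 * (7 - 12 * y) ≤ 1.47 * (1 + y) := by
  nlinarith [mul_nonneg hy (sq_nonneg (y - 0.39)), sq_nonneg (y-0.39)]

theorem k2b {y : ℝ} (hy : 1 ≤ y) : (1 + y) ^ 3 ≤ 6 * y ^ 2 * (12 * y - 7) := by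
  nlinarith only [hy]

theorem ca_big {y : ℝ} (hy : 7/12 ≤ y) :
    36 * y * (1 + 2 * y) ^ 2 ≤ 4.2 * (18 * (1 + y) ^ 2 - (1 + y) ^ 4 / 2 + 3 * y ^ 2 * (12 * y - 7) * (1 + y)) := by
  nlinarith only [mul_nonneg (sub_nonneg.2 hy) (sq_nonneg (y-0.85))]

/-- `k2 ≤ 1.47 y` and `≤ 0` for `y ≥ 1`; here `cc` stands for the corr coefficient -/
theorem sA2 {σ y cc : ℝ} (h : 1 ≤ σ) (hy : σ ^ 2 = 1 + y) (hc : cc ≤ y * (1 + y) / 2) :
    cc + 3 * (y / σ) ^ 3 * (7 - 12 * y) ≤ 1.47 * y := by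
  have hy0 : 0 ≤ y := by nlinarith only [h, hy]
  have hσ : 0 < σ := by linarith only [h]
  have e : (y / σ) ^ 3 = y ^ 3 / σ ^ 3 := by rw [div_pow]
  rw [e]
  have h3 := s3le h hy
  rcases le_total (12 * y) 7 with h7 | h7
  · have h4 : y ^ 3 / σ ^ 3 ≤ y ^ 3 / (1 + y) := by gcongr
    have h5 : cc + 3 * (y ^ 3 / σ ^ 3) * (7 - 12 * y) ≤ y * (1 + y) / 2 + 3 * (y ^ 3 / (1 + y)) * (7 - 12 * y) := by
      have := mul_le_mul_of_nonneg_right h4 (by linarith only [h7] : 0 ≤ 7 - 12 * y)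
      linarith
    have h6 : y * (1 + y) / 2 + 3 * (y ^ 3 / (1 + y)) * (7 - 12 * y)
       = y * (((1 + y) ^ 2 / 2 + 3 * y ^ 2 * (7 - 12 * y)) / (1 + y)) := by field_simp
    have h8 : ((1 + y) ^ 2 / 2 + 3 * y ^ 2 * (7 - 12 * y)) / (1 + y) ≤ 1.47 := by
      rw [div_le_iff₀ (by linarith only [hy0])]; exact k2a hy0
    have := mul_le_mul_of_nonneg_left h8 hy0
    linarith
  · rcases le_total y 1 with h8 | h8
    · have : 3 * (y ^ 3 / σ ^ 3) * (7 - 12 * y) ≤ 0 :=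
        mul_nonpos_of_nonneg_of_nonpos (by (clear * - hy0 h; positivity)) (by linarith only [h7])
      nlinarith only [hc, h7, this, h8]
    · have h4 : y ^ 3 / (1 + y) ^ 2 ≤ y ^ 3 / σ ^ 3 := by
        apply div_le_div_of_nonneg_left (by (clear * - h8; positivity)) (by positivity) (s3ge h hy)
      have h5 := mul_le_mul_of_nonneg_right h4 (by linarith only [h8] : 0 ≤ 12 * y - 7)
      have h6 : y * (1 + y) / 2 ≤ 3 * (y ^ 3 / (1 + y) ^ 2) * (12 * y - 7) := by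
        have : 3 * (y ^ 3 / (1 + y) ^ 2) * (12 * y - 7) = y * (3 * y ^ 2 * (12 * y - 7) / (1 + y) ^ 2) := by
          (clear * - h8; field_simp)
        rw [this]
        have : (1 + y) / 2 ≤ 3 * y ^ 2 * (12 * y - 7) / (1 + y) ^ 2 := by
          rw [le_div_iff₀ (by positivity)]; nlinarith only [h8]
        nlinarith only [this, hy0]
      linarith

theorem sA2' {σ y cc : ℝ} (h : 1 ≤ σ) (hy : σ ^ 2 = 1 + y) (hc : cc ≤ y * (1 + y) / 2) (h8 : 1 ≤ y) :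
    cc + 3 * (y / σ) ^ 3 * (7 - 12 * y) ≤ 0 := by
  have hy0 : 0 ≤ y := by nlinarith only [h8]
  have hσ : 0 < σ := by linarith only [h]
  have e : (y / σ) ^ 3 = y ^ 3 / σ ^ 3 := by rw [div_pow]
  rw [e]
  have h4 : y ^ 3 / (1 + y) ^ 2 ≤ y ^ 3 / σ ^ 3 := by
    apply div_le_div_of_nonneg_left (by positivity) (by positivity) (s3ge h hy)
  have h5 := mul_le_mul_of_nonneg_right h4 (by linarith only [h8] : 0 ≤ 12 * y - 7)
  have h6 : y * (1 + y) / 2 ≤ 3 * (y ^ 3 / (1 + y) ^ 2) * (12 * y - 7) := by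
    have : 3 * (y ^ 3 / (1 + y) ^ 2) * (12 * y - 7) = y * (3 * y ^ 2 * (12 * y - 7) / (1 + y) ^ 2) := by
      (clear * - h8; field_simp)
    rw [this]
    have : (1 + y) / 2 ≤ 3 * y ^ 2 * (12 * y - 7) / (1 + y) ^ 2 := by
      rw [le_div_iff₀ (by positivity)]; nlinarith only [h8]
    nlinarith only [this, hy0]
  linarith

theorem sca {σ y cc : ℝ} (h : 1 ≤ σ) (hy : σ ^ 2 = 1 + y) (hc : cc ≤ y * (1 + y) / 2) :
    (6 * y * (1 + 2 * y) / σ ^ 3) ^ 2 ≤ 4.2 * (18 * (y / σ ^ 2) - cc + 3 * (y / σ) ^ 3 * (12 * y - 7)) := by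
  have hy0 : 0 ≤ y := by nlinarith only [h, hy]
  have hσ : 0 < σ := by linarith only [h]
  have e : (y / σ) ^ 3 = y ^ 3 / σ ^ 3 := by rw [div_pow]
  have h3 := s3le h hy
  have e2 : (6 * y * (1 + 2 * y) / σ ^ 3) ^ 2 = 36 * y ^ 2 * (1 + 2 * y) ^ 2 / (1 + y) ^ 3 := by
    rw [div_pow, ← hy]; ring
  rw [e, e2, hy]
  have hy1 : 0 < 1 + y := by linarith only [hy0]
  rcases le_total (12 * y) 7 with h7 | h7
  · have h4 : y ^ 3 / σ ^ 3 ≤ y ^ 3 / (1 + y) := by gcongr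
    have h5 := mul_le_mul_of_nonneg_right h4 (by linarith only [h7] : 0 ≤ 7 - 12 * y)
    have h6 : 36 * y ^ 2 * (1 + 2 * y) ^ 2 / (1 + y) ^ 3 ≤ 4.2 * (18 * (y / (1 + y)) - y * (1 + y) / 2 + 3 * (y ^ 3 / (1 + y)) * (12 * y - 7)) := by
      have e3 : 4.2 * (18 * (y / (1 + y)) - y * (1 + y) / 2 + 3 * (y ^ 3 / (1 + y)) * (12 * y - 7))
         = (4.2 * y * (18 * (1 + y) ^ 2 - (1 + y) ^ 4 / 2 + 3 * y ^ 2 * (12 * y - 7) * (1 + y) ^ 2)) / (1 + y) ^ 3 := by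
        (clear * - hy0; field_simp)
      rw [e3]
      apply div_le_div_of_nonneg_right _ (by positivity)
      have : 36 * y * (1 + 2 * y) ^ 2 ≤ 4.2 * (18 * (1 + y) ^ 2 - (1 + y) ^ 4 / 2 + 3 * y ^ 2 * (12 * y - 7) * (1 + y) ^ 2) := by
        have hy7 : 0 ≤ 7 - 12 * y := by linarith only [h7]
        have := pow_nonneg hy0 3
        have := pow_nonneg hy0 4
        (clear cc hc hσ e h3 e2 hy1 h4 h5 e3; nlinarith [mul_nonneg hy0 hy7, mul_nonneg (mul_nonneg hy0 hy0) hy7, mul_nonneg (mul_nonneg (mul_nonneg hy0 hy0) hy0) hy7, mul_nonneg (mul_nonneg (mul_nonneg (mul_nonneg hy0 hy0) hy0) hy0) hy7])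
      nlinarith only [this, hy0]
    linarith
  · have h4 : y ^ 3 / (1 + y) ^ 2 ≤ y ^ 3 / σ ^ 3 := by
      apply div_le_div_of_nonneg_left (by (clear * - hy0; positivity)) (by positivity) (s3ge h hy)
    have h5 := mul_le_mul_of_nonneg_right h4 (by linarith only [h7] : 0 ≤ 12 * y - 7)
    have h6 : 36 * y ^ 2 * (1 + 2 * y) ^ 2 / (1 + y) ^ 3 ≤ 4.2 * (18 * (y / (1 + y)) - y * (1 + y) / 2 + 3 * (y ^ 3 / (1 + y) ^ 2) * (12 * y - 7)) := by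
      have e3 : 4.2 * (18 * (y / (1 + y)) - y * (1 + y) / 2 + 3 * (y ^ 3 / (1 + y) ^ 2) * (12 * y - 7))
         = (4.2 * y * (18 * (1 + y) ^ 2 - (1 + y) ^ 4 / 2 + 3 * y ^ 2 * (12 * y - 7) * (1 + y))) / (1 + y) ^ 3 := by
        (clear * - hy0; field_simp)
      rw [e3]
      apply div_le_div_of_nonneg_right _ (by positivity)
      nlinarith only [mul_le_mul_of_nonneg_left (ca_big (by linarith : 7 / 12 ≤ y)) hy0]
    linarith

/-- the final logic -/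
theorem jcore {ρ A T e : ℝ} (hT0 : 0 ≤ T) (he : 0 ≤ e) (hρ : 0 < ρ)
    (hA1 : -A ≤ 0.8 * ρ) (hA2 : A < 0 → A ^ 2 + e ≤ 0.2 * ρ * T)
    (hB1 : -(T - A) ≤ 0.8 * ρ) (hB2 : T - A < 0 → (T - A) ^ 2 + e ≤ 0.2 * ρ * T)
    (he2 : e ≤ ρ * T) :
    A ^ 2 + e ≤ T * (ρ + A) := by
  rcases lt_or_ge A 0 with h | h
  · have h2 := hA2 h
    nlinarith only [h2, hA1, hT0]
  · rcases lt_or_ge (T - A) 0 with h' | h'
    · have h2 := hB2 h'
      nlinarith only [h2, hB1, hT0]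
    · nlinarith only [he2, h, h']

/-- Cauchy-Schwarz -/
theorem cs2 {w a α β p q : ℝ} (hp : 0 < p) (hq : 0 < q) :
    (w * α + a * β) ^ 2 ≤ (α ^ 2 / p + β ^ 2 / q) * (p * w ^ 2 + q * a ^ 2) := by
  have h : (α ^ 2 / p + β ^ 2 / q) * (p * w ^ 2 + q * a ^ 2) - (w * α + a * β) ^ 2
      = (α * q * a - β * p * w) ^ 2 / (p * q) := by
    field_simp; ring
  have h2 : 0 ≤ (α * q * a - β * p * w) ^ 2 / (p * q) := by (clear * - hp hq; positivity)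
  linarith

theorem wbound {u Y : ℝ} (hu : 0 ≤ u) (hY : u ^ 2 ≤ 0.16 * Y) : u / (1 + u) ≤ 0.322 + 0.031 * Y := by
  rw [div_le_iff₀ (by linarith only [hu])]
  nlinarith only [hY, hu, sq_nonneg (u - 0.8)]

theorem p1poly {η : ℝ} (hη : 0 ≤ η) : 0 ≤ 0.159 - 0.2164 * η + 8.766 * η ^ 2 - 54.81 * η ^ 3 + 93.96 * η ^ 4 := by
  nlinarith [sq_nonneg (η * (η - 0.2917)), sq_nonneg (η - 0.14), sq_nonneg (η^2 - 0.2917*η)]


theorem hW1 {u : ℝ} (hu : -1 < u) : u ^ 2 / (1 + u) = (u / (1 + u)) ^ 2 * (1 + u) := by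
  have : (1 + u) ≠ 0 := by linarith
  (clear * - this; field_simp)

theorem hW2 {u : ℝ} (hu : -1 < u) : u = u / (1 + u) + u ^ 2 / (1 + u) := by
  have : (1 + u) ≠ 0 := by linarith only [hu]
  field_simp

/-- W-part, `u ≥ 0` -/
theorem wpart {σ u : ℝ} (h : 1 ≤ σ) (hu : 0 ≤ u) (hu1 : u ≤ σ) :
    1.05 * (u / (1 + u)) ^ 2 ≤
      ((4 * σ - 4 / (1 + σ) - 2 / σ ^ 2) + 4 / σ ^ 2 - 1.8) * (u ^ 2 / (1 + u))
        - 16 / 7 * σ * (u ^ 2 / (2 + u)) := by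
  have hσ : 0 < σ := by linarith only [h]
  set c4 := (4 * σ - 4 / (1 + σ) - 2 / σ ^ 2) + 4 / σ ^ 2 - 1.8 with hc4
  have h1 := sb h
  have h2 := sf h
  rw [← hc4] at h1 h2
  have e : c4 * (u ^ 2 / (1 + u)) - 16 / 7 * σ * (u ^ 2 / (2 + u)) - 1.05 * (u / (1 + u)) ^ 2
     = (u / (1 + u)) ^ 2 * ((c4 - 8 / 7 * σ - 1.05) + u * (c4 - 16 / 7 * σ + 8 / 7 * σ / (2 + u))) := by
    have : (1 + u) ≠ 0 := by linarith only [hu]
    have : (2 + u) ≠ 0 := by linarith only [hu]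
    field_simp; ring
  have h3 : 8 / 7 * σ / (2 + σ) ≤ 8 / 7 * σ / (2 + u) := by
    apply div_le_div_of_nonneg_left (by positivity) (by linarith only [hu]) (by linarith only [hu1])
  have h4 : 0 ≤ (u / (1 + u)) ^ 2 * ((c4 - 8 / 7 * σ - 1.05) + u * (c4 - 16 / 7 * σ + 8 / 7 * σ / (2 + u))) := by
    apply mul_nonneg (sq_nonneg _)
    have : 0 ≤ c4 - 16 / 7 * σ + 8 / 7 * σ / (2 + u) := by linarith only [h2, h3]
    have := mul_nonneg hu this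
    linarith only [h1, this]
  linarith only [e, h4]

theorem Tlow_pos {m σ y a u E φ κ Cr cc N : ℝ} (hm : 15 ≤ m) (h : 1 ≤ σ) (hy : σ ^ 2 = 1 + y)
    (ha : 0 ≤ a) (hu : 0 ≤ u) (hu1 : u ≤ σ)
    (hE : 1 + 2 * a + 2 * a ^ 2 + 4 / 3 * a ^ 3 + 2 / 3 * a ^ 4 ≤ E)
    (hφ : φ ≤ u ^ 2 / (2 + u)) (hκ : 0 ≤ κ) (hκ2 : κ ≤ 16 / 7)
    (hc : cc ≤ y * (1 + y) / 2) (hCr : -(cc * a ^ 2) ≤ Cr) (hN : -φ ≤ N) :
    1.8 * (u ^ 2 / (1 + u)) + (m + 3) * (y / σ ^ 2) * (a ^ 2 * (1 + 2 / 3 * a + 1 / 3 * a ^ 2)) ≤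
    (m + 3) * (y / σ ^ 2) * (E - 1 - 2 * a)
      + (4 * σ - 4 / (1 + σ) - 2 / σ ^ 2 + 4 * E / σ ^ 2 + 6 * y * σ * a) * (u ^ 2 / (1 + u))
      - 6 * y * (1 + 2 * y) / σ ^ 3 * a * u + 3 * (y / σ) ^ 3 * ((m - 3) * y - 7) * a ^ 2 + Cr
      + κ * σ * N := by
  have hσ : 0 < σ := by linarith only [h]
  have hy0 : 0 ≤ y := by nlinarith only [h, hy]
  have hzp : 0 ≤ y / σ ^ 2 := by (clear * - hy0 h; positivity)
  have h1 : (m + 3) * (y / σ ^ 2) * (2 * (a ^ 2 * (1 + 2 / 3 * a + 1 / 3 * a ^ 2)))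
      ≤ (m + 3) * (y / σ ^ 2) * (E - 1 - 2 * a) := by
    apply mul_le_mul_of_nonneg_left _ (by positivity)
    linarith
  have h2 : 18 * (y / σ ^ 2) * a ^ 2 ≤ (m + 3) * (y / σ ^ 2) * (a ^ 2 * (1 + 2 / 3 * a + 1 / 3 * a ^ 2)) := by
    have g1 : a ^ 2 ≤ a ^ 2 * (1 + 2 / 3 * a + 1 / 3 * a ^ 2) := by
      have : 0 ≤ a ^ 2 * (2 / 3 * a + 1 / 3 * a ^ 2) := by (clear * - ha; positivity)
      nlinarith only [this]
    have g2 : 18 * (y / σ ^ 2) ≤ (m + 3) * (y / σ ^ 2) := mul_le_mul_of_nonneg_right (by linarith only [hm]) hzp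
    exact mul_le_mul g2 g1 (by (clear * -; positivity)) (by (clear * - hm hy0 h; positivity))
  have h3 := wpart h hu hu1
  have hWp : 0 ≤ u ^ 2 / (1 + u) := by (clear * - hu; positivity)
  have h4 : -(16 / 7 * σ * (u ^ 2 / (2 + u))) ≤ κ * σ * N := by
    have g0 : 0 ≤ u ^ 2 / (2 + u) := by positivity
    have g1 : -(κ * σ * (u ^ 2 / (2 + u))) ≤ κ * σ * N := by
      have := mul_le_mul_of_nonneg_left (le_trans (neg_le_neg hφ) hN) (by positivity : 0 ≤ κ * σ)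
      linarith only [this]
    have g2 : κ * σ * (u ^ 2 / (2 + u)) ≤ 16 / 7 * σ * (u ^ 2 / (2 + u)) := by
      apply mul_le_mul_of_nonneg_right _ g0
      exact mul_le_mul_of_nonneg_right hκ2 hσ.le
    linarith only [g1, g2]
  have h5 : 4 / σ ^ 2 * (u ^ 2 / (1 + u)) ≤ 4 * E / σ ^ 2 * (u ^ 2 / (1 + u)) := by
    apply mul_le_mul_of_nonneg_right _ hWp
    apply div_le_div_of_nonneg_right _ (by positivity)
    have : 0 ≤ 2 * a + 2 * a ^ 2 + 4 / 3 * a ^ 3 + 2 / 3 * a ^ 4 := by (clear * - ha; positivity)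
    linarith only [hE, this]
  -- cross term
  have h6 : -(6 * y * (1 + 2 * y) / σ ^ 3 * a * (u / (1 + u)))
      ≤ 6 * y * σ * a * (u ^ 2 / (1 + u)) - 6 * y * (1 + 2 * y) / σ ^ 3 * a * u := by
    have e : 6 * y * σ * a * (u ^ 2 / (1 + u)) - 6 * y * (1 + 2 * y) / σ ^ 3 * a * u
       = -(6 * y * (1 + 2 * y) / σ ^ 3 * a * (u / (1 + u))) + 6 * (y / σ) ^ 3 * a * (u ^ 2 / (1 + u)) := by
      have e1 : 6 * y * σ - 6 * y * (1 + 2 * y) / σ ^ 3 = 6 * (y / σ) ^ 3 := by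
        have : y = σ ^ 2 - 1 := by linarith only [hy]
        rw [this]; field_simp; ring
      have e2 : 6 * y * (1 + 2 * y) / σ ^ 3 * a * u = 6 * y * (1 + 2 * y) / σ ^ 3 * a * (u / (1 + u) + u ^ 2 / (1 + u)) := by
        rw [← hW2 (by linarith only [hu] : -1 < u)]
      rw [e2]
      linear_combination a * (u ^ 2 / (1 + u)) * e1
    rw [e]
    have : 0 ≤ 6 * (y / σ) ^ 3 * a * (u ^ 2 / (1 + u)) := by (clear * - hy0 h ha hu; positivity)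
    linarith only [this]
  have h7 : 3 * (y / σ) ^ 3 * (12 * y - 7) * a ^ 2 ≤ 3 * (y / σ) ^ 3 * ((m - 3) * y - 7) * a ^ 2 := by
    apply mul_le_mul_of_nonneg_right _ (sq_nonneg _)
    apply mul_le_mul_of_nonneg_left _ (by (clear * - hy0 h; positivity))
    nlinarith only [hm, hy0]
  -- quadratic form
  have h8 := sca h hy hc
  have h9 : 0 ≤ 1.05 * (u / (1 + u)) ^ 2 - 6 * y * (1 + 2 * y) / σ ^ 3 * a * (u / (1 + u))
      + (18 * (y / σ ^ 2) - cc + 3 * (y / σ) ^ 3 * (12 * y - 7)) * a ^ 2 := by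
    have := mul_le_mul_of_nonneg_right h8 (sq_nonneg a)
    nlinarith only [this, sq_nonneg (2.1 * (u / (1 + u)) - 6 * y * (1 + 2 * y) / σ ^ 3 * a)]
  have e5 : (4 * σ - 4 / (1 + σ) - 2 / σ ^ 2 + 4 * E / σ ^ 2 + 6 * y * σ * a) * (u ^ 2 / (1 + u))
      = (4 * σ - 4 / (1 + σ) - 2 / σ ^ 2) * (u ^ 2 / (1 + u)) + 4 * E / σ ^ 2 * (u ^ 2 / (1 + u))
        + 6 * y * σ * a * (u ^ 2 / (1 + u)) := by ring
  rw [e5]
  have e6 : ((4 * σ - 4 / (1 + σ) - 2 / σ ^ 2) + 4 / σ ^ 2 - 1.8) * (u ^ 2 / (1 + u))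
      = (4 * σ - 4 / (1 + σ) - 2 / σ ^ 2) * (u ^ 2 / (1 + u)) + 4 / σ ^ 2 * (u ^ 2 / (1 + u))
        - 1.8 * (u ^ 2 / (1 + u)) := by ring
  rw [e6] at h3
  have e9 : (18 * (y / σ ^ 2) - cc + 3 * (y / σ) ^ 3 * (12 * y - 7)) * a ^ 2
      = 18 * (y / σ ^ 2) * a ^ 2 - cc * a ^ 2 + 3 * (y / σ) ^ 3 * (12 * y - 7) * a ^ 2 := by ring
  rw [e9] at h9
  have e1 : (m + 3) * (y / σ ^ 2) * (2 * (a ^ 2 * (1 + 2 / 3 * a + 1 / 3 * a ^ 2)))
     = 2 * ((m + 3) * (y / σ ^ 2) * (a ^ 2 * (1 + 2 / 3 * a + 1 / 3 * a ^ 2))) := by ring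
  rw [e1] at h1
  linarith only [hCr, h1, h2, h3, h4, h5, h6, h7, h9]

theorem Tlow_neg {m σ y a u E φ κ Cr cc N : ℝ} (hm : 15 ≤ m) (h : 1 ≤ σ) (hy : σ ^ 2 = 1 + y)
    (ha : 0 ≤ a) (hu : u ≤ 0) (hu1 : -1 < u)
    (hE : 1 + 2 * a + 2 * a ^ 2 + 4 / 3 * a ^ 3 + 2 / 3 * a ^ 4 ≤ E)
    (hφ : φ ≤ u ^ 2 / (1 + u) / 2) (hκ : 0 ≤ κ) (hκ2 : κ ≤ 16 / 7)
    (hc : cc ≤ y * (1 + y) / 2) (hCr : -(cc * a ^ 2) ≤ Cr) (hN : -φ ≤ N) :
    1.8 * (u ^ 2 / (1 + u)) + (m + 3) * (y / σ ^ 2) * (a ^ 2 * (1 + 2 / 3 * a + 1 / 3 * a ^ 2)) ≤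
    (m + 3) * (y / σ ^ 2) * (E - 1 - 2 * a)
      + (4 * σ - 4 / (1 + σ) - 2 / σ ^ 2 + 4 * E / σ ^ 2 + 6 * y * σ * a) * (u ^ 2 / (1 + u))
      - 6 * y * (1 + 2 * y) / σ ^ 3 * a * u + 3 * (y / σ) ^ 3 * ((m - 3) * y - 7) * a ^ 2 + Cr
      + κ * σ * N := by
  have hσ : 0 < σ := by (clear * - h; linarith)
  have hy0 : 0 ≤ y := by nlinarith only [h, hy]
  have hU : 0 < 1 + u := by linarith only [hu1]
  have hzp : 0 ≤ y / σ ^ 2 := by (clear * - hy0 h; positivity)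
  have h1 : (m + 3) * (y / σ ^ 2) * (2 * (a ^ 2 * (1 + 2 / 3 * a + 1 / 3 * a ^ 2)))
      ≤ (m + 3) * (y / σ ^ 2) * (E - 1 - 2 * a) := by
    apply mul_le_mul_of_nonneg_left _ (by positivity)
    nlinarith only [hE]
  have h2 : 18 * (y / σ ^ 2) * a ^ 2 ≤ (m + 3) * (y / σ ^ 2) * (a ^ 2 * (1 + 2 / 3 * a + 1 / 3 * a ^ 2)) := by
    have g1 : a ^ 2 ≤ a ^ 2 * (1 + 2 / 3 * a + 1 / 3 * a ^ 2) := by
      have : 0 ≤ a ^ 2 * (2 / 3 * a + 1 / 3 * a ^ 2) := by (clear * - ha; positivity)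
      nlinarith only [this]
    have g2 : 18 * (y / σ ^ 2) ≤ (m + 3) * (y / σ ^ 2) := mul_le_mul_of_nonneg_right (by linarith only [hm]) hzp
    exact mul_le_mul g2 g1 (by (clear * -; positivity)) (by positivity)
  have hWp : 0 ≤ u ^ 2 / (1 + u) := by (clear * - hU; positivity)
  have h4 : -(8 / 7 * σ * (u ^ 2 / (1 + u))) ≤ κ * σ * N := by
    have g1 : -(κ * σ * (u ^ 2 / (1 + u) / 2)) ≤ κ * σ * N := by
      have := mul_le_mul_of_nonneg_left (le_trans (neg_le_neg hφ) hN) (by (clear * - hκ h; positivity) : 0 ≤ κ * σ)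
      linarith only [this]
    have g2 : κ * σ * (u ^ 2 / (1 + u) / 2) ≤ 16 / 7 * σ * (u ^ 2 / (1 + u) / 2) := by
      apply mul_le_mul_of_nonneg_right _ (by (clear * - hU; positivity))
      exact mul_le_mul_of_nonneg_right hκ2 hσ.le
    linarith only [g1, g2]
  have h3 := mul_le_mul_of_nonneg_right (sb h) hWp
  have h5 : 4 / σ ^ 2 * (u ^ 2 / (1 + u)) ≤ 4 * E / σ ^ 2 * (u ^ 2 / (1 + u)) := by
    apply mul_le_mul_of_nonneg_right _ hWp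
    apply div_le_div_of_nonneg_right _ (by positivity)
    have : 0 ≤ 2 * a + 2 * a ^ 2 + 4 / 3 * a ^ 3 + 2 / 3 * a ^ 4 := by (clear * - ha; positivity)
    linarith only [hE, this]
  have h6 : 0 ≤ -(6 * y * (1 + 2 * y) / σ ^ 3 * a * u) := by
    have : 0 ≤ 6 * y * (1 + 2 * y) / σ ^ 3 * a := by (clear * - hy0 h ha; positivity)
    nlinarith only [hu, this]
  have h6' : 0 ≤ 6 * y * σ * a * (u ^ 2 / (1 + u)) := by (clear * - hy0 h ha hU; positivity)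
  have h7 : 3 * (y / σ) ^ 3 * (12 * y - 7) * a ^ 2 ≤ 3 * (y / σ) ^ 3 * ((m - 3) * y - 7) * a ^ 2 := by
    apply mul_le_mul_of_nonneg_right _ (sq_nonneg _)
    apply mul_le_mul_of_nonneg_left _ (by (clear * - hy0 h; positivity))
    nlinarith only [hm, hy0]
  have h8 := sca h hy hc
  have h9 : 0 ≤ (18 * (y / σ ^ 2) - cc + 3 * (y / σ) ^ 3 * (12 * y - 7)) * a ^ 2 := by
    have := mul_le_mul_of_nonneg_right h8 (sq_nonneg a)
    nlinarith only [this]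
  have e5 : (4 * σ - 4 / (1 + σ) - 2 / σ ^ 2 + 4 * E / σ ^ 2 + 6 * y * σ * a) * (u ^ 2 / (1 + u))
      = (4 * σ - 4 / (1 + σ) - 2 / σ ^ 2) * (u ^ 2 / (1 + u)) + 4 * E / σ ^ 2 * (u ^ 2 / (1 + u))
        + 6 * y * σ * a * (u ^ 2 / (1 + u)) := by ring
  rw [e5]
  have e6 : ((4 * σ - 4 / (1 + σ) - 2 / σ ^ 2) + 4 / σ ^ 2 - 1.8) * (u ^ 2 / (1 + u))
      = (4 * σ - 4 / (1 + σ) - 2 / σ ^ 2) * (u ^ 2 / (1 + u)) + 4 / σ ^ 2 * (u ^ 2 / (1 + u))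
        - 1.8 * (u ^ 2 / (1 + u)) := by ring
  rw [e6] at h3
  have e7 : (1.05 + 8 / 7 * σ) * (u ^ 2 / (1 + u)) = 1.05 * (u ^ 2 / (1 + u)) + 8 / 7 * σ * (u ^ 2 / (1 + u)) := by ring
  rw [e7] at h3
  have e9 : (18 * (y / σ ^ 2) - cc + 3 * (y / σ) ^ 3 * (12 * y - 7)) * a ^ 2
      = 18 * (y / σ ^ 2) * a ^ 2 - cc * a ^ 2 + 3 * (y / σ) ^ 3 * (12 * y - 7) * a ^ 2 := by ring
  rw [e9] at h9
  have e1 : (m + 3) * (y / σ ^ 2) * (2 * (a ^ 2 * (1 + 2 / 3 * a + 1 / 3 * a ^ 2)))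
     = 2 * ((m + 3) * (y / σ ^ 2) * (a ^ 2 * (1 + 2 / 3 * a + 1 / 3 * a ^ 2))) := by ring
  rw [e1] at h1
  linarith only [hCr, h1, h2, hWp, h4, h3, h5, h6, h6', h7, h9]

theorem two_log_le {x : ℝ} (hx : 1 ≤ x) : 2 * Real.log x ≤ x - 1 / x := by
  have h : MonotoneOn (fun x : ℝ => x - 1 / x - 2 * Real.log x) (Set.Ici 1) := by
    apply monotoneOn_of_deriv_nonneg (convex_Ici 1)
    · apply ContinuousOn.sub
      · apply ContinuousOn.sub continuousOn_id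
        apply ContinuousOn.div continuousOn_const continuousOn_id
        intro y hy; have : (1:ℝ) ≤ y := hy; simp only [id]; linarith only [this]
      · apply ContinuousOn.mul continuousOn_const
        apply Real.continuousOn_log.mono
        intro y hy; have : (1:ℝ) ≤ y := hy; simp only [Set.mem_compl_iff, Set.mem_singleton_iff]; linarith
    · intro y hy
      rw [interior_Ici] at hy
      have hy' : (1:ℝ) < y := hy
      have h0 : y ≠ 0 := by linarith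
      apply DifferentiableAt.differentiableWithinAt
      apply DifferentiableAt.sub
      · apply DifferentiableAt.sub differentiableAt_id
        exact (differentiableAt_const _).div differentiableAt_id h0
      · exact (Real.differentiableAt_log h0).const_mul 2
    · intro y hy
      rw [interior_Ici] at hy
      have hy' : (1:ℝ) < y := hy
      have h0 : y ≠ 0 := by linarith
      have hd : HasDerivAt (fun x : ℝ => x - 1 / x - 2 * Real.log x) (1 - (-(1 / y ^ 2)) - 2 * (1 / y)) y := by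
        have h1 : HasDerivAt (fun x : ℝ => x) 1 y := hasDerivAt_id y
        have h2 : HasDerivAt (fun x : ℝ => 1 / x) (-(1 / y ^ 2)) y := by
          have := (hasDerivAt_inv h0)
          simp only [one_div]
          exact this
        have h3 : HasDerivAt (fun x : ℝ => 2 * Real.log x) (2 * (1 / y)) y := by
          have := (Real.hasDerivAt_log h0).const_mul 2
          simpa [one_div] using this
        exact (h1.sub h2).sub h3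
      rw [hd.deriv]
      have : 1 - (-(1 / y ^ 2)) - 2 * (1 / y) = (1 - 1 / y) ^ 2 := by ring
      rw [this]; (clear * -; positivity)
  have := h (Set.mem_Ici.2 le_rfl) (Set.mem_Ici.2 hx) hx
  simp only [ne_eq, one_ne_zero, not_false_eq_true, div_self, sub_self, Real.log_one, mul_zero, one_div, sub_nonneg] at this
  have e : 1 / x = x⁻¹ := one_div x
  rw [e]; linarith only [this]

/-- for `-1 < u ≤ 0`, with `s = √(1+u)`: `u - log (1+u) ≤ (1-s)^2 (1+s)/s` -/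
theorem phi_neg0 {u : ℝ} (hu : -1 < u) (hu0 : u ≤ 0) :
    u - Real.log (1 + u) ≤ (1 - √(1 + u)) ^ 2 * (1 + √(1 + u)) / √(1 + u) := by
  have hU : 0 < 1 + u := by linarith
  set s := √(1 + u) with hs
  have hsp : 0 < s := Real.sqrt_pos.2 hU
  have hs2 : s ^ 2 = 1 + u := Real.sq_sqrt hU.le
  have hs1 : s ≤ 1 := by
    by_contra h
    push Not at h
    nlinarith only [hu0, hs2, h]
  have h1 : 2 * Real.log (1 / s) ≤ 1 / s - 1 / (1 / s) := two_log_le (by rw [le_div_iff₀ hsp]; linarith)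
  have h2 : Real.log (1 + u) = 2 * Real.log s := by
    rw [← hs2, Real.log_pow]; norm_num
  have h3 : Real.log (1 / s) = - Real.log s := by rw [one_div, Real.log_inv]
  rw [h3] at h1
  rw [h2]
  have e : (1 - s) ^ 2 * (1 + s) / s = (s ^ 2 - 1) + (1 / s - s) := by
    field_simp; ring
  rw [e, hs2]
  have : 1 / (1 / s) = s := by rw [one_div_one_div]
  rw [this] at h1
  linarith only [h1]

theorem phi_nonneg {u : ℝ} (hu : -1 < u) : 0 ≤ u - Real.log (1 + u) := by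
  have := Real.log_le_sub_one_of_pos (by linarith : 0 < 1 + u)
  linarith

theorem phi_neg1 {u : ℝ} (hu : -1 < u) (hu0 : u ≤ 0) :
    u - Real.log (1 + u) ≤ u ^ 2 / (1 + u) / 2 := by
  refine (phi_neg0 hu hu0).trans ?_
  have hU : 0 < 1 + u := by linarith
  set s := √(1 + u) with hs
  have hsp : 0 < s := Real.sqrt_pos.2 hU
  have hs2 : s ^ 2 = 1 + u := Real.sq_sqrt hU.le
  have hs1 : s ≤ 1 := by
    by_contra h
    push Not at h
    nlinarith only [hu0, hs2, h]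
  have hu' : u = s ^ 2 - 1 := by linarith only [hs2]
  rw [← hs2, hu', div_div, div_le_div_iff₀ hsp (by positivity)]
  have : (s ^ 2 - 1) ^ 2 = (1 - s) ^ 2 * (1 + s) * (1 + s) := by ring
  rw [this]
  have h4 : 0 ≤ (1 - s) ^ 2 * (1 + s) * s := by (clear * - hU; positivity)
  nlinarith only [h4, hs1]

/-- `φ² ≤ W u²` -/
theorem phi_neg2 {u : ℝ} (hu : -1 < u) (hu0 : u ≤ 0) :
    (u - Real.log (1 + u)) ^ 2 ≤ u ^ 2 / (1 + u) * u ^ 2 := by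
  have h0 := phi_neg0 hu hu0
  have h1 := phi_nonneg hu
  have hU : 0 < 1 + u := by linarith only [hu]
  set s := √(1 + u) with hs
  have hsp : 0 < s := Real.sqrt_pos.2 hU
  have hs2 : s ^ 2 = 1 + u := Real.sq_sqrt hU.le
  have h2 : (u - Real.log (1 + u)) ^ 2 ≤ ((1 - s) ^ 2 * (1 + s) / s) ^ 2 :=
    pow_le_pow_left₀ h1 h0 2
  refine h2.trans ?_
  have hu' : u = s ^ 2 - 1 := by linarith only [hs2]
  rw [← hs2, hu', div_pow, div_mul_eq_mul_div]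
  apply div_le_div_of_nonneg_right _ (by (clear * - hU; positivity))
  have : (s ^ 2 - 1) ^ 2 * (s ^ 2 - 1) ^ 2 = ((1 - s) ^ 2 * (1 + s)) ^ 2 * (1 + s) ^ 2 := by ring
  rw [this]
  have : 1 ≤ (1 + s) ^ 2 := by nlinarith only [hsp]
  nlinarith only [this]

theorem phi_pos {u : ℝ} (hu : 0 ≤ u) : u - Real.log (1 + u) ≤ u ^ 2 / (2 + u) := by
  have h : MonotoneOn (fun x : ℝ => Real.log (1 + x) - 2 * x / (2 + x)) (Set.Ici 0) := by
    have hd : ∀ y : ℝ, 0 ≤ y → HasDerivAt (fun x : ℝ => Real.log (1 + x) - 2 * x / (2 + x))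
        (1 / (1 + y) - (2 * (2 + y) - 2 * y * 1) / (2 + y) ^ 2) y := by
      intro y hy
      have h1 : HasDerivAt (fun x : ℝ => 1 + x) 1 y := by simpa using (hasDerivAt_id y).const_add 1
      have h2 : HasDerivAt (fun x : ℝ => 2 + x) 1 y := by simpa using (hasDerivAt_id y).const_add 2
      have h3 : HasDerivAt (fun x : ℝ => 2 * x) 2 y := by simpa using (hasDerivAt_id y).const_mul 2
      exact (h1.log (by linarith)).sub (h3.div h2 (by linarith only [hy]))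
    apply monotoneOn_of_deriv_nonneg (convex_Ici 0)
    · intro y hy; exact (hd y hy).continuousAt.continuousWithinAt
    · intro y hy
      rw [interior_Ici] at hy
      exact (hd y (le_of_lt hy)).differentiableAt.differentiableWithinAt
    · intro y hy
      rw [interior_Ici] at hy
      have hy' : 0 < y := hy
      rw [(hd y hy'.le).deriv]
      have e : 1 / (1 + y) - (2 * (2 + y) - 2 * y * 1) / (2 + y) ^ 2 = y ^ 2 / ((1 + y) * (2 + y) ^ 2) := by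
        field_simp; ring
      rw [e]; positivity
  have := h (Set.mem_Ici.2 le_rfl) (Set.mem_Ici.2 hu) hu
  simp only [add_zero, Real.log_one, mul_zero, zero_div, sub_self, sub_nonneg] at this
  have e : u ^ 2 / (2 + u) = u - 2 * u / (2 + u) := by field_simp; ring
  rw [e]; linarith only [this]
end FNeg
end Vale.Agent.P237.AllN
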