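import Vale.Agent.P237.AllN.FNeg1

/-!
# P237, block D, region `l ≤ 0`, part 2: the bounds of `e - T` and of `e`
-/

set_option linter.all false

namespace Vale.Agent.P237.AllN
namespace FNeg


/-- `q ≤ qb` -/
theorem q_le {c σ : ℝ} (h : 1 ≤ σ) (hc2 : c ≤ 1) :
    2 * c * σ - 2 / σ ^ 2 + 2 * (1 - c) ≤ 2 * (σ - 1) + 2 * (1 - 1 / σ ^ 2) := by
  have e : 2 * (σ - 1) + 2 * (1 - 1 / σ ^ 2) - (2 * c * σ - 2 / σ ^ 2 + 2 * (1 - c)) = 2 * (1 - c) * (σ - 1) := by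
    ring
  have : 0 ≤ 2 * (1 - c) * (σ - 1) := by
    apply mul_nonneg <;> nlinarith only [h, hc2]
  linarith

theorem q_nonneg {c σ : ℝ} (h : 1 ≤ σ) (hc0 : 0 ≤ c) :
    0 ≤ 2 * c * σ - 2 / σ ^ 2 + 2 * (1 - c) := by
  have h1 : 1 / σ ^ 2 ≤ 1 := by
    rw [div_le_one (by positivity)]; nlinarith
  have e : 2 * c * σ - 2 / σ ^ 2 + 2 * (1 - c) = 2 * c * (σ - 1) + 2 * (1 - 1 / σ ^ 2) := by ring
  rw [e]
  have := mul_nonneg hc0 (by linarith only [h] : 0 ≤ σ - 1)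
  nlinarith only [h1, this]

/-- `-r ≤ (σ-1)(σ-1+1/m)` -/
theorem r_ge {m c σ y : ℝ} (hm : 15 ≤ m) (h : 1 ≤ σ) (hy : σ ^ 2 = 1 + y) (hc1 : 1 - 1 / (2 * m) ≤ c) :
    -(2 * c * σ - 2 + 2 * (1 - c) * (1 - m * y)) ≤ (σ - 1) * (σ - 1 + 1 / m) := by
  have hm0 : 0 < m := by linarith only [hm]
  have hy' : y = σ ^ 2 - 1 := by linarith only [hy]
  have h1 : 2 * (1 - c) * m ≤ 1 := by
    have : (1 - c) ≤ 1 / (2 * m) := by linarith
    have := mul_le_mul_of_nonneg_right this (by linarith only [hm] : 0 ≤ 2 * m)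
    rw [div_mul_cancel₀ _ (by positivity : 2 * m ≠ 0)] at this
    linarith only [this]
  have h2 : 2 * (1 - c) ≤ 1 / m := by
    rw [le_div_iff₀ hm0]; exact h1
  have h3 : 0 ≤ (σ - 1) := by linarith only [h]
  have e : -(2 * c * σ - 2 + 2 * (1 - c) * (1 - m * y))
      = -2 * (σ - 1) + 2 * (1 - c) * (σ - 1) + (2 * (1 - c) * m) * y := by ring
  rw [e]
  have hy0 : 0 ≤ y := by nlinarith only [h, hy]
  have h4 := mul_le_mul_of_nonneg_right h1 hy0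
  have h5 := mul_le_mul_of_nonneg_right h2 h3
  rw [hy'] at h4 ⊢
  linarith

/-- `r ≤ y` -/
theorem r_le {m c σ y : ℝ} (hm : 15 ≤ m) (h : 1 ≤ σ) (hy : σ ^ 2 = 1 + y) (hc2 : c ≤ 1) (hc0 : 0 ≤ c) :
    2 * c * σ - 2 + 2 * (1 - c) * (1 - m * y) ≤ y := by
  have hy0 : 0 ≤ y := by nlinarith only [h, hy]
  have h1 : 0 ≤ (1 - c) * (m * y) := by
    apply mul_nonneg (by linarith only [hc2]) (by nlinarith only [hy0, hm])
  nlinarith only [hy, h1, hc2, h]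

theorem cross_id {σ y a u : ℝ} (h : 1 ≤ σ) (hy : σ ^ 2 = 1 + y) (hu : -1 < u) :
    6 * y * σ * a * (u ^ 2 / (1 + u)) - 6 * y * (1 + 2 * y) / σ ^ 3 * a * u
       = -(6 * y * (1 + 2 * y) / σ ^ 3 * a * (u / (1 + u))) + 6 * (y / σ) ^ 3 * a * (u ^ 2 / (1 + u)) := by
  have hσ : 0 < σ := by linarith only [h]
  have e1 : 6 * y * σ - 6 * y * (1 + 2 * y) / σ ^ 3 = 6 * (y / σ) ^ 3 := by
    have : y = σ ^ 2 - 1 := by linarith only [hy]
    rw [this]; field_simp; ring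
  have e2 : 6 * y * (1 + 2 * y) / σ ^ 3 * a * u = 6 * y * (1 + 2 * y) / σ ^ 3 * a * (u / (1 + u) + u ^ 2 / (1 + u)) := by
    rw [← hW2 hu]
  rw [e2]
  linear_combination a * (u ^ 2 / (1 + u)) * e1

/-- `T` -/
noncomputable def Tf (m κ σ y a u E Cr N : ℝ) : ℝ :=
  (m + 3) * (y / σ ^ 2) * (E - 1 - 2 * a)
      + (4 * σ - 4 / (1 + σ) - 2 / σ ^ 2 + 4 * E / σ ^ 2 + 6 * y * σ * a) * (u ^ 2 / (1 + u))
      - 6 * y * (1 + 2 * y) / σ ^ 3 * a * u + 3 * (y / σ) ^ 3 * ((m - 3) * y - 7) * a ^ 2 + Cr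
      + κ * σ * N

/-- `e1` -/
noncomputable def ef (m c σ y a u E N : ℝ) : ℝ :=
  (m + 3) * (y / σ ^ 2) * (E - 1 - 2 * a) + 4 * E / σ ^ 2 * (u ^ 2 / (1 + u)) + 2 * c * σ * N
    + (2 * c * σ - 2 / σ ^ 2 + 2 * (1 - c)) * u
    - (2 * c * σ - 2 + 2 * (1 - c) * (1 - m * y)) * a

/-- `ρ` -/
noncomputable def rhof (m y : ℝ) : ℝ := 0.2 + 0.5 * (m * y) + 0.1 * (m * (m - 2) * y ^ 2)

theorem efTf {m c κ σ y a u E Cr N : ℝ} :
    ef m c σ y a u E N - Tf m κ σ y a u E Cr N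
      = (2 * c * σ - 2 / σ ^ 2 + 2 * (1 - c)) * u
        - (2 * c * σ - 2 + 2 * (1 - c) * (1 - m * y)) * a
        - (4 * σ - 4 / (1 + σ) - 2 / σ ^ 2) * (u ^ 2 / (1 + u))
        - (6 * y * σ * a * (u ^ 2 / (1 + u)) - 6 * y * (1 + 2 * y) / σ ^ 3 * a * u)
        - 3 * (y / σ) ^ 3 * ((m - 3) * y - 7) * a ^ 2 - Cr - (κ - 2 * c) * σ * N := by
  unfold ef Tf; ring

/-- `B ≥ -Pb`, `u ≥ 0` -/
theorem Bpos {m c κ σ y a u E Cr N cc φ : ℝ} (hm : 15 ≤ m) (h : 1 ≤ σ) (hy : σ ^ 2 = 1 + y)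
    (ha : 0 ≤ a) (hu : 0 ≤ u)
    (hφ : φ ≤ u ^ 2 / (2 + u)) (hK : 0 ≤ κ - 2 * c)
    (hc1 : 1 - 1 / (2 * m) ≤ c) (hc2 : c ≤ 1)
    (hCr : -(cc * a ^ 2) ≤ Cr) (hN : -φ ≤ N) :
    -(Tf m κ σ y a u E Cr N - ef m c σ y a u E N) ≤
      (u / (1 + u)) * ((2 * (σ - 1) + 2 * (1 - 1 / σ ^ 2)) * (2 / (2 + u)) + (κ - 2 * c) * σ * (u * (1 + u) / (2 + u)))
      + a * (6 * y * (1 + 2 * y) / σ ^ 3 * (u / (1 + u)) + (cc + 3 * (y / σ) ^ 3 * (7 - (m - 3) * y)) * a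
        + (σ - 1) * (σ - 1 + 1 / m)) := by
  have hσ : 0 < σ := by linarith only [h]
  have hy0 : 0 ≤ y := by nlinarith only [h, hy]
  have h0 := @efTf m c κ σ y a u E Cr N
  have h1 : ef m c σ y a u E N - Tf m κ σ y a u E Cr N = -(Tf m κ σ y a u E Cr N - ef m c σ y a u E N) := by ring
  rw [← h1, h0, cross_id h hy (by linarith only [hu])]
  have hq := mul_le_mul_of_nonneg_right (q_le h hc2) hu
  have hr := mul_le_mul_of_nonneg_right (r_ge hm h hy hc1) ha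
  have hWp : 0 ≤ u ^ 2 / (1 + u) := by (clear * - hu; positivity)
  have hC := mul_le_mul_of_nonneg_right (sC0 h) hWp
  have hNN : -((κ - 2 * c) * σ * N) ≤ (κ - 2 * c) * σ * (u ^ 2 / (2 + u)) := by
    have := mul_le_mul_of_nonneg_left (show -N ≤ u ^ 2 / (2 + u) by linarith only [hφ, hN]) (mul_nonneg hK hσ.le)
    linarith only [this]
  have h3 : 0 ≤ 6 * (y / σ) ^ 3 * a * (u ^ 2 / (1 + u)) := by (clear * - hy0 h ha hu; positivity)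
  set qb := 2 * (σ - 1) + 2 * (1 - 1 / σ ^ 2) with hqb
  have hqb0 : 0 ≤ qb := by
    have : 1 / σ ^ 2 ≤ 1 := by rw [div_le_one (by positivity)]; nlinarith only [hy, hy0]
    rw [hqb]; nlinarith only [h, this]
  have h4 : qb * u - 1.5 * qb * (u ^ 2 / (1 + u)) ≤ (u / (1 + u)) * (qb * (2 / (2 + u))) := by
    have e : (u / (1 + u)) * (qb * (2 / (2 + u))) - (qb * u - 1.5 * qb * (u ^ 2 / (1 + u)))
        = qb * (u * (u ^ 2 / 2)) / ((1 + u) * (2 + u)) := by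
      field_simp; ring
    have : 0 ≤ qb * (u * (u ^ 2 / 2)) / ((1 + u) * (2 + u)) := by (clear * - hqb0 hu; positivity)
    (clear * - e this; linarith)
  have h5 : (κ - 2 * c) * σ * (u ^ 2 / (2 + u)) = (u / (1 + u)) * ((κ - 2 * c) * σ * (u * (1 + u) / (2 + u))) := by
    (clear * - hu h; field_simp)
  have e6 : (u / (1 + u)) * (qb * (2 / (2 + u)) + (κ - 2 * c) * σ * (u * (1 + u) / (2 + u)))
      = (u / (1 + u)) * (qb * (2 / (2 + u))) + (κ - 2 * c) * σ * (u ^ 2 / (2 + u)) := by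
    rw [h5]; ring
  rw [e6]
  have e7 : a * (6 * y * (1 + 2 * y) / σ ^ 3 * (u / (1 + u)) + (cc + 3 * (y / σ) ^ 3 * (7 - (m - 3) * y)) * a
        + (σ - 1) * (σ - 1 + 1 / m))
      = 6 * y * (1 + 2 * y) / σ ^ 3 * a * (u / (1 + u)) + cc * a ^ 2
        - 3 * (y / σ) ^ 3 * ((m - 3) * y - 7) * a ^ 2 + (σ - 1) * (σ - 1 + 1 / m) * a := by ring
  rw [e7]
  linarith only [hCr, hr, hNN, h3, hq, hC, h4]

theorem q_low {c σ : ℝ} (h : 1 ≤ σ) (hc : 29 / 30 ≤ c) :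
    29 / 15 * (σ - 1) + 2 * (1 - 1 / σ ^ 2) ≤ 2 * c * σ - 2 / σ ^ 2 + 2 * (1 - c) := by
  have e : 2 * c * σ - 2 / σ ^ 2 + 2 * (1 - c) = 2 * c * (σ - 1) + 2 * (1 - 1 / σ ^ 2) := by ring
  rw [e]
  nlinarith only [hc, h]

theorem keyneg1 {K m σ y u q : ℝ} (hm : 15 ≤ m) (h : 1 ≤ σ) (hy : σ ^ 2 = 1 + y)
    (hu : u ≤ 0) (hu3 : -(m * y / 2) ≤ u)
    (hK : 0 ≤ K) (hK2 : K * m ≤ 5.286) (hy2 : y ≤ 2 / 15)
    (hq : 29 / 15 * (σ - 1) + 2 * (1 - 1 / σ ^ 2) ≤ q) : K * σ / 2 * (-u) ≤ q := by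
  have hσ : 0 < σ := by (clear * - h; linarith)
  have hy0 : 0 ≤ y := by nlinarith only [hu, hu3, hm]
  have g1 : K * (-u) ≤ 2.643 * y := by
    have g1a : K * (-u) ≤ K * (m * y / 2) :=
      mul_le_mul_of_nonneg_left (by linarith only [hu3]) hK
    have g2 : K * (m * y / 2) = (K * m) * (y / 2) := by ring
    rw [g2] at g1a
    have g2b := mul_le_mul_of_nonneg_right hK2 (by linarith only [hy0] : 0 ≤ y / 2)
    linarith only [g1a, g2b]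
  have g3 : K * σ / 2 * (-u) ≤ 1.3215 * y * σ := by
    have := mul_le_mul_of_nonneg_right g1 hσ.le
    linarith only [this]
  have hσ2 : σ ≤ 1.07 := by nlinarith only [hy, hy2]
  have g4 : 1 - 1 / σ ^ 2 = y / σ ^ 2 := by
    have : y = σ ^ 2 - 1 := by linarith only [hy]
    rw [this]; (clear * - h; field_simp)
  have g5 : y / 1.134 ≤ y / σ ^ 2 := by
    apply div_le_div_of_nonneg_left hy0 (by positivity) (by linarith only [hy, hy2])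
  have g6 : 1.3215 * y * σ ≤ 1.42 * y := by
    have := mul_le_mul_of_nonneg_left hσ2 (by positivity : 0 ≤ 1.3215 * y)
    linarith only [hy0, this]
  have g8 : y / 1.134 = y * (1 / 1.134) := by ring
  have g9 : (0.88 : ℝ) ≤ 1 / 1.134 := by norm_num
  have g10 := mul_le_mul_of_nonneg_left g9 hy0
  rw [g4] at hq
  linarith only [h, hq, hy0, g3, g5, g6, g8]

theorem keyneg2 {K m σ y u q : ℝ} (hm : 15 ≤ m) (h : 1 ≤ σ) (hy : σ ^ 2 = 1 + y)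
    (hu : u ≤ 0) (hu1 : -1 < u)
    (hK : 0 ≤ K) (hK2 : K * m ≤ 5.286) (hy2 : 2 / 15 ≤ y)
    (hq : 29 / 15 * (σ - 1) + 2 * (1 - 1 / σ ^ 2) ≤ q) : K * σ / 2 * (-u) ≤ q := by
  have hσ : 0 < σ := by linarith only [h]
  have g0 : K ≤ 0.3524 := by nlinarith only [hK2, hm]
  have g1 : K * (-u) ≤ 0.3524 := by
    have := mul_le_mul_of_nonneg_left (by linarith only [hu1] : -u ≤ 1) hK
    linarith only [g0, this]
  have g3 : K * σ / 2 * (-u) ≤ 0.1762 * σ := by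
    have := mul_le_mul_of_nonneg_right g1 hσ.le
    linarith only [this]
  have g4 : 1 / σ ^ 2 ≤ 15 / 17 := by
    rw [div_le_div_iff₀ (by positivity) (by norm_num)]; linarith only [hy, hy2]
  have g5 : 1.06 ≤ σ := by nlinarith only [hy, hy2, h]
  linarith only [hq, g3, g4, g5]

theorem keyneg {K m σ y u q : ℝ} (hm : 15 ≤ m) (h : 1 ≤ σ) (hy : σ ^ 2 = 1 + y)
    (hu : u ≤ 0) (hu1 : -1 < u) (hu3 : -(m * y / 2) ≤ u)
    (hK : 0 ≤ K) (hK2 : K * m ≤ 5.286)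
    (hq : 29 / 15 * (σ - 1) + 2 * (1 - 1 / σ ^ 2) ≤ q) : K * σ / 2 * (-u) ≤ q := by
  rcases le_total y (2 / 15) with hy2 | hy2
  · exact keyneg1 hm h hy hu hu3 hK hK2 hy2 hq
  · exact keyneg2 hm h hy hu hu1 hK hK2 hy2 hq

theorem finneg {K σ u q qb : ℝ} (hu : u ≤ 0) (hu1 : -1 < u) (hq0 : 0 ≤ q) (hqb : q ≤ qb)
    (hkey : K * σ / 2 * (-u) ≤ q) :
    K * σ * (u ^ 2 / (1 + u) / 2) ≤ -(q * u) + 1.5 * qb * (u ^ 2 / (1 + u)) := by
  have hU : 0 < 1 + u := by linarith only [hu1]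
  have hU' : (1 + u) ≠ 0 := hU.ne'
  have e3 : -(q * u) + 1.5 * qb * (u ^ 2 / (1 + u)) - K * σ * (u ^ 2 / (1 + u) / 2)
      = (-u) / (1 + u) * (q * (1 + u) + 1.5 * qb * (-u) - K * σ / 2 * (-u)) := by
    field_simp
    ring
  have h7 : 0 ≤ (-u) / (1 + u) := div_nonneg (by linarith only [hu]) hU.le
  have h8 : 0 ≤ q * (1 + u) + 1.5 * qb * (-u) - K * σ / 2 * (-u) := by
    have := mul_nonneg (by linarith only [hu] : 0 ≤ -u) (sub_nonneg.2 hqb)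
    have := mul_nonneg (by linarith only [hu] : 0 ≤ -u) hq0
    (clear hu1 hU hU' e3 h7; nlinarith)
  have := mul_nonneg h7 h8
  linarith only [e3, this]

/-- `B ≥ -Pb`, `u ≤ 0` -/
theorem Bneg {m c κ σ y a u E Cr N cc φ : ℝ} (hm : 15 ≤ m) (h : 1 ≤ σ) (hy : σ ^ 2 = 1 + y)
    (ha : 0 ≤ a) (hu : u ≤ 0) (hu1 : -1 < u) (hu3 : -(m * y / 2) ≤ u)
    (hφ : φ ≤ u ^ 2 / (1 + u) / 2) (hK : 0 ≤ κ - 2 * c) (hK2 : (κ - 2 * c) * m ≤ 5.286)
    (hc1 : 1 - 1 / (2 * m) ≤ c) (hc2 : c ≤ 1)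
    (hCr : -(cc * a ^ 2) ≤ Cr) (hN : -φ ≤ N) :
    -(Tf m κ σ y a u E Cr N - ef m c σ y a u E N) ≤
      a * ((cc + 3 * (y / σ) ^ 3 * (7 - (m - 3) * y)) * a + (σ - 1) * (σ - 1 + 1 / m)) := by
  have hσ : 0 < σ := by linarith only [h]
  have hy0 : 0 ≤ y := by nlinarith only [hu, hu3, hm]
  have hU : 0 < 1 + u := by linarith only [hu1]
  have hm0 : 0 < m := by linarith only [hm]
  have h0 := @efTf m c κ σ y a u E Cr N
  have h1 : ef m c σ y a u E N - Tf m κ σ y a u E Cr N = -(Tf m κ σ y a u E Cr N - ef m c σ y a u E N) := by ring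
  rw [← h1, h0]
  have hr := mul_le_mul_of_nonneg_right (r_ge hm h hy hc1) ha
  have hWp : 0 ≤ u ^ 2 / (1 + u) := by (clear * - hU; positivity)
  have hC := mul_le_mul_of_nonneg_right (sC0 h) hWp
  have h3 : 0 ≤ 6 * y * σ * a * (u ^ 2 / (1 + u)) := by (clear * - hy0 h ha hU; positivity)
  have h3' : 0 ≤ -(6 * y * (1 + 2 * y) / σ ^ 3 * a * u) := by
    have := mul_nonneg (by (clear * - hy0 h ha; positivity) : 0 ≤ 6 * y * (1 + 2 * y) / σ ^ 3 * a) (by linarith only [hu] : 0 ≤ -u)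
    linarith only [this]
  have hNN : -((κ - 2 * c) * σ * N) ≤ (κ - 2 * c) * σ * (u ^ 2 / (1 + u) / 2) := by
    have := mul_le_mul_of_nonneg_left (show -N ≤ u ^ 2 / (1 + u) / 2 by linarith only [hφ, hN]) (mul_nonneg hK hσ.le)
    linarith only [this]
  have hc29 : 29 / 30 ≤ c := by
    have : 1 / (2 * m) ≤ 1 / 30 := by
      apply div_le_div_of_nonneg_left (by norm_num) (by norm_num) (by linarith only [hm])
    linarith only [hc1, this]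
  have hqb := q_le h hc2
  have hqlow := q_low h hc29
  have hq0 := q_nonneg h (by linarith only [hc29] : 0 ≤ c)
  have hkey := keyneg hm h hy hu hu1 hu3 hK hK2 hqlow
  have hfin := finneg (K := κ - 2 * c) (σ := σ) hu hu1 hq0 hqb hkey
  generalize 2 * c * σ - 2 / σ ^ 2 + 2 * (1 - c) = q at *
  generalize 2 * (σ - 1) + 2 * (1 - 1 / σ ^ 2) = qb at *
  have e7 : a * ((cc + 3 * (y / σ) ^ 3 * (7 - (m - 3) * y)) * a + (σ - 1) * (σ - 1 + 1 / m))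
      = cc * a ^ 2 - 3 * (y / σ) ^ 3 * ((m - 3) * y - 7) * a ^ 2 + (σ - 1) * (σ - 1 + 1 / m) * a := by ring
  rw [e7]
  generalize (σ - 1) * (σ - 1 + 1 / m) * a = X1 at *
  generalize 3 * (y / σ) ^ 3 * ((m - 3) * y - 7) * a ^ 2 = X2 at *
  linarith only [hCr, h3, h3', hNN, hC, hfin, hr]

/-- `2cσφ ≤ qu + 4W/σ²` for `u ≥ 0` -/
theorem epos {c σ u : ℝ} (h : 1 ≤ σ) (hc0 : 0 ≤ c) (hc2 : c ≤ 1) (hu : 0 ≤ u) :
    2 * c * σ * (u ^ 2 / (2 + u)) ≤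
      4 / σ ^ 2 * (u ^ 2 / (1 + u)) + (2 * c * σ - 2 / σ ^ 2 + 2 * (1 - c)) * u := by
  have hσ : 0 < σ := by linarith
  have h1u : (1 + u) ≠ 0 := by linarith
  have h2u : (2 + u) ≠ 0 := by linarith only [hu]
  have e : 4 / σ ^ 2 * (u ^ 2 / (1 + u)) + (2 * c * σ - 2 / σ ^ 2 + 2 * (1 - c)) * u
      - 2 * c * σ * (u ^ 2 / (2 + u))
      = u * (c * (4 * σ / (2 + u) - 2) + 2 - 2 / σ ^ 2 + 4 / σ ^ 2 * (u / (1 + u))) := by
    field_simp; ring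
  have hz : 1 / σ ^ 2 ≤ 1 := by rw [div_le_one (by positivity)]; nlinarith only [h]
  have hz2 : 2 / σ ^ 2 = 2 * (1 / σ ^ 2) := by ring
  have h3 : 0 ≤ c * (4 * σ / (2 + u) - 2) + 2 - 2 / σ ^ 2 + 4 / σ ^ 2 * (u / (1 + u)) := by
    have h4 : 0 ≤ 4 / σ ^ 2 * (u / (1 + u)) := by (clear * - h hu; positivity)
    rcases le_total 0 (4 * σ / (2 + u) - 2) with h5 | h5
    · have := mul_nonneg hc0 h5
      linarith only [hz, hz2, h4, this]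
    · have h6 : 4 * σ / (2 + u) - 2 ≤ c * (4 * σ / (2 + u) - 2) := by nlinarith only [hc2, h5]
      have h7 : 1 / σ ^ 2 * (4 / (2 + u)) ≤ 4 * σ / (2 + u) := by
        have : 1 / σ ^ 2 * (4 / (2 + u)) ≤ 1 * (4 / (2 + u)) :=
          mul_le_mul_of_nonneg_right hz (by positivity)
        have : 4 / (2 + u) ≤ 4 * σ / (2 + u) := by gcongr; linarith only [h]
        (clear c hc0 hc2 hσ h1u h2u e hz2 h4 h5 h6; linarith)
      have h8 : 0 ≤ 1 / σ ^ 2 * (4 / (2 + u) - 2 + 4 * (u / (1 + u))) := by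
        apply mul_nonneg (by (clear * - h; positivity))
        have : 4 / (2 + u) - 2 + 4 * (u / (1 + u)) = (2 * u * (3 + u)) / ((2 + u) * (1 + u)) := by
          field_simp; ring
        rw [this]; (clear * - hu; positivity)
      have e8 : 1 / σ ^ 2 * (4 / (2 + u) - 2 + 4 * (u / (1 + u)))
         = 1 / σ ^ 2 * (4 / (2 + u)) - 2 / σ ^ 2 + 4 / σ ^ 2 * (u / (1 + u)) := by ring
      rw [e8] at h8
      linarith only [h6, h7, h8]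
  have := mul_nonneg hu h3
  linarith

theorem Apos {m c σ y a u E N φ : ℝ} (hm : 15 ≤ m) (h : 1 ≤ σ) (hy : σ ^ 2 = 1 + y)
    (ha : 0 ≤ a) (hu : 0 ≤ u)
    (hE : 1 + 2 * a + 2 * a ^ 2 + 4 / 3 * a ^ 3 + 2 / 3 * a ^ 4 ≤ E)
    (hφ : φ ≤ u ^ 2 / (2 + u)) (hc0 : 0 ≤ c) (hc2 : c ≤ 1) (hN : -φ ≤ N) :
    -(ef m c σ y a u E N) ≤ y * a := by
  have hσ : 0 < σ := by linarith only [h]
  have hy0 : 0 ≤ y := by nlinarith only [h, hy]
  have h1 : 0 ≤ (m + 3) * (y / σ ^ 2) * (E - 1 - 2 * a) := by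
    have : 0 ≤ 2 * a ^ 2 + 4 / 3 * a ^ 3 + 2 / 3 * a ^ 4 := by positivity
    have : 0 ≤ E - 1 - 2 * a := by linarith
    have : 0 ≤ m + 3 := by linarith only [hm]
    (clear c u N φ hu hφ hc0 hc2 hN hσ this; positivity)
  have hWp : 0 ≤ u ^ 2 / (1 + u) := by positivity
  have h5 : 4 / σ ^ 2 * (u ^ 2 / (1 + u)) ≤ 4 * E / σ ^ 2 * (u ^ 2 / (1 + u)) := by
    apply mul_le_mul_of_nonneg_right _ hWp
    apply div_le_div_of_nonneg_right _ (by positivity)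
    have : 0 ≤ 2 * a + 2 * a ^ 2 + 4 / 3 * a ^ 3 + 2 / 3 * a ^ 4 := by (clear * - ha; positivity)
    linarith only [hE, this]
  have h6 := epos h hc0 hc2 hu
  have h7 := mul_le_mul_of_nonneg_right (r_le hm h hy hc2 hc0) ha
  have h8 : -(2 * c * σ * N) ≤ 2 * c * σ * (u ^ 2 / (2 + u)) := by
    have := mul_le_mul_of_nonneg_left (show -N ≤ u ^ 2 / (2 + u) by linarith only [hφ, hN]) (by (clear * - hc0 h; positivity) : 0 ≤ 2 * c * σ)
    linarith only [this]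
  unfold ef
  linarith

/-- general lower bound of `e`, `u ≤ 0` -/
theorem Aneg0 {m c σ y a u E N φ : ℝ} (hm : 15 ≤ m) (h : 1 ≤ σ) (hy : σ ^ 2 = 1 + y)
    (ha : 0 ≤ a) (hu : u ≤ 0) (hu1 : -1 < u)
    (hE : 1 + 2 * a + 2 * a ^ 2 + 4 / 3 * a ^ 3 + 2 / 3 * a ^ 4 ≤ E)
    (hc0 : 0 ≤ c) (hc2 : c ≤ 1) (hN : -φ ≤ N) (hφ0 : 0 ≤ φ) :
    -(ef m c σ y a u E N) ≤ (2 * (σ - 1) + 2 * (1 - 1 / σ ^ 2)) * (-u) + y * a
      + (2 * σ * φ - 4 / σ ^ 2 * (u ^ 2 / (1 + u))) := by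
  have hσ : 0 < σ := by linarith only [h]
  have hy0 : 0 ≤ y := by nlinarith only [h, hy]
  have hU : 0 < 1 + u := by linarith only [hu1]
  have h1 : 0 ≤ (m + 3) * (y / σ ^ 2) * (E - 1 - 2 * a) := by
    have : 0 ≤ 2 * a ^ 2 + 4 / 3 * a ^ 3 + 2 / 3 * a ^ 4 := by (clear * - ha; positivity)
    have : 0 ≤ E - 1 - 2 * a := by linarith
    have : 0 ≤ m + 3 := by linarith only [hm]
    (clear c u N φ hu hu1 hc0 hc2 hN hφ0 hσ hU this; positivity)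
  have hWp : 0 ≤ u ^ 2 / (1 + u) := by (clear * - hU; positivity)
  have h5 : 4 / σ ^ 2 * (u ^ 2 / (1 + u)) ≤ 4 * E / σ ^ 2 * (u ^ 2 / (1 + u)) := by
    apply mul_le_mul_of_nonneg_right _ hWp
    apply div_le_div_of_nonneg_right _ (by positivity)
    have : 0 ≤ 2 * a + 2 * a ^ 2 + 4 / 3 * a ^ 3 + 2 / 3 * a ^ 4 := by (clear * - ha; positivity)
    (clear * - hE this; linarith)
  have h7 := mul_le_mul_of_nonneg_right (r_le hm h hy hc2 hc0) ha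
  have h8 : -(2 * c * σ * N) ≤ 2 * σ * φ := by
    have g1 := mul_le_mul_of_nonneg_left (show -N ≤ φ by linarith only [hN]) (by (clear * - hc0 h; positivity) : 0 ≤ 2 * c * σ)
    have g2 : 2 * c * σ * φ ≤ 2 * σ * φ := by
      have : 0 ≤ σ * φ := by (clear * - h hφ0; positivity)
      nlinarith only [hc2, this]
    linarith only [g1, g2]
  have h9 := mul_le_mul_of_nonneg_right (q_le h hc2) (by linarith only [hu] : 0 ≤ -u)
  unfold ef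
  linarith only [h1, h5, h7, h8, h9]

/-- `ρ` lower bound -/
theorem rho_low {m y : ℝ} (hm : 15 ≤ m) (hy0 : 0 ≤ y) :
    0.2 + 0.5 * (m * y) + 13 / 150 * (m * y) ^ 2 ≤ rhof m y := by
  unfold rhof
  have : 13 / 150 * (m * y) ^ 2 ≤ 0.1 * (m * (m - 2) * y ^ 2) := by
    have : 0.1 * (m * (m - 2) * y ^ 2) - 13 / 150 * (m * y) ^ 2 = (m * (m - 15) / 75) * y ^ 2 := by ring
    have : 0 ≤ (m * (m - 15) / 75) * y ^ 2 := by
      have : 0 ≤ m - 15 := by linarith only [hm]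
      have : 0 ≤ m := by linarith only [hm]
      (clear * - hm; positivity)
    linarith only [this]
  (clear * - this; linarith)

theorem a_bound {m a : ℝ} (hm : 15 ≤ m) (ha2 : a ^ 2 ≤ 0.174 * m) : a ≤ 0.10771 * m := by
  have : a ^ 2 ≤ (0.10771 * m) ^ 2 := by nlinarith
  by_contra hcon
  push Not at hcon
  nlinarith only [hm, ha2, hcon]
end FNeg
end Vale.Agent.P237.AllN
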