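import Vale.Agent.P237.AllN.FNeg2

/-!
# P237, block D, region `l ≤ 0`, part 3: numerical inequalities
-/

set_option linter.all false

namespace Vale.Agent.P237.AllN
namespace FNeg


theorem regA0 {η : ℝ} (h0 : 0 ≤ η) (h1 : η ≤ 0.6) :
    0 ≤ 0.038 + 1.425 * η + 3.705 * η ^ 2 - 0.69445 * (η ^ 2 * (9 - 10.8 * η + 10.44 * η ^ 2))
      - 0.20699 * (η * (1 + η)) - η * (1 + η) / 18 * ((η / 4 + 1 / 30) ^ 2 + 6.4827) := by
  have h2 : 0 ≤ 0.6 - η := by linarith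
  nlinarith only [h0, mul_nonneg (mul_nonneg (mul_nonneg h0 h0) h0) h2]

theorem regA1 {η : ℝ} (h0 : 0 ≤ η) (h1 : η ≤ 0.6) :
    0 ≤ 0.038 + 1.425 * η + 3.705 * η ^ 2
      - 0.69445 * (η ^ 2 * (9 - 10.8 * η + 10.44 * η ^ 2)) * (1 - (0.322 + 0.465 * η))
      - 0.20699 * (η * (1 + η)) - η * (1 + η) / 18 * ((6.54 * (0.322 + 0.465 * η) + (η / 4 + 1 / 30)) ^ 2 + 6.4827) := by
  have h2 : 0 ≤ 0.6 - η := by linarith
  nlinarith only [mul_nonneg (mul_nonneg (mul_nonneg h0 h0) h0) h2, mul_nonneg h0 (sq_nonneg (η * (η - 0.5)))]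

theorem regA {η w : ℝ} (h0 : 0 ≤ η) (h1 : η ≤ 0.6) (hw0 : 0 ≤ w) (hw : w ≤ 0.322 + 0.465 * η) :
    0.69445 * (η ^ 2 * (9 - 10.8 * η + 10.44 * η ^ 2)) * (1 - w) + 0.20699 * (η * (1 + η))
      + η * (1 + η) / 18 * ((6.54 * w + (η / 4 + 1 / 30)) ^ 2 + 6.4827)
      ≤ 0.038 + 1.425 * η + 3.705 * η ^ 2 := by
  have hA := regA0 h0 h1
  have hB := regA1 h0 h1
  set wm := 0.322 + 0.465 * η with hwm
  have hwmp : 0 < wm := by rw [hwm]; positivity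
  set Q := 0.69445 * (η ^ 2 * (9 - 10.8 * η + 10.44 * η ^ 2)) with hQ
  set C := η * (1 + η) / 18 with hC
  have hC0 : 0 ≤ C := by rw [hC]; (clear * - h0; positivity)
  set r := η / 4 + 1 / 30 with hr
  have hr0 : 0 ≤ r := by rw [hr]; (clear * - h0; positivity)
  set S := 0.038 + 1.425 * η + 3.705 * η ^ 2 - 0.20699 * (η * (1 + η)) with hS
  have e : wm * (S - Q * (1 - w) - C * ((6.54 * w + r) ^ 2 + 6.4827))
      = (wm - w) * (S - Q - C * (r ^ 2 + 6.4827)) + w * (S - Q * (1 - wm) - C * ((6.54 * wm + r) ^ 2 + 6.4827))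
        + C * 6.54 ^ 2 * w * wm * (wm - w) := by ring
  have hA' : 0 ≤ S - Q - C * (r ^ 2 + 6.4827) := by rw [hS]; linarith only [hA]
  have hB' : 0 ≤ S - Q * (1 - wm) - C * ((6.54 * wm + r) ^ 2 + 6.4827) := by rw [hS]; linarith only [hB]
  have hfin : 0 ≤ wm * (S - Q * (1 - w) - C * ((6.54 * w + r) ^ 2 + 6.4827)) := by
    rw [e]
    have h5 := mul_nonneg (by linarith only [hw] : 0 ≤ wm - w) hA'
    have h6 := mul_nonneg hw0 hB'
    have h7 : 0 ≤ C * 6.54 ^ 2 * w * wm * (wm - w) := by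
      have : 0 ≤ wm - w := by linarith only [hw]
      (clear * - h0 hw0 hw; positivity)
    linarith only [h5, h6, h7]
  have := nonneg_of_mul_nonneg_right hfin hwmp
  rw [hS] at this
  linarith only [this]

/-- region B1: `η ≥ 0.6`, `w ≤ 0.3` -/
theorem regB1 {η : ℝ} (h0 : 0.6 ≤ η) :
    0.69445 * (η * (3 + η) / (1 + η)) ^ 2 + 0.20699 * (η * (1 + η))
      + η * (1 + η) / 18 * ((6.54 * 0.3 + 1) ^ 2 + 3)
      ≤ 0.038 + 1.425 * η + 3.705 * η ^ 2 := by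
  have h1 : 0 < 1 + η := by linarith only [h0]
  have e : 0.038 + 1.425 * η + 3.705 * η ^ 2 - (0.69445 * (η * (3 + η) / (1 + η)) ^ 2 + 0.20699 * (η * (1 + η))
      + η * (1 + η) / 18 * ((6.54 * 0.3 + 1) ^ 2 + 3))
      = ((0.038 + 1.425 * η + 3.705 * η ^ 2 - 0.20699 * (η * (1 + η))
      - η * (1 + η) / 18 * ((6.54 * 0.3 + 1) ^ 2 + 3)) * (1 + η) ^ 2 - 0.69445 * (η * (3 + η)) ^ 2) / (1 + η) ^ 2 := by
    field_simp
    ring
  have h2 : 0 ≤ ((0.038 + 1.425 * η + 3.705 * η ^ 2 - 0.20699 * (η * (1 + η))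
      - η * (1 + η) / 18 * ((6.54 * 0.3 + 1) ^ 2 + 3)) * (1 + η) ^ 2 - 0.69445 * (η * (3 + η)) ^ 2) := by
    obtain ⟨t, ht, rfl⟩ : ∃ t : ℝ, 0 ≤ t ∧ η = 0.6 + t := ⟨η - 0.6, by linarith only [h0], by ring⟩
    have : 0 ≤ t ^ 2 := by (clear * -; positivity)
    have : 0 ≤ t ^ 3 := by positivity
    have : 0 ≤ t ^ 4 := by positivity
    (clear h0 h1 e; nlinarith)
  have h3 := div_nonneg h2 (by positivity : 0 ≤ (1 + η) ^ 2)
  rw [← e] at h3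
  linarith only [h3]

theorem regB2a {η : ℝ} (h0 : 0.6 ≤ η) (h1' : η ≤ 1.3) :
    0.69445 * (η * (3 + η) / (1 + η)) ^ 2 * 0.7 + 0.20699 * (η * (1 + η))
      + η * (1 + η) / 18 * ((3.74 + 0.36) ^ 2 + 3)
      ≤ 0.038 + 1.425 * η + 3.705 * η ^ 2 := by
  have h1 : 0 < 1 + η := by linarith only [h0]
  have e : 0.038 + 1.425 * η + 3.705 * η ^ 2 - (0.69445 * (η * (3 + η) / (1 + η)) ^ 2 * 0.7 + 0.20699 * (η * (1 + η))
      + η * (1 + η) / 18 * ((3.74 + 0.36) ^ 2 + 3))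
      = ((0.038 + 1.425 * η + 3.705 * η ^ 2 - 0.20699 * (η * (1 + η))
      - η * (1 + η) / 18 * ((3.74 + 0.36) ^ 2 + 3)) * (1 + η) ^ 2 - 0.69445 * (η * (3 + η)) ^ 2 * 0.7) / (1 + η) ^ 2 := by
    field_simp
    ring
  have h2 : 0 ≤ ((0.038 + 1.425 * η + 3.705 * η ^ 2 - 0.20699 * (η * (1 + η))
      - η * (1 + η) / 18 * ((3.74 + 0.36) ^ 2 + 3)) * (1 + η) ^ 2 - 0.69445 * (η * (3 + η)) ^ 2 * 0.7) := by
    obtain ⟨t, ht, rfl⟩ : ∃ t : ℝ, 0 ≤ t ∧ η = 0.6 + t := ⟨η - 0.6, by linarith only [h0], by ring⟩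
    have : 0 ≤ t ^ 2 := by (clear * -; positivity)
    have : 0 ≤ t ^ 3 := by (clear * - ht; positivity)
    have : 0 ≤ t ^ 4 := by (clear * -; positivity)
    nlinarith
  have h3 := div_nonneg h2 (by positivity : 0 ≤ (1 + η) ^ 2)
  rw [← e] at h3
  linarith only [h3]

theorem regB2b {η : ℝ} (h0 : 1.3 ≤ η) :
    0.69445 * (η * (3 + η) / (1 + η)) ^ 2 * 0.7 + 0.20699 * (η * (1 + η))
      + η * (1 + η) / 18 * ((3.74 + 1) ^ 2 + 3)
      ≤ 0.038 + 1.425 * η + 3.705 * η ^ 2 := by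
  have h1 : 0 < 1 + η := by linarith
  have e : 0.038 + 1.425 * η + 3.705 * η ^ 2 - (0.69445 * (η * (3 + η) / (1 + η)) ^ 2 * 0.7 + 0.20699 * (η * (1 + η))
      + η * (1 + η) / 18 * ((3.74 + 1) ^ 2 + 3))
      = ((0.038 + 1.425 * η + 3.705 * η ^ 2 - 0.20699 * (η * (1 + η))
      - η * (1 + η) / 18 * ((3.74 + 1) ^ 2 + 3)) * (1 + η) ^ 2 - 0.69445 * (η * (3 + η)) ^ 2 * 0.7) / (1 + η) ^ 2 := by
    field_simp
    ring
  have h2 : 0 ≤ ((0.038 + 1.425 * η + 3.705 * η ^ 2 - 0.20699 * (η * (1 + η))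
      - η * (1 + η) / 18 * ((3.74 + 1) ^ 2 + 3)) * (1 + η) ^ 2 - 0.69445 * (η * (3 + η)) ^ 2 * 0.7) := by
    obtain ⟨t, ht, rfl⟩ : ∃ t : ℝ, 0 ≤ t ∧ η = 1.3 + t := ⟨η - 1.3, by linarith only [h0], by ring⟩
    have : 0 ≤ t ^ 2 := by (clear * -; positivity)
    have : 0 ≤ t ^ 3 := by positivity
    have : 0 ≤ t ^ 4 := by positivity
    (clear h0 h1 e; nlinarith)
  have h3 := div_nonneg h2 (by positivity : 0 ≤ (1 + η) ^ 2)
  rw [← e] at h3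
  linarith only [h3]


theorem cs3 {x z P Q X Z : ℝ} (hP : 0 ≤ P) (hQ : 0 ≤ Q) (hX : 0 ≤ X) (hZ : 0 ≤ Z)
    (h1 : x ^ 2 ≤ P * X) (h2 : z ^ 2 ≤ Q * Z) : (x + z) ^ 2 ≤ (P + Q) * (X + Z) := by
  have h3 : (x * z) ^ 2 ≤ (P * Z) * (Q * X) := by
    have : (x * z) ^ 2 = x ^ 2 * z ^ 2 := by ring
    rw [this]
    calc x ^ 2 * z ^ 2 ≤ (P * X) * (Q * Z) := mul_le_mul h1 h2 (sq_nonneg _) (by (clear * - hP hX; positivity))
      _ = (P * Z) * (Q * X) := by ring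
  have h4 : 2 * (x * z) ≤ P * Z + Q * X := by
    have h5 : (2 * (x * z)) ^ 2 ≤ (P * Z + Q * X) ^ 2 := by
      nlinarith only [h3, sq_nonneg (P * Z - Q * X)]
    have h6 : 0 ≤ P * Z + Q * X := by positivity
    by_contra hcon
    push Not at hcon
    nlinarith only [h5, h6, hcon]
  linarith

/-- `(p + k a)² ≤ (p² + 3k²)(1 + 2a/3 + a²/3)` -/
theorem pk_le {p k a : ℝ} (ha : 0 ≤ a) :
    (p + k * a) ^ 2 ≤ (p ^ 2 + 3 * k ^ 2) * (1 + 2 / 3 * a + 1 / 3 * a ^ 2) := by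
  have h1 : 0 ≤ a * (p - 3 / 2 * k) ^ 2 := by positivity
  have h2 : 0 ≤ a * k ^ 2 := by (clear * - ha; positivity)
  have h3 : 0 ≤ p ^ 2 * a ^ 2 := by positivity
  have h4 : 0 ≤ k ^ 2 := by positivity
  linarith

theorem alpha_le {u qb K σ : ℝ} (hu : 0 ≤ u) (hqb : 0 ≤ qb) (hK : 0 ≤ K) (hσ : 0 ≤ σ) :
    ((u / (1 + u)) * (qb * (2 / (2 + u)) + K * σ * (u * (1 + u) / (2 + u)))) ^ 2
      ≤ 0.69445 * (qb ^ 2 * (1 / (1 + u)) + (K * σ * u) ^ 2) * (1.8 * (u ^ 2 / (1 + u))) := by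
  set α1 := qb * (2 / (2 + u)) with hα1
  set α2 := K * σ * (u * (1 + u) / (2 + u)) with hα2
  have h1u : 0 < 1 + u := by linarith only [hu]
  have h2u : 0 < 2 + u := by linarith only [hu]
  have h1 : (α1 + α2) ^ 2 ≤ 1.25 * α1 ^ 2 + 5 * α2 ^ 2 := by nlinarith only [sq_nonneg (α1 - 4 * α2)]
  have h2 : α1 ^ 2 ≤ qb ^ 2 := by
    apply pow_le_pow_left₀ (by positivity)
    rw [hα1]
    have : 2 / (2 + u) ≤ 1 := by rw [div_le_one h2u]; linarith only [hu]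
    nlinarith only [hqb, this]
  have h3 : α2 ^ 2 ≤ (K * σ * u) ^ 2 * ((1 + u) / 4) := by
    have e : α2 ^ 2 = (K * σ * u) ^ 2 * ((1 + u) ^ 2 / (2 + u) ^ 2) := by
      rw [hα2]; (clear * - hu; field_simp)
    rw [e]
    apply mul_le_mul_of_nonneg_left _ (sq_nonneg _)
    rw [div_le_div_iff₀ (by positivity) (by norm_num)]
    nlinarith only [mul_nonneg h1u.le (sq_nonneg u)]
  have h4 : 1.25 * α1 ^ 2 + 5 * α2 ^ 2 ≤ 0.69445 * (qb ^ 2 * (1 / (1 + u)) + (K * σ * u) ^ 2) * (1.8 * (1 + u)) := by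
    have e : 0.69445 * (qb ^ 2 * (1 / (1 + u)) + (K * σ * u) ^ 2) * (1.8 * (1 + u))
        = 0.69445 * 1.8 * qb ^ 2 + 0.69445 * 1.8 * ((K * σ * u) ^ 2 * (1 + u)) := by
      (clear * - hu; field_simp)
    rw [e]
    have : 0 ≤ (K * σ * u) ^ 2 * (1 + u) := by (clear * - hu; positivity)
    have : 0 ≤ qb ^ 2 := by (clear * -; positivity)
    linarith
  have e : ((u / (1 + u)) * (α1 + α2)) ^ 2 = (u / (1 + u)) ^ 2 * (α1 + α2) ^ 2 := by ring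
  rw [e]
  calc (u / (1 + u)) ^ 2 * (α1 + α2) ^ 2
      ≤ (u / (1 + u)) ^ 2 * (0.69445 * (qb ^ 2 * (1 / (1 + u)) + (K * σ * u) ^ 2) * (1.8 * (1 + u))) :=
        mul_le_mul_of_nonneg_left (h1.trans h4) (sq_nonneg _)
    _ = 0.69445 * (qb ^ 2 * (1 / (1 + u)) + (K * σ * u) ^ 2) * (1.8 * (u ^ 2 / (1 + u))) := by
        (clear * - hu; field_simp)

theorem beta_le {m y σ a p0 k : ℝ} (hm : 15 ≤ m) (hσ : 1 ≤ σ) (hy : σ ^ 2 = 1 + y) (hy0 : 0 < y)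
    (ha : 0 ≤ a) :
    (a * (y * (p0 + k * a))) ^ 2 ≤ (y * (1 + y) / (m + 3)) * (p0 ^ 2 + 3 * k ^ 2)
      * ((m + 3) * (y / σ ^ 2) * (a ^ 2 * (1 + 2 / 3 * a + 1 / 3 * a ^ 2))) := by
  have hm3 : 0 < m + 3 := by linarith
  have h1 := pk_le (p := p0) (k := k) ha
  have e : (y * (1 + y) / (m + 3)) * (p0 ^ 2 + 3 * k ^ 2)
      * ((m + 3) * (y / σ ^ 2) * (a ^ 2 * (1 + 2 / 3 * a + 1 / 3 * a ^ 2)))
      = (a * y) ^ 2 * ((p0 ^ 2 + 3 * k ^ 2) * (1 + 2 / 3 * a + 1 / 3 * a ^ 2)) := by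
    rw [hy]
    have : (1 + y) ≠ 0 := by linarith only [hy0]
    (clear * - this hm ha hy0; field_simp)
  rw [e]
  have e2 : (a * (y * (p0 + k * a))) ^ 2 = (a * y) ^ 2 * (p0 + k * a) ^ 2 := by ring
  rw [e2]
  exact mul_le_mul_of_nonneg_left h1 (sq_nonneg _)

theorem qb_nonneg {σ : ℝ} (h : 1 ≤ σ) : 0 ≤ 2 * (σ - 1) + 2 * (1 - 1 / σ ^ 2) := by
  have : 1 / σ ^ 2 ≤ 1 := by rw [div_le_one (by positivity)]; nlinarith
  linarith

/-- `(P2)` from its numerical form -/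
theorem P2core {m σ y a u K p0 k cc ρ : ℝ} (hm : 15 ≤ m) (h : 1 ≤ σ) (hy : σ ^ 2 = 1 + y)
    (hy0 : 0 < y) (ha : 0 ≤ a) (hu : 0 ≤ u) (hK : 0 ≤ K)
    (hp : 6 * y * (1 + 2 * y) / σ ^ 3 * (u / (1 + u)) + (σ - 1) * (σ - 1 + 1 / m) ≤ y * p0)
    (hk : cc + 3 * (y / σ) ^ 3 * (7 - (m - 3) * y) ≤ y * k)
    (hp0 : 0 ≤ p0) (hk0 : 0 ≤ k)
    (hfin : 0.69445 * ((2 * (σ - 1) + 2 * (1 - 1 / σ ^ 2)) ^ 2 * (1 / (1 + u)) + (K * σ * u) ^ 2)
      + y * (1 + y) / (m + 3) * (p0 ^ 2 + 3 * k ^ 2) ≤ 0.19 * ρ) {P : ℝ} (hPle : P ≤ 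
      (u / (1 + u)) * ((2 * (σ - 1) + 2 * (1 - 1 / σ ^ 2)) * (2 / (2 + u)) + K * σ * (u * (1 + u) / (2 + u)))
      + a * (6 * y * (1 + 2 * y) / σ ^ 3 * (u / (1 + u)) + (cc + 3 * (y / σ) ^ 3 * (7 - (m - 3) * y)) * a
        + (σ - 1) * (σ - 1 + 1 / m))) (hP0 : 0 < P) :
    P ^ 2 ≤ 0.19 * ρ * (1.8 * (u ^ 2 / (1 + u)) + (m + 3) * (y / σ ^ 2) * (a ^ 2 * (1 + 2 / 3 * a + 1 / 3 * a ^ 2))) := by
  have hσ : 0 < σ := by linarith only [h]
  have hm3 : 0 < m + 3 := by linarith only [hm]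
  have hqb := qb_nonneg h
  have h1 := alpha_le (u := u) hu hqb hK hσ.le
  have h2 := beta_le (p0 := p0) (k := k) hm h hy hy0 ha
  set qb := 2 * (σ - 1) + 2 * (1 - 1 / σ ^ 2) with hqbd
  set X := (u / (1 + u)) * (qb * (2 / (2 + u)) + K * σ * (u * (1 + u) / (2 + u))) with hX
  have h3 : P ≤ X + a * (y * (p0 + k * a)) := by
    refine hPle.trans ?_
    have g1 : (6 * y * (1 + 2 * y) / σ ^ 3 * (u / (1 + u)) + (cc + 3 * (y / σ) ^ 3 * (7 - (m - 3) * y)) * a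
        + (σ - 1) * (σ - 1 + 1 / m)) ≤ y * (p0 + k * a) := by
      have := mul_le_mul_of_nonneg_right hk ha
      linarith only [hp, this]
    have := mul_le_mul_of_nonneg_left g1 ha
    linarith only [this]
  have h4 : (X + a * (y * (p0 + k * a))) ^ 2 ≤ _ := cs3 (by (clear * - hu; positivity)) (by (clear * - hy0 hm; positivity)) (by (clear * - hu; positivity)) (by (clear * - hm hy0 h ha; positivity)) h1 h2
  have h5 : P ^ 2 ≤ (X + a * (y * (p0 + k * a))) ^ 2 := pow_le_pow_left₀ hP0.le h3 2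
  refine h5.trans (h4.trans ?_)
  apply mul_le_mul_of_nonneg_right hfin
  (clear * - hu hm hy0 h ha; positivity)

/-- `K²σ²u² ≤ .29806 η(1+η)` -/
theorem Ksu {m y σ u K : ℝ} (hm : 15 ≤ m) (hσ1 : 1 ≤ σ) (hy : σ ^ 2 = 1 + y) (hy0 : 0 < y)
    (hK : 0 ≤ K) (hK2 : K * m ≤ 5.286) (hu2 : u ^ 2 ≤ 0.16 * (m * y)) :
    (K * σ * u) ^ 2 ≤ 0.29806 * ((m * y / 15) * (1 + m * y / 15)) := by
  have hm0 : 0 < m := by linarith only [hm]
  have h1 : (K * m) ^ 2 ≤ 27.942 := by nlinarith only [hK2, mul_nonneg hK hm0.le]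
  have h2 : K ^ 2 * m ≤ 27.942 / 15 := by
    have : K ^ 2 * m * 15 ≤ (K * m) ^ 2 := by nlinarith only [hm]
    (clear * - h1 this; linarith)
  have h3 : K ^ 2 * u ^ 2 ≤ 27.942 / 15 * (0.16 * y) := by
    have g1 : K ^ 2 * u ^ 2 ≤ K ^ 2 * (0.16 * (m * y)) := mul_le_mul_of_nonneg_left hu2 (sq_nonneg K)
    have g2 : K ^ 2 * (0.16 * (m * y)) = K ^ 2 * m * (0.16 * y) := by ring
    rw [g2] at g1
    exact g1.trans (mul_le_mul_of_nonneg_right h2 (by positivity))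
  have e : (K * σ * u) ^ 2 = K ^ 2 * u ^ 2 * (1 + y) := by rw [← hy]; ring
  rw [e]
  have h4 : y ≤ m * y / 15 := by nlinarith only [hm, hy0]
  have h5 : K ^ 2 * u ^ 2 * (1 + y) ≤ 27.942 / 15 * (0.16 * y) * (1 + y) :=
    mul_le_mul_of_nonneg_right h3 (by linarith only [hy0])
  have h6 : y * (1 + y) ≤ (m * y / 15) * (1 + m * y / 15) := by
    apply mul_le_mul h4 (by linarith only [h4]) (by linarith only [hy0]) (by positivity)
  nlinarith only [e, h5, h6]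

theorem qb_eta {m y σ : ℝ} (hm : 15 ≤ m) (hσ1 : 1 ≤ σ) (hy : σ ^ 2 = 1 + y) (hy0 : 0 < y) :
    2 * (σ - 1) + 2 * (1 - 1 / σ ^ 2) ≤ (m * y / 15) * (3 + m * y / 15) / (1 + m * y / 15) := by
  have h1 := sqb hσ1 hy
  have h4 : y ≤ m * y / 15 := by nlinarith only [hm, hy0]
  set η := m * y / 15 with hη
  have hη0 : 0 < η := by linarith only [hy0, h4]
  refine h1.trans ?_
  have e1 : y + 2 * y / (1 + y) = y + 2 - 2 / (1 + y) := by field_simp; ring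
  have e2 : η * (3 + η) / (1 + η) = η + 2 - 2 / (1 + η) := by field_simp; ring
  rw [e1, e2]
  have : 2 / (1 + η) ≤ 2 / (1 + y) := by
    apply div_le_div_of_nonneg_left (by norm_num) (by linarith only [hy0]) (by linarith only [h4])
  linarith only [h4, this]

theorem qb_eta2 {η : ℝ} (hη0 : 0 ≤ η) (h1 : η ≤ 0.6) :
    (η * (3 + η) / (1 + η)) ^ 2 ≤ η ^ 2 * (9 - 10.8 * η + 10.44 * η ^ 2) := by
  have h2 : (3 + η) / (1 + η) ≤ 3 - 1.8 * η + 1.2 * η ^ 2 := by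
    rw [div_le_iff₀ (by linarith only [hη0])]
    nlinarith only [mul_nonneg hη0 (sq_nonneg (η - 0.25))]
  have h3 : 0 ≤ (3 + η) / (1 + η) := by positivity
  have h4 : ((3 + η) / (1 + η)) ^ 2 ≤ (3 - 1.8 * η + 1.2 * η ^ 2) ^ 2 := pow_le_pow_left₀ h3 h2 2
  have h5 : (3 - 1.8 * η + 1.2 * η ^ 2) ^ 2 ≤ 9 - 10.8 * η + 10.44 * η ^ 2 := by
    have : 0 ≤ η ^ 3 * (3 - η) := by
      have : 0 ≤ 3 - η := by linarith only [h1]
      positivity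
    nlinarith only [this]
  have e : (η * (3 + η) / (1 + η)) ^ 2 = η ^ 2 * ((3 + η) / (1 + η)) ^ 2 := by ring
  rw [e]
  exact mul_le_mul_of_nonneg_left (h4.trans h5) (sq_nonneg _)

theorem C_eta {m y : ℝ} (hm : 15 ≤ m) (hy0 : 0 < y) :
    y * (1 + y) / (m + 3) ≤ (m * y / 15) * (1 + m * y / 15) / 18 := by
  have h4 : y ≤ m * y / 15 := by nlinarith
  have h6 : y * (1 + y) ≤ (m * y / 15) * (1 + m * y / 15) := by
    apply mul_le_mul h4 (by linarith) (by linarith only [hy0]) (by positivity)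
  apply div_le_div₀ (by positivity) h6 (by norm_num) (by linarith only [hm])

/-- `(σ-1)(σ-1+1/m) ≤ y (η/4+1/30)` and `≤ y` -/
theorem rm1 {m y σ : ℝ} (hm : 15 ≤ m) (hσ1 : 1 ≤ σ) (hy : σ ^ 2 = 1 + y) (hy0 : 0 < y) :
    (σ - 1) * (σ - 1 + 1 / m) ≤ y * (m * y / 15 / 4 + 1 / 30) := by
  have hm0 : 0 < m := by linarith only [hm]
  have h1 : σ - 1 ≤ y / 2 := by nlinarith only [hy, sq_nonneg (σ - 1)]
  have h2 : 1 / m ≤ 1 / 15 := by
    apply div_le_div_of_nonneg_left (by norm_num) (by norm_num) hm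
  have h3 : (σ - 1) * (σ - 1 + 1 / m) ≤ (y / 2) * (y / 2 + 1 / 15) := by
    apply mul_le_mul h1 (by linarith) _ (by linarith only [hy0])
    have : 0 ≤ 1 / m := by positivity
    linarith only [hσ1, this]
  have h4 : y ≤ m * y / 15 := by nlinarith only [hm, hy0]
  nlinarith only [hσ1, h1, h2, h4]

theorem rm2 {m y σ : ℝ} (hm : 15 ≤ m) (hσ1 : 1 ≤ σ) (hy : σ ^ 2 = 1 + y) (hy0 : 0 < y) :
    (σ - 1) * (σ - 1 + 1 / m) ≤ y * 1 := by
  have h2 : 1 / m ≤ 1 / 15 := by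
    apply div_le_div_of_nonneg_left (by norm_num) (by norm_num) hm
  have e : y = (σ - 1) * (σ + 1) := by (clear * - hy; linarith)
  rw [e, mul_one]
  apply mul_le_mul_of_nonneg_left (by linarith) (by linarith only [hσ1])

theorem kk1 {m y σ cc : ℝ} (hm : 15 ≤ m) (hσ1 : 1 ≤ σ) (hy : σ ^ 2 = 1 + y) (hy0 : 0 < y)
    (hc : cc ≤ y * (1 + y) / 2) :
    cc + 3 * (y / σ) ^ 3 * (7 - (m - 3) * y) ≤ y * 1.47 := by
  have h1 := sA2 hσ1 hy hc
  have : 3 * (y / σ) ^ 3 * (7 - (m - 3) * y) ≤ 3 * (y / σ) ^ 3 * (7 - 12 * y) := by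
    apply mul_le_mul_of_nonneg_left _ (by (clear * - hy0 hσ1; positivity))
    nlinarith only [hm, hy0]
  linarith

theorem kk2 {m y σ cc : ℝ} (hm : 15 ≤ m) (hσ1 : 1 ≤ σ) (hy : σ ^ 2 = 1 + y) (hy0 : 0 < y)
    (hc : cc ≤ y * (1 + y) / 2) (hη : 0.6 ≤ m * y / 15) :
    cc + 3 * (y / σ) ^ 3 * (7 - (m - 3) * y) ≤ y * 1 := by
  rcases le_total y 1 with h1 | h1
  · have h2 : 7 - (m - 3) * y ≤ 0 := by nlinarith
    have h3 : 3 * (y / σ) ^ 3 * (7 - (m - 3) * y) ≤ 0 :=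
      mul_nonpos_of_nonneg_of_nonpos (by positivity) h2
    nlinarith only [hc, h3, hy0, h1]
  · have h2 := sA2' hσ1 hy hc h1
    have : 3 * (y / σ) ^ 3 * (7 - (m - 3) * y) ≤ 3 * (y / σ) ^ 3 * (7 - 12 * y) := by
      apply mul_le_mul_of_nonneg_left _ (by (clear * - hy0 hσ1; positivity))
      nlinarith only [hm, hy0]
    linarith

/-- existence of `p0, k` -/
theorem P2num {m y σ u K cc ρ : ℝ} (hm : 15 ≤ m) (h : 1 ≤ σ) (hy : σ ^ 2 = 1 + y)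
    (hy0 : 0 < y) (hu : 0 ≤ u) (hu1 : u ≤ σ) (hK : 0 ≤ K) (hK2 : K * m ≤ 5.286)
    (hu2 : u ^ 2 ≤ 0.16 * (m * y)) (hc : cc ≤ y * (1 + y) / 2)
    (hρ : 0.2 + 0.5 * (m * y) + 13 / 150 * (m * y) ^ 2 ≤ ρ) :
    ∃ p0 k : ℝ, 0 ≤ p0 ∧ 1 ≤ k ∧
      6 * y * (1 + 2 * y) / σ ^ 3 * (u / (1 + u)) + (σ - 1) * (σ - 1 + 1 / m) ≤ y * p0 ∧
      cc + 3 * (y / σ) ^ 3 * (7 - (m - 3) * y) ≤ y * k ∧
      0.69445 * ((2 * (σ - 1) + 2 * (1 - 1 / σ ^ 2)) ^ 2 * (1 / (1 + u)) + (K * σ * u) ^ 2)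
      + y * (1 + y) / (m + 3) * (p0 ^ 2 + 3 * k ^ 2) ≤ 0.19 * ρ := by
  have hm0 : 0 < m := by linarith only [hm]
  have hσ : 0 < σ := by linarith only [h]
  have hKsu := Ksu hm h hy hy0 hK hK2 hu2
  have hqe := qb_eta hm h hy hy0
  have hq0 := qb_nonneg h
  have hCe := C_eta hm hy0
  have hr1 := rm1 hm h hy hy0
  have hr2 := rm2 hm h hy hy0
  have hA1 := sA1 h hy
  have hA1w := sA1w h hy hu hu1
  have hw0 : 0 ≤ u / (1 + u) := by (clear * - hu; positivity)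
  have hw1 : u / (1 + u) ≤ 1 := by rw [div_le_one (by linarith only [hu])]; linarith only []
  have hwe : 1 / (1 + u) = 1 - u / (1 + u) := by field_simp; ring
  have hwb := wbound hu hu2
  have hA1b : 6 * y * (1 + 2 * y) / σ ^ 3 * (u / (1 + u)) ≤ 6.54 * y * (u / (1 + u)) :=
    mul_le_mul_of_nonneg_right hA1 hw0
  set η := m * y / 15 with hη
  have hη0 : 0 < η := by positivity
  have hmy : m * y = 15 * η := by rw [hη]; ring
  have hηη : 0 ≤ η * (1 + η) := by positivity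
  have hρ' : 0.2 + 7.5 * η + 19.5 * η ^ 2 ≤ ρ := by rw [hmy] at hρ; nlinarith only [hρ]
  set w := u / (1 + u) with hw
  rw [hwe]
  set qb := 2 * (σ - 1) + 2 * (1 - 1 / σ ^ 2) with hqb
  have hqb2 : qb ^ 2 ≤ (η * (3 + η) / (1 + η)) ^ 2 := pow_le_pow_left₀ hq0 hqe 2
  have h1w : 0 ≤ 1 - w := by linarith only [hw1]
  rcases le_total η 0.6 with hη6 | hη6
  · -- region A
    refine ⟨6.54 * w + (η / 4 + 1 / 30), 1.47, by (clear * - hu hm hy0; positivity), by norm_num, ?_, kk1 hm h hy hy0 hc, ?_⟩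
    · linarith only [hr1, hA1b]
    · have hwm : w ≤ 0.322 + 0.465 * η := by rw [hmy] at hwb; linarith only [hwb]
      have hR := regA hη0.le hη6 hw0 hwm
      have hq3 := hqb2.trans (qb_eta2 hη0.le hη6)
      have g1 : qb ^ 2 * (1 - w) ≤ η ^ 2 * (9 - 10.8 * η + 10.44 * η ^ 2) * (1 - w) :=
        mul_le_mul_of_nonneg_right hq3 h1w
      have g2 : y * (1 + y) / (m + 3) * ((6.54 * w + (η / 4 + 1 / 30)) ^ 2 + 3 * 1.47 ^ 2)
          ≤ η * (1 + η) / 18 * ((6.54 * w + (η / 4 + 1 / 30)) ^ 2 + 3 * 1.47 ^ 2) :=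
        mul_le_mul_of_nonneg_right hCe (by (clear * - hu hm hy0; positivity))
      have e3 : (3 * 1.47 ^ 2 : ℝ) = 6.4827 := by norm_num
      rw [e3] at g2 ⊢
      linarith only [hKsu, hηη, hρ', hR, g1, g2]
  · rcases le_total w 0.3 with hw3 | hw3
    · -- region B1
      refine ⟨6.54 * 0.3 + 1, 1, by norm_num, by norm_num, ?_, kk2 hm h hy hy0 hc hη6, ?_⟩
      · have := mul_le_mul_of_nonneg_left hw3 (by positivity : 0 ≤ 6.54 * y)
        linarith only [hr2, hA1b, this]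
      · have hR := regB1 hη6
        have g1 : qb ^ 2 * (1 - w) ≤ (η * (3 + η) / (1 + η)) ^ 2 := by
          calc qb ^ 2 * (1 - w) ≤ (η * (3 + η) / (1 + η)) ^ 2 * 1 :=
                mul_le_mul hqb2 (by linarith only [hw0]) h1w (by (clear * - hm hy0; positivity))
            _ = _ := by ring
        have g2 : y * (1 + y) / (m + 3) * ((6.54 * 0.3 + 1) ^ 2 + 3 * 1 ^ 2)
            ≤ η * (1 + η) / 18 * ((6.54 * 0.3 + 1) ^ 2 + 3 * 1 ^ 2) :=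
          mul_le_mul_of_nonneg_right hCe (by positivity)
        have e3 : (3 * 1 ^ 2 : ℝ) = 3 := by norm_num
        rw [e3] at g2 ⊢
        linarith only [hKsu, hCe, hηη, hρ', hR, g1]
    · have g1 : qb ^ 2 * (1 - w) ≤ (η * (3 + η) / (1 + η)) ^ 2 * 0.7 :=
        mul_le_mul hqb2 (by linarith only [hw3]) h1w (by positivity)
      rcases le_total η 1.3 with hη13 | hη13
      · refine ⟨3.74 + 0.36, 1, by norm_num, by norm_num, ?_, kk2 hm h hy hy0 hc hη6, ?_⟩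
        · have : y * (η / 4 + 1 / 30) ≤ y * 0.36 := by
            apply mul_le_mul_of_nonneg_left _ hy0.le
            linarith only [hη13]
          linarith only [hr1, hA1w, this]
        · have hR := regB2a hη6 hη13
          have g2 : y * (1 + y) / (m + 3) * ((3.74 + 0.36) ^ 2 + 3 * 1 ^ 2)
              ≤ η * (1 + η) / 18 * ((3.74 + 0.36) ^ 2 + 3 * 1 ^ 2) :=
            mul_le_mul_of_nonneg_right hCe (by positivity)
          have e3 : (3 * 1 ^ 2 : ℝ) = 3 := by norm_num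
          rw [e3] at g2 ⊢
          linarith only [hKsu, hCe, hηη, hρ', g1, hR]
      · refine ⟨3.74 + 1, 1, by norm_num, by norm_num, ?_, kk2 hm h hy hy0 hc hη6, ?_⟩
        · linarith only [hr2, hA1w]
        · have hR := regB2b hη13
          have g2 : y * (1 + y) / (m + 3) * ((3.74 + 1) ^ 2 + 3 * 1 ^ 2)
              ≤ η * (1 + η) / 18 * ((3.74 + 1) ^ 2 + 3 * 1 ^ 2) :=
            mul_le_mul_of_nonneg_right hCe (by positivity)
          have e3 : (3 * 1 ^ 2 : ℝ) = 3 := by norm_num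
          rw [e3] at g2 ⊢
          linarith only [hKsu, hCe, hηη, hρ', g1, hR]
end FNeg
end Vale.Agent.P237.AllN
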