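import Vale.Agent.P237.AllN.FNeg3

/-!
# P237, block D, region `l ≤ 0`, part 4: numerical inequalities
-/

set_option linter.all false

namespace Vale.Agent.P237.AllN
namespace FNeg


theorem p1fin {η : ℝ} (hη : 0 ≤ η) {V : ℝ} (hV : V ≤ 7.83 * η ^ 3 * (7 - 12 * η) ∨ V ≤ 0) :
    6.2163 * η + 6.8339 * η ^ 2 + V ≤ 0.8 * (0.2 + 7.5 * η + 19.5 * η ^ 2) := by
  rcases hV with h | h
  · have := p1poly hη
    nlinarith [sq_nonneg η]
  · nlinarith only [h]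

theorem t1_le {σ y u η : ℝ} (h : 1 ≤ σ) (hy : σ ^ 2 = 1 + y) (hy0 : 0 < y) (hy4 : y ≤ η) (hu : 0 ≤ u) :
    (u / (1 + u)) * ((2 * (σ - 1) + 2 * (1 - 1 / σ ^ 2)) * (2 / (2 + u))) ≤ 1.032 * η := by
  have g1 : (u / (1 + u)) * (2 / (2 + u)) ≤ 0.344 := by
    rw [div_mul_div_comm, div_le_iff₀ (by (clear * - hu; positivity))]
    nlinarith only [sq_nonneg (u - 1.41)]
  have g2 := sqb3 h
  have g3 := qb_nonneg h
  have e : σ ^ 2 - 1 = y := by linarith only [hy]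
  rw [e] at g2
  have g4 : (2 * (σ - 1) + 2 * (1 - 1 / σ ^ 2)) * ((u / (1 + u)) * (2 / (2 + u))) ≤ (3 * y) * 0.344 :=
    mul_le_mul g2 g1 (by (clear * - hu; positivity)) (by positivity)
  have e2 : (u / (1 + u)) * ((2 * (σ - 1) + 2 * (1 - 1 / σ ^ 2)) * (2 / (2 + u)))
    = (2 * (σ - 1) + 2 * (1 - 1 / σ ^ 2)) * ((u / (1 + u)) * (2 / (2 + u))) := by ring
  rw [e2]; linarith only [hy4, g4]

theorem t2_le {m σ y u η K : ℝ} (h : 1 ≤ σ) (hm0 : 0 < m) (hy : σ ^ 2 = 1 + y) (hy0 : 0 < y) (hy4 : y ≤ η)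
    (hu : 0 ≤ u) (hK : 0 ≤ K) (hK2 : K * m ≤ 5.286) (hu2 : u ^ 2 ≤ 0.16 * (m * y)) :
    (u / (1 + u)) * (K * σ * (u * (1 + u) / (2 + u))) ≤ 0.42288 * η + 0.21144 * η ^ 2 := by
  have hσ : 0 < σ := by linarith only [h]
  have e : (u / (1 + u)) * (K * σ * (u * (1 + u) / (2 + u))) = K * σ * (u ^ 2 / (2 + u)) := by
    have : (1 + u) ≠ 0 := by linarith only [hu]
    have : (2 + u) ≠ 0 := by linarith only [hu]
    field_simp
  rw [e]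
  have g1 : u ^ 2 / (2 + u) ≤ 0.08 * (m * y) := by
    rw [div_le_iff₀ (by linarith only [hu])]
    have : 0 ≤ (m * y) * u := by (clear * - hm0 hy0 hu; positivity)
    nlinarith only [hu2, this]
  have g2 : σ ≤ 1 + y / 2 := by nlinarith only [hy, sq_nonneg (σ - 1)]
  have g3 : K * σ * (u ^ 2 / (2 + u)) ≤ K * σ * (0.08 * (m * y)) :=
    mul_le_mul_of_nonneg_left g1 (by (clear * - hK h; positivity))
  have g4 : K * σ * (0.08 * (m * y)) = (K * m) * (0.08 * σ * y) := by ring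
  have g5 : (K * m) * (0.08 * σ * y) ≤ 5.286 * (0.08 * σ * y) :=
    mul_le_mul_of_nonneg_right hK2 (by positivity)
  have g6 : σ * y ≤ (1 + η / 2) * η := by
    apply mul_le_mul (by linarith only [hy4, g2]) hy4 hy0.le (by linarith only [hy0, hy4])
  rw [g4] at g3
  linarith only [g3, g5, g6]

theorem t3_le {m σ y u η a : ℝ} (h : 1 ≤ σ) (hy : σ ^ 2 = 1 + y) (hη0 : 0 < η)
    (hmy : m * y = 15 * η) (hay : a * y ≤ 1.61565 * η) (ha : 0 ≤ a) (hay0 : 0 ≤ a * y)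
    (hu : 0 ≤ u) (hu2 : u ^ 2 ≤ 0.16 * (m * y)) :
    a * (6 * y * (1 + 2 * y) / σ ^ 3 * (u / (1 + u))) ≤ 3.4025 * η + 4.9135 * η ^ 2 := by
  have g1 := sA1 h hy
  have g2 := wbound hu hu2
  have hw0 : 0 ≤ u / (1 + u) := by (clear * - hu; positivity)
  rw [hmy] at g2
  have g3 : a * (6 * y * (1 + 2 * y) / σ ^ 3 * (u / (1 + u))) ≤ a * (6.54 * y * (u / (1 + u))) := by
    apply mul_le_mul_of_nonneg_left _ ha
    exact mul_le_mul_of_nonneg_right g1 hw0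
  have g4 : a * (6.54 * y * (u / (1 + u))) = 6.54 * ((a * y) * (u / (1 + u))) := by ring
  have g5 : (a * y) * (u / (1 + u)) ≤ (1.61565 * η) * (0.322 + 0.031 * (15 * η)) :=
    mul_le_mul hay g2 hw0 (by positivity)
  rw [g4] at g3
  have : 0 ≤ η ^ 2 := sq_nonneg η
  linarith only [hη0, g3, g5, this]

theorem t5_le {m σ y η a : ℝ} (hm : 15 ≤ m) (h : 1 ≤ σ) (hy : σ ^ 2 = 1 + y) (hy0 : 0 < y)
    (hη : η = m * y / 15) (hη0 : 0 < η) (hay : a * y ≤ 1.61565 * η) (ha : 0 ≤ a) :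
    a * ((σ - 1) * (σ - 1 + 1 / m)) ≤ 0.053856 * η + 0.403913 * η ^ 2 := by
  have g1 := rm1 hm h hy hy0
  have g2 := mul_le_mul_of_nonneg_left g1 ha
  have g3 : a * (y * (m * y / 15 / 4 + 1 / 30)) = (a * y) * (η / 4 + 1 / 30) := by
    rw [hη]; ring
  have g4 : (a * y) * (η / 4 + 1 / 30) ≤ (1.61565 * η) * (η / 4 + 1 / 30) :=
    mul_le_mul_of_nonneg_right hay (by (clear * - hη0; positivity))
  rw [g3] at g2
  have : 0 ≤ η ^ 2 := sq_nonneg η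
  linarith only [hη0, g2, g4, this]

theorem t4_le {m σ y η a cc : ℝ} (hm : 15 ≤ m) (h : 1 ≤ σ) (hy : σ ^ 2 = 1 + y) (hy0 : 0 < y)
    (hη : η = m * y / 15) (hη0 : 0 < η) (hy4 : y ≤ η) (ha : 0 ≤ a) (ha2 : a ^ 2 ≤ 0.174 * m)
    (hc : cc ≤ y * (1 + y) / 2) :
    ∃ V : ℝ, (V ≤ 7.83 * η ^ 3 * (7 - 12 * η) ∨ V ≤ 0) ∧
      a * ((cc + 3 * (y / σ) ^ 3 * (7 - (m - 3) * y)) * a) ≤ 1.305 * η + 1.305 * η ^ 2 + V := by
  have hmy : m * y = 15 * η := by rw [hη]; ring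
  have hσ : 0 < σ := by linarith only [h]
  have g0 : (cc + 3 * (y / σ) ^ 3 * (7 - (m - 3) * y)) ≤ y * (1 + y) / 2 + 3 * (y / σ) ^ 3 * (7 - 12 * η) := by
    have : 3 * (y / σ) ^ 3 * (7 - (m - 3) * y) ≤ 3 * (y / σ) ^ 3 * (7 - 12 * η) := by
      apply mul_le_mul_of_nonneg_left _ (by (clear * - hy0 h; positivity))
      linarith only [hη, hy4]
    (clear * - hc this; linarith)
  have g1 : a * ((cc + 3 * (y / σ) ^ 3 * (7 - (m - 3) * y)) * a)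
      ≤ a ^ 2 * (y * (1 + y) / 2) + a ^ 2 * (3 * (y / σ) ^ 3 * (7 - 12 * η)) := by
    have := mul_le_mul_of_nonneg_right g0 (sq_nonneg a)
    have e1 : a * ((cc + 3 * (y / σ) ^ 3 * (7 - (m - 3) * y)) * a)
      = (cc + 3 * (y / σ) ^ 3 * (7 - (m - 3) * y)) * a ^ 2 := by ring
    have e2 : (y * (1 + y) / 2 + 3 * (y / σ) ^ 3 * (7 - 12 * η)) * a ^ 2
      = a ^ 2 * (y * (1 + y) / 2) + a ^ 2 * (3 * (y / σ) ^ 3 * (7 - 12 * η)) := by ring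
    rw [e1, ← e2]; exact this
  have g2 : a ^ 2 * (y * (1 + y) / 2) ≤ 1.305 * η + 1.305 * η ^ 2 := by
    have h1 : a ^ 2 * (y * (1 + y) / 2) ≤ (0.174 * m) * (y * (1 + y) / 2) :=
      mul_le_mul_of_nonneg_right ha2 (by (clear * - hy0; positivity))
    have e : (0.174 * m) * (y * (1 + y) / 2) = 0.087 * (m * y) * (1 + y) := by ring
    rw [e, hmy] at h1
    have h2 : 0.087 * (15 * η) * (1 + y) ≤ 0.087 * (15 * η) * (1 + η) := by
      apply mul_le_mul_of_nonneg_left (by linarith only [hy4]) (by positivity)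
    linarith only [h1, h2]
  rcases le_total (12 * η) 7 with h7 | h7
  · refine ⟨7.83 * η ^ 3 * (7 - 12 * η), Or.inl le_rfl, ?_⟩
    have g3 : a ^ 2 * (3 * (y / σ) ^ 3) ≤ 7.83 * η ^ 3 := by
      have e1 : (y / σ) ^ 3 ≤ y ^ 3 := by
        have : y / σ ≤ y := div_le_self hy0.le h
        exact pow_le_pow_left₀ (by positivity) this 3
      have e2 : a ^ 2 * (3 * (y / σ) ^ 3) ≤ (0.174 * m) * (3 * y ^ 3) :=
        mul_le_mul ha2 (by linarith only [e1]) (by (clear * - hy0 h; positivity)) (by positivity)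
      have e3 : (0.174 * m) * (3 * y ^ 3) = 0.522 * (m * y) * y ^ 2 := by ring
      rw [e3, hmy] at e2
      have e4 : y ^ 2 ≤ η ^ 2 := pow_le_pow_left₀ hy0.le hy4 2
      have e5 : 0.522 * (15 * η) * y ^ 2 ≤ 0.522 * (15 * η) * η ^ 2 :=
        mul_le_mul_of_nonneg_left e4 (by positivity)
      have e6 : 0.522 * (15 * η) * η ^ 2 = 7.83 * η ^ 3 := by ring
      linarith only [e2, e5]
    have g4 := mul_le_mul_of_nonneg_right g3 (by linarith only [h7] : 0 ≤ 7 - 12 * η)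
    have e6 : a ^ 2 * (3 * (y / σ) ^ 3 * (7 - 12 * η)) = a ^ 2 * (3 * (y / σ) ^ 3) * (7 - 12 * η) := by ring
    rw [e6] at g1
    (clear * - g1 g2 g4; linarith)
  · refine ⟨0, Or.inr le_rfl, ?_⟩
    have g3 : a ^ 2 * (3 * (y / σ) ^ 3 * (7 - 12 * η)) ≤ 0 := by
      have : 3 * (y / σ) ^ 3 * (7 - 12 * η) ≤ 0 :=
        mul_nonpos_of_nonneg_of_nonpos (by positivity) (by linarith only [h7])
      exact mul_nonpos_of_nonneg_of_nonpos (sq_nonneg a) this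
    linarith

/-- `(P1)` for `u ≥ 0` -/
theorem P1num {m σ y a u K cc ρ : ℝ} (hm : 15 ≤ m) (h : 1 ≤ σ) (hy : σ ^ 2 = 1 + y)
    (hy0 : 0 < y) (ha : 0 ≤ a) (ha2 : a ^ 2 ≤ 0.174 * m) (hu : 0 ≤ u)
    (hK : 0 ≤ K) (hK2 : K * m ≤ 5.286)
    (hu2 : u ^ 2 ≤ 0.16 * (m * y)) (hc : cc ≤ y * (1 + y) / 2)
    (hρ : 0.2 + 0.5 * (m * y) + 13 / 150 * (m * y) ^ 2 ≤ ρ) :
    (u / (1 + u)) * ((2 * (σ - 1) + 2 * (1 - 1 / σ ^ 2)) * (2 / (2 + u)) + K * σ * (u * (1 + u) / (2 + u)))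
      + a * (6 * y * (1 + 2 * y) / σ ^ 3 * (u / (1 + u)) + (cc + 3 * (y / σ) ^ 3 * (7 - (m - 3) * y)) * a
        + (σ - 1) * (σ - 1 + 1 / m)) ≤ 0.8 * ρ := by
  have hm0 : 0 < m := by linarith only [hm]
  have hab := a_bound hm ha2
  have hy4 : y ≤ m * y / 15 := by nlinarith only [hm, hy0]
  obtain ⟨η, hη⟩ : ∃ η, η = m * y / 15 := ⟨_, rfl⟩
  rw [← hη] at hy4
  have hη0 : 0 < η := by linarith only [hy0, hy4]
  have hmy : m * y = 15 * η := by rw [hη]; ring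
  have hρ' : 0.2 + 7.5 * η + 19.5 * η ^ 2 ≤ ρ := by rw [hmy] at hρ; linarith only [hρ]
  have hay : a * y ≤ 1.61565 * η := by
    have h1 : a * y ≤ 0.10771 * m * y := mul_le_mul_of_nonneg_right hab hy0.le
    have h2 : 0.10771 * m * y = 0.10771 * (m * y) := by ring
    rw [h2, hmy] at h1
    linarith only [h1]
  have hay0 : 0 ≤ a * y := by (clear * - ha hy0; positivity)
  have t1 := t1_le (η := η) h hy hy0 hy4 hu
  have t2 := t2_le h hm0 hy hy0 hy4 hu hK hK2 hu2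
  have t3 := t3_le h hy hη0 hmy hay ha hay0 hu hu2
  have t5 := t5_le hm h hy hy0 hη hη0 hay ha
  obtain ⟨V, hV, t4⟩ := t4_le hm h hy hy0 hη hη0 hy4 ha ha2 hc
  have hfin := p1fin hη0.le hV
  have h9 : 0 ≤ η ^ 2 := sq_nonneg η
  have e1 : (u / (1 + u)) * ((2 * (σ - 1) + 2 * (1 - 1 / σ ^ 2)) * (2 / (2 + u)) + K * σ * (u * (1 + u) / (2 + u)))
      = (u / (1 + u)) * ((2 * (σ - 1) + 2 * (1 - 1 / σ ^ 2)) * (2 / (2 + u)))
        + (u / (1 + u)) * (K * σ * (u * (1 + u) / (2 + u))) := by ring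
  have e2 : a * (6 * y * (1 + 2 * y) / σ ^ 3 * (u / (1 + u)) + (cc + 3 * (y / σ) ^ 3 * (7 - (m - 3) * y)) * a
        + (σ - 1) * (σ - 1 + 1 / m))
      = a * (6 * y * (1 + 2 * y) / σ ^ 3 * (u / (1 + u))) + a * ((cc + 3 * (y / σ) ^ 3 * (7 - (m - 3) * y)) * a)
        + a * ((σ - 1) * (σ - 1 + 1 / m)) := by ring
  rw [e1, e2]
  generalize (u / (1 + u)) * ((2 * (σ - 1) + 2 * (1 - 1 / σ ^ 2)) * (2 / (2 + u))) = X1 at *
  generalize (u / (1 + u)) * (K * σ * (u * (1 + u) / (2 + u))) = X2 at *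
  generalize a * (6 * y * (1 + 2 * y) / σ ^ 3 * (u / (1 + u))) = X3 at *
  generalize a * ((cc + 3 * (y / σ) ^ 3 * (7 - (m - 3) * y)) * a) = X4 at *
  generalize a * ((σ - 1) * (σ - 1 + 1 / m)) = X5 at *
  linarith only [hy0, hy4, hρ', hfin, h9, t1, t2, t3, t4, t5]

/-- (E2) for `u ≥ 0` (and as a building block) -/
theorem ya_sq {m y σ a ρ : ℝ} (hm : 15 ≤ m) (hσ : 1 ≤ σ) (hy : σ ^ 2 = 1 + y) (hy0 : 0 < y)
    (ha : 0 ≤ a) :
    (y * a) ^ 2 ≤ (y * (1 + y) / (m + 3)) * ((m + 3) * (y / σ ^ 2) * (a ^ 2 * (1 + 2 / 3 * a + 1 / 3 * a ^ 2))) := by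
  have hm3 : 0 < m + 3 := by linarith only [hm]
  have e : (y * (1 + y) / (m + 3)) * ((m + 3) * (y / σ ^ 2) * (a ^ 2 * (1 + 2 / 3 * a + 1 / 3 * a ^ 2)))
      = (y * a) ^ 2 * (1 + 2 / 3 * a + 1 / 3 * a ^ 2) := by
    rw [hy]
    have : (1 + y) ≠ 0 := by linarith only [hy0]
    field_simp
  rw [e]
  have : 0 ≤ 2 / 3 * a + 1 / 3 * a ^ 2 := by (clear * - ha; positivity)
  nlinarith only [this]

theorem e2poly {η : ℝ} (h0 : 1.5 ≤ η) :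
    ((η * (3 + η) / (1 + η)) ^ 2 + 4 * (1 + η)) / 1.8 + η * (1 + η) / 18
      ≤ 0.038 + 1.425 * η + 3.705 * η ^ 2 := by
  have h1 : 0 < 1 + η := by linarith
  have h2 : η * (3 + η) / (1 + η) ≤ 2.7 / 1.5 * η := by
    rw [div_le_iff₀ h1]; nlinarith only [h0]
  have h3 : 0 ≤ η * (3 + η) / (1 + η) := by positivity
  have h4 : (η * (3 + η) / (1 + η)) ^ 2 ≤ (2.7 / 1.5 * η) ^ 2 := pow_le_pow_left₀ h3 h2 2
  have h5 : (2.7 / 1.5 * η) ^ 2 = 3.24 * η ^ 2 := by ring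
  have h6 : 1.5 * η ≤ η ^ 2 := by nlinarith only [h0]
  rw [h5] at h4
  have h7 : ((η * (3 + η) / (1 + η)) ^ 2 + 4 * (1 + η)) / 1.8 ≤ (3.24 * η ^ 2 + 4 * (1 + η)) / 1.8 := by
    apply div_le_div_of_nonneg_right _ (by norm_num)
    linarith only [h4]
  have h8 : (3.24 * η ^ 2 + 4 * (1 + η)) / 1.8 + η * (1 + η) / 18
      ≤ 0.038 + 1.425 * η + 3.705 * η ^ 2 := by
    have e : (3.24 * η ^ 2 + 4 * (1 + η)) / 1.8 + η * (1 + η) / 18
      = (1.8 + 1 / 18) * η ^ 2 + (4 / 1.8 + 1 / 18) * η + 4 / 1.8 := by ring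
    rw [e]
    linarith only [h0, h6]
  linarith

theorem En1 {σ y φ W : ℝ} (h : 1 ≤ σ) (hy : σ ^ 2 = 1 + y) (hyc : y ≤ 3 / 2) (hW0 : 0 ≤ W)
    (hφ1 : φ ≤ W / 2) : 2 * σ * φ ≤ 4 / σ ^ 2 * W := by
  have hσ : 0 < σ := by linarith only [h]
  have g2 : 2 * σ * φ ≤ σ * W := by
    have := mul_le_mul_of_nonneg_left hφ1 (by linarith only [h] : 0 ≤ 2 * σ)
    linarith only [this]
  have g3 : σ * W ≤ 4 / σ ^ 2 * W := by
    apply mul_le_mul_of_nonneg_right _ hW0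
    rw [le_div_iff₀ (by positivity)]
    have h1 : σ ≤ 1.5812 := by nlinarith only [hy, hyc]
    have h2 : σ * σ ^ 2 ≤ 1.5812 * 2.5 := by
      apply mul_le_mul h1 (by linarith only [hy, hyc]) (by positivity) (by norm_num)
    linarith only [h2]
  linarith only [g2, g3]

theorem En2 {σ y φ W v : ℝ} (h : 1 ≤ σ) (hy : σ ^ 2 = 1 + y) (hW0 : 0 ≤ W) (hv : v ^ 2 ≤ 1)
    (hφ2 : φ ^ 2 ≤ W * v ^ 2) : 2 * σ * φ - 4 / σ ^ 2 * W ≤ (1 + y) ^ 2 / 4 := by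
  have hσ : 0 < σ := by linarith only [h]
  have hσ4 : σ ^ 4 = (1 + y) ^ 2 := by rw [← hy]; ring
  have g2 : φ ^ 2 ≤ W := by
    have : W * v ^ 2 ≤ W * 1 := mul_le_mul_of_nonneg_left hv hW0
    linarith only [hφ2, this]
  have g3 : 4 / σ ^ 2 * φ ^ 2 ≤ 4 / σ ^ 2 * W := mul_le_mul_of_nonneg_left g2 (by positivity)
  have g4 : 0 ≤ (2 * φ / σ - σ ^ 2 / 2) ^ 2 := sq_nonneg _
  have e : (2 * φ / σ - σ ^ 2 / 2) ^ 2 = 4 / σ ^ 2 * φ ^ 2 - 2 * σ * φ + σ ^ 4 / 4 := by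
    field_simp; ring
  rw [e, hσ4] at g4
  linarith

/-- abstract version, `y ≤ 3/2` -/
theorem En3 {e qb v y a W Z C ρ : ℝ} (g4 : -e ≤ qb * v + y * a) (hneg : e < 0)
    (hWv : v ^ 2 ≤ W) (hW0 : 0 ≤ W) (hZ0 : 0 ≤ Z) (hC : 0 ≤ C) (hya : (y * a) ^ 2 ≤ C * Z)
    (hnum : 0.69445 * qb ^ 2 + C ≤ 0.19 * ρ) : e ^ 2 ≤ 0.19 * ρ * (1.8 * W + Z) := by
  have g5 : e ^ 2 ≤ (qb * v + y * a) ^ 2 := by
    have : (-e) ^ 2 ≤ (qb * v + y * a) ^ 2 := pow_le_pow_left₀ (by linarith only [hneg]) g4 2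
    simpa only [ge_iff_le, even_two, Even.neg_pow] using this
  have g6 : (qb * v) ^ 2 ≤ (qb ^ 2 / 1.8) * (1.8 * W) := by
    have e : (qb ^ 2 / 1.8) * (1.8 * W) = qb ^ 2 * W := by ring
    rw [e]
    have : (qb * v) ^ 2 = qb ^ 2 * v ^ 2 := by ring
    rw [this]
    exact mul_le_mul_of_nonneg_left hWv (sq_nonneg _)
  have g7 := cs3 (by positivity) hC (by positivity) hZ0 g6 hya
  refine g5.trans (g7.trans ?_)
  apply mul_le_mul_of_nonneg_right _ (by positivity)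
  have h1 : qb ^ 2 / 1.8 ≤ 0.69445 * qb ^ 2 := by
    rw [div_le_iff₀ (by norm_num)]
    have := sq_nonneg qb
    linarith only [this]
  linarith only [hnum, h1]

theorem En4 {e qb v y a W Z C ρ σ φ : ℝ} (g4 : -e ≤ (qb * v + 2 * σ * φ) + y * a) (hneg : e < 0)
    (hWv : v ^ 2 + φ ^ 2 ≤ W) (hW0 : 0 ≤ W) (hZ0 : 0 ≤ Z) (hC : 0 ≤ C) (hya : (y * a) ^ 2 ≤ C * Z)
    (hnum : (qb ^ 2 + 4 * σ ^ 2) / 1.8 + C ≤ 0.19 * ρ) : e ^ 2 ≤ 0.19 * ρ * (1.8 * W + Z) := by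
  have g5 : e ^ 2 ≤ ((qb * v + 2 * σ * φ) + y * a) ^ 2 := by
    have : (-e) ^ 2 ≤ ((qb * v + 2 * σ * φ) + y * a) ^ 2 := pow_le_pow_left₀ (by linarith only [hneg]) g4 2
    simpa only [ge_iff_le, even_two, Even.neg_pow] using this
  have g6 : (qb * v + 2 * σ * φ) ^ 2 ≤ ((qb ^ 2 + 4 * σ ^ 2) / 1.8) * (1.8 * W) := by
    have e : ((qb ^ 2 + 4 * σ ^ 2) / 1.8) * (1.8 * W) = (qb ^ 2 + 4 * σ ^ 2) * W := by ring
    rw [e]
    have g7 : (qb * v + 2 * σ * φ) ^ 2 ≤ (qb ^ 2 + 4 * σ ^ 2) * (v ^ 2 + φ ^ 2) := by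
      have : (qb ^ 2 + 4 * σ ^ 2) * (v ^ 2 + φ ^ 2) - (qb * v + 2 * σ * φ) ^ 2 = (qb * φ - 2 * σ * v) ^ 2 := by
        ring
      have := sq_nonneg (qb * φ - 2 * σ * v)
      linarith only [this]
    exact g7.trans (mul_le_mul_of_nonneg_left hWv (by (clear * -; positivity)))
  have g7 := cs3 (by (clear * -; positivity)) hC (by positivity) hZ0 g6 hya
  refine g5.trans (g7.trans ?_)
  exact mul_le_mul_of_nonneg_right hnum (by (clear * - hW0 hZ0; positivity))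

/-- (E) for `u ≤ 0` -/
theorem Eneg {m c σ y a u E N φ ρ : ℝ} (hm : 15 ≤ m) (h : 1 ≤ σ) (hy : σ ^ 2 = 1 + y) (hy0 : 0 < y)
    (ha : 0 ≤ a) (ha2 : a ^ 2 ≤ 0.174 * m) (hu : u ≤ 0) (hu1 : -1 < u)
    (hE : 1 + 2 * a + 2 * a ^ 2 + 4 / 3 * a ^ 3 + 2 / 3 * a ^ 4 ≤ E)
    (hc0 : 0 ≤ c) (hc2 : c ≤ 1) (hN : -φ ≤ N) (hφ0 : 0 ≤ φ)
    (hφ1 : φ ≤ u ^ 2 / (1 + u) / 2) (hφ2 : φ ^ 2 ≤ u ^ 2 / (1 + u) * u ^ 2)
    (hρ : 0.2 + 0.5 * (m * y) + 13 / 150 * (m * y) ^ 2 ≤ ρ)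
    (hnum : 0.69445 * (2 * (σ - 1) + 2 * (1 - 1 / σ ^ 2)) ^ 2 + y * (1 + y) / (m + 3) ≤ 0.19 * ρ) :
    -(ef m c σ y a u E N) ≤ 0.8 * ρ ∧ (ef m c σ y a u E N < 0 → (ef m c σ y a u E N) ^ 2 ≤
      0.19 * ρ * (1.8 * (u ^ 2 / (1 + u)) + (m + 3) * (y / σ ^ 2) * (a ^ 2 * (1 + 2 / 3 * a + 1 / 3 * a ^ 2)))) := by
  have hm0 : 0 < m := by linarith only [hm]
  have hm3 : 0 < m + 3 := by linarith only [hm]
  have hσ : 0 < σ := by linarith only [h]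
  have hU : 0 < 1 + u := by linarith only [hu1]
  have hA := Aneg0 hm h hy ha hu hu1 hE hc0 hc2 hN hφ0
  have hab := a_bound hm ha2
  have hy4 : y ≤ m * y / 15 := by nlinarith only [hm, hy0]
  have hqe := qb_eta hm h hy hy0
  have hCe := C_eta hm hy0
  obtain ⟨η, hη⟩ : ∃ η, η = m * y / 15 := ⟨_, rfl⟩
  rw [← hη] at hy4 hqe hCe
  have hη0 : 0 < η := by linarith only [hy0, hy4]
  have hmy : m * y = 15 * η := by rw [hη]; ring
  have hρ' : 0.2 + 7.5 * η + 19.5 * η ^ 2 ≤ ρ := by rw [hmy] at hρ; linarith only [hρ]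
  have hay : y * a ≤ 1.61565 * η := by
    have h1 : a * y ≤ 0.10771 * m * y := mul_le_mul_of_nonneg_right hab hy0.le
    have h2 : 0.10771 * m * y = 0.10771 * (m * y) := by ring
    rw [h2, hmy] at h1
    linarith only [h1]
  have hq0 := qb_nonneg h
  have hq3 := sqb3 h
  have eσ : σ ^ 2 - 1 = y := by linarith only [hy]
  rw [eσ] at hq3
  have hya := ya_sq (ρ := ρ) hm h hy hy0 ha
  have hW0 : 0 ≤ u ^ 2 / (1 + u) := by (clear * - hU; positivity)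
  have hZ0 : 0 ≤ (m + 3) * (y / σ ^ 2) * (a ^ 2 * (1 + 2 / 3 * a + 1 / 3 * a ^ 2)) := by (clear * - hm hy0 h ha; positivity)
  have hWU : u ^ 2 / (1 + u) * (1 + u) = u ^ 2 := by (clear * - hU; field_simp)
  have hC0 : 0 ≤ y * (1 + y) / (m + 3) := by positivity
  generalize (m + 3) * (y / σ ^ 2) * (a ^ 2 * (1 + 2 / 3 * a + 1 / 3 * a ^ 2)) = Z at *
  generalize u ^ 2 / (1 + u) = W at *
  generalize 2 * (σ - 1) + 2 * (1 - 1 / σ ^ 2) = qb at *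
  generalize ef m c σ y a u E N = e at *
  generalize y * (1 + y) / (m + 3) = C at *
  have hv1 : -u ≤ 1 := by linarith only [hu1]
  have hWu : (-u) ^ 2 ≤ W := by
    have : 0 ≤ W * (-u) := mul_nonneg hW0 (by linarith only [hu])
    have e1 : (-u) ^ 2 = u ^ 2 := by ring
    rw [e1, ← hWU]; linarith only [this]
  have hqv : qb * (-u) ≤ 3 * η := by
    have : qb * (-u) ≤ (3 * y) * 1 := mul_le_mul hq3 hv1 (by linarith only [hu]) (by linarith only [hy0])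
    linarith only [hy4, this]
  have hqv0 : 0 ≤ qb * (-u) := mul_nonneg hq0 (by linarith only [hu])
  have hya0 : 0 ≤ y * a := by (clear * - hy0 ha; positivity)
  have hη2 : 0 ≤ η ^ 2 := sq_nonneg η
  rcases le_total y (3 / 2) with hyc | hyc
  · have g1 := En1 h hy hyc hW0 hφ1
    have g4 : -e ≤ qb * (-u) + y * a := by linarith only [hA, g1]
    exact ⟨by linarith only [hy0, hy4, hρ', hay, hA, hqv, hη2, g1], fun hneg => En3 g4 hneg hWu hW0 hZ0 hC0 hya hnum⟩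
  · have hu2 : u ^ 2 ≤ 1 := (sq_le_one_iff_abs_le_one _).2 (abs_le.2 ⟨by linarith only [hu1], by linarith only [hu]⟩)
    have g1 := En2 h hy hW0 hu2 hφ2
    have hη15 : 1.5 ≤ η := by linarith only [hy4, hyc]
    have h4W : 0 ≤ 4 / σ ^ 2 * W := by (clear * - h hW0; positivity)
    refine ⟨?_, fun hneg => ?_⟩
    · have h5 : (1 + y) ^ 2 ≤ (1 + η) ^ 2 := by
        apply pow_le_pow_left₀ (by linarith only [hyc]) (by linarith only [hy4])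
      have h6 : (1 + η) ^ 2 = 1 + 2 * η + η ^ 2 := by ring
      have h7 : 1.5 * η ≤ η * η := mul_le_mul_of_nonneg_right hη15 hη0.le
      have h8 : η * η = η ^ 2 := by ring
      rw [h8] at h7
      rw [h6] at h5
      clear hnum hya hφ2 hφ1 hN hE ha2 hWU hWu
      linarith only [hy4, hρ', hay, hA, hqv, hyc, g1, h5, h7]
    · have g4 : -e ≤ (qb * (-u) + 2 * σ * φ) + y * a := by linarith only [hA, h4W]
      have g8 : (-u) ^ 2 + φ ^ 2 ≤ W := by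
        have e1 : (-u) ^ 2 = W * (1 + u) := by rw [hWU]; ring
        rw [e1]
        have h9 : u ^ 2 ≤ -u := by
          have : (-u) * (-u) ≤ 1 * (-u) := mul_le_mul_of_nonneg_right hv1 (by linarith only [hu])
          have e2 : (-u) * (-u) = u ^ 2 := by ring
          linarith only [this]
        have : W * (u ^ 2) ≤ W * (-u) := mul_le_mul_of_nonneg_left h9 hW0
        linarith only [hφ2, this]
      refine En4 g4 hneg g8 hW0 hZ0 hC0 hya ?_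
      have hp := e2poly hη15
      have h1 : qb ^ 2 ≤ (η * (3 + η) / (1 + η)) ^ 2 := pow_le_pow_left₀ hq0 hqe 2
      have h2 : (qb ^ 2 + 4 * σ ^ 2) / 1.8 ≤ ((η * (3 + η) / (1 + η)) ^ 2 + 4 * (1 + η)) / 1.8 := by
        apply div_le_div_of_nonneg_right _ (by norm_num)
        rw [hy]; linarith only [hy4, h1]
      linarith only [hρ', hCe, hp, h2]

/-- (E) for `u ≥ 0` -/
theorem Epos {m c σ y a u E N φ ρ : ℝ} (hm : 15 ≤ m) (h : 1 ≤ σ) (hy : σ ^ 2 = 1 + y) (hy0 : 0 < y)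
    (ha : 0 ≤ a) (ha2 : a ^ 2 ≤ 0.174 * m) (hu : 0 ≤ u)
    (hE : 1 + 2 * a + 2 * a ^ 2 + 4 / 3 * a ^ 3 + 2 / 3 * a ^ 4 ≤ E)
    (hφ : φ ≤ u ^ 2 / (2 + u)) (hc0 : 0 ≤ c) (hc2 : c ≤ 1) (hN : -φ ≤ N)
    (hρ : 0.2 + 0.5 * (m * y) + 13 / 150 * (m * y) ^ 2 ≤ ρ) :
    -(ef m c σ y a u E N) ≤ 0.8 * ρ ∧ (ef m c σ y a u E N < 0 → (ef m c σ y a u E N) ^ 2 ≤
      0.19 * ρ * (1.8 * (u ^ 2 / (1 + u)) + (m + 3) * (y / σ ^ 2) * (a ^ 2 * (1 + 2 / 3 * a + 1 / 3 * a ^ 2)))) := by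
  have hm0 : 0 < m := by linarith only [hm]
  have hm3 : 0 < m + 3 := by linarith only [hm]
  have hσ : 0 < σ := by linarith only [h]
  have hA := Apos hm h hy ha hu hE hφ hc0 hc2 hN
  have hab := a_bound hm ha2
  have hy4 : y ≤ m * y / 15 := by nlinarith only [hm, hy0]
  have hCe := C_eta hm hy0
  obtain ⟨η, hη⟩ : ∃ η, η = m * y / 15 := ⟨_, rfl⟩
  rw [← hη] at hy4 hCe
  have hη0 : 0 < η := by linarith only [hy0, hy4]
  have hmy : m * y = 15 * η := by rw [hη]; ring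
  have hρ' : 0.2 + 7.5 * η + 19.5 * η ^ 2 ≤ ρ := by rw [hmy] at hρ; linarith only [hρ]
  have hay : y * a ≤ 1.61565 * η := by
    have h1 : a * y ≤ 0.10771 * m * y := mul_le_mul_of_nonneg_right hab hy0.le
    have h2 : 0.10771 * m * y = 0.10771 * (m * y) := by ring
    rw [h2, hmy] at h1
    linarith only [h1]
  have hη2 : 0 ≤ η ^ 2 := sq_nonneg η
  have hya := ya_sq (ρ := ρ) hm h hy hy0 ha
  have hya0 : 0 ≤ y * a := by (clear * - hy0 ha; positivity)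
  refine ⟨by linarith only [hy0, hA, hy4, hρ', hay, hη2], fun hneg => ?_⟩
  have g5 : (ef m c σ y a u E N) ^ 2 ≤ (y * a) ^ 2 := by
    have : (-(ef m c σ y a u E N)) ^ 2 ≤ (y * a) ^ 2 := pow_le_pow_left₀ (by linarith only [hneg]) hA 2
    simpa only [ge_iff_le, even_two, Even.neg_pow] using this
  refine g5.trans (hya.trans ?_)
  have hZ0 : 0 ≤ (m + 3) * (y / σ ^ 2) * (a ^ 2 * (1 + 2 / 3 * a + 1 / 3 * a ^ 2)) := by (clear * - hm hy0 h ha; positivity)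
  have hW0 : 0 ≤ 1.8 * (u ^ 2 / (1 + u)) := by (clear * - hu; positivity)
  have hρ0 : 0 ≤ ρ := by linarith only [hy0, hy4, hρ', hη2]
  apply mul_le_mul _ (by linarith only [hW0]) hZ0 (by linarith only [hy0, hy4, hρ', hη2])
  linarith only [hy0, hCe, hy4, hρ', hη2]
end FNeg
end Vale.Agent.P237.AllN
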