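import Vale.Agent.P237.AllN.FNeg4

/-!
# P237, block D, region `l ≤ 0`: core theorem
-/

set_option linter.all false

namespace Vale.Agent.P237.AllN
namespace FNeg

theorem finish {T e ρ W Z W' : ℝ} (hρ : 0 < ρ) (hW : 0 ≤ W) (hZ : 0 ≤ Z) (hW' : W' ≤ W) (hW0 : 0 ≤ W')
    (hT : 1.8 * W + Z ≤ T) (hE1 : -e ≤ 0.8 * ρ)
    (hE2 : e < 0 → e ^ 2 ≤ 0.19 * ρ * (1.8 * W + Z))
    (hB1 : -(T - e) ≤ 0.8 * ρ)
    (hB2 : T - e < 0 → (-(T - e)) ^ 2 ≤ 0.19 * ρ * (1.8 * W' + Z)) :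
    0 < ρ + e ∧ e ^ 2 + 0.01 * (ρ * (1.8 * W + Z)) ≤ T * (ρ + e) := by
  have hρT : ρ * (1.8 * W + Z) ≤ ρ * T := mul_le_mul_of_nonneg_left hT hρ.le
  have hρT0 : 0 ≤ ρ * (1.8 * W + Z) := mul_nonneg hρ.le (by linarith only [hW, hZ])
  have hWW : ρ * (1.8 * W' + Z) ≤ ρ * (1.8 * W + Z) := mul_le_mul_of_nonneg_left (by linarith only [hW']) hρ.le
  refine ⟨by linarith only [hρ, hE1], jcore (by linarith only [hW, hZ, hT]) (by linarith only [hρT0]) hρ hE1 (fun hn => ?_) hB1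
    (fun hn => ?_) (by linarith only [hρT, hρT0])⟩
  · have := hE2 hn; linarith only [hρT, this]
  · have := hB2 hn
    have e1 : (-(T - e)) ^ 2 = (T - e) ^ 2 := by ring
    rw [e1] at this
    linarith only [hρT, hWW, this]

theorem kappa_facts {m c κ : ℝ} (hm : 15 ≤ m) (hc1 : 1 - 1 / (2 * m) ≤ c) (hc2 : c ≤ 1)
    (hκ : κ = 2 * (m + 1) / (m - 1)) :
    0 ≤ κ ∧ κ ≤ 16 / 7 ∧ 0 ≤ κ - 2 * c ∧ (κ - 2 * c) * m ≤ 5.286 ∧ 0 ≤ c := by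
  have hm0 : 0 < m := by linarith only [hm]
  have hm1 : 0 < m - 1 := by linarith only [hm]
  have hc29 : 29 / 30 ≤ c := by
    have : 1 / (2 * m) ≤ 1 / 30 := by
      apply div_le_div_of_nonneg_left (by norm_num) (by norm_num) (by linarith only [hm])
    linarith only [hc1, this]
  have hκ0 : 0 ≤ κ := by rw [hκ]; (clear * - hm hm1; positivity)
  have hκ2 : κ ≤ 16 / 7 := by
    rw [hκ, div_le_iff₀ hm1]; linarith only [hm]
  have hκe : κ = 2 + 4 / (m - 1) := by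
    rw [hκ]; field_simp; ring
  have hK : 0 ≤ κ - 2 * c := by
    have : 0 ≤ 4 / (m - 1) := by positivity
    linarith only [hc2, hκe, this]
  have hK2 : (κ - 2 * c) * m ≤ 5.286 := by
    have h1 : κ - 2 * c ≤ 4 / (m - 1) + 1 / m := by
      have : 2 * (1 / (2 * m)) = 1 / m := by field_simp
      linarith only [hc1, hκe, this]
    have h2 : (4 / (m - 1) + 1 / m) * m = 4 * (m / (m - 1)) + 1 := by
      (clear * - hm hm1; field_simp)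
    have h3 : m / (m - 1) ≤ 15 / 14 := by
      rw [div_le_div_iff₀ hm1 (by norm_num)]; linarith only [hm]
    have h4 := mul_le_mul_of_nonneg_right h1 hm0.le
    rw [h2] at h4
    linarith only [h3, h4]
  exact ⟨hκ0, hκ2, hK, hK2, by linarith only [hc29]⟩

theorem core_pos {m c κ σ y a u E Cr N cc : ℝ} (hm : 15 ≤ m) (h : 1 ≤ σ) (hy : σ ^ 2 = 1 + y)
    (hy0 : 0 < y) (ha : 0 ≤ a) (ha2 : a ^ 2 ≤ 0.174 * m) (hu : 0 ≤ u) (hus : u ≤ σ)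
    (hu2 : u ^ 2 ≤ 0.16 * (m * y))
    (hE : 1 + 2 * a + 2 * a ^ 2 + 4 / 3 * a ^ 3 + 2 / 3 * a ^ 4 ≤ E)
    (hc1 : 1 - 1 / (2 * m) ≤ c) (hc2 : c ≤ 1) (hκ : κ = 2 * (m + 1) / (m - 1))
    (hc : cc ≤ y * (1 + y) / 2) (hCr : -(cc * a ^ 2) ≤ Cr) (hN : Real.log (1 + u) - u ≤ N) :
    0 < rhof m y + ef m c σ y a u E N ∧
    (ef m c σ y a u E N) ^ 2 + 0.01 * (rhof m y * (1.8 * (u ^ 2 / (1 + u)) +
        (m + 3) * (y / σ ^ 2) * (a ^ 2 * (1 + 2 / 3 * a + 1 / 3 * a ^ 2)))) ≤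
      Tf m κ σ y a u E Cr N * (rhof m y + ef m c σ y a u E N) := by
  have hσ : 0 < σ := by linarith only [h]
  have hm3 : 0 < m + 3 := by linarith only [hm]
  have hρl := rho_low hm hy0.le
  have hρ0 : 0 < rhof m y := by
    have : 0 ≤ (m * y) ^ 2 := sq_nonneg _
    have : 0 ≤ m * y := by positivity
    (clear c κ σ a u E Cr N cc h hy ha ha2 hu hus hu2 hE hc1 hc2 hκ hc hCr hN hσ hm3; linarith)
  obtain ⟨hκ0, hκ2, hK, hK2, hc0⟩ := kappa_facts hm hc1 hc2 hκ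
  have hφN : -(u - Real.log (1 + u)) ≤ N := by linarith only [hN]
  have hφ := phi_pos hu
  have hT := Tlow_pos (cc := cc) (Cr := Cr) hm h hy ha hu hus hE hφ hκ0 hκ2 hc hCr hφN
  have hB := Bpos (κ := κ) (E := E) (Cr := Cr) (cc := cc) hm h hy ha hu hφ hK hc1 hc2 hCr hφN
  have hP1 := P1num hm h hy hy0 ha ha2 hu hK hK2 hu2 hc hρl
  obtain ⟨p0, k, hp0, hk0, hp, hk, hfin⟩ := P2num hm h hy hy0 hu hus hK hK2 hu2 hc hρl
  have hE' := Epos hm h hy hy0 ha ha2 hu hE hφ hc0 hc2 hφN hρl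
  exact finish hρ0 (by (clear * - hu; positivity)) (by (clear * - hm hy0 h ha; positivity)) le_rfl (by (clear * - hu; positivity)) hT hE'.1 hE'.2 (hB.trans hP1)
    (fun hneg => P2core hm h hy hy0 ha hu hK hp hk hp0 (zero_le_one.trans hk0) hfin hB
      (by linarith only [hneg]))

theorem core_neg {m c κ σ y a u E Cr N cc : ℝ} (hm : 15 ≤ m) (h : 1 ≤ σ) (hy : σ ^ 2 = 1 + y)
    (hy0 : 0 < y) (ha : 0 ≤ a) (ha2 : a ^ 2 ≤ 0.174 * m) (hu1 : -1 < u) (hu : u ≤ 0)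
    (hu3 : -(m * y / 2) ≤ u)
    (hE : 1 + 2 * a + 2 * a ^ 2 + 4 / 3 * a ^ 3 + 2 / 3 * a ^ 4 ≤ E)
    (hc1 : 1 - 1 / (2 * m) ≤ c) (hc2 : c ≤ 1) (hκ : κ = 2 * (m + 1) / (m - 1))
    (hc : cc ≤ y * (1 + y) / 2) (hCr : -(cc * a ^ 2) ≤ Cr) (hN : Real.log (1 + u) - u ≤ N) :
    0 < rhof m y + ef m c σ y a u E N ∧
    (ef m c σ y a u E N) ^ 2 + 0.01 * (rhof m y * (1.8 * (u ^ 2 / (1 + u)) +
        (m + 3) * (y / σ ^ 2) * (a ^ 2 * (1 + 2 / 3 * a + 1 / 3 * a ^ 2)))) ≤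
      Tf m κ σ y a u E Cr N * (rhof m y + ef m c σ y a u E N) := by
  have hσ : 0 < σ := by linarith only [h]
  have hU : 0 < 1 + u := by linarith only [hu1]
  have hm3 : 0 < m + 3 := by linarith only [hm]
  have hρl := rho_low hm hy0.le
  have hρ0 : 0 < rhof m y := by
    have : 0 ≤ (m * y) ^ 2 := sq_nonneg _
    have : 0 ≤ m * y := by positivity
    (clear c κ σ a E Cr N cc h hy ha ha2 hu1 hE hc1 hc2 hκ hc hCr hN hσ hU hm3 this; linarith)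
  obtain ⟨hκ0, hκ2, hK, hK2, hc0⟩ := kappa_facts hm hc1 hc2 hκ
  have hφN : -(u - Real.log (1 + u)) ≤ N := by linarith only [hN]
  have hφ0 := phi_nonneg hu1
  have hφ1 := phi_neg1 hu1 hu
  have hφ2 := phi_neg2 hu1 hu
  have hT := Tlow_neg (cc := cc) (Cr := Cr) hm h hy ha hu hu1 hE hφ1 hκ0 hκ2 hc hCr hφN
  have hB := Bneg (κ := κ) (E := E) (Cr := Cr) (cc := cc) hm h hy ha hu hu1 hu3 hφ1 hK hK2 hc1 hc2 hCr hφN
  have hmy2 : (0:ℝ) ^ 2 ≤ 0.16 * (m * y) := by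
    have : (0:ℝ) ^ 2 = 0 := by norm_num
    rw [this]; positivity
  have hP1 := P1num (u := 0) hm h hy hy0 ha ha2 le_rfl hK hK2 hmy2 hc hρl
  obtain ⟨p0, k, hp0, hk0, hp, hk, hfin⟩ := P2num (u := 0) hm h hy hy0 le_rfl hσ.le hK hK2 hmy2 hc hρl
  have hnum : 0.69445 * (2 * (σ - 1) + 2 * (1 - 1 / σ ^ 2)) ^ 2 + y * (1 + y) / (m + 3) ≤ 0.19 * rhof m y := by
    have h1 : y * (1 + y) / (m + 3) * 1 ≤ y * (1 + y) / (m + 3) * (p0 ^ 2 + 3 * k ^ 2) := by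
      apply mul_le_mul_of_nonneg_left _ (by positivity)
      have h4 : 1 ≤ k ^ 2 := one_le_pow₀ hk0
      have h5 := sq_nonneg p0
      linarith only [h4, h5]
    have h2 : (1:ℝ) / (1 + 0) = 1 := by norm_num
    rw [h2] at hfin
    have h3 : ((κ - 2 * c) * σ * 0) ^ 2 = 0 := by ring
    rw [h3] at hfin
    linarith only [h1, hfin]
  have hE' := Eneg hm h hy hy0 ha ha2 hu hu1 hE hc0 hc2 hφN hφ0 hφ1 hφ2 hρl hnum
  have hB' : -(Tf m κ σ y a u E Cr N - ef m c σ y a u E N) ≤ 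
    ((0:ℝ) / (1 + 0)) * ((2 * (σ - 1) + 2 * (1 - 1 / σ ^ 2)) * (2 / (2 + 0)) + (κ - 2 * c) * σ * (0 * (1 + 0) / (2 + 0)))
    + a * (6 * y * (1 + 2 * y) / σ ^ 3 * (0 / (1 + 0)) + (cc + 3 * (y / σ) ^ 3 * (7 - (m - 3) * y)) * a
      + (σ - 1) * (σ - 1 + 1 / m)) := by
    refine hB.trans (le_of_eq ?_)
    rw [zero_div, zero_mul, mul_zero, zero_add, zero_add]
  have hW00 : (0:ℝ) ^ 2 / (1 + 0) ≤ u ^ 2 / (1 + u) := by
    have e2 : (0:ℝ) ^ 2 / (1 + 0) = 0 := by norm_num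
    rw [e2]; (clear * - hU; positivity)
  exact finish hρ0 (by (clear * - hU; positivity)) (by (clear * - hm hy0 h ha; positivity)) hW00 (by norm_num) hT hE'.1 hE'.2 (hB'.trans hP1)
    (fun hneg => P2core hm h hy hy0 ha le_rfl hK hp hk hp0 (zero_le_one.trans hk0) hfin hB'
      (by linarith only [hneg]))

/-- **core theorem**, region `l ≤ 0` -/
theorem core {m c κ σ y a u E Cr N cc : ℝ} (hm : 15 ≤ m) (h : 1 ≤ σ) (hy : σ ^ 2 = 1 + y)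
    (hy0 : 0 < y) (ha : 0 ≤ a) (ha2 : a ^ 2 ≤ 0.174 * m) (hu1 : -1 < u) (hus : u ≤ σ)
    (hu2 : 0 ≤ u → u ^ 2 ≤ 0.16 * (m * y)) (hu3 : -(m * y / 2) ≤ u)
    (hE : 1 + 2 * a + 2 * a ^ 2 + 4 / 3 * a ^ 3 + 2 / 3 * a ^ 4 ≤ E)
    (hc1 : 1 - 1 / (2 * m) ≤ c) (hc2 : c ≤ 1) (hκ : κ = 2 * (m + 1) / (m - 1))
    (hc : cc ≤ y * (1 + y) / 2) (hCr : -(cc * a ^ 2) ≤ Cr) (hN : Real.log (1 + u) - u ≤ N) :
    0 < rhof m y + ef m c σ y a u E N ∧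
    (ef m c σ y a u E N) ^ 2 + 0.01 * (rhof m y * (1.8 * (u ^ 2 / (1 + u)) +
        (m + 3) * (y / σ ^ 2) * (a ^ 2 * (1 + 2 / 3 * a + 1 / 3 * a ^ 2)))) ≤
      Tf m κ σ y a u E Cr N * (rhof m y + ef m c σ y a u E N) := by
  rcases le_total 0 u with hu | hu
  · exact core_pos hm h hy hy0 ha ha2 hu hus (hu2 hu) hE hc1 hc2 hκ hc hCr hN
  · exact core_neg hm h hy hy0 ha ha2 hu1 hu hu3 hE hc1 hc2 hκ hc hCr hN

end FNeg
end Vale.Agent.P237.AllN
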