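import Vale.Agent.P237.AllN.FPnK

/-!
# P237, block D, `l ≥ 0`, `1 ≤ √m x ≤ 3`, `u ≤ 0`: the coefficient of `u²/(1+u)`
-/

namespace Vale.Agent.P237.AllN

open PolyPos

def fpKQ : Ex := fpk 3 4 * fpq (fpk (-16) 1) (fpk 201 5) (fpk (-26) 1) + fpZ * (
  fpk 5 8 * fpq (fpk (-36) 1) (fpk 1319 10) (fpk (-999) 10) + fpZ * (
  fpk 35 64 * fpq (fpk (-64) 1) (fpk 2871 10) (fpk (-2363) 10) + fpZ * (
  fpk 63 128 * fpq (fpk (-100) 1) (fpk 2539 5) (fpk (-2194) 5) + fpZ * (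
  fpk 231 512 * fpq (fpk (-144) 1) (fpk 7939 10) (fpk (-1415) 2)))))

theorem fpKQ_R (s l : ℝ) : fpKQ.R s l = kQ' (1 - s ^ 2) l := by
  unfold fpKQ fpq kQ'
  simp only [Ex.R_add, Ex.R_sub, Ex.R_mul, Ex.R_Y, fpZ_R]
  generalize 1 - s ^ 2 = z
  simp (discharger := norm_num) only [fpk_R]
  push_cast
  ring

/-- `1 + s` -/
def fpO : Ex := fpk 1 1 + Ex.X

/-- `s³ (1+s) C_K` -/
def fpCK : Ex := fpk 4 1 * (Ex.X * Ex.X) * fpO - fpk 4 1 * (Ex.X * Ex.X * (Ex.X * Ex.X)) -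
  fpk 2 1 * fpS5 * fpO - fpk 6 1 * fpZ * Ex.Y * fpO + fpS5 * fpO * fpZ * Ex.Y * fpKQ

/-- Taylor polynomial of `e^{-2l}` -/
def fpA : Ex := fpk 1 1 + Ex.Y * (fpk (-2) 1 + Ex.Y * (fpk 2 1 + Ex.Y * (fpk (-4) 3 + Ex.Y * (
  fpk 2 3 + Ex.Y * fpk (-4) 15))))

def fpBB : Ex := fpCK + fpk 4 1 * fpS5 * fpO * fpA

def fpF (p : ℤ) (q : ℕ) : Ex := fpBB - fpk p q * (Ex.X * Ex.X) * fpO -
  fpk 1 3 * (Ex.X * Ex.X * Ex.X) * fpO

def fpG (g p : ℤ) (q : ℕ) : Ex := fpk g 25 * fpZ * Ex.Y * Ex.X - fpk p q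

noncomputable def fpCKr (s z l : ℝ) : ℝ :=
  4 / s - 4 * s / (1 + s) - 2 * s ^ 2 - 6 * (z / s ^ 3) * l + s ^ 2 * z * l * kQ' z l

noncomputable def fpAr (l : ℝ) : ℝ :=
  1 - 2 * l + 2 * l ^ 2 - 4 / 3 * l ^ 3 + 2 / 3 * l ^ 4 - 4 / 15 * l ^ 5

theorem fpCK_R {s : ℝ} (hs : 0 < s) (l : ℝ) :
    fpCK.R s l = s ^ 3 * (1 + s) * fpCKr s (1 - s ^ 2) l := by
  unfold fpCK fpS5 fpO fpCKr
  simp only [Ex.R_add, Ex.R_sub, Ex.R_mul, Ex.R_X, Ex.R_Y, fpZ_R, fpKQ_R]
  generalize kQ' (1 - s ^ 2) l = Q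
  generalize 1 - s ^ 2 = z
  simp (discharger := norm_num) only [fpk_R]
  have : 1 + s ≠ 0 := by positivity
  push_cast
  field_simp

theorem fpA_R (s l : ℝ) : fpA.R s l = fpAr l := by
  unfold fpA fpAr
  simp only [Ex.R_add, Ex.R_sub, Ex.R_mul, Ex.R_X, Ex.R_Y]
  simp (discharger := norm_num) only [fpk_R]
  push_cast
  ring

theorem fpF_R {s : ℝ} (hs : 0 < s) (l : ℝ) (p : ℤ) (q : ℕ) (hq : 1 ≤ q) :
    (fpF p q).R s l = s ^ 3 * (1 + s) * (fpCKr s (1 - s ^ 2) l + 4 * s ^ 2 * fpAr l -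
      (p / q) / s - 1 / 3) := by
  unfold fpF fpBB fpS5 fpO
  simp only [Ex.R_add, Ex.R_sub, Ex.R_mul, Ex.R_X, Ex.R_Y, fpCK_R hs, fpA_R, fpk_R p q s l hq]
  generalize fpCKr s (1 - s ^ 2) l = C
  generalize fpAr l = A
  generalize (p : ℝ) / q = k
  simp (discharger := norm_num) only [fpk_R]
  push_cast
  field_simp

theorem fpG_R {s : ℝ} (l : ℝ) (g p : ℤ) (q : ℕ) (hq : 1 ≤ q) :
    (fpG g p q).R s l = g / 25 * (1 - s ^ 2) * l * s - p / q := by
  unfold fpG
  simp only [Ex.R_sub, Ex.R_mul, Ex.R_X, Ex.R_Y, fpZ_R, fpk_R p q s l hq,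
    fpk_R g 25 s l (by norm_num)]
  push_cast
  ring

/-- `e^{-2l} ≥` Taylor polynomial of degree 5 -/
theorem fpAr_le {l : ℝ} (h0 : 0 ≤ l) (h1 : l ≤ 1 / 2) : fpAr l ≤ Real.exp (-(2 * l)) := by
  have h := ks_taylor (y := -(2 * l)) (by rw [abs_neg, abs_of_nonneg (by linarith only [h0])]; linarith only [h1])
  rw [abs_neg, abs_of_nonneg (by linarith only [h0] : 0 ≤ 2 * l)] at h
  have h2 := (abs_le.1 h).1
  unfold fpAr
  have h3 : 0 ≤ l ^ 6 * (1 - 2 * l) := by
    apply mul_nonneg (by positivity); linarith only [h1]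
  have h4 : l ^ 8 ≤ l ^ 6 * (1 / 4) := by
    have : l ^ 2 ≤ 1 / 4 := by nlinarith only [h1, h0]
    calc l ^ 8 = l ^ 6 * l ^ 2 := by ring
      _ ≤ _ := mul_le_mul_of_nonneg_left this (by positivity)
  have h5 : 0 ≤ l ^ 6 := by positivity
  linarith

theorem fpk27_CK : Ex.nn (2 ^ 1024) 40 4000 8164 10000 10000 0 11 25 fpCK = true := by
  (clear * -; decide +kernel)
theorem fpk48_CK : Ex.nn (2 ^ 1024) 40 4000 9013 10000 10000 0 19 40 fpCK = true := by
  (clear * -; decide +kernel)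

theorem fpn_CK {s z l : ℝ} (hs : 0 < s) (hs1 : s ≤ 1) (hz : z = 1 - s ^ 2) (hl : 0 ≤ l)
    (hL : (z ≤ 1 / 3 ∧ l ≤ 11 / 25) ∨ (z ≤ 3 / 16 ∧ l ≤ 19 / 40)) :
    0 ≤ fpCKr s z l := by
  have key : 0 ≤ fpCK.R s l := by
    rcases hL with ⟨hz1, hl1⟩ | ⟨hz1, hl1⟩
    · exact Ex.nn_closed (by norm_num) (by norm_num) (by norm_num) (by norm_num) fpk27_CK
        (by push_cast; nlinarith only [hz, hz1, hs]) (by push_cast; linarith only [hs1]) (by push_cast; linarith only [hl])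
        (by push_cast; linarith only [hl1])
    · exact Ex.nn_closed (by norm_num) (by norm_num) (by norm_num) (by norm_num) fpk48_CK
        (by push_cast; nlinarith only [hz, hz1, hs]) (by push_cast; linarith only [hs1]) (by push_cast; linarith only [hl])
        (by push_cast; linarith only [hl1])
  rw [fpCK_R hs, ← hz] at key
  exact nonneg_of_mul_nonneg_right key (by positivity)

def fpT27 : PT := .sx (.sy (.leaf 0) (.sx (.sy (.sx (.leaf 1) (.leaf 0)) (.leaf 1)) (.sy (.leaf 0)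
  (.leaf 1)))) (.sy (.leaf 0) (.sx (.sy (.leaf 0) (.sx (.sy (.leaf 0) (.sx (.leaf 1) (.leaf 0)))
  (.leaf 0))) (.leaf 0)))

def fpT48 : PT := .sx (.sy (.leaf 0) (.sx (.leaf 1) (.sy (.leaf 0) (.leaf 1)))) (.leaf 0)

theorem fpk27_B : tchkE (2 ^ 1024) 40 4000 [[fpF 14 13], [fpF 28 39, fpG 180 14 39]] (fpk 0 1)
    fpT27 8164 10000 10000 0 11 25 = true := by
  (clear * -; decide +kernel)

theorem fpk48_B : tchkE (2 ^ 1024) 40 4000 [[fpF 49 47], [fpF 98 141, fpG 306 49 141]] (fpk 0 1)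
    fpT48 9013 10000 10000 0 19 40 = true := by
  (clear * -; decide +kernel)

/-- the coefficient of `W`: either the simple bound or the bound with help of the cross term -/
theorem fpn_B {s z l : ℝ} (hs : 0 < s) (hs1 : s ≤ 1) (hz : z = 1 - s ^ 2) (hl : 0 ≤ l)
    (k1 g : ℝ) (hL : (z ≤ 1 / 3 ∧ l ≤ 11 / 25 ∧ k1 = 28 / 13 ∧ g = 30) ∨
      (z ≤ 3 / 16 ∧ l ≤ 19 / 40 ∧ k1 = 98 / 47 ∧ g = 51)) :
    k1 / 2 / s + 1 / 3 ≤ fpCKr s z l + 4 * s ^ 2 * fpAr l ∨
    (k1 / 3 / s + 1 / 3 ≤ fpCKr s z l + 4 * s ^ 2 * fpAr l ∧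
      k1 / 6 / s ≤ 6 / 25 * g * z * l) := by
  have hs3 : 0 < s ^ 3 * (1 + s) := by positivity
  have hLo : (fpk 0 1).R s l ≤ 0 := by rw [fpk_R _ _ _ _ le_rfl]; simp
  rcases hL with ⟨hz1, hl1, rfl, rfl⟩ | ⟨hz1, hl1, rfl, rfl⟩
  · obtain ⟨i, hi⟩ := tchkE_sound hLo fpT27 8164 10000 10000 0 11 25 (by norm_num) (by norm_num)
      (by norm_num) (by norm_num) fpk27_B (by push_cast; nlinarith only [hz, hz1, hs]) (by push_cast; linarith only [hs1])
      (by push_cast; linarith only [hl]) (by push_cast; linarith only [hl1])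
    match i with
    | 0 =>
      left
      have h := hi (fpF 14 13) (by simp only [Int.reduceNeg, List.getD_eq_getElem?_getD, List.length_cons, List.length_nil, zero_add, Nat.reduceAdd, Order.lt_two_iff, zero_le, getElem?_pos, List.getElem_cons_zero, Option.getD_some, List.mem_cons, List.not_mem_nil, or_false])
      rw [fpF_R hs l _ _ (by norm_num), ← hz] at h
      have h2 := nonneg_of_mul_nonneg_right h hs3
      push_cast at h2
      have e : (28 / 13 / 2 / s : ℝ) = 14 / 13 / s := by ring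
      rw [e]
      linarith only [h2]
    | 1 =>
      right
      have h := hi (fpF 28 39) (by simp)
      have h' := hi (fpG 180 14 39) (by simp)
      rw [fpF_R hs l _ _ (by norm_num), ← hz] at h
      rw [fpG_R l _ _ _ (by norm_num), ← hz] at h'
      have h2 := nonneg_of_mul_nonneg_right h hs3
      push_cast at h2 h'
      have e : (28 / 13 / 3 / s : ℝ) = 28 / 39 / s := by ring
      have e' : (28 / 13 / 6 / s : ℝ) = 14 / 39 / s := by ring
      rw [e, e', div_le_iff₀ hs]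
      constructor <;> linarith only [h', h2]
    | (n + 2) =>
      exfalso
      have h := hi (Ex.c ⟨-1, 0⟩) (by simp only [Int.reduceNeg, List.getD_eq_getElem?_getD, List.length_cons, List.length_nil, zero_add, Nat.reduceAdd, Order.lt_two_iff, Nat.reduceLeDiff, not_false_eq_true, getElem?_neg, Option.getD_none, List.mem_cons, List.not_mem_nil, or_false])
      rw [Ex.R_c, Fr.R] at h
      norm_num at h
  · obtain ⟨i, hi⟩ := tchkE_sound hLo fpT48 9013 10000 10000 0 19 40 (by norm_num) (by norm_num)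
      (by norm_num) (by norm_num) fpk48_B (by push_cast; nlinarith only [hz, hz1, hs]) (by push_cast; linarith only [hs1])
      (by push_cast; linarith only [hl]) (by push_cast; linarith only [hl1])
    match i with
    | 0 =>
      left
      have h := hi (fpF 49 47) (by simp only [Int.reduceNeg, List.getD_eq_getElem?_getD, List.length_cons, List.length_nil, zero_add, Nat.reduceAdd, Order.lt_two_iff, zero_le, getElem?_pos, List.getElem_cons_zero, Option.getD_some, List.mem_cons, List.not_mem_nil, or_false])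
      rw [fpF_R hs l _ _ (by norm_num), ← hz] at h
      have h2 := nonneg_of_mul_nonneg_right h hs3
      push_cast at h2
      have e : (98 / 47 / 2 / s : ℝ) = 49 / 47 / s := by ring
      rw [e]
      linarith only [h2]
    | 1 =>
      right
      have h := hi (fpF 98 141) (by simp)
      have h' := hi (fpG 306 49 141) (by simp)
      rw [fpF_R hs l _ _ (by norm_num), ← hz] at h
      rw [fpG_R l _ _ _ (by norm_num), ← hz] at h'
      have h2 := nonneg_of_mul_nonneg_right h hs3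
      push_cast at h2 h'
      have e : (98 / 47 / 3 / s : ℝ) = 98 / 141 / s := by ring
      have e' : (98 / 47 / 6 / s : ℝ) = 49 / 141 / s := by ring
      rw [e, e', div_le_iff₀ hs]
      constructor <;> linarith only [h', h2]
    | (n + 2) =>
      exfalso
      have h := hi (Ex.c ⟨-1, 0⟩) (by simp only [Int.reduceNeg, List.getD_eq_getElem?_getD, List.length_cons, List.length_nil, zero_add, Nat.reduceAdd, Order.lt_two_iff, Nat.reduceLeDiff, not_false_eq_true, getElem?_neg, Option.getD_none, List.mem_cons, List.not_mem_nil, or_false])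
      rw [Ex.R_c, Fr.R] at h
      norm_num at h

end Vale.Agent.P237.AllN
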