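import Vale.Agent.P237.AllN.KronEx
import Vale.Agent.P237.AllN.FKs2

/-!
# P237, block D, `l ≥ 0`, `1 ≤ √m x ≤ 3`, `u ≤ 0`: the kernel-checked polynomial inequalities

Variables: `s = √(1-x²)`, `w = m x²`, `l`.
-/

namespace Vale.Agent.P237.AllN

open PolyPos

/-! ## expressions, first variable `s`, second variable `l` -/

/-- the constant `n/d` -/
def fpk (n : ℤ) (d : ℕ) : Ex := Ex.c ⟨n, d - 1⟩

/-- `z = 1 - s²` -/
def fpZ : Ex := fpk 1 1 - Ex.X * Ex.X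

/-- `a + b l + c l²` -/
def fpq (a b c : Ex) : Ex := a + Ex.Y * (b + Ex.Y * c)

def fpEU : Ex := fpq (fpk 4 3) (fpk (-81) 125) (fpk 97 500) + fpZ * (
  fpk 3 16 * fpq (fpk 128 3) (fpk (-21) 1) (fpk 617 20) + fpZ * (
  fpk 5 48 * fpq (fpk 216 1) (fpk (-1049) 5) (fpk 637 2) + fpZ * (
  fpk 35 512 * fpq (fpk 2048 3) (fpk (-989) 1) (fpk 1695 1) + fpZ * (
  fpk 63 1280 * fpq (fpk 5000 3) (fpk (-3230) 1) (fpk 6397 1) + fpZ * (
  fpk 77 2048 * fpq (fpk 3456 1) (fpk (-8456) 1) (fpk 19775 1))))))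

def fpEV : Ex := fpZ * (fpk 3 1 * fpq (fpk 4 3) (fpk (-81) 125) (fpk 97 500) +
  fpk 3 16 * (fpk 5 1 * fpZ * fpq (fpk 128 3) (fpk (-21) 1) (fpk 617 20) -
    fpk 6 1 * fpq (fpk 32 3) (fpk (-1067) 100) (fpk 317 50)) + fpZ * (
  fpk 5 48 * (fpk 7 1 * fpZ * fpq (fpk 216 1) (fpk (-1049) 5) (fpk 637 2) -
    fpk 20 1 * fpq (fpk 36 1) (fpk (-54) 1) (fpk 212 5)) + fpZ * (
  fpk 35 512 * (fpk 9 1 * fpZ * fpq (fpk 2048 3) (fpk (-989) 1) (fpk 1695 1) -
    fpk 42 1 * fpq (fpk 256 3) (fpk (-1707) 10) (fpk 797 5)) + fpZ * (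
  fpk 63 1280 * (fpk 11 1 * fpZ * fpq (fpk 5000 3) (fpk (-3230) 1) (fpk 6397 1) -
    fpk 72 1 * fpq (fpk 500 3) (fpk (-4167) 10) (fpk 2192 5)) + fpZ * (
  fpk 77 2048 * (fpk 13 1 * fpZ * fpq (fpk 3456 1) (fpk (-8456) 1) (fpk 19775 1) -
    fpk 110 1 * fpq (fpk 288 1) (fpk (-864) 1) (fpk 9919 10)))))))

noncomputable def fpU (z l : ℝ) : ℝ :=
  (4 / 3 - 81 / 125 * l + 97 / 500 * l ^ 2) +
  3 / 16 * z * (128 / 3 - 21 * l + 617 / 20 * l ^ 2) +
  5 / 48 * z ^ 2 * (216 - 1049 / 5 * l + 637 / 2 * l ^ 2) +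
  35 / 512 * z ^ 3 * (2048 / 3 - 989 * l + 1695 * l ^ 2) +
  63 / 1280 * z ^ 4 * (5000 / 3 - 3230 * l + 6397 * l ^ 2) +
  77 / 2048 * z ^ 5 * (3456 - 8456 * l + 19775 * l ^ 2)

noncomputable def fpV (z l : ℝ) : ℝ :=
  3 * z * (4 / 3 - 81 / 125 * l + 97 / 500 * l ^ 2) +
  3 / 16 * z * (5 * z * (128 / 3 - 21 * l + 617 / 20 * l ^ 2) - 6 * (32 / 3 - 1067 / 100 * l + 317 / 50 * l ^ 2)) +
  5 / 48 * z ^ 2 * (7 * z * (216 - 1049 / 5 * l + 637 / 2 * l ^ 2) - 20 * (36 - 54 * l + 212 / 5 * l ^ 2)) +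
  35 / 512 * z ^ 3 * (9 * z * (2048 / 3 - 989 * l + 1695 * l ^ 2) - 42 * (256 / 3 - 1707 / 10 * l + 797 / 5 * l ^ 2)) +
  63 / 1280 * z ^ 4 * (11 * z * (5000 / 3 - 3230 * l + 6397 * l ^ 2) - 72 * (500 / 3 - 4167 / 10 * l + 2192 / 5 * l ^ 2)) +
  77 / 2048 * z ^ 5 * (13 * z * (3456 - 8456 * l + 19775 * l ^ 2) - 110 * (288 - 864 * l + 9919 / 10 * l ^ 2))

theorem fp_kB (m z l : ℝ) : z * kB' m z l = m * z * fpU z l + fpV z l := by
  unfold kB' fpU fpV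
  ring

theorem fpk_R (n : ℤ) (d : ℕ) (x y : ℝ) (hd : 1 ≤ d) : (fpk n d).R x y = n / d := by
  unfold fpk
  rw [Ex.R_c, Fr.R]
  congr 1
  obtain ⟨k, rfl⟩ := Nat.exists_eq_add_of_le' hd
  simp only [add_tsub_cancel_right, Nat.cast_add, Nat.cast_one]

theorem fpZ_R (s l : ℝ) : fpZ.R s l = 1 - s ^ 2 := by
  unfold fpZ
  rw [Ex.R_sub, Ex.R_mul, Ex.R_X, fpk_R _ _ _ _ le_rfl]
  push_cast
  ring

theorem fpEU_R (s l : ℝ) : fpEU.R s l = fpU (1 - s ^ 2) l := by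
  unfold fpEU fpq fpU
  simp only [Ex.R_add, Ex.R_mul, Ex.R_Y, fpZ_R]
  generalize 1 - s ^ 2 = z
  simp (discharger := norm_num) only [fpk_R]
  push_cast
  ring

theorem fpEV_R (s l : ℝ) : fpEV.R s l = fpV (1 - s ^ 2) l := by
  unfold fpEV fpq fpV
  simp only [Ex.R_add, Ex.R_sub, Ex.R_mul, Ex.R_Y, fpZ_R]
  generalize 1 - s ^ 2 = z
  simp (discharger := norm_num) only [fpk_R]
  push_cast
  ring

/-- `s^5` -/
def fpS5 : Ex := Ex.X * Ex.X * (Ex.X * Ex.X * Ex.X)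

def fpC2 : Ex := fpk 3 25 * (Ex.X * Ex.X * Ex.X)

def fpC1 : Ex := fpS5 * (fpk 27 50 - Ex.Y * fpEU) + fpk 3 1 * fpZ +
  fpk 9 25 * fpZ * (Ex.X * Ex.X * Ex.X)

def fpC0 : Ex := fpS5 * (fpk 123 25 * fpZ - Ex.Y * fpEV) - fpk 9 1 * fpZ -
  fpk 2 1 * fpZ * (Ex.X * Ex.X) * (fpk 2 5 + fpZ * (fpk 13 20 + fpZ * fpZ * fpk 22 5))

def fpQ0 (w : Ex) : Ex := fpC2 * w * w + fpC1 * w + fpC0

def fpQ1 (w : Ex) : Ex := fpk 2 1 * fpC2 * w + fpC1

theorem fpQ0_R (W : Ex) (s l : ℝ) : (fpQ0 W).R s l =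
    3 / 25 * s ^ 3 * W.R s l ^ 2 +
    (s ^ 5 * (27 / 50 - l * fpU (1 - s ^ 2) l) + 3 * (1 - s ^ 2) + 9 / 25 * (1 - s ^ 2) * s ^ 3) *
      W.R s l +
    (s ^ 5 * (123 / 25 * (1 - s ^ 2) - l * fpV (1 - s ^ 2) l) - 9 * (1 - s ^ 2) -
      2 * (1 - s ^ 2) * s ^ 2 * (2 / 5 + 13 * (1 - s ^ 2) / 20 + 22 * (1 - s ^ 2) ^ 3 / 5)) := by
  unfold fpQ0 fpC2 fpC1 fpC0 fpS5
  simp only [Ex.R_add, Ex.R_sub, Ex.R_mul, Ex.R_X, Ex.R_Y, fpZ_R, fpEU_R, fpEV_R]
  generalize fpU (1 - s ^ 2) l = U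
  generalize fpV (1 - s ^ 2) l = V
  generalize W.R s l = w
  simp (discharger := norm_num) only [fpk_R]
  push_cast
  ring

theorem fpQ1_R (W : Ex) (s l : ℝ) : (fpQ1 W).R s l =
    2 * (3 / 25 * s ^ 3) * W.R s l +
    (s ^ 5 * (27 / 50 - l * fpU (1 - s ^ 2) l) + 3 * (1 - s ^ 2) +
      9 / 25 * (1 - s ^ 2) * s ^ 3) := by
  unfold fpQ1 fpC2 fpC1 fpS5
  simp only [Ex.R_add, Ex.R_sub, Ex.R_mul, Ex.R_X, Ex.R_Y, fpZ_R, fpEU_R]
  generalize fpU (1 - s ^ 2) l = U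
  generalize W.R s l = w
  simp (discharger := norm_num) only [fpk_R]
  push_cast
  ring

/-- the `l²` coefficient of `T`: lower bound from two one-sided checks -/
theorem fpn_A_of {s z w l : ℝ} (hs : 0 < s) (hz : z = 1 - s ^ 2) (W : Ex)
    (h0 : 0 ≤ (fpQ0 W).R s l) (h1 : 0 ≤ (fpQ1 W).R s l) (hw : W.R s l ≤ w) :
    11 / 10 * w ≤ 2 * (w + 3 * z) - l * (w * fpU z l + fpV z l) + 3 * z * (w - 3) / s ^ 5 -
      2 * z / s ^ 3 * (2 / 5 + 13 * z / 20 + 22 * z ^ 3 / 5) +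
      3 / 25 * (w + 3 * z) * (w / s ^ 2 - 3) := by
  rw [fpQ0_R] at h0
  rw [fpQ1_R] at h1
  rw [← hz] at h0 h1
  set w0 := W.R s l
  obtain ⟨δ, hδ⟩ : ∃ δ, w = w0 + δ := ⟨w - w0, by ring⟩
  have hδ0 : 0 ≤ δ := by linarith only [hw, hδ]
  generalize fpU z l = U at *
  generalize fpV z l = V at *
  have e : 2 * (w + 3 * z) - l * (w * U + V) + 3 * z * (w - 3) / s ^ 5 -
      2 * z / s ^ 3 * (2 / 5 + 13 * z / 20 + 22 * z ^ 3 / 5) +
      3 / 25 * (w + 3 * z) * (w / s ^ 2 - 3) - 11 / 10 * w =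
      ((3 / 25 * s ^ 3 * w0 ^ 2 +
      (s ^ 5 * (27 / 50 - l * U) + 3 * z + 9 / 25 * z * s ^ 3) * w0 +
      (s ^ 5 * (123 / 25 * z - l * V) - 9 * z -
      2 * z * s ^ 2 * (2 / 5 + 13 * z / 20 + 22 * z ^ 3 / 5))) +
      (2 * (3 / 25 * s ^ 3) * w0 +
      (s ^ 5 * (27 / 50 - l * U) + 3 * z + 9 / 25 * z * s ^ 3)) * δ +
      3 / 25 * s ^ 3 * δ ^ 2) / s ^ 5 := by
    rw [hδ]
    field_simp
    ring
  have h2 := mul_nonneg h1 hδ0
  have h3 : 0 ≤ 3 / 25 * s ^ 3 * δ ^ 2 := by (clear * - hs; positivity)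
  have h4 : 0 ≤ 2 * (w + 3 * z) - l * (w * U + V) + 3 * z * (w - 3) / s ^ 5 -
      2 * z / s ^ 3 * (2 / 5 + 13 * z / 20 + 22 * z ^ 3 / 5) +
      3 / 25 * (w + 3 * z) * (w / s ^ 2 - 3) - 11 / 10 * w := by
    rw [e]
    apply div_nonneg _ (by positivity)
    linarith only [h0, h2, h3]
  linarith only [h4]

theorem fpk27_I0 : Ex.nn (2 ^ 1024) 40 4000 9813 10000 10000 0 11 25 (fpQ0 (fpk 1 1)) = true := by
  (clear * -; decide +kernel)
theorem fpk27_I1 : Ex.nn (2 ^ 1024) 40 4000 9813 10000 10000 0 11 25 (fpQ1 (fpk 1 1)) = true := by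
  (clear * -; decide +kernel)
theorem fpk27_J0 : Ex.nn (2 ^ 1024) 40 4000 8164 9814 10000 0 11 25 (fpQ0 (fpk 27 1 * fpZ)) = true := by
  (clear * -; decide +kernel)
theorem fpk27_J1 : Ex.nn (2 ^ 1024) 40 4000 8164 9814 10000 0 11 25 (fpQ1 (fpk 27 1 * fpZ)) = true := by
  (clear * -; decide +kernel)
theorem fpk48_I0 : Ex.nn (2 ^ 1024) 40 4000 9895 10000 10000 0 19 40 (fpQ0 (fpk 1 1)) = true := by
  (clear * -; decide +kernel)
theorem fpk48_I1 : Ex.nn (2 ^ 1024) 40 4000 9895 10000 10000 0 19 40 (fpQ1 (fpk 1 1)) = true := by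
  (clear * -; decide +kernel)
theorem fpk48_J0 : Ex.nn (2 ^ 1024) 40 4000 9013 9896 10000 0 19 40 (fpQ0 (fpk 48 1 * fpZ)) = true := by
  (clear * -; decide +kernel)
theorem fpk48_J1 : Ex.nn (2 ^ 1024) 40 4000 9013 9896 10000 0 19 40 (fpQ1 (fpk 48 1 * fpZ)) = true := by
  (clear * -; decide +kernel)

/-- the `l²` coefficient of `T` -/
theorem fpn_A {s z w l : ℝ} (hs : 0 < s) (hs1 : s ≤ 1) (hz : z = 1 - s ^ 2) (hw1 : 1 ≤ w)
    (hw9 : w ≤ 9) (hl : 0 ≤ l)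
    (hL : (27 * z ≤ w ∧ l ≤ 11 / 25) ∨ (48 * z ≤ w ∧ l ≤ 19 / 40)) :
    11 / 10 * w ≤ 2 * (w + 3 * z) - l * (w * fpU z l + fpV z l) + 3 * z * (w - 3) / s ^ 5 -
      2 * z / s ^ 3 * (2 / 5 + 13 * z / 20 + 22 * z ^ 3 / 5) +
      3 / 25 * (w + 3 * z) * (w / s ^ 2 - 3) := by
  rcases hL with ⟨hzw, hl1⟩ | ⟨hzw, hl1⟩
  · have hs2 : 8164 ≤ 10000 * s := by nlinarith only [hs, hz, hw9, hzw]
    rcases le_total (10000 * s) 9813 with h | h
    · refine fpn_A_of hs hz (fpk 27 1 * fpZ)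
        (Ex.nn_closed (by norm_num) (by norm_num) (by norm_num) (by norm_num) fpk27_J0
          (by push_cast; linarith only [hs2]) (by push_cast; linarith only [h]) (by push_cast; linarith only [hl])
          (by push_cast; linarith only [hl1]))
        (Ex.nn_closed (by norm_num) (by norm_num) (by norm_num) (by norm_num) fpk27_J1
          (by push_cast; linarith only [hs2]) (by push_cast; linarith only [h]) (by push_cast; linarith only [hl])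
          (by push_cast; linarith only [hl1])) ?_
      rw [Ex.R_mul, fpZ_R, fpk_R _ _ _ _ le_rfl, ← hz]
      push_cast
      linarith only [hzw]
    · refine fpn_A_of hs hz (fpk 1 1)
        (Ex.nn_closed (by norm_num) (by norm_num) (by norm_num) (by norm_num) fpk27_I0
          (by push_cast; linarith only [h]) (by push_cast; linarith only [hs1]) (by push_cast; linarith only [hl])
          (by push_cast; linarith only [hl1]))
        (Ex.nn_closed (by norm_num) (by norm_num) (by norm_num) (by norm_num) fpk27_I1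
          (by push_cast; linarith only [h]) (by push_cast; linarith only [hs1]) (by push_cast; linarith only [hl])
          (by push_cast; linarith only [hl1])) ?_
      rw [fpk_R _ _ _ _ le_rfl]
      push_cast
      linarith only [hw1]
  · have hs2 : 9013 ≤ 10000 * s := by nlinarith only [hs, hz, hw9, hzw]
    rcases le_total (10000 * s) 9895 with h | h
    · refine fpn_A_of hs hz (fpk 48 1 * fpZ)
        (Ex.nn_closed (by norm_num) (by norm_num) (by norm_num) (by norm_num) fpk48_J0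
          (by push_cast; linarith only [hs2]) (by push_cast; linarith only [h]) (by push_cast; linarith only [hl])
          (by push_cast; linarith only [hl1]))
        (Ex.nn_closed (by norm_num) (by norm_num) (by norm_num) (by norm_num) fpk48_J1
          (by push_cast; linarith only [hs2]) (by push_cast; linarith only [h]) (by push_cast; linarith only [hl])
          (by push_cast; linarith only [hl1])) ?_
      rw [Ex.R_mul, fpZ_R, fpk_R _ _ _ _ le_rfl, ← hz]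
      push_cast
      linarith only [hzw]
    · refine fpn_A_of hs hz (fpk 1 1)
        (Ex.nn_closed (by norm_num) (by norm_num) (by norm_num) (by norm_num) fpk48_I0
          (by push_cast; linarith only [h]) (by push_cast; linarith only [hs1]) (by push_cast; linarith only [hl])
          (by push_cast; linarith only [hl1]))
        (Ex.nn_closed (by norm_num) (by norm_num) (by norm_num) (by norm_num) fpk48_I1
          (by push_cast; linarith only [h]) (by push_cast; linarith only [hs1]) (by push_cast; linarith only [hl])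
          (by push_cast; linarith only [hl1])) ?_
      rw [fpk_R _ _ _ _ le_rfl]
      push_cast
      linarith only [hw1]

end Vale.Agent.P237.AllN
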