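import Vale.Agent.P237.AllN.FPosDef

/-!
# P237, block D, `l > 0`, `m z ≤ 1`: exponential inequalities, the kernel sum
-/

namespace Vale.Agent.P237.AllN

/-! ## exponentials -/

theorem pa_nonneg_of_deriv {f f' : ℝ → ℝ} (h0 : 0 ≤ f 0) (hd : ∀ t : ℝ, HasDerivAt f (f' t) t)
    (hf : ∀ t : ℝ, 0 ≤ t → 0 ≤ f' t) {t : ℝ} (ht : 0 ≤ t) : 0 ≤ f t := by
  have hm : MonotoneOn f (Set.Ici 0) := by
    apply monotoneOn_of_deriv_nonneg (convex_Ici 0)
    · exact fun t _ => (hd t).continuousAt.continuousWithinAt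
    · exact fun t _ => (hd t).differentiableAt.differentiableWithinAt
    · intro t ht
      rw [interior_Ici] at ht
      rw [(hd t).deriv]
      exact hf t (le_of_lt ht)
  exact h0.trans (hm (Set.mem_Ici.2 le_rfl) (Set.mem_Ici.2 ht) ht)

theorem pa_hexp (t : ℝ) : HasDerivAt (fun t : ℝ => Real.exp (-t)) (-Real.exp (-t)) t := by
  have := (hasDerivAt_neg t).exp
  simpa using this

theorem pa_E1 (t : ℝ) : 1 - t ≤ Real.exp (-t) := by
  have := Real.add_one_le_exp (-t)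
  linarith only [this]

theorem pa_E2 {t : ℝ} (ht : 0 ≤ t) : Real.exp (-t) ≤ 1 - t + t ^ 2 / 2 := by
  have h := pa_nonneg_of_deriv (f := fun t => 1 - t + t ^ 2 / 2 - Real.exp (-t))
    (f' := fun t => -1 + t + Real.exp (-t)) (by simp) (fun t => by
      have h1 := ((((hasDerivAt_const t (1 : ℝ)).sub (hasDerivAt_id t)).add
        ((hasDerivAt_pow 2 t).div_const 2))).sub (pa_hexp t)
      refine h1.congr_deriv ?_
      norm_num) (fun t _ => by have := pa_E1 t; linarith) ht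
  linarith only [h]

theorem pa_E3 {t : ℝ} (ht : 0 ≤ t) : 1 - t + t ^ 2 / 2 - t ^ 3 / 6 ≤ Real.exp (-t) := by
  have h := pa_nonneg_of_deriv (f := fun t => Real.exp (-t) - (1 - t + t ^ 2 / 2 - t ^ 3 / 6))
    (f' := fun t => 1 - t + t ^ 2 / 2 - Real.exp (-t)) (by simp) (fun t => by
      have h1 := (pa_hexp t).sub (((((hasDerivAt_const t (1 : ℝ)).sub (hasDerivAt_id t)).add
        ((hasDerivAt_pow 2 t).div_const 2))).sub ((hasDerivAt_pow 3 t).div_const 6))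
      refine h1.congr_deriv ?_
      norm_num
      ring) (fun t ht => by have := pa_E2 ht; linarith only [this]) ht
  linarith only [h]

theorem pa_E4 {t : ℝ} (ht : 0 ≤ t) :
    Real.exp (-t) ≤ 1 - t + t ^ 2 / 2 - t ^ 3 / 6 + t ^ 4 / 24 := by
  have h := pa_nonneg_of_deriv
    (f := fun t => (1 - t + t ^ 2 / 2 - t ^ 3 / 6 + t ^ 4 / 24) - Real.exp (-t))
    (f' := fun t => Real.exp (-t) - (1 - t + t ^ 2 / 2 - t ^ 3 / 6)) (by simp) (fun t => by
      have h1 := ((((((hasDerivAt_const t (1 : ℝ)).sub (hasDerivAt_id t)).add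
        ((hasDerivAt_pow 2 t).div_const 2))).sub ((hasDerivAt_pow 3 t).div_const 6)).add
        ((hasDerivAt_pow 4 t).div_const 24)).sub (pa_hexp t)
      refine h1.congr_deriv ?_
      norm_num
      ring) (fun t ht => by have := pa_E3 ht; linarith only [this]) ht
  linarith

theorem pa_E5 {t : ℝ} (ht : 0 ≤ t) :
    1 - t + t ^ 2 / 2 - t ^ 3 / 6 + t ^ 4 / 24 - t ^ 5 / 120 ≤ Real.exp (-t) := by
  have h := pa_nonneg_of_deriv
    (f := fun t => Real.exp (-t) - (1 - t + t ^ 2 / 2 - t ^ 3 / 6 + t ^ 4 / 24 - t ^ 5 / 120))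
    (f' := fun t => (1 - t + t ^ 2 / 2 - t ^ 3 / 6 + t ^ 4 / 24) - Real.exp (-t)) (by simp)
    (fun t => by
      have h1 := (pa_hexp t).sub (((((((hasDerivAt_const t (1 : ℝ)).sub (hasDerivAt_id t)).add
        ((hasDerivAt_pow 2 t).div_const 2))).sub ((hasDerivAt_pow 3 t).div_const 6)).add
        ((hasDerivAt_pow 4 t).div_const 24)).sub ((hasDerivAt_pow 5 t).div_const 120))
      refine h1.congr_deriv ?_
      norm_num
      ring) (fun t ht => by have := pa_E4 ht; linarith only [this]) ht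
  linarith

/-- `e^t - 1 - t - t²/2 ≤ (t³/6) e^t` -/
theorem pa_ct {t : ℝ} (ht : 0 ≤ t) :
    Real.exp t - 1 - t - t ^ 2 / 2 ≤ t ^ 3 / 6 * Real.exp t := by
  have h := pa_nonneg_of_deriv
    (f := fun t => Real.exp (-t) * (1 + t + t ^ 2 / 2) - 1 + t ^ 3 / 6)
    (f' := fun t => t ^ 2 / 2 * (1 - Real.exp (-t))) (by simp)
    (fun t => by
      have h1 := (((pa_hexp t).mul (((hasDerivAt_const t (1 : ℝ)).add (hasDerivAt_id t)).add
        ((hasDerivAt_pow 2 t).div_const 2))).sub (hasDerivAt_const t (1 : ℝ))).add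
        ((hasDerivAt_pow 3 t).div_const 6)
      refine h1.congr_deriv ?_
      simp only [Pi.add_apply, id_eq, neg_mul, zero_add, Nat.cast_ofNat, Nat.add_one_sub_one, pow_one, ne_eq, OfNat.ofNat_ne_zero, not_false_eq_true, mul_div_cancel_left₀, sub_zero]
      ring) (fun t ht => by
        have : Real.exp (-t) ≤ 1 := Real.exp_le_one_iff.2 (by linarith)
        have h2 : 0 ≤ 1 - Real.exp (-t) := by linarith
        (clear * - this; positivity)) ht
  have h3 : 0 ≤ Real.exp t * (Real.exp (-t) * (1 + t + t ^ 2 / 2) - 1 + t ^ 3 / 6) :=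
    mul_nonneg (Real.exp_pos t).le h
  have h4 : Real.exp t * Real.exp (-t) = 1 := by rw [← Real.exp_add]; simp
  nlinarith only [h3, h4, ht]

/-! ## the kernel sum -/

theorem dpK_zero {m z s l k κz : ℝ} (hk : 0 < k) : dpK m z s l 0 k κz =
    κz / (2 * k) * ((2 * k - 1) * (2 * (k - 1) - (m + 1 + 2 * k) * z) *
      (1 - 2 * k * l + (2 * k * l) ^ 2 / 2 - Real.exp (-(2 * k * l))) -
      (m + 1 + 2 * k) * z * (Real.exp (2 * k * l) - 1 - 2 * k * l - (2 * k * l) ^ 2 / 2)) := by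
  unfold dpK
  field_simp
  ring

theorem dpK_split (m z s l W k κz : ℝ) : dpK m z s l W k κz = dpK m z s l 0 k κz +
    κz * s ^ 2 * (2 * (2 * k - 1) * (Real.exp (-(2 * k * l)) - 1) + 4 * k * (k - 1) * l) * W := by
  unfold dpK
  ring

/-- crude lower bound of one term, `x = e^(2kl)` bounded by `X` -/
theorem dpK_zero_ge {m z s l k κz X : ℝ} (hk : 1 ≤ k) (hκ : 0 ≤ κz) (hl : 0 ≤ l) (hz : 0 ≤ z)
    (hm : 0 ≤ m) (h1 : (m + 1 + 2 * k) * z ≤ 2 * (k - 1)) (hX : Real.exp (2 * k * l) ≤ X) :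
    -(κz / (2 * k) * ((m + 1 + 2 * k) * z * ((2 * k * l) ^ 3 / 6 * X))) ≤ dpK m z s l 0 k κz := by
  have hk0 : 0 < k := by linarith
  rw [dpK_zero hk0]
  have ht : 0 ≤ 2 * k * l := by positivity
  have h2 := pa_ct ht
  have h3 := pa_E2 ht
  have h4 : 0 ≤ (2 * k - 1) * (2 * (k - 1) - (m + 1 + 2 * k) * z) *
      (1 - 2 * k * l + (2 * k * l) ^ 2 / 2 - Real.exp (-(2 * k * l))) :=
    mul_nonneg (mul_nonneg (by linarith only [hk]) (by linarith only [h1])) (by linarith only [h3])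
  have h5 : Real.exp (2 * k * l) - 1 - 2 * k * l - (2 * k * l) ^ 2 / 2 ≤
      (2 * k * l) ^ 3 / 6 * X := h2.trans (mul_le_mul_of_nonneg_left hX (by (clear * - hk hl; positivity)))
  have h6 : 0 ≤ (m + 1 + 2 * k) * z := by positivity
  have h7 := mul_le_mul_of_nonneg_left h5 h6
  have h8 : 0 ≤ κz / (2 * k) := by positivity
  have h9 : -((m + 1 + 2 * k) * z * ((2 * k * l) ^ 3 / 6 * X)) ≤
      (2 * k - 1) * (2 * (k - 1) - (m + 1 + 2 * k) * z) *
      (1 - 2 * k * l + (2 * k * l) ^ 2 / 2 - Real.exp (-(2 * k * l))) -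
      (m + 1 + 2 * k) * z * (Real.exp (2 * k * l) - 1 - 2 * k * l - (2 * k * l) ^ 2 / 2) := by
    linarith only [h4, h7]
  have := mul_le_mul_of_nonneg_left h9 h8
  linarith only [this]

theorem pa_exp_upper {l : ℝ} (h0 : 0 ≤ l) (h1 : l ≤ 1 / 2) :
    Real.exp (4 * l) ≤ 1 + 4 * l + 8 * l ^ 2 + 20 * l ^ 3 := by
  have h2 := Real.exp_bound' (x := 2 * l) (by linarith only [h0]) (by linarith only [h1]) (n := 3) (by norm_num)
  simp only [Finset.sum_range_succ, Finset.sum_range_zero, Nat.factorial] at h2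
  have h3 : Real.exp (2 * l) ≤ 1 + 2 * l + 2 * l ^ 2 + 16 / 9 * l ^ 3 := by
    refine h2.trans (le_of_eq ?_)
    norm_num
    ring
  have h4 : Real.exp (4 * l) = Real.exp (2 * l) ^ 2 := by
    rw [← Real.exp_nat_mul]; congr 1; push_cast; ring
  have h5 : Real.exp (2 * l) ^ 2 ≤ (1 + 2 * l + 2 * l ^ 2 + 16 / 9 * l ^ 3) ^ 2 :=
    pow_le_pow_left₀ (Real.exp_pos _).le h3 2
  rw [h4]
  refine h5.trans ?_
  have h6 : 0 ≤ 1 / 2 - l := by linarith only [h1]
  nlinarith only [h6, pow_nonneg h0 3, pow_nonneg h0 5]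

theorem pa_exp_neg_upper {l : ℝ} (h0 : 0 ≤ l) (h1 : l ≤ 1 / 2) :
    Real.exp (-(4 * l)) ≤ 1 - 4 * l + 8 * l ^ 2 - 34 / 5 * l ^ 3 := by
  have h3 : Real.exp (-(2 * l)) ≤ 1 - 2 * l + 2 * l ^ 2 - 4 / 3 * l ^ 3 + 2 / 3 * l ^ 4 := by
    refine (pa_E4 (t := 2 * l) (by linarith only [h0])).trans (le_of_eq ?_)
    ring
  have h4 : Real.exp (-(4 * l)) = Real.exp (-(2 * l)) ^ 2 := by
    rw [← Real.exp_nat_mul]; congr 1; push_cast; ring
  have h5 : Real.exp (-(2 * l)) ^ 2 ≤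
      (1 - 2 * l + 2 * l ^ 2 - 4 / 3 * l ^ 3 + 2 / 3 * l ^ 4) ^ 2 :=
    pow_le_pow_left₀ (Real.exp_pos _).le h3 2
  rw [h4]
  refine h5.trans ?_
  have h6 : 0 ≤ 1 / 2 - l := by linarith only [h1]
  nlinarith only [mul_nonneg (pow_nonneg h0 7) h6, pow_nonneg h0 5, pow_nonneg h0 6, pow_nonneg h0 8]

end Vale.Agent.P237.AllN
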