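import Vale.Agent.P237.AllN.FPosA1

/-!
# P237, block D, `l > 0`, `m z ≤ 1`: lower bounds of the kernel sum and of the `W`-coefficient
-/

namespace Vale.Agent.P237.AllN

theorem pa_term {m z s l k X A c κ w wb L : ℝ} (hk : 1 ≤ k) (hκ : 0 ≤ κ) (hw : 0 ≤ w)
    (hwb : w ≤ wb) (hl : 0 ≤ l) (hL : l ≤ L) (hz : 0 ≤ z) (hm : 0 ≤ m)
    (hA : (m + 1 + 2 * k) * z ≤ A) (hA2 : A ≤ 2 * (k - 1)) (hX : Real.exp (2 * k * l) ≤ X)
    (hc : κ * wb / (2 * k) * A * (8 * k ^ 3 * L / 6) * X ≤ c) :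
    -(c * (z * l ^ 2)) ≤ dpK m z s l 0 k (κ * w * z) := by
  have hk0 : 0 < k := by linarith only [hk]
  have h1 := dpK_zero_ge (s := s) hk (κz := κ * w * z) (by positivity) hl hz hm (hA.trans hA2) hX
  refine le_trans ?_ h1
  rw [neg_le_neg_iff]
  have hX0 : 0 ≤ X := (Real.exp_pos _).le.trans hX
  have hM0 : 0 ≤ (m + 1 + 2 * k) * z := by positivity
  have hA0 : 0 ≤ A := hM0.trans hA
  have e : κ * w * z / (2 * k) * ((m + 1 + 2 * k) * z * ((2 * k * l) ^ 3 / 6 * X)) =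
      κ * w / (2 * k) * ((m + 1 + 2 * k) * z) * (8 * k ^ 3 * l / 6) * X * (z * l ^ 2) := by
    ring
  rw [e]
  have h2 : κ * w / (2 * k) * ((m + 1 + 2 * k) * z) * (8 * k ^ 3 * l / 6) * X ≤
      κ * wb / (2 * k) * A * (8 * k ^ 3 * L / 6) * X := by
    have hwb0 : 0 ≤ wb := hw.trans hwb
    (clear * - hwb hκ hk hA hm hz hwb0 hL hl hA0 hX0; gcongr)
  exact mul_le_mul_of_nonneg_right (h2.trans hc) (by (clear * - hz; positivity))

theorem pa_exp1 : Real.exp 1 ≤ 27183 / 10000 := by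
  have := Real.exp_one_lt_d9
  norm_num at this ⊢
  linarith

theorem pa_exp1' : 27182 / 10000 ≤ Real.exp 1 := by
  have := Real.exp_one_gt_d9
  norm_num at this ⊢
  linarith only [this]

theorem pa_exp45 : Real.exp (4 / 5) ≤ 22256 / 10000 := by
  have h := Real.exp_one_lt_d9
  have h1 : Real.exp (4 / 5) ^ 5 = Real.exp 1 ^ 4 := by
    rw [← Real.exp_nat_mul, ← Real.exp_nat_mul]; congr 1; norm_num
  have h2 : Real.exp 1 ^ 4 ≤ (22256 / 10000) ^ 5 :=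
    (pow_le_pow_left₀ (Real.exp_pos _).le h.le 4).trans (by norm_num)
  rw [← h1] at h2
  exact le_of_pow_le_pow_left₀ (by norm_num) (by norm_num) h2

theorem pa_exp45' : 22255 / 10000 ≤ Real.exp (4 / 5) := by
  have h := Real.exp_one_gt_d9
  have h1 : Real.exp (4 / 5) ^ 5 = Real.exp 1 ^ 4 := by
    rw [← Real.exp_nat_mul, ← Real.exp_nat_mul]; congr 1; norm_num
  have h2 : (22255 / 10000) ^ 5 ≤ Real.exp 1 ^ 4 :=
    le_trans (by norm_num) (pow_le_pow_left₀ (by norm_num) h.le 4)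
  rw [← h1] at h2
  exact le_of_pow_le_pow_left₀ (by norm_num) (Real.exp_pos _).le h2

theorem pa_expk {l L B : ℝ} {k : ℕ} (hl : l ≤ L) (hB : Real.exp (2 * L) ≤ B) :
    Real.exp (2 * k * l) ≤ B ^ k := by
  have h1 : Real.exp (2 * k * l) ≤ Real.exp (2 * L) ^ k := by
    rw [← Real.exp_nat_mul]
    apply Real.exp_le_exp.2
    have : (0 : ℝ) ≤ k := Nat.cast_nonneg k
    nlinarith only [hl]
  exact h1.trans (pow_le_pow_left₀ (Real.exp_pos _).le hB k)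

/-- kernel sum, `m z ≤ 1`, `l ≤ 2/5` -/
theorem pa_S1 {m z s l : ℝ} (hm : 0 ≤ m) (hz : 0 ≤ z) (hz1 : z ≤ 1 / 25) (hM : m * z ≤ 1)
    (hl : 0 ≤ l) (hl1 : l ≤ 2 / 5) : -(8 / 5 * (z * l ^ 2)) ≤ dpS m z s l 0 := by
  have hB : Real.exp (2 * (2 / 5)) ≤ 22256 / 10000 := by
    have := pa_exp45; norm_num at this ⊢; exact this
  have x3 : Real.exp (2 * 3 * l) ≤ 11.03 :=
    (pa_expk (k := 3) hl1 hB).trans (by norm_num)
  have x4 : Real.exp (2 * 4 * l) ≤ 24.54 :=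
    (pa_expk (k := 4) hl1 hB).trans (by norm_num)
  have x5 : Real.exp (2 * 5 * l) ≤ 54.61 :=
    (pa_expk (k := 5) hl1 hB).trans (by norm_num)
  have x6 : Real.exp (2 * 6 * l) ≤ 121.6 :=
    (pa_expk (k := 6) hl1 hB).trans (by norm_num)
  have k3 := pa_term (m := m) (s := s) (k := 3) (A := 1.28) (c := 0.848) (κ := 5 / 8) (w := z)
    (by norm_num) (by norm_num) hz hz1 hl hl1 hz hm (by linarith only [hz1, hM]) (by norm_num) x3 (by norm_num)
  have k4 := pa_term (m := m) (s := s) (k := 4) (A := 1.36) (c := 0.125) (κ := 35 / 64)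
    (w := z ^ 2) (wb := (1 / 25) ^ 2)
    (by norm_num) (by norm_num) (by positivity) (pow_le_pow_left₀ hz hz1 2) hl hl1 hz hm
    (by linarith only [hz1, hM]) (by norm_num) x4 (by norm_num)
  have k5 := pa_term (m := m) (s := s) (k := 5) (A := 1.44) (c := 0.017) (κ := 63 / 128)
    (w := z ^ 3) (wb := (1 / 25) ^ 3)
    (by norm_num) (by norm_num) (by positivity) (pow_le_pow_left₀ hz hz1 3) hl hl1 hz hm
    (by linarith only [hz1, hM]) (by norm_num) x5 (by norm_num)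
  have k6 := pa_term (m := m) (s := s) (k := 6) (A := 1.52) (c := 0.0021) (κ := 231 / 512)
    (w := z ^ 4) (wb := (1 / 25) ^ 4)
    (by norm_num) (by norm_num) (by positivity) (pow_le_pow_left₀ hz hz1 4) hl hl1 hz hm
    (by linarith only [hz1, hM]) (by norm_num) x6 (by norm_num)
  have k2 : -(0.576 * (z * l ^ 2)) ≤ dpK m z s l 0 2 (3 / 4 * z) := by
    rw [dpK_zero (by norm_num : (0 : ℝ) < 2)]
    have h1 := pa_exp_upper hl (by linarith only [hl1])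
    have h2 := pa_exp_neg_upper hl (by linarith only [hl1])
    have e1 : Real.exp (2 * 2 * l) = Real.exp (4 * l) := by norm_num
    have e2 : Real.exp (-(2 * 2 * l)) = Real.exp (-(4 * l)) := by norm_num
    rw [e1, e2]
    have hA : (m + 1 + 2 * 2) * z ≤ 1.2 := by linarith only [hz1, hM]
    have hA0 : 0 ≤ (m + 1 + 2 * 2) * z := by (clear * - hm hz; positivity)
    obtain ⟨A, hAe⟩ : ∃ A, A = (m + 1 + 2 * 2) * z := ⟨_, rfl⟩
    rw [← hAe] at hA hA0 ⊢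
    have hl3 : 0 ≤ l ^ 3 := by (clear * - hl; positivity)
    have p1 : 34 / 5 * l ^ 3 ≤ 1 - 2 * 2 * l + (2 * 2 * l) ^ 2 / 2 - Real.exp (-(4 * l)) := by
      nlinarith only [h2]
    have p2 : Real.exp (4 * l) - 1 - 2 * 2 * l - (2 * 2 * l) ^ 2 / 2 ≤ 20 * l ^ 3 := by nlinarith only [h1]
    have q1 : (2 * 2 - 1) * (2 * (2 - 1) - A) * (34 / 5 * l ^ 3) ≤ (2 * 2 - 1) * (2 * (2 - 1) - A) *
        (1 - 2 * 2 * l + (2 * 2 * l) ^ 2 / 2 - Real.exp (-(4 * l))) :=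
      mul_le_mul_of_nonneg_left p1 (by norm_num at hA ⊢; linarith only [hz1, hM, hAe])
    have q2 := mul_le_mul_of_nonneg_left p2 hA0
    have q3 : -(7.68 * l ^ 3) ≤ (2 * 2 - 1) * (2 * (2 - 1) - A) * (34 / 5 * l ^ 3) -
        A * (20 * l ^ 3) := by
      norm_num at hA ⊢
      nlinarith only [hA, hl3]
    have q4 : -(7.68 * l ^ 3) ≤ (2 * 2 - 1) * (2 * (2 - 1) - A) *
        (1 - 2 * 2 * l + (2 * 2 * l) ^ 2 / 2 - Real.exp (-(4 * l))) -
        A * (Real.exp (4 * l) - 1 - 2 * 2 * l - (2 * 2 * l) ^ 2 / 2) := by linarith only [q1, q2, q3]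
    have q5 := mul_le_mul_of_nonneg_left q4 (by (clear * - hz; positivity) : 0 ≤ 3 / 4 * z / (2 * 2))
    refine le_trans ?_ q5
    have : 0 ≤ z * l ^ 2 * (2 / 5 - l) := by
      have : 0 ≤ 2 / 5 - l := by linarith only [hl1]
      (clear * - hz hl1; positivity)
    norm_num
    nlinarith only [this]
  unfold dpS
  have e3 : (5 / 8 * z ^ 2 : ℝ) = 5 / 8 * z * z := by ring
  have e4 : (35 / 64 * z ^ 3 : ℝ) = 35 / 64 * z ^ 2 * z := by ring
  have e5 : (63 / 128 * z ^ 4 : ℝ) = 63 / 128 * z ^ 3 * z := by ring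
  have e6 : (231 / 512 * z ^ 5 : ℝ) = 231 / 512 * z ^ 4 * z := by ring
  rw [e3, e4, e5, e6]
  have h0 : 0 ≤ z * l ^ 2 := by (clear * - hz; positivity)
  norm_num at k2 k3 k4 k5 k6 ⊢
  linarith only [h0, k2, k3, k4, k5, k6]

/-- kernel sum, `m z ≤ 16/25`, `l ≤ 1/2` -/
theorem pa_S2 {m z s l : ℝ} (hm : 0 ≤ m) (hz : 0 ≤ z) (hz1 : z ≤ 16 / 625) (hM : m * z ≤ 16 / 25)
    (hl : 0 ≤ l) (hl1 : l ≤ 1 / 2) : -(9 / 10 * (z * l ^ 2)) ≤ dpS m z s l 0 := by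
  have hB : Real.exp (2 * (1 / 2)) ≤ 27183 / 10000 := by
    have := pa_exp1; norm_num at this ⊢; exact this
  have x3 : Real.exp (2 * 3 * l) ≤ 20.09 :=
    (pa_expk (k := 3) hl1 hB).trans (by norm_num)
  have x4 : Real.exp (2 * 4 * l) ≤ 54.61 :=
    (pa_expk (k := 4) hl1 hB).trans (by norm_num)
  have x5 : Real.exp (2 * 5 * l) ≤ 148.43 :=
    (pa_expk (k := 5) hl1 hB).trans (by norm_num)
  have x6 : Real.exp (2 * 6 * l) ≤ 403.5 :=
    (pa_expk (k := 6) hl1 hB).trans (by norm_num)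
  have k3 := pa_term (m := m) (s := s) (k := 3) (A := 0.8192) (c := 0.791) (κ := 5 / 8) (w := z)
    (by norm_num) (by norm_num) hz hz1 hl hl1 hz hm (by linarith only [hz1, hM]) (by norm_num) x3 (by norm_num)
  have k4 := pa_term (m := m) (s := s) (k := 4) (A := 0.8704) (c := 0.092) (κ := 35 / 64)
    (w := z ^ 2) (wb := (16 / 625) ^ 2)
    (by norm_num) (by norm_num) (by positivity) (pow_le_pow_left₀ hz hz1 2) hl hl1 hz hm
    (by linarith only [hz1, hM]) (by norm_num) x4 (by norm_num)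
  have k5 := pa_term (m := m) (s := s) (k := 5) (A := 0.9216) (c := 0.01) (κ := 63 / 128)
    (w := z ^ 3) (wb := (16 / 625) ^ 3)
    (by norm_num) (by norm_num) (by positivity) (pow_le_pow_left₀ hz hz1 3) hl hl1 hz hm
    (by linarith only [hz1, hM]) (by norm_num) x5 (by norm_num)
  have k6 := pa_term (m := m) (s := s) (k := 6) (A := 0.9728) (c := 0.001) (κ := 231 / 512)
    (w := z ^ 4) (wb := (16 / 625) ^ 4)
    (by norm_num) (by norm_num) (by positivity) (pow_le_pow_left₀ hz hz1 4) hl hl1 hz hm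
    (by linarith only [hz1, hM]) (by norm_num) x6 (by norm_num)
  have k2 : 0 ≤ dpK m z s l 0 2 (3 / 4 * z) := by
    rw [dpK_zero (by norm_num : (0 : ℝ) < 2)]
    have h1 := pa_exp_upper hl (by linarith only [hl1])
    have h2 := pa_exp_neg_upper hl (by linarith only [hl1])
    have e1 : Real.exp (2 * 2 * l) = Real.exp (4 * l) := by norm_num
    have e2 : Real.exp (-(2 * 2 * l)) = Real.exp (-(4 * l)) := by norm_num
    rw [e1, e2]
    have hA : (m + 1 + 2 * 2) * z ≤ 0.768 := by linarith only [hz1, hM]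
    have hA0 : 0 ≤ (m + 1 + 2 * 2) * z := by (clear * - hm hz; positivity)
    obtain ⟨A, hAe⟩ : ∃ A, A = (m + 1 + 2 * 2) * z := ⟨_, rfl⟩
    rw [← hAe] at hA hA0 ⊢
    have hl3 : 0 ≤ l ^ 3 := by (clear * - hl; positivity)
    have p1 : 34 / 5 * l ^ 3 ≤ 1 - 2 * 2 * l + (2 * 2 * l) ^ 2 / 2 - Real.exp (-(4 * l)) := by
      nlinarith only [h2]
    have p2 : Real.exp (4 * l) - 1 - 2 * 2 * l - (2 * 2 * l) ^ 2 / 2 ≤ 20 * l ^ 3 := by nlinarith only [h1]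
    have q1 : (2 * 2 - 1) * (2 * (2 - 1) - A) * (34 / 5 * l ^ 3) ≤ (2 * 2 - 1) * (2 * (2 - 1) - A) *
        (1 - 2 * 2 * l + (2 * 2 * l) ^ 2 / 2 - Real.exp (-(4 * l))) :=
      mul_le_mul_of_nonneg_left p1 (by norm_num at hA ⊢; linarith only [hz1, hM, hAe])
    have q2 := mul_le_mul_of_nonneg_left p2 hA0
    have q3 : 0 ≤ (2 * 2 - 1) * (2 * (2 - 1) - A) * (34 / 5 * l ^ 3) -
        A * (20 * l ^ 3) := by
      norm_num at hA ⊢
      nlinarith only [hl3, hA]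
    have q4 : 0 ≤ (2 * 2 - 1) * (2 * (2 - 1) - A) *
        (1 - 2 * 2 * l + (2 * 2 * l) ^ 2 / 2 - Real.exp (-(4 * l))) -
        A * (Real.exp (4 * l) - 1 - 2 * 2 * l - (2 * 2 * l) ^ 2 / 2) := by linarith only [q1, q2, q3]
    exact mul_nonneg (by (clear * - hz; positivity)) q4
  unfold dpS
  have e3 : (5 / 8 * z ^ 2 : ℝ) = 5 / 8 * z * z := by ring
  have e4 : (35 / 64 * z ^ 3 : ℝ) = 35 / 64 * z ^ 2 * z := by ring
  have e5 : (63 / 128 * z ^ 4 : ℝ) = 63 / 128 * z ^ 3 * z := by ring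
  have e6 : (231 / 512 * z ^ 5 : ℝ) = 231 / 512 * z ^ 4 * z := by ring
  rw [e3, e4, e5, e6]
  have h0 : 0 ≤ z * l ^ 2 := by (clear * - hz; positivity)
  norm_num at k2 k3 k4 k5 k6 ⊢
  linarith only [h0, k2, k3, k4, k5, k6]

/-! ## the `W`-coefficient -/

/-- `W`-coefficient of one term -/
noncomputable def dpKW (s l k κz : ℝ) : ℝ :=
  κz * s ^ 2 * (2 * (2 * k - 1) * (Real.exp (-(2 * k * l)) - 1) + 4 * k * (k - 1) * l)

/-- `W`-coefficient of the kernel pair -/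
noncomputable def dpC (z s l : ℝ) : ℝ :=
  4 / s - 4 * s / (1 + s) - 2 * s ^ 2 - 6 * (z / s ^ 3) * l + dpKW s l 2 (3 / 4 * z) +
  dpKW s l 3 (5 / 8 * z ^ 2) + dpKW s l 4 (35 / 64 * z ^ 3) + dpKW s l 5 (63 / 128 * z ^ 4) +
  dpKW s l 6 (231 / 512 * z ^ 5)

/-- `T` in terms of the `W`-coefficient -/
theorem dpT_eq (m z s l u G N : ℝ) : dpT m z s l u G N =
    (m + 3) * z * (Real.exp (-(2 * l)) - 1 + 2 * l) +
    (3 * (m - 3) * (z ^ 2 / s ^ 5) - 9 * (z / s ^ 3)) * l ^ 2 +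
    (4 * s ^ 2 * Real.exp (-(2 * l)) + dpC z s l) * (u ^ 2 / (1 + u)) +
    G + 2 * (m + 1) / ((m - 1) * s) * N + dpS m z s l 0 +
    3 / 25 * (m + 3) * z * ((m * (z / s ^ 2) - 3) * l ^ 2 - 2 * u * l) := by
  unfold dpT dpC dpS dpKW
  rw [dpK_split m z s l (u ^ 2 / (1 + u)) 2, dpK_split m z s l (u ^ 2 / (1 + u)) 3,
    dpK_split m z s l (u ^ 2 / (1 + u)) 4, dpK_split m z s l (u ^ 2 / (1 + u)) 5,
    dpK_split m z s l (u ^ 2 / (1 + u)) 6]
  ring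

/-- `4/s - 4s/(1+s) - 2s² ≥ (9/2) z` -/
theorem dp_C00 {z s : ℝ} (hs : 0 < s) (hz : s ^ 2 = 1 - z) :
    9 / 2 * z ≤ 4 / s - 4 * s / (1 + s) - 2 * s ^ 2 := by
  have e : 4 / s - 4 * s / (1 + s) - 2 * s ^ 2 - 9 / 2 * (1 - s ^ 2) =
      (1 - s) ^ 2 * (8 + 15 * s + 5 * s ^ 2) / (2 * (s * (1 + s))) := by
    field_simp
    ring
  have h : 0 ≤ (1 - s) ^ 2 * (8 + 15 * s + 5 * s ^ 2) / (2 * (s * (1 + s))) := by (clear * - hs; positivity)
  have hz' : z = 1 - s ^ 2 := by linarith only [hz]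
  rw [hz']
  linarith

theorem dpKW_ge {z s l k κz : ℝ} (hk : 1 ≤ k) (hκ : 0 ≤ κz) (hl : 0 ≤ l) (hz0 : 0 ≤ z)
    (hz : s ^ 2 = 1 - z) : -(κz * (4 * k ^ 2 * l)) ≤ dpKW s l k κz := by
  unfold dpKW
  have h1 := pa_E1 (2 * k * l)
  have h2 : -(4 * k ^ 2 * l) ≤
      2 * (2 * k - 1) * (Real.exp (-(2 * k * l)) - 1) + 4 * k * (k - 1) * l := by
    have := mul_le_mul_of_nonneg_left h1 (by linarith only [hk] : 0 ≤ 2 * (2 * k - 1))
    linarith
  have hs2 : 0 ≤ s ^ 2 := sq_nonneg s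
  have h3 := mul_le_mul_of_nonneg_left h2 (mul_nonneg hκ hs2)
  have h4 : κz * s ^ 2 * (4 * k ^ 2 * l) ≤ κz * (4 * k ^ 2 * l) := by
    have : 0 ≤ κz * (4 * k ^ 2 * l) := by (clear * - hκ hk hl; positivity)
    have h5 : κz * s ^ 2 * (4 * k ^ 2 * l) = κz * (4 * k ^ 2 * l) * s ^ 2 := by ring
    rw [h5]
    apply mul_le_of_le_one_right this
    linarith only [hz0, hz]
  linarith only [h3, h4]

end Vale.Agent.P237.AllN
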