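import Vale.Agent.P237.AllN.FPosA2

/-!
# P237, block D, `l > 0`, `m z ≤ 1`: bounds of the coefficients
-/

namespace Vale.Agent.P237.AllN

/-! ## bounds in `s` -/

theorem pa_s_lower {z s : ℝ} (hs0 : 0 < s) (hs : s ^ 2 = 1 - z) (hz0 : 0 ≤ z)
    (hz : z ≤ 1 / 25) : 1 - 51 / 100 * z ≤ s := by
  apply le_of_pow_le_pow_left₀ (n := 2) (by norm_num) hs0.le
  rw [hs]
  nlinarith only [hz0, hz]

theorem pa_s_le {z s : ℝ} (hs0 : 0 < s) (hs : s ^ 2 = 1 - z) (hz0 : 0 ≤ z) :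
    s ≤ 1 - z / 2 := by
  rcases le_total s (1 - z / 2) with h | h
  · exact h
  · have hz1 : z < 1 := by nlinarith only [hs, hs0]
    have h1 : (1 - z / 2) ^ 2 ≤ s ^ 2 := pow_le_pow_left₀ (by linarith only [hz1]) h 2
    rw [hs] at h1
    have h2 : z = 0 := by nlinarith only [h1]
    subst h2
    have h3 : (s - 1) * (s + 1) = 0 := by nlinarith only [hs]
    rcases mul_eq_zero.1 h3 with h4 | h4 <;> linarith only [h4]

theorem pa_inv_le {z s : ℝ} (hs0 : 0 < s) (hs : s ^ 2 = 1 - z) (hz0 : 0 ≤ z)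
    (hz : z ≤ 1 / 25) : 1 / s ≤ 1 + 521 / 1000 * z := by
  rw [div_le_iff₀ hs0]
  have h := pa_s_lower hs0 hs hz0 hz
  nlinarith only [hz0, h, hz]

theorem pa_inv_ge {z s : ℝ} (hs0 : 0 < s) (hs : s ^ 2 = 1 - z) (hz0 : 0 ≤ z) :
    1 + z / 2 ≤ 1 / s := by
  rw [le_div_iff₀ hs0]
  have h := pa_s_le hs0 hs hz0
  nlinarith

theorem pa_cube {z s A t : ℝ} (hz0 : 0 ≤ z) (hA0 : 0 < A) (hA : A ≤ s) (ht : 1 ≤ t * A ^ 3) :
    z / s ^ 3 ≤ t * z := by
  have hs0 : 0 < s := hA0.trans_le hA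
  rw [div_le_iff₀ (by positivity)]
  have h1 : A ^ 3 ≤ s ^ 3 := pow_le_pow_left₀ hA0.le hA 3
  have ht0 : 0 ≤ t := by
    by_contra h
    push Not at h
    nlinarith only [ht, h, pow_pos hA0 3]
  have h2 : 1 ≤ t * s ^ 3 := ht.trans (mul_le_mul_of_nonneg_left h1 ht0)
  nlinarith only [hz0, h2]

theorem pa_s1 {z s : ℝ} (hs0 : 0 < s) (hs : s ^ 2 = 1 - z) (hz : z ≤ 1 / 25) :
    97979 / 100000 ≤ s := by
  apply le_of_pow_le_pow_left₀ (n := 2) (by norm_num) hs0.le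
  rw [hs]
  norm_num
  linarith

theorem pa_s2 {z s : ℝ} (hs0 : 0 < s) (hs : s ^ 2 = 1 - z) (hz : z ≤ 16 / 625) :
    98711 / 100000 ≤ s := by
  apply le_of_pow_le_pow_left₀ (n := 2) (by norm_num) hs0.le
  rw [hs]
  norm_num
  linarith

theorem pa_cube1 {z s : ℝ} (hs0 : 0 < s) (hs : s ^ 2 = 1 - z) (hz0 : 0 ≤ z) (hz : z ≤ 1 / 25) :
    z / s ^ 3 ≤ 1.0638 * z :=
  pa_cube hz0 (by norm_num) (pa_s1 hs0 hs hz) (by norm_num)

theorem pa_cube2 {z s : ℝ} (hs0 : 0 < s) (hs : s ^ 2 = 1 - z) (hz0 : 0 ≤ z)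
    (hz : z ≤ 16 / 625) : z / s ^ 3 ≤ 1.04 * z :=
  pa_cube hz0 (by norm_num) (pa_s2 hs0 hs hz) (by norm_num)

/-! ## the `W`-coefficient -/

theorem pa_C1 {z s l : ℝ} (hs0 : 0 < s) (hs : s ^ 2 = 1 - z) (hz0 : 0 ≤ z) (hz : z ≤ 1 / 25)
    (hl0 : 0 ≤ l) (hl : l ≤ 2 / 5) : -(3 / 5 * z) ≤ dpC z s l := by
  unfold dpC
  have h00 := dp_C00 hs0 hs
  have hcube := mul_le_mul_of_nonneg_right (pa_cube1 hs0 hs hz0 hz) hl0
  have h3 := dpKW_ge (k := 3) (κz := 5 / 8 * z ^ 2) (by norm_num) (by (clear * -; positivity)) hl0 hz0 hs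
  have h4 := dpKW_ge (k := 4) (κz := 35 / 64 * z ^ 3) (by norm_num) (by positivity) hl0 hz0 hs
  have h5 := dpKW_ge (k := 5) (κz := 63 / 128 * z ^ 4) (by norm_num) (by positivity) hl0 hz0 hs
  have h6 := dpKW_ge (k := 6) (κz := 231 / 512 * z ^ 5) (by norm_num) (by positivity) hl0 hz0 hs
  have h2 : -(12 * z * (l * (1 - 3 * l + 4 * l ^ 2))) ≤ dpKW s l 2 (3 / 4 * z) := by
    unfold dpKW
    have hE := pa_E3 (t := 2 * 2 * l) (by linarith only [hl0])
    have hb : -(16 * (l * (1 - 3 * l + 4 * l ^ 2))) ≤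
        2 * (2 * 2 - 1) * (Real.exp (-(2 * 2 * l)) - 1) + 4 * 2 * (2 - 1) * l := by
      generalize Real.exp (-(2 * 2 * l)) = E at hE ⊢
      clear * - hE
      linarith only [hE]
    have hs2 : s ^ 2 ≤ 1 := by linarith only [hs, hz0]
    have hs20 : 0 ≤ s ^ 2 := sq_nonneg s
    have hpos : 0 ≤ l * (1 - 3 * l + 4 * l ^ 2) := by
      apply mul_nonneg hl0
      nlinarith only [sq_nonneg (l - 3 / 8)]
    have h7 := mul_le_mul_of_nonneg_left hb (by (clear * - hz0 hs0; positivity) : 0 ≤ 3 / 4 * z * s ^ 2)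
    refine le_trans ?_ h7
    have h8 : 3 / 4 * z * s ^ 2 * (16 * (l * (1 - 3 * l + 4 * l ^ 2))) ≤
        12 * z * (l * (1 - 3 * l + 4 * l ^ 2)) := by
      have : 3 / 4 * z * s ^ 2 * (16 * (l * (1 - 3 * l + 4 * l ^ 2))) =
        12 * z * (l * (1 - 3 * l + 4 * l ^ 2)) * s ^ 2 := by ring
      rw [this]
      exact mul_le_of_le_one_right (by (clear * - hz0 hpos; positivity)) hs2
    linarith only [h8]
  have hz2 : z ^ 2 ≤ 1 / 25 * z := by nlinarith only [hz0, hz]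
  have hz3 : z ^ 3 ≤ 1 / 625 * z := by nlinarith only [hz2]
  have hz4 : z ^ 4 ≤ 1 / 15625 * z := by nlinarith only [hz2]
  have hz5 : z ^ 5 ≤ 1 / 390625 * z := by nlinarith
  have g3 := mul_le_mul_of_nonneg_right hz2 hl0
  have g4 := mul_le_mul_of_nonneg_right hz3 hl0
  have g5 := mul_le_mul_of_nonneg_right hz4 hl0
  have g6 := mul_le_mul_of_nonneg_right hz5 hl0
  have hpoly : 0 ≤ 4.5 - 19.3422 * l + 36 * l ^ 2 - 48 * l ^ 3 + 3 / 5 := by
    nlinarith only [hl]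
  have hz' := mul_nonneg hz0 hpoly
  norm_num at h3 h4 h5 h6 hcube hz' ⊢
  (clear * - h00 h2 g3 g4 g5 g6 h3 h4 h5 h6 hcube hz' hl0; nlinarith)

theorem pa_C2 {z s l : ℝ} (hs0 : 0 < s) (hs : s ^ 2 = 1 - z) (hz0 : 0 ≤ z) (hz : z ≤ 16 / 625)
    (hl0 : 2 / 5 ≤ l) (hl : l ≤ 1 / 2) : 0 ≤ dpC z s l := by
  unfold dpC
  have hl0' : 0 ≤ l := by linarith only [hl0]
  have h00 := dp_C00 hs0 hs
  have hcube := mul_le_mul_of_nonneg_right (pa_cube2 hs0 hs hz0 hz) hl0'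
  have h3 := dpKW_ge (k := 3) (κz := 5 / 8 * z ^ 2) (by norm_num) (by (clear * -; positivity)) hl0' hz0 hs
  have h4 := dpKW_ge (k := 4) (κz := 35 / 64 * z ^ 3) (by norm_num) (by positivity) hl0' hz0 hs
  have h5 := dpKW_ge (k := 5) (κz := 63 / 128 * z ^ 4) (by norm_num) (by positivity) hl0' hz0 hs
  have h6 := dpKW_ge (k := 6) (κz := 231 / 512 * z ^ 5) (by norm_num) (by (clear * - hz0; positivity)) hl0' hz0 hs
  have h2 : -(z * (3.8925 - 6 * l)) ≤ dpKW s l 2 (3 / 4 * z) := by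
    unfold dpKW
    have hE : 0.135 ≤ Real.exp (-(2 * 2 * l)) := by
      have h1 : Real.exp (-2) ≤ Real.exp (-(2 * 2 * l)) := Real.exp_le_exp.2 (by linarith only [hl])
      refine le_trans ?_ h1
      have h2 : Real.exp 1 ^ 2 ≤ (27183 / 10000) ^ 2 :=
        pow_le_pow_left₀ (Real.exp_pos _).le pa_exp1 2
      have h3 : Real.exp (-2) * Real.exp 1 ^ 2 = 1 := by
        rw [← Real.exp_nat_mul, ← Real.exp_add]; norm_num
      have h4 : 0 < Real.exp (-2) := Real.exp_pos _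
      nlinarith only [h2, h3]
    have hb : -(5.19 - 8 * l) ≤
        2 * (2 * 2 - 1) * (Real.exp (-(2 * 2 * l)) - 1) + 4 * 2 * (2 - 1) * l := by
      norm_num at hE ⊢
      linarith only [hE]
    have hs2 : s ^ 2 ≤ 1 := by linarith only [hs, hz0]
    have hs20 : 0 ≤ s ^ 2 := sq_nonneg s
    have hpos : 0 ≤ 5.19 - 8 * l := by norm_num; linarith only [hl]
    have h7 := mul_le_mul_of_nonneg_left hb (by (clear * - hz0 hs0; positivity) : 0 ≤ 3 / 4 * z * s ^ 2)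
    refine le_trans ?_ h7
    have h8 : 3 / 4 * z * s ^ 2 * (5.19 - 8 * l) ≤ 3 / 4 * z * (5.19 - 8 * l) := by
      have : 3 / 4 * z * s ^ 2 * (5.19 - 8 * l) = 3 / 4 * z * (5.19 - 8 * l) * s ^ 2 := by ring
      rw [this]
      exact mul_le_of_le_one_right (by (clear * - hz0 hpos; positivity)) hs2
    norm_num at h8 ⊢
    linarith only [h8]
  have hz2 : z ^ 2 ≤ 16 / 625 * z := by nlinarith only [hz0, hz]
  have hz3 : z ^ 3 ≤ 1 / 1500 * z := by nlinarith only [hz2]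
  have hz4 : z ^ 4 ≤ 1 / 50000 * z := by nlinarith only [hz2]
  have hz5 : z ^ 5 ≤ 1 / 1000000 * z := by nlinarith
  have g3 := mul_le_mul_of_nonneg_right hz2 hl0'
  have g4 := mul_le_mul_of_nonneg_right hz3 hl0'
  have g5 := mul_le_mul_of_nonneg_right hz4 hl0'
  have g6 := mul_le_mul_of_nonneg_right hz5 hl0'
  have hpoly : 0 ≤ 0.607 - 0.85 * l := by norm_num; linarith only [hl]
  have hz' := mul_nonneg hz0 hpoly
  norm_num at h3 h4 h5 h6 h2 hcube hz' ⊢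
  linarith

/-! ## `φ = u - log (1+u)` -/

theorem pa_phi_pos {u : ℝ} (hu : 0 ≤ u) : u - Real.log (1 + u) ≤ u ^ 2 / (2 + u) := by
  have h := Real.le_log_one_add_of_nonneg hu
  have h2 : u - 2 * u / (u + 2) = u ^ 2 / (2 + u) := by
    field_simp
    ring
  linarith only [h, h2]

theorem pa_phi_neg {u : ℝ} (hu : 0 < 1 + u) (hu1 : u ≤ 0) :
    u - Real.log (1 + u) ≤ u ^ 2 / (1 + u) / 2 := by
  -- `log x ≤ (x - 1/x)/2` for `x = 1/(1+u) ≥ 1`
  set w := -u / (1 + u) with hw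
  have hw0 : 0 ≤ w := div_nonneg (by linarith only [hu1]) hu.le
  have h1w : 1 + w = 1 / (1 + u) := by
    rw [hw]
    field_simp
    ring
  have hlog : Real.log (1 + u) = -Real.log (1 + w) := by
    rw [h1w, one_div, Real.log_inv, neg_neg]
  have key : Real.log (1 + w) ≤ ((1 + w) - 1 / (1 + w)) / 2 := by
    have h := pa_nonneg_of_deriv
      (f := fun t => (Real.exp t - Real.exp (-t)) / 2 - t)
      (f' := fun t => (Real.exp t + Real.exp (-t)) / 2 - 1) (by simp)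
      (fun t => by
        have h1 := (((Real.hasDerivAt_exp t).sub (pa_hexp t)).div_const 2).sub (hasDerivAt_id t)
        refine h1.congr_deriv ?_
        ring) (fun t _ => by
          have h1 := Real.add_one_le_exp t
          have h2 := Real.add_one_le_exp (-t)
          linarith only [h1, h2]) (t := Real.log (1 + w)) (Real.log_nonneg (by linarith only [hw0]))
    rw [Real.exp_log (by linarith only [hw0]), Real.exp_neg, Real.exp_log (by linarith only [hw0])] at h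
    rw [one_div]
    linarith only [h]
  rw [hlog]
  have e : u ^ 2 / (1 + u) / 2 = u + ((1 + w) - 1 / (1 + w)) / 2 := by
    rw [h1w]
    field_simp
    ring
  rw [e]
  linarith only [key]

end Vale.Agent.P237.AllN
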