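import Vale.Agent.P237.AllN.FPosA3

/-!
# P237, block D, `l > 0`, `m z ≤ 1`: lower bound of `T`, bounds of `e₁ - T` and `e₁`
-/

namespace Vale.Agent.P237.AllN

theorem pa_y_ge {z s : ℝ} (hs0 : 0 < s) (hs : s ^ 2 = 1 - z) (hz0 : 0 ≤ z) : z ≤ z / s ^ 2 := by
  rw [le_div_iff₀ (by positivity)]
  nlinarith only [hs, hz0]

/-- lower bound of `T` -/
theorem pa_lower {m z s l u G N g0 t3 k2 β κb φ K : ℝ} (hm : 25 ≤ m) (hz0 : 0 ≤ z) (hs0 : 0 < s)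
    (hs : s ^ 2 = 1 - z) (hu : 0 < 1 + u) (hl0 : 0 ≤ l)
    (hg : g0 * l ^ 2 ≤ Real.exp (-(2 * l)) - 1 + 2 * l) (ht3 : z / s ^ 3 ≤ t3 * z)
    (hG : -(4 / 5 * (z * l ^ 2)) ≤ G) (hS : -(k2 * (z * l ^ 2)) ≤ dpS m z s l 0)
    (hβ : β ≤ 4 * s ^ 2 * Real.exp (-(2 * l)) + dpC z s l) (hN : -φ ≤ N) (hφ : 0 ≤ φ)
    (hκ : 2 * (m + 1) / ((m - 1) * s) ≤ κb) (hK : 9 * t3 + 4 / 5 + k2 = K) (hM : m * z ≤ 1)
    (hg3 : 3 * (g0 - 6 / 25) ≤ K) :
    m * z * l ^ 2 * (28 / 25 * (g0 - 9 / 25) - K / 25 + 84 / 625 * (m * z)) +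
      β * (u ^ 2 / (1 + u)) - κb * φ - 6 / 25 * (m + 3) * z * u * l ≤ dpT m z s l u G N := by
  rw [dpT_eq]
  have hW : 0 ≤ u ^ 2 / (1 + u) := by (clear * - hu; positivity)
  have hl2 : 0 ≤ l ^ 2 := sq_nonneg l
  have hy := pa_y_ge hs0 hs hz0
  have h1 := mul_le_mul_of_nonneg_left hg (by (clear * - hm hz0; positivity) : 0 ≤ (m + 3) * z)
  have h2 := mul_le_mul_of_nonneg_right ht3 hl2
  have h2' : 0 ≤ 3 * (m - 3) * (z ^ 2 / s ^ 5) * l ^ 2 := by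
    have : 0 ≤ m - 3 := by linarith only [hm]
    (clear * - this hs0; positivity)
  have h3 := mul_le_mul_of_nonneg_right hβ hW
  have h4 : -(κb * φ) ≤ 2 * (m + 1) / ((m - 1) * s) * N := by
    have h5 : 0 ≤ 2 * (m + 1) / ((m - 1) * s) := by
      have : 0 < m - 1 := by linarith only [hm]
      (clear * - hm this hs0; positivity)
    have h6 := mul_le_mul_of_nonneg_left hN h5
    have h7 := mul_le_mul_of_nonneg_right hκ hφ
    linarith only [h6, h7]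
  have h5 : 3 / 25 * (m + 3) * z * ((m * z - 3) * l ^ 2) ≤
      3 / 25 * (m + 3) * z * ((m * (z / s ^ 2) - 3) * l ^ 2) := by
    apply mul_le_mul_of_nonneg_left _ (by (clear * - hm hz0; positivity))
    apply mul_le_mul_of_nonneg_right _ hl2
    nlinarith only [hy, hm]
  have h6 : 0 ≤ z * l ^ 2 * ((m - 25) * (K / 25 - 3 / 25 * (g0 - 9 / 25 + 3 / 25 * (m * z)))) := by
    apply mul_nonneg (by (clear * - hz0; positivity))
    apply mul_nonneg (by linarith only [hm])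
    linarith only [hM, hg3]
  have e : 3 / 25 * (m + 3) * z * ((m * (z / s ^ 2) - 3) * l ^ 2 - 2 * u * l) =
      3 / 25 * (m + 3) * z * ((m * (z / s ^ 2) - 3) * l ^ 2) - 6 / 25 * (m + 3) * z * u * l := by
    ring
  rw [e]
  have e2 : (3 * (m - 3) * (z ^ 2 / s ^ 5) - 9 * (z / s ^ 3)) * l ^ 2 =
      3 * (m - 3) * (z ^ 2 / s ^ 5) * l ^ 2 - 9 * (z / s ^ 3 * l ^ 2) := by ring
  rw [e2, ← hK] at *
  have e3 : (m + 3) * z * (g0 * l ^ 2) - 9 * (t3 * z * l ^ 2) - 4 / 5 * (z * l ^ 2) -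
      k2 * (z * l ^ 2) + 3 / 25 * (m + 3) * z * ((m * z - 3) * l ^ 2) -
      m * z * l ^ 2 * (28 / 25 * (g0 - 9 / 25) - (9 * t3 + 4 / 5 + k2) / 25 + 84 / 625 * (m * z)) =
      z * l ^ 2 * ((m - 25) * ((9 * t3 + 4 / 5 + k2) / 25 -
        3 / 25 * (g0 - 9 / 25 + 3 / 25 * (m * z)))) := by ring
  linarith only [hG, hS, h1, h2, h2', h3, h4, h5, h6]

/-- bounds of the coefficients of `e₁` -/
theorem pa_q {z s c : ℝ} (hs0 : 0 < s) (hs : s ^ 2 = 1 - z) (hz0 : 0 ≤ z) (hz : z ≤ 1 / 25)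
    (hc0 : 0 ≤ c) (hc : c ≤ 1) : 0 ≤ 2 * c / s - 2 * s ^ 2 + 2 * (1 - c) ∧
    2 * c / s - 2 * s ^ 2 + 2 * (1 - c) ≤ 3042 / 1000 * z := by
  have h1 := pa_inv_le hs0 hs hz0 hz
  have h2 := pa_inv_ge hs0 hs hz0
  have e : 2 * c / s - 2 * s ^ 2 + 2 * (1 - c) = 2 * (c * (1 / s - 1)) + 2 * z := by
    rw [hs]; ring
  rw [e]
  have h3 : 0 ≤ c * (1 / s - 1) := mul_nonneg hc0 (by linarith only [hz0, h2])
  have h4 : c * (1 / s - 1) ≤ 1 * (521 / 1000 * z) :=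
    mul_le_mul hc (by linarith only [h1]) (by linarith only [hz0, h2]) (by norm_num)
  constructor <;> linarith only [h4, hz0, h3]

theorem pa_r {m z s c : ℝ} (hm : 25 ≤ m) (hs0 : 0 < s) (hs : s ^ 2 = 1 - z) (hz0 : 0 ≤ z)
    (hz : z ≤ 1 / 25) (hc0 : 1 - 1 / (2 * m) ≤ c) (hc : c ≤ 1) :
    -(62 / 1000 * z) ≤ 2 * c / s - 2 + 2 * (1 - c) * (1 - m * (z / s ^ 2)) ∧
    2 * c / s - 2 + 2 * (1 - c) * (1 - m * (z / s ^ 2)) ≤ 1042 / 1000 * z := by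
  have h1 := pa_inv_le hs0 hs hz0 hz
  have h2 := pa_inv_ge hs0 hs hz0
  have hm0 : 0 < m := by linarith only [hm]
  have hmi : 1 / (2 * m) ≤ 1 / 50 := by
    apply one_div_le_one_div_of_le <;> linarith only [hm]
  have hc00 : 49 / 50 ≤ c := by linarith only [hc0, hmi]
  have e : 2 * c / s - 2 + 2 * (1 - c) * (1 - m * (z / s ^ 2)) =
      2 * (c * (1 / s - 1)) - 2 * (1 - c) * m * (z / s ^ 2) := by ring
  rw [e]
  have hy0 : 0 ≤ z / s ^ 2 := by (clear * - hz0 hs0; positivity)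
  have hy : z / s ^ 2 ≤ 10417 / 10000 * z := by
    rw [div_le_iff₀ (by positivity), hs]
    nlinarith only [hz0, hz]
  have h3 : 49 / 50 * (z / 2) ≤ c * (1 / s - 1) :=
    mul_le_mul hc00 (by linarith only [h2]) (by linarith only [hz0]) (by linarith only [hc0, hmi])
  have h4 : c * (1 / s - 1) ≤ 1 * (521 / 1000 * z) :=
    mul_le_mul hc (by linarith only [h1]) (by linarith only [hz0, h2]) (by norm_num)
  have h5 : 0 ≤ 2 * (1 - c) * m * (z / s ^ 2) := by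
    have : 0 ≤ 1 - c := by linarith only [hc]
    (clear * - hc hm hz0 hs0; positivity)
  have h6 : 2 * (1 - c) * m ≤ 1 := by
    have : (1 - c) * m ≤ 1 / (2 * m) * m := mul_le_mul_of_nonneg_right (by linarith only [hc0]) hm0.le
    have e2 : 1 / (2 * m) * m = 1 / 2 := by field_simp
    linarith only [this, e2]
  have h7 := mul_le_mul_of_nonneg_right h6 hy0
  constructor <;> linarith only [h4, h5, hz0, hy, h3, h7]

/-- upper bound of `e₁ - T` -/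
theorem pa_upper {m z s l u c G N t3 k2 ν κ' φ K : ℝ} (hm : 25 ≤ m) (hz0 : 0 ≤ z)
    (hs0 : 0 < s) (hs : s ^ 2 = 1 - z) (hu : 0 < 1 + u) (hl0 : 0 ≤ l) (hz : z ≤ 1 / 25)
    (hc0 : 1 - 1 / (2 * m) ≤ c) (hc : c ≤ 1)
    (ht3 : z / s ^ 3 ≤ t3 * z)
    (hG : -(4 / 5 * (z * l ^ 2)) ≤ G) (hS : -(k2 * (z * l ^ 2)) ≤ dpS m z s l 0)
    (hν : -ν ≤ dpC z s l) (hN : -φ ≤ N) (hφ : 0 ≤ φ)
    (hκ : 2 * (m + 1) / ((m - 1) * s) - 2 * c / s ≤ κ') (hK : 9 * t3 + 4 / 5 + k2 = K)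
    (hK0 : 0 ≤ K) (hM : m * z ≤ 1) :
    dpE m z s l u c N - dpT m z s l u G N ≤
      m * z * l ^ 2 * (K / 25 + 252 / 625 - 84 / 625 * (m * z)) + 1042 / 1000 * z * l +
      ν * (u ^ 2 / (1 + u)) + κ' * φ + 6 / 25 * (m + 3) * z * u * l +
      (2 * c / s - 2 * s ^ 2 + 2 * (1 - c)) * u := by
  rw [dpT_eq]
  unfold dpE
  have hW : 0 ≤ u ^ 2 / (1 + u) := by (clear * - hu; positivity)
  have hl2 : 0 ≤ l ^ 2 := sq_nonneg l
  have hy := pa_y_ge hs0 hs hz0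
  have h2 := mul_le_mul_of_nonneg_right ht3 hl2
  have h2' : 0 ≤ 3 * (m - 3) * (z ^ 2 / s ^ 5) * l ^ 2 := by
    have : 0 ≤ m - 3 := by linarith only [hm]
    (clear * - this hs0; positivity)
  have h3 := mul_le_mul_of_nonneg_right hν hW
  have h4 : (2 * c / s - 2 * (m + 1) / ((m - 1) * s)) * N ≤ κ' * φ := by
    have hm1 : 0 < m - 1 := by linarith only [hm]
    have h5 : 0 ≤ 2 * (m + 1) / ((m - 1) * s) - 2 * c / s := by
      rw [sub_nonneg, div_le_div_iff₀ hs0 (by (clear * - hm1 hs0; positivity))]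
      (clear * - hs0 hm1 hc; nlinarith [mul_nonneg hs0.le (by linarith : 0 ≤ 1 - c),         mul_nonneg (mul_nonneg hs0.le hm1.le) (by linarith : 0 ≤ 1 - c)])
    have h6 := mul_le_mul_of_nonneg_left hN h5
    have h7 := mul_le_mul_of_nonneg_right hκ hφ
    linarith only [h6, h7]
  have h5 : 3 / 25 * (m + 3) * z * ((m * z - 3) * l ^ 2) ≤
      3 / 25 * (m + 3) * z * ((m * (z / s ^ 2) - 3) * l ^ 2) := by
    apply mul_le_mul_of_nonneg_left _ (by (clear * - hm hz0; positivity))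
    apply mul_le_mul_of_nonneg_right _ hl2
    nlinarith only [hy, hm]
  have h6 : 0 ≤ z * l ^ 2 * ((m - 25) * (K / 25 + 3 / 25 * (9 / 25 - 3 / 25 * (m * z)))) := by
    apply mul_nonneg (by (clear * - hz0; positivity))
    apply mul_nonneg (by linarith only [hm])
    linarith only [hK0, hM]
  have h8 := mul_le_mul_of_nonneg_right (pa_r hm hs0 hs hz0 hz hc0 hc).2 hl0
  have e : 3 / 25 * (m + 3) * z * ((m * (z / s ^ 2) - 3) * l ^ 2 - 2 * u * l) =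
      3 / 25 * (m + 3) * z * ((m * (z / s ^ 2) - 3) * l ^ 2) - 6 / 25 * (m + 3) * z * u * l := by
    ring
  rw [e]
  have e2 : (3 * (m - 3) * (z ^ 2 / s ^ 5) - 9 * (z / s ^ 3)) * l ^ 2 =
      3 * (m - 3) * (z ^ 2 / s ^ 5) * l ^ 2 - 9 * (z / s ^ 3 * l ^ 2) := by ring
  rw [e2, ← hK] at *
  have e3 : m * z * l ^ 2 * ((9 * t3 + 4 / 5 + k2) / 25 + 252 / 625 - 84 / 625 * (m * z)) -
      9 * (t3 * z * l ^ 2) - 4 / 5 * (z * l ^ 2) - k2 * (z * l ^ 2) +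
      3 / 25 * (m + 3) * z * ((m * z - 3) * l ^ 2) =
      z * l ^ 2 * ((m - 25) * ((9 * t3 + 4 / 5 + k2) / 25 +
        3 / 25 * (9 / 25 - 3 / 25 * (m * z)))) := by ring
  linarith only [hG, hS, h2, h2', h3, h4, h5, h6, h8]

/-- lower bound of `e₁` -/
theorem pa_e1 {m z s l u c N φ β g0 : ℝ} (hm : 25 ≤ m) (hz0 : 0 ≤ z)
    (hs0 : 0 < s) (hs : s ^ 2 = 1 - z) (hu : 0 < 1 + u) (hl0 : 0 ≤ l) (hz : z ≤ 1 / 25)
    (hc0 : 1 - 1 / (2 * m) ≤ c) (hc : c ≤ 1)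
    (hg : g0 * l ^ 2 ≤ Real.exp (-(2 * l)) - 1 + 2 * l) (hg0 : 0 ≤ g0)
    (hβ : β ≤ 4 * s ^ 2 * Real.exp (-(2 * l))) (hN : -φ ≤ N) (hφ : 0 ≤ φ) :
    β * (u ^ 2 / (1 + u)) - 2 / s * φ + (2 * c / s - 2 * s ^ 2 + 2 * (1 - c)) * u -
      62 / 1000 * z * l ≤ dpE m z s l u c N := by
  unfold dpE
  have hW : 0 ≤ u ^ 2 / (1 + u) := by (clear * - hu; positivity)
  have h1 := mul_le_mul_of_nonneg_left hg (by (clear * - hm hz0; positivity) : 0 ≤ (m + 3) * z)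
  have h1' : 0 ≤ (m + 3) * z * (g0 * l ^ 2) := by (clear * - hm hz0 hg0; positivity)
  have h3 := mul_le_mul_of_nonneg_right hβ hW
  have hc00 : 0 ≤ c := by
    have hmi : 1 / (2 * m) ≤ 1 / 50 := by
      apply one_div_le_one_div_of_le <;> linarith only [hm]
    linarith only [hc0, hmi]
  have h4 : -(2 / s * φ) ≤ 2 * c / s * N := by
    have h5 : 0 ≤ 2 * c / s := by (clear * - hc00 hs0; positivity)
    have h6 := mul_le_mul_of_nonneg_left hN h5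
    have h7 : 2 * c / s ≤ 2 / s := by
      apply div_le_div_of_nonneg_right _ hs0.le
      linarith only [hc]
    have h8 := mul_le_mul_of_nonneg_right h7 hφ
    linarith only [h6, h8]
  have h8 := mul_le_mul_of_nonneg_right (pa_r hm hs0 hs hz0 hz hc0 hc).1 hl0
  linarith

end Vale.Agent.P237.AllN
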