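import Mathlib

/-!
# Kernel-checked positivity of polynomials on boxes

`Poly1 = List ℤ`, `Poly2 = List (List ℤ)`, `Poly3 = List (List (List ℤ))`; the outermost list is the
first variable.  The checks are meant for `by decide +kernel`.
-/

namespace Vale.Agent.P237.AllN.PolyPos

/-! ## generic coefficient modules -/

/-- coefficient modules: integers and iterated lists -/
structure Ops (M : Type) where
  zero : M
  add : M → M → M
  smul : ℤ → M → M

/-- operations on integers -/
def opsZ : Ops ℤ := ⟨0, fun a b => a + b, fun a b => a * b⟩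

/-- addition of coefficient lists -/
def addL {M : Type} (o : Ops M) : List M → List M → List M
  | [], q => q
  | a :: p, [] => a :: p
  | a :: p, b :: q => o.add a b :: addL o p q

/-- operations on lists -/
def opsL {M : Type} (o : Ops M) : Ops (List M) :=
  ⟨[], addL o, fun c p => p.map (o.smul c)⟩

/-- tail of the product with `A + B t` -/
def mulLinAux {M : Type} (o : Ops M) (A B : ℤ) : M → List M → List M
  | prev, [] => [o.smul B prev]
  | prev, a :: p => o.add (o.smul A a) (o.smul B prev) :: mulLinAux o A B a p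

/-- product with `A + B t` -/
def mulLin {M : Type} (o : Ops M) (A B : ℤ) : List M → List M
  | [] => []
  | a :: p => o.smul A a :: mulLinAux o A B a p

/-- Moebius transform: `(D (1+t))^n p((A+Bt)/(D(1+t)))` together with `(D(1+t))^n`. -/
def tr {M : Type} (o : Ops M) (A B D : ℤ) : M → List M → List M × List ℤ
  | a, [] => ([a], [1])
  | a, b :: p =>
    let r := tr o A B D b p
    let w := mulLin opsZ D D r.2
    (addL o (w.map fun c => o.smul c a) (mulLin o A B r.1), w)

/-- evaluation of a coefficient list -/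
noncomputable def evL {M : Type} (e : M → ℝ) (t : ℝ) : List M → ℝ
  | [] => 0
  | a :: p => e a + t * evL e t p

/-- `e` is linear for the operations `o` -/
structure Lin {M : Type} (o : Ops M) (e : M → ℝ) : Prop where
  zero : e o.zero = 0
  add : ∀ a b, e (o.add a b) = e a + e b
  smul : ∀ c a, e (o.smul c a) = (c : ℝ) * e a

theorem lin_opsZ : Lin opsZ (fun a : ℤ => (a : ℝ)) where
  zero := by simp [opsZ]
  add a b := by simp [opsZ]
  smul c a := by simp [opsZ]

theorem evL_addL {M : Type} {o : Ops M} {e : M → ℝ} (h : Lin o e) (t : ℝ) :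
    ∀ p q : List M, evL e t (addL o p q) = evL e t p + evL e t q
  | [], q => by simp [addL, evL]
  | a :: p, [] => by simp [addL, evL]
  | a :: p, b :: q => by
    simp only [addL, evL, h.add, evL_addL h t p q]
    ring

theorem evL_map_smul {M : Type} {o : Ops M} {e : M → ℝ} (h : Lin o e) (t : ℝ) (c : ℤ) :
    ∀ p : List M, evL e t (p.map (o.smul c)) = (c : ℝ) * evL e t p
  | [] => by simp [evL]
  | a :: p => by
    simp only [List.map_cons, evL, h.smul, evL_map_smul h t c p]
    ring

theorem lin_opsL {M : Type} {o : Ops M} {e : M → ℝ} (h : Lin o e) (t : ℝ) :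
    Lin (opsL o) (evL e t) where
  zero := by simp [opsL, evL]
  add a b := evL_addL h t a b
  smul c a := evL_map_smul h t c a

theorem evL_mulLinAux {M : Type} {o : Ops M} {e : M → ℝ} (h : Lin o e) (t : ℝ) (A B : ℤ) :
    ∀ (prev : M) (p : List M), evL e t (mulLinAux o A B prev p) =
      (B : ℝ) * e prev + (A + B * t) * evL e t p
  | prev, [] => by simp [mulLinAux, evL, h.smul]
  | prev, a :: p => by
    simp only [mulLinAux, evL, h.smul, h.add, evL_mulLinAux h t A B a p]
    ring

theorem evL_mulLin {M : Type} {o : Ops M} {e : M → ℝ} (h : Lin o e) (t : ℝ) (A B : ℤ) :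
    ∀ p : List M, evL e t (mulLin o A B p) = ((A : ℝ) + B * t) * evL e t p
  | [] => by simp [mulLin, evL]
  | a :: p => by
    simp only [mulLin, evL, h.smul, evL_mulLinAux h t A B a p]
    ring

theorem evL_map_const {M : Type} {o : Ops M} {e : M → ℝ} (h : Lin o e) (t : ℝ) (a : M) :
    ∀ w : List ℤ, evL e t (w.map fun c => o.smul c a) =
      evL (fun c : ℤ => (c : ℝ)) t w * e a
  | [] => by simp [evL]
  | c :: w => by
    simp only [List.map_cons, evL, h.smul, evL_map_const h t a w]
    ring

theorem evL_tr {M : Type} {o : Ops M} {e : M → ℝ} (h : Lin o e) (t : ℝ) (A B D : ℤ) {x : ℝ}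
    (hx : (D : ℝ) * (1 + t) * x = A + B * t) :
    ∀ (a : M) (p : List M),
      evL e t (tr o A B D a p).1 = ((D : ℝ) * (1 + t)) ^ p.length * evL e x (a :: p) ∧
      evL (fun c : ℤ => (c : ℝ)) t (tr o A B D a p).2 = ((D : ℝ) * (1 + t)) ^ p.length
  | a, [] => by simp [tr, evL]
  | a, b :: p => by
    obtain ⟨h1, h2⟩ := evL_tr h t A B D hx b p
    have h3 : evL (fun c : ℤ => (c : ℝ)) t (mulLin opsZ D D (tr o A B D b p).2) =
        ((D : ℝ) * (1 + t)) ^ (b :: p).length := by
      rw [evL_mulLin lin_opsZ, h2, List.length_cons, pow_succ]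
      ring
    refine ⟨?_, h3⟩
    simp only [tr]
    rw [evL_addL h, evL_map_const h, evL_mulLin h, h1, h3]
    simp only [evL, List.length_cons, pow_succ]
    linear_combination (-(((D : ℝ) * (1 + t)) ^ p.length * (e b + x * evL e x p))) * hx

/-- nonnegativity of all the coefficients implies nonnegativity -/
theorem evL_nonneg {M : Type} {e : M → ℝ} {t : ℝ} (ht : 0 ≤ t) :
    ∀ p : List M, (∀ a ∈ p, 0 ≤ e a) → 0 ≤ evL e t p
  | [], _ => by simp [evL]
  | a :: p, h => by
    simp only [evL]
    have h1 := h a (by simp)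
    have h2 := evL_nonneg ht p fun b hb => h b (by simp [hb])
    have := mul_nonneg ht h2
    linarith

/-- generic step: coefficientwise check after the transform -/
theorem nonneg_of_tr {M : Type} {o : Ops M} {e : M → ℝ} (h : Lin o e) {A B D : ℤ} (hD : 0 < D)
    {a : M} {p : List M} (hc : ∀ b ∈ (tr o A B D a p).1, 0 ≤ e b) {x : ℝ}
    (h0 : (A : ℝ) ≤ D * x) (h1 : (D : ℝ) * x < B) : 0 ≤ evL e x (a :: p) := by
  have hD' : (0 : ℝ) < D := by exact_mod_cast hD
  set t : ℝ := (D * x - A) / (B - D * x) with ht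
  have hd : 0 < (B : ℝ) - D * x := by linarith
  have ht0 : 0 ≤ t := div_nonneg (by linarith) hd.le
  have h1t : 1 + t = ((B : ℝ) - A) / (B - D * x) := by
    rw [ht]
    field_simp
    ring
  have hx : (D : ℝ) * (1 + t) * x = A + B * t := by
    rw [h1t, ht]
    field_simp
    ring
  have h2 := (evL_tr h t A B D hx a p).1
  have h3 := evL_nonneg ht0 _ hc
  rw [h2] at h3
  have h4 : 0 < ((D : ℝ) * (1 + t)) ^ p.length := by
    apply pow_pos
    apply mul_pos hD'
    linarith
  exact nonneg_of_mul_nonneg_right h3 h4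

/-! ## closed intervals, one variable, by continuity -/

theorem continuous_evL {M : Type} {e : M → ℝ} :
    ∀ p : List M, Continuous fun x : ℝ => evL e x p
  | [] => by simpa [evL] using continuous_const
  | a :: p => by
    simp only [evL]
    exact continuous_const.add (continuous_id.mul (continuous_evL p))

/-- check for one variable on `[A/D, B/D]` -/
def check1 (A B D : ℤ) : List ℤ → Bool
  | [] => true
  | a :: p => (tr opsZ A B D a p).1.all fun c => decide (0 ≤ c)

/-- two variables -/
def check2 (A B D A' B' D' : ℤ) : List (List ℤ) → Bool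
  | [] => true
  | a :: p => (tr (opsL opsZ) A B D a p).1.all (check1 A' B' D')

/-- three variables -/
def check3 (A B D A' B' D' A'' B'' D'' : ℤ) : List (List (List ℤ)) → Bool
  | [] => true
  | a :: p => (tr (opsL (opsL opsZ)) A B D a p).1.all (check2 A' B' D' A'' B'' D'')

/-- evaluation in one, two, three variables -/
noncomputable def ev1 (p : List ℤ) (x : ℝ) : ℝ := evL (fun c : ℤ => (c : ℝ)) x p

/-- evaluation in two variables -/
noncomputable def ev2 (p : List (List ℤ)) (x y : ℝ) : ℝ := evL (fun q => ev1 q y) x p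

/-- evaluation in three variables -/
noncomputable def ev3 (p : List (List (List ℤ))) (x y z : ℝ) : ℝ := evL (fun q => ev2 q y z) x p

theorem check1_sound {A B D : ℤ} (hD : 0 < D) {p : List ℤ} (h : check1 A B D p = true) {x : ℝ}
    (h0 : (A : ℝ) ≤ D * x) (h1 : (D : ℝ) * x < B) : 0 ≤ ev1 p x := by
  cases p with
  | nil => simp [ev1, evL]
  | cons a p =>
    refine nonneg_of_tr lin_opsZ hD ?_ h0 h1
    intro b hb
    simp only [check1, List.all_eq_true, decide_eq_true_eq] at h
    exact_mod_cast h b hb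

theorem check2_sound {A B D A' B' D' : ℤ} (hD : 0 < D) (hD' : 0 < D') {p : List (List ℤ)}
    (h : check2 A B D A' B' D' p = true) {x y : ℝ} (h0 : (A : ℝ) ≤ D * x) (h1 : (D : ℝ) * x < B)
    (h0' : (A' : ℝ) ≤ D' * y) (h1' : (D' : ℝ) * y < B') : 0 ≤ ev2 p x y := by
  cases p with
  | nil => simp [ev2, evL]
  | cons a p =>
    refine nonneg_of_tr (lin_opsL lin_opsZ y) hD ?_ h0 h1
    intro b hb
    simp only [check2, List.all_eq_true] at h
    exact check1_sound hD' (h b hb) h0' h1'

theorem check3_sound {A B D A' B' D' A'' B'' D'' : ℤ} (hD : 0 < D) (hD' : 0 < D') (hD'' : 0 < D'')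
    {p : List (List (List ℤ))}
    (h : check3 A B D A' B' D' A'' B'' D'' p = true) {x y z : ℝ}
    (h0 : (A : ℝ) ≤ D * x) (h1 : (D : ℝ) * x < B)
    (h0' : (A' : ℝ) ≤ D' * y) (h1' : (D' : ℝ) * y < B')
    (h0'' : (A'' : ℝ) ≤ D'' * z) (h1'' : (D'' : ℝ) * z < B'') : 0 ≤ ev3 p x y z := by
  cases p with
  | nil => simp [ev3, evL]
  | cons a p =>
    refine nonneg_of_tr (lin_opsL (lin_opsL lin_opsZ z) y) hD ?_ h0 h1
    intro b hb
    simp only [check3, List.all_eq_true] at h
    exact check2_sound hD' hD'' (h b hb) h0' h1' h0'' h1''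

/-! ## adaptive subdivision -/

/-- one variable, adaptive bisection with fuel -/
def auto1 : ℕ → ℤ → ℤ → ℤ → List ℤ → Bool
  | 0, A, B, D, p => check1 A B D p
  | n + 1, A, B, D, p =>
    check1 A B D p || (auto1 n (2 * A) (A + B) (2 * D) p && auto1 n (A + B) (2 * B) (2 * D) p)

/-- two variables, adaptive bisection (`k` = number of the next splitting direction) -/
def auto2 : ℕ → Bool → ℤ → ℤ → ℤ → ℤ → ℤ → ℤ → List (List ℤ) → Bool
  | 0, _, A, B, D, A', B', D', p => check2 A B D A' B' D' p
  | n + 1, true, A, B, D, A', B', D', p =>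
    check2 A B D A' B' D' p ||
      (auto2 n false (2 * A) (A + B) (2 * D) A' B' D' p &&
        auto2 n false (A + B) (2 * B) (2 * D) A' B' D' p)
  | n + 1, false, A, B, D, A', B', D', p =>
    check2 A B D A' B' D' p ||
      (auto2 n true A B D (2 * A') (A' + B') (2 * D') p &&
        auto2 n true A B D (A' + B') (2 * B') (2 * D') p)

theorem auto1_sound {n : ℕ} : ∀ {A B D : ℤ}, 0 < D → ∀ {p : List ℤ}, auto1 n A B D p = true →
    ∀ {x : ℝ}, (A : ℝ) ≤ D * x → (D : ℝ) * x < B → 0 ≤ ev1 p x := by
  induction n with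
  | zero =>
    intro A B D hD p h x h0 h1
    exact check1_sound hD h h0 h1
  | succ n ih =>
    intro A B D hD p h x h0 h1
    simp only [auto1, Bool.or_eq_true, Bool.and_eq_true] at h
    rcases h with h | ⟨h2, h3⟩
    · exact check1_sound hD h h0 h1
    · rcases lt_or_ge (((2 * D : ℤ) : ℝ) * x) ((A + B : ℤ) : ℝ) with h4 | h4
      · exact ih (by omega) h2 (by push_cast at *; linarith) h4
      · exact ih (by omega) h3 h4 (by push_cast at *; linarith)

theorem auto2_sound {n : ℕ} : ∀ {k : Bool} {A B D A' B' D' : ℤ}, 0 < D → 0 < D' →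
    ∀ {p : List (List ℤ)}, auto2 n k A B D A' B' D' p = true →
    ∀ {x y : ℝ}, (A : ℝ) ≤ D * x → (D : ℝ) * x < B → (A' : ℝ) ≤ D' * y → (D' : ℝ) * y < B' →
      0 ≤ ev2 p x y := by
  induction n with
  | zero =>
    intro k A B D A' B' D' hD hD' p h x y h0 h1 h0' h1'
    exact check2_sound hD hD' h h0 h1 h0' h1'
  | succ n ih =>
    intro k A B D A' B' D' hD hD' p h x y h0 h1 h0' h1'
    cases k with
    | true =>
      simp only [auto2, Bool.or_eq_true, Bool.and_eq_true] at h
      rcases h with h | ⟨h2, h3⟩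
      · exact check2_sound hD hD' h h0 h1 h0' h1'
      · rcases lt_or_ge (((2 * D : ℤ) : ℝ) * x) ((A + B : ℤ) : ℝ) with h4 | h4
        · exact ih (by omega) hD' h2 (by push_cast at *; linarith) h4 h0' h1'
        · exact ih (by omega) hD' h3 h4 (by push_cast at *; linarith) h0' h1'
    | false =>
      simp only [auto2, Bool.or_eq_true, Bool.and_eq_true] at h
      rcases h with h | ⟨h2, h3⟩
      · exact check2_sound hD hD' h h0 h1 h0' h1'
      · rcases lt_or_ge (((2 * D' : ℤ) : ℝ) * y) ((A' + B' : ℤ) : ℝ) with h4 | h4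
        · exact ih hD (by omega) h2 h0 h1 (by push_cast at *; linarith) h4
        · exact ih hD (by omega) h3 h0 h1 h4 (by push_cast at *; linarith)

/-- closed intervals by continuity, one variable -/
theorem ev1_closed {p : List ℤ} {a b : ℝ} (hab : a < b)
    (h : ∀ x, a ≤ x → x < b → 0 ≤ ev1 p x) {x : ℝ} (h0 : a ≤ x) (h1 : x ≤ b) : 0 ≤ ev1 p x := by
  have hc : Continuous fun x => ev1 p x := continuous_evL p
  have hcl : IsClosed {x : ℝ | 0 ≤ ev1 p x} := isClosed_le continuous_const hc
  have hsub : Set.Ico a b ⊆ {x : ℝ | 0 ≤ ev1 p x} := fun x hx => h x hx.1 hx.2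
  have := hcl.closure_subset_iff.2 hsub
  rw [closure_Ico hab.ne] at this
  exact this ⟨h0, h1⟩

theorem continuous_evL_param {M : Type} {e : ℝ → M → ℝ} (he : ∀ a, Continuous fun y => e y a)
    (x : ℝ) : ∀ p : List M, Continuous fun y : ℝ => evL (e y) x p
  | [] => by simpa [evL] using continuous_const
  | a :: p => by
    simp only [evL]
    exact (he a).add (continuous_const.mul (continuous_evL_param he x p))

/-- closed boxes by continuity, two variables -/
theorem ev2_closed {p : List (List ℤ)} {a b c d : ℝ} (hab : a < b) (hcd : c < d)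
    (h : ∀ x y, a ≤ x → x < b → c ≤ y → y < d → 0 ≤ ev2 p x y) {x y : ℝ} (h0 : a ≤ x) (h1 : x ≤ b)
    (h2 : c ≤ y) (h3 : y ≤ d) : 0 ≤ ev2 p x y := by
  have hstep : ∀ x, a ≤ x → x < b → 0 ≤ ev2 p x y := by
    intro x hx0 hx1
    have hc : Continuous fun y => ev2 p x y :=
      continuous_evL_param (fun q => continuous_evL q) x p
    have hcl : IsClosed {y : ℝ | 0 ≤ ev2 p x y} := isClosed_le continuous_const hc
    have hsub : Set.Ico c d ⊆ {y : ℝ | 0 ≤ ev2 p x y} := fun y hy => h x y hx0 hx1 hy.1 hy.2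
    have := hcl.closure_subset_iff.2 hsub
    rw [closure_Ico hcd.ne] at this
    exact this ⟨h2, h3⟩
  have hc : Continuous fun x => ev2 p x y := continuous_evL p
  have hcl : IsClosed {x : ℝ | 0 ≤ ev2 p x y} := isClosed_le continuous_const hc
  have hsub : Set.Ico a b ⊆ {x : ℝ | 0 ≤ ev2 p x y} := fun x hx => hstep x hx.1 hx.2
  have := hcl.closure_subset_iff.2 hsub
  rw [closure_Ico hab.ne] at this
  exact this ⟨h0, h1⟩

end Vale.Agent.P237.AllN.PolyPos
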