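import Vale.Agent.P237.AllN.FPosA4
import Vale.Agent.P237.AllN.FTest
import Vale.Agent.P237.AllN.PolyPos

/-!
# P237, block D, `l > 0`, `m z ≤ 1`: polynomial inequalities (kernel checked)
-/

namespace Vale.Agent.P237.AllN

open PolyPos

-- scale C = 2000000000
def paP2 : List (List (List ℤ)) :=
  [[[0, 0, 97200000], [], [286920000], [], []],
  [[0, 0, 0, -147600000], [0, -96768000], [], [], []],
  [[0, 0, 243000000, 0, -72853625], [0, 0, -37738500], [762206220, 0, -915542350], [-200868900], [-2643176480]],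
  [[0, 0, 0, -479138500, 0, 77305500], [0, -262219560, 0, -161807160], [0, -610888612, 0, 624052800], [0, -885674496], []],
  [[0, 0, 15090220, 0, 89814600], [0, 0, -71968512, 0, 198374400], [252943200, 0, 81840192], [12329856], [442837248]],
  [[0, 0, 0, -67896000], [0, -44513280], [0, 35984256, 0, -99187200], [0, 14450688], []],
  [[], [], [22256640], [], [-3612672]]]

-- scale C = 500000000
def paPA : List (List (List ℤ)) :=
  [[[77310000, 0, 43470000], [], [], []],
  [[0, -24192000], [0, 0, 0, -42930000], [], []],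
  [[204501555, 0, 108675000], [-52948575, 0, -14463645], [-731422080, 0, -356396145, 0, -36531950], []],
  [[0, -65554890], [0, -160693503, 0, -149536645], [0, -234476928, 0, -68618055], [0, 0, 0, 189578880, 0, 27797175]],
  [[65802600, 0, 12590755], [3082464, 0, -17992128], [117238464, 0, 35171808, 0, 26122905], [0, 0, 0, 0, 57697920]],
  [[0, -11128320], [0, 8996064, 0, -19747800], [0, 3612672], [0, 0, 0, -28848960]],
  [[5564160], [], [-903168], []]]

-- scale C = 500000000
def paPB : List (List (List ℤ)) :=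
  [[[43470000, 0, 77310000], [], [], []],
  [[0, -24192000], [-42930000], [], []],
  [[108675000, 0, 204501555], [0, -14463645, 0, -52948575], [-36531950, 0, -356396145, 0, -731422080], []],
  [[0, -65554890], [-149536645, 0, -160693503], [0, -68618055, 0, -234476928], [27797175, 0, 189578880]],
  [[12590755, 0, 65802600], [0, -17992128, 0, 3082464], [26122905, 0, 35171808, 0, 117238464], [0, 57697920]],
  [[0, -11128320], [-19747800, 0, 8996064], [0, 0, 0, 3612672], [0, 0, -28848960]],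
  [[0, 0, 5564160], [], [0, 0, 0, 0, -903168], []]]


set_option maxRecDepth 100000 in
theorem pa_poly2 {X l v : ℝ} (hX0 : 0 ≤ X) (hX : X ≤ 4 / 5) (hl0 : 2 / 5 ≤ l) (hl : l ≤ 1 / 2)
    (hv0 : 0 ≤ v) (hv : v ≤ 4054 / 10000) :
    0 ≤ 9 / 10 * (l ^ 2 * (0.797 + 0.1344 * X ^ 2) + v ^ 2 * (0.27 - 0.41 * (v * X)) -
      0.2688 * (X * v * l)) * ((0.2 + 0.5 * X ^ 2 + 0.092 * X ^ 4) -
      X ^ 2 * (0.1217 * (v * X) + 0.0417 * l + l ^ 2 * (0.8456 - 0.1344 * X ^ 2) +
        0.2688 * (v * X * l) + 0.10475 * v ^ 2)) -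
      X ^ 2 * (0.1217 * (v * X) + 0.0417 * l + l ^ 2 * (0.8456 - 0.1344 * X ^ 2) +
        0.2688 * (v * X * l) + 0.10475 * v ^ 2) ^ 2 := by
  have h := check3_sound (A := 0) (B := 801) (D := 1000) (A' := 400) (B' := 501) (D' := 1000)
    (A'' := 0) (B'' := 406) (D'' := 1000) (by norm_num) (by norm_num) (by norm_num)
    (p := paP2) (by (clear * -; decide +kernel)) (x := X) (y := l) (z := v)
    (by push_cast; linarith only [hX0]) (by push_cast; linarith only [hX]) (by push_cast; linarith only [hl0])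
    (by push_cast; linarith only [hl]) (by push_cast; linarith only [hv0]) (by push_cast; linarith only [hv])
  have e : ev3 paP2 X l v = 2000000000 * (9 / 10 * (l ^ 2 * (0.797 + 0.1344 * X ^ 2) +
      v ^ 2 * (0.27 - 0.41 * (v * X)) -
      0.2688 * (X * v * l)) * ((0.2 + 0.5 * X ^ 2 + 0.092 * X ^ 4) -
      X ^ 2 * (0.1217 * (v * X) + 0.0417 * l + l ^ 2 * (0.8456 - 0.1344 * X ^ 2) +
        0.2688 * (v * X * l) + 0.10475 * v ^ 2)) -
      X ^ 2 * (0.1217 * (v * X) + 0.0417 * l + l ^ 2 * (0.8456 - 0.1344 * X ^ 2) +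
        0.2688 * (v * X * l) + 0.10475 * v ^ 2) ^ 2) := by
    simp only [ev3, ev2, ev1, paP2, evL]
    push_cast
    ring
  rw [e] at h
  exact nonneg_of_mul_nonneg_right h (by norm_num)

set_option maxRecDepth 100000 in
theorem pa_polyA {X l t : ℝ} (hX0 : 0 ≤ X) (hX : X ≤ 1) (hl0 : 0 ≤ l) (hl : l ≤ 2 / 5)
    (ht0 : 0 ≤ t) (ht : t ≤ 1) :
    0 ≤ 9 / 10 * ((0.859 + 0.1344 * X ^ 2) + t ^ 2 * (0.483 - 0.477 * (l * t * X)) -
      0.2688 * (X * t)) * ((0.2 + 0.5 * X ^ 2 + 0.092 * X ^ 4) -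
      X ^ 2 * l * (0.1217 * (t * X) + 0.0417 + l * (0.8832 - 0.1344 * X ^ 2) +
        0.2688 * (l * t * X) + 0.1295 * (l * t ^ 2))) -
      X ^ 2 * (0.1217 * (t * X) + 0.0417 + l * (0.8832 - 0.1344 * X ^ 2) +
        0.2688 * (l * t * X) + 0.1295 * (l * t ^ 2)) ^ 2 := by
  have h := check3_sound (A := 0) (B := 1001) (D := 1000) (A' := 0) (B' := 401) (D' := 1000)
    (A'' := 0) (B'' := 1001) (D'' := 1000) (by norm_num) (by norm_num) (by norm_num)
    (p := paPA) (by (clear * -; decide +kernel)) (x := X) (y := l) (z := t)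
    (by push_cast; linarith only [hX0]) (by push_cast; linarith only [hX]) (by push_cast; linarith only [hl0])
    (by push_cast; linarith only [hl]) (by push_cast; linarith only [ht0]) (by push_cast; linarith only [ht])
  have e : ev3 paPA X l t = 500000000 * (9 / 10 * ((0.859 + 0.1344 * X ^ 2) +
      t ^ 2 * (0.483 - 0.477 * (l * t * X)) -
      0.2688 * (X * t)) * ((0.2 + 0.5 * X ^ 2 + 0.092 * X ^ 4) -
      X ^ 2 * l * (0.1217 * (t * X) + 0.0417 + l * (0.8832 - 0.1344 * X ^ 2) +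
        0.2688 * (l * t * X) + 0.1295 * (l * t ^ 2))) -
      X ^ 2 * (0.1217 * (t * X) + 0.0417 + l * (0.8832 - 0.1344 * X ^ 2) +
        0.2688 * (l * t * X) + 0.1295 * (l * t ^ 2)) ^ 2) := by
    simp only [paPA, ev3, ev2, ev1, evL]
    push_cast
    ring
  rw [e] at h
  exact nonneg_of_mul_nonneg_right h (by norm_num)

set_option maxRecDepth 100000 in
theorem pa_polyB {X v t : ℝ} (hX0 : 0 ≤ X) (hX : X ≤ 1) (hv0 : 0 ≤ v) (hv : v ≤ 4084 / 10000)
    (ht0 : 0 ≤ t) (ht : t ≤ 1) :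
    0 ≤ 9 / 10 * (t ^ 2 * (0.859 + 0.1344 * X ^ 2) + (0.483 - 0.477 * (v * X)) -
      0.2688 * (X * t)) * ((0.2 + 0.5 * X ^ 2 + 0.092 * X ^ 4) -
      X ^ 2 * v * (0.1217 * X + 0.0417 * t + v * t ^ 2 * (0.8832 - 0.1344 * X ^ 2) +
        0.2688 * (v * t * X) + 0.1295 * v)) -
      X ^ 2 * (0.1217 * X + 0.0417 * t + v * t ^ 2 * (0.8832 - 0.1344 * X ^ 2) +
        0.2688 * (v * t * X) + 0.1295 * v) ^ 2 := by
  have h := check3_sound (A := 0) (B := 1001) (D := 1000) (A' := 0) (B' := 409) (D' := 1000)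
    (A'' := 0) (B'' := 1001) (D'' := 1000) (by norm_num) (by norm_num) (by norm_num)
    (p := paPB) (by (clear * -; decide +kernel)) (x := X) (y := v) (z := t)
    (by push_cast; linarith only [hX0]) (by push_cast; linarith only [hX]) (by push_cast; linarith only [hv0])
    (by push_cast; linarith only [hv]) (by push_cast; linarith only [ht0]) (by push_cast; linarith only [ht])
  have e : ev3 paPB X v t = 500000000 * (9 / 10 * (t ^ 2 * (0.859 + 0.1344 * X ^ 2) +
      (0.483 - 0.477 * (v * X)) -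
      0.2688 * (X * t)) * ((0.2 + 0.5 * X ^ 2 + 0.092 * X ^ 4) -
      X ^ 2 * v * (0.1217 * X + 0.0417 * t + v * t ^ 2 * (0.8832 - 0.1344 * X ^ 2) +
        0.2688 * (v * t * X) + 0.1295 * v)) -
      X ^ 2 * (0.1217 * X + 0.0417 * t + v * t ^ 2 * (0.8832 - 0.1344 * X ^ 2) +
        0.2688 * (v * t * X) + 0.1295 * v) ^ 2) := by
    simp only [paPB, ev3, ev2, ev1, evL]
    push_cast
    ring
  rw [e] at h
  exact nonneg_of_mul_nonneg_right h (by norm_num)

/-- the inequality on `X ≤ 1`, `l ≤ 2/5` -/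
theorem pa_poly1 {X l v : ℝ} (hX0 : 0 ≤ X) (hX : X ≤ 1) (hl0 : 0 ≤ l) (hl : l ≤ 2 / 5)
    (hv0 : 0 ≤ v) (hv : v ≤ 4084 / 10000) :
    0 ≤ 9 / 10 * (l ^ 2 * (0.859 + 0.1344 * X ^ 2) + v ^ 2 * (0.483 - 0.477 * (v * X)) -
      0.2688 * (X * v * l)) * ((0.2 + 0.5 * X ^ 2 + 0.092 * X ^ 4) -
      X ^ 2 * (0.1217 * (v * X) + 0.0417 * l + l ^ 2 * (0.8832 - 0.1344 * X ^ 2) +
        0.2688 * (v * X * l) + 0.1295 * v ^ 2)) -
      X ^ 2 * (0.1217 * (v * X) + 0.0417 * l + l ^ 2 * (0.8832 - 0.1344 * X ^ 2) +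
        0.2688 * (v * X * l) + 0.1295 * v ^ 2) ^ 2 := by
  rcases le_total v l with h | h
  · rcases hl0.eq_or_lt with h0 | h0
    · have hv' : v = 0 := by linarith only [hv0, h, h0]
      rw [← h0, hv']
      norm_num
    · have ht : v / l ≤ 1 := by rw [div_le_one h0]; exact h
      have ht0 : 0 ≤ v / l := by positivity
      have hp := pa_polyA hX0 hX hl0 hl ht0 ht
      have hv' : v = l * (v / l) := by field_simp
      generalize v / l = t at hp hv'
      subst hv'
      have := mul_nonneg (sq_nonneg l) hp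
      linarith
  · rcases hv0.eq_or_lt with h0 | h0
    · have hl' : l = 0 := by linarith only [hl0, h, h0]
      rw [← h0, hl']
      norm_num
    · have ht : l / v ≤ 1 := by rw [div_le_one h0]; exact h
      have ht0 : 0 ≤ l / v := by positivity
      have hp := pa_polyB hX0 hX hv0 hv ht0 ht
      have hl' : l = v * (l / v) := by field_simp
      generalize l / v = t at hp hl'
      subst hl'
      have := mul_nonneg (sq_nonneg v) hp
      linarith

end Vale.Agent.P237.AllN
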