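import Vale.Agent.P237.AllN.FPosA5

/-!
# P237, block D, `l > 0`, `m z ≤ 1`: the pointwise test
-/

namespace Vale.Agent.P237.AllN

theorem pa_conv1 {M l u : ℝ} (hM0 : 0 < M) (hM : M ≤ 1) (hl0 : 0 ≤ l) (hl : l ≤ 2 / 5)
    (hu0 : 0 ≤ u) (hu : u ^ 2 ≤ 16679 / 100000 * M) :
    (M * (0.1217 * u + 0.0417 * l + l ^ 2 * (0.8832 - 0.1344 * M) + 0.2688 * (u * l)) +
      0.1295 * u ^ 2) ^ 2 ≤
    9 / 10 * ((M * l ^ 2 * (0.859 + 0.1344 * M) + u ^ 2 * (0.483 - 0.477 * u) -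
      0.2688 * (M * u * l)) * ((0.2 + 0.5 * M + 0.092 * M ^ 2) -
      (M * (0.1217 * u + 0.0417 * l + l ^ 2 * (0.8832 - 0.1344 * M) + 0.2688 * (u * l)) +
      0.1295 * u ^ 2))) := by
  have hX0 : 0 < Real.sqrt M := Real.sqrt_pos.2 hM0
  have hXX : Real.sqrt M ^ 2 = M := Real.sq_sqrt hM0.le
  have hX1 : Real.sqrt M ≤ 1 := by
    rw [Real.sqrt_le_one]; exact hM
  have hv0 : 0 ≤ u / Real.sqrt M := by (clear * - hu0 hM0; positivity)
  have hv : u / Real.sqrt M ≤ 4084 / 10000 := by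
    rw [div_le_iff₀ hX0]
    apply le_of_pow_le_pow_left₀ (n := 2) (by norm_num) (by positivity)
    rw [mul_pow, hXX]
    refine hu.trans (mul_le_mul_of_nonneg_right (by norm_num) hM0.le)
  have hp := pa_poly1 hX0.le hX1 hl0 hl hv0 hv
  have hvX : u / Real.sqrt M * Real.sqrt M = u := by field_simp
  have hXv : Real.sqrt M * (u / Real.sqrt M) = u := by (clear * - hM0; field_simp)
  have h4 : Real.sqrt M ^ 4 = M ^ 2 := by
    rw [show (4 : ℕ) = 2 * 2 by norm_num, pow_mul, hXX]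
  have hv2 : (u / Real.sqrt M) ^ 2 * M = u ^ 2 := by
    rw [div_pow, hXX]; (clear * - hM0; field_simp)
  rw [hvX, hXv, hXX, h4] at hp
  have h1 := mul_nonneg hM0.le hp
  generalize (u / Real.sqrt M) ^ 2 = V at h1 hv2
  rw [← sub_nonneg]
  refine h1.trans (le_of_eq ?_)
  rw [← hv2]
  ring

theorem pa_conv2 {M l u : ℝ} (hM0 : 0 < M) (hM : M ≤ 16 / 25) (hl0 : 2 / 5 ≤ l) (hl : l ≤ 1 / 2)
    (hu0 : 0 ≤ u) (hu : u ^ 2 ≤ 16434 / 100000 * M) :
    (M * (0.1217 * u + 0.0417 * l + l ^ 2 * (0.8456 - 0.1344 * M) + 0.2688 * (u * l)) +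
      0.10475 * u ^ 2) ^ 2 ≤
    9 / 10 * ((M * l ^ 2 * (0.797 + 0.1344 * M) + u ^ 2 * (0.27 - 0.41 * u) -
      0.2688 * (M * u * l)) * ((0.2 + 0.5 * M + 0.092 * M ^ 2) -
      (M * (0.1217 * u + 0.0417 * l + l ^ 2 * (0.8456 - 0.1344 * M) + 0.2688 * (u * l)) +
      0.10475 * u ^ 2))) := by
  have hX0 : 0 < Real.sqrt M := Real.sqrt_pos.2 hM0
  have hXX : Real.sqrt M ^ 2 = M := Real.sq_sqrt hM0.le
  have hX1 : Real.sqrt M ≤ 4 / 5 := by
    apply le_of_pow_le_pow_left₀ (n := 2) (by norm_num) (by positivity)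
    rw [hXX]; norm_num; linarith only [hM]
  have hv0 : 0 ≤ u / Real.sqrt M := by positivity
  have hv : u / Real.sqrt M ≤ 4054 / 10000 := by
    rw [div_le_iff₀ hX0]
    apply le_of_pow_le_pow_left₀ (n := 2) (by norm_num) (by positivity)
    rw [mul_pow, hXX]
    refine hu.trans (mul_le_mul_of_nonneg_right (by norm_num) hM0.le)
  have hp := pa_poly2 hX0.le hX1 hl0 hl hv0 hv
  have hvX : u / Real.sqrt M * Real.sqrt M = u := by field_simp
  have hXv : Real.sqrt M * (u / Real.sqrt M) = u := by (clear * - hM0; field_simp)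
  have h4 : Real.sqrt M ^ 4 = M ^ 2 := by
    rw [show (4 : ℕ) = 2 * 2 by norm_num, pow_mul, hXX]
  have hv2 : (u / Real.sqrt M) ^ 2 * M = u ^ 2 := by
    rw [div_pow, hXX]; (clear * - hM0; field_simp)
  rw [hvX, hXv, hXX, h4] at hp
  have h1 := mul_nonneg hM0.le hp
  generalize (u / Real.sqrt M) ^ 2 = V at h1 hv2
  rw [← sub_nonneg]
  refine h1.trans (le_of_eq ?_)
  rw [← hv2]
  ring

/-! ## common facts -/

theorem pa_ratio {m : ℝ} (hm : 25 ≤ m) : (m + 1) / (m - 1) ≤ 13 / 12 := by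
  rw [div_le_div_iff₀ (by linarith only [hm]) (by norm_num)]
  linarith only [hm]

theorem pa_kappa {m s σ : ℝ} (hm : 25 ≤ m) (hs0 : 0 < s) (hσ : 1 / s ≤ σ) :
    2 * (m + 1) / ((m - 1) * s) ≤ 13 / 6 * σ := by
  have h := pa_ratio hm
  have e : 2 * (m + 1) / ((m - 1) * s) = 2 * ((m + 1) / (m - 1)) * (1 / s) := by
    have : m - 1 ≠ 0 := by intro h; linarith only [hm, h]
    field_simp
  rw [e]
  have h0 : 0 < 1 / s := by positivity
  have h1 : 0 < (m + 1) / (m - 1) := div_pos (by linarith only [hm]) (by linarith only [hm])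
  calc 2 * ((m + 1) / (m - 1)) * (1 / s) ≤ 2 * (13 / 12) * σ := by gcongr
    _ = 13 / 6 * σ := by ring

theorem pa_c_ge {m c : ℝ} (hm : 25 ≤ m) (hc0 : 1 - 1 / (2 * m) ≤ c) : 49 / 50 ≤ c := by
  have hmi : 1 / (2 * m) ≤ 1 / 50 := by
    apply one_div_le_one_div_of_le <;> linarith only [hm]
  linarith only [hc0, hmi]

theorem pa_kappa' {m s c σ : ℝ} (hm : 25 ≤ m) (hs0 : 0 < s) (hσ : 1 / s ≤ σ)
    (hc0 : 1 - 1 / (2 * m) ≤ c) :
    2 * (m + 1) / ((m - 1) * s) - 2 * c / s ≤ 31 / 150 * σ := by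
  have h := pa_ratio hm
  have hc := pa_c_ge hm hc0
  have e : 2 * (m + 1) / ((m - 1) * s) - 2 * c / s = 2 * ((m + 1) / (m - 1) - c) * (1 / s) := by
    have : m - 1 ≠ 0 := by intro h; linarith only [hm, h]
    field_simp
  rw [e]
  have h0 : 0 < 1 / s := by positivity
  have h1 : 2 * ((m + 1) / (m - 1) - c) * (1 / s) ≤ 31 / 150 * (1 / s) :=
    mul_le_mul_of_nonneg_right (by linarith only [h, hc]) h0.le
  exact h1.trans (mul_le_mul_of_nonneg_left hσ (by norm_num))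

theorem pa_rho {m z s : ℝ} (hm : 25 ≤ m) (hs0 : 0 < s) (hs : s ^ 2 = 1 - z) (hz0 : 0 ≤ z) :
    0.2 + 0.5 * (m * z) + 0.092 * (m * z) ^ 2 ≤ dpR m (z / s ^ 2) := by
  unfold dpR
  have hy := pa_y_ge hs0 hs hz0
  have h1 : m * z ≤ m * (z / s ^ 2) := mul_le_mul_of_nonneg_left hy (by linarith only [hm])
  have h2 : z ^ 2 ≤ (z / s ^ 2) ^ 2 := pow_le_pow_left₀ hz0 hy 2
  have h3 : 23 / 25 * (m * z) ^ 2 ≤ m * (m - 2) * (z / s ^ 2) ^ 2 := by
    have h4 : 23 / 25 * m ^ 2 ≤ m * (m - 2) := by nlinarith only [hm]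
    have h5 := mul_le_mul h4 h2 (by positivity) (by nlinarith only [h4])
    linarith
  norm_num
  linarith only [h1, h3]

/-- `ψ(2l)` -/
theorem pa_psi {l g : ℝ} (hl0 : 0 ≤ l)
    (h : g ≤ 2 - 4 / 3 * l + 2 / 3 * l ^ 2 - 4 / 15 * l ^ 3) :
    g * l ^ 2 ≤ Real.exp (-(2 * l)) - 1 + 2 * l := by
  have h1 := pa_E5 (t := 2 * l) (by linarith only [hl0])
  have h2 := mul_le_mul_of_nonneg_right h (sq_nonneg l)
  linarith

theorem pa_m3 {m z u l : ℝ} (hm : 25 ≤ m) (hz0 : 0 ≤ z) (hu : 0 ≤ u) (hl : 0 ≤ l) :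
    6 / 25 * (m + 3) * z * u * l ≤ 0.2688 * (m * z * u * l) := by
  have h : 0 ≤ z * u * l * (m - 25) := by
    have : 0 ≤ m - 25 := by linarith
    positivity
  norm_num
  linarith

end Vale.Agent.P237.AllN
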