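import Vale.Agent.P237.AllN.FPosA6

/-!
# P237, block D, `l > 0`, `m z ≤ 1`: the pointwise test, the four cases
-/

namespace Vale.Agent.P237.AllN

theorem pa_a1 {l : ℝ} (hl : l ≤ 2 / 5) : 0.4493 ≤ Real.exp (-(2 * l)) := by
  have h1 : Real.exp (-(4 / 5)) ≤ Real.exp (-(2 * l)) := Real.exp_le_exp.2 (by linarith)
  refine le_trans ?_ h1
  have h3 : Real.exp (-(4 / 5)) * Real.exp (4 / 5) = 1 := by
    rw [← Real.exp_add]; norm_num
  have h4 : 0 < Real.exp (-(4 / 5)) := Real.exp_pos _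
  have h5 := pa_exp45
  nlinarith only [h3, h4, h5]

theorem pa_a2 {l : ℝ} (hl : l ≤ 1 / 2) : 0.36787 ≤ Real.exp (-(2 * l)) := by
  have h1 : Real.exp (-1) ≤ Real.exp (-(2 * l)) := Real.exp_le_exp.2 (by linarith only [hl])
  refine le_trans ?_ h1
  have h3 : Real.exp (-1) * Real.exp 1 = 1 := by
    rw [← Real.exp_add]; norm_num
  have h4 : 0 < Real.exp (-1) := Real.exp_pos _
  have h5 := pa_exp1
  nlinarith only [h3, h4, h5]

theorem pa_Wle {u : ℝ} (hu : 0 ≤ u) : u ^ 2 / (1 + u) ≤ u ^ 2 := by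
  apply div_le_self (sq_nonneg u)
  linarith only [hu]

theorem pa_phile {u : ℝ} (hu : 0 ≤ u) : u ^ 2 / (2 + u) ≤ u ^ 2 / 2 := by
  apply div_le_div_of_nonneg_left (sq_nonneg u) (by norm_num)
  linarith only [hu]

theorem pa_wphi1 {u : ℝ} (hu0 : 0 ≤ u) : 0.483 * u ^ 2 - 0.477 * u ^ 3 ≤
    1.70 * (u ^ 2 / (1 + u)) - 2.212 * (u ^ 2 / (2 + u)) := by
  have e : 1.70 * (u ^ 2 / (1 + u)) - 2.212 * (u ^ 2 / (2 + u)) -
      (0.483 * u ^ 2 - 0.477 * u ^ 3) = u ^ 2 * (0.222 - 1.007 * u + 0.948 * u ^ 2 +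
      0.477 * u ^ 3) / ((1 + u) * (2 + u)) := by
    have h1 : 1 + u ≠ 0 := by positivity
    have h2 : 2 + u ≠ 0 := by positivity
    field_simp
    ring
  have h1 : 0 ≤ 0.222 - 1.007 * u + 0.948 * u ^ 2 + 0.477 * u ^ 3 := by
    have a2 : 0 ≤ (u + 0.81) * (u - 0.405) ^ 2 := by (clear * - hu0; positivity)
    have e2 : 0.222 - 1.007 * u + 0.948 * u ^ 2 + 0.477 * u ^ 3 =
        0.477 * ((u + 0.81) * (u - 0.405) ^ 2) + 0.948 * (u - 0.407) ^ 2 +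
        (0.00159040875 - 0.000608225 * u) := by ring
    rcases le_total u 1 with h | h
    · rw [e2]
      have a3 := sq_nonneg (u - 0.407)
      norm_num at a2 a3 ⊢
      linarith only [h, a2, a3]
    · have a4 : 1 ≤ u ^ 2 := by nlinarith only [h]
      have a5 : u ≤ u ^ 3 := by nlinarith
      have a6 : u ≤ u ^ 2 := by nlinarith only [h]
      norm_num
      linarith only [a4, a5, a6]
  have h2 : 0 ≤ u ^ 2 * (0.222 - 1.007 * u + 0.948 * u ^ 2 +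
      0.477 * u ^ 3) / ((1 + u) * (2 + u)) := by (clear * - h1 hu0; positivity)
  linarith only [e, h2]

theorem pa_wphi2 {u : ℝ} (hu0 : 0 ≤ u) : 0.27 * u ^ 2 - 0.41 * u ^ 3 ≤
    1.4335 * (u ^ 2 / (1 + u)) - 2.1956 * (u ^ 2 / (2 + u)) := by
  have e : 1.4335 * (u ^ 2 / (1 + u)) - 2.1956 * (u ^ 2 / (2 + u)) -
      (0.27 * u ^ 2 - 0.41 * u ^ 3) = u ^ 2 * (0.1314 - 0.7521 * u + 0.96 * u ^ 2 +
      0.41 * u ^ 3) / ((1 + u) * (2 + u)) := by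
    have h1 : 1 + u ≠ 0 := by positivity
    have h2 : 2 + u ≠ 0 := by positivity
    field_simp
    ring
  have h1 : 0 ≤ 0.1314 - 0.7521 * u + 0.96 * u ^ 2 + 0.41 * u ^ 3 := by
    have a2 : 0 ≤ (u + 0.648) * (u - 0.324) ^ 2 := by (clear * - hu0; positivity)
    have e2 : 0.1314 - 0.7521 * u + 0.96 * u ^ 2 + 0.41 * u ^ 3 =
        0.41 * ((u + 0.648) * (u - 0.324) ^ 2) + 0.96 * (u - 0.3245) ^ 2 +
        (0.00242173632 + 0.00006048 * u) := by ring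
    rw [e2]
    have a3 := sq_nonneg (u - 0.3245)
    (clear * - hu0; positivity)
  have h2 : 0 ≤ u ^ 2 * (0.1314 - 0.7521 * u + 0.96 * u ^ 2 +
      0.41 * u ^ 3) / ((1 + u) * (2 + u)) := by positivity
  linarith only [e, h2]

/-- `1.725 W ≥ (2/s) φ`, `u ≥ 0` -/
theorem pa_e_pos {u s β σ : ℝ} (hu : 0 ≤ u) (hσ : 1 / s ≤ σ) (h : 2 * σ ≤ β * (2 + u) / (1 + u)) :
    0 ≤ β * (u ^ 2 / (1 + u)) - 2 / s * (u ^ 2 / (2 + u)) := by
  have h0 : 0 ≤ u ^ 2 / (2 + u) := by positivity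
  have h1 : 2 / s * (u ^ 2 / (2 + u)) ≤ 2 * σ * (u ^ 2 / (2 + u)) := by
    apply mul_le_mul_of_nonneg_right _ h0
    have : 2 / s = 2 * (1 / s) := by ring
    linarith only [hσ, this]
  have h2 := mul_le_mul_of_nonneg_right h h0
  have e : β * (2 + u) / (1 + u) * (u ^ 2 / (2 + u)) = β * (u ^ 2 / (1 + u)) := by
    have h1 : 1 + u ≠ 0 := by positivity
    have h2 : 2 + u ≠ 0 := by positivity
    field_simp
  linarith only [h1, h2, e]

theorem pa_T1low {M l u : ℝ} (hM0 : 0 < M) (hM : M ≤ 1) (hub : u ≤ 0.4084) :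
    0.72 * (M * l ^ 2) + 0.15 * u ^ 2 ≤
      M * l ^ 2 * (0.859 + 0.1344 * M) + u ^ 2 * (0.483 - 0.477 * u) - 0.2688 * (M * u * l) := by
  have hul : 2 * (u * l) ≤ u ^ 2 + l ^ 2 := by nlinarith only [sq_nonneg (u - l)]
  have h1 : 0 ≤ M * l ^ 2 := by positivity
  have h2 := mul_le_mul_of_nonneg_left hul hM0.le
  have h3 : M * u ^ 2 ≤ 1 * u ^ 2 := mul_le_mul_of_nonneg_right hM (sq_nonneg u)
  have h4 : 0 ≤ u ^ 2 * (0.4084 - u) := mul_nonneg (sq_nonneg u) (by linarith only [hub])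
  have h5 : 0 ≤ M * (M * l ^ 2) := mul_nonneg hM0.le h1
  norm_num at h4 ⊢
  linarith [sq_nonneg u]

theorem pa_T2low {M l u : ℝ} (hM0 : 0 < M) (hM : M ≤ 16 / 25) (hub : u ≤ 0.3244) :
    0.65 * (M * l ^ 2) + 0.05 * u ^ 2 ≤
      M * l ^ 2 * (0.797 + 0.1344 * M) + u ^ 2 * (0.27 - 0.41 * u) - 0.2688 * (M * u * l) := by
  have hul : 2 * (u * l) ≤ u ^ 2 + l ^ 2 := by nlinarith only [sq_nonneg (u - l)]
  have h1 : 0 ≤ M * l ^ 2 := by positivity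
  have h2 := mul_le_mul_of_nonneg_left hul hM0.le
  have h3 : M * u ^ 2 ≤ 16 / 25 * u ^ 2 := mul_le_mul_of_nonneg_right hM (sq_nonneg u)
  have h4 : 0 ≤ u ^ 2 * (0.3244 - u) := mul_nonneg (sq_nonneg u) (by linarith only [hub])
  have h5 : 0 ≤ M * (M * l ^ 2) := mul_nonneg hM0.le h1
  norm_num at h4 ⊢
  linarith [sq_nonneg u]

theorem pa_P1 {M l u : ℝ} (hM0 : 0 < M) (hM : M ≤ 1) (hl0 : 0 ≤ l) (hl : l ≤ 2 / 5)
    (hu0 : 0 ≤ u) (hub : u ≤ 0.4084) (hu2 : u ^ 2 ≤ 16679 / 100000 * M) :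
    0 ≤ M * (0.1217 * u + 0.0417 * l + l ^ 2 * (0.8832 - 0.1344 * M) +
        0.2688 * (u * l)) + 0.1295 * u ^ 2 ∧
    M * (0.1217 * u + 0.0417 * l + l ^ 2 * (0.8832 - 0.1344 * M) +
        0.2688 * (u * l)) + 0.1295 * u ^ 2 ≤ 0.4 * M := by
  constructor
  · have : 0 ≤ 0.8832 - 0.1344 * M := by norm_num; linarith only [hM]
    positivity
  · have h1 : 0.1217 * u + 0.0417 * l + l ^ 2 * (0.8832 - 0.1344 * M) +
        0.2688 * (u * l) ≤ 0.3 := by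
      have a1 : l ^ 2 ≤ 4 / 25 := by nlinarith only [hl, hl0]
      have a2 : u * l ≤ 0.4084 * (2 / 5) := mul_le_mul hub hl hl0 (by norm_num)
      have a3 : l ^ 2 * (0.8832 - 0.1344 * M) ≤ 4 / 25 * 0.8832 :=
        mul_le_mul a1 (by norm_num; linarith only [hM0]) (by norm_num; linarith only [hM]) (by norm_num)
      norm_num at a2 a3 hub ⊢
      linarith only [hl, a2, a3, hub]
    have h2 := mul_le_mul_of_nonneg_left h1 hM0.le
    norm_num at h2 ⊢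
    linarith only [hM0, hu2, h2]

theorem pa_P2 {M l u : ℝ} (hM0 : 0 < M) (hM : M ≤ 16 / 25) (hl0 : 0 ≤ l) (hl : l ≤ 1 / 2)
    (hu0 : 0 ≤ u) (hub : u ≤ 0.3244) (hu2 : u ^ 2 ≤ 16434 / 100000 * M) :
    0 ≤ M * (0.1217 * u + 0.0417 * l + l ^ 2 * (0.8456 - 0.1344 * M) +
        0.2688 * (u * l)) + 0.10475 * u ^ 2 ∧
    M * (0.1217 * u + 0.0417 * l + l ^ 2 * (0.8456 - 0.1344 * M) +
        0.2688 * (u * l)) + 0.10475 * u ^ 2 ≤ 0.4 * M := by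
  constructor
  · have : 0 ≤ 0.8456 - 0.1344 * M := by norm_num; linarith only [hM]
    positivity
  · have h1 : 0.1217 * u + 0.0417 * l + l ^ 2 * (0.8456 - 0.1344 * M) +
        0.2688 * (u * l) ≤ 0.35 := by
      have a1 : l ^ 2 ≤ 1 / 4 := by nlinarith only [hl, hl0]
      have a2 : u * l ≤ 0.3244 * (1 / 2) := mul_le_mul hub hl hl0 (by norm_num)
      have a3 : l ^ 2 * (0.8456 - 0.1344 * M) ≤ 1 / 4 * 0.8456 :=
        mul_le_mul a1 (by norm_num; linarith only [hM0]) (by norm_num; linarith only [hM]) (by norm_num)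
      norm_num at a2 a3 hub ⊢
      linarith only [hl, a2, a3, hub]
    have h2 := mul_le_mul_of_nonneg_left h1 hM0.le
    norm_num at h2 ⊢
    linarith only [hM0, hu2, h2]

/-- the part `E` -/
theorem pa_Eend {M z l T0 ρ : ℝ} (hM0 : 0 < M) (hM : M ≤ 1) (hz0 : 0 < z)
    (hz : z ≤ 1 / 25 * M) (hl0 : 0 ≤ l) (hl : l ≤ 1 / 2) (hT : 0.65 * (M * l ^ 2) ≤ T0)
    (hρ : 0.2 + 0.5 * M ≤ ρ) : 62 / 1000 * (z * l) < ρ ∧
    (62 / 1000 * (z * l)) ^ 2 ≤ 9 / 10 * (T0 * (ρ - 62 / 1000 * (z * l))) := by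
  have hzl : z * l ≤ 1 / 25 * (1 / 2) := mul_le_mul (by linarith only [hM, hz]) hl hl0 (by norm_num)
  have h2 : 0.19 ≤ ρ - 62 / 1000 * (z * l) := by norm_num at hρ ⊢; linarith only [hz0, hz, hzl, hρ]
  refine ⟨by norm_num at h2; linarith only [hz0, hz, hρ, hzl], ?_⟩
  have h0 : 0 ≤ M * l ^ 2 := by positivity
  have hT0 : 0 ≤ T0 := le_trans (by positivity) hT
  have h4 := mul_le_mul hT h2 (by norm_num) hT0
  have h5 : z ^ 2 ≤ 1 / 625 * M := by nlinarith only [hM, hz, hz0]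
  have h5' := mul_le_mul_of_nonneg_right h5 (sq_nonneg l)
  have e1 : (62 / 1000 * (z * l)) ^ 2 = 961 / 250000 * (z ^ 2 * l ^ 2) := by ring
  rw [e1]
  norm_num at h4 ⊢
  linarith only [h0, h5', h4]

/-- algebraic end of the case `u ≥ 0`, `l ≤ 2/5` -/
theorem pa_fin1 {M z l u T e ρ : ℝ} (hM0 : 0 < M) (hM : M ≤ 1) (hz0 : 0 < z)
    (hz : z ≤ 1 / 25 * M) (hl0 : 0 ≤ l) (hl : l ≤ 2 / 5) (hu0 : 0 ≤ u)
    (hu2 : u ^ 2 ≤ 16679 / 100000 * M)
    (hT' : M * l ^ 2 * (0.859 + 0.1344 * M) + u ^ 2 * (0.483 - 0.477 * u) -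
      0.2688 * (M * u * l) ≤ T)
    (hP' : e - T ≤ M * (0.1217 * u + 0.0417 * l + l ^ 2 * (0.8832 - 0.1344 * M) +
        0.2688 * (u * l)) + 0.1295 * u ^ 2)
    (he : -(62 / 1000 * (z * l)) ≤ e) (hρ : 0.2 + 0.5 * M + 0.092 * M ^ 2 ≤ ρ) :
    JTest T e ρ u := by
  have hub : u ≤ 0.4084 := by
    apply le_of_pow_le_pow_left₀ (n := 2) (by norm_num) (by norm_num)
    refine hu2.trans ?_
    norm_num
    linarith only [hM]
  have hconv := pa_conv1 hM0 hM hl0 hl hu0 hu2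
  have hTlow := pa_T1low (l := l) hM0 hM hub
  obtain ⟨hP0, hPρ0⟩ := pa_P1 hM0 hM hl0 hl hu0 hub hu2
  have hM2 : 0 ≤ M ^ 2 := sq_nonneg _
  have hMl : 0 ≤ M * l ^ 2 := by (clear * - hM0; positivity)
  have hT0 : 0 ≤ M * l ^ 2 * (0.859 + 0.1344 * M) + u ^ 2 * (0.483 - 0.477 * u) -
      0.2688 * (M * u * l) := le_trans (by (clear * - hM0; positivity)) hTlow
  have hρ2 : 0.2 + 0.5 * M ≤ ρ := le_trans (by linarith only [hM2]) hρ
  have hT65 : 0.65 * (M * l ^ 2) ≤ M * l ^ 2 * (0.859 + 0.1344 * M) +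
      u ^ 2 * (0.483 - 0.477 * u) - 0.2688 * (M * u * l) := by
    refine le_trans ?_ hTlow
    have := sq_nonneg u
    norm_num
    linarith only [hMl, this]
  obtain ⟨hE1, hE2⟩ := pa_Eend hM0 hM hz0 hz hl0 (by linarith only [hl]) hT65 hρ2
  refine JTest.of_bounds (θ := 9 / 10) (E := 62 / 1000 * (z * l)) hT' hT0 (fun hu0' => ?_)
    (by norm_num) hP' hP0 ?_ ?_ he (by (clear * - hz0 hl0; positivity)) hE1 hE2
  · refine lt_of_lt_of_le ?_ hTlow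
    have : 0 < u ^ 2 := by positivity
    (clear * - hM0 hu0 hu0'; positivity)
  · refine lt_of_le_of_lt hPρ0 (lt_of_lt_of_le ?_ hρ2)
    norm_num
    linarith only [hz0, hz]
  · refine hconv.trans ?_
    apply mul_le_mul_of_nonneg_left _ (by norm_num)
    apply mul_le_mul_of_nonneg_left _ hT0
    linarith only [hρ]

/-- algebraic end of the case `u ≥ 0`, `2/5 ≤ l ≤ 1/2` -/
theorem pa_fin2 {M z l u T e ρ : ℝ} (hM0 : 0 < M) (hM : M ≤ 16 / 25) (hz0 : 0 < z)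
    (hz : z ≤ 1 / 25 * M) (hl0 : 2 / 5 ≤ l) (hl : l ≤ 1 / 2) (hu0 : 0 ≤ u)
    (hu2 : u ^ 2 ≤ 16434 / 100000 * M)
    (hT' : M * l ^ 2 * (0.797 + 0.1344 * M) + u ^ 2 * (0.27 - 0.41 * u) -
      0.2688 * (M * u * l) ≤ T)
    (hP' : e - T ≤ M * (0.1217 * u + 0.0417 * l + l ^ 2 * (0.8456 - 0.1344 * M) +
        0.2688 * (u * l)) + 0.10475 * u ^ 2)
    (he : -(62 / 1000 * (z * l)) ≤ e) (hρ : 0.2 + 0.5 * M + 0.092 * M ^ 2 ≤ ρ) :
    JTest T e ρ u := by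
  have hl00 : 0 ≤ l := by linarith only [hl0]
  have hub : u ≤ 0.3244 := by
    apply le_of_pow_le_pow_left₀ (n := 2) (by norm_num) (by norm_num)
    refine hu2.trans ?_
    norm_num
    linarith only [hM]
  have hconv := pa_conv2 hM0 hM hl0 hl hu0 hu2
  have hTlow := pa_T2low (l := l) hM0 hM hub
  obtain ⟨hP0, hPρ0⟩ := pa_P2 hM0 hM hl00 hl hu0 hub hu2
  have hM2 : 0 ≤ M ^ 2 := sq_nonneg _
  have hMl : 0 ≤ M * l ^ 2 := by positivity
  have hT0 : 0 ≤ M * l ^ 2 * (0.797 + 0.1344 * M) + u ^ 2 * (0.27 - 0.41 * u) -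
      0.2688 * (M * u * l) := le_trans (by positivity) hTlow
  have hρ2 : 0.2 + 0.5 * M ≤ ρ := le_trans (by linarith only [hM2]) hρ
  have hT65 : 0.65 * (M * l ^ 2) ≤ M * l ^ 2 * (0.797 + 0.1344 * M) +
      u ^ 2 * (0.27 - 0.41 * u) - 0.2688 * (M * u * l) := by
    refine le_trans ?_ hTlow
    have := sq_nonneg u
    norm_num
    linarith only [this]
  obtain ⟨hE1, hE2⟩ := pa_Eend hM0 (by linarith only [hM]) hz0 hz hl00 hl hT65 hρ2
  refine JTest.of_bounds (θ := 9 / 10) (E := 62 / 1000 * (z * l)) hT' hT0 (fun hu0' => ?_)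
    (by norm_num) hP' hP0 ?_ ?_ he (by positivity) hE1 hE2
  · refine lt_of_lt_of_le ?_ hTlow
    have : 0 < u ^ 2 := by positivity
    positivity
  · refine lt_of_le_of_lt hPρ0 (lt_of_lt_of_le ?_ hρ2)
    norm_num
    linarith only [hz0, hz]
  · refine hconv.trans ?_
    apply mul_le_mul_of_nonneg_left _ (by norm_num)
    apply mul_le_mul_of_nonneg_left _ hT0
    linarith only [hρ]

end Vale.Agent.P237.AllN
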