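import Vale.Agent.P237.AllN.FPosA7

/-!
# P237, block D, `l > 0`, `m z ≤ 1`: `u ≤ 0` (algebra)
-/

namespace Vale.Agent.P237.AllN

theorem pa_W_le {M u : ℝ} (hM : M ≤ 1) (hM0 : 0 < M) (hu0 : u ≤ 0) (hu2 : -(M / 2) ≤ u) :
    u ^ 2 / (1 + u) ≤ M ^ 2 / 2 := by
  have h1 : 1 / 2 ≤ 1 + u := by linarith only [hM, hu2]
  rw [div_le_iff₀ (by linarith only [hM, hu2])]
  have h2 : u ^ 2 ≤ M ^ 2 / 4 := by nlinarith only [hu2, hu0]
  have h3 : M ^ 2 / 2 * (1 / 2) ≤ M ^ 2 / 2 * (1 + u) :=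
    mul_le_mul_of_nonneg_left h1 (by positivity)
  linarith only [h2, h3]

theorem pa_usq_le {u : ℝ} (hu : 0 < 1 + u) (hu0 : u ≤ 0) : u ^ 2 ≤ u ^ 2 / (1 + u) := by
  rw [le_div_iff₀ hu]
  nlinarith only [hu0]

/-- the coefficient of `l²` -/
theorem pa_Aneg {M l : ℝ} (hM0 : 0 < M) (hM : M ≤ 1) (hl0 : 0 ≤ l) (hl : l ≤ 1 / 2)
    (hl1 : 16 / 25 ≤ M → l ≤ 2 / 5) :
    5 / 4 * ((0.0417 + 0.8832 * l) ^ 2 * M) ≤ 0.14346 + 0.1384 * M := by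
  rcases le_total (16 / 25) M with h | h
  · have h1 : 0.0417 + 0.8832 * l ≤ 0.39498 := by
      have := hl1 h
      norm_num
      linarith
    have h2 : (0.0417 + 0.8832 * l) ^ 2 ≤ 0.39498 ^ 2 :=
      pow_le_pow_left₀ (by positivity) h1 2
    have h3 := mul_le_mul_of_nonneg_right h2 hM0.le
    norm_num at h3 ⊢
    linarith only [hM, h3]
  · have h1 : 0.0417 + 0.8832 * l ≤ 0.4833 := by
      norm_num
      linarith only [hl]
    have h2 : (0.0417 + 0.8832 * l) ^ 2 ≤ 0.4833 ^ 2 :=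
      pow_le_pow_left₀ (by positivity) h1 2
    have h3 := mul_le_mul_of_nonneg_right h2 hM0.le
    norm_num at h3 ⊢
    linarith only [h, h3]

/-- the part `P` for `u ≤ 0` -/
theorem pa_Pneg {M l W ρ : ℝ} (hM0 : 0 < M) (hM : M ≤ 1) (hl0 : 0 ≤ l)
    (hl : l ≤ 1 / 2) (hl1 : 16 / 25 ≤ M → l ≤ 2 / 5)
    (hW0 : 0 ≤ W) (hW : W ≤ M ^ 2 / 2) (hρ : 0.2 + 0.5 * M ≤ ρ) :
    M * ((0.0417 + 0.8832 * l) * l) + 0.13 * W < ρ ∧
    (M * ((0.0417 + 0.8832 * l) * l) + 0.13 * W) ^ 2 ≤ 9 / 10 * ((0.797 * (M * l ^ 2) + 0.33 * W) *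
      (ρ - (M * ((0.0417 + 0.8832 * l) * l) + 0.13 * W))) := by
  have hA := pa_Aneg hM0 hM hl0 hl hl1
  have hM2 : M ^ 2 ≤ M := by nlinarith only [hM0, hM]
  have hAl : (0.0417 + 0.8832 * l) * l ≤ 0.2417 := by
    have h1 : 0.0417 + 0.8832 * l ≤ 0.4833 := by norm_num; linarith only [hl]
    have h2 := mul_le_mul h1 hl hl0 (by norm_num)
    norm_num at h2 ⊢
    linarith only [h2]
  generalize 0.0417 + 0.8832 * l = A at hA hAl ⊢
  have hMl : 0 ≤ M * l ^ 2 := by (clear * - hM0; positivity)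
  have hP1 : M * (A * l) + 0.13 * W ≤ 0.307 * M := by
    have h1 := mul_le_mul_of_nonneg_left hAl hM0.le
    have h2 : W ≤ M / 2 := by linarith only [hW, hM2]
    norm_num at h1 ⊢
    linarith only [hM0, hW, hM2, h1]
  have hρP : 0.2 + 0.193 * M ≤ ρ - (M * (A * l) + 0.13 * W) := by
    norm_num at hP1 hρ ⊢
    linarith only [hP1, hρ]
  constructor
  · norm_num at hρP ⊢
    linarith only [hM0, hρ, hP1]
  have hT0 : 0 ≤ 0.797 * (M * l ^ 2) + 0.33 * W := by (clear * - hM0 hW0; positivity)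
  have h1 := mul_le_mul_of_nonneg_left hρP hT0
  have h2 : (M * (A * l) + 0.13 * W) ^ 2 ≤ 5 / 4 * (M * (A * l)) ^ 2 + 5 * (0.13 * W) ^ 2 := by
    have := sq_nonneg (M * (A * l) - 4 * (0.13 * W))
    linarith
  have h3 : 5 / 4 * (M * (A * l)) ^ 2 ≤ M * l ^ 2 * (0.14346 + 0.1384 * M) := by
    have e : 5 / 4 * (M * (A * l)) ^ 2 = M * l ^ 2 * (5 / 4 * (A ^ 2 * M)) := by ring
    rw [e]
    exact mul_le_mul_of_nonneg_left hA hMl
  have h4 : 5 * (0.13 * W) ^ 2 ≤ 0.0423 * W := by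
    have h5 : W * W ≤ W * (M ^ 2 / 2) := mul_le_mul_of_nonneg_left hW hW0
    have h6 : W * (M ^ 2 / 2) ≤ W * (1 / 2) :=
      mul_le_mul_of_nonneg_left (by linarith only [hM, hM2]) hW0
    norm_num
    nlinarith only [h5, h6]
  have hWM : 0 ≤ W * M := by positivity
  have e5 : 9 / 10 * ((0.797 * (M * l ^ 2) + 0.33 * W) * (0.2 + 0.193 * M)) =
      M * l ^ 2 * (0.14346 + 0.1384 * M) + 0.0594 * W + 0.057321 * (W * M) +
      0.0000389 * (M * (M * l ^ 2)) := by ring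
  have h8 : 0 ≤ M * (M * l ^ 2) := by (clear * - hM0; positivity)
  have h9 : 5 / 4 * (M * (A * l)) ^ 2 + 5 * (0.13 * W) ^ 2 ≤
      9 / 10 * ((0.797 * (M * l ^ 2) + 0.33 * W) * (0.2 + 0.193 * M)) := by
    rw [e5]
    norm_num at h3 h4 ⊢
    linarith only [hW0, hWM, h8, h3, h4]
  linarith only [hW0, h1, h2, h3, h4, hWM, h8]

/-- the part `E` for `u ≤ 0` -/
theorem pa_Eneg {M z l W ρ v : ℝ} (hM0 : 0 < M) (hM : M ≤ 1) (hz0 : 0 < z)
    (hz : z ≤ 1 / 25 * M) (hl0 : 0 ≤ l) (hl : l ≤ 1 / 2) (hv0 : 0 ≤ v) (hv : v ≤ M / 2)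
    (hvW : v ^ 2 ≤ W) (hρ : 0.2 + 0.5 * M ≤ ρ) :
    62 / 1000 * (z * l) + 3.042 * (z * v) < ρ ∧
    (62 / 1000 * (z * l) + 3.042 * (z * v)) ^ 2 ≤
      9 / 10 * ((0.797 * (M * l ^ 2) + 0.33 * W) *
      (ρ - (62 / 1000 * (z * l) + 3.042 * (z * v)))) := by
  have hz1 : z ≤ 1 / 25 := by linarith only [hM, hz]
  have h1 : z * l ≤ 1 / 25 * M * (1 / 2) := mul_le_mul hz hl hl0 (by positivity)
  have h2 : z * v ≤ 1 / 25 * (M / 2) := mul_le_mul hz1 hv hv0 (by norm_num)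
  have hE : 62 / 1000 * (z * l) + 3.042 * (z * v) ≤ 0.07 * M := by
    norm_num
    linarith only [hz0, hz, h1, h2]
  have hρE : 0.2 ≤ ρ - (62 / 1000 * (z * l) + 3.042 * (z * v)) := by
    norm_num at hE hρ ⊢
    linarith only [hz0, hz, h1, h2, hρ]
  have hW0 : 0 ≤ W := (sq_nonneg v).trans hvW
  constructor
  · norm_num at hρE ⊢
    linarith only [hz0, hz, hρ, h1, h2]
  have hT0 : 0 ≤ 0.797 * (M * l ^ 2) + 0.33 * W := by (clear * - hM0 hW0; positivity)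
  have h3 := mul_le_mul_of_nonneg_left hρE hT0
  have h4 : (62 / 1000 * (z * l) + 3.042 * (z * v)) ^ 2 ≤
      2 * (62 / 1000 * (z * l)) ^ 2 + 2 * (3.042 * (z * v)) ^ 2 := by
    have := sq_nonneg (62 / 1000 * (z * l) - 3.042 * (z * v))
    linarith
  have hz2 : z ^ 2 ≤ 1 / 625 * M := by nlinarith only [hM, hz, hz0]
  have hz2' : z ^ 2 ≤ 1 / 625 := by nlinarith only [hM, hz2]
  have h5 : (z * l) ^ 2 ≤ 1 / 625 * (M * l ^ 2) := by
    have := mul_le_mul_of_nonneg_right hz2 (sq_nonneg l)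
    nlinarith only [this]
  have h6 : (z * v) ^ 2 ≤ 1 / 625 * W := by
    have := mul_le_mul hz2' hvW (sq_nonneg v) (by norm_num)
    nlinarith only [this]
  have hMl : 0 ≤ M * l ^ 2 := by (clear * - hM0; positivity)
  have e1 : (62 / 1000 * (z * l)) ^ 2 = 961 / 250000 * (z * l) ^ 2 := by ring
  have e2 : (3.042 * (z * v)) ^ 2 = 9.253764 * (z * v) ^ 2 := by ring
  rw [e1, e2] at h4
  norm_num at h3 h4 ⊢
  linarith only [hT0, h5, h6, hMl, h3, h4]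

/-- algebraic end of the case `u ≤ 0` -/
theorem pa_fin3 {M z l u T e ρ : ℝ} (hM0 : 0 < M) (hM : M ≤ 1) (hz0 : 0 < z)
    (hz : z ≤ 1 / 25 * M) (hl0 : 0 ≤ l) (hl : l ≤ 1 / 2) (hl1 : 16 / 25 ≤ M → l ≤ 2 / 5)
    (hu0 : u ≤ 0) (hu2 : -(M / 2) ≤ u)
    (hT' : 0.797 * (M * l ^ 2) + 0.33 * (u ^ 2 / (1 + u)) ≤ T)
    (hP' : e - T ≤ M * ((0.0417 + 0.8832 * l) * l) + 0.13 * (u ^ 2 / (1 + u)))
    (he : -(62 / 1000 * (z * l) + 3.042 * (z * -u)) ≤ e)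
    (hρ : 0.2 + 0.5 * M ≤ ρ) : JTest T e ρ u := by
  have hu : 0 < 1 + u := by linarith only [hM, hu2]
  have hW0 : 0 ≤ u ^ 2 / (1 + u) := by (clear * - hu; positivity)
  have hWle := pa_W_le hM hM0 hu0 hu2
  have hvW : (-u) ^ 2 ≤ u ^ 2 / (1 + u) := by
    rw [neg_sq]; exact pa_usq_le hu hu0
  obtain ⟨p1, p2⟩ := pa_Pneg hM0 hM hl0 hl hl1 hW0 hWle hρ
  obtain ⟨q1, q2⟩ := pa_Eneg hM0 hM hz0 hz hl0 hl (by linarith only [hu0] : 0 ≤ -u) (by linarith only [hu2]) hvW hρ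
  have hMl : 0 ≤ M * l ^ 2 := by (clear * - hM0; positivity)
  refine JTest.of_bounds (θ := 9 / 10) hT' (by (clear * - hM0 hu; positivity)) (fun hu' => ?_) (by norm_num) hP'
    (by (clear * - hM0 hl0 hu; positivity)) p1 p2 he ?_ q1 q2
  · have h1 : 0 < u ^ 2 := by positivity
    positivity
  · have h1 : 0 ≤ z * -u := mul_nonneg hz0.le (by linarith only [hu0])
    (clear * - hz0 hl0 h1; positivity)

end Vale.Agent.P237.AllN
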