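import Vale.Agent.P237.AllN.FPosA8

/-!
# P237, block D, `l > 0`, `m z ≤ 1`: the pointwise test
-/

namespace Vale.Agent.P237.AllN

theorem pa_algT1 {M l u W φ Q : ℝ} (hMl : 0 ≤ M * l ^ 2)
    (hWφ : 0.483 * u ^ 2 - 0.477 * u ^ 3 ≤ 1.70 * W - 2.212 * φ)
    (hQ : Q ≤ 0.2688 * (M * u * l)) :
    M * l ^ 2 * (0.859 + 0.1344 * M) + u ^ 2 * (0.483 - 0.477 * u) - 0.2688 * (M * u * l) ≤
    M * l ^ 2 * (28 / 25 * (1.556 - 9 / 25) - 11.9742 / 25 + 84 / 625 * M) +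
      1.70 * W - 2.212 * φ - Q := by
  norm_num at hWφ hQ ⊢
  linarith only [hMl, hWφ, hQ]

theorem pa_algT2 {M l u W φ Q : ℝ} (hMl : 0 ≤ M * l ^ 2)
    (hWφ : 0.27 * u ^ 2 - 0.41 * u ^ 3 ≤ 1.4335 * W - 2.1956 * φ)
    (hQ : Q ≤ 0.2688 * (M * u * l)) :
    M * l ^ 2 * (0.797 + 0.1344 * M) + u ^ 2 * (0.27 - 0.41 * u) - 0.2688 * (M * u * l) ≤
    M * l ^ 2 * (28 / 25 * (1.46666 - 9 / 25) - 11.06 / 25 + 84 / 625 * M) +
      1.4335 * W - 2.1956 * φ - Q := by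
  norm_num at hWφ hQ ⊢
  linarith

theorem pa_algP1 {M z l u W φ Q q : ℝ} (hMl : 0 ≤ M * l ^ 2) (hMl' : 0 ≤ M * l)
    (hW : W ≤ u ^ 2) (hφ : φ ≤ u ^ 2 / 2)
    (hQ : Q ≤ 0.2688 * (M * u * l)) (hzl : z * l ≤ 1 / 25 * (M * l))
    (hq : q ≤ 0.1217 * (M * u)) :
    M * l ^ 2 * (11.9742 / 25 + 252 / 625 - 84 / 625 * M) + 1042 / 1000 * z * l +
      0.024 * W + 0.211 * φ + Q + q ≤
    M * (0.1217 * u + 0.0417 * l + l ^ 2 * (0.8832 - 0.1344 * M) +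
        0.2688 * (u * l)) + 0.1295 * u ^ 2 := by
  norm_num at hQ hq hzl ⊢
  linarith

theorem pa_algP2 {M z l u W φ Q q : ℝ} (hMl : 0 ≤ M * l ^ 2) (hMl' : 0 ≤ M * l)
    (hφ : φ ≤ u ^ 2 / 2)
    (hQ : Q ≤ 0.2688 * (M * u * l)) (hzl : z * l ≤ 1 / 25 * (M * l))
    (hq : q ≤ 0.1217 * (M * u)) :
    M * l ^ 2 * (11.06 / 25 + 252 / 625 - 84 / 625 * M) + 1042 / 1000 * z * l +
      0 * W + 0.2095 * φ + Q + q ≤
    M * (0.1217 * u + 0.0417 * l + l ^ 2 * (0.8456 - 0.1344 * M) +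
        0.2688 * (u * l)) + 0.10475 * u ^ 2 := by
  norm_num at hQ hq hzl ⊢
  linarith

/-- `u ≥ 0`, `l ≤ 2/5` -/
theorem pa_pos1 {m z s l u c G N : ℝ} (hm : 25 ≤ m) (hz0 : 0 < z) (hs0 : 0 < s)
    (hs : s ^ 2 = 1 - z) (hM : m * z ≤ 1) (hl0 : 0 ≤ l) (hl : l ≤ 2 / 5)
    (hc0 : 1 - 1 / (2 * m) ≤ c) (hc : c ≤ 1) (hu0 : 0 ≤ u)
    (hu1 : u ^ 2 ≤ 4 / 25 * (m * (z / s ^ 2))) (hN : Real.log (1 + u) - u ≤ N)
    (hG : -(4 / 5 * (z * l ^ 2)) ≤ G) :
    JTest (dpT m z s l u G N) (dpE m z s l u c N) (dpR m (z / s ^ 2)) u := by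
  have hz : z ≤ 1 / 25 := by nlinarith only [hM, hm]
  have hu : 0 < 1 + u := by linarith only [hu0]
  have hM0 : 0 < m * z := by positivity
  have hφ0 : 0 ≤ u ^ 2 / (2 + u) := by (clear * - hu0; positivity)
  have hNφ : -(u ^ 2 / (2 + u)) ≤ N := by
    have hφ := pa_phi_pos hu0
    linarith only [hN, hφ]
  have hσ : 1 / s ≤ 1.02084 := by
    have := pa_inv_le hs0 hs hz0.le hz
    norm_num at this ⊢
    linarith only [hz, this]
  have hu2 : u ^ 2 ≤ 16679 / 100000 * (m * z) := by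
    have hy1 : z / s ^ 2 ≤ 25 / 24 * z := by
      rw [div_le_iff₀ (by positivity), hs]
      nlinarith only [hm, hz0, hM]
    have := mul_le_mul_of_nonneg_left hy1 (by linarith only [hm] : 0 ≤ m)
    linarith only [hu1, hM0, this]
  have hg : 1.556 * l ^ 2 ≤ Real.exp (-(2 * l)) - 1 + 2 * l := by
    apply pa_psi hl0
    norm_num
    nlinarith only [hl]
  have ht3 := pa_cube1 hs0 hs hz0.le hz
  have hS := pa_S1 (s := s) (by linarith only [hm] : 0 ≤ m) hz0.le hz hM hl0 hl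
  have hC := pa_C1 hs0 hs hz0.le hz hl0 hl
  have hsa : 1.725 ≤ 4 * s ^ 2 * Real.exp (-(2 * l)) := by
    have ha := pa_a1 hl
    have h1 : 0.96 ≤ s ^ 2 := by rw [hs]; norm_num; linarith only [hz]
    have h2 := mul_le_mul h1 ha (by norm_num) (sq_nonneg s)
    norm_num at h2 ⊢
    linarith only [h2]
  have hβ : 1.70 ≤ 4 * s ^ 2 * Real.exp (-(2 * l)) + dpC z s l := by
    norm_num at hsa ⊢
    linarith only [hz, hC, hsa]
  have hν : -0.024 ≤ dpC z s l := by norm_num; linarith only [hz, hC]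
  have hκ : 2 * (m + 1) / ((m - 1) * s) ≤ 2.212 :=
    (pa_kappa hm hs0 hσ).trans (by norm_num)
  have hκ' : 2 * (m + 1) / ((m - 1) * s) - 2 * c / s ≤ 0.211 :=
    (pa_kappa' hm hs0 hσ hc0).trans (by norm_num)
  have hT := pa_lower (K := 11.9742) hm hz0.le hs0 hs hu hl0 hg ht3 hG hS hβ hNφ hφ0 hκ
    (by norm_num) hM (by norm_num)
  have hP := pa_upper (K := 11.9742) (u := u) hm hz0.le hs0 hs hu hl0 hz hc0 hc ht3 hG hS
    hν hNφ hφ0 hκ' (by norm_num) (by norm_num) hM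
  have he := pa_e1 (u := u) hm hz0.le hs0 hs hu hl0 hz hc0 hc hg (by norm_num) hsa hNφ hφ0
  have hρ := pa_rho hm hs0 hs hz0.le
  have hq := pa_q hs0 hs hz0.le hz ((by norm_num : (0:ℝ) ≤ 49/50).trans (pa_c_ge hm hc0)) hc
  have hm3 := pa_m3 hm hz0.le hu0 hl0
  have hzM : z ≤ 1 / 25 * (m * z) := by nlinarith only [hm, hz0]
  have hzl : z * l ≤ 1 / 25 * (m * z * l) := by
    have := mul_le_mul_of_nonneg_right hzM hl0
    linarith only [this]
  have hqu : (2 * c / s - 2 * s ^ 2 + 2 * (1 - c)) * u ≤ 0.1217 * (m * z * u) := by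
    have h1 := mul_le_mul_of_nonneg_right hq.2 hu0
    have h2 := mul_le_mul_of_nonneg_right hzM hu0
    have h3 : 0 ≤ m * z * u := by (clear * - hm hz0 hu0; positivity)
    norm_num at h1 ⊢
    linarith only [h2, h3, h1]
  have hMl : 0 ≤ m * z * l ^ 2 := by (clear * - hm hz0; positivity)
  have hMl' : 0 ≤ m * z * l := by (clear * - hm hz0 hl0; positivity)
  refine pa_fin1 hM0 hM hz0 hzM hl0 hl hu0 hu2
    ((pa_algT1 hMl (pa_wphi1 hu0) hm3).trans hT)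
    (hP.trans (pa_algP1 hMl hMl' (pa_Wle hu0) (pa_phile hu0) hm3 hzl hqu)) ?_ hρ
  have h2 : 0 ≤ (2 * c / s - 2 * s ^ 2 + 2 * (1 - c)) * u := mul_nonneg hq.1 hu0
  have h3 : 0 ≤ 1.725 * (u ^ 2 / (1 + u)) - 2 / s * (u ^ 2 / (2 + u)) := by
    apply pa_e_pos hu0 hσ
    rw [le_div_iff₀ hu]
    have hub : u ≤ 0.4084 := by
      apply le_of_pow_le_pow_left₀ (n := 2) (by norm_num) (by norm_num)
      refine hu2.trans ?_
      norm_num
      linarith only [hM]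
    norm_num at hub ⊢
    linarith only [hub]
  refine le_trans ?_ he
  linarith only [h2, h3]

/-- `u ≥ 0`, `2/5 ≤ l ≤ 1/2` -/
theorem pa_pos2 {m z s l u c G N : ℝ} (hm : 25 ≤ m) (hz0 : 0 < z) (hs0 : 0 < s)
    (hs : s ^ 2 = 1 - z) (hM : m * z ≤ 16 / 25) (hl0 : 2 / 5 ≤ l) (hl : l ≤ 1 / 2)
    (hc0 : 1 - 1 / (2 * m) ≤ c) (hc : c ≤ 1) (hu0 : 0 ≤ u)
    (hu1 : u ^ 2 ≤ 4 / 25 * (m * (z / s ^ 2))) (hN : Real.log (1 + u) - u ≤ N)
    (hG : -(4 / 5 * (z * l ^ 2)) ≤ G) :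
    JTest (dpT m z s l u G N) (dpE m z s l u c N) (dpR m (z / s ^ 2)) u := by
  have hl00 : 0 ≤ l := by linarith only [hl0]
  have hz' : z ≤ 16 / 625 := by nlinarith only [hM, hm]
  have hz : z ≤ 1 / 25 := by linarith only [hz']
  have hu : 0 < 1 + u := by linarith only [hu0]
  have hM0 : 0 < m * z := by positivity
  have hM1 : m * z ≤ 1 := by linarith only [hM]
  have hφ0 : 0 ≤ u ^ 2 / (2 + u) := by (clear * - hu0; positivity)
  have hNφ : -(u ^ 2 / (2 + u)) ≤ N := by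
    have hφ := pa_phi_pos hu0
    linarith only [hN, hφ]
  have hσ : 1 / s ≤ 1.013338 := by
    have := pa_inv_le hs0 hs hz0.le hz
    norm_num at this ⊢
    linarith only [hz', this]
  have hu2 : u ^ 2 ≤ 16434 / 100000 * (m * z) := by
    have hy1 : z / s ^ 2 ≤ 1.0263 * z := by
      rw [div_le_iff₀ (by positivity), hs]
      norm_num
      nlinarith only [hm, hz0, hM]
    have := mul_le_mul_of_nonneg_left hy1 (by linarith only [hm] : 0 ≤ m)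
    norm_num at this
    linarith only [hu1, hM0, this]
  have hg : 1.46666 * l ^ 2 ≤ Real.exp (-(2 * l)) - 1 + 2 * l := by
    apply pa_psi hl00
    norm_num
    nlinarith only [hl]
  have ht3 := pa_cube2 hs0 hs hz0.le hz'
  have hS := pa_S2 (s := s) (by linarith only [hm] : 0 ≤ m) hz0.le hz' hM hl00 hl
  have hC := pa_C2 hs0 hs hz0.le hz' hl0 hl
  have hsa : 1.4335 ≤ 4 * s ^ 2 * Real.exp (-(2 * l)) := by
    have ha := pa_a2 hl
    have h1 : 0.9744 ≤ s ^ 2 := by rw [hs]; norm_num; linarith only [hz']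
    have h2 := mul_le_mul h1 ha (by norm_num) (sq_nonneg s)
    norm_num at h2 ⊢
    linarith only [h2]
  have hβ : 1.4335 ≤ 4 * s ^ 2 * Real.exp (-(2 * l)) + dpC z s l := by
    norm_num at hsa ⊢
    linarith only [hC, hsa]
  have hν : -0 ≤ dpC z s l := by norm_num; linarith only [hC]
  have hκ : 2 * (m + 1) / ((m - 1) * s) ≤ 2.1956 :=
    (pa_kappa hm hs0 hσ).trans (by norm_num)
  have hκ' : 2 * (m + 1) / ((m - 1) * s) - 2 * c / s ≤ 0.2095 :=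
    (pa_kappa' hm hs0 hσ hc0).trans (by norm_num)
  have hT := pa_lower (K := 11.06) hm hz0.le hs0 hs hu hl00 hg ht3 hG hS hβ hNφ hφ0 hκ
    (by norm_num) hM1 (by norm_num)
  have hP := pa_upper (K := 11.06) (u := u) hm hz0.le hs0 hs hu hl00 hz hc0 hc ht3 hG hS
    hν hNφ hφ0 hκ' (by norm_num) (by norm_num) hM1
  have he := pa_e1 (u := u) hm hz0.le hs0 hs hu hl00 hz hc0 hc hg (by norm_num) hsa hNφ hφ0
  have hρ := pa_rho hm hs0 hs hz0.le
  have hq := pa_q hs0 hs hz0.le hz ((by norm_num : (0:ℝ) ≤ 49/50).trans (pa_c_ge hm hc0)) hc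
  have hm3 := pa_m3 hm hz0.le hu0 hl00
  have hzM : z ≤ 1 / 25 * (m * z) := by nlinarith only [hm, hz0]
  have hzl : z * l ≤ 1 / 25 * (m * z * l) := by
    have := mul_le_mul_of_nonneg_right hzM hl00
    linarith only [this]
  have hqu : (2 * c / s - 2 * s ^ 2 + 2 * (1 - c)) * u ≤ 0.1217 * (m * z * u) := by
    have h1 := mul_le_mul_of_nonneg_right hq.2 hu0
    have h2 := mul_le_mul_of_nonneg_right hzM hu0
    have h3 : 0 ≤ m * z * u := by (clear * - hm hz0 hu0; positivity)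
    norm_num at h1 ⊢
    linarith only [h2, h3, h1]
  have hMl : 0 ≤ m * z * l ^ 2 := by positivity
  have hMl' : 0 ≤ m * z * l := by positivity
  refine pa_fin2 hM0 hM hz0 hzM hl0 hl hu0 hu2
    ((pa_algT2 hMl (pa_wphi2 hu0) hm3).trans hT)
    (hP.trans (pa_algP2 hMl hMl' (pa_phile hu0) hm3 hzl hqu)) ?_ hρ
  have h2 : 0 ≤ (2 * c / s - 2 * s ^ 2 + 2 * (1 - c)) * u := mul_nonneg hq.1 hu0
  have h3 : 0 ≤ 1.4335 * (u ^ 2 / (1 + u)) - 2 / s * (u ^ 2 / (2 + u)) := by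
    apply pa_e_pos hu0 hσ
    rw [le_div_iff₀ hu]
    have hub : u ≤ 0.4084 := by
      apply le_of_pow_le_pow_left₀ (n := 2) (by norm_num) (by norm_num)
      refine hu2.trans ?_
      norm_num
      linarith only [hM]
    norm_num at hub ⊢
    linarith only [hub]
  refine le_trans ?_ he
  linarith only [h2, h3]

end Vale.Agent.P237.AllN
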