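import Vale.Agent.P237.AllN.FTest

/-!
# P237, block D, `l > 0`, `1 ≤ m z ≤ 9`, `u ≥ 0`: reduction of the pointwise test

`w = m z`.  Lower bound `T ≥ λ₁ l² + λ₂ u²` from a 2x2 form, `e₁ - T ≤ B l + A u`, Cauchy.
-/

namespace Vale.Agent.P237.AllN

/-- `(1+u)(1-z)²` times the `l²`-coefficient minus `λ₁` -/
noncomputable def fpuNA (e C F lam z w u : ℝ) : ℝ :=
  ((e * (w + 3 * z) - lam) * (1 - z) ^ 2 - z * F -
    3 / 25 * (w + 3 * z) * (3 * (1 - z) ^ 2 - w * (1 - z))) * (1 + u) +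
  (1 - z) ^ 3 * (4 * e + 9 / 2 * C * z) * u ^ 2

/-- `(1+u)(2+31u/25)(1-z)(w-z)` times the `u²`-coefficient minus `λ₂` -/
noncomputable def fpuNG (lam z w u : ℝ) : ℝ :=
  (1 - z) ^ 2 * (4 + 9 / 2 * z) * (2 + 31 / 25 * u) * (w - z) -
  (2 - z - z ^ 2 / 4) * (w + z) * (1 + u) -
  lam * (1 + u) * (2 + 31 / 25 * u) * (1 - z) * (w - z)

/-- `(1+u)` times half of the mixed coefficient -/
noncomputable def fpuNB (z w u : ℝ) : ℝ :=
  3 / 25 * (w + 3 * z) * (1 + u) + (4 + 9 * z) * (1 - z) * u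

/-- `A w (1-z) / z` -/
noncomputable def fpuA (z w u : ℝ) : ℝ :=
  (3 - 9 / 4 * z) * w + 517 / 100 * (1 - z / 2) * (877 / 10000 + 2283 / 10000 * u)

/-- `w (1-z) B` without the `l²`-part -/
noncomputable def fpuBb (z w u : ℝ) : ℝ := 2 * z ^ 2 + 6 / 25 * (w + 3 * z) * w * (1 - z) * u

/-- `(1-z)²` times the `l²`-coefficient of `e₁ - T` -/
noncomputable def fpuP (F z w : ℝ) : ℝ :=
  z * F + 3 / 25 * (w + 3 * z) * (3 * (1 - z) ^ 2 - w * (1 - z))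

/-- `w (1-z)² B` -/
noncomputable def fpuBa (L F z w u : ℝ) : ℝ := w * (L * fpuP F z w) + fpuBb z w u * (1 - z)

/-- `(1-z)² ρ` -/
noncomputable def fpuRh (z w : ℝ) : ℝ :=
  1 / 5 * (1 - z) ^ 2 + 1 / 2 * w * (1 - z) + 1 / 10 * (w ^ 2 - 2 * w * z)

/-- `w (1-z)² (ρ - L B - A u)`, first case -/
noncomputable def fpuRa (L F z w u : ℝ) : ℝ :=
  w * fpuRh z w - L * fpuBa L F z w u - z * fpuA z w u * u * (1 - z)

/-- `w (1-z)² (ρ - L B - A u)`, second case -/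
noncomputable def fpuRb (L z w u : ℝ) : ℝ :=
  w * fpuRh z w - L * fpuBb z w u * (1 - z) - z * fpuA z w u * u * (1 - z)

theorem fpu_quad {A B C x y : ℝ} (hA : 0 ≤ A) (hC : 0 ≤ C) (h : B ^ 2 ≤ A * C) :
    0 ≤ A * x ^ 2 - 2 * B * x * y + C * y ^ 2 := by
  rcases hA.eq_or_lt with h0 | h0
  · rw [← h0, zero_mul] at h
    have hB : B = 0 := by
      have := sq_nonneg B
      exact pow_eq_zero_iff (two_ne_zero) |>.1 (le_antisymm h this)
    rw [← h0, hB]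
    have := mul_nonneg hC (sq_nonneg y)
    linarith only [this]
  · have h1 : A * (A * x ^ 2 - 2 * B * x * y + C * y ^ 2) =
        (A * x - B * y) ^ 2 + (A * C - B ^ 2) * y ^ 2 := by ring
    have h2 : 0 ≤ A * (A * x ^ 2 - 2 * B * x * y + C * y ^ 2) := by
      rw [h1]
      have := mul_nonneg (sub_nonneg.2 h) (sq_nonneg y)
      (clear * - h; positivity)
    exact nonneg_of_mul_nonneg_right h2 h0

theorem fpu_s_le {z s : ℝ} (hs : s ^ 2 = 1 - z) (hz0 : 0 ≤ z) (hz : z ≤ 1 / 3) :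
    s ≤ 1 - z / 2 - z ^ 2 / 8 := by
  have hz2 : z ^ 2 ≤ 1 / 9 := by nlinarith only [hz, hz0]
  have h0 : 0 ≤ 1 - z / 2 - z ^ 2 / 8 := by linarith
  apply le_of_pow_le_pow_left₀ (n := 2) (by norm_num) h0
  rw [hs]
  have : 0 ≤ z ^ 3 / 8 + z ^ 4 / 64 := by (clear * - hz0; positivity)
  nlinarith only [this]

theorem fpu_kappa {m z s w : ℝ} (hm : 27 ≤ m) (hz0 : 0 < z) (hs0 : 0 < s) (hs : s ^ 2 = 1 - z)
    (hz : z ≤ 1 / 3) (hw : w = m * z) :
    2 * (m + 1) / ((m - 1) * s) ≤ (2 - z - z ^ 2 / 4) * (w + z) / ((1 - z) * (w - z)) := by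
  have h1 := fpu_s_le hs hz0.le hz
  have hm1 : 0 < m - 1 := by linarith only [hm]
  have hz1 : 0 < 1 - z := by linarith only [hz]
  have hwz : w - z = (m - 1) * z := by rw [hw]; ring
  have hwz' : w + z = (m + 1) * z := by rw [hw]; ring
  have e1 : 2 * (m + 1) / ((m - 1) * s) = 2 * s * (w + z) / ((1 - z) * (w - z)) := by
    rw [hwz, hwz', ← hs]
    field_simp
  rw [e1]
  apply div_le_div_of_nonneg_right _ (by rw [hwz]; (clear * - hz1 hm1 hz0; positivity))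
  apply mul_le_mul_of_nonneg_right _ (by rw [hwz']; positivity)
  linarith only [h1]

/-- lower bound of `T` -/
theorem fpu_T {m z s l u G N e C g q lam1 lam2 w : ℝ} (hm : 27 ≤ m) (hz0 : 0 < z) (hs0 : 0 < s)
    (hs : s ^ 2 = 1 - z) (hz : z ≤ 1 / 3) (hw : w = m * z) (hu : 0 ≤ u)
    (hE : 1 - 2 * l + e * l ^ 2 ≤ Real.exp (-(2 * l)))
    (hK : -(z * g / (1 - z) ^ 2 * l ^ 2) +
      9 / 2 * z * (1 - z) * (1 - 4 * l + C * l ^ 2) * (u ^ 2 / (1 + u)) ≤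
      (3 * (m - 3) * (z ^ 2 / s ^ 5) - 9 * (z / s ^ 3)) * l ^ 2 +
      (4 / s - 4 * s / (1 + s) - 2 * s ^ 2 - 6 * (z / s ^ 3) * l) * (u ^ 2 / (1 + u)) +
      dpS m z s l (u ^ 2 / (1 + u)))
    (hG : -(z * q / (1 - z) ^ 2 * l ^ 2) ≤ G)
    (hN : -(u ^ 2 / (2 + 31 / 25 * u)) ≤ N)
    (h1 : 0 ≤ fpuNA e C (g + q) lam1 z w u) (h2 : 0 ≤ fpuNG lam2 z w u)
    (h3 : fpuNB z w u ^ 2 * ((2 + 31 / 25 * u) * (1 - z) ^ 3 * (w - z)) ≤
      fpuNA e C (g + q) lam1 z w u * fpuNG lam2 z w u) :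
    lam1 * l ^ 2 + lam2 * u ^ 2 ≤ dpT m z s l u G N := by
  have hm1 : 0 < m - 1 := by linarith only [hm]
  have hz1 : 0 < 1 - z := by linarith only [hz]
  have hwz : 0 < w - z := by
    have : w - z = (m - 1) * z := by rw [hw]; ring
    rw [this]; (clear * - hm1 hz0; positivity)
  have hu1 : 0 < 1 + u := by linarith only [hu]
  have hk : 0 < 2 + 31 / 25 * u := by linarith only [hu]
  have hW : 0 ≤ u ^ 2 / (1 + u) := by (clear * - hu; positivity)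
  have hQ : (m + 3) * z = w + 3 * z := by rw [hw]; ring
  have hQ0 : 0 ≤ w + 3 * z := by rw [← hQ]; positivity
  have hy : m * (z / s ^ 2) = w / (1 - z) := by rw [hs, hw]; ring
  have a1 : (w + 3 * z) * (e * l ^ 2) ≤ (w + 3 * z) * (Real.exp (-(2 * l)) - 1 + 2 * l) :=
    mul_le_mul_of_nonneg_left (by linarith only [hE]) hQ0
  have a2 : 4 * (1 - z) * (1 - 2 * l + e * l ^ 2) * (u ^ 2 / (1 + u)) ≤
      4 * s ^ 2 * Real.exp (-(2 * l)) * (u ^ 2 / (1 + u)) := by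
    rw [hs]
    apply mul_le_mul_of_nonneg_right _ hW
    apply mul_le_mul_of_nonneg_left hE (by linarith only [hz])
  have a3 : -((2 - z - z ^ 2 / 4) * (w + z) / ((1 - z) * (w - z)) *
      (u ^ 2 / (2 + 31 / 25 * u))) ≤ 2 * (m + 1) / ((m - 1) * s) * N := by
    have h5 : 0 ≤ 2 * (m + 1) / ((m - 1) * s) := by (clear * - hm hm1 hs0; positivity)
    have h6 := mul_le_mul_of_nonneg_left hN h5
    have h7 := mul_le_mul_of_nonneg_right (fpu_kappa hm hz0 hs0 hs hz hw)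
      (by (clear * - hu; positivity) : 0 ≤ u ^ 2 / (2 + 31 / 25 * u))
    linarith only [h6, h7]
  have key : 0 ≤ fpuNA e C (g + q) lam1 z w u / ((1 + u) * (1 - z) ^ 2) * l ^ 2 -
      2 * (fpuNB z w u / (1 + u)) * l * u +
      fpuNG lam2 z w u / ((1 + u) * (2 + 31 / 25 * u) * (1 - z) * (w - z)) * u ^ 2 := by
    apply fpu_quad
    · (clear * - h1 hu hz1; positivity)
    · (clear * - h2 hu hz1 hwz; positivity)
    · have e1 : fpuNA e C (g + q) lam1 z w u / ((1 + u) * (1 - z) ^ 2) *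
          (fpuNG lam2 z w u / ((1 + u) * (2 + 31 / 25 * u) * (1 - z) * (w - z))) =
          fpuNA e C (g + q) lam1 z w u * fpuNG lam2 z w u /
            ((1 + u) ^ 2 * ((2 + 31 / 25 * u) * (1 - z) ^ 3 * (w - z))) := by
        (clear * - hwz hu hz1; field_simp)
      have e2 : (fpuNB z w u / (1 + u)) ^ 2 =
          fpuNB z w u ^ 2 * ((2 + 31 / 25 * u) * (1 - z) ^ 3 * (w - z)) /
            ((1 + u) ^ 2 * ((2 + 31 / 25 * u) * (1 - z) ^ 3 * (w - z))) := by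
        (clear * - hu hz1 hwz; field_simp)
      rw [e1, e2]
      exact div_le_div_of_nonneg_right h3 (by (clear * - hu hz1 hwz; positivity))
  have ident : fpuNA e C (g + q) lam1 z w u / ((1 + u) * (1 - z) ^ 2) * l ^ 2 -
      2 * (fpuNB z w u / (1 + u)) * l * u +
      fpuNG lam2 z w u / ((1 + u) * (2 + 31 / 25 * u) * (1 - z) * (w - z)) * u ^ 2 =
      (w + 3 * z) * (e * l ^ 2) - z * g / (1 - z) ^ 2 * l ^ 2 +
      9 / 2 * z * (1 - z) * (1 - 4 * l + C * l ^ 2) * (u ^ 2 / (1 + u)) +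
      4 * (1 - z) * (1 - 2 * l + e * l ^ 2) * (u ^ 2 / (1 + u)) - z * q / (1 - z) ^ 2 * l ^ 2 -
      (2 - z - z ^ 2 / 4) * (w + z) / ((1 - z) * (w - z)) * (u ^ 2 / (2 + 31 / 25 * u)) +
      3 / 25 * (w + 3 * z) * ((w / (1 - z) - 3) * l ^ 2 - 2 * u * l) -
      (lam1 * l ^ 2 + lam2 * u ^ 2) := by
    unfold fpuNA fpuNB fpuNG
    field_simp
    ring
  have hT : dpT m z s l u G N = (w + 3 * z) * (Real.exp (-(2 * l)) - 1 + 2 * l) +
      4 * s ^ 2 * Real.exp (-(2 * l)) * (u ^ 2 / (1 + u)) +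
      ((3 * (m - 3) * (z ^ 2 / s ^ 5) - 9 * (z / s ^ 3)) * l ^ 2 +
      (4 / s - 4 * s / (1 + s) - 2 * s ^ 2 - 6 * (z / s ^ 3) * l) * (u ^ 2 / (1 + u)) +
      dpS m z s l (u ^ 2 / (1 + u))) + G + 2 * (m + 1) / ((m - 1) * s) * N +
      3 / 25 * (w + 3 * z) * ((w / (1 - z) - 3) * l ^ 2 - 2 * u * l) := by
    rw [← hQ, ← hy]
    unfold dpT
    ring
  rw [hT]
  linarith only [hK, hG, a1, a2, a3, key, ident]

end Vale.Agent.P237.AllN
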