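import Vale.Agent.P237.AllN.FPuA

/-!
# P237, block D, `l > 0`, `1 ≤ m z ≤ 9`, `u ≥ 0`: coefficient bounds
-/

namespace Vale.Agent.P237.AllN

/-- coefficients of `u` and `l` in `e₁` -/
theorem fpu_q {z s c : ℝ} (hz0 : 0 < z) (hs0 : 0 < s) (hs : s ^ 2 = 1 - z) (hz : z ≤ 1 / 3)
    (hc : c ≤ 1) : 2 * c / s - 2 * s ^ 2 + 2 * (1 - c) ≤ z * (3 - 9 / 4 * z) / (1 - z) := by
  have hz1 : 0 < 1 - z := by linarith only [hz]
  have h1 := fpu_s_le hs hz0.le hz
  have hs1 : s ≤ 1 := by nlinarith only [hz0, h1]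
  have h2 : 1 / s = s / (1 - z) := by rw [← hs]; field_simp
  have h3 : 1 ≤ 1 / s := by rw [le_div_iff₀ hs0]; linarith only [hs1]
  have h4 : 2 * c / s - 2 * s ^ 2 + 2 * (1 - c) = 2 * (c * (1 / s - 1)) + 2 * z := by
    rw [hs]; ring
  have h5 : c * (1 / s - 1) ≤ 1 * (1 / s - 1) := mul_le_mul_of_nonneg_right hc (by linarith only [h3])
  have h6 : s / (1 - z) ≤ (1 - z / 2 - z ^ 2 / 8) / (1 - z) := div_le_div_of_nonneg_right h1 hz1.le
  have h7 : z * (3 - 9 / 4 * z) / (1 - z) = 2 * ((1 - z / 2 - z ^ 2 / 8) / (1 - z) - 1) + 2 * z := by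
    field_simp
    ring
  rw [h4, h7]
  have h8 : 1 / s - 1 ≤ (1 - z / 2 - z ^ 2 / 8) / (1 - z) - 1 := by
    rw [h2]
    linarith only [h6]
  linarith only [h2, h5, h6]

theorem fpu_kd {m z s c w : ℝ} (hm : 27 ≤ m) (hz0 : 0 < z) (hs0 : 0 < s) (hs : s ^ 2 = 1 - z)
    (hz : z ≤ 1 / 3) (hw : w = m * z) (hc0 : 1 - 1 / (2 * m) ≤ c) :
    2 * (m + 1) / ((m - 1) * s) - 2 * c / s ≤ 517 / 100 * z * (1 - z / 2) / (w * (1 - z)) := by
  have hz1 : 0 < 1 - z := by linarith only [hz]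
  have hm1 : 0 < m - 1 := by linarith only [hm]
  have hm0 : 0 < m := by linarith only [hm]
  have h1 := fpu_s_le hs hz0.le hz
  have h2 : (m + 1) / (m - 1) - c ≤ 517 / 200 / m := by
    have h3 : (m + 1) / (m - 1) - (1 - 1 / (2 * m)) ≤ 517 / 200 / m := by
      rw [sub_le_iff_le_add, div_le_iff₀ hm1]
      have : (517 / 200 / m + (1 - 1 / (2 * m))) * (m - 1) =
          m - 1 + 417 / 200 - 417 / 200 / m := by
        field_simp
        ring
      rw [this]
      have h4 : 417 / 200 / m ≤ 417 / 200 / 27 := by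
        apply div_le_div_of_nonneg_left <;> linarith only [hm]
      linarith only [h4]
    linarith only [hc0, h3]
  have h5 : 2 * (m + 1) / ((m - 1) * s) - 2 * c / s = 2 / s * ((m + 1) / (m - 1) - c) := by
    (clear * - hm1 hs0; field_simp)
  have h6 : 2 / s = 2 * s / (1 - z) := by rw [← hs]; field_simp
  have h7 : 2 * s / (1 - z) ≤ 2 * (1 - z / 2) / (1 - z) := by
    apply div_le_div_of_nonneg_right _ hz1.le
    nlinarith only [h1]
  have h8 : 517 / 100 * z * (1 - z / 2) / (w * (1 - z)) =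
      2 * (1 - z / 2) / (1 - z) * (517 / 200 / m) := by
    rw [hw]
    field_simp
    ring
  rw [h5, h6, h8]
  have h9 : 0 ≤ 2 * s / (1 - z) := by (clear * - hs0 hz1; positivity)
  calc _ ≤ 2 * s / (1 - z) * (517 / 200 / m) := mul_le_mul_of_nonneg_left h2 h9
    _ ≤ _ := mul_le_mul_of_nonneg_right h7 (by positivity)

theorem fpu_r_le {m z s c w : ℝ} (hm : 27 ≤ m) (hz0 : 0 < z) (hs0 : 0 < s) (hs : s ^ 2 = 1 - z)
    (hz : z ≤ 1 / 3) (hw : w = m * z) (hc : c ≤ 1)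
    (hc2 : c ^ 2 ≤ (m + 1) / (m + 2)) :
    2 * c / s - 2 + 2 * (1 - c) * (1 - m * (z / s ^ 2)) ≤ 2 * z ^ 2 / (w * (1 - z)) := by
  have hz1 : 0 < 1 - z := by linarith only [hz]
  have hm0 : 0 < m := by linarith only [hm]
  have hs1 : s ≤ 1 := by nlinarith only [hs, hz0]
  have h3 : 1 ≤ 1 / s := by rw [le_div_iff₀ hs0]; linarith only [hs1]
  have e : 2 * c / s - 2 + 2 * (1 - c) * (1 - m * (z / s ^ 2)) =
      2 * (c * (1 / s - 1)) - 2 * (1 - c) * m * (z / s ^ 2) := by ring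
  rw [e]
  have hy0 : 0 ≤ z / s ^ 2 := by positivity
  have h5 : c * (1 / s - 1) ≤ 1 * (1 / s - 1) := mul_le_mul_of_nonneg_right hc (by linarith only [h3])
  have h6 : 2 * (1 / s - 1) ≤ z / s ^ 2 := by
    have : z = (1 - s) * (1 + s) := by nlinarith only [hs]
    rw [this, ← sub_nonneg]
    have e2 : (1 - s) * (1 + s) / s ^ 2 - 2 * (1 / s - 1) = (1 - s) ^ 2 / s ^ 2 := by
      field_simp
      ring
    rw [e2]
    (clear * - hs0; positivity)
  have h7 : 1 / (m + 2) ≤ 2 * (1 - c) := by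
    have h8 : 1 - c ^ 2 ≤ 2 * (1 - c) := by nlinarith only [sq_nonneg (1 - c)]
    have h9 : (m + 1) / (m + 2) = 1 - 1 / (m + 2) := by field_simp; ring
    linarith only [hc2, h8, h9]
  have h8 : 1 - 2 / m ≤ 2 * (1 - c) * m := by
    have h9 : 1 / (m + 2) * m ≤ 2 * (1 - c) * m := mul_le_mul_of_nonneg_right h7 hm0.le
    have h10 : 1 - 2 / m ≤ 1 / (m + 2) * m := by
      rw [← sub_nonneg]
      have : 1 / (m + 2) * m - (1 - 2 / m) = 4 / (m * (m + 2)) := by
        field_simp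
        ring
      rw [this]
      positivity
    linarith only [h9, h10]
  have h9 := mul_le_mul_of_nonneg_right h8 hy0
  have h10 : 2 * z ^ 2 / (w * (1 - z)) = 2 / m * (z / s ^ 2) := by
    rw [hw, ← hs]
    field_simp
  rw [h10]
  linarith only [h5, h6, h9]

theorem fpu_r_ge {m z s c : ℝ} (hm : 27 ≤ m) (hz0 : 0 < z) (hs0 : 0 < s) (hs : s ^ 2 = 1 - z)
    (hz : z ≤ 1 / 3) (hc0 : 1 - 1 / (2 * m) ≤ c) :
    -(1 / 8 * (z / (1 - z))) ≤ 2 * c / s - 2 + 2 * (1 - c) * (1 - m * (z / s ^ 2)) := by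
  have hz1 : 0 < 1 - z := by linarith
  have hm0 : 0 < m := by linarith only [hm]
  have hs1 : s ≤ 1 := by nlinarith only [hs, hz0]
  have hs2 : 4083 / 5000 / 1.0002 ≤ s := by
    apply le_of_pow_le_pow_left₀ (n := 2) (by norm_num) hs0.le
    rw [hs]
    norm_num
    linarith only [hz]
  have h3 : 1 ≤ 1 / s := by rw [le_div_iff₀ hs0]; linarith only [hs1]
  have hmi : 1 / (2 * m) ≤ 1 / 54 := by
    apply one_div_le_one_div_of_le <;> linarith only [hm]
  have e : 2 * c / s - 2 + 2 * (1 - c) * (1 - m * (z / s ^ 2)) =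
      2 * (c * (1 / s - 1)) - 2 * (1 - c) * m * (z / s ^ 2) := by ring
  rw [e]
  have hy0 : 0 ≤ z / s ^ 2 := by positivity
  have h6 : 2 * (1 - c) * m ≤ 1 := by
    have : (1 - c) * m ≤ 1 / (2 * m) * m := mul_le_mul_of_nonneg_right (by linarith only [hc0]) hm0.le
    have e2 : 1 / (2 * m) * m = 1 / 2 := by field_simp
    linarith only [this, e2]
  have h7 := mul_le_mul_of_nonneg_right h6 hy0
  have h8 : 53 / 54 * (1 / s - 1) ≤ c * (1 / s - 1) :=
    mul_le_mul_of_nonneg_right (by linarith only [hc0, hmi]) (by linarith only [h3])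
  have h9 : 7 / 8 * (z / s ^ 2) ≤ 2 * (53 / 54 * (1 / s - 1)) := by
    have : z = (1 - s) * (1 + s) := by nlinarith only [hs]
    rw [this, ← sub_nonneg]
    have e2 : 2 * (53 / 54 * (1 / s - 1)) - 7 / 8 * ((1 - s) * (1 + s) / s ^ 2) =
        (1 - s) * (235 / 216 * s - 7 / 8) / s ^ 2 := by
      field_simp
      ring
    rw [e2]
    apply div_nonneg _ (by positivity)
    apply mul_nonneg (by linarith only [hs1])
    norm_num at hs2
    linarith only [hs2]
  rw [← hs]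
  linarith only [h7, h8, h9]

end Vale.Agent.P237.AllN
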