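import Vale.Agent.P237.AllN.FPuB

/-!
# P237, block D, `l > 0`, `1 ≤ m z ≤ 9`, `u ≥ 0`: upper bound of `e₁ - T`
-/

namespace Vale.Agent.P237.AllN

theorem fpu_b3 {u : ℝ} (hu : 0 ≤ u) :
    u ^ 2 / (2 + 31 / 25 * u) ≤ (877 / 10000 + 2283 / 10000 * u) * u := by
  have hk : 0 < 2 + 31 / 25 * u := by linarith
  rw [div_le_iff₀ hk]
  have h1 : 0 ≤ (877 / 10000 + 2283 / 10000 * u) * (2 + 31 / 25 * u) - u := by
    nlinarith only [sq_nonneg (u - 77 / 100)]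
  nlinarith only [h1, hu]

theorem fpu_kc {m s c : ℝ} (hm : 27 ≤ m) (hs0 : 0 < s) (hc : c ≤ 1) :
    0 ≤ 2 * (m + 1) / ((m - 1) * s) - 2 * c / s := by
  have hm1 : 0 < m - 1 := by linarith only [hm]
  have e : 2 * (m + 1) / ((m - 1) * s) - 2 * c / s = (2 / s) * ((m + 1) / (m - 1) - c) := by
    field_simp
  rw [e]
  apply mul_nonneg (by positivity)
  have : 1 ≤ (m + 1) / (m - 1) := by
    rw [le_div_iff₀ hm1]
    linarith only []
  linarith only [hc, this]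

theorem fpu_b4 {m z s u c N w : ℝ} (hm : 27 ≤ m) (hz0 : 0 < z) (hs0 : 0 < s)
    (hs : s ^ 2 = 1 - z) (hz : z ≤ 1 / 3) (hw : w = m * z) (hu : 0 ≤ u)
    (hc0 : 1 - 1 / (2 * m) ≤ c) (hc : c ≤ 1)
    (hN : -(u ^ 2 / (2 + 31 / 25 * u)) ≤ N) :
    (2 * c / s - 2 * (m + 1) / ((m - 1) * s)) * N ≤
      517 / 100 * z * (1 - z / 2) / (w * (1 - z)) * ((877 / 10000 + 2283 / 10000 * u) * u) := by
  have hkd := fpu_kd hm hz0 hs0 hs hz hw hc0
  have h5 := fpu_kc hm hs0 hc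
  have h6 := mul_le_mul_of_nonneg_left hN h5
  have hk : 0 < 2 + 31 / 25 * u := by linarith only [hu]
  have h8 : 0 ≤ u ^ 2 / (2 + 31 / 25 * u) := by (clear * - hu; positivity)
  have hp : 0 ≤ 517 / 100 * z * (1 - z / 2) / (w * (1 - z)) := h5.trans hkd
  have h7 := mul_le_mul hkd (fpu_b3 hu) h8 hp
  have h9 : (2 * c / s - 2 * (m + 1) / ((m - 1) * s)) * N =
    -((2 * (m + 1) / ((m - 1) * s) - 2 * c / s) * N) := by ring
  rw [h9]
  have h10 : (2 * (m + 1) / ((m - 1) * s) - 2 * c / s) * -(u ^ 2 / (2 + 31 / 25 * u)) =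
    -((2 * (m + 1) / ((m - 1) * s) - 2 * c / s) * (u ^ 2 / (2 + 31 / 25 * u))) := by ring
  rw [h10] at h6
  exact (neg_le_neg h6).trans ((neg_neg _).le.trans h7)

theorem fpu_identU {F z w u l g q : ℝ} (hF : F = g + q) (hz1 : 0 < 1 - z) (hw0 : 0 < w) :
    fpuP F z w / (1 - z) ^ 2 * l ^ 2 +
      2 * z ^ 2 / (w * (1 - z)) * l + 6 / 25 * (w + 3 * z) * u * l +
      z * fpuA z w u / (w * (1 - z)) * u =
      517 / 100 * z * (1 - z / 2) / (w * (1 - z)) * ((877 / 10000 + 2283 / 10000 * u) * u) +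
      z * (3 - 9 / 4 * z) / (1 - z) * u + 2 * z ^ 2 / (w * (1 - z)) * l +
      z * g / (1 - z) ^ 2 * l ^ 2 + z * q / (1 - z) ^ 2 * l ^ 2 -
      3 / 25 * (w + 3 * z) * ((w / (1 - z) - 3) * l ^ 2 - 2 * u * l) := by
  rw [hF]
  unfold fpuP fpuA
  field_simp
  ring

/-- upper bound of `e₁ - T` -/
theorem fpu_U {m z s l u c G N C g q w : ℝ} (hm : 27 ≤ m) (hz0 : 0 < z) (hs0 : 0 < s)
    (hs : s ^ 2 = 1 - z) (hz : z ≤ 1 / 3) (hw : w = m * z) (hl : 0 ≤ l) (hu : 0 ≤ u)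
    (hC : 4 ≤ C) (hc0 : 1 - 1 / (2 * m) ≤ c) (hc : c ≤ 1) (hc2 : c ^ 2 ≤ (m + 1) / (m + 2))
    (hK : -(z * g / (1 - z) ^ 2 * l ^ 2) +
      9 / 2 * z * (1 - z) * (1 - 4 * l + C * l ^ 2) * (u ^ 2 / (1 + u)) ≤
      (3 * (m - 3) * (z ^ 2 / s ^ 5) - 9 * (z / s ^ 3)) * l ^ 2 +
      (4 / s - 4 * s / (1 + s) - 2 * s ^ 2 - 6 * (z / s ^ 3) * l) * (u ^ 2 / (1 + u)) +
      dpS m z s l (u ^ 2 / (1 + u)))
    (hG : -(z * q / (1 - z) ^ 2 * l ^ 2) ≤ G)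
    (hN : -(u ^ 2 / (2 + 31 / 25 * u)) ≤ N) :
    dpE m z s l u c N - dpT m z s l u G N ≤ fpuP (g + q) z w / (1 - z) ^ 2 * l ^ 2 +
      2 * z ^ 2 / (w * (1 - z)) * l + 6 / 25 * (w + 3 * z) * u * l +
      z * fpuA z w u / (w * (1 - z)) * u := by
  have hm1 : 0 < m - 1 := by linarith only [hm]
  have hm0 : 0 < m := by linarith only [hm]
  have hz1 : 0 < 1 - z := by linarith only [hz]
  have hw0 : 0 < w := by rw [hw]; positivity
  have hu1 : 0 < 1 + u := by linarith only [hu]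
  have hW : 0 ≤ u ^ 2 / (1 + u) := by (clear * - hu; positivity)
  have hQ : (m + 3) * z = w + 3 * z := by rw [hw]; ring
  have hy : m * (z / s ^ 2) = w / (1 - z) := by rw [hs, hw]; ring
  have b0 : 0 ≤ 9 / 2 * z * (1 - z) * (1 - 4 * l + C * l ^ 2) * (u ^ 2 / (1 + u)) := by
    have : 0 ≤ 1 - 4 * l + C * l ^ 2 := by
      have h1 : 1 - 4 * l + C * l ^ 2 = (1 - 2 * l) ^ 2 + (C - 4) * l ^ 2 := by ring
      rw [h1]
      have := mul_nonneg (sub_nonneg.2 hC) (sq_nonneg l)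
      (clear * - hC; positivity)
    (clear * - hz0 hz1 this hu; positivity)
  have b1 := mul_le_mul_of_nonneg_right (fpu_q hz0 hs0 hs hz hc) hu
  have b2 := mul_le_mul_of_nonneg_right (fpu_r_le hm hz0 hs0 hs hz hw hc hc2) hl
  have b4 := fpu_b4 hm hz0 hs0 hs hz hw hu hc0 hc hN
  have hT : dpE m z s l u c N - dpT m z s l u G N =
      (2 * c / s - 2 * (m + 1) / ((m - 1) * s)) * N +
      (2 * c / s - 2 * s ^ 2 + 2 * (1 - c)) * u +
      (2 * c / s - 2 + 2 * (1 - c) * (1 - m * (z / s ^ 2))) * l -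
      ((3 * (m - 3) * (z ^ 2 / s ^ 5) - 9 * (z / s ^ 3)) * l ^ 2 +
      (4 / s - 4 * s / (1 + s) - 2 * s ^ 2 - 6 * (z / s ^ 3) * l) * (u ^ 2 / (1 + u)) +
      dpS m z s l (u ^ 2 / (1 + u))) - G -
      3 / 25 * (w + 3 * z) * ((w / (1 - z) - 3) * l ^ 2 - 2 * u * l) := by
    rw [← hQ, ← hy]
    unfold dpT dpE
    ring
  rw [hT, fpu_identU rfl hz1 hw0]
  generalize (2 * c / s - 2 * (m + 1) / ((m - 1) * s)) * N = X1 at *
  generalize (2 * c / s - 2 * s ^ 2 + 2 * (1 - c)) * u = X2 at *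
  generalize (2 * c / s - 2 + 2 * (1 - c) * (1 - m * (z / s ^ 2))) * l = X3 at *
  generalize dpS m z s l (u ^ 2 / (1 + u)) = X4 at *
  generalize (3 * (m - 3) * (z ^ 2 / s ^ 5) - 9 * (z / s ^ 3)) * l ^ 2 = X5 at *
  generalize (4 / s - 4 * s / (1 + s) - 2 * s ^ 2 - 6 * (z / s ^ 3) * l) * (u ^ 2 / (1 + u)) = X6
    at *
  linarith only [hG, b0, b4, b1, b2, hK]

end Vale.Agent.P237.AllN
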