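import Vale.Agent.P237.AllN.FPuC

/-!
# P237, block D, `l > 0`, `1 ≤ m z ≤ 9`, `u ≥ 0`: lower bound of `e₁`
-/

namespace Vale.Agent.P237.AllN

theorem fpu_e4a {z u : ℝ} (hz0 : 0 < z) (hz : z ≤ 1 / 3) (hu : 0 ≤ u) (hu1 : u ≤ 5 / 4) :
    0 ≤ (1 - z / 100) * ((2 + 6 / 25 * u) / (2 + 31 / 25 * u)) - (1 - z) +
        19 / 25 * (1 - z) * (u / (1 + u)) := by
  have hk : 0 < 2 + 31 / 25 * u := by linarith only [hu]
  have hu2 : 0 < 1 + u := by linarith only [hu]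
  have i4 : (1 - z / 100) * ((2 + 6 / 25 * u) / (2 + 31 / 25 * u)) - (1 - z) +
      19 / 25 * (1 - z) * (u / (1 + u)) =
      (u * (13 / 25 - 36 / 625 * u) + z * (99 / 50 + 1061 / 625 * u + 369 / 1250 * u ^ 2)) /
        ((2 + 31 / 25 * u) * (1 + u)) := by
    field_simp
    ring
  rw [i4]
  apply div_nonneg _ (by positivity)
  have : 0 ≤ 13 / 25 - 36 / 625 * u := by linarith only [hu1]
  positivity

theorem fpu_e4 {z s u c : ℝ} (hs0 : 0 < s)
    (hs : s ^ 2 = 1 - z) (hz0 : 0 < z) (hz : z ≤ 1 / 3) (hu : 0 ≤ u) (hu1 : u ≤ 5 / 4)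
    (hcs : 1 - z / 100 ≤ c / s) :
    0 ≤ 4 * s ^ 2 * (19 / 50) * (u ^ 2 / (1 + u)) -
      2 * c / s * (u ^ 2 / (2 + 31 / 25 * u)) + (2 * c / s - 2 * s ^ 2) * u := by
  have hk : 0 < 2 + 31 / 25 * u := by linarith only [hu]
  have hu2 : 0 < 1 + u := by linarith only [hu]
  rw [hs]
  have i1 : 4 * (1 - z) * (19 / 50) * (u ^ 2 / (1 + u)) -
    2 * c / s * (u ^ 2 / (2 + 31 / 25 * u)) + (2 * c / s - 2 * (1 - z)) * u =
    2 * u * (c / s * ((2 + 6 / 25 * u) / (2 + 31 / 25 * u)) - (1 - z) +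
      19 / 25 * (1 - z) * (u / (1 + u))) := by
    field_simp
    ring
  rw [i1]
  apply mul_nonneg (by positivity)
  have i2 : (1 - z / 100) * ((2 + 6 / 25 * u) / (2 + 31 / 25 * u)) ≤
      c / s * ((2 + 6 / 25 * u) / (2 + 31 / 25 * u)) :=
    mul_le_mul_of_nonneg_right hcs (by (clear * - hu; positivity))
  have i3 := fpu_e4a hz0 hz hu hu1
  linarith only [i2, i3]

theorem fpu_cs {m z s c w : ℝ} (hm : 27 ≤ m) (hz0 : 0 < z) (hs0 : 0 < s)
    (hs : s ^ 2 = 1 - z) (hz : z ≤ 1 / 3) (hw : w = m * z) (hw1 : 1 ≤ w)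
    (hc0 : 1 - 1 / (2 * m) ≤ c) : 1 - z / 100 ≤ c / s := by
  have hm0 : 0 < m := by linarith only [hm]
  rw [le_div_iff₀ hs0]
  have h1 := fpu_s_le hs hz0.le hz
  have h2 : s ≤ 1 - z / 2 := by
    have := sq_nonneg z
    linarith only [h1, this]
  have h3 : 1 / (2 * m) ≤ z / 2 := by
    rw [div_le_div_iff₀ (by positivity) (by norm_num)]
    rw [hw] at hw1
    linarith only [hw1]
  have h4 : (1 - z / 100) * s ≤ (1 - z / 100) * (1 - z / 2) :=
    mul_le_mul_of_nonneg_left h2 (by linarith only [hz])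
  have h5 : (1 - z / 100) * (1 - z / 2) ≤ 1 - z / 2 := by
    have : 0 ≤ z / 100 * (1 - z / 2) := mul_nonneg (by linarith only [hz0]) (by linarith only [hz])
    linarith only [this]
  linarith only [hc0, h3, h4, h5]

/-- lower bound of `e₁` -/
theorem fpu_L {m z s l u c N w : ℝ} (hm : 27 ≤ m) (hz0 : 0 < z) (hs0 : 0 < s)
    (hs : s ^ 2 = 1 - z) (hz : z ≤ 1 / 3) (hw : w = m * z) (hw1 : 1 ≤ w) (hl : 0 ≤ l)
    (hu : 0 ≤ u) (hu1 : u ≤ 5 / 4)
    (hc0 : 1 - 1 / (2 * m) ≤ c) (hc : c ≤ 1)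
    (ha : 19 / 50 ≤ Real.exp (-(2 * l)))
    (hN : -(u ^ 2 / (2 + 31 / 25 * u)) ≤ N) :
    -(1 / 8 * (z / (1 - z)) * l) ≤ dpE m z s l u c N := by
  have hm0 : 0 < m := by linarith only [hm]
  have hz1 : 0 < 1 - z := by linarith only [hz]
  have hu2 : 0 < 1 + u := by linarith only [hu]
  have hk : 0 < 2 + 31 / 25 * u := by linarith only [hu]
  have hW : 0 ≤ u ^ 2 / (1 + u) := by (clear * - hu; positivity)
  have hmi : 1 / (2 * m) ≤ 1 / 54 := by
    apply one_div_le_one_div_of_le <;> linarith only [hm]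
  have hc1 : 0 < c := by linarith only [hc0, hmi]
  have r1 := mul_le_mul_of_nonneg_right (fpu_r_ge hm hz0 hs0 hs hz hc0) hl
  have e1 : 0 ≤ (m + 3) * z * (Real.exp (-(2 * l)) - 1 + 2 * l) := by
    have := Real.add_one_le_exp (-(2 * l))
    apply mul_nonneg (by positivity)
    linarith only [this]
  have e2 : 4 * s ^ 2 * (19 / 50) * (u ^ 2 / (1 + u)) ≤
      4 * s ^ 2 * Real.exp (-(2 * l)) * (u ^ 2 / (1 + u)) := by
    apply mul_le_mul_of_nonneg_right _ hW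
    apply mul_le_mul_of_nonneg_left ha (by positivity)
  have e3 : -(2 * c / s * (u ^ 2 / (2 + 31 / 25 * u))) ≤ 2 * c / s * N := by
    have := mul_le_mul_of_nonneg_left hN (by positivity : 0 ≤ 2 * c / s)
    have h1 : 2 * c / s * -(u ^ 2 / (2 + 31 / 25 * u)) =
      -(2 * c / s * (u ^ 2 / (2 + 31 / 25 * u))) := by ring
    rw [h1] at this
    exact this
  have e4 := fpu_e4 hs0 hs hz0 hz hu hu1 (fpu_cs hm hz0 hs0 hs hz hw hw1 hc0)
  have e5 : 0 ≤ 2 * (1 - c) * u := by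
    have : 0 ≤ 1 - c := by linarith only [hc]
    (clear * - hc hu; positivity)
  have e6 : (2 * c / s - 2 * s ^ 2 + 2 * (1 - c)) * u =
    (2 * c / s - 2 * s ^ 2) * u + 2 * (1 - c) * u := by ring
  have e7 : -(1 / 8 * (z / (1 - z))) * l = -(1 / 8 * (z / (1 - z)) * l) := by ring
  rw [e7] at r1
  unfold dpE
  rw [e6]
  generalize 2 * c / s * (u ^ 2 / (2 + 31 / 25 * u)) = X1 at *
  generalize 2 * c / s * N = X2 at *
  generalize 4 * s ^ 2 * Real.exp (-(2 * l)) * (u ^ 2 / (1 + u)) = X3 at *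
  generalize (2 * c / s - 2 * s ^ 2) * u = X4 at *
  generalize 4 * s ^ 2 * (19 / 50) * (u ^ 2 / (1 + u)) = X5 at *
  generalize (2 * c / s - 2 + 2 * (1 - c) * (1 - m * (z / s ^ 2))) * l = X6 at *
  generalize (m + 3) * z * (Real.exp (-(2 * l)) - 1 + 2 * l) = X7 at *
  generalize 2 * (1 - c) * u = X8 at *
  linarith only [e3, e2, e4, r1, e1, e5]

end Vale.Agent.P237.AllN
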