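import Vale.Agent.P237.AllN.FPuD

/-!
# P237, block D, `l > 0`, `1 ≤ m z ≤ 9`, `u ≥ 0`: the test from polynomial inequalities
-/

namespace Vale.Agent.P237.AllN

theorem fpu_fin {T e ρ A B R L l u lam1 lam2 k : ℝ} (hl : 0 ≤ l) (hlL : l ≤ L) (hl2 : l ≤ 1 / 2)
    (hu : 0 ≤ u) (h1 : 1 / 2 ≤ lam1) (h2 : 0 < lam2) (hT : lam1 * l ^ 2 + lam2 * u ^ 2 ≤ T)
    (hP : e - T ≤ B * l + A * u) (hB : 0 ≤ B) (hA : 0 < A) (hR : B * L + A * u + R ≤ ρ)
    (hC : lam2 * B ^ 2 + lam1 * A ^ 2 ≤ 999 / 1000 * (lam1 * lam2 * R)) (hρ : 1 / 5 ≤ ρ)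
    (hE : -(k * l) ≤ e) (hk0 : 0 ≤ k) (hk : k ≤ 1 / 16) : JTest T e ρ u := by
  have hl1 : 0 < lam1 := by linarith only [h1]
  have hT0 : 0 ≤ lam1 * l ^ 2 + lam2 * u ^ 2 := by (clear * - h1 h2; positivity)
  have hR0 : 0 < R := by
    have a1 : 0 < lam2 * B ^ 2 + lam1 * A ^ 2 := by positivity
    have a2 : 0 < lam1 * lam2 * R := by linarith only [hC, a1]
    exact (pos_iff_pos_of_mul_pos a2).1 (by positivity)
  have hBl : B * l ≤ B * L := mul_le_mul_of_nonneg_left hlL hB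
  have hkl : k * l ≤ 1 / 32 := by
    calc k * l ≤ 1 / 16 * (1 / 2) := mul_le_mul hk hl2 hl (by norm_num)
      _ = 1 / 32 := by norm_num
  have hP0 : 0 ≤ B * l + A * u := by (clear * - hB hl hA hu; positivity)
  refine JTest.of_bounds (T0 := lam1 * l ^ 2 + lam2 * u ^ 2) (P := B * l + A * u) (E := k * l)
    (θ := 999 / 1000) hT hT0 (fun h0 => ?_) (by norm_num) hP hP0 (by linarith only [hR, hR0, hBl]) ?_ hE
    (by positivity) (by linarith only [hρ, hkl]) ?_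
  · have : 0 < u ^ 2 := by positivity
    positivity
  · -- Cauchy
    have c1 : lam1 * lam2 * (B * l + A * u) ^ 2 ≤
        (lam2 * B ^ 2 + lam1 * A ^ 2) * (lam1 * l ^ 2 + lam2 * u ^ 2) := by
      have : (lam2 * B ^ 2 + lam1 * A ^ 2) * (lam1 * l ^ 2 + lam2 * u ^ 2) -
          lam1 * lam2 * (B * l + A * u) ^ 2 = (lam2 * B * u - lam1 * A * l) ^ 2 := by ring
      have h := sq_nonneg (lam2 * B * u - lam1 * A * l)
      linarith only [h]
    have c2 : (lam2 * B ^ 2 + lam1 * A ^ 2) * (lam1 * l ^ 2 + lam2 * u ^ 2) ≤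
        999 / 1000 * (lam1 * lam2 * R) * (lam1 * l ^ 2 + lam2 * u ^ 2) :=
      mul_le_mul_of_nonneg_right hC hT0
    have c3 : (B * l + A * u) ^ 2 ≤ 999 / 1000 * (R * (lam1 * l ^ 2 + lam2 * u ^ 2)) := by
      have hp : 0 < lam1 * lam2 := by positivity
      refine le_of_mul_le_mul_left ?_ hp
      calc lam1 * lam2 * (B * l + A * u) ^ 2
          ≤ 999 / 1000 * (lam1 * lam2 * R) * (lam1 * l ^ 2 + lam2 * u ^ 2) := c1.trans c2
        _ = lam1 * lam2 * (999 / 1000 * (R * (lam1 * l ^ 2 + lam2 * u ^ 2))) := by ring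
    have c4 : R * (lam1 * l ^ 2 + lam2 * u ^ 2) ≤
        (lam1 * l ^ 2 + lam2 * u ^ 2) * (ρ - (B * l + A * u)) := by
      rw [mul_comm]
      exact mul_le_mul_of_nonneg_left (by linarith only [hR, hBl]) hT0
    linarith only [c3, c4]
  · have d1 : (k * l) ^ 2 ≤ 1 / 256 * l ^ 2 := by
      rw [mul_pow]
      apply mul_le_mul_of_nonneg_right _ (sq_nonneg l)
      calc k ^ 2 ≤ (1 / 16) ^ 2 := pow_le_pow_left₀ hk0 hk 2
        _ = 1 / 256 := by norm_num
    have d2 : 1 / 2 * l ^ 2 ≤ lam1 * l ^ 2 + lam2 * u ^ 2 := by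
      have e1 : 1 / 2 * l ^ 2 ≤ lam1 * l ^ 2 := mul_le_mul_of_nonneg_right h1 (sq_nonneg l)
      have e2 : 0 ≤ lam2 * u ^ 2 := by (clear * - h2; positivity)
      linarith only [e1, e2]
    have d3 : (lam1 * l ^ 2 + lam2 * u ^ 2) * (27 / 160) ≤
        (lam1 * l ^ 2 + lam2 * u ^ 2) * (ρ - k * l) :=
      mul_le_mul_of_nonneg_left (by linarith only [hρ, hkl]) hT0
    have d4 := sq_nonneg l
    linarith only [hT0, d1, d2, d3]

theorem fpu_rho {m z s w : ℝ} (hs : s ^ 2 = 1 - z) (hz1 : 0 < 1 - z) (hw : w = m * z) :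
    dpR m (z / s ^ 2) = fpuRh z w / (1 - z) ^ 2 := by
  unfold dpR fpuRh
  rw [hs, hw]
  field_simp
  ring

theorem fpu_core {m z s l u c G N e C g q L lam1 lam2 w : ℝ} (hm : 27 ≤ m) (hz0 : 0 < z)
    (hs0 : 0 < s) (hs : s ^ 2 = 1 - z) (hz : z ≤ 1 / 3) (hw : w = m * z) (hw1 : 1 ≤ w)
    (hl : 0 ≤ l) (hlL : l ≤ L) (hL : L ≤ 12 / 25) (hu : 0 ≤ u) (hu1 : u ≤ 5 / 4) (hC : 4 ≤ C)
    (hc0 : 1 - 1 / (2 * m) ≤ c) (hc : c ≤ 1) (hc2 : c ^ 2 ≤ (m + 1) / (m + 2))
    (hE : 1 - 2 * l + e * l ^ 2 ≤ Real.exp (-(2 * l)))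
    (hK : -(z * g / (1 - z) ^ 2 * l ^ 2) +
      9 / 2 * z * (1 - z) * (1 - 4 * l + C * l ^ 2) * (u ^ 2 / (1 + u)) ≤
      (3 * (m - 3) * (z ^ 2 / s ^ 5) - 9 * (z / s ^ 3)) * l ^ 2 +
      (4 / s - 4 * s / (1 + s) - 2 * s ^ 2 - 6 * (z / s ^ 3) * l) * (u ^ 2 / (1 + u)) +
      dpS m z s l (u ^ 2 / (1 + u)))
    (hG : -(z * q / (1 - z) ^ 2 * l ^ 2) ≤ G)
    (hN : -(u ^ 2 / (2 + 31 / 25 * u)) ≤ N)
    (hl1 : 1 / 2 ≤ lam1) (hl2 : 0 < lam2)
    (h1 : 0 ≤ fpuNA e C (g + q) lam1 z w u) (h2 : 0 ≤ fpuNG lam2 z w u)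
    (h3 : fpuNB z w u ^ 2 * ((2 + 31 / 25 * u) * (1 - z) ^ 3 * (w - z)) ≤
      fpuNA e C (g + q) lam1 z w u * fpuNG lam2 z w u)
    (h4 : 0 ≤ fpuP (g + q) z w →
      lam2 * fpuBa L (g + q) z w u ^ 2 + lam1 * (z * fpuA z w u * (1 - z)) ^ 2 ≤
      999 / 1000 * (lam1 * lam2 * (fpuRa L (g + q) z w u * (w * (1 - z) ^ 2))))
    (h5 : fpuP (g + q) z w ≤ 0 →
      lam2 * fpuBb z w u ^ 2 + lam1 * (z * fpuA z w u) ^ 2 ≤
      999 / 1000 * (lam1 * lam2 * (fpuRb L z w u * w))) :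
    JTest (dpT m z s l u G N) (dpE m z s l u c N) (dpR m (z / s ^ 2)) u := by
  have hz1 : 0 < 1 - z := by linarith only [hz]
  have hw0 : 0 < w := by linarith only [hw1]
  have hwz : 27 * z ≤ w := by
    rw [hw]
    exact mul_le_mul_of_nonneg_right hm hz0.le
  have hL0 : 0 ≤ L := hl.trans hlL
  have hT := fpu_T hm hz0 hs0 hs hz hw hu hE hK hG hN h1 h2 h3
  have hU := fpu_U hm hz0 hs0 hs hz hw hl hu hC hc0 hc hc2 hK hG hN
  have ha : 19 / 50 ≤ Real.exp (-(2 * l)) := by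
    have a1 : Real.exp (-(2 * (12 / 25 : ℝ))) ≤ Real.exp (-(2 * l)) := by
      apply Real.exp_le_exp.2
      linarith only [hlL, hL]
    have a2 : (19 : ℝ) / 50 ≤ Real.exp (-(2 * (12 / 25 : ℝ))) := by
      rw [Real.exp_neg, le_inv_comm₀ (by norm_num) (Real.exp_pos _)]
      have h := Real.exp_bound' (x := 2 * (12 / 25)) (by norm_num) (by norm_num) (n := 8)
        (by norm_num)
      refine h.trans ?_
      simp only [Finset.sum_range_succ, Finset.sum_range_zero, Nat.factorial]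
      norm_num
    exact a2.trans a1
  have hLo := fpu_L hm hz0 hs0 hs hz hw hw1 hl hu hu1 hc0 hc ha hN
  have hA0 : 0 < fpuA z w u := by
    unfold fpuA
    have a1 : 0 < 3 - 9 / 4 * z := by linarith only [hz]
    have a2 : 0 < 1 - z / 2 := by linarith only [hz]
    (clear * - a1 hw1 a2 hu; positivity)
  have hA : 0 < z * fpuA z w u / (w * (1 - z)) := by (clear * - hz0 hA0 hw1 hz1; positivity)
  have hRh : 1 / 5 ≤ dpR m (z / s ^ 2) := by
    rw [fpu_rho hs hz1 hw, le_div_iff₀ (by (clear * - hz1; positivity))]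
    unfold fpuRh
    have a1 : 0 ≤ w * (w - 2 * z) := mul_nonneg hw0.le (by linarith only [hz0, hwz])
    have a2 : 0 ≤ w * (1 - z) := by (clear * - hw1 hz1; positivity)
    linarith only [a1, a2]
  have hk0 : 0 ≤ 1 / 8 * (z / (1 - z)) := by (clear * - hz0 hz1; positivity)
  have hk : 1 / 8 * (z / (1 - z)) ≤ 1 / 16 := by
    have : z / (1 - z) ≤ 1 / 2 := by
      rw [div_le_iff₀ hz1]
      linarith only [hz]
    linarith only [this]
  have hBb0 : 0 ≤ fpuBb z w u := by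
    unfold fpuBb
    (clear * - hz0 hw1 hz1 hu; positivity)
  rcases le_total 0 (fpuP (g + q) z w) with hp | hp
  · have h4' := h4 hp
    have hBa0 : 0 ≤ fpuBa L (g + q) z w u := by
      unfold fpuBa
      (clear * - hw1 hL0 hp hBb0 hz1; positivity)
    refine fpu_fin (B := fpuBa L (g + q) z w u / (w * (1 - z) ^ 2))
      (A := z * fpuA z w u / (w * (1 - z))) (R := fpuRa L (g + q) z w u / (w * (1 - z) ^ 2))
      (L := L) (lam1 := lam1) (lam2 := lam2) (k := 1 / 8 * (z / (1 - z)))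
      hl hlL (by linarith only [hlL, hL]) hu hl1 hl2 hT ?_ (by (clear * - hBa0 hw1 hz1; positivity)) hA ?_ ?_ hRh hLo hk0 hk
    · refine hU.trans ?_
      have b1 : fpuP (g + q) z w / (1 - z) ^ 2 * l ^ 2 ≤
          fpuP (g + q) z w / (1 - z) ^ 2 * (L * l) := by
        apply mul_le_mul_of_nonneg_left _ (by (clear * - hp hz1; positivity))
        rw [pow_two]
        exact mul_le_mul_of_nonneg_right hlL hl
      have b2 : fpuBa L (g + q) z w u / (w * (1 - z) ^ 2) * l +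
          z * fpuA z w u / (w * (1 - z)) * u =
          fpuP (g + q) z w / (1 - z) ^ 2 * (L * l) + 2 * z ^ 2 / (w * (1 - z)) * l +
          6 / 25 * (w + 3 * z) * u * l + z * fpuA z w u / (w * (1 - z)) * u := by
        unfold fpuBa fpuBb
        field_simp
        ring
      rw [b2]
      linarith only [b1]
    · apply le_of_eq
      rw [fpu_rho hs hz1 hw]
      unfold fpuRa
      field_simp
      ring
    · have b3 : lam2 * (fpuBa L (g + q) z w u / (w * (1 - z) ^ 2)) ^ 2 +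
          lam1 * (z * fpuA z w u / (w * (1 - z))) ^ 2 =
          (lam2 * fpuBa L (g + q) z w u ^ 2 + lam1 * (z * fpuA z w u * (1 - z)) ^ 2) /
            (w * (1 - z) ^ 2) ^ 2 := by
        (clear * - hl2 hz0 hz1 hl1 hA0 hw1; field_simp)
      have b4 : 999 / 1000 * (lam1 * lam2 * (fpuRa L (g + q) z w u / (w * (1 - z) ^ 2))) =
          999 / 1000 * (lam1 * lam2 * (fpuRa L (g + q) z w u * (w * (1 - z) ^ 2))) /
            (w * (1 - z) ^ 2) ^ 2 := by
        (clear * - hz1 hw1 hl2 hl1; field_simp)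
      rw [b3, b4]
      exact div_le_div_of_nonneg_right h4' (by (clear * - hw1 hz1; positivity))
  · have h5' := h5 hp
    refine fpu_fin (B := fpuBb z w u / (w * (1 - z)))
      (A := z * fpuA z w u / (w * (1 - z))) (R := fpuRb L z w u / (w * (1 - z) ^ 2))
      (L := L) (lam1 := lam1) (lam2 := lam2) (k := 1 / 8 * (z / (1 - z)))
      hl hlL (by linarith only [hlL, hL]) hu hl1 hl2 hT ?_ (by (clear * - hBb0 hw1 hz1; positivity)) hA ?_ ?_ hRh hLo hk0 hk
    · refine hU.trans ?_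
      have b1 : fpuP (g + q) z w / (1 - z) ^ 2 * l ^ 2 ≤ 0 :=
        mul_nonpos_of_nonpos_of_nonneg (div_nonpos_of_nonpos_of_nonneg hp (by (clear * - hz1; positivity)))
          (sq_nonneg l)
      have b2 : fpuBb z w u / (w * (1 - z)) * l +
          z * fpuA z w u / (w * (1 - z)) * u =
          2 * z ^ 2 / (w * (1 - z)) * l +
          6 / 25 * (w + 3 * z) * u * l + z * fpuA z w u / (w * (1 - z)) * u := by
        unfold fpuBb
        (clear * - hz1 hw1; field_simp)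
      rw [b2]
      linarith only [b1]
    · apply le_of_eq
      rw [fpu_rho hs hz1 hw]
      unfold fpuRb
      field_simp
      ring
    · have b3 : lam2 * (fpuBb z w u / (w * (1 - z))) ^ 2 +
          lam1 * (z * fpuA z w u / (w * (1 - z))) ^ 2 =
          (lam2 * fpuBb z w u ^ 2 + lam1 * (z * fpuA z w u) ^ 2) /
            (w * (1 - z)) ^ 2 := by
        (clear * - hl2 hz0 hl1 hA0 hz1 hw1; field_simp)
      have b4 : 999 / 1000 * (lam1 * lam2 * (fpuRb L z w u / (w * (1 - z) ^ 2))) =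
          999 / 1000 * (lam1 * lam2 * (fpuRb L z w u * w)) /
            (w * (1 - z)) ^ 2 := by
        (clear * - hz1 hw1 hl2 hl1; field_simp)
      rw [b3, b4]
      exact div_le_div_of_nonneg_right h5' (by (clear * - hw1 hz1; positivity))

end Vale.Agent.P237.AllN
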