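import Vale.Agent.P237.AllN.KronEx

/-!
# Polynomial expressions in three variables, positivity on trees of boxes

The third variable is treated by coefficient lists whose entries are the encoded values of
`Kron.lean` (two variables by Kronecker substitution).
-/

namespace Vale.Agent.P237.AllN.PolyPos

/-- polynomial expressions in three variables -/
inductive Ex3
  | c (a : Fr)
  | X
  | Y
  | Z
  | add (a b : Ex3)
  | sub (a b : Ex3)
  | mul (a b : Ex3)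

instance : Add Ex3 := ⟨Ex3.add⟩
instance : Sub Ex3 := ⟨Ex3.sub⟩
instance : Mul Ex3 := ⟨Ex3.mul⟩

/-- real value -/
noncomputable def Ex3.R (x y z : ℝ) : Ex3 → ℝ
  | .c a => a.R
  | .X => x
  | .Y => y
  | .Z => z
  | .add a b => a.R x y z + b.R x y z
  | .sub a b => a.R x y z - b.R x y z
  | .mul a b => a.R x y z * b.R x y z

theorem Ex3.R_c (x y z : ℝ) (a : Fr) : (Ex3.c a).R x y z = a.R := rfl
theorem Ex3.R_X (x y z : ℝ) : Ex3.X.R x y z = x := rfl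
theorem Ex3.R_Y (x y z : ℝ) : Ex3.Y.R x y z = y := rfl
theorem Ex3.R_Z (x y z : ℝ) : Ex3.Z.R x y z = z := rfl
theorem Ex3.R_add (x y z : ℝ) (a b : Ex3) : (a + b).R x y z = a.R x y z + b.R x y z := rfl
theorem Ex3.R_sub (x y z : ℝ) (a b : Ex3) : (a - b).R x y z = a.R x y z - b.R x y z := rfl
theorem Ex3.R_mul (x y z : ℝ) (a b : Ex3) : (a * b).R x y z = a.R x y z * b.R x y z := rfl

/-- embedding of two-variable expressions -/
def Ex.to3 : Ex → Ex3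
  | .c a => .c a
  | .X => .X
  | .Y => .Y
  | .add a b => .add a.to3 b.to3
  | .sub a b => .sub a.to3 b.to3
  | .mul a b => .mul a.to3 b.to3

theorem Ex.R_to3 (x y z : ℝ) : ∀ E : Ex, E.to3.R x y z = E.R x y
  | .c _ => rfl
  | .X => rfl
  | .Y => rfl
  | .add a b => by simp only [to3, Ex3.R, Ex.R_to3 x y z a, Ex.R_to3 x y z b, R]
  | .sub a b => by simp only [Ex.to3, Ex3.R, Ex.R, Ex.R_to3 x y z a, Ex.R_to3 x y z b]
  | .mul a b => by simp only [Ex.to3, Ex3.R, Ex.R, Ex.R_to3 x y z a, Ex.R_to3 x y z b]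

/-! ## lists of encoded values -/

/-- `p + σ q` -/
def kadd (b e : ℕ) (σ : ℤ) : List KV → List KV → List KV
  | [], q => q.map (KV.mul (KV.c ⟨σ, 0⟩))
  | a :: p, [] => a :: p
  | a :: p, c :: q => KV.lin b e σ a c :: kadd b e σ p q

/-- product -/
def kmul (b e : ℕ) : List KV → List KV → List KV
  | [], _ => []
  | [a], q => q.map (KV.mul a)
  | a :: a' :: p, q => kadd b e 1 (q.map (KV.mul a)) (KV.c ⟨0, 0⟩ :: kmul b e (a' :: p) q)

/-- multiplication by `(1 + r)^n` -/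
def klift (b e : ℕ) (p : List KV) : ℕ → List KV
  | 0 => p
  | n + 1 => kadd b e 1 (klift b e p n) (KV.c ⟨0, 0⟩ :: klift b e p n)

/-- a list together with the exponent of `(1 + r)` in the denominator -/
structure K3 where
  p : List KV
  k : ℕ

/-- `p + σ q` -/
def K3.lin (b e : ℕ) (σ : ℤ) (p q : K3) : K3 :=
  ⟨kadd b e σ (klift b e p.p (max p.k q.k - p.k)) (klift b e q.p (max p.k q.k - q.k)),
    max p.k q.k⟩

/-- product -/
def K3.mul (b e : ℕ) (p q : K3) : K3 := ⟨kmul b e p.p q.p, p.k + q.k⟩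

/-- value of a list of functions -/
noncomputable def evF (t s r : ℝ) (g : List (ℝ → ℝ → ℝ)) : ℝ := evL (fun h => h t s) r g

theorem evF_nil (t s r : ℝ) : evF t s r [] = 0 := rfl

theorem evF_cons (t s r : ℝ) (h : ℝ → ℝ → ℝ) (g : List (ℝ → ℝ → ℝ)) :
    evF t s r (h :: g) = h t s + r * evF t s r g := rfl

/-- semantics of a list -/
def SemL (b e : ℕ) (v : List KV) (f : ℝ → ℝ → ℝ → ℝ) : Prop :=
  ∃ g : List (ℝ → ℝ → ℝ), List.Forall₂ (Sem b e) v g ∧ ∀ t s r : ℝ, evF t s r g = f t s r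

theorem Sem.congr {b e : ℕ} {v : KV} {f g : ℝ → ℝ → ℝ} (h : Sem b e v f)
    (hfg : ∀ t s, f t s = g t s) : Sem b e v g := by
  obtain ⟨p, p1, p2, p3, p4⟩ := h
  exact ⟨p, p1, p2, p3, fun t s ht hs => by rw [p4 t s ht hs, hfg]⟩

theorem semL_map {b e : ℕ} {a : KV} {φ : ℝ → ℝ → ℝ} (ha : Sem b e a φ) :
    ∀ {v : List KV} {g : List (ℝ → ℝ → ℝ)}, List.Forall₂ (Sem b e) v g →
      ∃ g' : List (ℝ → ℝ → ℝ), List.Forall₂ (Sem b e) (v.map (KV.mul a)) g' ∧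
        ∀ t s r : ℝ, evF t s r g' = φ t s * evF t s r g
  | [], [], _ => ⟨[], .nil, fun t s r => by simp [evF_nil]⟩
  | c :: v, h :: g, .cons h1 h2 => by
    obtain ⟨g', i1, i2⟩ := semL_map ha h2
    refine ⟨(fun t s => φ t s * h t s) :: g', .cons (sem_mul ha h1) i1, fun t s r => ?_⟩
    rw [evF_cons, evF_cons, i2]
    ring

theorem sem_int (b e : ℕ) (σ : ℤ) : Sem b e (KV.c ⟨σ, 0⟩) (fun _ _ => (σ : ℝ)) :=
  (sem_c b e ⟨σ, 0⟩).congr fun _ _ => by simp [Fr.R]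

theorem semL_add {b e : ℕ} {σ : ℤ} (hσ : σ.natAbs = 1) :
    ∀ {v : List KV} {g : List (ℝ → ℝ → ℝ)} {v' : List KV} {g' : List (ℝ → ℝ → ℝ)},
      List.Forall₂ (Sem b e) v g → List.Forall₂ (Sem b e) v' g' →
      ∃ g'' : List (ℝ → ℝ → ℝ), List.Forall₂ (Sem b e) (kadd b e σ v v') g'' ∧
        ∀ t s r : ℝ, evF t s r g'' = evF t s r g + σ * evF t s r g'
  | [], [], v', g', _, h' => by
    obtain ⟨g'', i1, i2⟩ := semL_map (sem_int b e σ) h'
    exact ⟨g'', i1, fun t s r => by rw [i2, evF_nil, zero_add]⟩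
  | a :: v, h :: g, [], [], hh, _ => ⟨h :: g, hh, fun t s r => by simp [evF_nil]⟩
  | a :: v, h :: g, c :: v', h' :: g', .cons a1 a2, .cons b1 b2 => by
    obtain ⟨g'', i1, i2⟩ := semL_add hσ a2 b2
    refine ⟨(fun t s => h t s + σ * h' t s) :: g'', .cons (sem_lin hσ a1 b1) i1,
      fun t s r => ?_⟩
    rw [evF_cons, evF_cons, evF_cons, i2]
    ring

theorem semL_mul {b e : ℕ} :
    ∀ {v : List KV} {g : List (ℝ → ℝ → ℝ)} {v' : List KV} {g' : List (ℝ → ℝ → ℝ)},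
      List.Forall₂ (Sem b e) v g → List.Forall₂ (Sem b e) v' g' →
      ∃ g'' : List (ℝ → ℝ → ℝ), List.Forall₂ (Sem b e) (kmul b e v v') g'' ∧
        ∀ t s r : ℝ, evF t s r g'' = evF t s r g * evF t s r g'
  | [], [], v', g', _, _ => ⟨[], .nil, fun t s r => by simp [evF_nil]⟩
  | [a], [h], v', g', .cons a1 _, h' => by
    obtain ⟨g'', i1, i2⟩ := semL_map a1 h'
    refine ⟨g'', i1, fun t s r => ?_⟩
    rw [i2, evF_cons, evF_nil]
    ring
  | a :: a' :: v, h :: g, v', g', .cons a1 a2, h' => by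
    obtain ⟨g1, i1, i2⟩ := semL_map a1 h'
    obtain ⟨g2, j1, j2⟩ := semL_mul (v := a' :: v) a2 h'
    obtain ⟨g3, k1, k2⟩ := semL_add (σ := 1) rfl i1 (.cons (sem_int b e 0) j1)
    refine ⟨g3, k1, fun t s r => ?_⟩
    rw [k2, i2, evF_cons, j2, evF_cons]
    push_cast
    ring

theorem semL_lift {b e : ℕ} {v : List KV} {g : List (ℝ → ℝ → ℝ)}
    (h : List.Forall₂ (Sem b e) v g) : ∀ n : ℕ,
      ∃ g' : List (ℝ → ℝ → ℝ), List.Forall₂ (Sem b e) (klift b e v n) g' ∧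
        ∀ t s r : ℝ, evF t s r g' = evF t s r g * (1 + r) ^ n
  | 0 => ⟨g, h, fun t s r => by simp⟩
  | n + 1 => by
    obtain ⟨g1, i1, i2⟩ := semL_lift h n
    obtain ⟨g2, k1, k2⟩ := semL_add (σ := 1) rfl i1 (.cons (sem_int b e 0) i1)
    refine ⟨g2, k1, fun t s r => ?_⟩
    rw [k2, evF_cons, i2, pow_succ]
    push_cast
    ring

/-- semantics with denominators -/
def Sem3 (b e : ℕ) (v : K3) (f : ℝ → ℝ → ℝ → ℝ) : Prop :=
  ∃ g : List (ℝ → ℝ → ℝ), List.Forall₂ (Sem b e) v.p g ∧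
    ∀ t s r : ℝ, 0 ≤ r → evF t s r g = f t s r * (1 + r) ^ v.k

theorem sem3_of {b e : ℕ} {v : KV} {f : ℝ → ℝ → ℝ} (h : Sem b e v f) :
    Sem3 b e ⟨[v], 0⟩ (fun t s _ => f t s) :=
  ⟨[f], .cons h .nil, fun t s r _ => by simp [evF_cons, evF_nil]⟩

/-- the third variable -/
def K3.z (A B : ℤ) (D : ℕ) : K3 := ⟨[KV.c ⟨A, D - 1⟩, KV.c ⟨B, D - 1⟩], 1⟩

theorem sem3_z (b e : ℕ) (A B : ℤ) {D : ℕ} (hD : 0 < D) :
    Sem3 b e (K3.z A B D) (fun _ _ r => (A + B * r) / (D * (1 + r))) := by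
  refine ⟨[fun _ _ => Fr.R ⟨A, D - 1⟩, fun _ _ => Fr.R ⟨B, D - 1⟩],
    .cons (sem_c b e _) (.cons (sem_c b e _) .nil), fun t s r hr => ?_⟩
  have hD' : ((D - 1 : ℕ) : ℝ) + 1 = D := by
    have : D - 1 + 1 = D := by omega
    exact_mod_cast this
  have h1 : (D : ℝ) ≠ 0 := by exact_mod_cast hD.ne'
  have h2 : 1 + r ≠ 0 := by (clear * - hr; positivity)
  simp only [evF_cons, evF_nil, Fr.R, hD', K3.z, pow_one]
  field_simp
  ring

theorem sem3_mul {b e : ℕ} {v v' : K3} {f g : ℝ → ℝ → ℝ → ℝ} (h : Sem3 b e v f)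
    (h' : Sem3 b e v' g) : Sem3 b e (K3.mul b e v v') (fun t s r => f t s r * g t s r) := by
  obtain ⟨p, p1, p2⟩ := h
  obtain ⟨q, q1, q2⟩ := h'
  obtain ⟨w, w1, w2⟩ := semL_mul p1 q1
  refine ⟨w, w1, fun t s r hr => ?_⟩
  rw [w2, p2 t s r hr, q2 t s r hr]
  simp only [K3.mul, pow_add]
  ring

theorem sem3_lin {b e : ℕ} {v v' : K3} {f g : ℝ → ℝ → ℝ → ℝ} {σ : ℤ} (hσ : σ.natAbs = 1)
    (h : Sem3 b e v f) (h' : Sem3 b e v' g) :
    Sem3 b e (K3.lin b e σ v v') (fun t s r => f t s r + σ * g t s r) := by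
  obtain ⟨p, p1, p2⟩ := h
  obtain ⟨q, q1, q2⟩ := h'
  obtain ⟨p', i1, i2⟩ := semL_lift p1 (max v.k v'.k - v.k)
  obtain ⟨q', j1, j2⟩ := semL_lift q1 (max v.k v'.k - v'.k)
  obtain ⟨w, w1, w2⟩ := semL_add hσ i1 j1
  refine ⟨w, w1, fun t s r hr => ?_⟩
  rw [w2, i2, j2, p2 t s r hr, q2 t s r hr, mul_assoc, ← pow_add, mul_assoc (g t s r), ← pow_add,
    Nat.add_sub_cancel' (le_max_left _ _), Nat.add_sub_cancel' (le_max_right _ _)]
  simp only [K3.lin]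
  ring

/-- encoded value -/
noncomputable def Ex3.K (b e : ℕ) (kx ky : KV) (kz : K3) (E : Ex3) : K3 :=
  Ex3.rec (motive := fun _ => K3) (fun a => ⟨[KV.c a], 0⟩) ⟨[kx], 0⟩ ⟨[ky], 0⟩ kz
    (fun _ _ p q => K3.lin b e 1 p q) (fun _ _ p q => K3.lin b e (-1) p q)
    (fun _ _ p q => K3.mul b e p q) E

theorem Ex3.sem (b e : ℕ) {kx ky : KV} {kz : K3} {fx fy : ℝ → ℝ → ℝ} {fz : ℝ → ℝ → ℝ → ℝ}
    (hx : Sem b e kx fx) (hy : Sem b e ky fy) (hz : Sem3 b e kz fz) : ∀ E : Ex3,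
    Sem3 b e (Ex3.K b e kx ky kz E) fun t s r => E.R (fx t s) (fy t s) (fz t s r)
  | .c a => sem3_of (sem_c b e a)
  | .X => sem3_of hx
  | .Y => sem3_of hy
  | .Z => hz
  | .add p q => by
    have h := sem3_lin (σ := 1) rfl (Ex3.sem b e hx hy hz p) (Ex3.sem b e hx hy hz q)
    simp only [Int.cast_one, one_mul] at h
    exact h
  | .sub p q => by
    have h := sem3_lin (σ := -1) rfl (Ex3.sem b e hx hy hz p) (Ex3.sem b e hx hy hz q)
    simp only [Int.cast_neg, Int.cast_one, neg_mul, one_mul, ← sub_eq_add_neg] at h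
    exact h
  | .mul p q => sem3_mul (Ex3.sem b e hx hy hz p) (Ex3.sem b e hx hy hz q)

/-- positivity check of an expression on a box -/
noncomputable def Ex3.nn (b L fuel : ℕ) (A B : ℤ) (D : ℕ) (A' B' : ℤ) (D' : ℕ) (A'' B'' : ℤ)
    (D'' : ℕ) (E : Ex3) : Bool :=
  (Ex3.K b (b ^ L) (KV.x (b ^ L) A B D) (KV.y b A' B' D') (K3.z A'' B'' D'') E).p.all
    (KV.nn b L fuel)

theorem forall₂_nonneg {b L fuel : ℕ} : ∀ {v : List KV} {g : List (ℝ → ℝ → ℝ)},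
    List.Forall₂ (Sem b (b ^ L)) v g → (v.all (KV.nn b L fuel)) = true → ∀ {t s r : ℝ}, 0 ≤ t →
      0 ≤ s → 0 ≤ r → 0 ≤ evF t s r g
  | [], [], _, _, t, s, r, _, _, _ => by rw [evF_nil]
  | a :: v, h :: g, .cons h1 h2, hc, t, s, r, ht, hs, hr => by
    simp only [List.all_cons, Bool.and_eq_true] at hc
    rw [evF_cons]
    have i1 := PolyPos.nn_sound h1 hc.1 ht hs
    have i2 := forall₂_nonneg h2 hc.2 ht hs hr
    (clear * - i1 hr i2; positivity)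

theorem moebius_exists {A B : ℤ} {D : ℕ} {x : ℝ} (hD : 0 < D) (h0 : (A : ℝ) ≤ D * x)
    (h1 : (D : ℝ) * x < B) : ∃ t : ℝ, 0 ≤ t ∧ (A + B * t) / (D * (1 + t)) = x := by
  have hD' : (0 : ℝ) < D := by exact_mod_cast hD
  have hd : 0 < (B : ℝ) - D * x := by linarith only [h1]
  refine ⟨(D * x - A) / (B - D * x), div_nonneg (by linarith only [h0]) hd.le, ?_⟩
  have h2 : (1 : ℝ) + (D * x - A) / (B - D * x) = (B - A) / (B - D * x) := by
    field_simp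
    ring
  have h3 : (0 : ℝ) < B - A := by linarith only [h0, h1]
  rw [h2]
  field_simp
  ring

theorem Ex3.nn_sound {b L fuel : ℕ} {A B : ℤ} {D : ℕ} {A' B' : ℤ} {D' : ℕ} {A'' B'' : ℤ}
    {D'' : ℕ} {E : Ex3} (hD : 0 < D) (hD' : 0 < D') (hD'' : 0 < D'')
    (h : Ex3.nn b L fuel A B D A' B' D' A'' B'' D'' E = true) {x y z : ℝ}
    (h0 : (A : ℝ) ≤ D * x) (h1 : (D : ℝ) * x < B) (h2 : (A' : ℝ) ≤ D' * y)
    (h3 : (D' : ℝ) * y < B') (h4 : (A'' : ℝ) ≤ D'' * z) (h5 : (D'' : ℝ) * z < B'') :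
    0 ≤ E.R x y z := by
  obtain ⟨t, ht, hxt⟩ := moebius_exists hD h0 h1
  obtain ⟨s, hs, hys⟩ := moebius_exists hD' h2 h3
  obtain ⟨r, hr, hzr⟩ := moebius_exists hD'' h4 h5
  obtain ⟨g, g1, g2⟩ := Ex3.sem b (b ^ L) (sem_x b (b ^ L) A B hD) (sem_y b (b ^ L) A' B' hD')
    (sem3_z b (b ^ L) A'' B'' hD'') E
  have h6 := forall₂_nonneg g1 h ht hs hr
  rw [g2 t s r hr] at h6
  have h7 := nonneg_of_mul_nonneg_left h6 (by positivity)
  simpa only [hxt, hys, hzr] using h7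

theorem Ex3.cont {fx fy fz : ℝ → ℝ} (hx : Continuous fx) (hy : Continuous fy)
    (hz : Continuous fz) : ∀ E : Ex3, Continuous fun θ => E.R (fx θ) (fy θ) (fz θ)
  | .c _ => continuous_const
  | .X => hx
  | .Y => hy
  | .Z => hz
  | .add p q => (Ex3.cont hx hy hz p).add (Ex3.cont hx hy hz q)
  | .sub p q => (Ex3.cont hx hy hz p).sub (Ex3.cont hx hy hz q)
  | .mul p q => (Ex3.cont hx hy hz p).mul (Ex3.cont hx hy hz q)

theorem Ex3.nn_closed {b L fuel : ℕ} {A B : ℤ} {D : ℕ} {A' B' : ℤ} {D' : ℕ} {A'' B'' : ℤ}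
    {D'' : ℕ} {E : Ex3} (hD : 0 < D) (hD' : 0 < D') (hD'' : 0 < D'') (hAB : A < B)
    (hAB' : A' < B') (hAB'' : A'' < B'')
    (h : Ex3.nn b L fuel A B D A' B' D' A'' B'' D'' E = true) {x y z : ℝ}
    (h0 : (A : ℝ) ≤ D * x) (h1 : (D : ℝ) * x ≤ B) (h2 : (A' : ℝ) ≤ D' * y)
    (h3 : (D' : ℝ) * y ≤ B') (h4 : (A'' : ℝ) ≤ D'' * z) (h5 : (D'' : ℝ) * z ≤ B'') :
    0 ≤ E.R x y z := by
  have key : ∀ {A B : ℤ} {D : ℕ} {x : ℝ}, 0 < D → A < B → (A : ℝ) ≤ D * x → (D : ℝ) * x ≤ B →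
      ∀ θ ∈ Set.Ioc (0 : ℝ) 1, (A : ℝ) ≤ D * (x + θ * (A / D - x)) ∧
        (D : ℝ) * (x + θ * (A / D - x)) < B := by
    intro A B D x hD hAB h0 h1 θ hθ
    have hD' : (0 : ℝ) < D := by exact_mod_cast hD
    have hAB' : (A : ℝ) < B := by exact_mod_cast hAB
    have e : (D : ℝ) * (x + θ * (A / D - x)) = (1 - θ) * (D * x) + θ * A := by
      field_simp
      ring
    rw [e]
    have hθ0 := hθ.1
    have hθ1 := hθ.2
    constructor
    · nlinarith only [h0, hθ1]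
    · nlinarith only [h1, hθ1, hAB', hθ0]
  have hc : Continuous fun θ : ℝ => E.R (x + θ * ((A : ℝ) / D - x)) (y + θ * ((A' : ℝ) / D' - y))
      (z + θ * ((A'' : ℝ) / D'' - z)) :=
    Ex3.cont (by fun_prop) (by fun_prop) (by fun_prop) E
  have hcl : IsClosed {θ : ℝ | 0 ≤ E.R (x + θ * ((A : ℝ) / D - x)) (y + θ * ((A' : ℝ) / D' - y))
      (z + θ * ((A'' : ℝ) / D'' - z))} := isClosed_le continuous_const hc
  have hsub : Set.Ioc (0 : ℝ) 1 ⊆ {θ : ℝ | 0 ≤ E.R (x + θ * ((A : ℝ) / D - x))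
      (y + θ * ((A' : ℝ) / D' - y)) (z + θ * ((A'' : ℝ) / D'' - z))} := by
    intro θ hθ
    obtain ⟨a1, a2⟩ := key hD hAB h0 h1 θ hθ
    obtain ⟨b1, b2⟩ := key hD' hAB' h2 h3 θ hθ
    obtain ⟨c1, c2⟩ := key hD'' hAB'' h4 h5 θ hθ
    exact Ex3.nn_sound hD hD' hD'' h a1 a2 b1 b2 c1 c2
  have h6 := hcl.closure_subset_iff.2 hsub
  rw [closure_Ioc zero_ne_one] at h6
  have h7 : (0 : ℝ) ∈ Set.Icc (0 : ℝ) 1 := ⟨le_rfl, zero_le_one⟩
  have h8 := h6 h7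
  simpa only [ge_iff_le, Set.mem_ofPred_eq, zero_mul, add_zero] using h8

/-! ## trees -/

/-- subdivision trees: `leaf i` uses the `i`-th family, `out i` the `i`-th region expression -/
inductive PT3
  | leaf (i : ℕ)
  | out (i : ℕ)
  | sx (l r : PT3)
  | sy (l r : PT3)
  | sz (l r : PT3)

/-- check on a tree of boxes: on `leaf i` all members of the `i`-th family are nonnegative, on
`out i` the `i`-th region expression is at least `10⁻⁶` -/
noncomputable def tchk3 (b L fuel : ℕ) (F : List (List Ex3)) (Lo : List Ex3) (t : PT3) :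
    ℤ → ℤ → ℕ → ℤ → ℤ → ℕ → ℤ → ℤ → ℕ → Bool :=
  PT3.rec (motive := fun _ => ℤ → ℤ → ℕ → ℤ → ℤ → ℕ → ℤ → ℤ → ℕ → Bool)
    (fun i A B D A' B' D' A'' B'' D'' =>
      (F.getD i [Ex3.c ⟨-1, 0⟩]).all (Ex3.nn b L fuel A B D A' B' D' A'' B'' D''))
    (fun i A B D A' B' D' A'' B'' D'' =>
      Ex3.nn b L fuel A B D A' B' D' A'' B'' D'' (Lo.getD i (Ex3.c ⟨0, 0⟩) - Ex3.c ⟨1, 999999⟩))
    (fun _ _ l r A B D A' B' D' A'' B'' D'' =>
      l (2 * A) (A + B) (2 * D) A' B' D' A'' B'' D'' &&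
        r (A + B) (2 * B) (2 * D) A' B' D' A'' B'' D'')
    (fun _ _ l r A B D A' B' D' A'' B'' D'' =>
      l A B D (2 * A') (A' + B') (2 * D') A'' B'' D'' &&
        r A B D (A' + B') (2 * B') (2 * D') A'' B'' D'')
    (fun _ _ l r A B D A' B' D' A'' B'' D'' =>
      l A B D A' B' D' (2 * A'') (A'' + B'') (2 * D'') &&
        r A B D A' B' D' (A'' + B'') (2 * B'') (2 * D'')) t

theorem tchk3_sound {b L fuel : ℕ} {F : List (List Ex3)} {Lo : List Ex3} {x y z : ℝ}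
    (hLo : ∀ E ∈ Lo, E.R x y z ≤ 0) :
    ∀ (t : PT3) (A B : ℤ) (D : ℕ) (A' B' : ℤ) (D' : ℕ) (A'' B'' : ℤ) (D'' : ℕ),
      0 < D → 0 < D' → 0 < D'' → A < B → A' < B' → A'' < B'' →
      tchk3 b L fuel F Lo t A B D A' B' D' A'' B'' D'' = true →
      (A : ℝ) ≤ D * x → (D : ℝ) * x ≤ B → (A' : ℝ) ≤ D' * y → (D' : ℝ) * y ≤ B' →
      (A'' : ℝ) ≤ D'' * z → (D'' : ℝ) * z ≤ B'' →
      ∃ G ∈ F, ∀ E ∈ G, 0 ≤ E.R x y z
  | .leaf i, A, B, D, A', B', D', A'', B'', D'', hD, hD', hD'', hA, hA', hA'', h, h0, h1, h2,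
      h3, h4, h5 => by
    have h : (F.getD i [Ex3.c ⟨-1, 0⟩]).all
      (Ex3.nn b L fuel A B D A' B' D' A'' B'' D'') = true := h
    rw [List.all_eq_true] at h
    rcases lt_or_ge i F.length with hi | hi
    · refine ⟨F[i], List.getElem_mem hi, fun E hE => ?_⟩
      have e : F.getD i [Ex3.c ⟨-1, 0⟩] = F[i] := by simp [List.getD, hi]
      rw [e] at h
      exact Ex3.nn_closed hD hD' hD'' hA hA' hA'' (h E hE) h0 h1 h2 h3 h4 h5
    · exfalso
      have e : F.getD i [Ex3.c ⟨-1, 0⟩] = [Ex3.c ⟨-1, 0⟩] := by simp [List.getD, hi]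
      rw [e] at h
      have h6 := Ex3.nn_closed hD hD' hD'' hA hA' hA'' (h _ (List.mem_singleton.2 rfl)) h0 h1 h2
        h3 h4 h5
      simp only [Int.reduceNeg, Ex3.R_c, Fr.R, Int.cast_neg, Int.cast_one, CharP.cast_eq_zero, zero_add, div_one, Left.nonneg_neg_iff] at h6
      linarith only [h6]
  | .out i, A, B, D, A', B', D', A'', B'', D'', hD, hD', hD'', hA, hA', hA'', h, h0, h1, h2,
      h3, h4, h5 => by
    exfalso
    have h : Ex3.nn b L fuel A B D A' B' D' A'' B'' D''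
      (Lo.getD i (Ex3.c ⟨0, 0⟩) - Ex3.c ⟨1, 999999⟩) = true := h
    have h6 := Ex3.nn_closed hD hD' hD'' hA hA' hA'' h h0 h1 h2 h3 h4 h5
    rw [Ex3.R_sub, Ex3.R_c] at h6
    have h7 : (0 : ℝ) < Fr.R ⟨1, 999999⟩ := by
      unfold Fr.R
      norm_num
    rcases lt_or_ge i Lo.length with hi | hi
    · have e : Lo.getD i (Ex3.c ⟨0, 0⟩) = Lo[i] := by simp [List.getD, hi]
      rw [e] at h6
      have := hLo Lo[i] (List.getElem_mem hi)
      linarith only [h7, h6, this]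
    · have e : Lo.getD i (Ex3.c ⟨0, 0⟩) = Ex3.c ⟨0, 0⟩ := by simp [List.getD, hi]
      rw [e, Ex3.R_c] at h6
      have h8 : Fr.R ⟨0, 0⟩ = 0 := by simp [Fr.R]
      linarith only [h6, h7, h8]
  | .sx l r, A, B, D, A', B', D', A'', B'', D'', hD, hD', hD'', hA, hA', hA'', h, h0, h1, h2,
      h3, h4, h5 => by
    have h : (tchk3 b L fuel F Lo l (2 * A) (A + B) (2 * D) A' B' D' A'' B'' D'' &&
      tchk3 b L fuel F Lo r (A + B) (2 * B) (2 * D) A' B' D' A'' B'' D'') = true := h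
    rw [Bool.and_eq_true] at h
    rcases lt_or_ge (((2 * D : ℕ) : ℝ) * x) ((A + B : ℤ) : ℝ) with h6 | h6
    · exact tchk3_sound hLo l _ _ _ _ _ _ _ _ _ (by omega) hD' hD'' (by omega) hA' hA'' h.1
        (by push_cast at *; linarith only [h0]) h6.le h2 h3 h4 h5
    · exact tchk3_sound hLo r _ _ _ _ _ _ _ _ _ (by omega) hD' hD'' (by omega) hA' hA'' h.2 h6
        (by push_cast at *; linarith only [h1]) h2 h3 h4 h5
  | .sy l r, A, B, D, A', B', D', A'', B'', D'', hD, hD', hD'', hA, hA', hA'', h, h0, h1, h2,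
      h3, h4, h5 => by
    have h : (tchk3 b L fuel F Lo l A B D (2 * A') (A' + B') (2 * D') A'' B'' D'' &&
      tchk3 b L fuel F Lo r A B D (A' + B') (2 * B') (2 * D') A'' B'' D'') = true := h
    rw [Bool.and_eq_true] at h
    rcases lt_or_ge (((2 * D' : ℕ) : ℝ) * y) ((A' + B' : ℤ) : ℝ) with h6 | h6
    · exact tchk3_sound hLo l _ _ _ _ _ _ _ _ _ hD (by omega) hD'' hA (by omega) hA'' h.1 h0 h1
        (by push_cast at *; linarith only [h2]) h6.le h4 h5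
    · exact tchk3_sound hLo r _ _ _ _ _ _ _ _ _ hD (by omega) hD'' hA (by omega) hA'' h.2 h0 h1
        h6 (by push_cast at *; linarith only [h3]) h4 h5
  | .sz l r, A, B, D, A', B', D', A'', B'', D'', hD, hD', hD'', hA, hA', hA'', h, h0, h1, h2,
      h3, h4, h5 => by
    have h : (tchk3 b L fuel F Lo l A B D A' B' D' (2 * A'') (A'' + B'') (2 * D'') &&
      tchk3 b L fuel F Lo r A B D A' B' D' (A'' + B'') (2 * B'') (2 * D'')) = true := h
    rw [Bool.and_eq_true] at h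
    rcases lt_or_ge (((2 * D'' : ℕ) : ℝ) * z) ((A'' + B'' : ℤ) : ℝ) with h6 | h6
    · exact tchk3_sound hLo l _ _ _ _ _ _ _ _ _ hD hD' (by omega) hA hA' (by omega) h.1 h0 h1
        h2 h3 (by push_cast at *; linarith only [h4]) h6.le
    · exact tchk3_sound hLo r _ _ _ _ _ _ _ _ _ hD hD' (by omega) hA hA' (by omega) h.2 h0 h1
        h2 h3 h6 (by push_cast at *; linarith only [h5])

end Vale.Agent.P237.AllN.PolyPos
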