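import Vale.Agent.P237.AllN.FPuF
import Vale.Agent.P237.AllN.Kron3

/-!
# P237, block D, `l > 0`, `1 ≤ m z ≤ 9`, `u ≥ 0`: the polynomial expressions for the kernel check

Variables `X = z`, `Y = w = m z`, `Z = u`.
-/

namespace Vale.Agent.P237.AllN

open PolyPos

/-- data of one slab -/
structure FpuD where
  e : Fr
  C : Fr
  g0 : Fr
  g1 : Fr
  g2 : Fr
  q0 : Fr
  q1 : Fr
  q2 : Fr
  L : Fr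
  l1 : Fr
  l2 : Fr

namespace FpuD

/-- `g` -/
noncomputable def g (d : FpuD) (z : ℝ) : ℝ := d.g0.R + d.g1.R * z + d.g2.R * z ^ 2

/-- `q` -/
noncomputable def q (d : FpuD) (z : ℝ) : ℝ := d.q0.R + d.q1.R * z + d.q2.R * z ^ 2

/-- `1 - z` -/
def s2 : Ex3 := Ex3.c ⟨1, 0⟩ - Ex3.X

/-- `w + 3 z` -/
def Q : Ex3 := Ex3.Y + Ex3.c ⟨3, 0⟩ * Ex3.X

/-- `1 + u` -/
def du : Ex3 := Ex3.c ⟨1, 0⟩ + Ex3.Z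

/-- `2 + 31 u/25` -/
def ku : Ex3 := Ex3.c ⟨2, 0⟩ + Ex3.c ⟨31, 24⟩ * Ex3.Z

/-- `g + q` -/
def xF (d : FpuD) : Ex3 := (Ex3.c d.g0 + Ex3.c d.q0) + (Ex3.c d.g1 + Ex3.c d.q1) * Ex3.X +
  (Ex3.c d.g2 + Ex3.c d.q2) * (Ex3.X * Ex3.X)

/-- `3 (1-z)² - w (1-z)` -/
def xV : Ex3 := Ex3.c ⟨3, 0⟩ * (s2 * s2) - Ex3.Y * s2

/-- `NA` -/
def xNA (d : FpuD) : Ex3 :=
  ((Ex3.c d.e * Q - Ex3.c d.l1) * (s2 * s2) - Ex3.X * d.xF - Ex3.c ⟨3, 24⟩ * Q * xV) * du +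
  s2 * (s2 * s2) * (Ex3.c ⟨4, 0⟩ * Ex3.c d.e + Ex3.c ⟨9, 1⟩ * Ex3.c d.C * Ex3.X) * (Ex3.Z * Ex3.Z)

/-- `NG` -/
def xNG (d : FpuD) : Ex3 :=
  s2 * s2 * (Ex3.c ⟨4, 0⟩ + Ex3.c ⟨9, 1⟩ * Ex3.X) * ku * (Ex3.Y - Ex3.X) -
  (Ex3.c ⟨2, 0⟩ - Ex3.X - Ex3.c ⟨1, 3⟩ * (Ex3.X * Ex3.X)) * (Ex3.Y + Ex3.X) * du -
  Ex3.c d.l2 * du * ku * s2 * (Ex3.Y - Ex3.X)

/-- `NB` -/
def xNB : Ex3 :=
  Ex3.c ⟨3, 24⟩ * Q * du + (Ex3.c ⟨4, 0⟩ + Ex3.c ⟨9, 0⟩ * Ex3.X) * s2 * Ex3.Z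

/-- first determinant -/
def xG1 (d : FpuD) : Ex3 :=
  d.xNA * d.xNG - xNB * xNB * (ku * (s2 * (s2 * s2)) * (Ex3.Y - Ex3.X))

/-- `A w (1-z)/z` -/
def xA : Ex3 :=
  (Ex3.c ⟨3, 0⟩ - Ex3.c ⟨9, 3⟩ * Ex3.X) * Ex3.Y +
  Ex3.c ⟨517, 99⟩ * (Ex3.c ⟨1, 0⟩ - Ex3.c ⟨1, 1⟩ * Ex3.X) *
    (Ex3.c ⟨877, 9999⟩ + Ex3.c ⟨2283, 9999⟩ * Ex3.Z)

/-- `Bb` -/
def xBb : Ex3 :=
  Ex3.c ⟨2, 0⟩ * (Ex3.X * Ex3.X) + Ex3.c ⟨6, 24⟩ * Q * Ex3.Y * s2 * Ex3.Z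

/-- `P` -/
def xP (d : FpuD) : Ex3 := Ex3.X * d.xF + Ex3.c ⟨3, 24⟩ * Q * xV

/-- `Ba` -/
def xBa (d : FpuD) : Ex3 := Ex3.Y * (Ex3.c d.L * d.xP) + xBb * s2

/-- `Rh` -/
def xRh : Ex3 :=
  Ex3.c ⟨1, 4⟩ * (s2 * s2) + Ex3.c ⟨1, 1⟩ * Ex3.Y * s2 +
  Ex3.c ⟨1, 9⟩ * (Ex3.Y * Ex3.Y - Ex3.c ⟨2, 0⟩ * Ex3.Y * Ex3.X)

/-- `Ra` -/
def xRa (d : FpuD) : Ex3 :=
  Ex3.Y * xRh - Ex3.c d.L * d.xBa - Ex3.X * xA * Ex3.Z * s2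

/-- `Rb` -/
def xRb (d : FpuD) : Ex3 :=
  Ex3.Y * xRh - Ex3.c d.L * xBb * s2 - Ex3.X * xA * Ex3.Z * s2

/-- second condition -/
def xG2 (d : FpuD) : Ex3 :=
  Ex3.c ⟨999, 999⟩ * (Ex3.c d.l1 * Ex3.c d.l2) * (d.xRa * (Ex3.Y * (s2 * s2))) -
  (Ex3.c d.l2 * (d.xBa * d.xBa) +
    Ex3.c d.l1 * ((Ex3.X * xA * s2) * (Ex3.X * xA * s2)))

/-- third condition -/
def xG3 (d : FpuD) : Ex3 :=
  Ex3.c ⟨999, 999⟩ * (Ex3.c d.l1 * Ex3.c d.l2) * (d.xRb * Ex3.Y) -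
  (Ex3.c d.l2 * (xBb * xBb) + Ex3.c d.l1 * ((Ex3.X * xA) * (Ex3.X * xA)))

variable (d : FpuD) (z w u : ℝ)

theorem s2_R : s2.R z w u = 1 - z := by
  simp only [s2, Ex3.R_sub, Ex3.R_c, Ex3.R_X, Fr.R]
  norm_num

theorem Q_R : Q.R z w u = w + 3 * z := by
  simp only [Q, Ex3.R_add, Ex3.R_mul, Ex3.R_c, Ex3.R_X, Ex3.R_Y, Fr.R]
  norm_num

theorem du_R : du.R z w u = 1 + u := by
  simp only [du, Ex3.R_add, Ex3.R_c, Ex3.R_Z, Fr.R]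
  norm_num

theorem ku_R : ku.R z w u = 2 + 31 / 25 * u := by
  simp only [ku, Ex3.R_add, Ex3.R_mul, Ex3.R_c, Ex3.R_Z, Fr.R]
  norm_num

theorem xF_R : d.xF.R z w u = d.g z + d.q z := by
  simp only [xF, Ex3.R_add, Ex3.R_mul, Ex3.R_c, Ex3.R_X, g, q]
  ring

theorem xV_R : xV.R z w u = 3 * (1 - z) ^ 2 - w * (1 - z) := by
  simp only [xV, Ex3.R_sub, Ex3.R_mul, Ex3.R_c, Ex3.R_Y, s2_R]
  simp only [Fr.R]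
  push_cast
  ring

theorem xNA_R : d.xNA.R z w u = fpuNA d.e.R d.C.R (d.g z + d.q z) d.l1.R z w u := by
  simp only [xNA, Ex3.R_sub, Ex3.R_add, Ex3.R_mul, Ex3.R_c, Ex3.R_X, Ex3.R_Z, s2_R, Q_R, du_R,
    xF_R, xV_R, fpuNA]
  generalize d.g z + d.q z = F
  generalize d.e.R = e
  generalize d.C.R = C
  generalize d.l1.R = l1
  simp only [Fr.R]
  push_cast
  ring

theorem xNG_R : d.xNG.R z w u = fpuNG d.l2.R z w u := by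
  simp only [xNG, Ex3.R_sub, Ex3.R_add, Ex3.R_mul, Ex3.R_c, Ex3.R_X, Ex3.R_Y, s2_R, du_R,
    ku_R, fpuNG]
  generalize d.l2.R = l2
  simp only [Fr.R]
  push_cast
  ring

theorem xNB_R : xNB.R z w u = fpuNB z w u := by
  simp only [xNB, Ex3.R_add, Ex3.R_mul, Ex3.R_c, Ex3.R_X, Ex3.R_Z, s2_R, Q_R, du_R, fpuNB]
  simp only [Fr.R]
  push_cast
  ring

theorem xG1_R : d.xG1.R z w u =
    fpuNA d.e.R d.C.R (d.g z + d.q z) d.l1.R z w u * fpuNG d.l2.R z w u -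
    fpuNB z w u ^ 2 * ((2 + 31 / 25 * u) * (1 - z) ^ 3 * (w - z)) := by
  simp only [xG1, Ex3.R_sub, Ex3.R_mul, Ex3.R_X, Ex3.R_Y, s2_R, ku_R, xNA_R, xNG_R, xNB_R]
  ring

theorem xA_R : xA.R z w u = fpuA z w u := by
  simp only [xA, Ex3.R_sub, Ex3.R_add, Ex3.R_mul, Ex3.R_c, Ex3.R_X, Ex3.R_Y, Ex3.R_Z, fpuA]
  simp only [Fr.R]
  push_cast
  ring

theorem xBb_R : xBb.R z w u = fpuBb z w u := by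
  simp only [xBb, Ex3.R_add, Ex3.R_mul, Ex3.R_c, Ex3.R_X, Ex3.R_Y, Ex3.R_Z, s2_R, Q_R, fpuBb]
  simp only [Fr.R]
  push_cast
  ring

theorem xP_R : d.xP.R z w u = fpuP (d.g z + d.q z) z w := by
  simp only [xP, Ex3.R_add, Ex3.R_mul, Ex3.R_c, Ex3.R_X, Q_R, xF_R, xV_R, fpuP]
  generalize d.g z + d.q z = F
  simp only [Fr.R]
  push_cast
  ring

theorem xBa_R : d.xBa.R z w u = fpuBa d.L.R (d.g z + d.q z) z w u := by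
  simp only [xBa, Ex3.R_add, Ex3.R_mul, Ex3.R_c, Ex3.R_Y, s2_R, xP_R, xBb_R, fpuBa]

theorem xRh_R : xRh.R z w u = fpuRh z w := by
  simp only [xRh, Ex3.R_sub, Ex3.R_add, Ex3.R_mul, Ex3.R_c, Ex3.R_X, Ex3.R_Y, s2_R, fpuRh]
  simp only [Fr.R]
  push_cast
  ring

theorem xRa_R : d.xRa.R z w u = fpuRa d.L.R (d.g z + d.q z) z w u := by
  simp only [xRa, Ex3.R_sub, Ex3.R_mul, Ex3.R_c, Ex3.R_X, Ex3.R_Y, Ex3.R_Z, s2_R, xRh_R, xBa_R,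
    xA_R, fpuRa]

theorem xRb_R : d.xRb.R z w u = fpuRb d.L.R z w u := by
  simp only [xRb, Ex3.R_sub, Ex3.R_mul, Ex3.R_c, Ex3.R_X, Ex3.R_Y, Ex3.R_Z, s2_R, xRh_R, xBb_R,
    xA_R, fpuRb]

theorem xG2_R : d.xG2.R z w u =
    999 / 1000 * (d.l1.R * d.l2.R * (fpuRa d.L.R (d.g z + d.q z) z w u * (w * (1 - z) ^ 2))) -
    (d.l2.R * fpuBa d.L.R (d.g z + d.q z) z w u ^ 2 +
      d.l1.R * (z * fpuA z w u * (1 - z)) ^ 2) := by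
  simp only [xG2, Ex3.R_sub, Ex3.R_add, Ex3.R_mul, Ex3.R_c, Ex3.R_X, Ex3.R_Y, s2_R, xRa_R,
    xBa_R, xA_R]
  generalize fpuRa d.L.R (d.g z + d.q z) z w u = a1
  generalize fpuBa d.L.R (d.g z + d.q z) z w u = a2
  generalize d.l1.R = l1
  generalize d.l2.R = l2
  simp only [Fr.R]
  push_cast
  ring

theorem xG3_R : d.xG3.R z w u =
    999 / 1000 * (d.l1.R * d.l2.R * (fpuRb d.L.R z w u * w)) -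
    (d.l2.R * fpuBb z w u ^ 2 + d.l1.R * (z * fpuA z w u) ^ 2) := by
  simp only [xG3, Ex3.R_sub, Ex3.R_add, Ex3.R_mul, Ex3.R_c, Ex3.R_X, Ex3.R_Y, xRb_R,
    xBb_R, xA_R]
  generalize fpuRb d.L.R z w u = a1
  generalize d.l1.R = l1
  generalize d.l2.R = l2
  simp only [Fr.R]
  push_cast
  ring

/-- the region: `m ≥ mm`, window of `u`, `m ≤ mM` -/
def Lo (mm mM : Fr) : List Ex3 :=
  [Ex3.c mm * Ex3.X - Ex3.Y, Ex3.Z * Ex3.Z * s2 - Ex3.c ⟨4, 24⟩ * Ex3.Y,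
    Ex3.Z * Ex3.Z * s2 - Ex3.c ⟨1, 0⟩, Ex3.Y - Ex3.c mM * Ex3.X]

/-- the region without upper bound of `m` -/
def Lo' (mm : Fr) : List Ex3 :=
  [Ex3.c mm * Ex3.X - Ex3.Y, Ex3.Z * Ex3.Z * s2 - Ex3.c ⟨4, 24⟩ * Ex3.Y,
    Ex3.Z * Ex3.Z * s2 - Ex3.c ⟨1, 0⟩]

variable {z w u}

theorem Lo_R {mm mM : Fr} (h0 : mm.R * z ≤ w) (h1 : u ^ 2 * (1 - z) ≤ 4 / 25 * w)
    (h2 : u ^ 2 * (1 - z) ≤ 1) (h3 : w ≤ mM.R * z) : ∀ E ∈ Lo mm mM, E.R z w u ≤ 0 := by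
  intro E hE
  simp only [Lo, List.mem_cons, List.not_mem_nil, or_false] at hE
  rcases hE with rfl | rfl | rfl | rfl
  · simp only [Ex3.R_sub, Ex3.R_mul, Ex3.R_c, Ex3.R_X, Ex3.R_Y]
    linarith
  · simp only [Ex3.R_sub, Ex3.R_mul, Ex3.R_c, Ex3.R_Z, Ex3.R_Y, s2_R]
    simp only [Fr.R]
    push_cast
    linarith
  · simp only [Ex3.R_sub, Ex3.R_mul, Ex3.R_c, Ex3.R_Z, s2_R]
    simp only [Fr.R]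
    push_cast
    linarith
  · simp only [Ex3.R_sub, Ex3.R_mul, Ex3.R_c, Ex3.R_X, Ex3.R_Y]
    linarith

theorem Lo'_R {mm : Fr} (h0 : mm.R * z ≤ w) (h1 : u ^ 2 * (1 - z) ≤ 4 / 25 * w)
    (h2 : u ^ 2 * (1 - z) ≤ 1) : ∀ E ∈ Lo' mm, E.R z w u ≤ 0 := by
  intro E hE
  simp only [Lo', List.mem_cons, List.not_mem_nil, or_false] at hE
  rcases hE with rfl | rfl | rfl
  · simp only [Ex3.R_sub, Ex3.R_mul, Ex3.R_c, Ex3.R_X, Ex3.R_Y]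
    linarith
  · simp only [Ex3.R_sub, Ex3.R_mul, Ex3.R_c, Ex3.R_Z, Ex3.R_Y, s2_R]
    simp only [Fr.R]
    push_cast
    linarith
  · simp only [Ex3.R_sub, Ex3.R_mul, Ex3.R_c, Ex3.R_Z, s2_R]
    simp only [Fr.R]
    push_cast
    linarith

end FpuD

/-- the box of a slab -/
structure FpuB where
  A : ℤ
  B : ℤ
  D : ℕ
  A' : ℤ
  B' : ℤ
  D' : ℕ
  A'' : ℤ
  B'' : ℤ
  D'' : ℕ

/-- the box is not degenerate -/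
def FpuB.ok (b : FpuB) : Bool :=
  decide (0 < b.D) && decide (0 < b.D') && decide (0 < b.D'') && decide (b.A < b.B) &&
    decide (b.A' < b.B') && decide (b.A'' < b.B'')

/-- membership in the box -/
def FpuB.mem (b : FpuB) (z w u : ℝ) : Prop :=
  ((b.A : ℝ) ≤ b.D * z ∧ (b.D : ℝ) * z ≤ b.B) ∧ ((b.A' : ℝ) ≤ b.D' * w ∧ (b.D' : ℝ) * w ≤ b.B') ∧
    ((b.A'' : ℝ) ≤ b.D'' * u ∧ (b.D'' : ℝ) * u ≤ b.B'')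

/-- check of one expression -/
noncomputable def FpuB.chk (b : FpuB) (K Ld : ℕ) (E : Ex3) (Lo : List Ex3) (t : PT3) : Bool :=
  tchk3 (2 ^ K) Ld 4000 [[E]] Lo t b.A b.B b.D b.A' b.B' b.D' b.A'' b.B'' b.D''

theorem FpuB.sound {b : FpuB} (hb : b.ok = true) {z w u : ℝ} (hm : b.mem z w u) {K Ld : ℕ}
    {E : Ex3} {Lo : List Ex3} {t : PT3} (hLo : ∀ E ∈ Lo, E.R z w u ≤ 0)
    (h : b.chk K Ld E Lo t = true) : 0 ≤ E.R z w u := by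
  simp only [FpuB.ok, Bool.and_eq_true, decide_eq_true_eq] at hb
  obtain ⟨⟨⟨⟨⟨h1, h2⟩, h3⟩, h4⟩, h5⟩, h6⟩ := hb
  obtain ⟨⟨m1, m2⟩, ⟨m3, m4⟩, m5, m6⟩ := hm
  obtain ⟨G, hG, hE⟩ := tchk3_sound hLo t _ _ _ _ _ _ _ _ _ h1 h2 h3 h4 h5 h6 h m1 m2 m3 m4 m5 m6
  simp only [List.mem_cons, List.not_mem_nil, or_false] at hG
  subst hG
  exact hE E (by simp)

/-- the five polynomial conditions of `fpu_core` -/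
def FpuOK (d : FpuD) (z w u : ℝ) : Prop :=
  0 ≤ fpuNA d.e.R d.C.R (d.g z + d.q z) d.l1.R z w u ∧ 0 ≤ fpuNG d.l2.R z w u ∧
  fpuNB z w u ^ 2 * ((2 + 31 / 25 * u) * (1 - z) ^ 3 * (w - z)) ≤
    fpuNA d.e.R d.C.R (d.g z + d.q z) d.l1.R z w u * fpuNG d.l2.R z w u ∧
  d.l2.R * fpuBa d.L.R (d.g z + d.q z) z w u ^ 2 + d.l1.R * (z * fpuA z w u * (1 - z)) ^ 2 ≤
    999 / 1000 * (d.l1.R * d.l2.R * (fpuRa d.L.R (d.g z + d.q z) z w u * (w * (1 - z) ^ 2))) ∧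
  d.l2.R * fpuBb z w u ^ 2 + d.l1.R * (z * fpuA z w u) ^ 2 ≤
    999 / 1000 * (d.l1.R * d.l2.R * (fpuRb d.L.R z w u * w))

theorem FpuOK.of {d : FpuD} {z w u : ℝ} (h1 : 0 ≤ d.xNA.R z w u) (h2 : 0 ≤ d.xNG.R z w u)
    (h3 : 0 ≤ d.xG1.R z w u) (h4 : 0 ≤ d.xG2.R z w u) (h5 : 0 ≤ d.xG3.R z w u) :
    FpuOK d z w u := by
  rw [FpuD.xNA_R] at h1
  rw [FpuD.xNG_R] at h2
  rw [FpuD.xG1_R] at h3
  rw [FpuD.xG2_R] at h4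
  rw [FpuD.xG3_R] at h5
  exact ⟨h1, h2, sub_nonneg.1 h3, sub_nonneg.1 h4, sub_nonneg.1 h5⟩

end Vale.Agent.P237.AllN
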