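import Vale.Agent.P237.AllN.FPuK

/-!
# P237, block D, `l > 0`, `1 ≤ m z ≤ 9`, `u ≥ 0`: kernel checks, slabs 7 to 9
-/

namespace Vale.Agent.P237.AllN

open PolyPos

set_option maxRecDepth 100000

/-- slab 7 -/
def fpuD7 : FpuD :=
  ⟨⟨1531, 999⟩, ⟨47, 9⟩, ⟨7, 0⟩, ⟨12, 0⟩, ⟨52, 0⟩, ⟨97, 99⟩, ⟨-9, 3⟩, ⟨91, 9⟩, ⟨43, 99⟩, ⟨161, 99⟩, ⟨3, 19⟩⟩

/-- box 7 -/
def fpuB7 : FpuB := ⟨3267, 3968, 13392, 121, 128, 16, 0, 6, 5⟩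

/-- region 7 -/
def fpuLo7 : List Ex3 := FpuD.Lo ⟨27, 0⟩ ⟨31, 0⟩

theorem fpu_chk7NA : fpuB7.chk 512 12 fpuD7.xNA fpuLo7 (.leaf 0) = true := by
  decide +kernel

theorem fpu_chk7NG : fpuB7.chk 512 12 fpuD7.xNG fpuLo7 (.leaf 0) = true := by
  (clear * -; decide +kernel)

/-- tree -/
def fpuT7G1 : PT3 :=
  .sx (.leaf 0) (.sx (.leaf 0) (.sz (.leaf 0) (.sy (.sx (.leaf 0) (.out 0)) (.leaf 0))))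

theorem fpu_chk7G1 : fpuB7.chk 512 12 fpuD7.xG1 fpuLo7 fpuT7G1 = true := by
  (clear * -; decide +kernel)

/-- tree -/
def fpuT7G2 : PT3 :=
  .sx (.leaf 0) (.sy (.sy (.sz (.leaf 0) (.sy (.sz (.leaf 0) (.sz (.leaf 0) (.sx (.leaf 0)
  (.out 0)))) (.sz (.leaf 0) (.sz (.leaf 0) (.sx (.leaf 0) (.sx (.leaf 0) (.out 0))))))) (.leaf
  0)) (.leaf 0))

theorem fpu_chk7G2 : fpuB7.chk 512 12 fpuD7.xG2 fpuLo7 fpuT7G2 = true := by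
  (clear * -; decide +kernel)

theorem fpu_chk7G3 : fpuB7.chk 512 12 fpuD7.xG3 fpuLo7 (.leaf 0) = true := by
  (clear * -; decide +kernel)

/-- slab 8 -/
def fpuD8 : FpuD :=
  ⟨⟨1531, 999⟩, ⟨47, 9⟩, ⟨7, 0⟩, ⟨12, 0⟩, ⟨52, 0⟩, ⟨97, 99⟩, ⟨-9, 3⟩, ⟨91, 9⟩, ⟨43, 99⟩, ⟨103, 49⟩, ⟨119, 999⟩⟩

/-- box 8 -/
def fpuB8 : FpuB := ⟨432, 527, 1674, 16, 17, 2, 0, 121, 100⟩

/-- region 8 -/
def fpuLo8 : List Ex3 := FpuD.Lo ⟨27, 0⟩ ⟨31, 0⟩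

theorem fpu_chk8NA : fpuB8.chk 512 12 fpuD8.xNA fpuLo8 (.leaf 0) = true := by
  (clear * -; decide +kernel)

theorem fpu_chk8NG : fpuB8.chk 512 12 fpuD8.xNG fpuLo8 (.leaf 0) = true := by
  (clear * -; decide +kernel)

/-- tree -/
def fpuT8G1 : PT3 :=
  .sz (.leaf 0) (.sy (.sy (.sz (.leaf 0) (.sx (.leaf 0) (.sx (.leaf 0) (.sz (.leaf 0) (.sy
  (.out 0) (.sy (.out 0) (.sx (.leaf 0) (.out 0)))))))) (.sz (.leaf 0) (.sx (.leaf 0) (.sx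
  (.leaf 0) (.sz (.leaf 0) (.sy (.sy (.sx (.leaf 0) (.out 0)) (.sz (.leaf 0) (.sx (.leaf 0)
  (.out 0)))) (.sx (.leaf 0) (.out 0)))))))) (.sy (.sz (.leaf 0) (.sx (.leaf 0) (.sx (.leaf 0)
  (.sx (.leaf 0) (.sz (.leaf 0) (.sy (.sy (.out 0) (.sz (.leaf 0) (.sy (.out 0) (.sz (.leaf 0)
  (.sx (.leaf 0) (.out 0)))))) (.leaf 0))))))) (.leaf 0)))

theorem fpu_chk8G1 : fpuB8.chk 512 12 fpuD8.xG1 fpuLo8 fpuT8G1 = true := by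
  (clear * -; decide +kernel)

/-- tree -/
def fpuT8G2 : PT3 :=
  .sx (.leaf 0) (.sy (.sy (.sz (.leaf 0) (.sy (.sz (.leaf 0) (.sz (.leaf 0) (.sx (.leaf 0)
  (.out 0)))) (.sz (.leaf 0) (.sz (.leaf 0) (.sx (.leaf 0) (.sx (.leaf 0) (.out 0))))))) (.sz
  (.leaf 0) (.sy (.sz (.leaf 0) (.sz (.leaf 0) (.sx (.leaf 0) (.sx (.leaf 0) (.out 0))))) (.sz
  (.leaf 0) (.sz (.leaf 0) (.sx (.leaf 0) (.sx (.leaf 0) (.out 0)))))))) (.leaf 0))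

theorem fpu_chk8G2 : fpuB8.chk 512 12 fpuD8.xG2 fpuLo8 fpuT8G2 = true := by
  (clear * -; decide +kernel)

theorem fpu_chk8G3 : fpuB8.chk 512 12 fpuD8.xG3 fpuLo8 (.leaf 0) = true := by
  (clear * -; decide +kernel)

/-- slab 9 -/
def fpuD9 : FpuD :=
  ⟨⟨1531, 999⟩, ⟨47, 9⟩, ⟨7, 0⟩, ⟨12, 0⟩, ⟨52, 0⟩, ⟨97, 99⟩, ⟨-9, 3⟩, ⟨91, 9⟩, ⟨43, 99⟩, ⟨73, 49⟩, ⟨129, 999⟩⟩

/-- box 9 -/
def fpuB9 : FpuB := ⟨51, 62, 186, 17, 18, 2, 0, 123, 100⟩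

/-- region 9 -/
def fpuLo9 : List Ex3 := FpuD.Lo ⟨27, 0⟩ ⟨31, 0⟩

theorem fpu_chk9NA : fpuB9.chk 512 12 fpuD9.xNA fpuLo9 (.leaf 0) = true := by
  (clear * -; decide +kernel)

theorem fpu_chk9NG : fpuB9.chk 512 12 fpuD9.xNG fpuLo9 (.leaf 0) = true := by
  (clear * -; decide +kernel)

/-- tree -/
def fpuT9G1 : PT3 :=
  .sy (.sy (.sz (.leaf 0) (.sz (.leaf 0) (.sx (.leaf 0) (.sz (.leaf 0) (.sy (.sx (.leaf 0)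
  (.out 0)) (.sx (.leaf 0) (.sx (.sy (.out 0) (.sz (.leaf 0) (.sy (.sz (.leaf 0) (.sx (.leaf 0)
  (.out 0))) (.sx (.leaf 0) (.out 0))))) (.out 0)))))))) (.sz (.leaf 0) (.sz (.leaf 0) (.sx
  (.leaf 0) (.sy (.sz (.leaf 0) (.sx (.leaf 0) (.sx (.sz (.leaf 0) (.sy (.sy (.sz (.leaf 0)
  (.sx (.leaf 0) (.out 0))) (.sx (.leaf 0) (.out 0))) (.sz (.leaf 0) (.sy (.sx (.leaf 0) (.out
  0)) (.leaf 0))))) (.out 0)))) (.sz (.leaf 0) (.sx (.leaf 0) (.sx (.leaf 0) (.out 0)))))))))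
  (.sy (.sz (.leaf 0) (.sz (.leaf 0) (.sx (.leaf 0) (.sx (.leaf 0) (.sy (.sy (.sx (.leaf 0)
  (.out 0)) (.sx (.leaf 0) (.sx (.sz (.leaf 0) (.sx (.leaf 0) (.out 0))) (.out 0)))) (.sx
  (.leaf 0) (.sx (.leaf 0) (.out 0)))))))) (.sz (.leaf 0) (.sz (.leaf 0) (.sx (.leaf 0) (.sx
  (.leaf 0) (.sy (.sy (.sx (.leaf 0) (.sx (.leaf 0) (.sz (.leaf 0) (.sz (.leaf 0) (.sz (.leaf
  0) (.sy (.out 0) (.sy (.out 0) (.sz (.leaf 0) (.sx (.leaf 0) (.out 0)))))))))) (.sz (.leaf 0)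
  (.sx (.leaf 0) (.sx (.leaf 0) (.sy (.sz (.leaf 0) (.sz (.leaf 0) (.sz (.leaf 0) (.sy (.sx
  (.leaf 0) (.out 0)) (.sx (.leaf 0) (.out 0)))))) (.sx (.leaf 0) (.out 0))))))) (.leaf
  0)))))))

theorem fpu_chk9G1 : fpuB9.chk 512 12 fpuD9.xG1 fpuLo9 fpuT9G1 = true := by
  (clear * -; decide +kernel)

/-- tree -/
def fpuT9G2 : PT3 :=
  .sx (.leaf 0) (.sx (.leaf 0) (.sy (.sy (.sz (.leaf 0) (.sz (.leaf 0) (.sy (.out 0) (.sz (.sz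
  (.leaf 0) (.sy (.out 0) (.sx (.leaf 0) (.out 0)))) (.sz (.sy (.out 0) (.sx (.leaf 0) (.out
  0))) (.sy (.out 0) (.sx (.sx (.leaf 0) (.out 0)) (.out 0)))))))) (.sz (.leaf 0) (.sz (.leaf
  0) (.sy (.sy (.sz (.leaf 0) (.sz (.sx (.leaf 0) (.out 0)) (.sx (.sx (.leaf 0) (.out 0)) (.out
  0)))) (.sz (.leaf 0) (.sz (.sx (.leaf 0) (.out 0)) (.sx (.sx (.leaf 0) (.out 0)) (.out 0)))))
  (.sy (.sz (.leaf 0) (.sz (.sx (.leaf 0) (.out 0)) (.sx (.leaf 0) (.out 0)))) (.sz (.leaf 0)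
  (.sz (.sx (.leaf 0) (.out 0)) (.sx (.leaf 0) (.out 0))))))))) (.sz (.leaf 0) (.sz (.leaf 0)
  (.sy (.sy (.sy (.sz (.leaf 0) (.sz (.leaf 0) (.sx (.leaf 0) (.out 0)))) (.sz (.leaf 0) (.sz
  (.leaf 0) (.sx (.leaf 0) (.sx (.leaf 0) (.out 0)))))) (.sy (.sz (.leaf 0) (.sz (.leaf 0) (.sx
  (.leaf 0) (.sx (.leaf 0) (.out 0))))) (.leaf 0))) (.leaf 0))))))

theorem fpu_chk9G2 : fpuB9.chk 512 12 fpuD9.xG2 fpuLo9 fpuT9G2 = true := by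
  (clear * -; decide +kernel)

theorem fpu_chk9G3 : fpuB9.chk 512 12 fpuD9.xG3 fpuLo9 (.leaf 0) = true := by
  (clear * -; decide +kernel)

end Vale.Agent.P237.AllN
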