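import Vale.Agent.P237.AllN.FPuK

/-!
# P237, block D, `l > 0`, `1 ≤ m z ≤ 9`, `u ≥ 0`: kernel checks, slabs 10 to 12
-/

namespace Vale.Agent.P237.AllN

open PolyPos

set_option maxRecDepth 100000

/-- slab 10 -/
def fpuD10 : FpuD :=
  ⟨⟨761, 499⟩, ⟨477, 99⟩, ⟨192, 24⟩, ⟨246, 24⟩, ⟨653, 9⟩, ⟨97, 99⟩, ⟨-9, 3⟩, ⟨91, 9⟩, ⟨11, 24⟩, ⟨89, 49⟩, ⟨177, 999⟩⟩

/-- box 10 -/
def fpuB10 : FpuB := ⟨3751, 6768, 23312, 121, 144, 16, 0, 119, 100⟩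

/-- region 10 -/
def fpuLo10 : List Ex3 := FpuD.Lo ⟨31, 0⟩ ⟨47, 0⟩

theorem fpu_chk10NA : fpuB10.chk 512 12 fpuD10.xNA fpuLo10 (.leaf 0) = true := by
  decide +kernel

theorem fpu_chk10NG : fpuB10.chk 512 12 fpuD10.xNG fpuLo10 (.leaf 0) = true := by
  decide +kernel

/-- tree -/
def fpuT10G1 : PT3 :=
  .sx (.leaf 0) (.sy (.sy (.sz (.leaf 0) (.sz (.leaf 0) (.sy (.sz (.leaf 0) (.sx (.leaf 0)
  (.out 0))) (.sz (.leaf 0) (.sx (.leaf 0) (.out 0)))))) (.sx (.leaf 0) (.sz (.leaf 0) (.sy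
  (.sx (.leaf 0) (.out 0)) (.leaf 0))))) (.leaf 0))

theorem fpu_chk10G1 : fpuB10.chk 512 12 fpuD10.xG1 fpuLo10 fpuT10G1 = true := by
  decide +kernel

theorem fpu_chk10G2 : fpuB10.chk 512 12 fpuD10.xG2 fpuLo10 (.leaf 0) = true := by
  decide +kernel

theorem fpu_chk10G3 : fpuB10.chk 512 12 fpuD10.xG3 fpuLo10 (.leaf 0) = true := by
  decide +kernel

/-- slab 11 -/
def fpuD11 : FpuD :=
  ⟨⟨373, 249⟩, ⟨93, 19⟩, ⟨1007, 99⟩, ⟨141, 9⟩, ⟨733, 9⟩, ⟨143, 199⟩, ⟨1, 1⟩, ⟨3, 0⟩, ⟨19, 39⟩, ⟨5, 1⟩, ⟨21, 124⟩⟩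

/-- box 11 -/
def fpuB11 : FpuB := ⟨0, 121, 768, 100, 121, 16, 0, 109, 100⟩

/-- region 11 -/
def fpuLo11 : List Ex3 := FpuD.Lo' ⟨48, 0⟩

theorem fpu_chk11NA : fpuB11.chk 512 12 fpuD11.xNA fpuLo11 (.leaf 0) = true := by
  decide +kernel

theorem fpu_chk11NG : fpuB11.chk 512 12 fpuD11.xNG fpuLo11 (.leaf 0) = true := by
  decide +kernel

theorem fpu_chk11G1 : fpuB11.chk 512 12 fpuD11.xG1 fpuLo11 (.leaf 0) = true := by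
  decide +kernel

theorem fpu_chk11G2 : fpuB11.chk 512 12 fpuD11.xG2 fpuLo11 (.leaf 0) = true := by
  decide +kernel

theorem fpu_chk11G3 : fpuB11.chk 512 12 fpuD11.xG3 fpuLo11 (.leaf 0) = true := by
  decide +kernel

/-- slab 12 -/
def fpuD12 : FpuD :=
  ⟨⟨373, 249⟩, ⟨22, 4⟩, ⟨10, 0⟩, ⟨83, 4⟩, ⟨331, 4⟩, ⟨143, 199⟩, ⟨1, 1⟩, ⟨3, 0⟩, ⟨19, 39⟩, ⟨231, 99⟩, ⟨367, 999⟩⟩

/-- box 12 -/
def fpuB12 : FpuB := ⟨0, 3, 16, 121, 144, 16, 0, 111, 100⟩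

/-- region 12 -/
def fpuLo12 : List Ex3 := FpuD.Lo' ⟨48, 0⟩

theorem fpu_chk12NA : fpuB12.chk 512 12 fpuD12.xNA fpuLo12 (.leaf 0) = true := by
  decide +kernel

theorem fpu_chk12NG : fpuB12.chk 512 12 fpuD12.xNG fpuLo12 (.leaf 0) = true := by
  decide +kernel

theorem fpu_chk12G1 : fpuB12.chk 512 12 fpuD12.xG1 fpuLo12 (.leaf 0) = true := by
  decide +kernel

theorem fpu_chk12G2 : fpuB12.chk 512 12 fpuD12.xG2 fpuLo12 (.leaf 0) = true := by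
  decide +kernel

theorem fpu_chk12G3 : fpuB12.chk 512 12 fpuD12.xG3 fpuLo12 (.leaf 0) = true := by
  decide +kernel

end Vale.Agent.P237.AllN
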