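import Vale.Agent.P237.AllN.FPuS1
import Vale.Agent.P237.AllN.FPuS2
import Vale.Agent.P237.AllN.FPuS3

/-!
# P237, block D, `l > 0`, `1 ≤ m z ≤ 9`, `u ≥ 0`: the polynomial conditions on the twelve slabs
-/

namespace Vale.Agent.P237.AllN

open PolyPos

theorem fpu_ub {z u K U zM : ℝ} (hz : z ≤ zM) (hzM : zM < 1) (h : u ^ 2 * (1 - z) ≤ K)
    (hK : K ≤ U ^ 2 * (1 - zM)) (hU : 0 ≤ U) : u ≤ U := by
  have h1 : u ^ 2 * (1 - zM) ≤ u ^ 2 * (1 - z) :=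
    mul_le_mul_of_nonneg_left (by linarith only [hz]) (sq_nonneg u)
  have h2 : u ^ 2 * (1 - zM) ≤ U ^ 2 * (1 - zM) := by linarith only [h, hK, h1]
  have h3 : u ^ 2 ≤ U ^ 2 := le_of_mul_le_mul_right h2 (by linarith)
  exact le_of_pow_le_pow_left₀ (n := 2) (by norm_num) hU h3

theorem fpu_ok1 {z w u : ℝ} (hz0 : 0 ≤ z) (hmz : 27 * z ≤ w) (hwa : 1 ≤ w)
    (hwb : w ≤ 2) (hu : 0 ≤ u) (h1 : u ^ 2 * (1 - z) ≤ 4 / 25 * w) (h2 : u ^ 2 * (1 - z) ≤ 1) :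
    FpuOK fpuD1 z w u := by
  have hU : u ≤ 59 / 100 := fpu_ub (z := z) (zM := 2 / 27) (by linarith only [hmz, hwb]) (by norm_num) (K := 8 / 25) (by linarith)
    (by norm_num) (by norm_num)
  have hLo : ∀ E ∈ fpuLo1, E.R z w u ≤ 0 := by
    apply FpuD.Lo'_R
    · simp only [Fr.R]
      push_cast
      linarith only [hmz]
    · exact h1
    · exact h2
  have hb : fpuB1.ok = true := by decide
  have hm : fpuB1.mem z w u := by
    refine ⟨⟨?_, ?_⟩, ⟨?_, ?_⟩, ?_, ?_⟩ <;> simp only [fpuB1] <;> push_cast <;> linarith only [hU, hmz, hwb, hu, hwa, hz0]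
  exact FpuOK.of (FpuB.sound hb hm hLo fpu_chk1NA) (FpuB.sound hb hm hLo fpu_chk1NG)
    (FpuB.sound hb hm hLo fpu_chk1G1) (FpuB.sound hb hm hLo fpu_chk1G2)
    (FpuB.sound hb hm hLo fpu_chk1G3)

theorem fpu_ok2 {z w u : ℝ} (hz0 : 0 ≤ z) (hmz : 27 * z ≤ w) (hwa : 2 ≤ w)
    (hwb : w ≤ 3) (hu : 0 ≤ u) (h1 : u ^ 2 * (1 - z) ≤ 4 / 25 * w) (h2 : u ^ 2 * (1 - z) ≤ 1) :
    FpuOK fpuD2 z w u := by
  have hU : u ≤ 37 / 50 := fpu_ub (z := z) (zM := 1 / 9) (by linarith only [hmz, hwb]) (by norm_num) (K := 12 / 25) (by linarith)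
    (by norm_num) (by norm_num)
  have hLo : ∀ E ∈ fpuLo2, E.R z w u ≤ 0 := by
    apply FpuD.Lo'_R
    · simp only [Fr.R]
      push_cast
      linarith only [hmz]
    · exact h1
    · exact h2
  have hb : fpuB2.ok = true := by decide
  have hm : fpuB2.mem z w u := by
    refine ⟨⟨?_, ?_⟩, ⟨?_, ?_⟩, ?_, ?_⟩ <;> simp only [fpuB2] <;> push_cast <;> linarith only [hU, hmz, hwb, hu, hwa, hz0]
  exact FpuOK.of (FpuB.sound hb hm hLo fpu_chk2NA) (FpuB.sound hb hm hLo fpu_chk2NG)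
    (FpuB.sound hb hm hLo fpu_chk2G1) (FpuB.sound hb hm hLo fpu_chk2G2)
    (FpuB.sound hb hm hLo fpu_chk2G3)

theorem fpu_ok3 {z w u : ℝ} (hz0 : 0 ≤ z) (hmz : 27 * z ≤ w) (hwa : 3 ≤ w)
    (hwb : w ≤ 4) (hu : 0 ≤ u) (h1 : u ^ 2 * (1 - z) ≤ 4 / 25 * w) (h2 : u ^ 2 * (1 - z) ≤ 1) :
    FpuOK fpuD3 z w u := by
  have hU : u ≤ 87 / 100 := fpu_ub (z := z) (zM := 4 / 27) (by linarith only [hmz, hwb]) (by norm_num) (K := 16 / 25) (by linarith)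
    (by norm_num) (by norm_num)
  have hLo : ∀ E ∈ fpuLo3, E.R z w u ≤ 0 := by
    apply FpuD.Lo'_R
    · simp only [Fr.R]
      push_cast
      linarith only [hmz]
    · exact h1
    · exact h2
  have hb : fpuB3.ok = true := by decide
  have hm : fpuB3.mem z w u := by
    refine ⟨⟨?_, ?_⟩, ⟨?_, ?_⟩, ?_, ?_⟩ <;> simp only [fpuB3] <;> push_cast <;> linarith only [hU, hmz, hwb, hu, hwa, hz0]
  exact FpuOK.of (FpuB.sound hb hm hLo fpu_chk3NA) (FpuB.sound hb hm hLo fpu_chk3NG)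
    (FpuB.sound hb hm hLo fpu_chk3G1) (FpuB.sound hb hm hLo fpu_chk3G2)
    (FpuB.sound hb hm hLo fpu_chk3G3)

theorem fpu_ok4 {z w u : ℝ} (hz0 : 0 ≤ z) (hmz : 27 * z ≤ w) (hwa : 4 ≤ w)
    (hwb : w ≤ 5) (hu : 0 ≤ u) (h1 : u ^ 2 * (1 - z) ≤ 4 / 25 * w) (h2 : u ^ 2 * (1 - z) ≤ 1) :
    FpuOK fpuD4 z w u := by
  have hU : u ≤ 1 := fpu_ub (z := z) (zM := 5 / 27) (by linarith only [hmz, hwb]) (by norm_num) (K := 4 / 5) (by linarith)
    (by norm_num) (by norm_num)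
  have hLo : ∀ E ∈ fpuLo4, E.R z w u ≤ 0 := by
    apply FpuD.Lo'_R
    · simp only [Fr.R]
      push_cast
      linarith only [hmz]
    · exact h1
    · exact h2
  have hb : fpuB4.ok = true := by decide
  have hm : fpuB4.mem z w u := by
    refine ⟨⟨?_, ?_⟩, ⟨?_, ?_⟩, ?_, ?_⟩ <;> simp only [fpuB4] <;> push_cast <;> linarith only [hU, hmz, hwb, hu, hwa, hz0]
  exact FpuOK.of (FpuB.sound hb hm hLo fpu_chk4NA) (FpuB.sound hb hm hLo fpu_chk4NG)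
    (FpuB.sound hb hm hLo fpu_chk4G1) (FpuB.sound hb hm hLo fpu_chk4G2)
    (FpuB.sound hb hm hLo fpu_chk4G3)

theorem fpu_ok5 {z w u : ℝ} (hz0 : 0 ≤ z) (hmz : 27 * z ≤ w) (hwa : 5 ≤ w)
    (hwb : w ≤ 25 / 4) (hu : 0 ≤ u) (h1 : u ^ 2 * (1 - z) ≤ 4 / 25 * w) (h2 : u ^ 2 * (1 - z) ≤ 1) :
    FpuOK fpuD5 z w u := by
  have hU : u ≤ 23 / 20 := fpu_ub (z := z) (zM := 25 / 108) (by linarith only [hmz, hwb]) (by norm_num) (K := 1) (by linarith only [hwb, h1])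
    (by norm_num) (by norm_num)
  have hLo : ∀ E ∈ fpuLo5, E.R z w u ≤ 0 := by
    apply FpuD.Lo'_R
    · simp only [Fr.R]
      push_cast
      linarith only [hmz]
    · exact h1
    · exact h2
  have hb : fpuB5.ok = true := by decide
  have hm : fpuB5.mem z w u := by
    refine ⟨⟨?_, ?_⟩, ⟨?_, ?_⟩, ?_, ?_⟩ <;> simp only [fpuB5] <;> push_cast <;> linarith only [hU, hmz, hwb, hu, hwa, hz0]
  exact FpuOK.of (FpuB.sound hb hm hLo fpu_chk5NA) (FpuB.sound hb hm hLo fpu_chk5NG)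
    (FpuB.sound hb hm hLo fpu_chk5G1) (FpuB.sound hb hm hLo fpu_chk5G2)
    (FpuB.sound hb hm hLo fpu_chk5G3)

theorem fpu_ok6 {z w u : ℝ} (hz0 : 0 ≤ z) (hmz : 27 * z ≤ w) (hwa : 25 / 4 ≤ w)
    (hwb : w ≤ 121 / 16) (hu : 0 ≤ u) (h1 : u ^ 2 * (1 - z) ≤ 4 / 25 * w) (h2 : u ^ 2 * (1 - z) ≤ 1) :
    FpuOK fpuD6 z w u := by
  have hU : u ≤ 59 / 50 := fpu_ub (z := z) (zM := 121 / 432) (by linarith only [hmz, hwb]) (by norm_num) (K := 1) h2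
    (by norm_num) (by norm_num)
  have hLo : ∀ E ∈ fpuLo6, E.R z w u ≤ 0 := by
    apply FpuD.Lo'_R
    · simp only [Fr.R]
      push_cast
      linarith only [hmz]
    · exact h1
    · exact h2
  have hb : fpuB6.ok = true := by decide
  have hm : fpuB6.mem z w u := by
    refine ⟨⟨?_, ?_⟩, ⟨?_, ?_⟩, ?_, ?_⟩ <;> simp only [fpuB6] <;> push_cast <;> linarith only [hU, hmz, hwb, hu, hwa, hz0]
  exact FpuOK.of (FpuB.sound hb hm hLo fpu_chk6NA) (FpuB.sound hb hm hLo fpu_chk6NG)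
    (FpuB.sound hb hm hLo fpu_chk6G1) (FpuB.sound hb hm hLo fpu_chk6G2)
    (FpuB.sound hb hm hLo fpu_chk6G3)

theorem fpu_ok7 {z w u : ℝ} (hmz : 27 * z ≤ w) (hM : w ≤ 31 * z) (hwa : 121 / 16 ≤ w)
    (hwb : w ≤ 8) (hu : 0 ≤ u) (h1 : u ^ 2 * (1 - z) ≤ 4 / 25 * w) (h2 : u ^ 2 * (1 - z) ≤ 1) :
    FpuOK fpuD7 z w u := by
  have hU : u ≤ 6 / 5 := fpu_ub (z := z) (zM := 8 / 27) (by linarith only [hmz, hwb]) (by norm_num) (K := 1) h2
    (by norm_num) (by norm_num)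
  have hLo : ∀ E ∈ fpuLo7, E.R z w u ≤ 0 := by
    apply FpuD.Lo_R
    · simp only [Fr.R]
      push_cast
      linarith only [hmz]
    · exact h1
    · exact h2
    · simp only [Fr.R]
      push_cast
      linarith only [hM]
  have hb : fpuB7.ok = true := by decide
  have hm : fpuB7.mem z w u := by
    refine ⟨⟨?_, ?_⟩, ⟨?_, ?_⟩, ?_, ?_⟩ <;> simp only [fpuB7] <;> push_cast <;> linarith only [hM, hwa, hU, hmz, hwb, hu]
  exact FpuOK.of (FpuB.sound hb hm hLo fpu_chk7NA) (FpuB.sound hb hm hLo fpu_chk7NG)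
    (FpuB.sound hb hm hLo fpu_chk7G1) (FpuB.sound hb hm hLo fpu_chk7G2)
    (FpuB.sound hb hm hLo fpu_chk7G3)

theorem fpu_ok8 {z w u : ℝ} (hmz : 27 * z ≤ w) (hM : w ≤ 31 * z) (hwa : 8 ≤ w)
    (hwb : w ≤ 17 / 2) (hu : 0 ≤ u) (h1 : u ^ 2 * (1 - z) ≤ 4 / 25 * w) (h2 : u ^ 2 * (1 - z) ≤ 1) :
    FpuOK fpuD8 z w u := by
  have hU : u ≤ 121 / 100 := fpu_ub (z := z) (zM := 17 / 54) (by linarith only [hmz, hwb]) (by norm_num) (K := 1) h2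
    (by norm_num) (by norm_num)
  have hLo : ∀ E ∈ fpuLo8, E.R z w u ≤ 0 := by
    apply FpuD.Lo_R
    · simp only [Fr.R]
      push_cast
      linarith only [hmz]
    · exact h1
    · exact h2
    · simp only [Fr.R]
      push_cast
      linarith only [hM]
  have hb : fpuB8.ok = true := by decide
  have hm : fpuB8.mem z w u := by
    refine ⟨⟨?_, ?_⟩, ⟨?_, ?_⟩, ?_, ?_⟩ <;> simp only [fpuB8] <;> push_cast <;> linarith only [hM, hwa, hU, hmz, hwb, hu]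
  exact FpuOK.of (FpuB.sound hb hm hLo fpu_chk8NA) (FpuB.sound hb hm hLo fpu_chk8NG)
    (FpuB.sound hb hm hLo fpu_chk8G1) (FpuB.sound hb hm hLo fpu_chk8G2)
    (FpuB.sound hb hm hLo fpu_chk8G3)

theorem fpu_ok9 {z w u : ℝ} (hmz : 27 * z ≤ w) (hM : w ≤ 31 * z) (hwa : 17 / 2 ≤ w)
    (hwb : w ≤ 9) (hu : 0 ≤ u) (h1 : u ^ 2 * (1 - z) ≤ 4 / 25 * w) (h2 : u ^ 2 * (1 - z) ≤ 1) :
    FpuOK fpuD9 z w u := by
  have hU : u ≤ 123 / 100 := fpu_ub (z := z) (zM := 1 / 3) (by (clear * - hmz hwb; linarith)) (by norm_num) (K := 1) h2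
    (by norm_num) (by norm_num)
  have hLo : ∀ E ∈ fpuLo9, E.R z w u ≤ 0 := by
    apply FpuD.Lo_R
    · simp only [Fr.R]
      push_cast
      linarith only [hmz]
    · exact h1
    · exact h2
    · simp only [Fr.R]
      push_cast
      linarith only [hM]
  have hb : fpuB9.ok = true := by decide
  have hm : fpuB9.mem z w u := by
    refine ⟨⟨?_, ?_⟩, ⟨?_, ?_⟩, ?_, ?_⟩ <;> simp only [fpuB9] <;> push_cast <;> linarith only [hM, hwa, hU, hmz, hwb, hu]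
  exact FpuOK.of (FpuB.sound hb hm hLo fpu_chk9NA) (FpuB.sound hb hm hLo fpu_chk9NG)
    (FpuB.sound hb hm hLo fpu_chk9G1) (FpuB.sound hb hm hLo fpu_chk9G2)
    (FpuB.sound hb hm hLo fpu_chk9G3)

theorem fpu_ok10 {z w u : ℝ} (hmz : 31 * z ≤ w) (hM : w ≤ 47 * z) (hwa : 121 / 16 ≤ w)
    (hwb : w ≤ 9) (hu : 0 ≤ u) (h1 : u ^ 2 * (1 - z) ≤ 4 / 25 * w) (h2 : u ^ 2 * (1 - z) ≤ 1) :
    FpuOK fpuD10 z w u := by
  have hU : u ≤ 119 / 100 := fpu_ub (z := z) (zM := 9 / 31) (by linarith only [hmz, hwb]) (by norm_num) (K := 1) h2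
    (by norm_num) (by norm_num)
  have hLo : ∀ E ∈ fpuLo10, E.R z w u ≤ 0 := by
    apply FpuD.Lo_R
    · simp only [Fr.R]
      push_cast
      linarith only [hmz]
    · exact h1
    · exact h2
    · simp only [Fr.R]
      push_cast
      linarith only [hM]
  have hb : fpuB10.ok = true := by decide
  have hm : fpuB10.mem z w u := by
    refine ⟨⟨?_, ?_⟩, ⟨?_, ?_⟩, ?_, ?_⟩ <;> simp only [fpuB10] <;> push_cast <;> linarith only [hM, hwa, hU, hmz, hwb, hu]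
  exact FpuOK.of (FpuB.sound hb hm hLo fpu_chk10NA) (FpuB.sound hb hm hLo fpu_chk10NG)
    (FpuB.sound hb hm hLo fpu_chk10G1) (FpuB.sound hb hm hLo fpu_chk10G2)
    (FpuB.sound hb hm hLo fpu_chk10G3)

theorem fpu_ok11 {z w u : ℝ} (hz0 : 0 ≤ z) (hmz : 48 * z ≤ w) (hwa : 25 / 4 ≤ w)
    (hwb : w ≤ 121 / 16) (hu : 0 ≤ u) (h1 : u ^ 2 * (1 - z) ≤ 4 / 25 * w) (h2 : u ^ 2 * (1 - z) ≤ 1) :
    FpuOK fpuD11 z w u := by
  have hU : u ≤ 109 / 100 := fpu_ub (z := z) (zM := 121 / 768) (by linarith only [hmz, hwb]) (by norm_num) (K := 1) h2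
    (by norm_num) (by norm_num)
  have hLo : ∀ E ∈ fpuLo11, E.R z w u ≤ 0 := by
    apply FpuD.Lo'_R
    · simp only [Fr.R]
      push_cast
      linarith only [hmz]
    · exact h1
    · exact h2
  have hb : fpuB11.ok = true := by decide
  have hm : fpuB11.mem z w u := by
    refine ⟨⟨?_, ?_⟩, ⟨?_, ?_⟩, ?_, ?_⟩ <;> simp only [fpuB11] <;> push_cast <;> linarith only [hU, hmz, hwb, hu, hwa, hz0]
  exact FpuOK.of (FpuB.sound hb hm hLo fpu_chk11NA) (FpuB.sound hb hm hLo fpu_chk11NG)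
    (FpuB.sound hb hm hLo fpu_chk11G1) (FpuB.sound hb hm hLo fpu_chk11G2)
    (FpuB.sound hb hm hLo fpu_chk11G3)

theorem fpu_ok12 {z w u : ℝ} (hz0 : 0 ≤ z) (hmz : 48 * z ≤ w) (hwa : 121 / 16 ≤ w)
    (hwb : w ≤ 9) (hu : 0 ≤ u) (h1 : u ^ 2 * (1 - z) ≤ 4 / 25 * w) (h2 : u ^ 2 * (1 - z) ≤ 1) :
    FpuOK fpuD12 z w u := by
  have hU : u ≤ 111 / 100 := fpu_ub (z := z) (zM := 3 / 16) (by (clear * - hmz hwb; linarith)) (by norm_num) (K := 1) h2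
    (by norm_num) (by norm_num)
  have hLo : ∀ E ∈ fpuLo12, E.R z w u ≤ 0 := by
    apply FpuD.Lo'_R
    · simp only [Fr.R]
      push_cast
      linarith only [hmz]
    · exact h1
    · exact h2
  have hb : fpuB12.ok = true := by decide
  have hm : fpuB12.mem z w u := by
    refine ⟨⟨?_, ?_⟩, ⟨?_, ?_⟩, ?_, ?_⟩ <;> simp only [fpuB12] <;> push_cast <;> linarith only [hU, hmz, hwb, hu, hwa, hz0]
  exact FpuOK.of (FpuB.sound hb hm hLo fpu_chk12NA) (FpuB.sound hb hm hLo fpu_chk12NG)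
    (FpuB.sound hb hm hLo fpu_chk12G1) (FpuB.sound hb hm hLo fpu_chk12G2)
    (FpuB.sound hb hm hLo fpu_chk12G3)

end Vale.Agent.P237.AllN
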