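import Vale.Agent.P237.AllN.FPuK

/-!
# P237, block D, `l > 0`, `1 ≤ m z ≤ 9`, `u ≥ 0`: kernel checks, slabs 1 to 6
-/

namespace Vale.Agent.P237.AllN

open PolyPos

set_option maxRecDepth 100000

/-- slab 1 -/
def fpuD1 : FpuD :=
  ⟨⟨779, 499⟩, ⟨5, 0⟩, ⟨61, 9⟩, ⟨5, 1⟩, ⟨53, 0⟩, ⟨27, 39⟩, ⟨3, 9⟩, ⟨29, 9⟩, ⟨2, 4⟩, ⟨73, 99⟩, ⟨267, 999⟩⟩

/-- box 1 -/
def fpuB1 : FpuB := ⟨0, 2, 27, 1, 2, 1, 0, 59, 100⟩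

/-- region 1 -/
def fpuLo1 : List Ex3 := FpuD.Lo' ⟨27, 0⟩

theorem fpu_chk1NA : fpuB1.chk 512 12 fpuD1.xNA fpuLo1 (.leaf 0) = true := by
  decide +kernel

theorem fpu_chk1NG : fpuB1.chk 512 12 fpuD1.xNG fpuLo1 (.leaf 0) = true := by
  decide +kernel

/-- tree -/
def fpuT1G1 : PT3 :=
  .sx (.leaf 0) (.sx (.sy (.sy (.sz (.leaf 0) (.sz (.leaf 0) (.sy (.out 1) (.leaf 0)))) (.leaf
  0)) (.leaf 0)) (.sy (.sy (.out 0) (.sz (.leaf 0) (.sz (.leaf 0) (.sy (.out 0) (.leaf 0)))))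
  (.leaf 0)))

theorem fpu_chk1G1 : fpuB1.chk 512 12 fpuD1.xG1 fpuLo1 fpuT1G1 = true := by
  decide +kernel

/-- tree -/
def fpuT1G2 : PT3 :=
  .sx (.leaf 0) (.sz (.sz (.leaf 0) (.sx (.leaf 0) (.sy (.sy (.out 0) (.leaf 0)) (.leaf 0))))
  (.sx (.leaf 0) (.sy (.sy (.out 0) (.sy (.out 0) (.sz (.leaf 0) (.sz (.leaf 0) (.out 1)))))
  (.leaf 0))))

theorem fpu_chk1G2 : fpuB1.chk 512 12 fpuD1.xG2 fpuLo1 fpuT1G2 = true := by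
  decide +kernel

theorem fpu_chk1G3 : fpuB1.chk 512 12 fpuD1.xG3 fpuLo1 (.leaf 0) = true := by
  decide +kernel

/-- slab 2 -/
def fpuD2 : FpuD :=
  ⟨⟨779, 499⟩, ⟨5, 0⟩, ⟨61, 9⟩, ⟨5, 1⟩, ⟨53, 0⟩, ⟨27, 39⟩, ⟨3, 9⟩, ⟨29, 9⟩, ⟨2, 4⟩, ⟨28, 24⟩, ⟨157, 499⟩⟩

/-- box 2 -/
def fpuB2 : FpuB := ⟨0, 1, 9, 2, 3, 1, 0, 37, 50⟩

/-- region 2 -/
def fpuLo2 : List Ex3 := FpuD.Lo' ⟨27, 0⟩

theorem fpu_chk2NA : fpuB2.chk 512 12 fpuD2.xNA fpuLo2 (.leaf 0) = true := by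
  decide +kernel

theorem fpu_chk2NG : fpuB2.chk 512 12 fpuD2.xNG fpuLo2 (.leaf 0) = true := by
  decide +kernel

/-- tree -/
def fpuT2G1 : PT3 :=
  .sy (.sy (.sz (.leaf 0) (.sz (.leaf 0) (.sx (.leaf 0) (.sy (.sz (.sx (.leaf 0) (.out 0))
  (.out 1)) (.sz (.leaf 0) (.out 1)))))) (.leaf 0)) (.leaf 0)

theorem fpu_chk2G1 : fpuB2.chk 512 12 fpuD2.xG1 fpuLo2 fpuT2G1 = true := by
  decide +kernel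

/-- tree -/
def fpuT2G2 : PT3 :=
  .sx (.leaf 0) (.sx (.leaf 0) (.sy (.sy (.sz (.leaf 0) (.sy (.out 0) (.sz (.leaf 0) (.sz
  (.leaf 0) (.out 1))))) (.sz (.leaf 0) (.sz (.leaf 0) (.sy (.sy (.sz (.leaf 0) (.out 1))
  (.leaf 0)) (.leaf 0))))) (.leaf 0)))

theorem fpu_chk2G2 : fpuB2.chk 512 12 fpuD2.xG2 fpuLo2 fpuT2G2 = true := by
  decide +kernel

theorem fpu_chk2G3 : fpuB2.chk 512 12 fpuD2.xG3 fpuLo2 (.leaf 0) = true := by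
  decide +kernel

/-- slab 3 -/
def fpuD3 : FpuD :=
  ⟨⟨779, 499⟩, ⟨5, 0⟩, ⟨61, 9⟩, ⟨5, 1⟩, ⟨53, 0⟩, ⟨27, 39⟩, ⟨3, 9⟩, ⟨29, 9⟩, ⟨2, 4⟩, ⟨157, 99⟩, ⟨19, 99⟩⟩

/-- box 3 -/
def fpuB3 : FpuB := ⟨0, 4, 27, 3, 4, 1, 0, 87, 100⟩

/-- region 3 -/
def fpuLo3 : List Ex3 := FpuD.Lo' ⟨27, 0⟩

theorem fpu_chk3NA : fpuB3.chk 512 12 fpuD3.xNA fpuLo3 (.leaf 0) = true := by
  decide +kernel

theorem fpu_chk3NG : fpuB3.chk 512 12 fpuD3.xNG fpuLo3 (.leaf 0) = true := by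
  decide +kernel

theorem fpu_chk3G1 : fpuB3.chk 512 12 fpuD3.xG1 fpuLo3 (.leaf 0) = true := by
  decide +kernel

/-- tree -/
def fpuT3G2 : PT3 :=
  .sy (.sy (.sz (.leaf 0) (.sz (.sx (.leaf 0) (.sz (.leaf 0) (.sy (.sx (.leaf 0) (.sx (.leaf 0)
  (.out 0))) (.leaf 0)))) (.sx (.leaf 0) (.sz (.sx (.leaf 0) (.sx (.leaf 0) (.out 0))) (.sy
  (.sx (.leaf 0) (.sx (.leaf 0) (.out 0))) (.sx (.leaf 0) (.sz (.sx (.leaf 0) (.out 0)) (.out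
  1)))))))) (.sz (.leaf 0) (.sz (.leaf 0) (.sx (.leaf 0) (.sz (.leaf 0) (.sy (.sx (.leaf 0)
  (.sx (.leaf 0) (.out 0))) (.sx (.leaf 0) (.sx (.leaf 0) (.sz (.leaf 0) (.out 1))))))))))
  (.leaf 0)

theorem fpu_chk3G2 : fpuB3.chk 512 12 fpuD3.xG2 fpuLo3 fpuT3G2 = true := by
  decide +kernel

theorem fpu_chk3G3 : fpuB3.chk 512 12 fpuD3.xG3 fpuLo3 (.leaf 0) = true := by
  decide +kernel

/-- slab 4 -/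
def fpuD4 : FpuD :=
  ⟨⟨779, 499⟩, ⟨5, 0⟩, ⟨61, 9⟩, ⟨5, 1⟩, ⟨53, 0⟩, ⟨27, 39⟩, ⟨3, 9⟩, ⟨29, 9⟩, ⟨2, 4⟩, ⟨73, 49⟩, ⟨23, 99⟩⟩

/-- box 4 -/
def fpuB4 : FpuB := ⟨0, 5, 27, 4, 5, 1, 0, 1, 1⟩

/-- region 4 -/
def fpuLo4 : List Ex3 := FpuD.Lo' ⟨27, 0⟩

theorem fpu_chk4NA : fpuB4.chk 512 12 fpuD4.xNA fpuLo4 (.leaf 0) = true := by
  decide +kernel

theorem fpu_chk4NG : fpuB4.chk 512 12 fpuD4.xNG fpuLo4 (.leaf 0) = true := by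
  decide +kernel

theorem fpu_chk4G1 : fpuB4.chk 512 12 fpuD4.xG1 fpuLo4 (.leaf 0) = true := by
  decide +kernel

/-- tree -/
def fpuT4G2 : PT3 :=
  .sx (.leaf 0) (.sz (.leaf 0) (.sy (.sy (.sy (.sx (.leaf 0) (.sz (.leaf 0) (.sy (.sz (.sz
  (.leaf 0) (.sx (.leaf 0) (.out 0))) (.sz (.sx (.leaf 0) (.out 0)) (.out 1))) (.sz (.leaf 0)
  (.sz (.sx (.leaf 0) (.out 0)) (.out 1)))))) (.sx (.leaf 0) (.sz (.leaf 0) (.sz (.leaf 0) (.sy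
  (.sz (.leaf 0) (.out 1)) (.sz (.leaf 0) (.out 1))))))) (.leaf 0)) (.leaf 0)))

theorem fpu_chk4G2 : fpuB4.chk 512 12 fpuD4.xG2 fpuLo4 fpuT4G2 = true := by
  decide +kernel

theorem fpu_chk4G3 : fpuB4.chk 512 12 fpuD4.xG3 fpuLo4 (.leaf 0) = true := by
  decide +kernel

/-- slab 5 -/
def fpuD5 : FpuD :=
  ⟨⟨779, 499⟩, ⟨5, 0⟩, ⟨61, 9⟩, ⟨5, 1⟩, ⟨53, 0⟩, ⟨27, 39⟩, ⟨3, 9⟩, ⟨29, 9⟩, ⟨2, 4⟩, ⟨42, 24⟩, ⟨219, 999⟩⟩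

/-- box 5 -/
def fpuB5 : FpuB := ⟨0, 25, 108, 20, 25, 4, 0, 23, 20⟩

/-- region 5 -/
def fpuLo5 : List Ex3 := FpuD.Lo' ⟨27, 0⟩

theorem fpu_chk5NA : fpuB5.chk 512 12 fpuD5.xNA fpuLo5 (.leaf 0) = true := by
  decide +kernel

theorem fpu_chk5NG : fpuB5.chk 512 12 fpuD5.xNG fpuLo5 (.leaf 0) = true := by
  decide +kernel

/-- tree -/
def fpuT5G1 : PT3 :=
  .sx (.leaf 0) (.sy (.sy (.sz (.leaf 0) (.sz (.leaf 0) (.sy (.sz (.leaf 0) (.sx (.leaf 0) (.sx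
  (.leaf 0) (.out 0)))) (.sz (.leaf 0) (.sx (.leaf 0) (.sx (.leaf 0) (.out 0))))))) (.sz (.leaf
  0) (.sz (.leaf 0) (.sy (.sz (.leaf 0) (.sx (.leaf 0) (.sz (.leaf 0) (.out 1)))) (.leaf 0)))))
  (.leaf 0))

theorem fpu_chk5G1 : fpuB5.chk 512 12 fpuD5.xG1 fpuLo5 fpuT5G1 = true := by
  decide +kernel

/-- tree -/
def fpuT5G2 : PT3 :=
  .sx (.leaf 0) (.sy (.sy (.sz (.leaf 0) (.sz (.leaf 0) (.sy (.sz (.sx (.leaf 0) (.sz (.leaf 0)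
  (.sy (.sx (.leaf 0) (.out 0)) (.leaf 0)))) (.sx (.leaf 0) (.sz (.sy (.sx (.leaf 0) (.out 0))
  (.sx (.leaf 0) (.out 0))) (.out 1)))) (.sz (.leaf 0) (.sx (.leaf 0) (.sz (.sy (.sx (.leaf 0)
  (.out 0)) (.leaf 0)) (.out 1))))))) (.leaf 0)) (.leaf 0))

theorem fpu_chk5G2 : fpuB5.chk 512 12 fpuD5.xG2 fpuLo5 fpuT5G2 = true := by
  decide +kernel

theorem fpu_chk5G3 : fpuB5.chk 512 12 fpuD5.xG3 fpuLo5 (.leaf 0) = true := by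
  decide +kernel

/-- slab 6 -/
def fpuD6 : FpuD :=
  ⟨⟨779, 499⟩, ⟨5, 0⟩, ⟨61, 9⟩, ⟨5, 1⟩, ⟨53, 0⟩, ⟨27, 39⟩, ⟨3, 9⟩, ⟨29, 9⟩, ⟨2, 4⟩, ⟨19, 9⟩, ⟨21, 124⟩⟩

/-- box 6 -/
def fpuB6 : FpuB := ⟨0, 121, 432, 100, 121, 16, 0, 59, 50⟩

/-- region 6 -/
def fpuLo6 : List Ex3 := FpuD.Lo' ⟨27, 0⟩

theorem fpu_chk6NA : fpuB6.chk 512 12 fpuD6.xNA fpuLo6 (.leaf 0) = true := by
  decide +kernel

theorem fpu_chk6NG : fpuB6.chk 512 12 fpuD6.xNG fpuLo6 (.leaf 0) = true := by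
  decide +kernel

/-- tree -/
def fpuT6G1 : PT3 :=
  .sx (.leaf 0) (.sz (.leaf 0) (.sy (.sy (.sy (.sz (.leaf 0) (.sz (.leaf 0) (.sx (.leaf 0) (.sx
  (.leaf 0) (.out 0))))) (.sz (.leaf 0) (.sz (.leaf 0) (.sx (.leaf 0) (.sx (.leaf 0) (.out
  0)))))) (.leaf 0)) (.leaf 0)))

theorem fpu_chk6G1 : fpuB6.chk 512 12 fpuD6.xG1 fpuLo6 fpuT6G1 = true := by
  decide +kernel

/-- tree -/
def fpuT6G2 : PT3 :=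
  .sx (.leaf 0) (.sz (.leaf 0) (.sy (.sy (.sy (.sz (.leaf 0) (.sz (.leaf 0) (.sx (.leaf 0) (.sx
  (.leaf 0) (.out 0))))) (.sz (.leaf 0) (.sz (.leaf 0) (.sx (.leaf 0) (.sx (.leaf 0) (.out
  0)))))) (.leaf 0)) (.leaf 0)))

theorem fpu_chk6G2 : fpuB6.chk 512 12 fpuD6.xG2 fpuLo6 fpuT6G2 = true := by
  decide +kernel

theorem fpu_chk6G3 : fpuB6.chk 512 12 fpuD6.xG3 fpuLo6 (.leaf 0) = true := by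
  decide +kernel

end Vale.Agent.P237.AllN
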