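import Vale.Agent.P237.AllN.KronEx

/-!
# P237, block D, `X ≥ 3`, `u ≤ 0`: polynomial expressions for the lower bound of `T(l, 0)`

Variables `X = θ = z e^{2l}`, `Y = E = e^{-2l}`, `z = θ E`.
-/

namespace Vale.Agent.P237.AllN

open PolyPos

/-- `z = θ E` -/
def xsZ : Ex := Ex.X * Ex.Y

def xsD : Ex := Ex.c ⟨1, 0⟩ - Ex.Y

def xsS2 : Ex := Ex.c ⟨1, 0⟩ - xsZ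

def xsE2 : Ex := Ex.Y * Ex.Y

def xsE3 : Ex := xsE2 * Ex.Y

def xsE4 : Ex := xsE3 * Ex.Y

def xsE5 : Ex := xsE4 * Ex.Y

def xsE6 : Ex := xsE5 * Ex.Y

def xsZ2 : Ex := xsZ * xsZ

def xsZ3 : Ex := xsZ2 * xsZ

def xsZ4 : Ex := xsZ3 * xsZ

def xsZ5 : Ex := xsZ4 * xsZ

def xsT2 : Ex := Ex.X * Ex.X

def xsT3 : Ex := xsT2 * Ex.X

def xsT4 : Ex := xsT3 * Ex.X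

def xsT5 : Ex := xsT4 * Ex.X

def xsQd : Ex := Ex.c ⟨3, 0⟩ * (Ex.c ⟨1, 0⟩ + Ex.Y) * (Ex.c ⟨1, 0⟩ + Ex.c ⟨8, 0⟩ * Ex.Y + xsE2)

def xsNn : Ex := Ex.c ⟨11, 0⟩ + Ex.c ⟨38, 0⟩ * Ex.Y + Ex.c ⟨11, 0⟩ * xsE2

def xsP43 : Ex := Ex.c ⟨4, 0⟩ - Ex.c ⟨3, 0⟩ * xsZ

def xsP41 : Ex := Ex.c ⟨4, 0⟩ - xsZ

def xsR16 : Ex := Ex.c ⟨16, 0⟩ - Ex.c ⟨12, 0⟩ * xsZ + xsZ2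

def xsB3 : Ex := Ex.c ⟨4, 0⟩ - Ex.c ⟨2, 0⟩ * xsZ - Ex.c ⟨3, 0⟩ * Ex.X + xsZ * Ex.X

def xsRB : Ex := xsR16 * xsB3

def xsQ2 : Ex := xsQd * xsQd

def xsDN : Ex := xsD * xsNn

def xsDNQ : Ex := xsDN * xsQd

def xsDN2 : Ex := xsDN * xsDN

def xsDn1s : Ex := xsP43 * xsS2 * xsRB

def xsDn1 : Ex := xsDn1s * xsS2

def xsKA2 : Ex := Ex.Y * (Ex.c ⟨9, 15⟩ * xsZ * (xsE2 - Ex.c ⟨1, 0⟩))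

def xsKB2 : Ex := Ex.c ⟨3, 15⟩ * (Ex.X - Ex.Y * xsZ)

def xsKC2 : Ex := Ex.Y * (Ex.c ⟨3, 3⟩ * xsZ)

def xsKA3 : Ex := Ex.Y * (Ex.c ⟨25, 47⟩ * xsZ2 * (xsE3 - Ex.c ⟨1, 0⟩))

def xsKB3 : Ex := Ex.c ⟨5, 47⟩ * (xsT2 - Ex.Y * xsZ2)

def xsKC3 : Ex := Ex.Y * (Ex.c ⟨5, 7⟩ * xsZ2)

def xsKA4 : Ex := Ex.Y * (Ex.c ⟨245, 511⟩ * xsZ3 * (xsE4 - Ex.c ⟨1, 0⟩))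

def xsKB4 : Ex := Ex.c ⟨35, 511⟩ * (xsT3 - Ex.Y * xsZ3)

def xsKC4 : Ex := Ex.Y * (Ex.c ⟨35, 63⟩ * xsZ3)

def xsKA5 : Ex := Ex.Y * (Ex.c ⟨567, 1279⟩ * xsZ4 * (xsE5 - Ex.c ⟨1, 0⟩))

def xsKB5 : Ex := Ex.c ⟨63, 1279⟩ * (xsT4 - Ex.Y * xsZ4)

def xsKC5 : Ex := Ex.Y * (Ex.c ⟨63, 127⟩ * xsZ4)

def xsKA6 : Ex := Ex.Y * (Ex.c ⟨847, 2047⟩ * xsZ5 * (xsE6 - Ex.c ⟨1, 0⟩))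

def xsKB6 : Ex := Ex.c ⟨77, 2047⟩ * (xsT5 - Ex.Y * xsZ5)

def xsKC6 : Ex := Ex.Y * (Ex.c ⟨231, 511⟩ * xsZ5)

def xsF0wk : Ex := xsKA2 + xsKA3 + xsKA4 + xsKA5 + xsKA6 - (xsKB2 + xsKB3 + xsKB4 + xsKB5 + xsKB6)

def xsF0ck : Ex := xsKA2 * (Ex.c ⟨5, 0⟩ * xsZ - Ex.c ⟨2, 0⟩) + xsKA3 * (Ex.c ⟨7, 0⟩ * xsZ - Ex.c ⟨4, 0⟩) + xsKA4 * (Ex.c ⟨9, 0⟩ * xsZ - Ex.c ⟨6, 0⟩) + xsKA5 * (Ex.c ⟨11, 0⟩ * xsZ - Ex.c ⟨8, 0⟩) + xsKA6 * (Ex.c ⟨13, 0⟩ * xsZ - Ex.c ⟨10, 0⟩) -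
  (xsKB2 * (Ex.c ⟨5, 0⟩ * xsZ) + xsKB3 * (Ex.c ⟨7, 0⟩ * xsZ) + xsKB4 * (Ex.c ⟨9, 0⟩ * xsZ) + xsKB5 * (Ex.c ⟨11, 0⟩ * xsZ) + xsKB6 * (Ex.c ⟨13, 0⟩ * xsZ))

def xsF1wk : Ex := xsKC2 * Ex.c ⟨2, 0⟩ + xsKC3 * Ex.c ⟨3, 0⟩ + xsKC4 * Ex.c ⟨4, 0⟩ + xsKC5 * Ex.c ⟨5, 0⟩ + xsKC6 * Ex.c ⟨6, 0⟩

def xsF1ck : Ex := xsKC2 * (Ex.c ⟨10, 0⟩ * xsZ - Ex.c ⟨3, 0⟩) + xsKC3 * (Ex.c ⟨21, 0⟩ * xsZ - Ex.c ⟨10, 0⟩) + xsKC4 * (Ex.c ⟨36, 0⟩ * xsZ - Ex.c ⟨21, 0⟩) + xsKC5 * (Ex.c ⟨55, 0⟩ * xsZ - Ex.c ⟨36, 0⟩) + xsKC6 * (Ex.c ⟨78, 0⟩ * xsZ - Ex.c ⟨55, 0⟩)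

def xsF2wk : Ex := xsKC2 * Ex.c ⟨1, 0⟩ + xsKC3 * Ex.c ⟨3, 0⟩ + xsKC4 * Ex.c ⟨6, 0⟩ + xsKC5 * Ex.c ⟨10, 0⟩ + xsKC6 * Ex.c ⟨15, 0⟩

def xsF2ck : Ex := xsKC2 * Ex.c ⟨1, 0⟩ * (Ex.c ⟨5, 0⟩ * xsZ - Ex.c ⟨3, 0⟩) + xsKC3 * Ex.c ⟨3, 0⟩ * (Ex.c ⟨7, 0⟩ * xsZ - Ex.c ⟨5, 0⟩) + xsKC4 * Ex.c ⟨6, 0⟩ * (Ex.c ⟨9, 0⟩ * xsZ - Ex.c ⟨7, 0⟩) + xsKC5 * Ex.c ⟨10, 0⟩ * (Ex.c ⟨11, 0⟩ * xsZ - Ex.c ⟨9, 0⟩) + xsKC6 * Ex.c ⟨15, 0⟩ * (Ex.c ⟨13, 0⟩ * xsZ - Ex.c ⟨11, 0⟩)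

def xsF0w (o : Fr) : Ex := (xsF0wk - Ex.c o * xsD * Ex.Y) * (xsQ2 * xsDn1)

def xsF0c (o : Fr) : Ex := (xsF0ck - Ex.c o * xsD * Ex.Y * (Ex.c ⟨3, 0⟩ * xsZ)) * (xsQ2 * xsDn1) -
  xsP43 * xsP43 * xsP41 * (Ex.X * xsD) * (xsS2 * xsS2) * xsQ2 * Ex.Y

def xsF1w (o : Fr) : Ex := (xsF1wk + Ex.c o * Ex.Y) * xsDn1 * xsDNQ

def xsF1c (o : Fr) : Ex := ((xsF1ck + Ex.c o * Ex.Y * (Ex.c ⟨3, 0⟩ * xsZ)) * xsDn1 +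
  xsZ * xsP43 * xsP43 * xsS2 * xsB3 * Ex.Y) * xsDNQ

def xsAA : Ex := Ex.c ⟨3, 3⟩ * xsZ * xsP41 * xsRB

def xsPot : Ex := Ex.c ⟨3, 99⟩ * xsP43 * xsS2 * xsRB

def xsF2w : Ex := (xsAA * Ex.Y + xsPot * Ex.Y * (Ex.c ⟨3, 0⟩ * xsZ - Ex.c ⟨3, 0⟩ * xsS2) - xsF2wk * xsDn1) * xsDN2

def xsF2c : Ex := (Ex.c ⟨0, 0⟩ - xsAA * Ex.Y * Ex.c ⟨3, 0⟩ - xsPot * Ex.Y * (Ex.c ⟨9, 0⟩ * xsZ * xsS2) - xsF2ck * xsDn1) * xsDN2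

def xsP0 (o : Fr) : Ex := xsF0c o + xsF1c o + xsF2c

def xsP1 (o : Fr) : Ex := xsF0w o + xsF1w o + xsF2w

def xsP2 : Ex := xsPot * xsDN2

def xsU0 : Ex := Ex.c ⟨2, 0⟩ * Ex.X * xsDn1

def xsV0 : Ex := (Ex.c ⟨1, 0⟩ - Ex.X) * xsDn1s

def xsG : Ex := Ex.c ⟨3, 24⟩ * xsDNQ

def xsX0 : Ex := Ex.c ⟨3, 0⟩ * xsZ * (xsU0 - (xsZ + Ex.c ⟨1, 0⟩) * xsV0)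

def xsX1 : Ex := xsU0 - (xsZ + Ex.c ⟨1, 0⟩) * xsV0 - Ex.c ⟨3, 0⟩ * xsZ * xsV0

def xsR0 (o : Fr) : Ex := Ex.c ⟨2, 0⟩ * Ex.X * xsP0 o + xsG * Ex.Y * xsX0

def xsR1 (o : Fr) : Ex := Ex.c ⟨2, 0⟩ * Ex.X * xsP1 o + xsG * Ex.Y * xsX1

def xsR2 : Ex := Ex.c ⟨2, 0⟩ * Ex.X * xsP2 - xsG * xsV0

/-- `ω = 27 z + w` -/
def xsFa (p0 p1 p2 : Ex) : List Ex :=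
  [p0 + Ex.c ⟨27, 0⟩ * xsZ * p1 + Ex.c ⟨729, 0⟩ * xsZ2 * (Ex.Y * p2),
    p1 + Ex.c ⟨54, 0⟩ * xsZ * (Ex.Y * p2), p2]

/-- `ω = 9 + w` -/
def xsFc (p0 p1 p2 : Ex) : List Ex :=
  [p0 + Ex.c ⟨9, 0⟩ * p1 + Ex.c ⟨81, 0⟩ * (Ex.Y * p2), p1 + Ex.c ⟨18, 0⟩ * (Ex.Y * p2), p2]

/-- `ω = c/E + w` -/
def xsFb (c c2 cc : Fr) (p0 p1 p2 : Ex) : List Ex :=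
  [Ex.Y * p0 + Ex.c c * p1 + Ex.c cc * p2, p1 + Ex.c c2 * p2, p2]

def xsFam (o c c2 cc : Fr) : List (List Ex) :=
  [xsFb c c2 cc (xsP0 o) (xsP1 o) xsP2, xsFc (xsP0 o) (xsP1 o) xsP2,
    xsFb c c2 cc (xsR0 o) (xsR1 o) xsR2, xsFa (xsP0 o) (xsP1 o) xsP2,
    xsFa (xsR0 o) (xsR1 o) xsR2]

/-- region `za ≤ z ≤ zb` -/
def xsLo (za zb : Fr) : Ex := (xsZ - Ex.c za) * (xsZ - Ex.c zb)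

end Vale.Agent.P237.AllN
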