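import Vale.Agent.P237.AllN.FXnT

/-!
# P237, block D, `X ≥ 3`, `u ≤ 0`: bounds of the correction
-/

namespace Vale.Agent.P237.AllN

open PolyPos

theorem xs_G1 {s v : ℝ} (hs : 0 < s) (hv : 0 ≤ v) :
    -(s * (s ^ 2 - v ^ 2) / ((1 + s) * (s ^ 2 + v ^ 2 + 2 * s * v ^ 2))) ≤
      v / (1 + v) - s / (1 + s) := by
  have e : v / (1 + v) - s / (1 + s) -
      -(s * (s ^ 2 - v ^ 2) / ((1 + s) * (s ^ 2 + v ^ 2 + 2 * s * v ^ 2))) =
      v * (s - v) ^ 2 / ((1 + v) * (s ^ 2 + v ^ 2 + 2 * s * v ^ 2)) := by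
    have h1 : (1 + v) ≠ 0 := by (clear * - hv; positivity)
    have h2 : (1 + s) ≠ 0 := by positivity
    have h3 : s ^ 2 + v ^ 2 + 2 * s * v ^ 2 ≠ 0 := by positivity
    field_simp
    ring
  have : 0 ≤ v * (s - v) ^ 2 / ((1 + v) * (s ^ 2 + v ^ 2 + 2 * s * v ^ 2)) := by (clear * - hv hs; positivity)
  linarith

theorem xs_G2 {z s h Y B : ℝ} (hs : 0 < s) (hh0 : 0 ≤ h) (hB : 0 < B)
    (hY : 0 < Y) (key : 2 * (1 + s) * B ≤ (4 - z) * Y) :
    2 * (s * h / ((1 + s) * Y)) ≤ h * (s * (4 - z)) / ((1 + s) ^ 2 * B) := by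
  rw [← mul_div_assoc, div_le_div_iff₀ (by positivity) (by (clear * - hs hB; positivity))]
  have h1 := mul_le_mul_of_nonneg_left key (by positivity : 0 ≤ s * h * (1 + s))
  calc 2 * (s * h) * ((1 + s) ^ 2 * B) = s * h * (1 + s) * (2 * (1 + s) * B) := by ring
    _ ≤ s * h * (1 + s) * ((4 - z) * Y) := h1
    _ = h * (s * (4 - z)) * ((1 + s) * Y) := by ring

theorem xs_G3 {z s : ℝ} (hz : 0 < z) (hz1 : z ≤ 49 / 100) (hs : 0 < s)
    (hsz : s ^ 2 = 1 - z) (hsl2 : s * (4 - z) ≤ 4 - 3 * z) :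
    z / (s * (1 + s) ^ 2) ≤ z * (4 - 3 * z) / ((1 - z) * (16 - 12 * z + z ^ 2)) := by
  have h1z : (0 : ℝ) < 1 - z := by linarith only [hz1]
  have hR : 0 < 16 - 12 * z + z ^ 2 := by nlinarith only [hz1]
  rw [div_le_div_iff₀ (by positivity) (by (clear * - h1z hR; positivity))]
  have e : (4 - 3 * z) * (s * (1 + s) ^ 2) - (1 - z) * (16 - 12 * z + z ^ 2) =
      s * ((2 - z) * ((4 - 3 * z) - s * (4 - z))) +
        (s ^ 2 - (1 - z)) * (s * (4 - 3 * z) + 16 - 12 * z + z ^ 2) +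
        (s ^ 2 * (2 * (4 - 3 * z) + (2 - z) * (4 - z)) - (1 - z) * (2 * (4 - 3 * z) + (2 - z) * (4 - z)) +
        (s ^ 2 - (1 - z)) * (-(16 - 12 * z + z ^ 2))) := by
    ring
  have h2 : 0 ≤ s * ((2 - z) * ((4 - 3 * z) - s * (4 - z))) :=
    mul_nonneg hs.le (mul_nonneg (by linarith only [hz1]) (by linarith only [hsl2]))
  rw [hsz] at e
  have h3 : (1 - z) * (16 - 12 * z + z ^ 2) ≤ (4 - 3 * z) * (s * (1 + s) ^ 2) := by linarith only [e, h2]
  have h4 := mul_le_mul_of_nonneg_left h3 hz.le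
  linarith only [h4]

/-- lower bound of the correction, `q = e^{2l}`, `v = √(1-θ)` -/
theorem xs_G {z s v q lam : ℝ} (hz : 0 < z) (hz1 : z ≤ 49 / 100) (hs : 0 < s)
    (hsz : s ^ 2 = 1 - z) (hv : 0 ≤ v) (hvq : v ^ 2 = 1 - z * q) (hq : 1 ≤ q)
    (hlam : lam ≤ q - 1) :
    -((4 - 3 * z) * (4 - z) * (z * q - z) / ((16 - 12 * z + z ^ 2) *
        (4 - 2 * z - 3 * (z * q) + z * (z * q)))) +
      z * (4 - 3 * z) / ((1 - z) * (16 - 12 * z + z ^ 2)) * lam ≤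
    2 * (v / (1 + v) - s / (1 + s)) + z / (s * (1 + s) ^ 2) * lam := by
  have hsl : s ≤ 1 - z / 2 := by
    apply le_of_sq_le_sq _ (by linarith only [hz1])
    rw [hsz]
    nlinarith only [sq_nonneg z]
  have hsl2 : s * (4 - z) ≤ 4 - 3 * z := by
    apply le_of_sq_le_sq _ (by linarith only [hz1])
    rw [mul_pow, hsz]
    have := pow_pos hz 3
    linear_combination this
  have hzq1 : z * q ≤ 1 := by nlinarith only [hvq]
  have hzz : z * z ≤ z * (z * q) := mul_le_mul_of_nonneg_left (by nlinarith only [hz, hq]) hz.le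
  obtain ⟨h, hh⟩ : ∃ h, h = z * q - z := ⟨_, rfl⟩
  have hh0 : 0 ≤ h := by rw [hh]; nlinarith only [hz, hq]
  have hh1 : h = s ^ 2 - v ^ 2 := by rw [hvq, hsz, hh]; ring
  have hR : 0 < 16 - 12 * z + z ^ 2 := by nlinarith only [hz1]
  obtain ⟨B, hBd⟩ : ∃ B, B = 4 - 2 * z - 3 * (z * q) + z * (z * q) := ⟨_, rfl⟩
  have hB : 0 < B := by
    rw [hBd]
    nlinarith only [hz1, hvq]
  have hBh : B = s ^ 2 * (4 - z) - h * (3 - z) := by
    rw [hBd, hsz, hh]; ring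
  have hY : 0 < s ^ 2 + v ^ 2 + 2 * s * v ^ 2 := by (clear * - hs; positivity)
  have a1 := xs_G1 hs hv
  rw [← hh1] at a1
  have key : 2 * (1 + s) * B ≤ (4 - z) * (s ^ 2 + v ^ 2 + 2 * s * v ^ 2) := by
    have e : (4 - z) * (s ^ 2 + v ^ 2 + 2 * s * v ^ 2) - 2 * (1 + s) * B =
        h * (2 - z - 2 * s) := by
      rw [hBh, hh1]; ring
    have := mul_nonneg hh0 (by linarith only [hsl] : 0 ≤ 2 - z - 2 * s)
    linarith only [e, this]
  have a2 := xs_G2 hs hh0 hB hY key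
  have a3 := xs_G3 hz hz1 hs hsz hsl2
  have h1z : (0 : ℝ) < 1 - z := by linarith only [hz1]
  have a4 : 0 ≤ (q - 1) * (s ^ 2 * (4 - z) / B) - lam := by
    have h1 : 1 ≤ s ^ 2 * (4 - z) / B := by
      rw [le_div_iff₀ hB, hBh]
      have := mul_nonneg hh0 (by linarith only [hz1] : (0 : ℝ) ≤ 3 - z)
      linarith only [this]
    have h2 := mul_le_mul_of_nonneg_left h1 (by linarith only [hq] : 0 ≤ q - 1)
    linarith only [hlam, h2]
  have a5 := mul_le_mul_of_nonneg_right a3 a4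
  have e1 : z * (q - 1) = h := by rw [hh]; ring
  have e2 : z / (s * (1 + s) ^ 2) * ((q - 1) * (s ^ 2 * (4 - z) / B)) =
      h * (s * (4 - z)) / ((1 + s) ^ 2 * B) := by
    rw [← e1]
    (clear * - hB hs hz; field_simp)
  have e3 : z * (4 - 3 * z) / ((1 - z) * (16 - 12 * z + z ^ 2)) *
      ((q - 1) * (s ^ 2 * (4 - z) / B)) =
      (4 - 3 * z) * (4 - z) * h / ((16 - 12 * z + z ^ 2) * B) := by
    rw [hsz, ← e1]
    (clear * - h1z hB hz; field_simp)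
  rw [mul_sub (z / (s * (1 + s) ^ 2)) ((q - 1) * (s ^ 2 * (4 - z) / B)) lam,
    mul_sub (z * (4 - 3 * z) / ((1 - z) * (16 - 12 * z + z ^ 2)))
      ((q - 1) * (s ^ 2 * (4 - z) / B)) lam, e3, e2] at a5
  rw [← hh, ← hBd]
  linarith only [a1, a2, a5]

end Vale.Agent.P237.AllN
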