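import Vale.Agent.P237.AllN.FXnG

/-!
# P237, block D, `X ≥ 3`, `u ≤ 0`: the certificate polynomials and the bound of `T(l, 0)`
-/

namespace Vale.Agent.P237.AllN

open PolyPos

/-- the P-certificate as a combination of the coefficients -/
theorem xs_idP (θ E ω : ℝ) (o : Fr) :
    (xsP0 o).R θ E + (xsP1 o).R θ E * ω + E * xsP2.R θ E * ω ^ 2 =
      xsQ2.R θ E * (xsDn1.R θ E * (xsF0wk.R θ E * ω + xsF0ck.R θ E -
          o.R * (1 - E) * E * (ω + 3 * (θ * E))) -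
        xsP43.R θ E ^ 2 * xsP41.R θ E * (θ * (1 - E)) * xsS2.R θ E ^ 2 * E) +
      xsDNQ.R θ E * (xsDn1.R θ E * (xsF1wk.R θ E * ω + xsF1ck.R θ E +
          o.R * E * (ω + 3 * (θ * E))) +
        θ * E * xsP43.R θ E ^ 2 * xsS2.R θ E * xsB3.R θ E * E) +
      xsDN2.R θ E * (3 / 4 * (θ * E) * xsP41.R θ E * xsRB.R θ E * (E * (ω - 3)) +
        3 / 100 * xsP43.R θ E * xsS2.R θ E * xsRB.R θ E * (E * (ω + 3 * (θ * E)) *
          (ω - 3 * xsS2.R θ E)) -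
        xsDn1.R θ E * (xsF2wk.R θ E * ω + xsF2ck.R θ E)) := by
  simp only [xsP0, xsP1, xsP2, xsF0w, xsF0c, xsF1w, xsF1c, xsF2w, xsF2c, xsAA, xsPot, xsZ, xsD,
    Ex.R_add, Ex.R_sub, Ex.R_mul, Ex.R_c, Ex.R_X, Ex.R_Y]
  generalize xsQ2.R θ E = Q2
  generalize xsDn1.R θ E = Dn1
  generalize xsDNQ.R θ E = DNQ
  generalize xsDN2.R θ E = DN2
  generalize xsF0wk.R θ E = a0
  generalize xsF0ck.R θ E = b0
  generalize xsF1wk.R θ E = a1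
  generalize xsF1ck.R θ E = b1
  generalize xsF2wk.R θ E = a2
  generalize xsF2ck.R θ E = b2
  generalize xsP43.R θ E = P43
  generalize xsP41.R θ E = P41
  generalize xsB3.R θ E = B3
  generalize xsRB.R θ E = RB
  generalize xsS2.R θ E = S2
  simp only [Fr.R]
  push_cast
  ring

/-- the R-certificate -/
theorem xs_idR (θ E ω : ℝ) (o : Fr) :
    (xsR0 o).R θ E + (xsR1 o).R θ E * ω + E * xsR2.R θ E * ω ^ 2 =
      2 * θ * ((xsP0 o).R θ E + (xsP1 o).R θ E * ω + E * xsP2.R θ E * ω ^ 2) +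
      3 / 25 * xsDNQ.R θ E * E * (ω + 3 * (θ * E)) *
        (2 * θ * xsDn1.R θ E - (ω + θ * E + 1) * (1 - θ) * xsDn1s.R θ E) := by
  simp only [xsR0, xsR1, xsR2, xsU0, xsV0, xsG, xsX0, xsX1, xsZ,
    Ex.R_add, Ex.R_sub, Ex.R_mul, Ex.R_c, Ex.R_X, Ex.R_Y]
  generalize xsDn1.R θ E = Dn1
  generalize xsDn1s.R θ E = Dn1s
  generalize xsDNQ.R θ E = DNQ
  generalize (xsP0 o).R θ E = P0
  generalize (xsP1 o).R θ E = P1
  generalize xsP2.R θ E = P2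
  simp only [Fr.R]
  push_cast
  ring

/-- `ω = 27 z + w` -/
theorem xs_famA {θ E ω : ℝ} {p0 p1 p2 : Ex} (hE : 0 ≤ E) (hw : 27 * (θ * E) ≤ ω)
    (h : ∀ e ∈ xsFa p0 p1 p2, 0 ≤ e.R θ E) :
    0 ≤ p0.R θ E + p1.R θ E * ω + E * p2.R θ E * ω ^ 2 := by
  simp only [xsFa, List.mem_cons, List.not_mem_nil, or_false, forall_eq_or_imp, forall_eq,
    Ex.R_add, Ex.R_sub, Ex.R_mul, Ex.R_c, Ex.R_X, Ex.R_Y, xsZ, xsZ2, Fr.R] at h
  obtain ⟨h0, h1, h2⟩ := h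
  push_cast at h0 h1
  have hw' : 0 ≤ ω - 27 * (θ * E) := by linarith
  have h3 := mul_nonneg h1 hw'
  have h4 := mul_nonneg (mul_nonneg hE h2) (sq_nonneg (ω - 27 * (θ * E)))
  linear_combination h0 + h3 + h4

/-- `ω = 9 + w` -/
theorem xs_famC {θ E ω : ℝ} {p0 p1 p2 : Ex} (hE : 0 ≤ E) (hw : 9 ≤ ω)
    (h : ∀ e ∈ xsFc p0 p1 p2, 0 ≤ e.R θ E) :
    0 ≤ p0.R θ E + p1.R θ E * ω + E * p2.R θ E * ω ^ 2 := by
  simp only [xsFc, List.mem_cons, List.not_mem_nil, or_false, forall_eq_or_imp, forall_eq,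
    Ex.R_add, Ex.R_sub, Ex.R_mul, Ex.R_c, Ex.R_X, Ex.R_Y, xsZ, xsZ2, Fr.R] at h
  obtain ⟨h0, h1, h2⟩ := h
  push_cast at h0 h1
  have hw' : 0 ≤ ω - 9 := by linarith
  have h3 := mul_nonneg h1 hw'
  have h4 := mul_nonneg (mul_nonneg hE h2) (sq_nonneg (ω - 9))
  linear_combination h0 + h3 + h4

/-- `ω = c/E + w` -/
theorem xs_famB {θ E ω : ℝ} {p0 p1 p2 : Ex} {c c2 cc : Fr} (hE : 0 < E) (hw : c.R ≤ ω * E)
    (hc2 : c2.R = 2 * c.R) (hcc : cc.R = c.R ^ 2)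
    (h : ∀ e ∈ xsFb c c2 cc p0 p1 p2, 0 ≤ e.R θ E) :
    0 ≤ p0.R θ E + p1.R θ E * ω + E * p2.R θ E * ω ^ 2 := by
  simp only [xsFb, List.mem_cons, List.not_mem_nil, or_false, forall_eq_or_imp, forall_eq,
    Ex.R_add, Ex.R_sub, Ex.R_mul, Ex.R_c, Ex.R_X, Ex.R_Y, xsZ, xsZ2] at h
  obtain ⟨h0, h1, h2⟩ := h
  rw [hc2] at h1
  rw [hcc] at h0
  have hw' : 0 ≤ ω * E - c.R := by linarith
  have h3 := mul_nonneg h1 hw'
  have h4 := mul_nonneg h2 (sq_nonneg (ω * E - c.R))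
  have h5 : 0 ≤ E * (p0.R θ E + p1.R θ E * ω + E * p2.R θ E * ω ^ 2) := by
    linear_combination h0 + h3 + h4
  exact nonneg_of_mul_nonneg_right h5 hE

end Vale.Agent.P237.AllN
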