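import Vale.Agent.P237.AllN.FXnI

/-!
# P237, block D, `X ≥ 3`, `u ≤ 0`: signs of the coefficients of `l` and `l²`
-/

set_option linter.all false

namespace Vale.Agent.P237.AllN

open PolyPos

/-- constant coefficient in `w = ω - 9` of the comparison of the `l²` terms, `X = z` -/
def xsH0 : Ex := Ex.c ⟨18, 3⟩ * Ex.X * (Ex.c ⟨4, 0⟩ - Ex.X) +
  Ex.c ⟨3, 99⟩ * (Ex.c ⟨9, 0⟩ + Ex.c ⟨3, 0⟩ * Ex.X) * (Ex.c ⟨6, 0⟩ + Ex.c ⟨3, 0⟩ * Ex.X) *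
    ((Ex.c ⟨1, 0⟩ - Ex.X) * (Ex.c ⟨4, 0⟩ - Ex.c ⟨3, 0⟩ * Ex.X)) -
  (Ex.c ⟨1, 0⟩ - Ex.X) * (Ex.c ⟨1, 0⟩ - Ex.X) * (Ex.c ⟨4, 0⟩ - Ex.c ⟨3, 0⟩ * Ex.X) *
    (Ex.X * (Ex.c ⟨3, 3⟩ * (Ex.c ⟨6, 0⟩ + Ex.c ⟨5, 0⟩ * Ex.X) +
      Ex.X * (Ex.c ⟨15, 7⟩ * (Ex.c ⟨4, 0⟩ + Ex.c ⟨7, 0⟩ * Ex.X) +
      Ex.X * (Ex.c ⟨105, 31⟩ * (Ex.c ⟨2, 0⟩ + Ex.c ⟨9, 0⟩ * Ex.X) +
      Ex.X * (Ex.c ⟨315, 63⟩ * (Ex.c ⟨11, 0⟩ * Ex.X) +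
      Ex.X * (Ex.c ⟨3465, 511⟩ * (Ex.c ⟨13, 0⟩ * Ex.X - Ex.c ⟨2, 0⟩)))))))

/-- coefficient of `w` -/
def xsH1 : Ex := Ex.c ⟨3, 3⟩ * Ex.X * (Ex.c ⟨4, 0⟩ - Ex.X) +
  Ex.c ⟨3, 99⟩ * (Ex.c ⟨15, 0⟩ + Ex.c ⟨6, 0⟩ * Ex.X) *
    ((Ex.c ⟨1, 0⟩ - Ex.X) * (Ex.c ⟨4, 0⟩ - Ex.c ⟨3, 0⟩ * Ex.X)) -
  (Ex.c ⟨1, 0⟩ - Ex.X) * (Ex.c ⟨1, 0⟩ - Ex.X) * (Ex.c ⟨4, 0⟩ - Ex.c ⟨3, 0⟩ * Ex.X) *
    (Ex.X * (Ex.c ⟨3, 3⟩ + Ex.X * (Ex.c ⟨15, 7⟩ + Ex.X * (Ex.c ⟨105, 31⟩ +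
      Ex.X * (Ex.c ⟨315, 63⟩ + Ex.X * Ex.c ⟨3465, 511⟩)))))

theorem xs_chkH : tchkE (2 ^ 512) 32 1000 [[xsH0, xsH1]] (Ex.c ⟨0, 0⟩)
    (.leaf 0) 0 49 100 0 1 1 = true := by
  decide +kernel

theorem xs_H {z w : ℝ} (hz : 0 ≤ z) (hz1 : z ≤ 49 / 100) (hw : 0 ≤ w) :
    (1 - z) ^ 2 * (4 - 3 * z) * (3 / 4 * z * (w + 6 + 5 * z) + 15 / 8 * z ^ 2 * (w + 4 + 7 * z) +
      105 / 32 * z ^ 3 * (w + 2 + 9 * z) + 315 / 64 * z ^ 4 * (w + 11 * z) +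
      3465 / 512 * z ^ 5 * (w - 2 + 13 * z)) ≤
    3 / 4 * z * (4 - z) * (w + 6) +
      3 / 100 * (w + 9 + 3 * z) * (w + 9 - 3 * (1 - z)) * (1 - z) * (4 - 3 * z) := by
  obtain ⟨i, hi⟩ := tchkE_sound (x := z) (y := 0) (by simp [Ex.R_c, Fr.R]) _ _ _ _ _ _ _
    (by norm_num) (by norm_num) (by norm_num) (by norm_num) xs_chkH
    (by push_cast; linarith only [hz]) (by push_cast; linarith) (by norm_num) (by norm_num)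
  match i, hi with
  | 0, hi =>
    have h0 := hi xsH0 (by simp only [Int.reduceNeg, List.getD_eq_getElem?_getD, List.length_cons, List.length_nil, zero_add, Order.lt_one_iff, getElem?_pos, List.getElem_cons_zero, Option.getD_some, List.mem_cons, List.not_mem_nil, or_false, true_or])
    have h1 := hi xsH1 (by simp)
    simp only [xsH0, xsH1, Ex.R_add, Ex.R_sub, Ex.R_mul, Ex.R_c, Ex.R_X, Fr.R] at h0 h1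
    push_cast at h0 h1
    have h3 := mul_nonneg h1 hw
    have h4 : 0 ≤ 3 / 100 * w ^ 2 * ((1 - z) * (4 - 3 * z)) :=
      mul_nonneg (by (clear * -; positivity)) (mul_nonneg (by linarith only [hz1]) (by linarith only [hz1]))
    linear_combination h0 + h3 + h4
  | i + 1, hi =>
    have h0 := hi (Ex.c ⟨-1, 0⟩) (by simp)
    simp only [Int.reduceNeg, Ex.R_c, Fr.R, Int.cast_neg, Int.cast_one, CharP.cast_eq_zero, zero_add, div_one, Left.nonneg_neg_iff] at h0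
    norm_num at h0

/-- the coefficient of `l` is nonnegative -/
theorem xs_K1 {θ E ω : ℝ} (hE : 0 ≤ E) (hz : 0 ≤ θ * E) (hz1 : θ * E ≤ 49 / 100) (hw : 9 ≤ ω) :
    0 ≤ xsF1wk.R θ E * ω + xsF1ck.R θ E := by
  obtain ⟨z, hzz⟩ : ∃ z, z = θ * E := ⟨_, rfl⟩
  have e : xsF1wk.R θ E * ω + xsF1ck.R θ E = E * z * (3 / 4 * (2 * ω + 10 * z - 3) +
      5 / 8 * z * (3 * ω + 21 * z - 10) + 35 / 64 * z ^ 2 * (4 * ω + 36 * z - 21) +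
      63 / 128 * z ^ 3 * (5 * ω + 55 * z - 36) + 231 / 512 * z ^ 4 * (6 * ω + 78 * z - 55)) := by
    simp only [xsF1wk, xsF1ck, xsKC2, xsKC3, xsKC4, xsKC5, xsKC6, xsZ2, xsZ3, xsZ4, xsZ5, xsZ,
      Ex.R_add, Ex.R_sub, Ex.R_mul, Ex.R_c, Ex.R_X, Ex.R_Y, Fr.R, hzz]
    push_cast
    ring
  rw [← hzz] at hz hz1
  rw [e]
  apply mul_nonneg (mul_nonneg hE hz)
  have h1 : 0 ≤ 5 / 8 * z * (3 * ω + 21 * z - 10) := mul_nonneg (by (clear * - hz; positivity)) (by linarith only [hw, hz])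
  have h2 : 0 ≤ 35 / 64 * z ^ 2 * (4 * ω + 36 * z - 21) := mul_nonneg (by (clear * -; positivity)) (by linarith only [hw, hz])
  have h3 : 0 ≤ 63 / 128 * z ^ 3 * (5 * ω + 55 * z - 36) := mul_nonneg (by (clear * - hz; positivity)) (by linarith only [hw, hz])
  have h4 : 0 ≤ 231 / 512 * z ^ 4 * (6 * ω + 78 * z - 54) :=
    mul_nonneg (by (clear * -; positivity)) (by linarith only [hw, hz])
  have h5 : z ^ 4 ≤ 1 := pow_le_one₀ hz (by linarith only [hz1])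
  linarith only [hw, hz, h1, h2, h3, h4, h5]

/-- the coefficient of `l²` is nonnegative -/
theorem xs_K2 {θ E ω : ℝ} (hE : 0 ≤ E) (hz : 0 ≤ θ * E) (hz1 : θ * E ≤ 49 / 100) (hw : 9 ≤ ω) :
    xsF2wk.R θ E * ω + xsF2ck.R θ E ≤
      E * (3 / 4 * (θ * E) * (ω - 3) * (4 - θ * E) / ((1 - θ * E) ^ 2 * (4 - 3 * (θ * E)))) +
      E * (3 / 100 * (ω + 3 * (θ * E)) * (ω / (1 - θ * E) - 3)) := by
  obtain ⟨z, hzz⟩ : ∃ z, z = θ * E := ⟨_, rfl⟩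
  have e : xsF2wk.R θ E * ω + xsF2ck.R θ E = E * (3 / 4 * z * ((ω - 9) + 6 + 5 * z) +
      15 / 8 * z ^ 2 * ((ω - 9) + 4 + 7 * z) +
      105 / 32 * z ^ 3 * ((ω - 9) + 2 + 9 * z) + 315 / 64 * z ^ 4 * ((ω - 9) + 11 * z) +
      3465 / 512 * z ^ 5 * ((ω - 9) - 2 + 13 * z)) := by
    simp only [xsF2wk, xsF2ck, xsKC2, xsKC3, xsKC4, xsKC5, xsKC6, xsZ2, xsZ3, xsZ4, xsZ5, xsZ,
      Ex.R_add, Ex.R_sub, Ex.R_mul, Ex.R_c, Ex.R_X, Ex.R_Y, Fr.R, hzz]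
    push_cast
    ring
  rw [← hzz] at hz hz1 ⊢
  have h := xs_H hz hz1 (by linarith only [hw] : 0 ≤ ω - 9)
  rw [e, ← mul_add]
  apply mul_le_mul_of_nonneg_left _ hE
  have h1z : 0 < 1 - z := by linarith only [hz1]
  have h43 : 0 < 4 - 3 * z := by linarith only [h1z]
  have hD : 0 < (1 - z) ^ 2 * (4 - 3 * z) := by (clear * - h1z h43; positivity)
  have e2 : 3 / 4 * z * (ω - 3) * (4 - z) / ((1 - z) ^ 2 * (4 - 3 * z)) +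
      3 / 100 * (ω + 3 * z) * (ω / (1 - z) - 3) =
      (3 / 4 * z * (4 - z) * ((ω - 9) + 6) +
      3 / 100 * ((ω - 9) + 9 + 3 * z) * ((ω - 9) + 9 - 3 * (1 - z)) * (1 - z) * (4 - 3 * z)) /
      ((1 - z) ^ 2 * (4 - 3 * z)) := by
    field_simp
    ring
  rw [e2, le_div_iff₀ hD, mul_comm]
  exact h

end Vale.Agent.P237.AllN
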