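import Mathlib

/-!
# P237, block D, `X ≥ 3`: rational lower bound of the logarithm
-/

open Set

namespace Vale.Agent.P237.AllN

/-- `-log E ≥ (1-E)(11+38E+11E²)/(3(1+E)(1+8E+E²))` -/
theorem xs_log_ge {E : ℝ} (h0 : 0 < E) (h1 : E ≤ 1) :
    (1 - E) * (11 + 38 * E + 11 * E ^ 2) / (3 * (1 + E) * (1 + 8 * E + E ^ 2)) ≤
      -Real.log E := by
  have hd : ∀ t ∈ Ioi (0 : ℝ), HasDerivAt
      (fun t : ℝ => -Real.log t -
        (1 - t) * (11 + 38 * t + 11 * t ^ 2) / (3 * (1 + t) * (1 + 8 * t + t ^ 2)))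
      (-(9 * (1 - t) ^ 6) / (t * (3 * (1 + t) * (1 + 8 * t + t ^ 2)) ^ 2)) t := by
    intro t ht
    have ht' : (0 : ℝ) < t := ht
    have a1 : HasDerivAt (fun t : ℝ => (1 - t) * (11 + 38 * t + 11 * t ^ 2))
        (27 - 54 * t - 33 * t ^ 2) t := by
      have b1 := ((hasDerivAt_id t).const_sub 1)
      have b2 := (((hasDerivAt_id t).const_mul 38).const_add 11).add
        (((hasDerivAt_id t).pow 2).const_mul 11)
      refine (b1.mul b2).congr_deriv ?_
      simp only [id, Pi.add_apply]
      norm_num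
      ring
    have a2 : HasDerivAt (fun t : ℝ => 3 * (1 + t) * (1 + 8 * t + t ^ 2))
        (27 + 54 * t + 9 * t ^ 2) t := by
      have b1 := ((hasDerivAt_id t).const_add 1).const_mul 3
      have b2 := (((hasDerivAt_id t).const_mul 8).const_add 1).add ((hasDerivAt_id t).pow 2)
      refine (b1.mul b2).congr_deriv ?_
      simp only [id, Pi.add_apply]
      norm_num
      ring
    have hq : (3 * (1 + t) * (1 + 8 * t + t ^ 2)) ≠ 0 := by positivity
    have a3 := (Real.hasDerivAt_log ht'.ne').neg.sub (a1.div a2 hq)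
    refine a3.congr_deriv ?_
    have : 1 + t ≠ 0 := by positivity
    have : 1 + 8 * t + t ^ 2 ≠ 0 := by positivity
    field_simp
    ring
  have key : AntitoneOn (fun t : ℝ => -Real.log t -
        (1 - t) * (11 + 38 * t + 11 * t ^ 2) / (3 * (1 + t) * (1 + 8 * t + t ^ 2))) (Ioc 0 1) := by
    apply antitoneOn_of_deriv_nonpos (convex_Ioc 0 1)
    · intro t ht
      exact (hd t ht.1).continuousAt.continuousWithinAt
    · intro t ht
      rw [interior_Ioc] at ht
      exact (hd t ht.1).differentiableAt.differentiableWithinAt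
    · intro t ht
      rw [interior_Ioc] at ht
      rw [(hd t ht.1).deriv]
      have ht' : (0 : ℝ) < t := ht.1
      apply div_nonpos_of_nonpos_of_nonneg
      · have : 0 ≤ (1 - t) ^ 6 := by positivity
        linarith
      · positivity
  have h := key ⟨h0, h1⟩ ⟨zero_lt_one, le_rfl⟩ h1
  simp only [Real.log_one, sub_self, zero_mul, zero_div, neg_zero] at h
  linarith

end Vale.Agent.P237.AllN
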