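import Vale.Agent.P237.AllN.FXnS

/-!
# P237, block D, `X ≥ 3`, `u ≤ 0`: inequality (S) from a certificate
-/

set_option linter.all false

namespace Vale.Agent.P237.AllN

open PolyPos

theorem xs_comb {E v lam q o K0 K1 K2 T T' P2 g0 g1 G dS : ℝ} (hE : 0 ≤ E)
    (hQ : 0 ≤ (K0 - o * (1 - E) * E * v - E * g0) + (K1 + o * E * v + E * g1) * lam +
      (E * T + E * P2 - K2) * lam ^ 2 + (3 / 25 * E * v) * lam * q)
    (b1 : T ≤ T') (b2 : -g0 + g1 * lam ≤ G) (hK : E * dS = K0 + K1 * lam - K2 * lam ^ 2) :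
    0 ≤ E * ((v * (E - 1 + lam) + T' * lam ^ 2 + G + dS + P2 * lam ^ 2) +
      3 / 25 * v * lam * q - (1 - o) * (v * (E - 1 + lam))) := by
  have c1 := mul_le_mul_of_nonneg_left (mul_le_mul_of_nonneg_right b1 (sq_nonneg lam)) hE
  have c2 := mul_le_mul_of_nonneg_left b2 hE
  linear_combination hQ + c1 + c2 - hK

theorem xs_S {m z s l p G θ E S : ℝ} {o : Fr} (hz0 : 0 < z) (hz1 : z ≤ 49 / 100)
    (hs : 0 < s) (hs2 : s ^ 2 = 1 - z) (hw : 9 ≤ m * z) (hl : 0 < l)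
    (hE : E = Real.exp (-(2 * l))) (hzE : z = θ * E) (hθ1 : θ ≤ 1) (hp1 : p ≤ 1)
    (htail : 2 * θ * s ^ 2 * p ≤ (m * z + z + 1) * (1 - θ)) (hS0 : 0 ≤ S) (hS2 : S ^ 2 = 1 - θ)
    (hG : 2 * (S / (1 + S) - s / (1 + s)) + z / (s * (1 + s) ^ 2) * (2 * l) ≤ G)
    (ho : 0 ≤ o.R)
    (h : 0 ≤ (xsP0 o).R θ E + (xsP1 o).R θ E * (m * z) + E * xsP2.R θ E * (m * z) ^ 2 ∨
      0 ≤ (xsR0 o).R θ E + (xsR1 o).R θ E * (m * z) + E * xsR2.R θ E * (m * z) ^ 2) :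
    (1 - o.R) * ((m + 3) * z * (E - 1 + 2 * l)) ≤
      dpT m z s l 0 G 0 + 6 / 25 * (m + 3) * z * l * (1 - p) := by
  have hR16 : 0 < 16 - 12 * z + z ^ 2 := by linarith only [hz1, sq_nonneg z]
  have h43 : 0 < 4 - 3 * z := by linarith only [hz1]
  have h1z : 0 < 1 - z := by linarith only [hz1]
  have hq0 : 0 ≤ 1 - p := by linarith only [hp1]
  have hE0 : 0 < E := by rw [hE]; exact Real.exp_pos _
  have hE1 : E < 1 := by
    rw [hE, ← Real.exp_zero]; exact Real.exp_lt_exp.2 (by linarith only [hl])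
  have hθ0 : 0 < θ := by
    by_contra hc
    push Not at hc
    have := mul_nonneg (neg_nonneg.2 hc) hE0.le
    linarith only [hz0, hzE, this]
  obtain ⟨ω, hω⟩ : ∃ ω, ω = m * z := ⟨_, rfl⟩
  have hKern := xs_kern (m := m) (s := s) hE hzE
  have hT0 := xs_T0 (m := m) (l := l) (G := G) hs hs2
  rw [← hE] at hT0
  rw [← hω] at hw htail h hKern hT0
  -- logarithm
  have hL := xs_log_ge hE0 hE1.le
  rw [hE, Real.log_exp, ← hE, neg_neg] at hL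
  obtain ⟨lam, hlam⟩ : ∃ lam, lam = 2 * l := ⟨_, rfl⟩
  rw [← hlam] at hL hG hKern hT0
  -- exponential
  have hq : lam ≤ 1 / E - 1 := by
    have h1 : 1 / E = Real.exp lam := by
      rw [hE, Real.exp_neg, hlam]; simp
    rw [h1]
    linarith only [Real.add_one_le_exp lam]
  have hq1 : 1 ≤ 1 / E := by rw [le_div_iff₀ hE0]; linarith only [hE1]
  have hzq : z * (1 / E) = θ := by rw [hzE]; (clear * - hE0 hθ0; field_simp)
  have hGl := xs_G hz0 hz1 hs hs2 hS0 (by rw [hzq]; exact hS2) hq1 hq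
  rw [hzq] at hGl
  have hs5 := xs_s5 hz0 hz1 hs hs2 hw
  have htail' : 2 * θ * (1 - z) * (1 - (1 - p)) ≤ (ω + z + 1) * (1 - θ) := by
    rw [← hs2, sub_sub_cancel]; exact htail
  have hL0 : 0 ≤ (1 - E) * (11 + 38 * E + 11 * E ^ 2) / (3 * (1 + E) * (1 + 8 * E + E ^ 2)) :=
    div_nonneg (mul_nonneg (sub_nonneg.2 hE1.le) (by (clear * - hE0; positivity))) (by (clear * - hE0; positivity))
  obtain ⟨K0, hK0⟩ : ∃ K0, K0 = xsF0wk.R θ E * ω + xsF0ck.R θ E := ⟨_, rfl⟩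
  obtain ⟨K1, hK1'⟩ : ∃ K1, K1 = xsF1wk.R θ E * ω + xsF1ck.R θ E := ⟨_, rfl⟩
  obtain ⟨K2, hK2'⟩ : ∃ K2, K2 = xsF2wk.R θ E * ω + xsF2ck.R θ E := ⟨_, rfl⟩
  have hK1 := xs_K1 (ω := ω) hE0.le (by rw [← hzE]; exact hz0.le) (by rw [← hzE]; exact hz1) hw
  have hK2 := xs_K2 (ω := ω) hE0.le (by rw [← hzE]; exact hz0.le) (by rw [← hzE]; exact hz1) hw
  rw [← hzE, ← hK2'] at hK2
  rw [← hK1'] at hK1
  rw [← hK0, ← hK1', ← hK2'] at hKern
  have hc := xs_cert (q := 1 - p) hz0 hz1 hw hE0 hE1 hzE hθ0 hθ1 hq0 htail' hK0 hK1' hK2' h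
  have hθz : θ * (1 - E) = θ - z := by rw [hzE]; ring
  have hQ := xs_quad (lam := lam) hL0 hL (by (clear * - hK1 ho hE0 hw hz0 h43 h1z hR16; positivity)) (sub_nonneg.2 hK2) (by positivity)
    hq0 hc
  rw [hθz] at hQ
  have hkey := xs_comb hE0.le hQ hs5 (hGl.trans hG) hKern
  have hfin := nonneg_of_mul_nonneg_right hkey hE0
  have e1 : 6 / 25 * (m + 3) * z * l * (1 - p) = 3 / 25 * (ω + 3 * z) * lam * (1 - p) := by
    rw [hω, hlam]; ring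
  have e2 : (1 - o.R) * ((m + 3) * z * (E - 1 + 2 * l)) =
      (1 - o.R) * ((ω + 3 * z) * (E - 1 + lam)) := by
    rw [hω, hlam]; ring
  rw [e1, e2, hT0, hs2]
  linear_combination hfin

end Vale.Agent.P237.AllN
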