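import Vale.Agent.P237.AllN.FXnJ

/-!
# P237, block D, `X ≥ 3`, `u ≤ 0`: lower bound of `T(l, 0)` from a certificate
-/

set_option linter.all false

namespace Vale.Agent.P237.AllN

open PolyPos

/-- `T(l, 0)` as a quadratic in `λ = 2 l` -/
theorem xs_T0 {m z s l G : ℝ} (hs : 0 < s) (hs2 : s ^ 2 = 1 - z) :
    dpT m z s l 0 G 0 = (m * z + 3 * z) * (Real.exp (-(2 * l)) - 1 + 2 * l) +
      3 / 4 * z * (m * z - 3) / s ^ 5 * (2 * l) ^ 2 + G + dpS m z s l 0 +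
      3 / 100 * (m * z + 3 * z) * (m * z / s ^ 2 - 3) * (2 * l) ^ 2 := by
  have e : 3 * (m - 3) * (z ^ 2 / s ^ 5) - 9 * (z / s ^ 3) = 3 * z * (m * z - 3) / s ^ 5 := by
    have h : m * z - 3 = (m - 3) * z - 3 * s ^ 2 := by rw [hs2]; ring
    rw [h]
    field_simp
    ring
  unfold dpT
  rw [e]
  have h0 : (0 : ℝ) ^ 2 / (1 + 0) = 0 := by norm_num
  rw [h0]
  ring

/-- the abstract estimate: `A0 + A1 λ + A2 λ² + C λ q ≥ 0` -/
theorem xs_quad {A0 A1 A2 C L lam q : ℝ} (hL0 : 0 ≤ L) (hL : L ≤ lam) (h1 : 0 ≤ A1)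
    (h2 : 0 ≤ A2) (hC : 0 ≤ C) (hq : 0 ≤ q) (h : 0 ≤ A0 + A1 * L + A2 * L ^ 2 + C * L * q) :
    0 ≤ A0 + A1 * lam + A2 * lam ^ 2 + C * lam * q := by
  have a1 := mul_le_mul_of_nonneg_left hL h1
  have a2 := mul_le_mul_of_nonneg_left (pow_le_pow_left₀ hL0 hL 2) h2
  have a3 := mul_le_mul_of_nonneg_right (mul_le_mul_of_nonneg_left hL hC) hq
  linarith only [h, a1, a2, a3]

/-- the value at `L = DN/Q` from the certificate -/
theorem xs_val {A0 A1 A2 C q Q DN D1 θ P R δ : ℝ} (hQ : 0 < Q) (hDN : 0 ≤ DN) (hD1 : 0 < D1)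
    (hC : 0 ≤ C) (hq : 0 ≤ q) (hθ : 0 < θ)
    (hP : P = Q * Q * (D1 * A0) + DN * Q * (D1 * A1) + DN * DN * (D1 * A2))
    (hR : R = 2 * θ * P + C * (DN * Q) * δ) (hδ : δ ≤ 2 * θ * (D1 * q))
    (h : 0 ≤ P ∨ 0 ≤ R) :
    0 ≤ A0 + A1 * (DN / Q) + A2 * (DN / Q) ^ 2 + C * (DN / Q) * q := by
  have e : A0 + A1 * (DN / Q) + A2 * (DN / Q) ^ 2 + C * (DN / Q) * q =
      (2 * θ * P + C * (DN * Q) * (2 * θ * (D1 * q))) / (2 * θ * (Q * Q * D1)) := by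
    rw [hP]
    (clear * - hQ hθ hD1; field_simp)
  rw [e]
  apply div_nonneg _ (by positivity)
  rcases h with h | h
  · (clear * - hθ h hC hDN hQ hD1 hq; positivity)
  · have := mul_le_mul_of_nonneg_left hδ (mul_nonneg hC (mul_nonneg hDN hQ.le))
    linarith only [hR, h, this]

theorem xs_s5 {z s ω : ℝ} (hz : 0 < z) (hz1 : z ≤ 49 / 100) (hs : 0 < s)
    (hs2 : s ^ 2 = 1 - z) (hw : 9 ≤ ω) :
    3 / 4 * z * (ω - 3) * (4 - z) / ((1 - z) ^ 2 * (4 - 3 * z)) ≤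
      3 / 4 * z * (ω - 3) / s ^ 5 := by
  have hsl2 : s * (4 - z) ≤ 4 - 3 * z := by
    apply le_of_sq_le_sq _ (by linarith only [hz1])
    rw [mul_pow, hs2]
    have := pow_pos hz 3
    linear_combination this
  have h1z : 0 < 1 - z := by linarith only [hz1]
  have h43 : 0 < 4 - 3 * z := by linarith only [hz1]
  have e : s ^ 5 = (1 - z) ^ 2 * s := by rw [← hs2]; ring
  rw [e, div_le_div_iff₀ (by (clear * - h1z h43; positivity)) (by positivity)]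
  have h := mul_le_mul_of_nonneg_left hsl2
    (mul_nonneg (mul_nonneg (mul_nonneg (by norm_num : (0 : ℝ) ≤ 3 / 4) hz.le)
      (by linarith only [hw] : 0 ≤ ω - 3)) (by positivity : 0 ≤ (1 - z) ^ 2))
  linarith

/-- values of the auxiliary expressions -/
structure XsV (z θ E : ℝ) : Prop where
  v1 : xsS2.R θ E = 1 - z
  v2 : xsP43.R θ E = 4 - 3 * z
  v3 : xsP41.R θ E = 4 - z
  v4 : xsB3.R θ E = 4 - 2 * z - 3 * θ + z * θ
  v5 : xsRB.R θ E = (16 - 12 * z + z ^ 2) * (4 - 2 * z - 3 * θ + z * θ)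
  v6 : xsDn1s.R θ E = (4 - 3 * z) * (1 - z) *
      ((16 - 12 * z + z ^ 2) * (4 - 2 * z - 3 * θ + z * θ))
  v7 : xsDn1.R θ E = (4 - 3 * z) * (1 - z) *
      ((16 - 12 * z + z ^ 2) * (4 - 2 * z - 3 * θ + z * θ)) * (1 - z)
  v8 : xsQd.R θ E = 3 * (1 + E) * (1 + 8 * E + E ^ 2)
  v9 : xsDN.R θ E = (1 - E) * (11 + 38 * E + 11 * E ^ 2)

theorem xs_v {z θ E : ℝ} (hzE : z = θ * E) : XsV z θ E := by
  have vz : xsZ.R θ E = z := by rw [hzE]; rfl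
  have v1 : xsS2.R θ E = 1 - z := by
    simp only [xsS2, Ex.R_sub, Ex.R_c, vz, Fr.R]; push_cast; ring
  have v2 : xsP43.R θ E = 4 - 3 * z := by
    simp only [xsP43, Ex.R_sub, Ex.R_mul, Ex.R_c, vz, Fr.R]; push_cast; ring
  have v3 : xsP41.R θ E = 4 - z := by
    simp only [xsP41, Ex.R_sub, Ex.R_mul, Ex.R_c, vz, Fr.R]; push_cast; ring
  have v4 : xsB3.R θ E = 4 - 2 * z - 3 * θ + z * θ := by
    simp only [xsB3, Ex.R_sub, Ex.R_add, Ex.R_mul, Ex.R_c, Ex.R_X, vz, Fr.R]; push_cast; ring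
  have v5 : xsRB.R θ E = (16 - 12 * z + z ^ 2) * (4 - 2 * z - 3 * θ + z * θ) := by
    simp only [xsRB, xsR16, xsZ2, Ex.R_sub, Ex.R_add, Ex.R_mul, Ex.R_c, vz, v4, Fr.R]
    push_cast
    ring
  have v6 : xsDn1s.R θ E = (4 - 3 * z) * (1 - z) *
      ((16 - 12 * z + z ^ 2) * (4 - 2 * z - 3 * θ + z * θ)) := by
    simp only [xsDn1s, Ex.R_mul, v1, v2, v5]
  have v7 : xsDn1.R θ E = (4 - 3 * z) * (1 - z) *
      ((16 - 12 * z + z ^ 2) * (4 - 2 * z - 3 * θ + z * θ)) * (1 - z) := by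
    simp only [xsDn1, Ex.R_mul, v1, v6]
  have v8 : xsQd.R θ E = 3 * (1 + E) * (1 + 8 * E + E ^ 2) := by
    simp only [xsQd, xsE2, Ex.R_sub, Ex.R_add, Ex.R_mul, Ex.R_c, Ex.R_Y, Fr.R]
    push_cast
    ring
  have v9 : xsDN.R θ E = (1 - E) * (11 + 38 * E + 11 * E ^ 2) := by
    simp only [xsDN, xsD, xsNn, xsE2, Ex.R_sub, Ex.R_add, Ex.R_mul, Ex.R_c, Ex.R_Y, Fr.R]
    push_cast
    ring
  exact ⟨v1, v2, v3, v4, v5, v6, v7, v8, v9⟩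

theorem xs_g0 {a b c d s t E : ℝ} (ha : a ≠ 0) (hb : b ≠ 0) :
    c * s * (a * b) * s * (E * (c * d * t / (a * b))) = c ^ 2 * d * t * s ^ 2 * E := by
  field_simp

theorem xs_g1 {a b c s z E : ℝ} (ha : a ≠ 0) (hs : s ≠ 0) :
    c * s * (a * b) * s * (E * (z * c / (s * a))) = z * c ^ 2 * s * b * E := by
  (clear * - ha hs; field_simp)

theorem xs_g2 {a b c d s z E w : ℝ} (hc : c ≠ 0) (hs : s ≠ 0) :
    c * s * (a * b) * s * (E * (3 / 4 * z * w * d / (s ^ 2 * c))) =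
      3 / 4 * z * d * (a * b) * (E * w) := by
  (clear * - hc hs; field_simp)

theorem xs_g3 {a b c s ω E v : ℝ} (hs : s ≠ 0) :
    c * s * (a * b) * s * (E * (3 / 100 * v * (ω / s - 3))) =
      3 / 100 * c * s * (a * b) * (E * v * (ω - 3 * s)) := by
  (clear * - hs; field_simp)

/-- from a certificate to the value at `L = DN/Q` -/
theorem xs_cert {z θ E ω q K0 K1 K2 : ℝ} {o : Fr} (hz0 : 0 < z) (hz1 : z ≤ 49 / 100)
    (hw : 9 ≤ ω) (hE0 : 0 < E) (hE1 : E < 1) (hzE : z = θ * E) (hθ0 : 0 < θ) (hθ1 : θ ≤ 1)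
    (hq : 0 ≤ q) (htail : 2 * θ * (1 - z) * (1 - q) ≤ (ω + z + 1) * (1 - θ))
    (hK0 : K0 = xsF0wk.R θ E * ω + xsF0ck.R θ E) (hK1 : K1 = xsF1wk.R θ E * ω + xsF1ck.R θ E)
    (hK2 : K2 = xsF2wk.R θ E * ω + xsF2ck.R θ E)
    (h : 0 ≤ (xsP0 o).R θ E + (xsP1 o).R θ E * ω + E * xsP2.R θ E * ω ^ 2 ∨
      0 ≤ (xsR0 o).R θ E + (xsR1 o).R θ E * ω + E * xsR2.R θ E * ω ^ 2) :
    0 ≤ (K0 - o.R * (1 - E) * E * (ω + 3 * z) -
      E * ((4 - 3 * z) * (4 - z) * (θ * (1 - E)) /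
        ((16 - 12 * z + z ^ 2) * (4 - 2 * z - 3 * θ + z * θ)))) +
    (K1 + o.R * E * (ω + 3 * z) +
      E * (z * (4 - 3 * z) / ((1 - z) * (16 - 12 * z + z ^ 2)))) *
        ((1 - E) * (11 + 38 * E + 11 * E ^ 2) / (3 * (1 + E) * (1 + 8 * E + E ^ 2))) +
    (E * (3 / 4 * z * (ω - 3) * (4 - z) / ((1 - z) ^ 2 * (4 - 3 * z))) +
      E * (3 / 100 * (ω + 3 * z) * (ω / (1 - z) - 3)) - K2) *
        ((1 - E) * (11 + 38 * E + 11 * E ^ 2) / (3 * (1 + E) * (1 + 8 * E + E ^ 2))) ^ 2 +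
    (3 / 25 * E * (ω + 3 * z)) *
      ((1 - E) * (11 + 38 * E + 11 * E ^ 2) / (3 * (1 + E) * (1 + 8 * E + E ^ 2))) * q := by
  have V := xs_v hzE
  have h1z : 0 < 1 - z := by linarith only [hz1]
  have h43 : 0 < 4 - 3 * z := by linarith only [hz1]
  have hR16 : 0 < 16 - 12 * z + z ^ 2 := by nlinarith only [hz1]
  have hB3 : 0 < 4 - 2 * z - 3 * θ + z * θ := by
    have hh : 0 ≤ (1 - θ) * (3 - z) := mul_nonneg (by linarith only [hθ1]) (by linarith only [hz1])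
    linarith only [hz1, hh]
  have hidP := xs_idP θ E ω o
  have hidR := xs_idR θ E ω o
  rw [← hzE] at hidP hidR
  rw [← hK0, ← hK1, ← hK2] at hidP
  obtain ⟨P, hP⟩ : ∃ P, P = (xsP0 o).R θ E + (xsP1 o).R θ E * ω + E * xsP2.R θ E * ω ^ 2 :=
    ⟨_, rfl⟩
  obtain ⟨R, hR⟩ : ∃ R, R = (xsR0 o).R θ E + (xsR1 o).R θ E * ω + E * xsR2.R θ E * ω ^ 2 :=
    ⟨_, rfl⟩
  rw [← hP, ← hR] at h
  rw [← hP] at hidP hidR
  rw [← hR] at hidR
  have v10 : xsDNQ.R θ E = xsDN.R θ E * xsQd.R θ E := rfl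
  have v11 : xsQ2.R θ E = xsQd.R θ E * xsQd.R θ E := rfl
  have v12 : xsDN2.R θ E = xsDN.R θ E * xsDN.R θ E := rfl
  have v13 : xsDn1.R θ E = xsDn1s.R θ E * (1 - z) := by rw [V.v6, V.v7]
  have hDs : 0 < xsDn1s.R θ E := by rw [V.v6]; (clear * - h43 h1z hR16 hB3; positivity)
  rw [V.v1, V.v2, V.v3, V.v4, V.v5, v10, v11, v12] at hidP
  rw [v10] at hidR
  rw [← V.v8, ← V.v9]
  have hQ : 0 < xsQd.R θ E := by rw [V.v8]; positivity
  have hDN : 0 ≤ xsDN.R θ E := by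
    rw [V.v9]; exact mul_nonneg (by linarith only [hE1]) (by positivity)
  have hD1 : 0 < xsDn1.R θ E := by rw [v13]; (clear * - hDs h1z; positivity)
  have g0 : xsDn1.R θ E * (E * ((4 - 3 * z) * (4 - z) * (θ * (1 - E)) /
        ((16 - 12 * z + z ^ 2) * (4 - 2 * z - 3 * θ + z * θ)))) =
      (4 - 3 * z) ^ 2 * (4 - z) * (θ * (1 - E)) * (1 - z) ^ 2 * E := by
    rw [V.v7]
    exact xs_g0 hR16.ne' hB3.ne'
  have g1 : xsDn1.R θ E * (E * (z * (4 - 3 * z) / ((1 - z) * (16 - 12 * z + z ^ 2)))) =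
      z * (4 - 3 * z) ^ 2 * (1 - z) * (4 - 2 * z - 3 * θ + z * θ) * E := by
    rw [V.v7]
    exact xs_g1 hR16.ne' h1z.ne'
  have g2 : xsDn1.R θ E * (E * (3 / 4 * z * (ω - 3) * (4 - z) / ((1 - z) ^ 2 * (4 - 3 * z)))) =
      3 / 4 * z * (4 - z) * ((16 - 12 * z + z ^ 2) * (4 - 2 * z - 3 * θ + z * θ)) *
        (E * (ω - 3)) := by
    rw [V.v7]
    exact xs_g2 h43.ne' h1z.ne'
  have g3 : xsDn1.R θ E * (E * (3 / 100 * (ω + 3 * z) * (ω / (1 - z) - 3))) =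
      3 / 100 * (4 - 3 * z) * (1 - z) *
        ((16 - 12 * z + z ^ 2) * (4 - 2 * z - 3 * θ + z * θ)) * (E * (ω + 3 * z) *
          (ω - 3 * (1 - z))) := by
    rw [V.v7]
    exact xs_g3 h1z.ne'
  refine xs_val (P := P) (R := R) (Q := xsQd.R θ E) (DN := xsDN.R θ E) (D1 := xsDn1.R θ E)
    (θ := θ) (δ := 2 * θ * xsDn1.R θ E - (ω + z + 1) * (1 - θ) * xsDn1s.R θ E)
    hQ hDN hD1 (by positivity) hq hθ0 ?_ ?_ ?_ h
  · rw [hidP, mul_sub (xsDn1.R θ E) (K0 - o.R * (1 - E) * E * (ω + 3 * z)),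
      mul_add (xsDn1.R θ E) (K1 + o.R * E * (ω + 3 * z)), mul_sub (xsDn1.R θ E) _ K2,
      mul_add (xsDn1.R θ E) (E * _), g0, g1, g2, g3]
  · rw [hidR]
    ring
  · rw [v13]
    have := mul_le_mul_of_nonneg_left htail hDs.le
    linarith only [this]

end Vale.Agent.P237.AllN
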