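import Vale.Agent.P237.AllN.FXnE
import Vale.Agent.P237.AllN.FXnL
import Vale.Agent.P237.AllN.FPosDef

/-!
# P237, block D, `X ≥ 3`, `u ≤ 0`: `T(l, 0)` in the variables `θ, E`
-/

namespace Vale.Agent.P237.AllN

open PolyPos

/-- the kernel sum in the variables `θ, E` -/
theorem xs_kern {m z s l θ E : ℝ} (hE : E = Real.exp (-(2 * l))) (hz : z = θ * E) :
    E * dpS m z s l 0 =
      (xsF0wk.R θ E * (m * z) + xsF0ck.R θ E) +
      (xsF1wk.R θ E * (m * z) + xsF1ck.R θ E) * (2 * l) -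
      (xsF2wk.R θ E * (m * z) + xsF2ck.R θ E) * (2 * l) ^ 2 := by
  have hE0 : E ≠ 0 := by rw [hE]; exact (Real.exp_pos _).ne'
  have e2 : Real.exp (-(2 * 2 * l)) = E ^ 2 := by
    rw [hE, ← Real.exp_nat_mul]; congr 1; push_cast; ring
  have e3 : Real.exp (-(2 * 3 * l)) = E ^ 3 := by
    rw [hE, ← Real.exp_nat_mul]; congr 1; push_cast; ring
  have e4 : Real.exp (-(2 * 4 * l)) = E ^ 4 := by
    rw [hE, ← Real.exp_nat_mul]; congr 1; push_cast; ring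
  have e5 : Real.exp (-(2 * 5 * l)) = E ^ 5 := by
    rw [hE, ← Real.exp_nat_mul]; congr 1; push_cast; ring
  have e6 : Real.exp (-(2 * 6 * l)) = E ^ 6 := by
    rw [hE, ← Real.exp_nat_mul]; congr 1; push_cast; ring
  have f2 : Real.exp (2 * 2 * l) = (E ^ 2)⁻¹ := by
    rw [← e2, ← Real.exp_neg]; congr 1; ring
  have f3 : Real.exp (2 * 3 * l) = (E ^ 3)⁻¹ := by
    rw [← e3, ← Real.exp_neg]; congr 1; ring
  have f4 : Real.exp (2 * 4 * l) = (E ^ 4)⁻¹ := by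
    rw [← e4, ← Real.exp_neg]; congr 1; ring
  have f5 : Real.exp (2 * 5 * l) = (E ^ 5)⁻¹ := by
    rw [← e5, ← Real.exp_neg]; congr 1; ring
  have f6 : Real.exp (2 * 6 * l) = (E ^ 6)⁻¹ := by
    rw [← e6, ← Real.exp_neg]; congr 1; ring
  unfold dpS dpK
  rw [e2, e3, e4, e5, e6, f2, f3, f4, f5, f6]
  clear e2 e3 e4 e5 e6 f2 f3 f4 f5 f6 hE
  simp only [xsF0wk, xsF0ck, xsF1wk, xsF1ck, xsF2wk, xsF2ck, xsKA2, xsKA3, xsKA4, xsKA5, xsKA6,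
    xsKB2, xsKB3, xsKB4, xsKB5, xsKB6, xsKC2, xsKC3, xsKC4, xsKC5, xsKC6, xsZ2, xsZ3, xsZ4, xsZ5,
    xsT2, xsT3, xsT4, xsT5, xsE2, xsE3, xsE4, xsE5, xsE6, xsZ,
    Ex.R_add, Ex.R_sub, Ex.R_mul, Ex.R_c, Ex.R_X, Ex.R_Y, Fr.R]
  subst hz
  push_cast
  field_simp
  ring

end Vale.Agent.P237.AllN
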