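import Vale.Agent.P237.AllN.Kron3

/-!
# P237, block D, `X ≥ 3`, `u ≤ 0`: kernel checks for FXnV
-/

namespace Vale.Agent.P237.AllN.PolyPos

/-- `z = 1 - s²` (`X = s`, `Y = E`) -/
def fvz : Ex3 := Ex3.c ⟨1, 0⟩ - Ex3.X * Ex3.X

/-- `a = 4 s³ E / 2.37` -/
def fva : Ex3 := Ex3.c ⟨400, 236⟩ * (Ex3.X * Ex3.X * Ex3.X) * Ex3.Y

/-- common factor -/
def fvR (xi : Fr) : Ex3 :=
  Ex3.c xi * ((Ex3.c ⟨1, 0⟩ - Ex3.Y) * (Ex3.c ⟨1, 0⟩ - Ex3.Y)) *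
    (Ex3.c ⟨8, 0⟩ + Ex3.c ⟨19, 0⟩ * Ex3.Y + Ex3.c ⟨3, 0⟩ * (Ex3.Y * Ex3.Y)) *
    (Ex3.c ⟨12, 0⟩ * Ex3.X) * (Ex3.c ⟨1, 0⟩ - fva) * (Ex3.c ⟨1, 0⟩ + fva - fva * fva)

/-- left side -/
def fvL : Ex3 :=
  Ex3.c ⟨237, 99⟩ * ((Ex3.c ⟨1, 0⟩ - Ex3.c ⟨2, 0⟩ * fva) * (Ex3.c ⟨1, 0⟩ - Ex3.c ⟨2, 0⟩ * fva) *
    (Ex3.c ⟨1, 0⟩ - Ex3.c ⟨2, 0⟩ * fva)) *
    (Ex3.c ⟨1, 0⟩ + Ex3.c ⟨6, 0⟩ * fva - Ex3.c ⟨6, 0⟩ * (fva * fva)) *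
    (Ex3.c ⟨3, 0⟩ * (Ex3.c ⟨1, 0⟩ + Ex3.Y) *
      (Ex3.c ⟨1, 0⟩ + Ex3.c ⟨8, 0⟩ * Ex3.Y + Ex3.Y * Ex3.Y))

/-- families of (V): `m = 27`, `m z = 9`, `m z E = c` -/
def fvF (xi c : Fr) : List (List Ex3) :=
  [[fvR xi * (fva * (Ex3.c ⟨30, 0⟩ * fvz)) - fvL],
   [fvR xi * (fva * (Ex3.c ⟨9, 0⟩ + Ex3.c ⟨3, 0⟩ * fvz)) - fvL],
   [fvR xi * (Ex3.c ⟨400, 236⟩ * (Ex3.X * Ex3.X * Ex3.X) * Ex3.c c +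
     fva * (Ex3.c ⟨3, 0⟩ * fvz)) - fvL]]

/-- region of (V) -/
def fvLo : List Ex3 :=
  [fvz - Ex3.Y, Ex3.c ⟨8, 0⟩ * (Ex3.X * Ex3.X * Ex3.X) * Ex3.Y - Ex3.c ⟨237, 99⟩]

/-- tree 0 of (V) -/
def fvT0 : PT3 :=
    .sx (.sy (.sy (.out 0) (.sx (.sy (.out 0) (.sx (.out 0) (.sy (.sx (.out 0) (.sy (.out 0)
    (.sx (.out 0) (.leaf 2)))) (.sx (.sy (.sx (.out 0) (.sy (.out 0) (.leaf 2))) (.leaf 2))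
    (.leaf 2))))) (.sx (.sy (.sx (.out 0) (.sy (.out 0) (.sy (.out 0) (.leaf 2)))) (.sx (.sy
    (.sx (.sy (.out 0) (.leaf 2)) (.leaf 2)) (.leaf 2)) (.leaf 2))) (.sy (.sy (.sx (.out 0)
    (.leaf 2)) (.leaf 2)) (.leaf 2))))) (.sx (.sy (.sy (.sx (.sy (.sx (.sy (.out 0) (.sx (.sy
    (.out 0) (.leaf 2)) (.leaf 2))) (.leaf 2)) (.leaf 2)) (.leaf 2)) (.leaf 1)) (.leaf 0))
    (.leaf 1))) (.sy (.sy (.leaf 2) (.leaf 2)) (.leaf 1))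

theorem fv_chk0 : tchk3 (2 ^ 1024) 12 4000 (fvF ⟨1, 39⟩ ⟨33, 9⟩)
    fvLo fvT0 2133 2500 2500 0 12 25 0 1 1 = true := by
  decide +kernel

/-- tree 1 of (V) -/
def fvT1 : PT3 :=
    .sy (.out 0) (.sy (.sy (.sx (.sx (.sy (.out 0) (.sy (.sy (.out 0) (.leaf 2)) (.leaf 2)))
    (.sy (.sx (.out 0) (.sx (.out 0) (.sy (.out 0) (.sx (.out 0) (.leaf 2))))) (.leaf 2))) (.sy
    (.sy (.sx (.out 0) (.sx (.out 0) (.leaf 2))) (.leaf 2)) (.leaf 2))) (.leaf 1)) (.leaf 0))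

theorem fv_chk1 : tchk3 (2 ^ 1024) 12 4000 (fvF ⟨1, 39⟩ ⟨177, 49⟩)
    fvLo fvT1 2075 2133 2500 0 13 25 0 1 1 = true := by
  (clear * -; decide +kernel)

/-- tree 2 of (V) -/
def fvT2 : PT3 :=
    .sx (.sy (.sx (.out 0) (.sy (.out 0) (.sx (.out 0) (.sy (.out 0) (.sy (.out 0) (.leaf
    0)))))) (.sx (.sy (.sy (.sx (.sy (.out 0) (.sx (.sy (.sy (.out 0) (.sx (.sx (.out 0) (.leaf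
    0)) (.leaf 0))) (.leaf 0)) (.leaf 0))) (.sy (.sy (.out 0) (.leaf 0)) (.leaf 0))) (.leaf 0))
    (.leaf 0)) (.leaf 0))) (.sy (.sy (.out 0) (.sx (.sy (.out 0) (.sx (.sy (.out 0) (.leaf 0))
    (.leaf 0))) (.leaf 2))) (.leaf 0))

theorem fv_chk2 : tchk3 (2 ^ 1024) 12 4000 (fvF ⟨11, 199⟩ ⟨177, 49⟩)
    fvLo fvT2 7140 8307 10000 0 41 50 0 1 1 = true := by
  (clear * -; decide +kernel)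

/-- common denominators of (X) (`X = z`, `Y = E`) -/
def fxs2 : Ex3 := Ex3.c ⟨1, 0⟩ - Ex3.X

/-- `q/E` -/
def fxq1 : Ex3 := Ex3.c ⟨12, 0⟩ * (Ex3.c ⟨1, 0⟩ + Ex3.c ⟨3, 0⟩ * Ex3.Y + Ex3.Y * Ex3.Y)

/-- numerator of `Q` times `10 s⁴` -/
def fxqn : Ex3 :=
  Ex3.c ⟨10, 0⟩ * (fxs2 * fxs2) * ((Ex3.c ⟨1, 0⟩ - Ex3.Y) * (Ex3.c ⟨1, 0⟩ - Ex3.Y)) *
    (Ex3.c ⟨1, 0⟩ + Ex3.c ⟨18, 0⟩ * Ex3.Y + Ex3.c ⟨11, 0⟩ * (Ex3.Y * Ex3.Y))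

/-- value at `w` -/
def fxf (chi : Fr) (W : Ex3) : Ex3 :=
  Ex3.c chi * (Ex3.c ⟨2, 0⟩ * (fxs2 * fxs2) + Ex3.c ⟨5, 0⟩ * W * fxs2 +
    W * (W - Ex3.c ⟨2, 0⟩ * Ex3.X)) * (Ex3.Y * fxq1) - (W + Ex3.c ⟨3, 0⟩ * Ex3.X) * fxqn

/-- derivative at `w` -/
def fxp (chi : Fr) (W : Ex3) : Ex3 :=
  Ex3.c chi * (Ex3.c ⟨5, 0⟩ * fxs2 + Ex3.c ⟨2, 0⟩ * W - Ex3.c ⟨2, 0⟩ * Ex3.X) * (Ex3.Y * fxq1) -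
    fxqn

/-- `E` times the value at `w = c/E` -/
def fxfc (chi c : Fr) : Ex3 :=
  Ex3.c chi * ((Ex3.c ⟨2, 0⟩ * (fxs2 * fxs2) * Ex3.Y + Ex3.c ⟨5, 0⟩ * Ex3.c c * fxs2 -
    Ex3.c ⟨2, 0⟩ * Ex3.c c * Ex3.X) * Ex3.Y + Ex3.c c * Ex3.c c) * fxq1 -
    (Ex3.c c + Ex3.c ⟨3, 0⟩ * Ex3.X * Ex3.Y) * fxqn

/-- derivative at `w = c/E` -/
def fxpc (chi c : Fr) : Ex3 :=
  Ex3.c chi * ((Ex3.c ⟨5, 0⟩ * fxs2 - Ex3.c ⟨2, 0⟩ * Ex3.X) * Ex3.Y +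
    Ex3.c ⟨2, 0⟩ * Ex3.c c) * fxq1 - fxqn

/-- families of (X): `m = 27`, `m z = 9`, `m z E = c` -/
def fxF (chi c : Fr) : List (List Ex3) :=
  [[fxf chi (Ex3.c ⟨27, 0⟩ * Ex3.X), fxp chi (Ex3.c ⟨27, 0⟩ * Ex3.X)],
   [fxf chi (Ex3.c ⟨9, 0⟩), fxp chi (Ex3.c ⟨9, 0⟩)],
   [fxfc chi c, fxpc chi c]]

/-- region of (X) -/
def fxLo : List Ex3 := [Ex3.X - Ex3.Y]

/-- tree 0 of (X) -/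
def fxT0 : PT3 :=
    .sy (.sx (.sy (.sx (.sy (.leaf 2) (.sy (.leaf 2) (.leaf 2))) (.leaf 2)) (.leaf 2)) (.leaf
    2)) (.leaf 0)

theorem fx_chk0 : tchk3 (2 ^ 1024) 12 4000 (fxF ⟨2, 4⟩ ⟨33, 9⟩)
    fxLo fxT0 0 17 100 0 1 1 0 1 1 = true := by
  (clear * -; decide +kernel)

/-- tree 1 of (X) -/
def fxT1 : PT3 :=
  .sy (.sy (.sy (.leaf 2) (.leaf 2)) (.leaf 2)) (.leaf 0)

theorem fx_chk1 : tchk3 (2 ^ 1024) 12 4000 (fxF ⟨3, 9⟩ ⟨33, 9⟩)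
    fxLo fxT1 17 24 100 0 1 1 0 1 1 = true := by
  (clear * -; decide +kernel)

/-- tree 2 of (X) -/
def fxT2 : PT3 :=
    .sy (.sy (.sx (.sy (.out 0) (.sy (.out 0) (.sy (.out 0) (.sy (.out 0) (.leaf 2))))) (.out
    0)) (.leaf 2)) (.leaf 0)

theorem fx_chk2 : tchk3 (2 ^ 1024) 12 4000 (fxF ⟨6, 24⟩ ⟨33, 9⟩)
    fxLo fxT2 30 34 125 0 1 1 0 1 1 = true := by
  (clear * -; decide +kernel)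

/-- tree 3 of (X) -/
def fxT3 : PT3 :=
  .sy (.sy (.out 0) (.leaf 2)) (.leaf 0)

theorem fx_chk3 : tchk3 (2 ^ 1024) 12 4000 (fxF ⟨21, 99⟩ ⟨177, 49⟩)
    fxLo fxT3 136 155 500 0 1 1 0 1 1 = true := by
  (clear * -; decide +kernel)

/-- tree 4 of (X) -/
def fxT4 : PT3 :=
    .sy (.sx (.sy (.out 0) (.sx (.sy (.sy (.sx (.sx (.sx (.sy (.out 0) (.sy (.out 0) (.leaf 2)))
    (.out 0)) (.out 0)) (.out 0)) (.leaf 2)) (.leaf 0)) (.leaf 2))) (.leaf 2)) (.leaf 0)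

theorem fx_chk4 : tchk3 (2 ^ 1024) 12 4000 (fxF ⟨9, 49⟩ ⟨177, 49⟩)
    fxLo fxT4 31 49 100 0 1 1 0 1 1 = true := by
  (clear * -; decide +kernel)

end Vale.Agent.P237.AllN.PolyPos
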