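import Vale.Agent.P237.AllN.FXnVa
import Vale.Agent.P237.AllN.FXnVk
import Vale.Agent.P237.AllN.FPosDef

/-!
# P237, block D, `X ≥ 3`, `u ≤ 0`, `x ≤ 7/10`: the inequalities (V) and (X) of helper901
-/

open Set

namespace Vale.Agent.P237.AllN

open PolyPos

theorem fv_core {xi c : Fr} {t : PT3} {A B : ℤ} {D : ℕ} {A' B' : ℤ} {D' : ℕ}
    (hD : 0 < D) (hD' : 0 < D') (hA : A < B) (hA' : A' < B')
    (chk : tchk3 (2 ^ 1024) 12 4000 (fvF xi c) fvLo t A B D A' B' D' 0 1 1 = true)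
    {m z s E a : ℝ} (hm : 27 ≤ m) (hw : 9 ≤ m * z) (hc : c.R ≤ m * z * E) (hz : 0 < z)
    (hsz : z = 1 - s ^ 2) (hs : 0 < s) (hE0 : 0 < E) (hxi : 0 ≤ xi.R)
    (hzE : z ≤ E) (h8 : 8 * s ^ 3 * E ≤ 237 / 100) (ha : a = 400 / 237 * s ^ 3 * E)
    (b1 : (A : ℝ) ≤ D * s) (b2 : (D : ℝ) * s ≤ B) (b3 : (A' : ℝ) ≤ D' * E)
    (b4 : (D' : ℝ) * E ≤ B') :
    237 / 100 * (1 - 2 * a) ^ 3 * (1 + 6 * a - 6 * a ^ 2) *
      (3 * (1 + E) * (1 + 8 * E + E ^ 2)) ≤
    xi.R * (1 - E) ^ 2 * (8 + 19 * E + 3 * E ^ 2) * (12 * s) * (1 - a) * (1 + a - a ^ 2) *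
      (a * ((m + 3) * z)) := by
  have hLo : ∀ F ∈ fvLo, Ex3.R s E 0 F ≤ 0 := by
    intro F hF
    simp only [fvLo, List.mem_cons, List.not_mem_nil, or_false] at hF
    rcases hF with rfl | rfl
    · simp only [fvz, Ex3.R_sub, Ex3.R_c, Ex3.R_mul, Ex3.R_X, Ex3.R_Y, Fr.R]
      push_cast
      rw [hsz] at hzE
      linarith only [hzE]
    · simp only [Ex3.R_sub, Ex3.R_c, Ex3.R_mul, Ex3.R_X, Ex3.R_Y, Fr.R]
      push_cast
      have : s ^ 3 = s * s * s := by ring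
      rw [this] at h8
      linarith only [h8]
  obtain ⟨G, hG, h⟩ := tchk3_sound (x := s) (y := E) (z := 0) hLo t A B D A' B' D' 0 1 1 hD hD'
    one_pos hA hA' (by norm_num) chk b1 b2 b3 b4 (by norm_num) (by norm_num)
  have ha0 : 0 < a := by rw [ha]; positivity
  have ha1 : a ≤ 1 / 2 := by rw [ha]; (clear * - h8; linarith)
  have hR : 0 ≤ xi.R * (1 - E) ^ 2 * (8 + 19 * E + 3 * E ^ 2) * (12 * s) * (1 - a) *
      (1 + a - a ^ 2) := by
    have h1 : 0 ≤ 1 - a := by linarith only [h8, ha]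
    have h2 : 0 ≤ 1 + a - a ^ 2 := by nlinarith only [ha, ha0, h8]
    (clear * - hxi hE0 hs h1 h2; positivity)
  have hRM : ∀ M : ℝ, M ≤ a * ((m + 3) * z) →
      0 ≤ xi.R * (1 - E) ^ 2 * (8 + 19 * E + 3 * E ^ 2) * (12 * s) * (1 - a) *
      (1 + a - a ^ 2) * M - 237 / 100 * (1 - 2 * a) ^ 3 * (1 + 6 * a - 6 * a ^ 2) *
      (3 * (1 + E) * (1 + 8 * E + E ^ 2)) →
      237 / 100 * (1 - 2 * a) ^ 3 * (1 + 6 * a - 6 * a ^ 2) *
      (3 * (1 + E) * (1 + 8 * E + E ^ 2)) ≤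
    xi.R * (1 - E) ^ 2 * (8 + 19 * E + 3 * E ^ 2) * (12 * s) * (1 - a) * (1 + a - a ^ 2) *
      (a * ((m + 3) * z)) := by
    intro M hM h0
    have := mul_le_mul_of_nonneg_left hM hR
    linarith only [h0, this]
  have ez : (fvz).R s E 0 = z := by
    simp only [fvz, Ex3.R_sub, Ex3.R_c, Ex3.R_mul, Ex3.R_X, Fr.R]
    push_cast
    rw [hsz]
    ring
  have ea : (fva).R s E 0 = a := by
    simp only [fva, Ex3.R_mul, Ex3.R_c, Fr.R, Ex3.R_X, Ex3.R_Y]
    push_cast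
    rw [ha]
    ring
  have eR : (fvR xi).R s E 0 = xi.R * (1 - E) ^ 2 * (8 + 19 * E + 3 * E ^ 2) * (12 * s) *
      (1 - a) * (1 + a - a ^ 2) := by
    simp only [fvR, Ex3.R_mul, Ex3.R_c, Ex3.R_sub, Ex3.R_Y, Ex3.R_add, Ex3.R_X, ea]
    simp only [Fr.R]
    push_cast
    ring
  have eL : (fvL).R s E 0 = 237 / 100 * (1 - 2 * a) ^ 3 * (1 + 6 * a - 6 * a ^ 2) *
      (3 * (1 + E) * (1 + 8 * E + E ^ 2)) := by
    simp only [fvL, Ex3.R_add, Ex3.R_sub, Ex3.R_c, Ex3.R_mul, Ex3.R_Y, ea]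
    simp only [Fr.R]
    push_cast
    ring
  simp only [fvF, List.mem_cons, List.not_mem_nil, or_false] at hG
  rcases hG with rfl | rfl | rfl
  · have h1 := h _ (List.mem_singleton.2 rfl)
    simp only [Ex3.R_sub, Ex3.R_mul, Ex3.R_c, eR, eL, ez, ea] at h1
    refine hRM _ ?_ h1
    simp only [Fr.R]
    push_cast
    apply mul_le_mul_of_nonneg_left _ ha0.le
    nlinarith only [hm, hz]
  · have h1 := h _ (List.mem_singleton.2 rfl)
    simp only [Ex3.R_sub, Ex3.R_mul, eR, ea, Ex3.R_add, Ex3.R_c, ez, eL] at h1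
    refine hRM _ ?_ h1
    simp only [Fr.R]
    push_cast
    apply mul_le_mul_of_nonneg_left _ ha0.le
    nlinarith only [hw]
  · have h1 := h _ (List.mem_singleton.2 rfl)
    simp only [Ex3.R_sub, Ex3.R_mul, Ex3.R_add, Ex3.R_c, Ex3.R_X, eR, eL, ez, ea] at h1
    refine hRM _ ?_ h1
    have h2 : s ^ 3 * c.R ≤ s ^ 3 * (m * z * E) :=
      mul_le_mul_of_nonneg_left hc (by (clear * - hs; positivity))
    have h3 : a * (m * z) = 400 / 237 * (s ^ 3 * (m * z * E)) := by rw [ha]; ring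
    have h4 : (Fr.R ⟨400, 236⟩) * (s * s * s) * c.R = 400 / 237 * (s ^ 3 * c.R) := by
      simp only [Fr.R]; push_cast; ring
    have h5 : Fr.R ⟨3, 0⟩ = 3 := by simp [Fr.R]
    rw [h4, h5]
    have h6 : a * ((m + 3) * z) = a * (m * z) + a * (3 * z) := by ring
    linarith only [h2, h3]

theorem fv_hpoly {m z s E a xi : ℝ} (hm : 27 ≤ m) (hw : 9 ≤ m * z) (hs : 0 < s)
    (hs1 : s < 1) (hsz' : z = 1 - s ^ 2) (hz : z ≤ 49 / 100) (hz0 : 0 < z) (hE0 : 0 < E)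
    (hzE : z ≤ E) (hcap : 33 / 10 ≤ m * z * E)
    (hcap2 : 34 / 125 ≤ z → 354 / 100 ≤ m * z * E) (h8 : 8 * s ^ 3 * E ≤ 237 / 100)
    (ha : a = 400 / 237 * s ^ 3 * E)
    (hxi : (z ≤ 31 / 100 ∧ xi = 1 / 40) ∨ (31 / 100 ≤ z ∧ xi = 11 / 200)) :
    237 / 100 * (1 - 2 * a) ^ 3 * (1 + 6 * a - 6 * a ^ 2) *
      (3 * (1 + E) * (1 + 8 * E + E ^ 2)) ≤
      xi * (1 - E) ^ 2 * (8 + 19 * E + 3 * E ^ 2) * (12 * s) * (1 - a) * (1 + a - a ^ 2) *
      (a * ((m + 3) * z)) := by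
  have r1 : Fr.R ⟨1, 39⟩ = 1 / 40 := by simp only [Fr.R]; norm_num
  have r2 : Fr.R ⟨11, 199⟩ = 11 / 200 := by simp only [Fr.R]; norm_num
  have r3 : Fr.R ⟨33, 9⟩ = 33 / 10 := by simp only [Fr.R]; norm_num
  have r4 : Fr.R ⟨177, 49⟩ = 354 / 100 := by simp only [Fr.R]; norm_num
  rcases hxi with ⟨hz1, hx⟩ | ⟨hz1, hx⟩
  · have hs2 : 83 / 100 ≤ s := by nlinarith only [hsz', hz1, hs]
    rcases le_or_gt (2133 / 2500) s with h3 | h3
    · have hE2 : E ≤ 12 / 25 := by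
        have h5 : (2133 / 2500 : ℝ) ^ 3 ≤ s ^ 3 := pow_le_pow_left₀ (by norm_num) h3 3
        have h6 := mul_le_mul_of_nonneg_right h5 hE0.le
        linarith only [h8, h6]
      have := fv_core (xi := ⟨1, 39⟩) (c := ⟨33, 9⟩) (t := fvT0) (A := 2133) (B := 2500)
        (D := 2500) (A' := 0) (B' := 12) (D' := 25) (by norm_num) (by norm_num) (by norm_num)
        (by norm_num) fv_chk0 hm hw
        (by rw [r3]; exact hcap) hz0 hsz' hs hE0 (by rw [r1]; norm_num) hzE h8 ha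
        (by push_cast; linarith only [h3]) (by push_cast; linarith only [hs1]) (by push_cast; linarith only [hz0, hzE])
        (by push_cast; linarith only [hE2])
      rw [r1, ← hx] at this
      exact this
    · have hE2 : E ≤ 13 / 25 := by
        have h5 : (83 / 100 : ℝ) ^ 3 ≤ s ^ 3 := pow_le_pow_left₀ (by norm_num) hs2 3
        have h6 := mul_le_mul_of_nonneg_right h5 hE0.le
        linarith only [h8, h6]
      have hz2 : 34 / 125 ≤ z := by nlinarith only [hsz', h3, hs]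
      have := fv_core (xi := ⟨1, 39⟩) (c := ⟨177, 49⟩) (t := fvT1) (A := 2075) (B := 2133)
        (D := 2500) (A' := 0) (B' := 13) (D' := 25) (by norm_num) (by norm_num) (by norm_num)
        (by norm_num) fv_chk1 hm hw
        (by rw [r4]; exact hcap2 hz2) hz0 hsz' hs hE0
        (by rw [r1]; (clear * -; norm_num)) hzE h8 ha
        (by push_cast; linarith only [hs2]) (by push_cast; linarith only [h3]) (by push_cast; linarith only [hz0, hzE])
        (by push_cast; linarith only [hE2])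
      rw [r1, ← hx] at this
      exact this
  · have hs2 : 714 / 1000 ≤ s := by nlinarith only [hsz', hz, hs]
    have hs3 : s ≤ 8307 / 10000 := by nlinarith only [hsz', hz1]
    have hE2 : E ≤ 41 / 50 := by
      have h5 : (714 / 1000 : ℝ) ^ 3 ≤ s ^ 3 := pow_le_pow_left₀ (by norm_num) hs2 3
      have h6 := mul_le_mul_of_nonneg_right h5 hE0.le
      linarith only [h8, h6]
    have := fv_core (xi := ⟨11, 199⟩) (c := ⟨177, 49⟩) (t := fvT2) (A := 7140) (B := 8307)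
        (D := 10000) (A' := 0) (B' := 41) (D' := 50) (by norm_num) (by norm_num) (by norm_num)
        (by norm_num) fv_chk2 hm hw
        (by rw [r4]; exact hcap2 (by linarith only [hz1])) hz0 hsz' hs hE0
        (by rw [r2]; (clear * -; norm_num)) hzE h8 ha
        (by push_cast; linarith only [hs2]) (by push_cast; linarith only [hs3]) (by push_cast; linarith only [hzE, hz1])
        (by push_cast; linarith only [hE2])
    rw [r2, ← hx] at this
    exact this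

theorem fv_e2 {a : ℝ} (h1a : 0 < 1 - a) :
    (1 - a / (1 - a)) ^ 3 * (1 + 8 * (a / (1 - a)) + (a / (1 - a)) ^ 2) /
        (12 * (a / (1 - a)) * (1 + a / (1 - a)) *
          (1 + 3 * (a / (1 - a)) + (a / (1 - a)) ^ 2)) =
        (1 - 2 * a) ^ 3 * (1 + 6 * a - 6 * a ^ 2) / (12 * a * (1 - a) * (1 + a - a ^ 2)) := by
  have k1 : 1 - a / (1 - a) = (1 - 2 * a) / (1 - a) := by field_simp; ring
  have k2 : 1 + 8 * (a / (1 - a)) + (a / (1 - a)) ^ 2 =
    (1 + 6 * a - 6 * a ^ 2) / (1 - a) ^ 2 := by field_simp; ring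
  have k3 : 1 + a / (1 - a) = 1 / (1 - a) := by field_simp; ring
  have k4 : 1 + 3 * (a / (1 - a)) + (a / (1 - a)) ^ 2 =
    (1 + a - a ^ 2) / (1 - a) ^ 2 := by field_simp; ring
  rw [k1, k2, k3, k4]
  (clear * - h1a; field_simp)

theorem fv_hfin {m z s E a xi : ℝ} (hs : 0 < s) (hE0 : 0 < E) (ha0 : 0 < a) (h1a : 0 < 1 - a)
    (h2a : 0 < 1 + a - a ^ 2)
    (hpoly : 237 / 100 * (1 - 2 * a) ^ 3 * (1 + 6 * a - 6 * a ^ 2) *
      (3 * (1 + E) * (1 + 8 * E + E ^ 2)) ≤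
      xi * (1 - E) ^ 2 * (8 + 19 * E + 3 * E ^ 2) * (12 * s) * (1 - a) * (1 + a - a ^ 2) *
      (a * ((m + 3) * z))) :
    237 / 100 / s * ((1 - 2 * a) ^ 3 * (1 + 6 * a - 6 * a ^ 2) /
        (12 * a * (1 - a) * (1 + a - a ^ 2))) ≤ xi * ((m + 3) * z *
        ((1 - E) ^ 2 * (8 + 19 * E + 3 * E ^ 2) / (3 * (1 + E) * (1 + 8 * E + E ^ 2)))) := by
  have l1 : 237 / 100 / s * ((1 - 2 * a) ^ 3 * (1 + 6 * a - 6 * a ^ 2) /
        (12 * a * (1 - a) * (1 + a - a ^ 2))) =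
        (237 / 100 * (1 - 2 * a) ^ 3 * (1 + 6 * a - 6 * a ^ 2)) /
          (12 * s * a * (1 - a) * (1 + a - a ^ 2)) := by
    rw [div_mul_div_comm, div_eq_div_iff (by (clear * - hs ha0 h1a h2a; positivity)) (by positivity)]
    ring
  have l2 : xi * ((m + 3) * z *
        ((1 - E) ^ 2 * (8 + 19 * E + 3 * E ^ 2) / (3 * (1 + E) * (1 + 8 * E + E ^ 2)))) =
        (xi * ((m + 3) * z) * ((1 - E) ^ 2 * (8 + 19 * E + 3 * E ^ 2))) /
          (3 * (1 + E) * (1 + 8 * E + E ^ 2)) := by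
    rw [← mul_div_assoc, ← mul_div_assoc]
    congr 1
    ring
  rw [l1, l2, div_le_div_iff₀ (by (clear * - hs ha0 h1a h2a; positivity)) (by positivity)]
  linarith only [hpoly]

/-- **(V)** -/
theorem fv_V {m z s l u xi : ℝ} (hm : 27 ≤ m) (hw : 9 ≤ m * z) (hs : 0 < s)
    (hsz : s ^ 2 = 1 - z) (hz : z ≤ 49 / 100) (hl : 0 < l) (hu : 0 < 1 + u) (hu0 : u ≤ 0)
    (hzE : z ≤ Real.exp (-(2 * l))) (hcap : 33 / 10 ≤ m * z * Real.exp (-(2 * l)))
    (hcap2 : 34 / 125 ≤ z → 354 / 100 ≤ m * z * Real.exp (-(2 * l)))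
    (hxi : (z ≤ 31 / 100 ∧ xi = 1 / 40) ∨ (31 / 100 ≤ z ∧ xi = 11 / 200)) :
    237 / 100 / s * (u - Real.log (1 + u)) ≤
      4 * s ^ 2 * Real.exp (-(2 * l)) * (u ^ 2 / (1 + u)) +
      xi * ((m + 3) * z * (Real.exp (-(2 * l)) - 1 + 2 * l)) := by
  set E := Real.exp (-(2 * l)) with hE
  have hE0 : 0 < E := Real.exp_pos _
  have hE1 : E ≤ 1 := by
    rw [hE, Real.exp_le_one_iff]; linarith only [hl]
  have hlog : -Real.log E = 2 * l := by rw [hE, Real.log_exp]; ring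
  have hmz : 0 < m * z := by linarith only [hw]
  have hz0 : 0 < z := by
    rcases le_or_gt z 0 with h | h
    · exfalso; nlinarith only [hw, h, hm]
    · exact h
  have hs1 : s < 1 := by nlinarith only [hsz, hz0]
  have hsz' : z = 1 - s ^ 2 := by linarith only [hsz]
  have hxi0 : 0 ≤ xi := by rcases hxi with ⟨-, h⟩ | ⟨-, h⟩ <;> rw [h] <;> norm_num
  have hX := fv_log_ge (E := E) ⟨hE0, hE1⟩
  rw [hlog] at hX
  have hX2 : (1 - E) ^ 2 * (8 + 19 * E + 3 * E ^ 2) / (3 * (1 + E) * (1 + 8 * E + E ^ 2)) ≤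
      E - 1 + 2 * l := by
    have e : (1 - E) ^ 2 * (8 + 19 * E + 3 * E ^ 2) / (3 * (1 + E) * (1 + 8 * E + E ^ 2)) =
        (1 - E) * (11 + 38 * E + 11 * E ^ 2) / (3 * (1 + E) * (1 + 8 * E + E ^ 2)) -
          (1 - E) := by
      field_simp
      ring
    linarith
  have hX0 : 0 ≤ (1 - E) ^ 2 * (8 + 19 * E + 3 * E ^ 2) /
      (3 * (1 + E) * (1 + 8 * E + E ^ 2)) := by (clear * -; positivity)
  set p := 1 + u with hp
  have hp1 : p ≤ 1 := by linarith only [hu0]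
  have hpI : p ∈ Ioc (0 : ℝ) 1 := ⟨hu, hp1⟩
  have eg : u - Real.log p = p - 1 - Real.log p := by rw [hp]; ring
  have eW : u ^ 2 / p = (1 - p) ^ 2 / p := by rw [hp]; ring_nf
  rw [eg, eW]
  have hW : 0 ≤ (1 - p) ^ 2 / p := by (clear * - hu; positivity)
  rcases le_or_gt (237 / 100) (8 * s ^ 3 * E) with h8 | h8
  · have h1 := fv_log_le1 hpI
    have h2 : p - 1 - Real.log p ≤ 1 / 2 * ((1 - p) ^ 2 / p) := by
      have e : 1 / 2 * ((1 - p) ^ 2 / p) = p - 1 + (1 - p ^ 2) / (2 * p) := by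
        field_simp
        ring
      linarith only [h1, e]
    have h3 : 237 / 100 / s * (1 / 2) ≤ 4 * s ^ 2 * E := by
      rw [div_mul_eq_mul_div, div_le_iff₀ hs]
      nlinarith only [h8]
    have h4 : 237 / 100 / s * (p - 1 - Real.log p) ≤
        237 / 100 / s * (1 / 2 * ((1 - p) ^ 2 / p)) :=
      mul_le_mul_of_nonneg_left h2 (by positivity)
    have h5 := mul_le_mul_of_nonneg_right h3 hW
    have h6 : 0 ≤ xi * ((m + 3) * z * (E - 1 + 2 * l)) :=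
      mul_nonneg hxi0 (mul_nonneg (by positivity) (hX0.trans hX2))
    linarith only [h4, h5, h6]
  · set a := 400 / 237 * s ^ 3 * E with ha
    have ha0 : 0 < a := by positivity
    have ha1 : a < 1 / 2 := by rw [ha]; linarith only [h8]
    have h1a : 0 < 1 - a := by linarith only [ha1]
    have hq : a / (1 - a) ∈ Ioc (0 : ℝ) 1 := ⟨by (clear * - hs h1a; positivity), by rw [div_le_one h1a]; linarith only [ha1]⟩
    have hmin := fv_min hpI hq
    have hval := fv_val hq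
    have e1 : a / (1 - a) / (1 + a / (1 - a)) = a := by
      field_simp
      ring
    rw [e1] at hmin
    have h2a : 0 < 1 + a - a ^ 2 := by nlinarith only [ha, h8, ha0]
    rw [fv_e2 h1a] at hval
    have hfin := fv_hfin (m := m) (z := z) hs hE0 ha0 h1a h2a
      (fv_hpoly hm hw hs hs1 hsz' hz hz0 hE0 hzE hcap hcap2 h8.le ha hxi)
    have h4 : 237 / 100 / s * (p - 1 - Real.log p) ≤
        237 / 100 / s * (a * ((1 - p) ^ 2 / p) + (1 - 2 * a) ^ 3 * (1 + 6 * a - 6 * a ^ 2) /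
          (12 * a * (1 - a) * (1 + a - a ^ 2))) :=
      mul_le_mul_of_nonneg_left (by linarith only [hmin, hval]) (by (clear * - hs; positivity))
    have h5 : 237 / 100 / s * a = 4 * s ^ 2 * E := by
      rw [ha]
      field_simp
      norm_num
    have h6 : xi * ((m + 3) * z * ((1 - E) ^ 2 * (8 + 19 * E + 3 * E ^ 2) /
        (3 * (1 + E) * (1 + 8 * E + E ^ 2)))) ≤ xi * ((m + 3) * z * (E - 1 + 2 * l)) :=
      mul_le_mul_of_nonneg_left (mul_le_mul_of_nonneg_left hX2 (by (clear * - hm hz0; positivity))) hxi0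
    have h7 : 237 / 100 / s * (a * ((1 - p) ^ 2 / p)) = 4 * s ^ 2 * E * ((1 - p) ^ 2 / p) := by
      rw [← h5]; ring
    rw [mul_add, h7] at h4
    linarith only [hfin, h4, h6]

theorem fx_core {chi c : Fr} {t : PT3} {A B : ℤ} {D : ℕ} (hD : 0 < D) (hA : A < B)
    (chk : tchk3 (2 ^ 1024) 12 4000 (fxF chi c) fxLo t A B D 0 1 1 0 1 1 = true)
    {w z E : ℝ} (hm : 27 * z ≤ w) (hw : 9 ≤ w) (hc : c.R ≤ w * E) (hE0 : 0 < E) (hE1 : E ≤ 1)
    (hchi : 0 ≤ chi.R) (hzE : z ≤ E) (b1 : (A : ℝ) ≤ D * z) (b2 : (D : ℝ) * z ≤ B) :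
    (w + 3 * z) * (10 * (1 - z) ^ 2 * (1 - E) ^ 2 * (1 + 18 * E + 11 * E ^ 2)) ≤
      chi.R * (2 * (1 - z) ^ 2 + 5 * w * (1 - z) + w * (w - 2 * z)) *
        (E * (12 * (1 + 3 * E + E ^ 2))) := by
  have hLo : ∀ F ∈ fxLo, Ex3.R z E 0 F ≤ 0 := by
    intro F hF
    simp only [fxLo, List.mem_cons, List.not_mem_nil, or_false] at hF
    subst hF
    simp only [Ex3.R_sub, Ex3.R_X, Ex3.R_Y]
    linarith only [hzE]
  obtain ⟨G, hG, h⟩ := tchk3_sound (x := z) (y := E) (z := 0) hLo t A B D 0 1 1 0 1 1 hD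
    one_pos one_pos hA one_pos one_pos chk b1 b2 (by push_cast; linarith only [hE0])
    (by push_cast; linarith only [hE1]) (by norm_num) (by norm_num)
  set q1 := 12 * (1 + 3 * E + E ^ 2) with hq1
  set qn := 10 * (1 - z) ^ 2 * (1 - E) ^ 2 * (1 + 18 * E + 11 * E ^ 2) with hqn
  have hq10 : 0 < q1 := by positivity
  have e1 : (fxq1).R z E 0 = q1 := by
    simp only [fxq1, Ex3.R_mul, Ex3.R_c, Fr.R, Ex3.R_add, Ex3.R_Y]
    push_cast
    ring
  have e2 : (fxqn).R z E 0 = qn := by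
    simp only [fxqn, fxs2, Ex3.R_add, Ex3.R_sub, Ex3.R_c, Ex3.R_mul, Ex3.R_X, Ex3.R_Y, Fr.R]
    push_cast
    ring
  have ef : ∀ W : Ex3, (fxf chi W).R z E 0 = chi.R * (2 * (1 - z) ^ 2 +
      5 * W.R z E 0 * (1 - z) + W.R z E 0 * (W.R z E 0 - 2 * z)) * (E * q1) -
      (W.R z E 0 + 3 * z) * qn := by
    intro W
    simp only [fxf, fxs2, Ex3.R_sub, Ex3.R_mul, Ex3.R_c, Ex3.R_add, Ex3.R_X, Ex3.R_Y, e1, e2]
    simp only [Fr.R]
    push_cast
    ring
  have ep : ∀ W : Ex3, (fxp chi W).R z E 0 = chi.R * (5 * (1 - z) + 2 * W.R z E 0 - 2 * z) *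
      (E * q1) - qn := by
    intro W
    simp only [fxp, fxs2, Ex3.R_add, Ex3.R_sub, Ex3.R_c, Ex3.R_mul, Ex3.R_X, Ex3.R_Y, e1, e2]
    simp only [Fr.R]
    push_cast
    ring
  have key : ∀ w1 : ℝ, w1 ≤ w → 0 ≤ chi.R * (2 * (1 - z) ^ 2 +
      5 * w1 * (1 - z) + w1 * (w1 - 2 * z)) * (E * q1) - (w1 + 3 * z) * qn →
      0 ≤ chi.R * (5 * (1 - z) + 2 * w1 - 2 * z) * (E * q1) - qn →
      (w + 3 * z) * qn ≤ chi.R * (2 * (1 - z) ^ 2 + 5 * w * (1 - z) + w * (w - 2 * z)) *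
        (E * q1) := by
    intro w1 h1 h2 h3
    have h4 := mul_nonneg h3 (sub_nonneg.2 h1)
    have h5 : 0 ≤ chi.R * (E * q1) * (w - w1) ^ 2 := by (clear * - hchi hE0; positivity)
    have e : chi.R * (2 * (1 - z) ^ 2 + 5 * w * (1 - z) + w * (w - 2 * z)) * (E * q1) -
        (w + 3 * z) * qn = (chi.R * (2 * (1 - z) ^ 2 +
      5 * w1 * (1 - z) + w1 * (w1 - 2 * z)) * (E * q1) - (w1 + 3 * z) * qn) +
      (chi.R * (5 * (1 - z) + 2 * w1 - 2 * z) * (E * q1) - qn) * (w - w1) +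
      chi.R * (E * q1) * (w - w1) ^ 2 := by ring
    linarith only [h2, h4, h5]
  simp only [fxF, List.mem_cons, List.not_mem_nil, or_false] at hG
  rcases hG with rfl | rfl | rfl
  · have h1 := h _ (List.mem_cons_self ..)
    have h2 := h _ (List.mem_cons_of_mem _ (List.mem_cons_self ..))
    rw [ef] at h1
    rw [ep] at h2
    have e3 : Ex3.R z E 0 (Ex3.c ⟨27, 0⟩ * Ex3.X) = 27 * z := by
      simp only [Ex3.R_mul, Ex3.R_c, Ex3.R_X, Fr.R]
      push_cast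
      ring
    rw [e3] at h1 h2
    exact key _ hm h1 h2
  · have h1 := h _ (List.mem_cons_self ..)
    have h2 := h _ (List.mem_cons_of_mem _ (List.mem_cons_self ..))
    rw [ef] at h1
    rw [ep] at h2
    have e3 : Ex3.R z E 0 (Ex3.c ⟨9, 0⟩) = 9 := by
      simp only [Ex3.R_c, Fr.R]
      push_cast
      ring
    rw [e3] at h1 h2
    exact key _ hw h1 h2
  · have h1 := h _ (List.mem_cons_self ..)
    have h2 := h _ (List.mem_cons_of_mem _ (List.mem_cons_self ..))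
    have e3 : (fxfc chi c).R z E 0 = E * (chi.R * (2 * (1 - z) ^ 2 +
        5 * (c.R / E) * (1 - z) + c.R / E * (c.R / E - 2 * z)) * (E * q1) -
        (c.R / E + 3 * z) * qn) := by
      simp only [fxfc, fxs2, Ex3.R_add, Ex3.R_sub, Ex3.R_c, Ex3.R_mul, Ex3.R_X, Ex3.R_Y, e1, e2]
      have r2 : Fr.R ⟨2, 0⟩ = 2 := by simp only [Fr.R, Int.cast_ofNat, CharP.cast_eq_zero, zero_add, div_one]
      have r1 : Fr.R ⟨1, 0⟩ = 1 := by simp [Fr.R]
      have r5 : Fr.R ⟨5, 0⟩ = 5 := by simp only [Fr.R, Int.cast_ofNat, CharP.cast_eq_zero, zero_add, div_one]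
      have r3 : Fr.R ⟨3, 0⟩ = 3 := by simp [Fr.R]
      rw [r1, r2, r3, r5]
      field_simp
      ring
    have e4 : (fxpc chi c).R z E 0 =
        chi.R * (5 * (1 - z) + 2 * (c.R / E) - 2 * z) * (E * q1) - qn := by
      simp only [fxpc, fxs2, Ex3.R_add, Ex3.R_sub, Ex3.R_c, Ex3.R_mul, Ex3.R_X, Ex3.R_Y, e1, e2]
      have r2 : Fr.R ⟨2, 0⟩ = 2 := by simp only [Fr.R, Int.cast_ofNat, CharP.cast_eq_zero, zero_add, div_one]
      have r1 : Fr.R ⟨1, 0⟩ = 1 := by simp [Fr.R]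
      have r5 : Fr.R ⟨5, 0⟩ = 5 := by simp [Fr.R]
      rw [r1, r2, r5]
      field_simp
      ring
    rw [e3] at h1
    rw [e4] at h2
    refine key _ (by rw [div_le_iff₀ hE0]; exact hc) (nonneg_of_mul_nonneg_right h1 hE0) h2

theorem fv_Xfin {m z s l chi : ℝ} (hs : 0 < s) (hsz : s ^ 2 = 1 - z) (hl : 0 < l)
    (hmz : 0 < (m + 3) * z)
    (h : (m * z + 3 * z) * (10 * (1 - z) ^ 2 * (1 - Real.exp (-(2 * l))) ^ 2 *
        (1 + 18 * Real.exp (-(2 * l)) + 11 * Real.exp (-(2 * l)) ^ 2)) ≤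
      chi * (2 * (1 - z) ^ 2 + 5 * (m * z) * (1 - z) + m * z * (m * z - 2 * z)) *
        (Real.exp (-(2 * l)) *
          (12 * (1 + 3 * Real.exp (-(2 * l)) + Real.exp (-(2 * l)) ^ 2)))) :
    (m + 3) * z * (Real.exp (-(2 * l)) - 1 + 2 * l) ≤ chi * dpR m (z / s ^ 2) := by
  set E := Real.exp (-(2 * l)) with hE
  have hE0 : 0 < E := Real.exp_pos _
  have hE1 : E ≤ 1 := by
    rw [hE, Real.exp_le_one_iff]; linarith only [hl]
  have hlog : -Real.log E = 2 * l := by rw [hE, Real.log_exp]; ring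
  have h1z : 0 < 1 - z := by rw [← hsz]; positivity
  have hX := fv_log_le (p := E) ⟨hE0, hE1⟩
  rw [hlog] at hX
  have hX2 : E - 1 + 2 * l ≤ (1 - E) ^ 2 * (1 + 18 * E + 11 * E ^ 2) /
      (12 * E * (1 + 3 * E + E ^ 2)) := by
    have e : (1 - E) ^ 2 * (1 + 18 * E + 11 * E ^ 2) / (12 * E * (1 + 3 * E + E ^ 2)) =
        (1 - E ^ 2) * (1 + 28 * E + E ^ 2) / (12 * E * (1 + 3 * E + E ^ 2)) - (1 - E) := by
      field_simp
      ring
    (clear * - hX e; linarith)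
  refine (mul_le_mul_of_nonneg_left hX2 hmz.le).trans ?_
  have e : chi * dpR m (z / s ^ 2) = chi * (2 * (1 - z) ^ 2 + 5 * (m * z) * (1 - z) +
      m * z * (m * z - 2 * z)) / (10 * (1 - z) ^ 2) := by
    rw [dpR, hsz]
    (clear * - h1z; field_simp)
  rw [e, ← mul_div_assoc, div_le_div_iff₀ (by positivity) (by (clear * - h1z; positivity))]
  linarith only [h]

/-- **(X)** -/
theorem fv_X {m z s l chi : ℝ} (hm : 27 ≤ m) (hw : 9 ≤ m * z) (hs : 0 < s)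
    (hsz : s ^ 2 = 1 - z) (hz : z ≤ 49 / 100) (hl : 0 < l)
    (hzE : z ≤ Real.exp (-(2 * l))) (hcap : 33 / 10 ≤ m * z * Real.exp (-(2 * l)))
    (hcap2 : 34 / 125 ≤ z → 354 / 100 ≤ m * z * Real.exp (-(2 * l)))
    (hchi : (z ≤ 17 / 100 ∧ chi = 2 / 5) ∨ (17 / 100 ≤ z ∧ z ≤ 6 / 25 ∧ chi = 3 / 10) ∨
      (6 / 25 ≤ z ∧ z ≤ 34 / 125 ∧ chi = 6 / 25) ∨
      (34 / 125 ≤ z ∧ z ≤ 31 / 100 ∧ chi = 21 / 100) ∨ (31 / 100 ≤ z ∧ chi = 9 / 50)) :
    (m + 3) * z * (Real.exp (-(2 * l)) - 1 + 2 * l) ≤ chi * dpR m (z / s ^ 2) := by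
  have hE0 : 0 < Real.exp (-(2 * l)) := Real.exp_pos _
  have hE1 : Real.exp (-(2 * l)) ≤ 1 := by
    rw [Real.exp_le_one_iff]; linarith only [hl]
  have hmz : 0 < m * z := by linarith only [hw]
  have hz0 : 0 < z := by
    rcases le_or_gt z 0 with h | h
    · exfalso; nlinarith only [hw, h, hm]
    · exact h
  have hm27 : 27 * z ≤ m * z := by nlinarith only [hm, hz0]
  have r3 : Fr.R ⟨33, 9⟩ = 33 / 10 := by simp only [Fr.R]; norm_num
  have r4 : Fr.R ⟨177, 49⟩ = 354 / 100 := by simp only [Fr.R]; norm_num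
  refine fv_Xfin hs hsz hl (by (clear * - hm hz0; positivity)) ?_
  rcases hchi with ⟨h2, hx⟩ | ⟨h1, h2, hx⟩ | ⟨h1, h2, hx⟩ | ⟨h1, h2, hx⟩ | ⟨h1, hx⟩
  · have r : Fr.R ⟨2, 4⟩ = 2 / 5 := by simp only [Fr.R]; norm_num
    have := fx_core (chi := ⟨2, 4⟩) (c := ⟨33, 9⟩) (t := fxT0) (A := 0) (B := 17) (D := 100)
      (by norm_num) (by norm_num) fx_chk0 hm27 hw (by rw [r3]; exact hcap) hE0 hE1
      (by rw [r]; norm_num) hzE (by push_cast; linarith only [hz0]) (by push_cast; linarith only [h2])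
    rw [r, ← hx] at this
    exact this
  · have r : Fr.R ⟨3, 9⟩ = 3 / 10 := by simp only [Fr.R]; norm_num
    have := fx_core (chi := ⟨3, 9⟩) (c := ⟨33, 9⟩) (t := fxT1) (A := 17) (B := 24) (D := 100)
      (by norm_num) (by norm_num) fx_chk1 hm27 hw (by rw [r3]; exact hcap) hE0 hE1
      (by rw [r]; norm_num) hzE (by push_cast; linarith only [h1]) (by push_cast; linarith only [h2])
    rw [r, ← hx] at this
    exact this
  · have r : Fr.R ⟨6, 24⟩ = 6 / 25 := by simp only [Fr.R]; norm_num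
    have := fx_core (chi := ⟨6, 24⟩) (c := ⟨33, 9⟩) (t := fxT2) (A := 30) (B := 34) (D := 125)
      (by norm_num) (by norm_num) fx_chk2 hm27 hw (by rw [r3]; exact hcap) hE0 hE1
      (by rw [r]; norm_num) hzE (by push_cast; linarith only [h1]) (by push_cast; linarith only [h2])
    rw [r, ← hx] at this
    exact this
  · have r : Fr.R ⟨21, 99⟩ = 21 / 100 := by simp only [Fr.R]; norm_num
    have := fx_core (chi := ⟨21, 99⟩) (c := ⟨177, 49⟩) (t := fxT3) (A := 136) (B := 155)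
      (D := 500)
      (by norm_num) (by norm_num) fx_chk3 hm27 hw (by rw [r4]; exact hcap2 h1) hE0 hE1
      (by rw [r]; norm_num) hzE (by push_cast; linarith only [h1]) (by push_cast; linarith only [h2])
    rw [r, ← hx] at this
    exact this
  · have r : Fr.R ⟨9, 49⟩ = 9 / 50 := by simp only [Fr.R]; norm_num
    have := fx_core (chi := ⟨9, 49⟩) (c := ⟨177, 49⟩) (t := fxT4) (A := 31) (B := 49)
      (D := 100)
      (by norm_num) (by norm_num) fx_chk4 hm27 hw (by rw [r4]; exact hcap2 (by linarith only [h1])) hE0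
      hE1 (by rw [r]; norm_num) hzE (by push_cast; linarith only [h1]) (by push_cast; linarith only [hz])
    rw [r, ← hx] at this
    exact this

end Vale.Agent.P237.AllN
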