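import Mathlib

/-!
# P237, block D: rational bounds for the logarithm on `(0,1]`
-/

open Set

namespace Vale.Agent.P237.AllN

theorem fv_nonneg {F F' : ℝ → ℝ} (h1 : F 1 = 0)
    (hd : ∀ x ∈ Ioc (0 : ℝ) 1, HasDerivAt F (F' x) x) (hF : ∀ x ∈ Ioc (0 : ℝ) 1, F' x ≤ 0)
    {x : ℝ} (hx : x ∈ Ioc (0 : ℝ) 1) : 0 ≤ F x := by
  have hsub : Icc x 1 ⊆ Ioc (0 : ℝ) 1 := fun y hy => ⟨hx.1.trans_le hy.1, hy.2⟩
  have hanti : AntitoneOn F (Icc x 1) := by
    apply antitoneOn_of_deriv_nonpos (convex_Icc x 1)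
    · exact fun y hy => (hd y (hsub hy)).continuousAt.continuousWithinAt
    · intro y hy
      rw [interior_Icc] at hy
      exact (hd y (hsub (Ioo_subset_Icc_self hy))).differentiableAt.differentiableWithinAt
    · intro y hy
      rw [interior_Icc] at hy
      have hy' := hsub (Ioo_subset_Icc_self hy)
      rw [(hd y hy').deriv]
      exact hF y hy'
  have := hanti (left_mem_Icc.2 hx.2) (right_mem_Icc.2 hx.2) hx.2
  linarith only [h1, this]

theorem fv_poly (c0 c1 c2 c3 c4 x : ℝ) :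
    HasDerivAt (fun x : ℝ => c0 + c1 * x + c2 * x ^ 2 + c3 * x ^ 3 + c4 * x ^ 4)
      (c1 + 2 * c2 * x + 3 * c3 * x ^ 2 + 4 * c4 * x ^ 3) x := by
  have h1 := (hasDerivAt_id x).const_mul c1
  have h2 := (hasDerivAt_pow 2 x).const_mul c2
  have h3 := (hasDerivAt_pow 3 x).const_mul c3
  have h4 := (hasDerivAt_pow 4 x).const_mul c4
  have h := (((h1.const_add c0).add h2).add h3).add h4
  refine (h.congr_deriv ?_)
  norm_num
  ring

/-- lower bound for `-log` (Gauss, three nodes) -/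
theorem fv_log_ge {E : ℝ} (hE : E ∈ Ioc (0 : ℝ) 1) :
    (1 - E) * (11 + 38 * E + 11 * E ^ 2) / (3 * (1 + E) * (1 + 8 * E + E ^ 2)) ≤ -Real.log E := by
  have key := fv_nonneg (F := fun x => -Real.log x -
      (11 + 27 * x + -27 * x ^ 2 + -11 * x ^ 3 + 0 * x ^ 4) /
        (3 + 27 * x + 27 * x ^ 2 + 3 * x ^ 3 + 0 * x ^ 4))
    (F' := fun x => -(9 * (1 - x) ^ 6) / (x * (3 + 27 * x + 27 * x ^ 2 + 3 * x ^ 3) ^ 2))
    (by norm_num) ?_ ?_ hE
  · have e : (1 - E) * (11 + 38 * E + 11 * E ^ 2) / (3 * (1 + E) * (1 + 8 * E + E ^ 2)) =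
        (11 + 27 * E + -27 * E ^ 2 + -11 * E ^ 3 + 0 * E ^ 4) /
        (3 + 27 * E + 27 * E ^ 2 + 3 * E ^ 3 + 0 * E ^ 4) := by
      congr 1 <;> ring
    rw [e]
    simpa only [neg_mul, zero_mul, add_zero, ge_iff_le, sub_nonneg] using key
  · intro x hx
    have hx0 := hx.1
    have hne : 3 + 27 * x + 27 * x ^ 2 + 3 * x ^ 3 + 0 * x ^ 4 ≠ 0 := by (clear * - hx0; positivity)
    have h := ((Real.hasDerivAt_log hx0.ne').neg).sub ((fv_poly 11 27 (-27) (-11) 0 x).div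
      (fv_poly 3 27 27 3 0 x) hne)
    refine h.congr_deriv ?_
    have hne' : 3 + 27 * x + 27 * x ^ 2 + 3 * x ^ 3 ≠ 0 := by positivity
    simp only [zero_mul, add_zero, mul_zero]
    field_simp
    ring
  · intro x hx
    have hx0 := hx.1
    have : 0 ≤ 9 * (1 - x) ^ 6 / (x * (3 + 27 * x + 27 * x ^ 2 + 3 * x ^ 3) ^ 2) := by positivity
    rw [neg_div]
    linarith

/-- upper bound for `-log` (Lobatto, four nodes) -/
theorem fv_log_le {p : ℝ} (hp : p ∈ Ioc (0 : ℝ) 1) :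
    -Real.log p ≤ (1 - p ^ 2) * (1 + 28 * p + p ^ 2) / (12 * p * (1 + 3 * p + p ^ 2)) := by
  have key := fv_nonneg (F := fun x => Real.log x +
      (1 + 28 * x + 0 * x ^ 2 + -28 * x ^ 3 + -1 * x ^ 4) /
        (0 + 12 * x + 36 * x ^ 2 + 12 * x ^ 3 + 0 * x ^ 4))
    (F' := fun x => -(12 * (1 - x) ^ 6) / ((12 * x + 36 * x ^ 2 + 12 * x ^ 3) ^ 2))
    (by norm_num) ?_ ?_ hp
  · have e : (1 - p ^ 2) * (1 + 28 * p + p ^ 2) / (12 * p * (1 + 3 * p + p ^ 2)) =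
        (1 + 28 * p + 0 * p ^ 2 + -28 * p ^ 3 + -1 * p ^ 4) /
        (0 + 12 * p + 36 * p ^ 2 + 12 * p ^ 3 + 0 * p ^ 4) := by
      congr 1 <;> ring
    rw [e]
    have key' : 0 ≤ Real.log p + (1 + 28 * p + 0 * p ^ 2 + -28 * p ^ 3 + -1 * p ^ 4) /
        (0 + 12 * p + 36 * p ^ 2 + 12 * p ^ 3 + 0 * p ^ 4) := key
    linarith only [key]
  · intro x hx
    have hx0 := hx.1
    have hne : 0 + 12 * x + 36 * x ^ 2 + 12 * x ^ 3 + 0 * x ^ 4 ≠ 0 := by positivity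
    have h := (Real.hasDerivAt_log hx0.ne').add ((fv_poly 1 28 0 (-28) (-1) x).div
      (fv_poly 0 12 36 12 0 x) hne)
    refine h.congr_deriv ?_
    have hne' : 12 * x + 36 * x ^ 2 + 12 * x ^ 3 ≠ 0 := by positivity
    have hne2 : 12 + 36 * x + 12 * x ^ 2 ≠ 0 := by positivity
    simp only [zero_mul, add_zero, mul_zero, zero_add]
    field_simp
    ring
  · intro x hx
    have hx0 := hx.1
    have : 0 ≤ 12 * (1 - x) ^ 6 / ((12 * x + 36 * x ^ 2 + 12 * x ^ 3) ^ 2) := by positivity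
    rw [neg_div]
    linarith only [this]

/-- `log x ≥ 2(x-1)/(x+1)` for `x ≥ 1` in the form `-log p ≥ 2(1-p)/(1+p)`, `0 < p ≤ 1` -/
theorem fv_log_ge1 {p : ℝ} (hp : p ∈ Ioc (0 : ℝ) 1) : 2 * (1 - p) / (1 + p) ≤ -Real.log p := by
  have key := fv_nonneg (F := fun x => -Real.log x -
      (2 + -2 * x + 0 * x ^ 2 + 0 * x ^ 3 + 0 * x ^ 4) /
        (1 + 1 * x + 0 * x ^ 2 + 0 * x ^ 3 + 0 * x ^ 4))
    (F' := fun x => -((1 - x) ^ 2) / (x * (1 + x) ^ 2))
    (by norm_num) ?_ ?_ hp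
  · have e : 2 * (1 - p) / (1 + p) = (2 + -2 * p + 0 * p ^ 2 + 0 * p ^ 3 + 0 * p ^ 4) /
        (1 + 1 * p + 0 * p ^ 2 + 0 * p ^ 3 + 0 * p ^ 4) := by
      congr 1 <;> ring
    rw [e]
    simpa only [neg_mul, zero_mul, add_zero, one_mul, ge_iff_le, sub_nonneg] using key
  · intro x hx
    have hx0 := hx.1
    have hne : 1 + 1 * x + 0 * x ^ 2 + 0 * x ^ 3 + 0 * x ^ 4 ≠ 0 := by (clear * - hx0; positivity)
    have h := ((Real.hasDerivAt_log hx0.ne').neg).sub ((fv_poly 2 (-2) 0 0 0 x).div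
      (fv_poly 1 1 0 0 0 x) hne)
    refine h.congr_deriv ?_
    have hne' : 1 + x ≠ 0 := by positivity
    simp only [zero_mul, add_zero, mul_zero, one_mul]
    field_simp
    ring
  · intro x hx
    have hx0 := hx.1
    have : 0 ≤ (1 - x) ^ 2 / (x * (1 + x) ^ 2) := by positivity
    rw [neg_div]
    linarith only [this]

/-- `-log p ≤ (1/p - p)/2`, `0 < p ≤ 1` -/
theorem fv_log_le1 {p : ℝ} (hp : p ∈ Ioc (0 : ℝ) 1) : -Real.log p ≤ (1 - p ^ 2) / (2 * p) := by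
  have key := fv_nonneg (F := fun x => Real.log x +
      (1 + 0 * x + -1 * x ^ 2 + 0 * x ^ 3 + 0 * x ^ 4) /
        (0 + 2 * x + 0 * x ^ 2 + 0 * x ^ 3 + 0 * x ^ 4))
    (F' := fun x => -((1 - x) ^ 2) / (2 * x ^ 2))
    (by norm_num) ?_ ?_ hp
  · have e : (1 - p ^ 2) / (2 * p) = (1 + 0 * p + -1 * p ^ 2 + 0 * p ^ 3 + 0 * p ^ 4) /
        (0 + 2 * p + 0 * p ^ 2 + 0 * p ^ 3 + 0 * p ^ 4) := by
      congr 1 <;> ring
    rw [e]
    have key' : 0 ≤ Real.log p + (1 + 0 * p + -1 * p ^ 2 + 0 * p ^ 3 + 0 * p ^ 4) /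
        (0 + 2 * p + 0 * p ^ 2 + 0 * p ^ 3 + 0 * p ^ 4) := key
    linarith only [key]
  · intro x hx
    have hx0 := hx.1
    have hne : 0 + 2 * x + 0 * x ^ 2 + 0 * x ^ 3 + 0 * x ^ 4 ≠ 0 := by (clear * - hx0; positivity)
    have h := (Real.hasDerivAt_log hx0.ne').add ((fv_poly 1 0 (-1) 0 0 x).div
      (fv_poly 0 2 0 0 0 x) hne)
    refine h.congr_deriv ?_
    simp only [zero_mul, add_zero, mul_zero, zero_add]
    field_simp
    ring
  · intro x hx
    have hx0 := hx.1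
    have : 0 ≤ (1 - x) ^ 2 / (2 * x ^ 2) := by positivity
    rw [neg_div]
    linarith only [this]

/-- the minimum of `δ (1-p)²/p - (p - 1 - log p)` is at `p₀`, `δ = p₀/(1+p₀)` -/
theorem fv_min {p q : ℝ} (hp : p ∈ Ioc (0 : ℝ) 1) (hq : q ∈ Ioc (0 : ℝ) 1) :
    p - 1 - Real.log p ≤ q / (1 + q) * ((1 - p) ^ 2 / p) +
      (-Real.log q - 2 * (1 - q) / (1 + q)) := by
  have hp0 := hp.1
  have hq0 := hq.1
  have hp1 := hp.2
  have hq1 := hq.2
  have e : q / (1 + q) * ((1 - p) ^ 2 / p) + (-Real.log q - 2 * (1 - q) / (1 + q)) -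
      (p - 1 - Real.log p) = (Real.log p - Real.log q) - (p - q) * (1 + p) / (p * (1 + q)) := by
    field_simp
    ring
  suffices h : (p - q) * (1 + p) / (p * (1 + q)) ≤ Real.log p - Real.log q by linarith
  rcases le_total q p with h | h
  · have h1 := fv_log_ge1 (p := q / p) ⟨by positivity, by rw [div_le_one hp0]; exact h⟩
    rw [Real.log_div hq0.ne' hp0.ne'] at h1
    have h2 : (p - q) * (1 + p) / (p * (1 + q)) ≤ 2 * (1 - q / p) / (1 + q / p) := by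
      have e2 : 2 * (1 - q / p) / (1 + q / p) = 2 * (p - q) / (p + q) := by
        (clear * - hp0 hq0; field_simp)
      rw [e2, div_le_div_iff₀ (by positivity) (by positivity)]
      have h3 : 0 ≤ (p - q) * ((p - q) * (1 - p)) :=
        mul_nonneg (by linarith only [h]) (mul_nonneg (by linarith only [h]) (by linarith only [hp1]))
      nlinarith only [h3]
    linarith only [h1, h2]
  · have h1 := fv_log_le1 (p := p / q) ⟨by positivity, by rw [div_le_one hq0]; exact h⟩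
    rw [Real.log_div hp0.ne' hq0.ne'] at h1
    have h2 : (1 - (p / q) ^ 2) / (2 * (p / q)) ≤ -((p - q) * (1 + p) / (p * (1 + q))) := by
      have e2 : (1 - (p / q) ^ 2) / (2 * (p / q)) = (q ^ 2 - p ^ 2) / (2 * p * q) := by
        field_simp
      rw [e2, ← neg_div, div_le_div_iff₀ (by positivity) (by positivity)]
      have h3 : 0 ≤ p * ((q - p) * ((q - p) * (1 - q))) :=
        mul_nonneg hp0.le (mul_nonneg (by linarith only [h]) (mul_nonneg (by linarith only [h]) (by linarith only [hq1])))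
      nlinarith only [h3]
    linarith only [h1, h2]

/-- bound for the value at the minimum -/
theorem fv_val {q : ℝ} (hq : q ∈ Ioc (0 : ℝ) 1) : -Real.log q - 2 * (1 - q) / (1 + q) ≤
    (1 - q) ^ 3 * (1 + 8 * q + q ^ 2) / (12 * q * (1 + q) * (1 + 3 * q + q ^ 2)) := by
  have hq0 := hq.1
  have h := fv_log_le hq
  have e : (1 - q) ^ 3 * (1 + 8 * q + q ^ 2) / (12 * q * (1 + q) * (1 + 3 * q + q ^ 2)) =
      (1 - q ^ 2) * (1 + 28 * q + q ^ 2) / (12 * q * (1 + 3 * q + q ^ 2)) -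
        2 * (1 - q) / (1 + q) := by
    field_simp
    ring
  linarith

end Vale.Agent.P237.AllN
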