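import Vale.Agent.P237.AllN.FPuE

/-!
# P237, block D, `x ≥ 7/10`, `l > 0`: one-variable inequalities
-/

namespace Vale.Agent.P237.AllN

theorem fxr_log_ge {r : ℝ} (h0 : 0 < r) (h1 : r ≤ 1) : (r - r⁻¹) / 2 ≤ Real.log r := by
  have h := Real.sinh_le_self_iff.2 (Real.log_nonpos h0.le h1)
  rwa [Real.sinh_log h0] at h

theorem fxr_W {u : ℝ} (hu : 0 < 1 + u) : u ^ 2 / (1 + u) = (1 + u) - 2 + (1 + u)⁻¹ := by
  field_simp
  ring

/-- `φ ≤ W/2` for `u ≤ 0` -/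
theorem fxr_phi2 {u : ℝ} (hu : 0 < 1 + u) (hu0 : u ≤ 0) :
    u - Real.log (1 + u) ≤ 1 / 2 * (u ^ 2 / (1 + u)) := by
  have h := fxr_log_ge hu (by linarith only [hu0])
  rw [fxr_W hu]
  linarith

theorem fxr_log_ge' {r : ℝ} (h1 : 1 ≤ r) : 2 * (r - 1) / (r + 1) ≤ Real.log r := by
  have h := Real.le_log_one_add_of_nonneg (x := r - 1) (by linarith only [h1])
  rw [show 1 + (r - 1) = r by ring, show r - 1 + 2 = r + 1 by ring] at h
  exact h

theorem fxr_log3 : Real.log 3 < 10990 / 10000 := by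
  have h1 : Real.log 3 = Real.log 2 + Real.log (1 + 1 / 2) := by
    rw [← Real.log_mul (by norm_num) (by norm_num)]
    (clear * -; norm_num)
  have h2 : Real.log (1 + 1 / 2) < 4056 / 10000 := by
    rw [Real.log_lt_iff_lt_exp (by (clear * -; norm_num))]
    have h := Real.sum_le_exp_of_nonneg (x := 4056 / 10000) (by norm_num) 6
    refine lt_of_lt_of_le ?_ h
    simp only [Finset.sum_range_succ, Finset.sum_range_zero, Nat.factorial]
    norm_num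
  have h3 := Real.log_two_lt_d9
  linarith

/-- `φ ≤ W/4 + 1/10` for `u ≤ 0` -/
theorem fxr_phi4 {u : ℝ} (hu : 0 < 1 + u) (hu0 : u ≤ 0) :
    u - Real.log (1 + u) ≤ 1 / 4 * (u ^ 2 / (1 + u)) + 1 / 10 := by
  rw [fxr_W hu]
  obtain ⟨p, hp⟩ : ∃ p : ℝ, p = 1 + u := ⟨_, rfl⟩
  have hu' : u = p - 1 := by linarith only [hp]
  rw [← hp] at hu ⊢
  have hp1 : p ≤ 1 := by linarith only [hu0, hp]
  rw [hu']
  have h3 := fxr_log3
  have hlog : Real.log p = Real.log (3 * p) - Real.log 3 := by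
    rw [Real.log_mul (by norm_num) hu.ne']
    ring
  rcases le_total (3 * p) 1 with h | h
  · have h4 := fxr_log_ge (r := 3 * p) (by positivity) h
    rw [hlog]
    have e : (3 * p)⁻¹ = 1 / 3 * p⁻¹ := by
      rw [mul_inv]
      norm_num
    rw [e] at h4
    have h5 : 0 < p⁻¹ := inv_pos.2 hu
    have h6 : p * p⁻¹ = 1 := mul_inv_cancel₀ hu.ne'
    nlinarith only [h3, h, h4, h6, hu]
  · have h4 := fxr_log_ge' h
    rw [hlog]
    have h7 : 0 ≤ 1 / 4 * (p - 2 + p⁻¹) + 1 / 10 - (p - 1) + 2 * (3 * p - 1) / (3 * p + 1) -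
        10990 / 10000 := by
      have e : 1 / 4 * (p - 2 + p⁻¹) + 1 / 10 - (p - 1) + 2 * (3 * p - 1) / (3 * p + 1) -
        10990 / 10000 = ((1 / 4 * (p ^ 2 - 2 * p + 1) + 1 / 10 * p - (p - 1) * p) * (3 * p + 1) +
          2 * (3 * p - 1) * p - 10990 / 10000 * p * (3 * p + 1)) / (p * (3 * p + 1)) := by
        field_simp
      rw [e]
      apply div_nonneg _ (by positivity)
      nlinarith only [hp1, mul_nonneg (mul_nonneg (sub_nonneg.2 hp1) (sub_nonneg.2 h)) hu.le]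
    linarith

/-- `φ ≤ W/10 + 3/5` for `u ≤ 0` -/
theorem fxr_phi10 {u : ℝ} (hu : 0 < 1 + u) (hu0 : u ≤ 0) :
    u - Real.log (1 + u) ≤ 1 / 10 * (u ^ 2 / (1 + u)) + 3 / 5 := by
  rw [fxr_W hu]
  obtain ⟨p, hp⟩ : ∃ p : ℝ, p = 1 + u := ⟨_, rfl⟩
  have hu' : u = p - 1 := by linarith
  rw [← hp] at hu ⊢
  have hp1 : p ≤ 1 := by linarith only [hu0, hp]
  rw [hu']
  have h3 := fxr_log3
  have hlog9 : Real.log 9 = 2 * Real.log 3 := by
    rw [show (9 : ℝ) = 3 ^ 2 by norm_num, Real.log_pow]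
    norm_num
  have hlog : Real.log p = Real.log (9 * p) - Real.log 9 := by
    rw [Real.log_mul (by norm_num) hu.ne']
    ring
  rcases le_total (9 * p) 1 with h | h
  · have h4 := fxr_log_ge (r := 9 * p) (by positivity) h
    rw [hlog]
    have e : (9 * p)⁻¹ = 1 / 9 * p⁻¹ := by
      rw [mul_inv]
      (clear * -; norm_num)
    rw [e] at h4
    have h5 : 0 < p⁻¹ := inv_pos.2 hu
    have h6 : p * p⁻¹ = 1 := mul_inv_cancel₀ hu.ne'
    have h7 : 0 ≤ (9 * p - 1) ^ 2 * p⁻¹ := by (clear * - hu; positivity)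
    have h8 : (9 * p - 1) ^ 2 * p⁻¹ = 81 * p * (p * p⁻¹) - 18 * (p * p⁻¹) + p⁻¹ := by ring
    rw [h8, h6] at h7
    linarith only [h3, hlog9, h4, h7]
  · have h4 := fxr_log_ge' h
    rw [hlog]
    have h7 : 0 ≤ 1 / 10 * (p - 2 + p⁻¹) + 3 / 5 - (p - 1) + 2 * (9 * p - 1) / (9 * p + 1) -
        21980 / 10000 := by
      have e : 1 / 10 * (p - 2 + p⁻¹) + 3 / 5 - (p - 1) + 2 * (9 * p - 1) / (9 * p + 1) -
        21980 / 10000 = ((1 / 10 * (p ^ 2 - 2 * p + 1) + 3 / 5 * p - (p - 1) * p) * (9 * p + 1) +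
          2 * (9 * p - 1) * p - 21980 / 10000 * p * (9 * p + 1)) / (p * (9 * p + 1)) := by
        field_simp
      rw [e]
      apply div_nonneg _ (by positivity)
      nlinarith only [mul_nonneg (mul_nonneg (sub_nonneg.2 hp1) (sub_nonneg.2 h)) hu.le]
    linarith

/-- `(log (1+u))² ≤ W` for `u ≤ 0` -/
theorem fxr_logsq {u : ℝ} (hu : 0 < 1 + u) (hu0 : u ≤ 0) :
    Real.log (1 + u) ^ 2 ≤ u ^ 2 / (1 + u) := by
  obtain ⟨r, hr⟩ : ∃ r : ℝ, r = Real.sqrt (1 + u) := ⟨_, rfl⟩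
  have hr0 : 0 < r := hr ▸ Real.sqrt_pos.2 hu
  have hr2 : r ^ 2 = 1 + u := by rw [hr, Real.sq_sqrt hu.le]
  have hr1 : r ≤ 1 := by
    rw [hr]
    apply Real.sqrt_le_one.2
    linarith
  have h := fxr_log_ge hr0 hr1
  have hlog : Real.log (1 + u) = 2 * Real.log r := by
    rw [← hr2, Real.log_pow]
    norm_num
  have hl0 : Real.log r ≤ 0 := Real.log_nonpos hr0.le hr1
  have e : u ^ 2 / (1 + u) = (r - r⁻¹) ^ 2 := by
    have : u = r ^ 2 - 1 := by linarith only [hr2]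
    rw [← hr2, this]
    (clear * - hr0; field_simp)
  rw [e, hlog]
  nlinarith only [h, hl0]

/-- `φ ≤ f_s W` for `0 ≤ u`, `u s ≤ 1` -/
theorem fxr_phis {u s : ℝ} (hu : 0 ≤ u) (hs : 0 < s) (hus : u * s ≤ 1) :
    u - Real.log (1 + u) ≤
      (1 + s) * (1 + 3 * s) / (1 + 6 * s + 6 * s ^ 2) * (u ^ 2 / (1 + u)) := by
  refine (log_defect hu).trans ?_
  rw [div_mul_div_comm, div_le_div_iff₀ (by positivity) (by positivity)]
  have h1 : 0 ≤ (1 + s) * (1 + 3 * s) * (6 + 6 * u + u ^ 2) -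
      (1 + u) * (3 + u) * (1 + 6 * s + 6 * s ^ 2) := by
    have e : (1 + s) * (1 + 3 * s) * (6 + 6 * u + u ^ 2) -
      (1 + u) * (3 + u) * (1 + 6 * s + 6 * s ^ 2) =
      (3 + 6 * s) * (1 - u * s) + (2 + 3 * s) * (u * (1 - u * s)) + 3 * s * (s * u) * 0 +
      (3 + 6 * s) * (u * s) - (2 + 3 * s) * u + (2 - 6 * s ^ 2) * u := by ring
    rw [e]
    have h2 : 0 ≤ 1 - u * s := by linarith only [hus]
    have h3 := mul_nonneg hu h2
    nlinarith only [h3, hs, h2]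
  have h2 := mul_nonneg (sq_nonneg u) h1
  linarith

end Vale.Agent.P237.AllN
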