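import Vale.Agent.P237.AllN.FKs3
import Vale.Agent.P237.AllN.FKs4

/-!
# P237, block D, `x ≥ 7/10`, `l > 0`: kernel checks of the two-variable polynomial inequalities

`s = X`, `λ = l/s²`.
-/

namespace Vale.Agent.P237.AllN

open PolyPos

def fxk (n : ℤ) (d : ℕ) : Ex := Ex.c ⟨n, d⟩

def fxZ : Ex := Ex.c ⟨1, 0⟩ - Ex.X * Ex.X

def fxQ (z l : Ex) : Ex :=
  fxk 3 3 * (fxk (-16) 0 + fxk 21163 499 * l - fxk 766 24 * (l * l)) +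
  fxk 5 7 * z * (fxk (-36) 0 + fxk 35779 249 * l - fxk 124867 999 * (l * l)) +
  fxk 35 63 * (z * z) * (fxk (-64) 0 + fxk 31961 99 * l - fxk 30887 99 * (l * l)) +
  fxk 63 127 * (z * z * z) * (fxk (-100) 0 + fxk 14423 24 * l - fxk 59341 99 * (l * l)) +
  fxk 231 511 * (z * z * (z * z)) * (fxk (-144) 0 + fxk 22908 24 * l - fxk 98173 99 * (l * l))

theorem fxQ_R (z l : Ex) (x y : ℝ) : (fxQ z l).R x y = kQ_a (z.R x y) (l.R x y) := by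
  simp only [fxQ, fxk, kQ_a, Ex.R_add, Ex.R_sub, Ex.R_mul, Ex.R_c, Fr.R]
  push_cast
  ring

def fxD (w z l : Ex) : Ex :=
  fxk 3 15 * ((w + fxk 5 0 * z) * (fxk 128 2 - fxk 26211 1249 * l + fxk 15309 499 * (l * l)) -
    fxk 6 0 * (fxk 32 2 - fxk 1067 99 * l + fxk 6697 999 * (l * l))) +
  fxk 5 47 * z * ((w + fxk 7 0 * z) * (fxk 216 0 - fxk 104223 499 * l + fxk 3127 9 * (l * l)) -
    fxk 20 0 * (fxk 36 0 - fxk 5401 99 * l + fxk 9139 199 * (l * l))) +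
  fxk 35 511 * (z * z) * ((w + fxk 9 0 * z) * (fxk 2048 2 - fxk 195259 199 * l + fxk 162797 99 * (l * l)) -
    fxk 42 0 * (fxk 256 2 - fxk 17067 99 * l + fxk 87257 499 * (l * l))) +
  fxk 63 1279 * (z * z * z) * ((w + fxk 11 0 * z) *
    (fxk 5000 2 - fxk 12641 3 * l + fxk 59249 9 * (l * l)) -
    fxk 72 0 * (fxk 500 2 - fxk 41667 99 * l + fxk 60812 124 * (l * l))) +
  fxk 77 2047 * (z * z * (z * z)) * ((w + fxk 13 0 * z) *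
    (fxk 3456 0 - fxk 409851 49 * l + fxk 173519 9 * (l * l)) -
    fxk 110 0 * (fxk 288 0 - fxk 86401 99 * l + fxk 27828 24 * (l * l)))

theorem fxD_R (w z l : Ex) (x y : ℝ) :
    (fxD w z l).R x y = kD_a (w.R x y) (z.R x y) (l.R x y) := by
  simp only [fxD, fxk, kD_a, Ex.R_add, Ex.R_sub, Ex.R_mul, Ex.R_c, Fr.R]
  push_cast
  ring

/-- `(1+s)·s·` lower bound of the `W`-coefficient -/
noncomputable def fxrW (s lam : ℝ) : ℝ :=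
  4 * (1 + s) - 4 * s ^ 2 - 2 * s ^ 3 * (1 + s) - 6 * (1 - s ^ 2) * lam * (1 + s) +
    s ^ 3 * (1 - s ^ 2) * (lam * s ^ 2) * kQ_a (1 - s ^ 2) (lam * s ^ 2) * (1 + s) +
    4 * s ^ 3 * (1 + s) * (1 - 2 * (lam * s ^ 2) + 1558 / 1000 * (lam * s ^ 2) ^ 2)

def fxWE (lam : Ex) : Ex :=
  let v := Ex.X
  let p := fxk 1 0 + v
  let X3 := v * v * v
  let l := lam * (v * v)
  fxk 4 0 * p - fxk 4 0 * (v * v) - fxk 2 0 * (X3 * p) - fxk 6 0 * (fxZ * lam * p) +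
    X3 * (fxZ * (l * (fxQ fxZ l * p))) +
    fxk 4 0 * (X3 * p) * (fxk 1 0 - fxk 2 0 * l + fxk 1558 999 * (l * l))

theorem fxWE_R (lam : Ex) (x y : ℝ) : (fxWE lam).R x y = fxrW x (lam.R x y) := by
  simp only [fxWE, fxk, fxrW, fxZ, Ex.R_add, Ex.R_sub, Ex.R_mul, Ex.R_c, Ex.R_X, fxQ_R, Fr.R]
  push_cast
  rw [show (1 : ℝ) / (0 + 1) = 1 by norm_num, show (1 : ℝ) - x * x = 1 - x ^ 2 by ring,
    show lam.R x y * (x * x) = lam.R x y * x ^ 2 by ring]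
  ring

/-- the `l`-coefficient, `m = 27`, divided by `s² z/s⁵` -/
noncomputable def fxrD0 (s lam : ℝ) : ℝ :=
  2337 / 50 * s ^ 3 - 14 + 82 * (1 - s ^ 2) -
    lam * s ^ 5 * kD_a (27 * (1 - s ^ 2)) (1 - s ^ 2) (lam * s ^ 2) +
    18 / 5 * (27 * (1 - s ^ 2) * s - 3 * s ^ 3)

def fxD0E (lam : Ex) : Ex :=
  let v := Ex.X
  let X3 := v * v * v
  let l := lam * (v * v)
  fxk 2337 49 * X3 - fxk 14 0 + fxk 82 0 * fxZ -
    lam * (X3 * (v * v) * fxD (fxk 27 0 * fxZ) fxZ l) +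
    fxk 18 4 * (fxk 27 0 * (fxZ * v) - fxk 3 0 * X3)

theorem fxD0E_R (lam : Ex) (x y : ℝ) : (fxD0E lam).R x y = fxrD0 x (lam.R x y) := by
  simp only [fxD0E, fxk, fxrD0, fxZ, Ex.R_add, Ex.R_sub, Ex.R_mul, Ex.R_c, Ex.R_X, fxD_R, Fr.R]
  push_cast
  rw [show (1 : ℝ) / (0 + 1) = 1 by norm_num, show (1 : ℝ) - x * x = 1 - x ^ 2 by ring,
    show lam.R x y * (x * x) = lam.R x y * x ^ 2 by ring,
    show (27 : ℝ) / (0 + 1) = 27 by norm_num]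
  ring

/-- the derivative in `m`, divided by `s³ z/s⁵` -/
noncomputable def fxrD1 (s lam : ℝ) : ℝ :=
  1558 / 1000 * s ^ 2 - lam * s ^ 4 * (1 - s ^ 2) *
    (kD_a 1 (1 - s ^ 2) (lam * s ^ 2) - kD_a 0 (1 - s ^ 2) (lam * s ^ 2)) +
    3 / 25 * (57 * (1 - s ^ 2) - 3 * s ^ 2)

def fxD1E (lam : Ex) : Ex :=
  let v := Ex.X
  let X2 := v * v
  let l := lam * (v * v)
  fxk 1558 999 * X2 - lam * (X2 * X2 * fxZ) * (fxD (fxk 1 0) fxZ l - fxD (fxk 0 0) fxZ l) +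
    fxk 3 24 * (fxk 57 0 * fxZ - fxk 3 0 * X2)

theorem fxD1E_R (lam : Ex) (x y : ℝ) : (fxD1E lam).R x y = fxrD1 x (lam.R x y) := by
  simp only [fxD1E, fxk, fxrD1, fxZ, Ex.R_add, Ex.R_sub, Ex.R_mul, Ex.R_c, Ex.R_X, fxD_R, Fr.R]
  push_cast
  rw [show (1 : ℝ) / (0 + 1) = 1 by norm_num, show (1 : ℝ) - x * x = 1 - x ^ 2 by ring,
    show lam.R x y * (x * x) = lam.R x y * x ^ 2 by ring,
    show (0 : ℝ) / (0 + 1) = 0 by norm_num]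
  ring

/-- the test for `u ≥ 0`, `s ≥ 1/5` -/
noncomputable def fxrG (s lam : ℝ) : ℝ :=
  (3 / 8 * (72 - 82 * s ^ 2) * (1 - s ^ 2) ^ 2 * lam ^ 2 * s * (1 + s) * (1 + s) + fxrW s lam -
    1 / 3 * s ^ 2 * (1 + s) ^ 2 - 1 / 5 * (1 + s)) * (1 + 6 * s + 6 * s ^ 2) -
    28 / 13 * (1 + s) ^ 2 * (1 + 3 * s)

def fxGE (lam : Ex) : Ex :=
  let v := Ex.X
  let p := fxk 1 0 + v
  (fxk 3 7 * (fxk 72 0 - fxk 82 0 * (v * v)) * (fxZ * fxZ) * (lam * lam) * (v * (p * p)) + fxWE lam -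
    fxk 1 2 * (v * v * (p * p)) - fxk 1 4 * p) * (fxk 1 0 + fxk 6 0 * v + fxk 6 0 * (v * v)) -
    fxk 28 12 * (p * p * (fxk 1 0 + fxk 3 0 * v))

theorem fxGE_R (lam : Ex) (x y : ℝ) : (fxGE lam).R x y = fxrG x (lam.R x y) := by
  simp only [fxGE, fxk, fxrG, fxZ, Ex.R_add, Ex.R_sub, Ex.R_mul, Ex.R_c, Ex.R_X, fxWE_R, Fr.R]
  push_cast
  ring

/-- `λ = θ (1/2 + 79/200 s²)` -/
def fxL1 : Ex := Ex.Y * (fxk 1 1 + fxk 79 199 * (Ex.X * Ex.X))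

/-- `λ = θ (1/2 + 3/10 s²)` -/
def fxL2 : Ex := Ex.Y * (fxk 1 1 + fxk 3 9 * (Ex.X * Ex.X))

theorem fxL1_R (x y : ℝ) : fxL1.R x y = y * (1 / 2 + 79 / 200 * x ^ 2) := by
  simp only [fxL1, fxk, Ex.R_add, Ex.R_mul, Ex.R_c, Ex.R_X, Ex.R_Y, Fr.R]
  push_cast
  ring

theorem fxL2_R (x y : ℝ) : fxL2.R x y = y * (1 / 2 + 3 / 10 * x ^ 2) := by
  simp only [fxL2, fxk, Ex.R_add, Ex.R_mul, Ex.R_c, Ex.R_X, Ex.R_Y, Fr.R]
  push_cast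
  ring

theorem fx_chkD0 : Ex.nn (2 ^ 1024) 60 4000 0 5 7 0 1 1 (fxD0E fxL1) = true := by
  decide +kernel

theorem fx_chkD1 : Ex.nn (2 ^ 1024) 60 4000 0 5 7 0 1 1 (fxD1E fxL1) = true := by
  decide +kernel

theorem fx_chkG : tchkE (2 ^ 1024) 60 4000 [[fxGE fxL1]] (Ex.c ⟨0, 0⟩)
    (.sx (.leaf 0) (.sy (.leaf 0) (.sx (.leaf 0) (.sy (.leaf 0) (.leaf 0))))) 7 25 35 0 1 1 =
    true := by
  decide +kernel

theorem fx_chkW : Ex.nn (2 ^ 1024) 60 4000 0 1 5 0 1 1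
    (fxWE fxL1 - (fxk 388 99 - fxk 6 0 * fxL1) * (fxk 1 0 + Ex.X)) = true := by
  decide +kernel

theorem fx_chkW3 : Ex.nn (2 ^ 1024) 60 4000 0 12 25 0 1 1
    (fxWE fxL2 - fxk 1 2 * (fxk 1 0 + Ex.X)) = true := by
  decide +kernel

theorem fx_chkWa : Ex.nn (2 ^ 1024) 60 4000 0 5 7 0 7 20
    (fxWE Ex.Y - fxk 6 4 * (fxk 1 0 + Ex.X)) = true := by
  decide +kernel

theorem fx_chkWb : Ex.nn (2 ^ 1024) 60 4000 0 5 7 7 10 20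
    (fxWE Ex.Y - fxk 33 49 * (fxk 1 0 + Ex.X)) = true := by
  decide +kernel

end Vale.Agent.P237.AllN
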