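import Vale.Agent.P237.AllN.FXrA
import Vale.Agent.P237.AllN.FXrB

/-!
# P237, block D, `x ≥ 7/10`, `l > 0`: bounds of the coefficients
-/

namespace Vale.Agent.P237.AllN

open PolyPos

/-- `(1-t)(1+v+v²/2+v³/6+v⁴/24) - 1`, `v = t + b t²` -/
private def exU (b : Ex) : Ex :=
  let v := Ex.X + b * (Ex.X * Ex.X)
  (fxk 1 0 - Ex.X) * (fxk 1 0 + v + fxk 1 1 * (v * v) + fxk 1 5 * (v * (v * v)) +
    fxk 1 23 * (v * v * (v * v))) - fxk 1 0

private theorem chkU1 : Ex.nn (2 ^ 512) 20 4000 0 51 100 0 1 1 (exU (fxk 79 99)) = true := by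
  (clear * -; decide +kernel)

private theorem chkU2 : Ex.nn (2 ^ 512) 20 4000 0 144 625 0 1 1 (exU (fxk 3 4)) = true := by
  (clear * -; decide +kernel)

theorem fxr_U1 {t : ℝ} (h0 : 0 ≤ t) (h1 : t ≤ 51 / 100) :
    1 ≤ (1 - t) * (1 + (t + 79 / 100 * t ^ 2) + (t + 79 / 100 * t ^ 2) ^ 2 / 2 +
      (t + 79 / 100 * t ^ 2) ^ 3 / 6 + (t + 79 / 100 * t ^ 2) ^ 4 / 24) := by
  have h := Ex.nn_closed (x := t) (y := 0) (by norm_num) (by norm_num) (by norm_num)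
    (by norm_num) chkU1 (by push_cast; linarith only [h0]) (by push_cast; linarith) (by norm_num)
    (by norm_num)
  simp only [exU, fxk, Ex.R_sub, Ex.R_mul, Ex.R_c, Fr.R, Ex.R_X, Ex.R_add] at h
  push_cast at h
  linarith

theorem fxr_U2 {t : ℝ} (h0 : 0 ≤ t) (h1 : t ≤ 144 / 625) :
    1 ≤ (1 - t) * (1 + (t + 3 / 5 * t ^ 2) + (t + 3 / 5 * t ^ 2) ^ 2 / 2 +
      (t + 3 / 5 * t ^ 2) ^ 3 / 6 + (t + 3 / 5 * t ^ 2) ^ 4 / 24) := by
  have h := Ex.nn_closed (x := t) (y := 0) (by norm_num) (by norm_num) (by norm_num)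
    (by norm_num) chkU2 (by push_cast; linarith only [h0]) (by push_cast; linarith only [h1]) (by norm_num)
    (by norm_num)
  simp only [exU, fxk, Ex.R_add, Ex.R_sub, Ex.R_mul, Ex.R_c, Ex.R_X, Fr.R] at h
  push_cast at h
  linarith

theorem fxr_exp5 {v : ℝ} (hv : 0 ≤ v) :
    1 + v + v ^ 2 / 2 + v ^ 3 / 6 + v ^ 4 / 24 ≤ Real.exp v := by
  have h := Real.sum_le_exp_of_nonneg hv 5
  refine le_trans (le_of_eq ?_) h
  simp only [Finset.sum_range_succ, Finset.sum_range_zero, Nat.factorial]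
  push_cast
  ring

theorem fxr_lt_of_exp {v l z : ℝ} (hv : 0 ≤ v) (hz : 0 < z)
    (h : 1 ≤ z * (1 + v + v ^ 2 / 2 + v ^ 3 / 6 + v ^ 4 / 24))
    (hτ : z * Real.exp (2 * l) ≤ 1) : 2 * l ≤ v := by
  by_contra hlt
  push Not at hlt
  have h1 := fxr_exp5 (v := v) hv
  have h2 := Real.exp_lt_exp.2 hlt
  have h3 := mul_le_mul_of_nonneg_left h1 hz.le
  have h4 := mul_lt_mul_of_pos_left h2 hz
  linarith only [h, hτ, h3, h4]

/-- `l ≤ U(s)` -/
theorem fxr_lam1 {z s l : ℝ} (hz : 49 / 100 ≤ z) (hsz : s ^ 2 = 1 - z)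
    (hτ : z * Real.exp (2 * l) ≤ 1) : l ≤ s ^ 2 * (1 / 2 + 79 / 200 * s ^ 2) := by
  have h := fxr_U1 (t := s ^ 2) (sq_nonneg s) (by linarith)
  rw [show 1 - s ^ 2 = z by linarith only [hsz]] at h
  have h2 := fxr_lt_of_exp (by (clear * -; positivity)) (by linarith only [hz]) h hτ
  nlinarith only [h2]

theorem fxr_lam2 {z s l : ℝ} (hs : 0 ≤ s) (hs1 : s ≤ 12 / 25) (hsz : s ^ 2 = 1 - z)
    (hτ : z * Real.exp (2 * l) ≤ 1) : l ≤ s ^ 2 * (1 / 2 + 3 / 10 * s ^ 2) := by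
  have h1 : s ^ 2 ≤ 144 / 625 := by nlinarith only [hs1, hs]
  have h := fxr_U2 (t := s ^ 2) (sq_nonneg s) h1
  rw [show 1 - s ^ 2 = z by linarith only [hsz]] at h
  have h2 := fxr_lt_of_exp (by (clear * -; positivity)) (by linarith only [hsz, h1]) h hτ
  nlinarith only [h2]

/-- the coefficient of `l²` -/
noncomputable def fxq (m s : ℝ) : ℝ :=
  (1 - s ^ 2) ^ 2 / s ^ 5 * (72 - 82 * s ^ 2 + 3 * (m - 27)) +
    3 / 25 * (m - 27) ^ 2 * ((1 - s ^ 2) ^ 2 / s ^ 2)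

theorem kD_affine (m z l : ℝ) : kD_a (m * z) z l =
    kD_a (27 * z) z l + (m - 27) * z * (kD_a 1 z l - kD_a 0 z l) := by
  unfold kD_a
  ring

theorem fxr_s_le {z s : ℝ} (hz : 49 / 100 ≤ z) (hs : 0 < s) (hsz : s ^ 2 = 1 - z) :
    s ≤ 5 / 7 := by
  nlinarith

/-- `λ/(1/2 + 79/200 s²) ∈ [0,1]` -/
theorem fxr_theta {s l b : ℝ} (hs : 0 < s) (hb : 0 ≤ b) (hl : 0 < l)
    (hU : l ≤ s ^ 2 * (1 / 2 + b * s ^ 2)) :
    0 ≤ l / s ^ 2 / (1 / 2 + b * s ^ 2) ∧ l / s ^ 2 / (1 / 2 + b * s ^ 2) ≤ 1 ∧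
      l / s ^ 2 / (1 / 2 + b * s ^ 2) * (1 / 2 + b * s ^ 2) = l / s ^ 2 := by
  have h1 : 0 < 1 / 2 + b * s ^ 2 := by positivity
  refine ⟨by positivity, ?_, by field_simp⟩
  rw [div_le_one h1, div_le_iff₀ (by positivity)]
  (clear * - hU; linarith)

theorem fxr_D {s l : ℝ} (hs : 0 < s) (hs1 : s ≤ 5 / 7) (hl : 0 < l)
    (hU : l ≤ s ^ 2 * (1 / 2 + 79 / 200 * s ^ 2)) :
    0 ≤ fxrD0 s (l / s ^ 2) ∧ 0 ≤ fxrD1 s (l / s ^ 2) := by
  obtain ⟨h1, h2, h3⟩ := fxr_theta hs (by norm_num) hl hU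
  have a := Ex.nn_closed (x := s) (y := l / s ^ 2 / (1 / 2 + 79 / 200 * s ^ 2))
    (by norm_num) (by norm_num) (by norm_num) (by norm_num) fx_chkD0 (by push_cast; linarith only [hs])
    (by push_cast; linarith only [hs1]) (by push_cast; linarith only [h1]) (by push_cast; linarith only [h2])
  have b := Ex.nn_closed (x := s) (y := l / s ^ 2 / (1 / 2 + 79 / 200 * s ^ 2))
    (by norm_num) (by norm_num) (by norm_num) (by norm_num) fx_chkD1 (by push_cast; linarith only [hs])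
    (by push_cast; linarith only [hs1]) (by push_cast; linarith only [h1]) (by push_cast; linarith only [h2])
  rw [fxD0E_R, fxL1_R, h3] at a
  rw [fxD1E_R, fxL1_R, h3] at b
  exact ⟨a, b⟩

/-- **lower bound of the part without `u`** -/
theorem fxr_A {m z s l : ℝ} (hm : 27 ≤ m) (hz : 49 / 100 ≤ z) (hs : 0 < s)
    (hsz : s ^ 2 = 1 - z) (hl : 0 < l) (hl1 : l ≤ 2 / 5)
    (hU : l ≤ s ^ 2 * (1 / 2 + 79 / 200 * s ^ 2)) :
    fxq m s * l ^ 2 ≤ (m + 3) * z * (Real.exp (-(2 * l)) - 1 + 2 * l) +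
      (3 * (m - 3) * (z ^ 2 / s ^ 5) - 9 * (z / s ^ 3)) * l ^ 2 + dpS0 m z l +
      3 / 25 * (m + 3) * z * (m * (z / s ^ 2) - 3) * l ^ 2 - 5 * (z / s ^ 3) * l ^ 2 := by
  have hs1 := fxr_s_le hz hs hsz
  obtain ⟨d0, d1⟩ := fxr_D hs hs1 hl hU
  have he := exp_E1a hl.le hl1
  have hk := dpS0_ge_a (m := m) (z := z) (by linarith only [hm]) (by linarith only [hz]) hl.le hl1
  rw [kD_affine] at hk
  have h1 : (m + 3) * z * (1558 / 1000 * l ^ 2) ≤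
      (m + 3) * z * (Real.exp (-(2 * l)) - 1 + 2 * l) :=
    mul_le_mul_of_nonneg_left (by (clear * - he; linarith)) (by
      have : 0 ≤ m + 3 := by linarith only [hm]
      have : 0 ≤ z := by linarith only [hz]
      positivity)
  have hz' : z = 1 - s ^ 2 := by linarith only [hsz]
  have hlam : l / s ^ 2 * s ^ 2 = l := by field_simp
  unfold fxrD0 at d0
  unfold fxrD1 at d1
  rw [hlam, ← hz'] at d0 d1
  obtain ⟨a, ha⟩ : ∃ a : ℝ, a = kD_a (27 * z) z l := ⟨_, rfl⟩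
  obtain ⟨b, hb⟩ : ∃ b : ℝ, b = kD_a 1 z l - kD_a 0 z l := ⟨_, rfl⟩
  rw [← ha] at d0 hk
  rw [← hb] at d1 hk
  have hz0 : 0 < z := by linarith only [hz]
  have key : 0 ≤ l ^ 2 * (z / s ^ 5) * (s ^ 2 * (2337 / 50 * s ^ 3 - 14 + 82 * z -
      l / s ^ 2 * s ^ 5 * a + 18 / 5 * (27 * z * s - 3 * s ^ 3)) +
      (m - 27) * (s ^ 3 * (1558 / 1000 * s ^ 2 - l / s ^ 2 * s ^ 4 * z * b +
        3 / 25 * (57 * z - 3 * s ^ 2)))) := by
    have : 0 ≤ m - 27 := by linarith only [hm]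
    (clear * - hl hz hs d0 hm d1; positivity)
  have e : l ^ 2 * (z / s ^ 5) * (s ^ 2 * (2337 / 50 * s ^ 3 - 14 + 82 * z -
      l / s ^ 2 * s ^ 5 * a + 18 / 5 * (27 * z * s - 3 * s ^ 3)) +
      (m - 27) * (s ^ 3 * (1558 / 1000 * s ^ 2 - l / s ^ 2 * s ^ 4 * z * b +
        3 / 25 * (57 * z - 3 * s ^ 2)))) =
      (m + 3) * z * (1558 / 1000 * l ^ 2) +
      (3 * (m - 3) * (z ^ 2 / s ^ 5) - 9 * (z / s ^ 3)) * l ^ 2 +
      -(l ^ 3 * z * (a + (m - 27) * z * b)) +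
      3 / 25 * (m + 3) * z * (m * (z / s ^ 2) - 3) * l ^ 2 - 5 * (z / s ^ 3) * l ^ 2 -
      fxq m s * l ^ 2 := by
    unfold fxq
    rw [← hz']
    field_simp
    ring
  linarith only [h1, hk, key, e]

/-- the whole `W`-coefficient times `s` -/
noncomputable def fxw (z s l : ℝ) : ℝ :=
  s * (4 / s - 4 * s / (1 + s) - 2 * s ^ 2 - 6 * (z / s ^ 3) * l + ksC z s l +
    4 * s ^ 2 * Real.exp (-(2 * l)))

theorem fxr_w {z s l : ℝ} (hz : 0 ≤ z) (hs : 0 < s) (hsz : s ^ 2 = 1 - z) (hl : 0 < l)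
    (hl1 : l ≤ 2 / 5) : fxrW s (l / s ^ 2) ≤ (1 + s) * fxw z s l := by
  have he := exp_E1a hl.le hl1
  have hk := ksC_ge_a (s := s) hz hl.le hl1
  have hz' : z = 1 - s ^ 2 := by linarith only [hsz]
  have hlam : l / s ^ 2 * s ^ 2 = l := by (clear * - hs hl; field_simp)
  unfold fxrW fxw
  rw [hlam, ← hz']
  obtain ⟨a, ha⟩ : ∃ a : ℝ, a = kQ_a z l := ⟨_, rfl⟩
  rw [← ha] at hk ⊢
  have h1 : (1 + s) * (s * (4 / s - 4 * s / (1 + s) - 2 * s ^ 2 - 6 * (z / s ^ 3) * l +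
      s ^ 2 * z * l * a + 4 * s ^ 2 * (1 - 2 * l + 1558 / 1000 * l ^ 2))) ≤
      (1 + s) * (s * (4 / s - 4 * s / (1 + s) - 2 * s ^ 2 - 6 * (z / s ^ 3) * l +
      ksC z s l + 4 * s ^ 2 * Real.exp (-(2 * l)))) := by
    apply mul_le_mul_of_nonneg_left _ (by positivity)
    apply mul_le_mul_of_nonneg_left _ hs.le
    have h2 := mul_le_mul_of_nonneg_left he (by positivity : 0 ≤ 4 * s ^ 2)
    linarith only [hk, h2]
  refine le_trans (le_of_eq ?_) h1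
  have h1s : 1 + s ≠ 0 := by positivity
  (clear * - hs h1s; field_simp)

theorem fxr_G {s l : ℝ} (hs : 1 / 5 ≤ s) (hs1 : s ≤ 5 / 7) (hl : 0 < l)
    (hU : l ≤ s ^ 2 * (1 / 2 + 79 / 200 * s ^ 2)) : 0 ≤ fxrG s (l / s ^ 2) := by
  obtain ⟨h1, h2, h3⟩ := fxr_theta (by linarith) (by norm_num) hl hU
  obtain ⟨i, hi⟩ := tchkE_sound (x := s) (y := l / s ^ 2 / (1 / 2 + 79 / 200 * s ^ 2))
    (by simp only [one_div, Ex.R_c, Fr.R, Int.cast_zero, CharP.cast_eq_zero, zero_add, div_one, Std.le_refl]) _ _ _ _ _ _ _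
    (by norm_num) (by norm_num) (by norm_num) (by norm_num) fx_chkG (by push_cast; linarith only [hs])
    (by push_cast; linarith only [hs1]) (by push_cast; linarith only [h1]) (by push_cast; linarith only [h2])
  rcases i with _ | i
  · have h := hi (fxGE fxL1) (by simp)
    rw [fxGE_R, fxL1_R, h3] at h
    exact h
  · exfalso
    have := hi (Ex.c ⟨-1, 0⟩) (by simp only [Int.reduceNeg, List.getD_eq_getElem?_getD, List.length_cons, List.length_nil, zero_add, Order.lt_one_iff, Nat.add_eq_zero_iff, one_ne_zero, and_false, not_false_eq_true, getElem?_neg, Option.getD_none, List.mem_cons, List.not_mem_nil, or_false])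
    simp only [one_div, Int.reduceNeg, Ex.R_c, Fr.R, Int.cast_neg, Int.cast_one, CharP.cast_eq_zero, zero_add, div_one, Left.nonneg_neg_iff] at this
    linarith only [this]

theorem fxr_wsmall {z s l : ℝ} (hz : 0 ≤ z) (hs : 0 < s) (hs1 : s ≤ 1 / 5)
    (hsz : s ^ 2 = 1 - z) (hl : 0 < l) (hl1 : l ≤ 2 / 5)
    (hU : l ≤ s ^ 2 * (1 / 2 + 79 / 200 * s ^ 2)) :
    388 / 100 - 6 * (l / s ^ 2) ≤ fxw z s l := by
  obtain ⟨h1, h2, h3⟩ := fxr_theta hs (by norm_num) hl hU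
  have a := Ex.nn_closed (x := s) (y := l / s ^ 2 / (1 / 2 + 79 / 200 * s ^ 2))
    (by norm_num) (by norm_num) (by norm_num) (by norm_num) fx_chkW (by push_cast; linarith only [hs])
    (by push_cast; linarith only [hs1]) (by push_cast; linarith only [h1]) (by push_cast; linarith only [h2])
  simp only [fxk, Ex.R_sub, Ex.R_add, Ex.R_mul, Ex.R_c, Ex.R_X] at a
  rw [fxWE_R, fxL1_R, h3] at a
  have hw := fxr_w hz hs hsz hl hl1
  simp only [Fr.R] at a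
  push_cast at a
  have h4 : 0 < 1 + s := by linarith only [hs]
  have h5 : (1 + s) * (388 / 100 - 6 * (l / s ^ 2)) ≤ (1 + s) * fxw z s l := by
    nlinarith only [hw, a]
  exact le_of_mul_le_mul_left h5 h4

end Vale.Agent.P237.AllN
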