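import Vale.Agent.P237.AllN.FXrC
import Vale.Agent.P237.AllN.FTest

/-!
# P237, block D, `x ≥ 7/10`, `l > 0`: lower bounds of `T`
-/

namespace Vale.Agent.P237.AllN

open PolyPos

theorem fxr_w3 {z s l : ℝ} (hz : 49 / 100 ≤ z) (hs : 0 < s) (hsz : s ^ 2 = 1 - z) (hl : 0 < l)
    (hl1 : l ≤ 2 / 5) (hτ : z * Real.exp (2 * l) ≤ 1) : 1 / 3 ≤ fxw z s l := by
  have hs1 := fxr_s_le hz hs hsz
  have hz0 : 0 < z := by linarith only [hz]
  rcases le_total s (12 / 25) with h | h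
  · have hU := fxr_lam2 hs.le h hsz hτ
    obtain ⟨h1, h2, h3⟩ := fxr_theta hs (by norm_num) hl hU
    have a := Ex.nn_closed (x := s) (y := l / s ^ 2 / (1 / 2 + 3 / 10 * s ^ 2))
      (by norm_num) (by norm_num) (by (clear * -; norm_num)) (by norm_num) fx_chkW3 (by push_cast; linarith only [hs])
      (by push_cast; linarith only [h]) (by push_cast; linarith only [h1]) (by push_cast; linarith only [h2])
    simp only [fxk, Ex.R_sub, Ex.R_add, Ex.R_mul, Ex.R_c, Ex.R_X] at a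
    rw [fxWE_R, fxL2_R, h3] at a
    have hw := fxr_w hz0.le hs hsz hl hl1
    simp only [Fr.R] at a
    push_cast at a
    have h4 : 0 < 1 + s := by linarith only [hs]
    have h5 : (1 + s) * (1 / 3) ≤ (1 + s) * fxw z s l := by nlinarith only [hw, a]
    exact le_of_mul_le_mul_left h5 h4
  · have hC := kK3 hz0 hs hsz hτ
    have he : z ≤ Real.exp (-(2 * l)) := by
      rw [Real.exp_neg, ← one_div, le_div_iff₀ (Real.exp_pos _)]
      exact hτ
    unfold fxw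
    have h1 : s * (4 * s ^ 2 * z) ≤ s * (4 / s - 4 * s / (1 + s) - 2 * s ^ 2 -
        6 * (z / s ^ 3) * l + ksC z s l + 4 * s ^ 2 * Real.exp (-(2 * l))) := by
      apply mul_le_mul_of_nonneg_left _ hs.le
      have := mul_le_mul_of_nonneg_left he (by positivity : 0 ≤ 4 * s ^ 2)
      linarith only [hC, this]
    refine le_trans ?_ h1
    have hz' : z = 1 - s ^ 2 := by linarith only [hsz]
    have h2 : s * (4 * s ^ 2 * z) = 4 * (s ^ 2 * s * z) := by ring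
    have h3 : (144 / 625 : ℝ) ≤ s ^ 2 := by nlinarith only [h]
    rw [h2, hz']
    -- `4 s³ (1-s²)` is increasing
    have h4 : 0 ≤ (s - 12 / 25) * (s ^ 2 * (1 - s ^ 2) - 12 / 25 * s * (s + 12 / 25) * s * 0) := by
      have : 0 ≤ s - 12 / 25 := by linarith only [h]
      have : 0 ≤ 1 - s ^ 2 := by linarith only [hz, hsz]
      have e : s ^ 2 * (1 - s ^ 2) - 12 / 25 * s * (s + 12 / 25) * s * 0 =
        s ^ 2 * (1 - s ^ 2) := by ring
      rw [e]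
      (clear * - h hs this; positivity)
    have h5 : s ^ 2 * (1 - s ^ 2) ≥ 144 / 625 * (1 - 144 / 625) := by
      have h6 : s ^ 2 ≤ 51 / 100 := by linarith only [hz, hsz]
      nlinarith only [hsz, h3, hz]
    nlinarith only [h4, h5]

theorem fxr_wa {z s l : ℝ} (hz : 49 / 100 ≤ z) (hs : 0 < s) (hsz : s ^ 2 = 1 - z) (hl : 0 < l)
    (hl1 : l ≤ 2 / 5) (ha : l / s ^ 2 ≤ 7 / 20) : 6 / 5 ≤ fxw z s l := by
  have hs1 := fxr_s_le hz hs hsz
  have h0 : 0 < l / s ^ 2 := by positivity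
  have a := Ex.nn_closed (x := s) (y := l / s ^ 2)
    (by norm_num) (by norm_num) (by norm_num) (by norm_num) fx_chkWa (by push_cast; linarith only [hs])
    (by push_cast; linarith only [hs1]) (by push_cast; linarith only [h0]) (by push_cast; linarith only [ha])
  simp only [fxk, Ex.R_sub, Ex.R_add, Ex.R_mul, Ex.R_c, Ex.R_X] at a
  rw [fxWE_R, Ex.R_Y] at a
  have hw := fxr_w (by linarith only [hz]) hs hsz hl hl1
  simp only [Fr.R] at a
  push_cast at a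
  have h4 : 0 < 1 + s := by linarith only [hs]
  have h5 : (1 + s) * (6 / 5) ≤ (1 + s) * fxw z s l := by nlinarith only [hw, a]
  exact le_of_mul_le_mul_left h5 h4

theorem fxr_wb {z s l : ℝ} (hz : 49 / 100 ≤ z) (hs : 0 < s) (hsz : s ^ 2 = 1 - z) (hl : 0 < l)
    (hl1 : l ≤ 2 / 5) (ha : 7 / 20 ≤ l / s ^ 2) (hb : l / s ^ 2 ≤ 1 / 2) :
    33 / 50 ≤ fxw z s l := by
  have hs1 := fxr_s_le hz hs hsz
  have a := Ex.nn_closed (x := s) (y := l / s ^ 2)
    (by norm_num) (by norm_num) (by norm_num) (by norm_num) fx_chkWb (by push_cast; linarith only [hs])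
    (by push_cast; linarith only [hs1]) (by push_cast; linarith) (by push_cast; linarith only [hb])
  simp only [fxk, Ex.R_sub, Ex.R_add, Ex.R_mul, Ex.R_c, Ex.R_X] at a
  rw [fxWE_R, Ex.R_Y] at a
  have hw := fxr_w (by linarith only [hz]) hs hsz hl hl1
  simp only [Fr.R] at a
  push_cast at a
  have h4 : 0 < 1 + s := by linarith only [hs]
  have h5 : (1 + s) * (33 / 50) ≤ (1 + s) * fxw z s l := by nlinarith only [hw, a]
  exact le_of_mul_le_mul_left h5 h4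

/-- `T` from below, general form -/
theorem fxr_T_ge {m z s l u G N : ℝ} (hm : 27 ≤ m) (hz : 49 / 100 ≤ z) (hs : 0 < s)
    (hsz : s ^ 2 = 1 - z) (hl : 0 < l) (hl1 : l ≤ 2 / 5)
    (hU : l ≤ s ^ 2 * (1 / 2 + 79 / 200 * s ^ 2)) (hN : Real.log (1 + u) - u ≤ N)
    (hG : -(5 * (z / s ^ 3) * l ^ 2) ≤ G) (hφ : 0 ≤ u - Real.log (1 + u)) :
    fxq m s * l ^ 2 + fxw z s l * (u ^ 2 / (1 + u) / s) -
      28 / 13 * ((u - Real.log (1 + u)) / s) - 6 / 25 * (m + 3) * z * (u * l) ≤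
      dpT m z s l u G N := by
  have hA := fxr_A hm hz hs hsz hl hl1 hU
  have h1s : 1 + s ≠ 0 := by positivity
  have e : dpT m z s l u G N = ((m + 3) * z * (Real.exp (-(2 * l)) - 1 + 2 * l) +
      (3 * (m - 3) * (z ^ 2 / s ^ 5) - 9 * (z / s ^ 3)) * l ^ 2 + dpS0 m z l +
      3 / 25 * (m + 3) * z * (m * (z / s ^ 2) - 3) * l ^ 2) + G +
      fxw z s l * (u ^ 2 / (1 + u) / s) + 2 * (m + 1) / (m - 1) * (N / s) -
      6 / 25 * (m + 3) * z * (u * l) := by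
    unfold dpT
    rw [dpS_eq]
    have e2 : fxw z s l * (u ^ 2 / (1 + u) / s) = (4 / s - 4 * s / (1 + s) - 2 * s ^ 2 -
        6 * (z / s ^ 3) * l + ksC z s l + 4 * s ^ 2 * Real.exp (-(2 * l))) *
        (u ^ 2 / (1 + u)) := by
      unfold fxw
      field_simp
    rw [e2]
    have e3 : 2 * (m + 1) / ((m - 1) * s) * N = 2 * (m + 1) / (m - 1) * (N / s) := by
      rw [div_mul_div_comm, div_mul_eq_mul_div]
    rw [e3]
    ring
  have h2 : -(28 / 13 * ((u - Real.log (1 + u)) / s)) ≤ 2 * (m + 1) / (m - 1) * (N / s) := by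
    have hκ : 2 * (m + 1) / (m - 1) ≤ 28 / 13 := by
      rw [div_le_iff₀ (by linarith only [hm])]
      linarith only [hm]
    have hκ0 : 0 ≤ 2 * (m + 1) / (m - 1) := div_nonneg (by linarith only [hm]) (by linarith only [hm])
    have h3 : -((u - Real.log (1 + u)) / s) ≤ N / s := by
      rw [← neg_div, div_le_div_iff_of_pos_right hs]
      linarith only [hN]
    have h4 := mul_le_mul_of_nonneg_left h3 hκ0
    have h5 : 2 * (m + 1) / (m - 1) * ((u - Real.log (1 + u)) / s) ≤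
        28 / 13 * ((u - Real.log (1 + u)) / s) :=
      mul_le_mul_of_nonneg_right hκ (div_nonneg hφ hs.le)
    linarith only [h4, h5]
  rw [e]
  linarith only [hG, hA, h2]

theorem fxr_phi_nonneg {u : ℝ} (hu : 0 < 1 + u) : 0 ≤ u - Real.log (1 + u) := by
  have := Real.log_le_sub_one_of_pos hu
  linarith

theorem fxr_q0 {m s : ℝ} (hm : 27 ≤ m) (hs : 0 < s) (hs1 : s ≤ 5 / 7) :
    (72 - 82 * s ^ 2) * (1 - s ^ 2) ^ 2 / s ^ 5 ≤ fxq m s := by
  unfold fxq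
  have h1 : 0 ≤ (1 - s ^ 2) ^ 2 / s ^ 5 * (3 * (m - 27)) := by
    have : 0 ≤ m - 27 := by linarith only [hm]
    (clear * - hs hm; positivity)
  have h2 : 0 ≤ 3 / 25 * (m - 27) ^ 2 * ((1 - s ^ 2) ^ 2 / s ^ 2) := by positivity
  have e : (72 - 82 * s ^ 2) * (1 - s ^ 2) ^ 2 / s ^ 5 =
      (1 - s ^ 2) ^ 2 / s ^ 5 * (72 - 82 * s ^ 2) := by ring
  rw [e]
  linarith only [h1, h2]

theorem fxr_q1 {m s : ℝ} (hm : 27 ≤ m) (hs : 0 < s) (hs1 : s ≤ 5 / 7) :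
    54 / 625 * ((m + 3) * (1 - s ^ 2)) ^ 2 ≤ fxq m s * s ^ 2 := by
  obtain ⟨t, ht⟩ : ∃ t : ℝ, t = m - 27 := ⟨_, rfl⟩
  have ht0 : 0 ≤ t := by linarith only [hm, ht]
  have hm' : m = 27 + t := by linarith only [ht]
  have e : fxq m s * s ^ 2 - 54 / 625 * ((m + 3) * (1 - s ^ 2)) ^ 2 =
      (1 - s ^ 2) ^ 2 / s ^ 3 * ((72 - 82 * s ^ 2 - 7776 / 100 * s ^ 3) +
        t * (3 - 5184 / 1000 * s ^ 3) + t ^ 2 * (3 / 25 - 864 / 10000) * s ^ 3) := by
    unfold fxq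
    rw [hm']
    field_simp
    ring
  have h1 : s ^ 3 ≤ 125 / 343 := by
    have := pow_le_pow_left₀ hs.le hs1 3
    norm_num at this
    exact this
  have h2 : s ^ 2 ≤ 25 / 49 := by nlinarith only [hs1, hs]
  have h3 : 0 ≤ 72 - 82 * s ^ 2 - 7776 / 100 * s ^ 3 := by linarith only [h1, h2]
  have h4 : 0 ≤ 3 - 5184 / 1000 * s ^ 3 := by linarith only [h1]
  have h5 : 0 ≤ (1 - s ^ 2) ^ 2 / s ^ 3 * ((72 - 82 * s ^ 2 - 7776 / 100 * s ^ 3) +
        t * (3 - 5184 / 1000 * s ^ 3) + t ^ 2 * (3 / 25 - 864 / 10000) * s ^ 3) := by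
    have : (0 : ℝ) ≤ 3 / 25 - 864 / 10000 := by norm_num
    (clear * - hs h3 ht0 h4; positivity)
  linarith only [e, h5]

theorem fxr_q_pos {m s : ℝ} (hm : 27 ≤ m) (hs : 0 < s) (hs1 : s ≤ 5 / 7) : 0 < fxq m s := by
  refine lt_of_lt_of_le ?_ (fxr_q0 hm hs hs1)
  have h2 : s ^ 2 ≤ 25 / 49 := by nlinarith only [hs1, hs]
  have h3 : 0 < 1 - s ^ 2 := by linarith only [h2]
  have h4 : 0 < 72 - 82 * s ^ 2 := by linarith only [h2]
  positivity

/-- the cross term -/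
theorem fxr_cross {m s l u : ℝ} (hm : 27 ≤ m) (hs : 0 < s) (hs1 : s ≤ 5 / 7) (hl : 0 ≤ l)
    (hu : 0 ≤ u) :
    6 / 25 * (m + 3) * (1 - s ^ 2) * (u * l) ≤ fxq m s / 2 * l ^ 2 + s ^ 2 / 3 * u ^ 2 := by
  have hq := fxr_q_pos hm hs hs1
  have h1 := fxr_q1 hm hs hs1
  -- `(q/2) l² - B u l + (s²/3) u² ≥ 0`, `B² ≤ (2/3) q s²`
  obtain ⟨B, hB⟩ : ∃ B : ℝ, B = 6 / 25 * (m + 3) * (1 - s ^ 2) := ⟨_, rfl⟩
  have hB2 : B ^ 2 ≤ 2 / 3 * fxq m s * s ^ 2 := by
    have : B ^ 2 = 36 / 625 * ((m + 3) * (1 - s ^ 2)) ^ 2 := by rw [hB]; ring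
    rw [this]
    linarith only [h1]
  rw [← hB]
  have h2 : 0 ≤ (fxq m s * l - B * u) ^ 2 := sq_nonneg _
  have h3 : B ^ 2 * u ^ 2 ≤ 2 / 3 * fxq m s * s ^ 2 * u ^ 2 :=
    mul_le_mul_of_nonneg_right hB2 (sq_nonneg u)
  have h4 : 0 ≤ fxq m s * (fxq m s * l ^ 2 + 2 / 3 * s ^ 2 * u ^ 2 - 2 * (B * (u * l))) := by
    linarith
  have h5 := nonneg_of_mul_nonneg_right h4 hq
  linarith only [h5]

end Vale.Agent.P237.AllN
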