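import Vale.Agent.P237.AllN.FXrD

/-!
# P237, block D, `x ≥ 7/10`, `l > 0`: `T ≥ T₀`
-/

namespace Vale.Agent.P237.AllN

/-- `(2/5)·` etc: the bracket for `s ≥ 1/5` -/
theorem fxr_K {z s l : ℝ} (hz : 49 / 100 ≤ z) (hs : 1 / 5 ≤ s) (hsz : s ^ 2 = 1 - z) (hl : 0 < l)
    (hl1 : l ≤ 2 / 5) (hU : l ≤ s ^ 2 * (1 / 2 + 79 / 200 * s ^ 2)) :
    0 ≤ 3 / 8 * (72 - 82 * s ^ 2) * (1 - s ^ 2) ^ 2 * (l / s ^ 2) ^ 2 * s * (1 + s) +
      (fxw z s l - 1 / 3 * s ^ 2 * (1 + s) - 1 / 5 -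
        28 / 13 * ((1 + s) * (1 + 3 * s) / (1 + 6 * s + 6 * s ^ 2))) := by
  have hs0 : 0 < s := by (clear * - hs hl hl1; linarith)
  have hs1 := fxr_s_le hz hs0 hsz
  have hG := fxr_G hs hs1 hl hU
  have hw := fxr_w (by linarith only [hz]) hs0 hsz hl hl1
  unfold fxrG at hG
  have hD : 0 < 1 + 6 * s + 6 * s ^ 2 := by positivity
  have h1 : 0 ≤ ((1 + s) * (3 / 8 * (72 - 82 * s ^ 2) * (1 - s ^ 2) ^ 2 * (l / s ^ 2) ^ 2 * s *
      (1 + s) + fxw z s l - 1 / 3 * s ^ 2 * (1 + s) - 1 / 5)) * (1 + 6 * s + 6 * s ^ 2) -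
      28 / 13 * (1 + s) ^ 2 * (1 + 3 * s) := by
    refine hG.trans ?_
    have h2 := mul_le_mul_of_nonneg_right hw hD.le
    linarith
  have e : ((1 + s) * (3 / 8 * (72 - 82 * s ^ 2) * (1 - s ^ 2) ^ 2 * (l / s ^ 2) ^ 2 * s *
      (1 + s) + fxw z s l - 1 / 3 * s ^ 2 * (1 + s) - 1 / 5)) * (1 + 6 * s + 6 * s ^ 2) -
      28 / 13 * (1 + s) ^ 2 * (1 + 3 * s) = (1 + s) * (1 + 6 * s + 6 * s ^ 2) *
      (3 / 8 * (72 - 82 * s ^ 2) * (1 - s ^ 2) ^ 2 * (l / s ^ 2) ^ 2 * s * (1 + s) +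
      (fxw z s l - 1 / 3 * s ^ 2 * (1 + s) - 1 / 5 -
        28 / 13 * ((1 + s) * (1 + 3 * s) / (1 + 6 * s + 6 * s ^ 2)))) := by
    field_simp
    ring
  rw [e] at h1
  exact nonneg_of_mul_nonneg_right h1 (by positivity)

theorem fxr_ql {m s l : ℝ} (hm : 27 ≤ m) (hs : 0 < s) (hs1 : s ≤ 5 / 7) :
    (72 - 82 * s ^ 2) * (1 - s ^ 2) ^ 2 * (l / s ^ 2) ^ 2 / s ≤ fxq m s * l ^ 2 := by
  have h := mul_le_mul_of_nonneg_right (fxr_q0 hm hs hs1) (sq_nonneg l)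
  refine le_trans (le_of_eq ?_) h
  (clear * - hs; field_simp)

/-- the tail bound near `x = 1` -/
theorem fxr_tail {m z s l u x : ℝ} (hm : 27 ≤ m) (hs : 0 < s) (hs1 : s ≤ 1 / 5)
    (hsz : s ^ 2 = 1 - z) (hl : 0 < l) (hx : 0 < x) (hxz : x ^ 2 = z)
    (hla : 1 / 4 * s ^ 2 ≤ l) (hlb : l ≤ 516 / 1000 * s ^ 2)
    (htail : (1 + u) * (x * Real.exp l) ≤ (1 - x * Real.exp l) * ((m + 2) * (z / s ^ 2) + 1)) :
    1 + u ≤ (516 / 1000 - l / s ^ 2) * (m + 2) := by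
  have hv : s ^ 2 ≤ 1 / 25 := by nlinarith only [hs1, hs]
  obtain ⟨v, hvd⟩ : ∃ v : ℝ, v = s ^ 2 := ⟨_, rfl⟩
  have hv0 : 0 < v := by rw [hvd]; positivity
  rw [← hvd] at hv hla hlb hsz htail ⊢
  have hz : z = 1 - v := by linarith only [hsz]
  -- lower bound of `x`
  have hx1 : 1 - v / 2 - 13 / 100 * v ^ 2 ≤ x := by
    by_contra hlt
    push Not at hlt
    have h1 : x ^ 2 < (1 - v / 2 - 13 / 100 * v ^ 2) ^ 2 := by
      apply pow_lt_pow_left₀ hlt hx.le (by norm_num)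
    have h2 : (1 - v / 2 - 13 / 100 * v ^ 2) ^ 2 ≤ 1 - v := by
      nlinarith only [hlb, hs, hs1, hl, mul_nonneg (mul_pos hv0 hv0).le (sub_nonneg.2 hv)]
    linarith only [hxz, hsz, h1, h2]
  -- upper bound of `e^{-l}`
  have he : 1 ≤ Real.exp l * (1 - l + l ^ 2 / 2) := by
    have h1 := Real.quadratic_le_exp_of_nonneg hl.le
    have h2 : 0 ≤ 1 - l + l ^ 2 / 2 := by nlinarith only []
    have h3 := mul_le_mul_of_nonneg_right h1 h2
    have h4 : (1 + l + l ^ 2 / 2) * (1 - l + l ^ 2 / 2) = 1 + l ^ 4 / 4 := by ring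
    have h5 : 0 ≤ l ^ 4 / 4 := by positivity
    linarith only [h3, h5]
  obtain ⟨h, hh⟩ : ∃ h : ℝ, h = 516 / 1000 * v - l := ⟨_, rfl⟩
  have hh0 : 0 ≤ h := by rw [hh]; linarith only [hlb]
  have hkey : 1 - l + l ^ 2 / 2 ≤ x * (1 + h) := by
    have h1 : (1 - v / 2 - 13 / 100 * v ^ 2) * (1 + h) ≤ x * (1 + h) :=
      mul_le_mul_of_nonneg_right hx1 (by linarith only [hlb, hh])
    refine le_trans ?_ h1
    rw [hh]
    -- difference is `.016 v - v h/2 - .13 v² (1 + h) - l²/2`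
    have hl2 : l ^ 2 ≤ 516 / 1000 * v * l := by nlinarith only [hl, hlb]
    have hhv : 516 / 1000 * v - l ≤ 266 / 1000 * v := by linarith only [hla]
    nlinarith only [hlb, hla, hv]
  have hτ0 : 0 < x * Real.exp l := by positivity
  have h6 : 1 ≤ x * Real.exp l * (1 + h) := by
    have h7 := mul_le_mul_of_nonneg_left hkey (Real.exp_pos l).le
    have : Real.exp l * (x * (1 + h)) = x * Real.exp l * (1 + h) := by ring
    linarith only [he, h7]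
  have h8 : 1 - x * Real.exp l ≤ x * Real.exp l * h := by linarith only [h6]
  have hB : 0 ≤ (m + 2) * (z / v) + 1 := by
    have : 0 < z := by rw [hz]; linarith only [hv]
    have : 0 < m + 2 := by linarith only [hm]
    (clear s u x hs hs1 hx hxz htail hla hvd hx1 he h hh hh0 hkey hτ0 h6 h8 this; positivity)
  have h9 : (1 + u) * (x * Real.exp l) ≤ x * Real.exp l * (h * ((m + 2) * (z / v) + 1)) := by
    refine htail.trans ?_
    have := mul_le_mul_of_nonneg_right h8 hB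
    linarith only [this]
  have h10 : 1 + u ≤ h * ((m + 2) * (z / v) + 1) := by
    have h11 : x * Real.exp l * (1 + u) ≤ x * Real.exp l * (h * ((m + 2) * (z / v) + 1)) := by
      linarith only [h9]
    exact le_of_mul_le_mul_left h11 hτ0
  refine h10.trans ?_
  have e : h * ((m + 2) * (z / v) + 1) = h / v * ((m + 2) * z + v) := by
    (clear * - hv0; field_simp)
  rw [e]
  have e2 : h / v = 516 / 1000 - l / v := by
    rw [hh]
    (clear * - hv0; field_simp)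
  rw [← e2]
  apply mul_le_mul_of_nonneg_left _ (by (clear * - hh0 hv0; positivity))
  rw [hz]
  nlinarith only [hl, hlb, hm]

theorem fxr_pos_big {m z s l u W : ℝ} (hm : 27 ≤ m) (hz : 49 / 100 ≤ z) (h5 : 1 / 5 ≤ s)
    (hsz : s ^ 2 = 1 - z) (hl : 0 < l) (hl1 : l ≤ 2 / 5)
    (hU : l ≤ s ^ 2 * (1 / 2 + 79 / 200 * s ^ 2)) (hu : 0 ≤ u) (hus : u * s ≤ 1)
    (hW0 : 0 ≤ W) (hWu : W * (1 + u) = u ^ 2) :
    0 ≤ 3 / 8 * (fxq m s * l ^ 2) + (W / s) *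
      (fxw z s l - 1 / 3 * s ^ 2 * (1 + s) - 1 / 5 -
        28 / 13 * ((1 + s) * (1 + 3 * s) / (1 + 6 * s + 6 * s ^ 2))) := by
  have hs : 0 < s := by linarith only [h5]
  have hs1 := fxr_s_le hz hs hsz
  have hql := fxr_ql (l := l) hm hs hs1
  have hK := fxr_K hz h5 hsz hl hl1 hU
  obtain ⟨K, hKd⟩ : ∃ K : ℝ, K = fxw z s l - 1 / 3 * s ^ 2 * (1 + s) - 1 / 5 -
    28 / 13 * ((1 + s) * (1 + 3 * s) / (1 + 6 * s + 6 * s ^ 2)) := ⟨_, rfl⟩
  rw [← hKd] at hK ⊢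
  have hq0 : 0 ≤ fxq m s * l ^ 2 := mul_nonneg (fxr_q_pos hm hs hs1).le (sq_nonneg l)
  rcases le_total 0 K with h0 | h0
  · have : 0 ≤ W / s * K := mul_nonneg (div_nonneg hW0 hs.le) h0
    linarith only [hq0, this]
  · -- `W ≤ 1/(s(1+s))`
    have hW1 : W * (s * (1 + s)) ≤ 1 := by
      have h1 : u ^ 2 * (s * (1 + s)) ≤ 1 + u := by
        have : u ^ 2 * (s * (1 + s)) = u * (u * s) + (u * s) ^ 2 := by ring
        rw [this]
        have h2 : (u * s) ^ 2 ≤ 1 := pow_le_one₀ (by (clear * - hu h5; positivity)) hus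
        have h3 : u * (u * s) ≤ u * 1 := mul_le_mul_of_nonneg_left hus hu
        linarith only [h2, h3]
      have h2 : W * (s * (1 + s)) * (1 + u) ≤ 1 * (1 + u) := by
        calc W * (s * (1 + s)) * (1 + u) = u ^ 2 * (s * (1 + s)) := by rw [← hWu]; ring
          _ ≤ 1 * (1 + u) := by linarith only [h1]
      exact le_of_mul_le_mul_right h2 (by linarith only [hu])
    have h3 : (1 / (s ^ 2 * (1 + s))) * K ≤ W / s * K := by
      apply mul_le_mul_of_nonpos_right _ h0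
      rw [div_le_div_iff₀ hs (by positivity)]
      have h4 := mul_le_mul_of_nonneg_left hW1 hs.le
      calc W * (s ^ 2 * (1 + s)) = s * (W * (s * (1 + s))) := by ring
        _ ≤ s * 1 := h4
        _ = 1 * s := by ring
    have h4 : 0 ≤ (1 / (s ^ 2 * (1 + s))) * (3 / 8 * (72 - 82 * s ^ 2) * (1 - s ^ 2) ^ 2 *
        (l / s ^ 2) ^ 2 * s * (1 + s) + K) := mul_nonneg (by positivity) hK
    have e : (1 / (s ^ 2 * (1 + s))) * (3 / 8 * (72 - 82 * s ^ 2) * (1 - s ^ 2) ^ 2 *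
        (l / s ^ 2) ^ 2 * s * (1 + s) + K) = 3 / 8 * ((72 - 82 * s ^ 2) * (1 - s ^ 2) ^ 2 *
        (l / s ^ 2) ^ 2 / s) + (1 / (s ^ 2 * (1 + s))) * K := by
      (clear * - h5; field_simp)
    rw [e] at h4
    linarith only [hql, h3, h4]

theorem fxr_tail_q {t lam W : ℝ} (ht0 : 0 ≤ t) (h6 : 151 / 100 ≤ 6 * lam)
    (hu1 : W ≤ (516 / 1000 - lam) * (29 + t) - 1) :
    (6 * lam - 151 / 100) * W ≤ (237 / 10 + 103 / 100 * t) * lam ^ 2 := by
  have h7 : 0 ≤ 6 * lam - 151 / 100 := by linarith only [h6]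
  have h8 : (6 * lam - 151 / 100) * W ≤
      (6 * lam - 151 / 100) * ((516 / 1000 - lam) * (29 + t) - 1) :=
    mul_le_mul_of_nonneg_left hu1 h7
  have ha : 0 ≤ 703 / 100 * lam ^ 2 - 4606 / 1000 * lam + 77916 / 100000 := by
    nlinarith only [sq_nonneg (lam - 2303 / 7030)]
  have hb : 0 ≤ 1977 / 10 * lam ^ 2 - 127574 / 1000 * lam + 2108564 / 100000 := by
    nlinarith only [sq_nonneg (lam - 63787 / 197700)]
  have e : (237 / 10 + 103 / 100 * t) * lam ^ 2 -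
      (6 * lam - 151 / 100) * ((516 / 1000 - lam) * (29 + t) - 1) =
      (1977 / 10 * lam ^ 2 - 127574 / 1000 * lam + 2108564 / 100000) +
      t * (703 / 100 * lam ^ 2 - 4606 / 1000 * lam + 77916 / 100000) := by ring
  have h9 := mul_nonneg ht0 ha
  (clear * - h8 hb h9; linarith)

theorem fxr_ql2 {m s l : ℝ} (hm : 27 ≤ m) (hs : 0 < s) (hs1 : s ≤ 1 / 5) :
    (237 / 10 + 103 / 100 * (m - 27)) * (l / s ^ 2) ^ 2 ≤ 3 / 8 * (fxq m s * l ^ 2) * s := by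
  obtain ⟨t, ht⟩ : ∃ t : ℝ, t = m - 27 := ⟨_, rfl⟩
  have ht0 : 0 ≤ t := by linarith only [hm, ht]
  have e : fxq m s * l ^ 2 * s = (1 - s ^ 2) ^ 2 * (l / s ^ 2) ^ 2 *
      ((72 - 82 * s ^ 2 + 3 * t) + 3 / 25 * t ^ 2 * s ^ 3) := by
    unfold fxq
    rw [← ht]
    field_simp
  have e2 : 3 / 8 * (fxq m s * l ^ 2) * s = 3 / 8 * (fxq m s * l ^ 2 * s) := by ring
  rw [e2, e, ← ht]
  have h1 : s ^ 2 ≤ 1 / 25 := by nlinarith only [hs1, hs]
  have h2 : (24 / 25) ^ 2 ≤ (1 - s ^ 2) ^ 2 := by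
    apply pow_le_pow_left₀ (by norm_num)
    linarith only [h1]
  have h3 : 6872 / 100 + 3 * t ≤ (72 - 82 * s ^ 2 + 3 * t) + 3 / 25 * t ^ 2 * s ^ 3 := by
    have : 0 ≤ 3 / 25 * t ^ 2 * s ^ 3 := by (clear * - hs; positivity)
    linarith only [h1, this]
  have h4 : (24 / 25) ^ 2 * (6872 / 100 + 3 * t) ≤ (1 - s ^ 2) ^ 2 *
      ((72 - 82 * s ^ 2 + 3 * t) + 3 / 25 * t ^ 2 * s ^ 3) :=
    mul_le_mul h2 h3 (by (clear * - ht0; positivity)) (sq_nonneg _)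
  have h5 := mul_le_mul_of_nonneg_right h4 (sq_nonneg (l / s ^ 2))
  have h6 : 0 ≤ (l / s ^ 2) ^ 2 := sq_nonneg _
  have h7 : 0 ≤ t * (l / s ^ 2) ^ 2 := mul_nonneg ht0 h6
  have e3 : 3 / 8 * ((1 - s ^ 2) ^ 2 * (l / s ^ 2) ^ 2 *
      ((72 - 82 * s ^ 2 + 3 * t) + 3 / 25 * t ^ 2 * s ^ 3)) = 3 / 8 * ((1 - s ^ 2) ^ 2 *
      ((72 - 82 * s ^ 2 + 3 * t) + 3 / 25 * t ^ 2 * s ^ 3) * (l / s ^ 2) ^ 2) := by ring
  rw [e3]
  linarith only [h5, h6, h7]

theorem fxr_pos_small {m z s l u W x : ℝ} (hm : 27 ≤ m) (hz : 49 / 100 ≤ z) (hs : 0 < s)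
    (h5 : s ≤ 1 / 5)
    (hsz : s ^ 2 = 1 - z) (hl : 0 < l) (hl1 : l ≤ 2 / 5)
    (hU : l ≤ s ^ 2 * (1 / 2 + 79 / 200 * s ^ 2))
    (hx : 0 < x) (hxz : x ^ 2 = z)
    (htail : (1 + u) * (x * Real.exp l) ≤ (1 - x * Real.exp l) * ((m + 2) * (z / s ^ 2) + 1))
    (hW0 : 0 ≤ W) (hWle : W ≤ u) :
    0 ≤ 3 / 8 * (fxq m s * l ^ 2) + (W / s) *
      (fxw z s l - 1 / 3 * s ^ 2 * (1 + s) - 1 / 5 -
        28 / 13 * ((1 + s) * (1 + 3 * s) / (1 + 6 * s + 6 * s ^ 2))) := by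
  have hs1 := fxr_s_le hz hs hsz
  have hw := fxr_wsmall (by linarith only [hz]) hs h5 hsz hl hl1 hU
  have hf1 : (1 + s) * (1 + 3 * s) / (1 + 6 * s + 6 * s ^ 2) ≤ 1 := by
    rw [div_le_one (by positivity)]
    nlinarith only [hs]
  have hs3 : 1 / 3 * s ^ 2 * (1 + s) ≤ 16 / 1000 := by
    have h1 : s ^ 2 ≤ 1 / 25 := by nlinarith only [h5, hs]
    nlinarith only [h1, h5]
  have hK : 151 / 100 - 6 * (l / s ^ 2) ≤
      fxw z s l - 1 / 3 * s ^ 2 * (1 + s) - 1 / 5 -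
        28 / 13 * ((1 + s) * (1 + 3 * s) / (1 + 6 * s + 6 * s ^ 2)) := by linarith only [hw, hf1, hs3]
  have hWs : 0 ≤ W / s := div_nonneg hW0 hs.le
  have h1 := mul_le_mul_of_nonneg_left hK hWs
  refine le_trans ?_ (add_le_add_right h1 _)
  rcases le_total (6 * (l / s ^ 2)) (151 / 100) with h6 | h6
  · have : 0 ≤ W / s * (151 / 100 - 6 * (l / s ^ 2)) := mul_nonneg hWs (by linarith only [h6])
    have hq0 : 0 ≤ fxq m s * l ^ 2 := mul_nonneg (fxr_q_pos hm hs hs1).le (sq_nonneg l)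
    linarith only [this, hq0]
  · have hs2 : 0 < s ^ 2 := by positivity
    have hls : l = l / s ^ 2 * s ^ 2 := by field_simp
    have hla : 1 / 4 * s ^ 2 ≤ l := by
      have h7 : 1 / 4 ≤ l / s ^ 2 := by linarith only [h6]
      have := mul_le_mul_of_nonneg_right h7 hs2.le
      linarith only [hls, this]
    have hlb : l ≤ 516 / 1000 * s ^ 2 := by
      refine hU.trans ?_
      have h1 : s ^ 2 ≤ 1 / 25 := by nlinarith only [h5, hs]
      nlinarith only [h1]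
    have htl := fxr_tail hm hs h5 hsz hl hx hxz hla hlb htail
    have hq2 := fxr_ql2 (l := l) hm hs h5
    have hu1 : W ≤ (516 / 1000 - l / s ^ 2) * (29 + (m - 27)) - 1 := by
      rw [show (29 : ℝ) + (m - 27) = m + 2 by ring]
      linarith only [hWle, htl]
    have h9 := fxr_tail_q (by linarith only [hm]) h6 hu1
    have h10 : 0 ≤ (3 / 8 * (fxq m s * l ^ 2) * s + W * (151 / 100 - 6 * (l / s ^ 2))) / s :=
      div_nonneg (by linarith only [hq2, h9]) hs.le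
    have e3 : (3 / 8 * (fxq m s * l ^ 2) * s + W * (151 / 100 - 6 * (l / s ^ 2))) / s =
        3 / 8 * (fxq m s * l ^ 2) + W / s * (151 / 100 - 6 * (l / s ^ 2)) := by
      rw [add_div, mul_div_assoc, div_self hs.ne', mul_one]
      ring
    rw [e3] at h10
    exact h10

theorem fxr_Tpos {m z s l u G N x : ℝ} (hm : 27 ≤ m) (hz : 49 / 100 ≤ z) (hs : 0 < s)
    (hsz : s ^ 2 = 1 - z) (hl : 0 < l) (hl1 : l ≤ 2 / 5)
    (hU : l ≤ s ^ 2 * (1 / 2 + 79 / 200 * s ^ 2)) (hu : 0 ≤ u) (hus : u * s ≤ 1)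
    (hx : 0 < x) (hxz : x ^ 2 = z)
    (htail : (1 + u) * (x * Real.exp l) ≤ (1 - x * Real.exp l) * ((m + 2) * (z / s ^ 2) + 1))
    (hN : Real.log (1 + u) - u ≤ N) (hG : -(5 * (z / s ^ 3) * l ^ 2) ≤ G) :
    fxq m s / 8 * l ^ 2 + 1 / 5 * (u ^ 2 / (1 + u) / s) ≤ dpT m z s l u G N := by
  have hs1 := fxr_s_le hz hs hsz
  have hT := fxr_T_ge hm hz hs hsz hl hl1 hU hN hG (fxr_phi_nonneg (by linarith only [hu]))
  have hcr := fxr_cross hm hs hs1 hl.le hu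
  have hz' : z = 1 - s ^ 2 := by linarith only [hsz]
  rw [← hz'] at hcr
  refine le_trans ?_ hT
  obtain ⟨W, hW⟩ : ∃ W : ℝ, W = u ^ 2 / (1 + u) := ⟨_, rfl⟩
  have hW0 : 0 ≤ W := by rw [hW]; (clear * - hu; positivity)
  have hWu : W * (1 + u) = u ^ 2 := by rw [hW]; field_simp
  have hWle : W ≤ u := by
    rw [hW, div_le_iff₀ (by linarith only [hu])]
    nlinarith only [hu]
  -- `s² u²/3 ≤ s(1+s) W/3`
  have hsu : s ^ 2 / 3 * u ^ 2 ≤ 1 / 3 * s ^ 2 * (1 + s) * (W / s) := by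
    have e : 1 / 3 * s ^ 2 * (1 + s) * (W / s) = 1 / 3 * (s * ((1 + s) * W)) := by
      field_simp
    rw [e, ← hWu]
    have h1 : s * (1 + u) ≤ 1 + s := by linarith only [hus]
    have h2 := mul_le_mul_of_nonneg_right h1 (mul_nonneg hs.le hW0)
    linarith only [h2]
  have hφ := fxr_phis hu hs hus
  rw [← hW] at hφ ⊢
  have key : 0 ≤ 3 / 8 * (fxq m s * l ^ 2) + (W / s) *
      (fxw z s l - 1 / 3 * s ^ 2 * (1 + s) - 1 / 5 -
        28 / 13 * ((1 + s) * (1 + 3 * s) / (1 + 6 * s + 6 * s ^ 2))) := by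
    rcases le_total (1 / 5) s with h5 | h5
    · exact fxr_pos_big hm hz h5 hsz hl hl1 hU hu hus hW0 hWu
    · exact fxr_pos_small hm hz hs h5 hsz hl hl1 hU hx hxz htail hW0 hWle
  obtain ⟨f, hf⟩ : ∃ f : ℝ, f = (1 + s) * (1 + 3 * s) / (1 + 6 * s + 6 * s ^ 2) := ⟨_, rfl⟩
  rw [← hf] at hφ key
  have hφs : (u - Real.log (1 + u)) / s ≤ f * (W / s) := by
    rw [← mul_div_assoc]
    exact div_le_div_of_nonneg_right hφ hs.le
  linarith

theorem fxr_Tneg {m z s l u G N : ℝ} (hm : 27 ≤ m) (hz : 49 / 100 ≤ z) (hs : 0 < s)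
    (hsz : s ^ 2 = 1 - z) (hl : 0 < l) (hl1 : l ≤ 2 / 5)
    (hU : l ≤ s ^ 2 * (1 / 2 + 79 / 200 * s ^ 2)) (hτ : z * Real.exp (2 * l) ≤ 1)
    (hu1 : 0 < 1 + u) (hu : u ≤ 0)
    (hN : Real.log (1 + u) - u ≤ N) (hG : -(5 * (z / s ^ 3) * l ^ 2) ≤ G) :
    fxq m s / 8 * l ^ 2 + 1 / 9 * (u ^ 2 / (1 + u) / s) ≤ dpT m z s l u G N := by
  have hs1 := fxr_s_le hz hs hsz
  have hT := fxr_T_ge hm hz hs hsz hl hl1 hU hN hG (fxr_phi_nonneg hu1)
  refine le_trans ?_ hT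
  obtain ⟨W, hW⟩ : ∃ W : ℝ, W = u ^ 2 / (1 + u) := ⟨_, rfl⟩
  have hW0 : 0 ≤ W := by rw [hW]; (clear * - hu1; positivity)
  have hcr : 6 / 25 * (m + 3) * z * (u * l) ≤ 0 := by
    have h1 : u * l ≤ 0 := mul_nonpos_of_nonpos_of_nonneg hu hl.le
    have h2 : 0 ≤ 6 / 25 * (m + 3) * z := by
      have : 0 ≤ m + 3 := by linarith only [hm]
      have : 0 ≤ z := by linarith only [hz]
      positivity
    exact mul_nonpos_of_nonneg_of_nonpos h2 h1
  have hs2 : 0 < s ^ 2 := by positivity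
  have hWs : 0 ≤ W / s := div_nonneg hW0 hs.le
  have hq0 : 0 ≤ fxq m s * l ^ 2 := mul_nonneg (fxr_q_pos hm hs hs1).le (sq_nonneg l)
  -- `q l² s ≥ 30.16 · .2399 λ²`
  have hql : ∀ a : ℝ, 0 ≤ a → a ≤ l / s ^ 2 → 7235 / 1000 * a ^ 2 / s ≤ fxq m s * l ^ 2 := by
    intro a ha ha1
    refine le_trans ?_ (fxr_ql (l := l) hm hs hs1)
    apply div_le_div_of_nonneg_right _ hs.le
    have h1 : s ^ 2 ≤ 51 / 100 := by linarith only [hz, hsz]
    have h2 : 3018 / 100 ≤ 72 - 82 * s ^ 2 := by linarith only [hz, hsz]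
    have h3 : (49 / 100) ^ 2 ≤ (1 - s ^ 2) ^ 2 := by
      apply pow_le_pow_left₀ (by norm_num)
      linarith only [hz, hsz]
    have h4 : a ^ 2 ≤ (l / s ^ 2) ^ 2 := pow_le_pow_left₀ ha ha1 2
    calc 7235 / 1000 * a ^ 2 ≤ (3018 / 100 * (49 / 100) ^ 2) * a ^ 2 := by
          apply mul_le_mul_of_nonneg_right _ (sq_nonneg a)
          norm_num
      _ ≤ ((72 - 82 * s ^ 2) * (1 - s ^ 2) ^ 2) * (l / s ^ 2) ^ 2 := by
          apply mul_le_mul _ h4 (sq_nonneg a) (by (clear * - h2 h3; positivity))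
          exact mul_le_mul h2 h3 (by positivity) (by linarith only [hz, hsz])
  rw [← hW]
  rcases le_total (l / s ^ 2) (7 / 20) with ha | ha
  · have hw := fxr_wa hz hs hsz hl hl1 ha
    have hφ := fxr_phi2 hu1 hu
    rw [← hW] at hφ
    have h1 : (u - Real.log (1 + u)) / s ≤ 1 / 2 * (W / s) := by
      rw [← mul_div_assoc]
      exact div_le_div_of_nonneg_right hφ hs.le
    have h2 := mul_le_mul_of_nonneg_right hw hWs
    linarith only [hcr, hWs, hq0, h1, h2]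
  · rcases le_total (l / s ^ 2) (1 / 2) with hb | hb
    · have hw := fxr_wb hz hs hsz hl hl1 ha hb
      have hφ := fxr_phi4 hu1 hu
      rw [← hW] at hφ
      have h1 : (u - Real.log (1 + u)) / s ≤ 1 / 4 * (W / s) + 1 / 10 * (1 / s) := by
        have : 1 / 4 * (W / s) + 1 / 10 * (1 / s) = (1 / 4 * W + 1 / 10) / s := by ring
        rw [this]
        exact div_le_div_of_nonneg_right hφ hs.le
      have h2 := mul_le_mul_of_nonneg_right hw hWs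
      have h3 := hql (7 / 20) (by norm_num) ha
      have h4 : 7235 / 1000 * (7 / 20) ^ 2 / s = 88628750 / 100000000 * (1 / s) := by
        ring
      rw [h4] at h3
      have h5 : 0 < 1 / s := by positivity
      (clear * - hcr hWs h1 h2 h3 h5; linarith)
    · have hw := fxr_w3 hz hs hsz hl hl1 hτ
      have hφ := fxr_phi10 hu1 hu
      rw [← hW] at hφ
      have h1 : (u - Real.log (1 + u)) / s ≤ 1 / 10 * (W / s) + 3 / 5 * (1 / s) := by
        have : 1 / 10 * (W / s) + 3 / 5 * (1 / s) = (1 / 10 * W + 3 / 5) / s := by ring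
        rw [this]
        exact div_le_div_of_nonneg_right hφ hs.le
      have h2 := mul_le_mul_of_nonneg_right hw hWs
      have h3 := hql (1 / 2) (by norm_num) hb
      have h4 : 7235 / 1000 * (1 / 2) ^ 2 / s = 180875 / 100000 * (1 / s) := by
        ring
      rw [h4] at h3
      have h5 : 0 < 1 / s := by positivity
      linarith only [hcr, hWs, h1, h2, h3, h5]

end Vale.Agent.P237.AllN
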