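import Vale.Agent.P237.AllN.FXrE

/-!
# P237, block D, `x ≥ 7/10`, `l > 0`: the test
-/

namespace Vale.Agent.P237.AllN

open PolyPos

/-- `ρ` from below -/
theorem fxr_rho {m y : ℝ} :
    (2 + 135 * y + 675 * y ^ 2) / 10 + (m - 27) * ((5 * y + 52 * y ^ 2) / 10) ≤ dpR m y := by
  unfold dpR
  have h1 : 0 ≤ (m - 27) ^ 2 * y ^ 2 := by positivity
  linarith

private def cX2 : Ex := Ex.X * Ex.X

/-- `(4/5) ρ₂₇ s⁴ - 5(1+s)s²(11/5-2s³)² - 8 s⁴` -/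
private def chA : Ex :=
  fxk 2 24 * (fxk 2 0 * (cX2 * cX2) + fxk 135 0 * (fxZ * cX2) + fxk 675 0 * (fxZ * fxZ)) -
  fxk 5 0 * ((fxk 1 0 + Ex.X) * cX2 * ((fxk 11 4 - fxk 2 0 * (cX2 * Ex.X)) *
    (fxk 11 4 - fxk 2 0 * (cX2 * Ex.X)))) - fxk 8 0 * (cX2 * cX2)

private theorem chkA : Ex.nn (2 ^ 512) 60 4000 0 5 7 0 1 1 chA = true := by
  (clear * -; decide +kernel)

theorem fxr_tA {s : ℝ} (hs : 0 ≤ s) (hs1 : s ≤ 5 / 7) :
    5 * (1 + s) * s ^ 2 * (11 / 5 - 2 * s ^ 3) ^ 2 + 8 * s ^ 4 ≤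
      4 / 5 * ((2 * s ^ 4 + 135 * (1 - s ^ 2) * s ^ 2 + 675 * (1 - s ^ 2) ^ 2) / 10) := by
  have h := Ex.nn_closed (x := s) (y := 0) (by norm_num) (by norm_num) (by norm_num)
    (by norm_num) chkA (by push_cast; linarith only [hs]) (by push_cast; linarith only [hs1]) (by norm_num)
    (by norm_num)
  simp only [chA, cX2, fxk, fxZ, Ex.R_add, Ex.R_sub, Ex.R_mul, Ex.R_c, Ex.R_X, Fr.R] at h
  push_cast at h
  linarith only [h]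

/-- `ρ₂₇ s⁴/10 - ...` -/
private def chB : Ex :=
  fxk 1 99 * (fxk 2 0 * (cX2 * cX2) + fxk 135 0 * (fxZ * cX2) + fxk 675 0 * (fxZ * fxZ)) -
  fxk 11 4 * cX2 + fxk 2 0 * (cX2 * cX2 * Ex.X) -
  fxk 71 99 * (cX2 * cX2 * (fxk 2 0 * Ex.X - fxk 2 0 * cX2 + fxk 36 4 * (fxZ * Ex.X)))

private theorem chkB : Ex.nn (2 ^ 512) 60 4000 0 5 7 0 1 1 chB = true := by
  (clear * -; decide +kernel)

theorem fxr_tB {s : ℝ} (hs : 0 ≤ s) (hs1 : s ≤ 5 / 7) :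
    11 / 5 * s ^ 2 - 2 * s ^ 5 + 71 / 100 * s ^ 4 * (2 * s - 2 * s ^ 2 +
      36 / 5 * ((1 - s ^ 2) * s)) ≤
      (2 * s ^ 4 + 135 * (1 - s ^ 2) * s ^ 2 + 675 * (1 - s ^ 2) ^ 2) / 100 := by
  have h := Ex.nn_closed (x := s) (y := 0) (by norm_num) (by norm_num) (by norm_num)
    (by norm_num) chkB (by push_cast; linarith only [hs]) (by push_cast; linarith only [hs1]) (by norm_num)
    (by norm_num)
  simp only [chB, cX2, fxk, fxZ, Ex.R_add, Ex.R_sub, Ex.R_mul, Ex.R_c, Ex.R_X, Fr.R] at h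
  push_cast at h
  linarith only [h]

/-- `4/5 ρ₂₇ s⁴ - 38 s³ - 8 s⁴` -/
private def chC : Ex :=
  fxk 2 24 * (fxk 2 0 * (cX2 * cX2) + fxk 135 0 * (fxZ * cX2) + fxk 675 0 * (fxZ * fxZ)) -
  fxk 38 0 * (cX2 * Ex.X) - fxk 1 0 * (cX2 * cX2)

private theorem chkC : Ex.nn (2 ^ 512) 60 4000 0 5 7 0 1 1 chC = true := by
  (clear * -; decide +kernel)

theorem fxr_tC {s : ℝ} (hs : 0 ≤ s) (hs1 : s ≤ 5 / 7) :
    38 * s ^ 3 + s ^ 4 ≤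
      4 / 5 * ((2 * s ^ 4 + 135 * (1 - s ^ 2) * s ^ 2 + 675 * (1 - s ^ 2) ^ 2) / 10) := by
  have h := Ex.nn_closed (x := s) (y := 0) (by norm_num) (by norm_num) (by norm_num)
    (by norm_num) chkC (by push_cast; linarith only [hs]) (by push_cast; linarith only [hs1]) (by norm_num)
    (by norm_num)
  simp only [chC, cX2, fxk, fxZ, Ex.R_add, Ex.R_sub, Ex.R_mul, Ex.R_c, Ex.R_X, Fr.R] at h
  push_cast at h
  linarith only [h]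

/-- `z²(72-82s²) - s³(2-2s+7.2z)²` -/
private def chD : Ex :=
  fxZ * fxZ * (fxk 72 0 - fxk 82 0 * cX2) -
  cX2 * Ex.X * ((fxk 2 0 - fxk 2 0 * Ex.X + fxk 36 4 * fxZ) *
    (fxk 2 0 - fxk 2 0 * Ex.X + fxk 36 4 * fxZ))

private theorem chkD : Ex.nn (2 ^ 512) 60 4000 0 5 7 0 1 1 chD = true := by
  (clear * -; decide +kernel)

theorem fxr_tD {s : ℝ} (hs : 0 ≤ s) (hs1 : s ≤ 5 / 7) :
    s ^ 3 * (2 - 2 * s + 36 / 5 * (1 - s ^ 2)) ^ 2 ≤ (1 - s ^ 2) ^ 2 * (72 - 82 * s ^ 2) := by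
  have h := Ex.nn_closed (x := s) (y := 0) (by norm_num) (by norm_num) (by norm_num)
    (by norm_num) chkD (by push_cast; linarith only [hs]) (by push_cast; linarith only [hs1]) (by norm_num)
    (by norm_num)
  simp only [chD, cX2, fxk, fxZ, Ex.R_add, Ex.R_sub, Ex.R_mul, Ex.R_c, Ex.R_X, Fr.R] at h
  push_cast at h
  linarith only [h]

/-- `B₁² ≤ q` -/
theorem fxr_B1 {m s : ℝ} (hm : 27 ≤ m) (hs : 0 < s) (hs1 : s ≤ 5 / 7) :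
    (2 / s - 2 + 6 / 25 * (m + 3) * ((1 - s ^ 2) / s)) ^ 2 ≤ fxq m s := by
  obtain ⟨t, ht⟩ : ∃ t : ℝ, t = m - 27 := ⟨_, rfl⟩
  have ht0 : 0 ≤ t := by (clear * - hm ht; linarith)
  have hm' : m = 27 + t := by linarith only [ht]
  have hD := fxr_tD hs.le hs1
  have hs2 : s ^ 2 ≤ 25 / 49 := by nlinarith only [hs1, hs]
  have hs3 : s ^ 3 ≤ 125 / 343 := by
    have := pow_le_pow_left₀ hs.le hs1 3
    norm_num at this
    exact this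
  have hz0 : 0 < 1 - s ^ 2 := by linarith only [hs2]
  have h1 : 0 ≤ 3 * (1 - s ^ 2) - 12 / 25 * s ^ 3 * (2 - 2 * s + 36 / 5 * (1 - s ^ 2)) := by
    have h2 : 12 / 25 * s ^ 3 * (2 - 2 * s + 36 / 5 * (1 - s ^ 2)) ≤
        12 / 25 * (125 / 343) * (2 - 2 * s + 36 / 5 * (1 - s ^ 2)) := by
      apply mul_le_mul_of_nonneg_right _ (by linarith only [hs1, hz0])
      linarith only [hs3]
    linarith
  have e : fxq m s - (2 / s - 2 + 6 / 25 * (m + 3) * ((1 - s ^ 2) / s)) ^ 2 =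
      1 / s ^ 5 * (((1 - s ^ 2) ^ 2 * (72 - 82 * s ^ 2) -
        s ^ 3 * (2 - 2 * s + 36 / 5 * (1 - s ^ 2)) ^ 2) +
        t * ((1 - s ^ 2) * (3 * (1 - s ^ 2) -
          12 / 25 * s ^ 3 * (2 - 2 * s + 36 / 5 * (1 - s ^ 2)))) +
        t ^ 2 * ((3 / 25 - 36 / 625) * ((1 - s ^ 2) ^ 2 * s ^ 3))) := by
    unfold fxq
    rw [hm']
    field_simp
    ring
  have h3 : 0 ≤ 1 / s ^ 5 * (((1 - s ^ 2) ^ 2 * (72 - 82 * s ^ 2) -
        s ^ 3 * (2 - 2 * s + 36 / 5 * (1 - s ^ 2)) ^ 2) +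
        t * ((1 - s ^ 2) * (3 * (1 - s ^ 2) -
          12 / 25 * s ^ 3 * (2 - 2 * s + 36 / 5 * (1 - s ^ 2)))) +
        t ^ 2 * ((3 / 25 - 36 / 625) * ((1 - s ^ 2) ^ 2 * s ^ 3))) := by
    have h4 : 0 ≤ (1 - s ^ 2) ^ 2 * (72 - 82 * s ^ 2) -
        s ^ 3 * (2 - 2 * s + 36 / 5 * (1 - s ^ 2)) ^ 2 := by linarith only [hD]
    have h5 : (0 : ℝ) ≤ 3 / 25 - 36 / 625 := by norm_num
    have h6 := mul_nonneg hz0.le h1
    (clear * - hs hD ht0 hz0 h1; positivity)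
  linarith only [e, h3]

theorem fxr_q30 {m s : ℝ} (hm : 27 ≤ m) (hs : 0 < s) (hs1 : s ≤ 5 / 7) : 30 ≤ fxq m s := by
  refine le_trans ?_ (fxr_B1 hm hs hs1)
  have hs2 : s ^ 2 ≤ 25 / 49 := by nlinarith
  have h1 : 1 ≤ 1 / s * (5 / 7) := by
    rw [one_div, inv_mul_eq_div, one_le_div hs]
    exact hs1
  have h2 : 24 / 35 ≤ (1 - s ^ 2) / s := by
    rw [le_div_iff₀ hs]
    nlinarith only [hs2]
  have h3 : 72 / 10 * (24 / 35) ≤ 6 / 25 * (m + 3) * ((1 - s ^ 2) / s) := by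
    apply mul_le_mul _ h2 (by norm_num) (by linarith only [hm])
    linarith only [hm]
  have h4 : 4 / 5 + 72 / 10 * (24 / 35) ≤ 2 / s - 2 + 6 / 25 * (m + 3) * ((1 - s ^ 2) / s) := by
    have : 2 / s = 2 * (1 / s) := by ring
    linarith only [h1, h3, this]
  have h5 := pow_le_pow_left₀ (by norm_num) h4 2
  refine le_trans ?_ h5
  norm_num

/-- `2 (m+3) z ≤ q` -/
theorem fxr_q2 {m s : ℝ} (hm : 27 ≤ m) (hs : 0 < s) (hs1 : s ≤ 5 / 7) :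
    2 * (m + 3) * (1 - s ^ 2) ≤ fxq m s := by
  obtain ⟨t, ht⟩ : ∃ t : ℝ, t = m - 27 := ⟨_, rfl⟩
  have ht0 : 0 ≤ t := by linarith only [hm, ht]
  have hm' : m = 27 + t := by linarith only [ht]
  have hs2 : s ^ 2 ≤ 25 / 49 := by nlinarith only [hs1, hs]
  have hs5 : s ^ 5 ≤ 3125 / 16807 := by
    have := pow_le_pow_left₀ hs.le hs1 5
    norm_num at this
    exact this
  have hz0 : 0 < 1 - s ^ 2 := by linarith only [hs2]
  have e : fxq m s - 2 * (m + 3) * (1 - s ^ 2) =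
      (1 - s ^ 2) / s ^ 5 * (((1 - s ^ 2) * (72 - 82 * s ^ 2) - 60 * s ^ 5) +
        t * (3 * (1 - s ^ 2) - 2 * s ^ 5) + t ^ 2 * (3 / 25 * (1 - s ^ 2) * s ^ 3)) := by
    unfold fxq
    rw [hm']
    field_simp
    ring
  have h3 : 0 ≤ (1 - s ^ 2) / s ^ 5 * (((1 - s ^ 2) * (72 - 82 * s ^ 2) - 60 * s ^ 5) +
        t * (3 * (1 - s ^ 2) - 2 * s ^ 5) + t ^ 2 * (3 / 25 * (1 - s ^ 2) * s ^ 3)) := by
    have h4 : 0 ≤ (1 - s ^ 2) * (72 - 82 * s ^ 2) - 60 * s ^ 5 := by nlinarith only [hs1, hs5, hs]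
    have h5 : 0 ≤ 3 * (1 - s ^ 2) - 2 * s ^ 5 := by linarith only [hs2, hs5]
    (clear * - hz0 hs h4 ht0 h5; positivity)
  linarith

end Vale.Agent.P237.AllN
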