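import Vale.Agent.P237.AllN.FXrF

/-!
# P237, block D, `x ≥ 7/10`, `l > 0`: the bounds of `e - T` and of `e`
-/

namespace Vale.Agent.P237.AllN

theorem fxr_psi {t : ℝ} (ht : 0 ≤ t) : Real.exp (-t) - 1 + t ≤ t ^ 2 / 2 := by
  have h1 := Real.quadratic_le_exp_of_nonneg ht
  have h2 : 0 < 1 - t + t ^ 2 / 2 := by nlinarith only []
  have h3 := mul_le_mul_of_nonneg_right h1 h2.le
  have h4 : (1 + t + t ^ 2 / 2) * (1 - t + t ^ 2 / 2) = 1 + t ^ 4 / 4 := by ring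
  have h5 : 0 ≤ t ^ 4 / 4 := by (clear * -; positivity)
  have h6 : 1 ≤ Real.exp t * (1 - t + t ^ 2 / 2) := by linarith only [h3, h5]
  have h7 : Real.exp (-t) * 1 ≤ Real.exp (-t) * (Real.exp t * (1 - t + t ^ 2 / 2)) :=
    mul_le_mul_of_nonneg_left h6 (Real.exp_pos _).le
  have h8 : Real.exp (-t) * (Real.exp t * (1 - t + t ^ 2 / 2)) = 1 - t + t ^ 2 / 2 := by
    rw [← mul_assoc, ← Real.exp_add, neg_add_cancel, Real.exp_zero, one_mul]
  (clear * - h7 h8; linarith)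

/-- upper bound of `e - T` -/
theorem fxr_eT {m z s l u c G N : ℝ} (hm : 27 ≤ m) (hz : 49 / 100 ≤ z) (hs : 0 < s)
    (hsz : s ^ 2 = 1 - z) (hl : 0 < l) (hl1 : l ≤ 2 / 5)
    (hU : l ≤ s ^ 2 * (1 / 2 + 79 / 200 * s ^ 2)) (hτ : z * Real.exp (2 * l) ≤ 1)
    (hu1 : 0 < 1 + u) (hc2 : c ≤ 1) (hN : Real.log (1 + u) - u ≤ N)
    (hG : -(5 * (z / s ^ 3) * l ^ 2) ≤ G) :
    dpE m z s l u c N - dpT m z s l u G N ≤
      (2 * (m + 1) / (m - 1) - 2 * c) * ((u - Real.log (1 + u)) / s) +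
      (2 * c / s - 2 * s ^ 2 + 2 * (1 - c)) * u +
      (2 * c / s - 2 + 2 * (1 - c) * (1 - m * (z / s ^ 2))) * l +
      6 / 25 * (m + 3) * z * (u * l) := by
  have hs1 := fxr_s_le hz hs hsz
  have hA := fxr_A hm hz hs hsz hl hl1 hU
  have hz0 : 0 < z := by linarith only [hz]
  have hC := kK3 hz0 hs hsz hτ
  have h1s : 1 + s ≠ 0 := by positivity
  obtain ⟨W, hW⟩ : ∃ W : ℝ, W = u ^ 2 / (1 + u) := ⟨_, rfl⟩
  have hW0 : 0 ≤ W := by rw [hW]; (clear * - hu1; positivity)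
  have e3 : 2 * (m + 1) / ((m - 1) * s) * N = 2 * (m + 1) / (m - 1) * (N / s) := by
    rw [div_mul_div_comm, div_mul_eq_mul_div]
  have e : dpE m z s l u c N - dpT m z s l u G N = (m + 3) * z *
      (Real.exp (-(2 * l)) - 1 + 2 * l) - ((m + 3) * z * (Real.exp (-(2 * l)) - 1 + 2 * l) +
      (3 * (m - 3) * (z ^ 2 / s ^ 5) - 9 * (z / s ^ 3)) * l ^ 2 + dpS0 m z l +
      3 / 25 * (m + 3) * z * (m * (z / s ^ 2) - 3) * l ^ 2) - G -
      (4 / s - 4 * s / (1 + s) - 2 * s ^ 2 - 6 * (z / s ^ 3) * l + ksC z s l) * W -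
      (2 * (m + 1) / (m - 1) - 2 * c) * (N / s) +
      (2 * c / s - 2 * s ^ 2 + 2 * (1 - c)) * u +
      (2 * c / s - 2 + 2 * (1 - c) * (1 - m * (z / s ^ 2))) * l +
      6 / 25 * (m + 3) * z * (u * l) := by
    unfold dpT dpE
    rw [dpS_eq, e3, ← hW]
    ring
  have h1 : (m + 3) * z * (Real.exp (-(2 * l)) - 1 + 2 * l) ≤ fxq m s * l ^ 2 := by
    have h2 := fxr_psi (t := 2 * l) (by linarith only [hl])
    have h3 : 0 ≤ (m + 3) * z := by
      have : 0 ≤ m + 3 := by linarith only [hm]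
      positivity
    have h4 := mul_le_mul_of_nonneg_left h2 h3
    have h5 := mul_le_mul_of_nonneg_right (fxr_q2 hm hs hs1) (sq_nonneg l)
    rw [show 1 - s ^ 2 = z by linarith only [hsz]] at h5
    linarith only [h4, h5]
  have h2 := mul_nonneg hC hW0
  have h3 : -((2 * (m + 1) / (m - 1) - 2 * c) * ((u - Real.log (1 + u)) / s)) ≤
      (2 * (m + 1) / (m - 1) - 2 * c) * (N / s) := by
    have hκ : 2 ≤ 2 * (m + 1) / (m - 1) := by
      rw [le_div_iff₀ (by linarith only [hm])]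
      linarith only []
    have h4 : -((u - Real.log (1 + u)) / s) ≤ N / s := by
      rw [← neg_div, div_le_div_iff_of_pos_right hs]
      linarith only [hN]
    have h5 := mul_le_mul_of_nonneg_left h4 (by linarith only [hc2, hκ] : 0 ≤ 2 * (m + 1) / (m - 1) - 2 * c)
    linarith only [h5]
  rw [e]
  linarith only [hG, hA, h1, h2, h3]

theorem fxr_kc {m c : ℝ} (hm : 27 ≤ m) (hc1 : 1 - 1 / (2 * m) ≤ c) :
    2 * (m + 1) / (m - 1) - 2 * c ≤ 1 / 5 := by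
  have h1 : 2 * (m + 1) / (m - 1) ≤ 28 / 13 := by
    rw [div_le_iff₀ (by linarith only [hm])]
    linarith only [hm]
  have h2 : 1 / (2 * m) ≤ 1 / 54 := by
    apply one_div_le_one_div_of_le (by norm_num)
    linarith only [hm]
  linarith

theorem fxr_kc0 {m c : ℝ} (hm : 27 ≤ m) (hc2 : c ≤ 1) :
    0 ≤ 2 * (m + 1) / (m - 1) - 2 * c := by
  have hκ : 2 ≤ 2 * (m + 1) / (m - 1) := by
    rw [le_div_iff₀ (by linarith)]
    linarith only []
  linarith only [hc2, hκ]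

theorem fxr_is {s : ℝ} (hs : 0 < s) (hs1 : s ≤ 5 / 7) : 7 / 5 ≤ 1 / s := by
  rw [le_div_iff₀ hs]
  linarith

/-- bounds of `r = 2c/s - 2 + 2(1-c)(1-my)` -/
theorem fxr_rr {m s c y : ℝ} (hm : 27 ≤ m) (hs : 0 < s) (hs1 : s ≤ 5 / 7) (hy : 0 ≤ y)
    (hc1 : 1 - 1 / (2 * m) ≤ c) (hc2 : c ≤ 1) :
    -y ≤ 2 * c / s - 2 + 2 * (1 - c) * (1 - m * y) ∧
      2 * c / s - 2 + 2 * (1 - c) * (1 - m * y) ≤ 2 / s - 2 := by
  have hi := fxr_is hs hs1
  obtain ⟨i, hid⟩ : ∃ i : ℝ, i = 1 / s := ⟨_, rfl⟩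
  rw [← hid] at hi
  have e1 : 2 * c / s = 2 * c * i := by rw [hid]; ring
  have e2 : 2 / s = 2 * i := by rw [hid]; ring
  rw [e1, e2]
  have h2 : 1 / (2 * m) ≤ 1 / 54 := by
    apply one_div_le_one_div_of_le (by norm_num)
    linarith only [hm]
  have hc0 : 0 ≤ c := by linarith only [hc1, h2]
  have h3 : (1 - c) * (2 * m) ≤ 1 := by
    have h4 : 1 - c ≤ 1 / (2 * m) := by linarith only [hc1]
    rwa [le_div_iff₀ (by linarith only [hm])] at h4
  have h4 := mul_le_mul_of_nonneg_right h3 hy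
  have h5 : 0 ≤ (1 - c) * (i - 1) := mul_nonneg (by linarith only [hc2]) (by linarith only [hi])
  have h6 : 0 ≤ c * (i - 1) := mul_nonneg hc0 (by linarith only [hi])
  have h7 : 0 ≤ (1 - c) * (m * y) := mul_nonneg (by linarith only [hc2]) (mul_nonneg (by linarith only [hm]) hy)
  constructor
  · linarith only [h4, h6]
  · linarith only [h5, h7]

/-- bounds of the coefficient of `u` -/
theorem fxr_cu {m s c : ℝ} (hm : 27 ≤ m) (hs : 0 < s) (hs1 : s ≤ 5 / 7)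
    (hc1 : 1 - 1 / (2 * m) ≤ c) (hc2 : c ≤ 1) :
    0 ≤ 2 * c / s - 2 * s ^ 2 + 2 * (1 - c) ∧
      2 * c / s - 2 * s ^ 2 + 2 * (1 - c) ≤ 2 / s - 2 * s ^ 2 := by
  have hi := fxr_is hs hs1
  obtain ⟨i, hid⟩ : ∃ i : ℝ, i = 1 / s := ⟨_, rfl⟩
  rw [← hid] at hi
  have e1 : 2 * c / s = 2 * c * i := by rw [hid]; ring
  have e2 : 2 / s = 2 * i := by rw [hid]; ring
  rw [e1, e2]
  have h2 : 1 / (2 * m) ≤ 1 / 54 := by
    apply one_div_le_one_div_of_le (by norm_num)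
    linarith only [hm]
  have hc0 : 53 / 54 ≤ c := by linarith only [hc1, h2]
  have h5 : 0 ≤ (1 - c) * (i - 1) := mul_nonneg (by linarith only [hc2]) (by linarith only [hi])
  have h6 : 53 / 54 * (7 / 5) ≤ c * i := mul_le_mul hc0 hi (by norm_num) (by linarith only [hc1, h2])
  have hs2 : s ^ 2 ≤ 25 / 49 := by nlinarith only [hs1, hs]
  constructor
  · linarith only [hc2, h6, hs2]
  · linarith only [h5]

/-- `e` from below -/
theorem fxr_e_ge {m z s l u c N : ℝ} (hm : 27 ≤ m) (hz : 49 / 100 ≤ z) (hs : 0 < s)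
    (hsz : s ^ 2 = 1 - z) (hl : 0 < l) (hc1 : 1 - 1 / (2 * m) ≤ c) (hc2 : c ≤ 1)
    (hN : Real.log (1 + u) - u ≤ N) :
    4 * s ^ 2 * Real.exp (-(2 * l)) * (u ^ 2 / (1 + u)) + 2 * c / s * Real.log (1 + u) -
      2 * s ^ 2 * u + 2 * (1 - c) * u - z / s ^ 2 * l ≤ dpE m z s l u c N := by
  have hs1 := fxr_s_le hz hs hsz
  have hz0 : 0 < z := by linarith only [hz]
  have hy : 0 ≤ z / s ^ 2 := by (clear * - hz hs; positivity)
  have h2 : 1 / (2 * m) ≤ 1 / 54 := by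
    apply one_div_le_one_div_of_le (by norm_num)
    linarith only [hm]
  have hr := mul_le_mul_of_nonneg_right (fxr_rr hm hs hs1 hy hc1 hc2).1 hl.le
  have h3 : 0 ≤ 2 * c / s := div_nonneg (by linarith only [hc1, h2]) hs.le
  have h4 := mul_le_mul_of_nonneg_left hN h3
  have h5 : 0 ≤ (m + 3) * z * (Real.exp (-(2 * l)) - 1 + 2 * l) := by
    have h6 : 0 ≤ Real.exp (-(2 * l)) - 1 + 2 * l := by
      have := Real.add_one_le_exp (-(2 * l))
      linarith only [this]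
    have : 0 ≤ m + 3 := by linarith only [hm]
    (clear * - hm hz h6; positivity)
  unfold dpE
  linarith only [hr, h4, h5]

end Vale.Agent.P237.AllN
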