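import Vale.Agent.P237.AllN.FXrG

/-!
# P237, block D, `x ≥ 7/10`, `l > 0`: the region theorem
-/

namespace Vale.Agent.P237.AllN

open PolyPos

theorem fxr_cs {a b α β X Y : ℝ} (hα : 0 ≤ α) (hβ : 0 ≤ β) (hX : 0 ≤ X) (hY : 0 ≤ Y)
    (h1 : a ^ 2 ≤ α * X) (h2 : b ^ 2 ≤ β * Y) : (a + b) ^ 2 ≤ (α + β) * (X + Y) := by
  have h3 : 2 * (a * b) ≤ α * Y + β * X := by
    by_contra hlt
    push Not at hlt
    have h4 := pow_lt_pow_left₀ hlt (by positivity) two_ne_zero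
    have h5 : (2 * (a * b)) ^ 2 = 4 * (a ^ 2 * b ^ 2) := by ring
    have h6 : a ^ 2 * b ^ 2 ≤ α * X * (β * Y) :=
      mul_le_mul h1 h2 (sq_nonneg b) (by (clear * - hα hX; positivity))
    have h7 : 4 * (α * X * (β * Y)) ≤ (α * Y + β * X) ^ 2 := by
      nlinarith only [sq_nonneg (α * Y - β * X)]
    linarith only [h4, h6, h7]
  linarith

/-- `ρ s⁴` from below -/
theorem fxr_rhoS {m z s : ℝ} (hs : 0 < s) :
    ((2 * s ^ 4 + 135 * z * s ^ 2 + 675 * z ^ 2) / 10 +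
      (m - 27) * ((5 * z * s ^ 2 + 52 * z ^ 2) / 10)) ≤ dpR m (z / s ^ 2) * s ^ 4 := by
  have h := mul_le_mul_of_nonneg_right (fxr_rho (m := m) (y := z / s ^ 2))
    (by positivity : 0 ≤ s ^ 4)
  refine le_trans (le_of_eq ?_) h
  field_simp

theorem fxr_div {a b s : ℝ} (hs : 0 < s) (h : a * s ^ 4 ≤ b * s ^ 4) : a ≤ b :=
  le_of_mul_le_mul_right h (by positivity)

theorem fxr_l71 {s l : ℝ} (hs : 0 < s) (hs1 : s ≤ 5 / 7)
    (hU : l ≤ s ^ 2 * (1 / 2 + 79 / 200 * s ^ 2)) : l ≤ 71 / 100 * s ^ 2 := by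
  have h2 : s ^ 2 ≤ 25 / 49 := by nlinarith only [hs1, hs]
  have h3 : 0 ≤ s ^ 2 := sq_nonneg s
  nlinarith only [hU, h2]

/-- `A = 11/(5s) - 2s²` -/
noncomputable def fxA (s : ℝ) : ℝ := 11 / (5 * s) - 2 * s ^ 2

/-- `B = 2/s - 2 + (6/25)(m+3) z/s` -/
noncomputable def fxB (m z s : ℝ) : ℝ := 2 / s - 2 + 6 / 25 * (m + 3) * (z / s)

theorem fxA_nn {s : ℝ} (hs : 0 < s) (hs1 : s ≤ 5 / 7) : 0 ≤ fxA s := by
  have hi := fxr_is hs hs1
  have hs2 : s ^ 2 ≤ 25 / 49 := by nlinarith only [hs1, hs]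
  have : 11 / (5 * s) = 11 / 5 * (1 / s) := by
    (clear * - hs; field_simp)
  rw [fxA, this]
  (clear * - hs hs1 hi hs2; linarith)

theorem fxB_nn {m z s : ℝ} (hm : 27 ≤ m) (hz : 0 ≤ z) (hs : 0 < s) (hs1 : s ≤ 5 / 7) :
    0 ≤ fxB m z s := by
  have hi := fxr_is hs hs1
  have h1 : 2 / s = 2 * (1 / s) := by ring
  have h2 : 0 ≤ 6 / 25 * (m + 3) * (z / s) := by
    have : 0 ≤ m + 3 := by linarith only [hm]
    positivity
  rw [fxB, h1]
  linarith only [hi, h2]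

theorem fxr_rho1 {m z s : ℝ} (hm : 27 ≤ m) (hz : 0 ≤ z) (hs : 0 < s) :
    (2 * s ^ 4 + 135 * z * s ^ 2 + 675 * z ^ 2) / 10 ≤ dpR m (z / s ^ 2) * s ^ 4 := by
  have hρS := fxr_rhoS (m := m) (z := z) hs
  have hm27 : 0 ≤ m - 27 := by linarith only [hm]
  have : 0 ≤ (m - 27) * ((5 * z * s ^ 2 + 52 * z ^ 2) / 10) := by positivity
  linarith

theorem fxr_rho0 {m z s : ℝ} (hm : 27 ≤ m) (hz : 0 ≤ z) (hs : 0 < s) :
    0 < dpR m (z / s ^ 2) := by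
  have h1 : 0 < dpR m (z / s ^ 2) * s ^ 4 :=
    lt_of_lt_of_le (by positivity) (fxr_rho1 hm hz hs)
  exact pos_of_mul_pos_left h1 (by positivity)

/-- `e - T ≤ A u + B l` -/
theorem fxr_pP {m z s l u c : ℝ} (hm : 27 ≤ m) (hz : 0 < z) (hs : 0 < s) (hs1 : s ≤ 5 / 7)
    (hl : 0 < l) (hu : 0 ≤ u) (hus : u * s ≤ 1)
    (hc1 : 1 - 1 / (2 * m) ≤ c) (hc2 : c ≤ 1) :
    (2 * (m + 1) / (m - 1) - 2 * c) * ((u - Real.log (1 + u)) / s) +
      (2 * c / s - 2 * s ^ 2 + 2 * (1 - c)) * u +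
      (2 * c / s - 2 + 2 * (1 - c) * (1 - m * (z / s ^ 2))) * l +
      6 / 25 * (m + 3) * z * (u * l) ≤ fxA s * u + fxB m z s * l := by
  have hy : 0 ≤ z / s ^ 2 := by positivity
  have h1 := fxr_kc hm hc1
  have h2 := fxr_kc0 hm hc2
  have h3 : (u - Real.log (1 + u)) / s ≤ u / s := by
    apply div_le_div_of_nonneg_right _ hs.le
    have := Real.log_nonneg (by linarith only [hu] : (1 : ℝ) ≤ 1 + u)
    linarith only [this]
  have h4 : (2 * (m + 1) / (m - 1) - 2 * c) * ((u - Real.log (1 + u)) / s) ≤ 1 / 5 * (u / s) :=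
    mul_le_mul h1 h3 (div_nonneg (fxr_phi_nonneg (by linarith only [hu])) hs.le) (by norm_num)
  have h5 := mul_le_mul_of_nonneg_right (fxr_cu hm hs hs1 hc1 hc2).2 hu
  have h6 := mul_le_mul_of_nonneg_right (fxr_rr hm hs hs1 hy hc1 hc2).2 hl.le
  have h7 : 6 / 25 * (m + 3) * z * (u * l) ≤ 6 / 25 * (m + 3) * z * (1 / s * l) := by
    apply mul_le_mul_of_nonneg_left _ (by
      have : 0 ≤ m + 3 := by linarith only [hm]
      positivity)
    apply mul_le_mul_of_nonneg_right _ hl.le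
    rw [le_div_iff₀ hs]
    exact hus
  have e : fxA s * u + fxB m z s * l = 1 / 5 * (u / s) + (2 / s - 2 * s ^ 2) * u +
      (2 / s - 2) * l + 6 / 25 * (m + 3) * z * (1 / s * l) := by
    rw [fxA, fxB]
    field_simp
    ring
  rw [e]
  linarith only [h4, h5, h6, h7]

theorem fxr_pPr {m z s l u : ℝ} (hm : 27 ≤ m) (hz : 49 / 100 ≤ z) (hs : 0 < s)
    (hsz : s ^ 2 = 1 - z) (hl71 : l ≤ 71 / 100 * s ^ 2) (hus : u * s ≤ 1) :
    fxA s * u + fxB m z s * l ≤ 1 / 10 * dpR m (z / s ^ 2) := by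
  have hs1 := fxr_s_le hz hs hsz
  have hz' : z = 1 - s ^ 2 := by linarith only [hsz]
  have hz0 : 0 < z := by linarith only [hz]
  have hρS := fxr_rhoS (m := m) (z := z) hs
  have hm27 : 0 ≤ m - 27 := by linarith only [hm]
  have h1 : fxA s * u ≤ fxA s * (1 / s) := by
    apply mul_le_mul_of_nonneg_left _ (fxA_nn hs hs1)
    rw [le_div_iff₀ hs]
    exact hus
  have h2 : fxB m z s * l ≤ fxB m z s * (71 / 100 * s ^ 2) :=
    mul_le_mul_of_nonneg_left hl71 (fxB_nn hm hz0.le hs hs1)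
  refine (add_le_add h1 h2).trans (fxr_div hs ?_)
  have e : (fxA s * (1 / s) + fxB m z s * (71 / 100 * s ^ 2)) * s ^ 4 =
      (11 / 5 * s ^ 2 - 2 * s ^ 5 +
      71 / 100 * s ^ 4 * (2 * s - 2 * s ^ 2 + 36 / 5 * (z * s))) +
      (m - 27) * (426 / 2500 * (z * s ^ 5)) := by
    rw [fxA, fxB]
    field_simp
    ring
  rw [e]
  have h3 := fxr_tB hs.le hs1
  rw [← hz'] at h3
  have h4 : (m - 27) * (426 / 2500 * (z * s ^ 5)) ≤
      (m - 27) * ((5 * z * s ^ 2 + 52 * z ^ 2) / 100) := by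
    apply mul_le_mul_of_nonneg_left _ hm27
    have hs5 : s ^ 5 ≤ 3125 / 16807 := by
      have := pow_le_pow_left₀ hs.le hs1 5
      norm_num at this
      exact this
    have h5 := mul_le_mul_of_nonneg_left hs5 hz0.le
    have h6 : 0 ≤ z * s ^ 2 := by positivity
    have h7 : 49 / 100 * z ≤ z ^ 2 := by nlinarith only [hz]
    linarith only [h5, h6, h7, hz0]
  linarith only [h3, h4, hρS]

theorem fxr_pP2 {m z s l u : ℝ} (hm : 27 ≤ m) (hz : 49 / 100 ≤ z) (hs : 0 < s)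
    (hsz : s ^ 2 = 1 - z) (hu : 0 ≤ u) (hus : u * s ≤ 1) :
    (fxA s * u + fxB m z s * l) ^ 2 ≤ 4 / 5 * (dpR m (z / s ^ 2) *
      (fxq m s / 8 * l ^ 2 + 1 / 5 * (u ^ 2 / (1 + u) / s))) := by
  have hs1 := fxr_s_le hz hs hsz
  have hz' : z = 1 - s ^ 2 := by linarith only [hsz]
  have hz0 : 0 < z := by linarith only [hz]
  have hq30 := fxr_q30 hm hs hs1
  have hB := fxr_B1 hm hs hs1
  rw [← hz'] at hB
  have hq8 : 0 ≤ fxq m s / 8 * l ^ 2 := by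
    have : 0 < fxq m s := by linarith only [hq30]
    (clear * - hq30; positivity)
  have hWs : u ^ 2 / (5 * (1 + s)) ≤ 1 / 5 * (u ^ 2 / (1 + u) / s) := by
    rw [div_div, ← mul_div_assoc, one_div, inv_mul_eq_div, div_div]
    apply div_le_div_of_nonneg_left (sq_nonneg u) (by positivity)
    linarith only [hus]
  have h1 : (fxA s * u + fxB m z s * l) ^ 2 ≤ (5 * (1 + s) * fxA s ^ 2 + 8) *
      (u ^ 2 / (5 * (1 + s)) + fxq m s / 8 * l ^ 2) := by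
    apply fxr_cs (by positivity) (by norm_num) (by (clear * - hs; positivity)) hq8
    · refine le_of_eq ?_
      (clear * - hs; field_simp)
    · have := mul_le_mul_of_nonneg_right hB (sq_nonneg l)
      rw [mul_pow, fxB]
      linarith only [this]
  have h2 : 5 * (1 + s) * fxA s ^ 2 + 8 ≤ 4 / 5 * dpR m (z / s ^ 2) := by
    refine fxr_div hs ?_
    have e : (5 * (1 + s) * fxA s ^ 2 + 8) * s ^ 4 =
        5 * (1 + s) * s ^ 2 * (11 / 5 - 2 * s ^ 3) ^ 2 + 8 * s ^ 4 := by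
      rw [fxA]
      field_simp
    rw [e]
    have h3 := fxr_tA hs.le hs1
    have h4 := fxr_rho1 hm hz0.le hs
    rw [← hz'] at h3
    linarith only [h3, h4]
  have h3 : (5 * (1 + s) * fxA s ^ 2 + 8) *
      (u ^ 2 / (5 * (1 + s)) + fxq m s / 8 * l ^ 2) ≤ 4 / 5 * dpR m (z / s ^ 2) *
      (fxq m s / 8 * l ^ 2 + 1 / 5 * (u ^ 2 / (1 + u) / s)) := by
    apply mul_le_mul h2 (by linarith only [hWs]) (by (clear * - hs hq30; positivity))
    have := fxr_rho0 hm hz0.le hs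
    positivity
  linarith only [h1, h3]

theorem fxr_pE {m z s l u c N : ℝ} (hm : 27 ≤ m) (hz : 49 / 100 ≤ z) (hs : 0 < s)
    (hsz : s ^ 2 = 1 - z) (hl : 0 < l) (hu : 0 ≤ u) (hus : u * s ≤ 1)
    (hc1 : 1 - 1 / (2 * m) ≤ c) (hc2 : c ≤ 1) (hN : Real.log (1 + u) - u ≤ N) :
    -(z / s ^ 2 * l) ≤ dpE m z s l u c N := by
  have hs1 := fxr_s_le hz hs hsz
  have hs2 : s ^ 2 ≤ 25 / 49 := by linarith only [hz, hsz]
  refine le_trans ?_ (fxr_e_ge hm hz hs hsz hl hc1 hc2 hN)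
  have h1 : 0 ≤ 4 * s ^ 2 * Real.exp (-(2 * l)) * (u ^ 2 / (1 + u)) := by (clear * - hs hu; positivity)
  have h2 : 0 ≤ 2 * (1 - c) * u := mul_nonneg (by linarith only [hc2]) hu
  have h3 : 2 * s ^ 2 * u ≤ 2 * c / s * Real.log (1 + u) := by
    have h4 := Real.le_log_one_add_of_nonneg hu
    have h5 : 1 / (2 * m) ≤ 1 / 54 := by
      apply one_div_le_one_div_of_le (by norm_num)
      linarith only [hm]
    have h6 : 53 / 54 ≤ c := by linarith only [hc1, h5]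
    have h7 : 53 / 27 / s * (2 * u / (u + 2)) ≤ 2 * c / s * Real.log (1 + u) := by
      apply mul_le_mul _ h4 (by (clear * - hu; positivity)) (by
        have : 0 ≤ c := by linarith only [hc1, h5]
        positivity)
      apply div_le_div_of_nonneg_right _ hs.le
      linarith only [hc1, h5]
    refine le_trans ?_ h7
    rw [div_mul_div_comm, le_div_iff₀ (by positivity)]
    have h8 : s ^ 2 * s * (u + 2) ≤ 25 / 49 * (1 + 10 / 7) := by
      have h9 : s * (u + 2) ≤ 1 + 10 / 7 := by linarith only [hus, hs1]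
      have : s ^ 2 * s * (u + 2) = s ^ 2 * (s * (u + 2)) := by ring
      rw [this]
      exact mul_le_mul hs2 h9 (by positivity) (by norm_num)
    have h10 := mul_le_mul_of_nonneg_left h8 hu
    linarith only [h10, hu]
  linarith only [h1, h2, h3]

theorem fxr_yl {m z s l : ℝ} (hm : 27 ≤ m) (hz : 0 ≤ z) (hs : 0 < s) (hs1 : s ≤ 5 / 7)
    (hl71 : l ≤ 71 / 100 * s ^ 2) :
    z / s ^ 2 * l ≤ 1 / 10 * dpR m (z / s ^ 2) := by
  refine fxr_div hs ?_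
  have hρ1 := fxr_rho1 hm hz hs
  have hs2 : s ^ 2 ≤ 25 / 49 := by nlinarith only [hs1, hs]
  have h1 : z / s ^ 2 * l * s ^ 4 = z * s ^ 2 * l := by
    (clear * - hs; field_simp)
  rw [h1]
  have h2 : z * s ^ 2 * l ≤ z * s ^ 2 * (71 / 100 * s ^ 2) :=
    mul_le_mul_of_nonneg_left hl71 (by positivity)
  have h3 : z * s ^ 2 * (71 / 100 * s ^ 2) ≤ 135 * z * s ^ 2 / 100 := by
    have h4 : 0 ≤ z * s ^ 2 := by positivity
    have h5 := mul_le_mul_of_nonneg_left hs2 h4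
    linarith only [h4, h5]
  have : 0 ≤ 2 * s ^ 4 + 675 * z ^ 2 := by positivity
  linarith only [this, h2, h3, hρ1]

theorem fxr_yl2 {m z s l w : ℝ} (hm : 27 ≤ m) (hz : 0 ≤ z) (hs : 0 < s) (hs1 : s ≤ 5 / 7)
    (hw : 0 ≤ w) :
    (z / s ^ 2 * l) ^ 2 ≤ 4 / 5 * (dpR m (z / s ^ 2) * (fxq m s / 8 * l ^ 2 + w)) := by
  have hρ1 := fxr_rho1 hm hz hs
  have hρ0 := fxr_rho0 hm hz hs
  have hq30 := fxr_q30 hm hs hs1
  have h1 : 675 / 10 * (z / s ^ 2) ^ 2 ≤ dpR m (z / s ^ 2) := by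
    refine fxr_div hs ?_
    have e : 675 / 10 * (z / s ^ 2) ^ 2 * s ^ 4 = 675 / 10 * z ^ 2 := by
      field_simp
    rw [e]
    have : 0 ≤ 2 * s ^ 4 + 135 * z * s ^ 2 := by (clear * - hs hz; positivity)
    linarith only [this, hρ1]
  have h2 : 30 / 8 * l ^ 2 ≤ fxq m s / 8 * l ^ 2 + w := by
    have h3 : 30 / 8 * l ^ 2 ≤ fxq m s / 8 * l ^ 2 :=
      mul_le_mul_of_nonneg_right (by linarith only [hq30]) (sq_nonneg l)
    linarith only [h3, hw]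
  have h3 := mul_le_mul h1 h2 (by (clear * -; positivity)) hρ0.le
  have h4 : 0 ≤ (z / s ^ 2) ^ 2 * l ^ 2 := by (clear * -; positivity)
  rw [mul_pow]
  linarith only [h3, h4]

/-- `u ≥ 0` -/
theorem fxr_pos {m z s l u c G N x : ℝ} (hm : 27 ≤ m) (hz : 49 / 100 ≤ z) (hs : 0 < s)
    (hsz : s ^ 2 = 1 - z) (hl : 0 < l) (hl1 : l ≤ 2 / 5)
    (hU : l ≤ s ^ 2 * (1 / 2 + 79 / 200 * s ^ 2)) (hτ : z * Real.exp (2 * l) ≤ 1)
    (hu : 0 ≤ u) (hus : u * s ≤ 1) (hx : 0 < x) (hxz : x ^ 2 = z)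
    (htail : (1 + u) * (x * Real.exp l) ≤ (1 - x * Real.exp l) * ((m + 2) * (z / s ^ 2) + 1))
    (hc1 : 1 - 1 / (2 * m) ≤ c) (hc2 : c ≤ 1)
    (hN : Real.log (1 + u) - u ≤ N) (hG : -(5 * (z / s ^ 3) * l ^ 2) ≤ G) :
    JTest (dpT m z s l u G N) (dpE m z s l u c N) (dpR m (z / s ^ 2)) u := by
  have hs1 := fxr_s_le hz hs hsz
  have hz0 : 0 < z := by linarith only [hz]
  have hT := fxr_Tpos hm hz hs hsz hl hl1 hU hu hus hx hxz htail hN hG
  have heT := fxr_eT (c := c) hm hz hs hsz hl hl1 hU hτ (by linarith only [hu]) hc2 hN hG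
  have hl71 := fxr_l71 hs hs1 hU
  have hW0 : 0 ≤ u ^ 2 / (1 + u) := by (clear * - hu; positivity)
  have hWs0 : 0 ≤ 1 / 5 * (u ^ 2 / (1 + u) / s) := by (clear * - hu hs; positivity)
  have hq8 : 0 < fxq m s / 8 * l ^ 2 := by
    have : 0 < fxq m s := fxr_q_pos hm hs hs1
    positivity
  have hT0 : 0 < fxq m s / 8 * l ^ 2 + 1 / 5 * (u ^ 2 / (1 + u) / s) := by
    linarith only [hWs0, hq8]
  have hA0 := fxA_nn hs hs1
  have hB0 := fxB_nn hm hz0.le hs hs1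
  exact JTest.of_theta (T0 := fxq m s / 8 * l ^ 2 + 1 / 5 * (u ^ 2 / (1 + u) / s))
    (P := fxA s * u + fxB m z s * l) (E := z / s ^ 2 * l) (θ := 1 / 10) (θ1 := 4 / 5) hT hT0.le
    (fun _ => hT0) (fxr_rho0 hm hz0.le hs) (by norm_num) (by norm_num)
    (heT.trans (fxr_pP hm hz0 hs hs1 hl hu hus hc1 hc2)) (by (clear * - hA0 hu hB0 hl; positivity))
    (fxr_pPr hm hz hs hsz hl71 hus) (fxr_pP2 hm hz hs hsz hu hus)
    (fxr_pE hm hz hs hsz hl hu hus hc1 hc2 hN) (by positivity)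
    (fxr_yl hm hz0.le hs hs1 hl71) (fxr_yl2 hm hz0.le hs hs1 hWs0)

end Vale.Agent.P237.AllN
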