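import Vale.Agent.P237.AllN.FXuK
import Vale.Agent.P237.AllN.FKs4
import Vale.Agent.P237.AllN.FTest
import Vale.Agent.P237.AllN.FPuE

/-!
# P237, block D, region `X ≥ 3`, `u ≥ 0`, `z ≤ 1/5`: real-variable form of the checked inequalities
-/

namespace Vale.Agent.P237.AllN

open PolyPos

namespace FXu

/-- coefficient of `λ²` -/
noncomputable def c2r (z r : ℝ) : ℝ :=
  3 / 100 * (1 + 3 * z * r) * (1 + z + z ^ 2 - 3 * r) - 88 * z ^ 6 * r ^ 2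

/-- coefficient of `λ` -/
noncomputable def c1r (z r : ℝ) : ℝ :=
  r * (1 + 3 * z * r) + z * r ^ 2 / 4 + 3 / 4 * z * (2 * r + r ^ 2 * (10 * z - 3)) +
  5 / 8 * z ^ 2 * (3 * r + r ^ 2 * (21 * z - 10)) + 35 / 64 * z ^ 3 * (4 * r + r ^ 2 * (36 * z - 21)) +
  63 / 128 * z ^ 4 * (5 * r + r ^ 2 * (55 * z - 36)) +
  231 / 512 * z ^ 5 * (6 * r + r ^ 2 * (78 * z - 55))

/-- constant coefficient (`q = r / E`) -/
noncomputable def c0r (t E z r q : ℝ) : ℝ :=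
  r * (1 + 3 * z * r) * (E - 1) - r ^ 2 * (t - z) * (1 + 91 / 100 * z) +
  3 / 4 * (r * (z * (3 * E ^ 2 - 2) / 4) - q * t / 4 + r ^ 2 * (5 * (z * (z * (3 * E ^ 2 - 2) / 4) - t ^ 2 / 4) -
    3 / 2 * z * (E ^ 2 - 1))) +
  5 / 8 * (r * (z ^ 2 * (5 * E ^ 3 - 4) / 6) - q * t ^ 2 / 6 + r ^ 2 * (7 * (z * (z ^ 2 * (5 * E ^ 3 - 4) / 6) -
    t ^ 3 / 6) - 10 / 3 * z ^ 2 * (E ^ 3 - 1))) +
  35 / 64 * (r * (z ^ 3 * (7 * E ^ 4 - 6) / 8) - q * t ^ 3 / 8 + r ^ 2 * (9 * (z * (z ^ 3 * (7 * E ^ 4 - 6) / 8) -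
    t ^ 4 / 8) - 21 / 4 * z ^ 3 * (E ^ 4 - 1))) +
  63 / 128 * (r * (z ^ 4 * (9 * E ^ 5 - 8) / 10) - q * t ^ 4 / 10 + r ^ 2 * (11 * (z * (z ^ 4 * (9 * E ^ 5 - 8) / 10) -
    t ^ 5 / 10) - 36 / 5 * z ^ 4 * (E ^ 5 - 1))) +
  231 / 512 * (r * (z ^ 5 * (11 * E ^ 6 - 10) / 12) - q * t ^ 5 / 12 + r ^ 2 * (13 * (z * (z ^ 5 * (11 * E ^ 6 - 10) / 12) -
    t ^ 6 / 12) - 55 / 6 * z ^ 5 * (E ^ 6 - 1)))

theorem C2_R (t E Z : ℝ) : C2.R t E Z = c2r (t * E) (10 / 33 * Z * E) := by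
  simp only [C2, z1, rr, qq, z2, z6, z3, Ex3.R_sub, Ex3.R_mul, Ex3.R_c, Fr.R, Ex3.R_add, Ex3.R_X, Ex3.R_Y, Ex3.R_Z, c2r]
  push_cast
  ring

theorem C1_R (t E Z : ℝ) : C1.R t E Z = c1r (t * E) (10 / 33 * Z * E) := by
  simp only [C1, c1r, R13, rr, qq, z1, z2, z3, z4, z5, Ex3.R_add, Ex3.R_sub, Ex3.R_mul, Ex3.R_c,
    Ex3.R_X, Ex3.R_Y, Ex3.R_Z, Fr.R]
  push_cast
  ring

theorem C0_R (t E Z : ℝ) :
    C0.R t E Z = c0r t E (t * E) (10 / 33 * Z * E) (10 / 33 * Z) := by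
  simp only [C0, c0r, R13, rr, qq, z1, z2, z3, z4, z5, t2, t3, t4, t5, t6, E2, E3, E4, E5, E6,
    br2, br3, br4, br5, br6, Ex3.R_add, Ex3.R_sub, Ex3.R_mul, Ex3.R_c,
    Ex3.R_X, Ex3.R_Y, Ex3.R_Z, Fr.R]
  push_cast
  ring


/-- `w² c2r` -/
noncomputable def W2 (z w : ℝ) : ℝ :=
  3 / 100 * (w + 3 * z) * (w * (1 + z + z ^ 2) - 3) - 88 * z ^ 6

/-- `w² c1r` -/
noncomputable def W1 (z w : ℝ) : ℝ :=
  (w + 3 * z) + z / 4 + 3 / 4 * z * (2 * w + (10 * z - 3)) +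
  5 / 8 * z ^ 2 * (3 * w + (21 * z - 10)) + 35 / 64 * z ^ 3 * (4 * w + (36 * z - 21)) +
  63 / 128 * z ^ 4 * (5 * w + (55 * z - 36)) +
  231 / 512 * z ^ 5 * (6 * w + (78 * z - 55))

/-- `w² c0r` for `t = z B`, `q = r B` -/
noncomputable def W0 (z w E B : ℝ) : ℝ :=
  (w + 3 * z) * (E - 1) - (z * B - z) * (1 + 91 / 100 * z) +
  3 / 4 * (w * (z * (3 * E ^ 2 - 2) / 4) - w * B * (z * B) / 4 + (5 * (z * (z * (3 * E ^ 2 - 2) / 4) - (z * B) ^ 2 / 4) -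
    3 / 2 * z * (E ^ 2 - 1))) +
  5 / 8 * (w * (z ^ 2 * (5 * E ^ 3 - 4) / 6) - w * B * (z * B) ^ 2 / 6 + (7 * (z * (z ^ 2 * (5 * E ^ 3 - 4) / 6) -
    (z * B) ^ 3 / 6) - 10 / 3 * z ^ 2 * (E ^ 3 - 1))) +
  35 / 64 * (w * (z ^ 3 * (7 * E ^ 4 - 6) / 8) - w * B * (z * B) ^ 3 / 8 + (9 * (z * (z ^ 3 * (7 * E ^ 4 - 6) / 8) -
    (z * B) ^ 4 / 8) - 21 / 4 * z ^ 3 * (E ^ 4 - 1))) +
  63 / 128 * (w * (z ^ 4 * (9 * E ^ 5 - 8) / 10) - w * B * (z * B) ^ 4 / 10 + (11 * (z * (z ^ 4 * (9 * E ^ 5 - 8) / 10) -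
    (z * B) ^ 5 / 10) - 36 / 5 * z ^ 4 * (E ^ 5 - 1))) +
  231 / 512 * (w * (z ^ 5 * (11 * E ^ 6 - 10) / 12) - w * B * (z * B) ^ 5 / 12 + (13 * (z * (z ^ 5 * (11 * E ^ 6 - 10) / 12) -
    (z * B) ^ 6 / 12) - 55 / 6 * z ^ 5 * (E ^ 6 - 1)))

theorem W2_eq {z w r : ℝ} (hr : r * w = 1) : w ^ 2 * c2r z r = W2 z w := by
  have e1 : w ^ 2 * r = w := by linear_combination w * hr
  have e2 : w ^ 2 * r ^ 2 = 1 := by linear_combination (r * w + 1) * hr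
  simp only [c2r, W2]
  linear_combination (3 / 100 * (3 * z * (1 + z + z ^ 2) - 3)) * e1 +
    (-(27 / 100) * z - 88 * z ^ 6) * e2

theorem W1_eq {z w r : ℝ} (hr : r * w = 1) : w ^ 2 * c1r z r = W1 z w := by
  have hw : w ≠ 0 := by rintro rfl; simp only [mul_zero, zero_ne_one] at hr
  have hr' : r = 1 / w := by field_simp; exact hr
  subst hr'
  simp only [c1r, W1]
  (clear * - hw; field_simp)

theorem W0_eq {z w r E B : ℝ} (hr : r * w = 1) :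
    w ^ 2 * c0r (z * B) E z r (r * B) = W0 z w E B := by
  have hw : w ≠ 0 := by rintro rfl; simp at hr
  have hr' : r = 1 / w := by field_simp; exact hr
  subst hr'
  simp only [c0r, W0]
  field_simp

/-- `1 + 5/2 z + 35/8 z² + 105/16 z³ + 1155/128 z⁴` -/
def T5E : Ex := Ex.c ⟨1, 0⟩ + Ex.c ⟨5, 1⟩ * Ex.X + Ex.c ⟨35, 7⟩ * (Ex.X * Ex.X) +
  Ex.c ⟨105, 15⟩ * (Ex.X * Ex.X * Ex.X) + Ex.c ⟨1155, 127⟩ * (Ex.X * Ex.X * (Ex.X * Ex.X))
def omE : Ex := Ex.c ⟨1, 0⟩ - Ex.X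
def s5E : Ex := Ex.c ⟨1, 0⟩ - omE * omE * omE * omE * omE * (T5E * T5E)

theorem chk_s5 : Ex.nn (2 ^ 1024) 40 4000 0 1 5 0 1 1 s5E = true := by (clear * -; decide +kernel)

/-- Taylor polynomial of `(1-z)^{-5/2}` -/
theorem inv_s5 {z s : ℝ} (hz : 0 < z) (hz5 : z ≤ 1 / 5) (hs : 0 < s) (hsz : s ^ 2 = 1 - z) :
    1 + 5 / 2 * z + 35 / 8 * z ^ 2 + 105 / 16 * z ^ 3 + 1155 / 128 * z ^ 4 ≤ 1 / s ^ 5 := by
  have h := Ex.nn_closed (x := z) (y := 0) (by norm_num) (by norm_num) (by norm_num) (by norm_num)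
    chk_s5 (by push_cast; linarith only [hz]) (by push_cast; linarith only [hz5]) (by push_cast; linarith only [])
    (by push_cast; linarith only [])
  simp only [s5E, omE, T5E, Ex.R_add, Ex.R_sub, Ex.R_mul, Ex.R_c, Ex.R_X, Fr.R] at h
  push_cast at h
  set T := 1 + 5 / 2 * z + 35 / 8 * z ^ 2 + 105 / 16 * z ^ 3 + 1155 / 128 * z ^ 4 with hT
  have hT0 : 0 ≤ T := by positivity
  rw [le_div_iff₀ (by positivity)]
  have h1 : (T * s ^ 5) ^ 2 ≤ 1 ^ 2 := by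
    have e : (T * s ^ 5) ^ 2 = T ^ 2 * (s ^ 2) ^ 5 := by ring
    rw [e, hsz, hT]
    linarith
  exact le_of_sq_le_sq h1 (by norm_num)

/-- identity for the kernel part -/
theorem dpS0_W {m z l w : ℝ} (hw : w = m * z) :
    W2 z w * (2 * l) ^ 2 + W1 z w * (2 * l) + W0 z w (Real.exp (-(2 * l))) (Real.exp (2 * l)) =
      (m + 3) * z * (Real.exp (-(2 * l)) - 1 + 2 * l) +
      3 * z * (w - 3) * (1 + 5 / 2 * z + 35 / 8 * z ^ 2 + 105 / 16 * z ^ 3 + 1155 / 128 * z ^ 4) * l ^ 2 +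
      dpS0 m z l + 3 / 25 * (w + 3 * z) * (w * (1 + z + z ^ 2) - 3) * l ^ 2 -
      (z * Real.exp (2 * l) - z) * (1 + 91 / 100 * z) + z * l / 2 -
      (352 - 39 * (1155 / 128)) * z ^ 6 * l ^ 2 := by
  have e2 : Real.exp (-(4 * l)) = Real.exp (-(2 * l)) ^ 2 := by
    rw [← Real.exp_nat_mul]; congr 1; push_cast; ring
  have e3 : Real.exp (-(6 * l)) = Real.exp (-(2 * l)) ^ 3 := by
    rw [← Real.exp_nat_mul]; congr 1; push_cast; ring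
  have e4 : Real.exp (-(8 * l)) = Real.exp (-(2 * l)) ^ 4 := by
    rw [← Real.exp_nat_mul]; congr 1; push_cast; ring
  have e5 : Real.exp (-(10 * l)) = Real.exp (-(2 * l)) ^ 5 := by
    rw [← Real.exp_nat_mul]; congr 1; push_cast; ring
  have e6 : Real.exp (-(12 * l)) = Real.exp (-(2 * l)) ^ 6 := by
    rw [← Real.exp_nat_mul]; congr 1; push_cast; ring
  have f2 : Real.exp (4 * l) = Real.exp (2 * l) ^ 2 := by
    rw [← Real.exp_nat_mul]; congr 1; push_cast; ring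
  have f3 : Real.exp (6 * l) = Real.exp (2 * l) ^ 3 := by
    rw [← Real.exp_nat_mul]; congr 1; push_cast; ring
  have f4 : Real.exp (8 * l) = Real.exp (2 * l) ^ 4 := by
    rw [← Real.exp_nat_mul]; congr 1; push_cast; ring
  have f5 : Real.exp (10 * l) = Real.exp (2 * l) ^ 5 := by
    rw [← Real.exp_nat_mul]; congr 1; push_cast; ring
  have f6 : Real.exp (12 * l) = Real.exp (2 * l) ^ 6 := by
    rw [← Real.exp_nat_mul]; congr 1; push_cast; ring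
  simp only [dpS0, kpt, kct, e2, e3, e4, e5, e6, f2, f3, f4, f5, f6]
  generalize Real.exp (-(2 * l)) = E
  generalize Real.exp (2 * l) = B
  subst hw
  simp only [W2, W1, W0]
  ring

/-- the `(l, 0)`-part of `T` -/
noncomputable def Apart (m z s l G : ℝ) : ℝ :=
  (m + 3) * z * (Real.exp (-(2 * l)) - 1 + 2 * l) +
  (3 * (m - 3) * (z ^ 2 / s ^ 5) - 9 * (z / s ^ 3)) * l ^ 2 + dpS0 m z l + G +
  3 / 25 * (m + 3) * z * (m * (z / s ^ 2) - 3) * l ^ 2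

theorem A_aux {m z s l : ℝ} (hz : 0 < z) (hz5 : z ≤ 1 / 5) (hs : 0 < s) (hsz : s ^ 2 = 1 - z)
    (hw : 9 ≤ m * z) :
    3 * z * (m * z - 3) * (1 + 5 / 2 * z + 35 / 8 * z ^ 2 + 105 / 16 * z ^ 3 + 1155 / 128 * z ^ 4) *
      l ^ 2 + 3 / 25 * (m * z + 3 * z) * (m * z * (1 + z + z ^ 2) - 3) * l ^ 2 ≤
    (3 * (m - 3) * (z ^ 2 / s ^ 5) - 9 * (z / s ^ 3)) * l ^ 2 +
      3 / 25 * (m + 3) * z * (m * (z / s ^ 2) - 3) * l ^ 2 := by
  have h1 := inv_s5 hz hz5 hs hsz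
  have e1 : 3 * (m - 3) * (z ^ 2 / s ^ 5) - 9 * (z / s ^ 3) = 3 * z * (m * z - 3) * (1 / s ^ 5) := by
    field_simp
    rw [hsz]
    ring
  have h2 : 1 + z + z ^ 2 ≤ 1 / s ^ 2 := by
    rw [le_div_iff₀ (by positivity), hsz]
    nlinarith only [hz]
  have e2 : m * (z / s ^ 2) = m * z * (1 / s ^ 2) := by ring
  rw [e1, e2]
  have h3 : 3 * z * (m * z - 3) * (1 + 5 / 2 * z + 35 / 8 * z ^ 2 + 105 / 16 * z ^ 3 +
      1155 / 128 * z ^ 4) * l ^ 2 ≤ 3 * z * (m * z - 3) * (1 / s ^ 5) * l ^ 2 := by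
    apply mul_le_mul_of_nonneg_right _ (sq_nonneg l)
    exact mul_le_mul_of_nonneg_left h1 (mul_nonneg (by positivity) (by linarith only [hw]))
  have h4 : 3 / 25 * (m * z + 3 * z) * (m * z * (1 + z + z ^ 2) - 3) * l ^ 2 ≤
      3 / 25 * (m + 3) * z * (m * z * (1 / s ^ 2) - 3) * l ^ 2 := by
    apply mul_le_mul_of_nonneg_right _ (sq_nonneg l)
    have e3 : 3 / 25 * (m + 3) * z = 3 / 25 * (m * z + 3 * z) := by ring
    rw [e3]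
    apply mul_le_mul_of_nonneg_left _ (by positivity)
    have := mul_le_mul_of_nonneg_left h2 (by linarith only [hw] : 0 ≤ m * z)
    linarith only [this]
  linarith only [h3, h4]

/-- lower bound of the `(l, 0)`-part of `T` for all `l` -/
theorem A_ge {m z s l G r : ℝ} (hz : 0 < z) (hz5 : z ≤ 1 / 5) (hs : 0 < s) (hsz : s ^ 2 = 1 - z)
    (hw : 9 ≤ m * z) (hr : r * (m * z) = 1) (hl : 0 ≤ l)
    (hG : -(2 * (z * Real.exp (2 * l) - z) / (s * (1 + s))) + 2 * z * l / (s * (1 + s) ^ 2) ≤ G) :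
    (m * z) ^ 2 * (c2r z r * (2 * l) ^ 2 + c1r z r * (2 * l) +
      c0r (z * Real.exp (2 * l)) (Real.exp (-(2 * l))) z r (r * Real.exp (2 * l))) ≤
      Apart m z s l G := by
  have e0 : (m * z) ^ 2 * (c2r z r * (2 * l) ^ 2 + c1r z r * (2 * l) +
      c0r (z * Real.exp (2 * l)) (Real.exp (-(2 * l))) z r (r * Real.exp (2 * l))) =
      W2 z (m * z) * (2 * l) ^ 2 + W1 z (m * z) * (2 * l) +
        W0 z (m * z) (Real.exp (-(2 * l))) (Real.exp (2 * l)) := by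
    rw [← W2_eq hr, ← W1_eq hr, ← W0_eq hr]
    ring
  rw [e0, dpS0_W rfl]
  have hs1 : s ≤ 1 := by nlinarith only [hsz, hz]
  have hs2 : 89 / 100 ≤ s := by nlinarith only [hz5, hsz, hs]
  have h1 := A_aux (l := l) hz hz5 hs hsz hw
  have hB : 1 ≤ Real.exp (2 * l) := Real.one_le_exp (by linarith only [hl])
  have h2 : 2 * (z * Real.exp (2 * l) - z) / (s * (1 + s)) ≤
      (z * Real.exp (2 * l) - z) * (1 + 91 / 100 * z) := by
    have h3 : 2 / (s * (1 + s)) ≤ 1 + 91 / 100 * z := by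
      rw [div_le_iff₀ (by positivity)]
      have hz' : z = 1 - s ^ 2 := by linarith only [hsz]
      rw [hz']
      nlinarith only [hz, hsz, hs2, mul_nonneg (mul_nonneg (sub_nonneg.2 hs2) (sub_nonneg.2 hs1)) (sq_nonneg s)]
    have h4 : 0 ≤ z * Real.exp (2 * l) - z := by nlinarith only [hz, hB]
    have := mul_le_mul_of_nonneg_left h3 h4
    calc 2 * (z * Real.exp (2 * l) - z) / (s * (1 + s)) =
        (z * Real.exp (2 * l) - z) * (2 / (s * (1 + s))) := by ring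
      _ ≤ _ := this
  have h5 : z * l / 2 ≤ 2 * z * l / (s * (1 + s) ^ 2) := by
    rw [le_div_iff₀ (by positivity)]
    have h6 : s * (1 + s) ^ 2 ≤ 4 := by nlinarith only [hz, hsz]
    nlinarith only [mul_le_mul_of_nonneg_left h6 (by positivity : 0 ≤ z * l)]
  have h7 : 0 ≤ (352 - 39 * (1155 / 128)) * z ^ 6 * l ^ 2 := by (clear * - hz; positivity)
  simp only [Apart]
  linarith

end FXu

end Vale.Agent.P237.AllN
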