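import Vale.Agent.P237.AllN.FXuA
import Vale.Agent.P237.AllN.FXnVa

/-!
# P237, block D, region `X ≥ 3`, `u ≥ 0`, `z ≤ 1/5`: reduction of `T`, `e` and the part `l ≥ 1/2`
-/

namespace Vale.Agent.P237.AllN

open PolyPos

namespace FXu

theorem T_eq (m z s l u G N : ℝ) : dpT m z s l u G N = Apart m z s l G +
      4 * s ^ 2 * Real.exp (-(2 * l)) * (u ^ 2 / (1 + u)) - 6 / 25 * ((m + 3) * z) * (u * l) +
      (4 / s - 4 * s / (1 + s) - 2 * s ^ 2 - 6 * (z / s ^ 3) * l + ksC z s l) * (u ^ 2 / (1 + u)) +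
      2 * (m + 1) / ((m - 1) * s) * N := by
  simp only [dpT, Apart, dpS_eq]
  ring

theorem e_eq {m z s : ℝ} (hsz : s ^ 2 = 1 - z) (l u c N : ℝ) :
    dpE m z s l u c N = (m + 3) * z * (Real.exp (-(2 * l)) - 1 + 2 * l) +
        4 * s ^ 2 * Real.exp (-(2 * l)) * (u ^ 2 / (1 + u)) + 2 * c * (1 / s) * N +
        (2 * z + 2 * c * (1 / s - 1)) * u +
        (2 * c * (1 / s - 1) - 2 * ((1 - c) * m) * (z / s ^ 2)) * l := by
  simp only [dpE]
  rw [show 2 * c / s - 2 * s ^ 2 + 2 * (1 - c) = 2 * z + 2 * c * (1 / s - 1) by rw [hsz]; ring]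
  ring

theorem kappa {m s : ℝ} (hm : 45 ≤ m) (hs : 0 < s) :
    2 / s ≤ 2 * (m + 1) / ((m - 1) * s) ∧ 2 * (m + 1) / ((m - 1) * s) ≤ 23 / 11 / s := by
  have hm1 : 0 < m - 1 := by linarith only [hm]
  constructor
  · rw [div_le_div_iff₀ hs (by positivity)]
    linarith
  · rw [div_div, div_le_div_iff₀ (by positivity) (by positivity)]
    nlinarith only [hm, hs]

theorem c_facts {m c : ℝ} (hm : 45 ≤ m) (hc1 : 1 - 1 / (2 * m) ≤ c) :
    89 / 90 ≤ c ∧ (1 - c) * m ≤ 1 / 2 := by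
  have hm0 : 0 < m := by linarith only [hm]
  constructor
  · have : 1 / (2 * m) ≤ 1 / 90 := by
      apply one_div_le_one_div_of_le (by norm_num); linarith only [hm]
    linarith only [hc1, this]
  · have h1 : 1 - c ≤ 1 / (2 * m) := by linarith
    have h2 := mul_le_mul_of_nonneg_right h1 hm0.le
    have h3 : 1 / (2 * m) * m = 1 / 2 := by field_simp
    linarith only [h2, h3]

theorem kappa2 {m s c : ℝ} (hm : 45 ≤ m) (hs : 0 < s) (hc1 : 1 - 1 / (2 * m) ≤ c) :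
    2 * (m + 1) / ((m - 1) * s) ≤ (2 * c + 1 / 8) * (1 / s) := by
  have h := (kappa hm hs).2
  obtain ⟨h1, -⟩ := c_facts hm hc1
  refine h.trans ?_
  have e : 23 / 11 / s = 23 / 11 * (1 / s) := by ring
  rw [e]
  have hs' : 0 < 1 / s := by positivity
  exact mul_le_mul_of_nonneg_right (by linarith only [h1]) hs'.le

theorem W_nn {u : ℝ} (hu : 0 ≤ u) : 0 ≤ u ^ 2 / (1 + u) := by (clear * - hu; positivity)

theorem log_le {u : ℝ} (hu : 0 ≤ u) : Real.log (1 + u) ≤ u := by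
  have := Real.log_le_sub_one_of_pos (by linarith : 0 < 1 + u)
  linarith only [this]

/-- `T ≥ ..` from a lower bound of the `(l,0)`-part -/
theorem red_T {m z s l u G N A0 φ : ℝ} (hm : 45 ≤ m) (hz : 0 < z) (hs : 0 < s)
    (hsz : s ^ 2 = 1 - z) (hT : z * Real.exp (2 * l) ≤ 1) (hu : 0 ≤ u)
    (hN : Real.log (1 + u) - u ≤ N)
    (hφ : u - Real.log (1 + u) ≤ φ) (hA : A0 ≤ Apart m z s l G) :
    A0 + 4 * s ^ 2 * Real.exp (-(2 * l)) * (u ^ 2 / (1 + u)) - 6 / 25 * ((m + 3) * z) * (u * l) -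
        23 / 11 / s * φ ≤ dpT m z s l u G N := by
  have hKW := mul_nonneg (kK3 hz hs hsz hT) (W_nn hu)
  rw [T_eq]
  have h1 : 2 * (m + 1) / ((m - 1) * s) * (-φ) ≤ 2 * (m + 1) / ((m - 1) * s) * N := by
    apply mul_le_mul_of_nonneg_left (by linarith only [hN, hφ])
    have := (kappa hm hs).1
    have h2 : 0 ≤ 2 / s := by positivity
    linarith only [this, h2]
  have h2 : 2 * (m + 1) / ((m - 1) * s) * φ ≤ 23 / 11 / s * φ := by
    apply mul_le_mul_of_nonneg_right (kappa hm hs).2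
    have := log_le hu
    linarith only [hφ, this]
  linarith only [hA, hKW, h1, h2]

/-- `e - T ≤ ..` from a lower bound of the `(l,0)`-part -/
theorem red_P {m z s l u c G N A0 φ : ℝ} (hm : 45 ≤ m) (hz : 0 < z) (hs : 0 < s)
    (hsz : s ^ 2 = 1 - z) (hl : 0 ≤ l) (hT : z * Real.exp (2 * l) ≤ 1) (hu : 0 ≤ u)
    (hc1 : 1 - 1 / (2 * m) ≤ c) (hc2 : c ≤ 1) (hN : Real.log (1 + u) - u ≤ N)
    (hφ : u - Real.log (1 + u) ≤ φ) (hA : A0 ≤ Apart m z s l G) :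
    dpE m z s l u c N - dpT m z s l u G N ≤
      (m + 3) * z * (Real.exp (-(2 * l)) - 1 + 2 * l) - A0 + 6 / 25 * ((m + 3) * z) * (u * l) +
        (2 / s - 2 * s ^ 2) * u + (2 / s - 2) * l + 1 / 8 / s * φ := by
  have hm0 : 0 < m := by linarith only [hm]
  have hz1 : z < 1 := by nlinarith only [hsz, hs]
  have hs1 : s ≤ 1 := by nlinarith only [hsz, hz]
  have hKW := mul_nonneg (kK3 hz hs hsz hT) (W_nn hu)
  have hs' : 0 < 1 / s := by positivity
  have hs'1 : 1 ≤ 1 / s := by rw [le_div_iff₀ hs]; linarith only [hs1]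
  have hφ0 : 0 ≤ φ := by have := log_le hu; linarith only [hφ, this]
  rw [T_eq, e_eq hsz]
  have g1 : 0 ≤ (1 - c) * (1 / s - 1) := mul_nonneg (by linarith only [hc2]) (by linarith only [hs'1])
  have g2 : 0 ≤ (1 - c) * m * (z / s ^ 2) :=
    mul_nonneg (mul_nonneg (by linarith only [hc2]) hm0.le) (by positivity)
  have h2 : (2 * z + 2 * c * (1 / s - 1)) * u ≤ (2 / s - 2 * s ^ 2) * u := by
    apply mul_le_mul_of_nonneg_right _ hu
    rw [hsz, show 2 / s = 2 * (1 / s) by ring]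
    linarith only [g1]
  have h3 : (2 * c * (1 / s - 1) - 2 * ((1 - c) * m) * (z / s ^ 2)) * l ≤
      (2 / s - 2) * l := by
    apply mul_le_mul_of_nonneg_right _ hl
    rw [show 2 / s = 2 * (1 / s) by ring]
    linarith only [g1, g2]
  have h4 : (2 * (m + 1) / ((m - 1) * s) - 2 * c * (1 / s)) * (-N) ≤ 1 / 8 / s * φ := by
    have k0 : 0 ≤ 2 * (m + 1) / ((m - 1) * s) - 2 * c * (1 / s) := by
      have h5 := (kappa hm hs).1
      rw [show 2 / s = 2 * (1 / s) by ring] at h5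
      have : c * (1 / s) ≤ 1 * (1 / s) := mul_le_mul_of_nonneg_right hc2 hs'.le
      linarith only [hc2, g1, h5]
    have k1 : 2 * (m + 1) / ((m - 1) * s) - 2 * c * (1 / s) ≤ 1 / 8 / s := by
      have h5 := kappa2 hm hs hc1
      rw [show 1 / 8 / s = 1 / 8 * (1 / s) by ring]
      (clear * - h5; linarith)
    calc (2 * (m + 1) / ((m - 1) * s) - 2 * c * (1 / s)) * (-N) ≤
        (2 * (m + 1) / ((m - 1) * s) - 2 * c * (1 / s)) * φ :=
          mul_le_mul_of_nonneg_left (by linarith only [hN, hφ]) k0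
      _ ≤ 1 / 8 / s * φ := mul_le_mul_of_nonneg_right k1 hφ0
  linarith

/-- `e ≥ ..` -/
theorem red_E {m z s l u c N φ : ℝ} (hm : 45 ≤ m) (hz : 0 < z) (hs : 0 < s)
    (hsz : s ^ 2 = 1 - z) (hl : 0 ≤ l) (hu : 0 ≤ u)
    (hc1 : 1 - 1 / (2 * m) ≤ c) (hc2 : c ≤ 1) (hN : Real.log (1 + u) - u ≤ N)
    (hφ : u - Real.log (1 + u) ≤ φ) :
    (m + 3) * z * (Real.exp (-(2 * l)) - 1 + 2 * l) +
        4 * s ^ 2 * Real.exp (-(2 * l)) * (u ^ 2 / (1 + u)) - 2 / s * φ + 2 * z * u - z / s ^ 2 * l ≤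
      dpE m z s l u c N := by
  have hm0 : 0 < m := by linarith only [hm]
  have hz1 : z < 1 := by nlinarith only [hsz, hs]
  have hs1 : s ≤ 1 := by nlinarith only [hsz, hz]
  have hs' : 0 < 1 / s := by positivity
  have hs'1 : 1 ≤ 1 / s := by rw [le_div_iff₀ hs]; linarith only [hs1]
  have hφ0 : 0 ≤ φ := by have := log_le hu; linarith only [hφ, this]
  obtain ⟨hc3, hc4⟩ := c_facts hm hc1
  rw [e_eq hsz]
  have h1 : -(2 / s * φ) ≤ 2 * c * (1 / s) * N := by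
    have h3 : 2 * c * (1 / s) * (-φ) ≤ 2 * c * (1 / s) * N := by
      apply mul_le_mul_of_nonneg_left (by linarith only [hN, hφ])
      have : 0 ≤ c := by linarith only [hc3]
      (clear * - hc3 hs; positivity)
    have h4 : c * ((1 / s) * φ) ≤ 1 * ((1 / s) * φ) := by
      apply mul_le_mul_of_nonneg_right hc2 (by positivity)
    have e3 : 2 / s * φ = 2 * ((1 / s) * φ) := by ring
    rw [e3]
    linarith only [h3, h4]
  have h2 : 0 ≤ c * (1 / s - 1) := mul_nonneg (by linarith only [hc3]) (by linarith only [hs'1])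
  have h3 : 2 * z * u ≤ (2 * z + 2 * c * (1 / s - 1)) * u :=
    mul_le_mul_of_nonneg_right (by linarith only [h2]) hu
  have h4 : -(z / s ^ 2) ≤ 2 * c * (1 / s - 1) - 2 * ((1 - c) * m) * (z / s ^ 2) := by
    have h5 : 0 ≤ z / s ^ 2 := by positivity
    have := mul_le_mul_of_nonneg_right hc4 h5
    linarith only [h2, this]
  have h5 := mul_le_mul_of_nonneg_right h4 hl
  linarith only [h1, h3, h5]

/-- lower bound of `ρ` -/
theorem rho_ge {m z s : ℝ} (hm : 45 ≤ m) (hz : 0 < z) (hs : 0 < s) (hsz : s ^ 2 = 1 - z) :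
    1 / 5 + 1 / 2 * (m * z * (1 + z + z ^ 2)) +
      1 / 10 * ((m * z) ^ 2 - 2 * z * (m * z)) * (1 + 2 * z + 3 * z ^ 2) ≤ dpR m (z / s ^ 2) := by
  have hz1 : z < 1 := by nlinarith
  have h2 : 1 + z + z ^ 2 ≤ 1 / s ^ 2 := by
    rw [le_div_iff₀ (by positivity), hsz]
    nlinarith only [hz]
  have h3 : 1 + 2 * z + 3 * z ^ 2 ≤ (1 / s ^ 2) ^ 2 := by
    have h4 : (1 + z + z ^ 2) ^ 2 ≤ (1 / s ^ 2) ^ 2 := pow_le_pow_left₀ (by positivity) h2 2
    refine le_trans ?_ h4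
    nlinarith only [hz]
  have e : dpR m (z / s ^ 2) = 1 / 5 + 1 / 2 * (m * z * (1 / s ^ 2)) +
      1 / 10 * (m * (m - 2) * z ^ 2) * (1 / s ^ 2) ^ 2 := by
    simp only [dpR]; ring
  rw [e]
  have h5 : 1 / 2 * (m * z * (1 + z + z ^ 2)) ≤ 1 / 2 * (m * z * (1 / s ^ 2)) := by
    have := mul_le_mul_of_nonneg_left h2 (by positivity : 0 ≤ m * z)
    linarith only [this]
  have h6 : 0 ≤ m * (m - 2) * z ^ 2 :=
    mul_nonneg (mul_nonneg (by linarith only [hm]) (by linarith only [hm])) (sq_nonneg z)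
  have h7 : 1 / 10 * ((m * z) ^ 2 - 2 * z * (m * z)) * (1 + 2 * z + 3 * z ^ 2) ≤
      1 / 10 * (m * (m - 2) * z ^ 2) * (1 / s ^ 2) ^ 2 := by
    have e2 : 1 / 10 * ((m * z) ^ 2 - 2 * z * (m * z)) = 1 / 10 * (m * (m - 2) * z ^ 2) := by ring
    rw [e2]
    exact mul_le_mul_of_nonneg_left h3 (by (clear * - h6; positivity))
  linarith

theorem s_facts {z s : ℝ} (hz : 0 < z) (hz5 : z ≤ 1 / 5) (hs : 0 < s) (hsz : s ^ 2 = 1 - z) :
    447 / 500 ≤ s ∧ s ≤ 1 := by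
  constructor <;> nlinarith

/-- the defect `φ = u²/(2 + 31u/25)` for `u ≤ 1/s` -/
theorem phi_le {s u : ℝ} (hs : 0 < s) (hu : 0 ≤ u) (hus : u * s ≤ 1) :
    u ^ 2 / (2 + 31 / 25 * u) ≤ 1 / (s * (2 * s + 31 / 25)) := by
  rw [div_le_div_iff₀ (by positivity) (by (clear * - hs; positivity))]
  have h1 : u * (u * s) ≤ u * 1 := mul_le_mul_of_nonneg_left hus hu
  have h2 : (u * s) ^ 2 ≤ 1 ^ 2 := pow_le_pow_left₀ (by positivity) hus 2
  linarith

theorem u_le {z s u : ℝ} (hz : 0 < z) (hz5 : z ≤ 1 / 5) (hs : 0 < s) (hsz : s ^ 2 = 1 - z)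
    (hu : 0 ≤ u) (hus : u * s ≤ 1) : u ≤ 28 / 25 := by
  obtain ⟨h1, -⟩ := s_facts hz hz5 hs hsz
  have := mul_le_mul_of_nonneg_left h1 hu
  linarith

theorem phi_E2 {z s u : ℝ} (hz : 0 < z) (hz5 : z ≤ 1 / 5) (hs : 0 < s) (hsz : s ^ 2 = 1 - z)
    (hu : 0 ≤ u) (hus : u * s ≤ 1) :
    u - Real.log (1 + u) ≤ u ^ 2 / (2 + 31 / 25 * u) :=
  log_E2 hu ((u_le hz hz5 hs hsz hu hus).trans (by norm_num))

theorem k1 {z s u : ℝ} (hz : 0 < z) (hz5 : z ≤ 1 / 5) (hs : 0 < s) (hsz : s ^ 2 = 1 - z)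
    (hu : 0 ≤ u) (hus : u * s ≤ 1) :
    23 / 11 / s * (u ^ 2 / (2 + 31 / 25 * u)) ≤ 13 / 20 + 11 / 10 * z := by
  obtain ⟨h1, h2⟩ := s_facts hz hz5 hs hsz
  have h3 := mul_le_mul_of_nonneg_left (phi_le hs hu hus) (by positivity : 0 ≤ 23 / 11 / s)
  refine h3.trans ?_
  have e : 23 / 11 / s * (1 / (s * (2 * s + 31 / 25))) = 23 / 11 / (s ^ 2 * (2 * s + 31 / 25)) := by
    (clear * - hs; field_simp)
  rw [e, div_le_iff₀ (by positivity)]
  have hz' : z = 1 - s ^ 2 := by linarith only [hsz]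
  rw [hz']
  have a := sub_nonneg.2 h1
  have b := sub_nonneg.2 h2
  nlinarith only [hz5, hsz, a, b, mul_nonneg (mul_nonneg a b) (pow_nonneg hs.le 3)]

theorem k1b {z s u : ℝ} (hz : 0 < z) (hz5 : z ≤ 1 / 5) (hs : 0 < s) (hsz : s ^ 2 = 1 - z)
    (hu : 0 ≤ u) (hus : u * s ≤ 1) : 1 / s * (u ^ 2 / (2 + 31 / 25 * u)) ≤ 21 / 50 := by
  have h := k1 hz hz5 hs hsz hu hus
  have e : 23 / 11 / s * (u ^ 2 / (2 + 31 / 25 * u)) =
      23 / 11 * (1 / s * (u ^ 2 / (2 + 31 / 25 * u))) := by ring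
  rw [e] at h
  linarith only [hz5, h]

theorem k2 {z s u l : ℝ} (hz : 0 < z) (hz5 : z ≤ 1 / 5) (hs : 0 < s) (hsz : s ^ 2 = 1 - z)
    (hl : 0 ≤ l) (hu : 0 ≤ u) (hus : u * s ≤ 1) :
    (2 / s - 2 * s ^ 2) * u + (2 / s - 2) * l + 1 / 8 / s * (u ^ 2 / (2 + 31 / 25 * u)) ≤
      3 / 50 + 18 / 5 * z + 3 / 5 * z * (2 * l) := by
  obtain ⟨h1, h2⟩ := s_facts hz hz5 hs hsz
  have hz' : z = 1 - s ^ 2 := by linarith only [hsz]
  have a := sub_nonneg.2 h1
  have b := sub_nonneg.2 h2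
  have g0 : 0 ≤ 2 / s - 2 * s ^ 2 := by
    have e : 2 / s - 2 * s ^ 2 = 2 * (1 - s ^ 3) / s := by field_simp
    rw [e]
    have : s ^ 3 ≤ 1 := pow_le_one₀ hs.le h2
    exact div_nonneg (by linarith only [this]) hs.le
  have g1 : (2 / s - 2 * s ^ 2) * u ≤ 18 / 5 * z := by
    have hu' : u ≤ 1 / s := by rw [le_div_iff₀ hs]; exact hus
    refine (mul_le_mul_of_nonneg_left hu' g0).trans ?_
    have e : (2 / s - 2 * s ^ 2) * (1 / s) = (2 - 2 * s ^ 3) / s ^ 2 := by (clear * - hs; field_simp)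
    rw [e, div_le_iff₀ (by positivity), hz']
    nlinarith only [a, b, mul_nonneg (mul_nonneg a b) (sq_nonneg s)]
  have g2 : (2 / s - 2) * l ≤ 3 / 5 * z * (2 * l) := by
    have h3 : 2 / s - 2 ≤ 6 / 5 * z := by
      have e : 2 / s - 2 = 2 * (1 - s) / s := by (clear * - hs; field_simp)
      rw [e, div_le_iff₀ hs, hz']
      nlinarith only [hz, hsz, a, b]
    have := mul_le_mul_of_nonneg_right h3 hl
    linarith only [this]
  have g3 := k1b hz hz5 hs hsz hu hus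
  have e : 1 / 8 / s * (u ^ 2 / (2 + 31 / 25 * u)) =
      1 / 8 * (1 / s * (u ^ 2 / (2 + 31 / 25 * u))) := by ring
  rw [e]
  linarith only [g1, g2, g3]

theorem psi_ge {l : ℝ} : 9 / 25 + (l - 1 / 2) ≤ Real.exp (-(2 * l)) - 1 + 2 * l ∨ l < 1 / 2 := by
  rcases lt_or_ge l (1 / 2) with h | h
  · exact Or.inr h
  · left
    have h1 := Real.add_one_le_exp (1 - 2 * l)
    have h2 : Real.exp (-(2 * l)) = Real.exp (-1) * Real.exp (1 - 2 * l) := by
      rw [← Real.exp_add]; congr 1; ring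
    have h3 : 9 / 25 ≤ Real.exp (-1) := by
      rw [Real.exp_neg, le_inv_comm₀ (by norm_num) (Real.exp_pos 1)]
      have := Real.exp_one_lt_d9
      norm_num
      linarith only [this]
    have h3' : Real.exp (-1) ≤ 1 / 2 := by
      rw [Real.exp_neg, inv_le_comm₀ (Real.exp_pos 1) (by norm_num)]
      have := Real.exp_one_gt_d9
      norm_num
      linarith only [this]
    have h4 := mul_le_mul_of_nonneg_left h1 (Real.exp_pos (-1)).le
    rw [h2]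
    nlinarith only [h3, h4, h, h3']

/-- the final step for `l ≥ 1/2` -/
theorem fin2 {m z s l u c G N A0 V τ0 p θ θ1 kr : ℝ} (hm : 45 ≤ m) (hz : 0 < z) (hz5 : z ≤ 1 / 5)
    (hs : 0 < s) (hsz : s ^ 2 = 1 - z) (hw : 9 ≤ m * z) (hl : 1 / 2 ≤ l)
    (hT : z * Real.exp (2 * l) ≤ 1) (hu : 0 ≤ u) (hus : u * s ≤ 1)
    (hc1 : 1 - 1 / (2 * m) ≤ c) (hc2 : c ≤ 1) (hN : Real.log (1 + u) - u ≤ N)
    (hV : u ≤ V) (hA : A0 ≤ Apart m z s l G)
    (hA1 : 3 / 25 * ((m + 3) * z) * (V * (2 * l)) + (13 / 20 + 11 / 10 * z) + τ0 * (m * z) ≤ A0)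
    (hA2 : (m + 3) * z * (Real.exp (-(2 * l)) - 1 + 2 * l) +
      3 / 25 * ((m + 3) * z) * (V * (2 * l)) + (3 / 50 + 18 / 5 * z) + 3 / 5 * z * (2 * l) -
      p * (m * z) ≤ A0)
    (hτ : 0 < τ0) (hp : 0 ≤ p) (hkr : 0 < kr) (hk : kr * (m * z) ≤ dpR m (z / s ^ 2))
    (h1 : p ≤ θ * kr) (h2 : p ^ 2 ≤ θ1 * (kr * τ0)) (h0 : 0 ≤ θ1) (hθ : θ + θ1 < 1) :
    JTest (dpT m z s l u G N) (dpE m z s l u c N) (dpR m (z / s ^ 2)) u := by
  have hl0 : 0 ≤ l := by linarith only [hl]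
  have hφ := phi_E2 hz hz5 hs hsz hu hus
  have rT := red_T hm hz hs hsz hT hu hN hφ hA
  have rP := red_P hm hz hs hsz hl0 hT hu hc1 hc2 hN hφ hA
  have rE := red_E hm hz hs hsz hl0 hu hc1 hc2 hN hφ
  have hX : 0 ≤ (m + 3) * z := by positivity
  have hw0 : 0 < m * z := by linarith only [hw]
  have huV : 6 / 25 * ((m + 3) * z) * (u * l) ≤ 3 / 25 * ((m + 3) * z) * (V * (2 * l)) := by
    have := mul_le_mul_of_nonneg_left (mul_le_mul_of_nonneg_right hV hl0) hX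
    calc 6 / 25 * ((m + 3) * z) * (u * l) = 6 / 25 * ((m + 3) * z * (u * l)) := by ring
      _ ≤ 6 / 25 * ((m + 3) * z * (V * l)) := by linarith only [this]
      _ = 3 / 25 * ((m + 3) * z) * (V * (2 * l)) := by ring
  have hCW : 0 ≤ 4 * s ^ 2 * Real.exp (-(2 * l)) * (u ^ 2 / (1 + u)) := by
    have := W_nn hu
    (clear * - hs hu; positivity)
  have a1 := k1 hz hz5 hs hsz hu hus
  have a2 := k2 hz hz5 hs hsz hl0 hu hus
  have a3 := k1b hz hz5 hs hsz hu hus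
  have b1 : τ0 * (m * z) ≤ dpT m z s l u G N := by linarith only [hA1, rT, huV, hCW, a1]
  have b2 : dpE m z s l u c N - dpT m z s l u G N ≤ p * (m * z) := by linarith only [hA2, rP, huV, a2]
  have hρ0 : 0 < dpR m (z / s ^ 2) := lt_of_lt_of_le (by positivity) hk
  have hτw : 0 < τ0 * (m * z) := by positivity
  have hθ0 : 0 ≤ θ := by
    by_contra h
    push Not at h
    have := mul_neg_of_neg_of_pos h hkr
    linarith only [hp, h1, this]
  clear rT rP hA1 hA2 huV a1 a2 hφ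
  have b3 : -0 ≤ dpE m z s l u c N := by
    have c1 : 9 / 25 + (l - 1 / 2) ≤ Real.exp (-(2 * l)) - 1 + 2 * l :=
      psi_ge.resolve_right (not_lt.2 hl)
    have c2 : 9 * (9 / 25 + (l - 1 / 2)) ≤ (m + 3) * z * (Real.exp (-(2 * l)) - 1 + 2 * l) := by
      apply mul_le_mul _ c1 (by linarith only [hl]) hX
      have : (m + 3) * z = m * z + 3 * z := by ring
      linarith only [hz, hw]
    have c3 : z / s ^ 2 * l ≤ 1 / 4 * l := by
      apply mul_le_mul_of_nonneg_right _ hl0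
      rw [div_le_iff₀ (by positivity), hsz]
      linarith only [hz5]
    have c4 : 2 / s * (u ^ 2 / (2 + 31 / 25 * u)) = 2 * (1 / s * (u ^ 2 / (2 + 31 / 25 * u))) := by
      ring
    have c5 : 0 ≤ 2 * z * u := by (clear * - hz hu; positivity)
    rw [c4] at rE
    have c6 : 0 ≤ (m + 3) * z * (Real.exp (-(2 * l)) - 1 + 2 * l) +
      4 * s ^ 2 * Real.exp (-(2 * l)) * (u ^ 2 / (1 + u)) -
      2 * (1 / s * (u ^ 2 / (2 + 31 / 25 * u))) + 2 * z * u - z / s ^ 2 * l := by linarith only [hl, hCW, a3, c2, c3, c5]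
    rw [neg_zero]
    exact c6.trans rE
  refine JTest.of_theta (T0 := τ0 * (m * z)) (P := p * (m * z)) (E := 0) (θ := θ) (θ1 := θ1)
    b1 hτw.le (fun _ => hτw) hρ0 h0 hθ b2 (by (clear * - hp hm hz; positivity)) ?_ ?_ b3 le_rfl (by (clear * - hθ0 hρ0; positivity)) ?_
  · calc p * (m * z) ≤ θ * kr * (m * z) := mul_le_mul_of_nonneg_right h1 hw0.le
      _ = θ * (kr * (m * z)) := by ring
      _ ≤ _ := mul_le_mul_of_nonneg_left hk hθ0
  · calc (p * (m * z)) ^ 2 = p ^ 2 * (m * z) ^ 2 := by ring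
      _ ≤ θ1 * (kr * τ0) * (m * z) ^ 2 := mul_le_mul_of_nonneg_right h2 (by positivity)
      _ = θ1 * (kr * (m * z) * (τ0 * (m * z))) := by ring
      _ ≤ _ := by
        apply mul_le_mul_of_nonneg_left _ h0
        exact mul_le_mul_of_nonneg_right hk hτw.le
  · have : 0 ≤ θ1 * (dpR m (z / s ^ 2) * (τ0 * (m * z))) := by (clear * - h0 hρ0 hτ hm hz; positivity)
    simpa only [ne_eq, OfNat.ofNat_ne_zero, not_false_eq_true, zero_pow, ge_iff_le] using this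

end FXu

end Vale.Agent.P237.AllN
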