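import Vale.Agent.P237.AllN.FXuB

/-!
# P237, block D, region `X ≥ 3`, `u ≥ 0`, `z ≤ 1/5`, `l ≥ 1/2`
-/

namespace Vale.Agent.P237.AllN

open PolyPos

namespace FXu

theorem hom_R (c1 c0 : Ex3) (t E Z : ℝ) : (hom c1 c0).R t E Z =
    C2.R t E Z * (NE.R t E Z * NE.R t E Z) + c1.R t E Z * (NE.R t E Z * DE.R t E Z) +
      c0.R t E Z * (DE.R t E Z * DE.R t E Z) := rfl

theorem mono_R (c1 : Ex3) (t E Z : ℝ) : (mono c1).R t E Z = c1.R t E Z + 19 / 10 * C2.R t E Z := by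
  have : (mono c1).R t E Z = c1.R t E Z + Fr.R ⟨19, 9⟩ * C2.R t E Z := rfl
  rw [this]
  norm_num [Fr.R]

theorem NE_R (t E Z : ℝ) : NE.R t E Z = (1 - E) * (11 + 38 * E + 11 * E ^ 2) := by
  simp only [NE, E2, Ex3.R_add, Ex3.R_sub, Ex3.R_mul, Ex3.R_c, Ex3.R_Y, Fr.R]
  push_cast
  ring

theorem DE_R (t E Z : ℝ) : DE.R t E Z = 3 * (1 + E) * (1 + 8 * E + E ^ 2) := by
  simp only [DE, E2, Ex3.R_add, Ex3.R_mul, Ex3.R_c, Ex3.R_Y, Fr.R]
  push_cast
  ring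

/-- lifting from the lower bound of `λ` -/
theorem lift {c2 c1 c0 N D lam : ℝ} (hD : 0 < D) (hlam : N / D ≤ lam) (hN : 19 / 20 * D ≤ N)
    (h2 : 0 ≤ c2) (h1 : 0 ≤ c1 + 19 / 10 * c2)
    (h : 0 ≤ c2 * (N * N) + c1 * (N * D) + c0 * (D * D)) : 0 ≤ c2 * lam ^ 2 + c1 * lam + c0 := by
  set a := N / D with ha
  have hN' : N = a * D := by rw [ha]; (clear * - hD; field_simp)
  have ha1 : 19 / 20 ≤ a := by rw [ha, le_div_iff₀ hD]; exact hN
  have h3 : 0 ≤ c2 * a ^ 2 + c1 * a + c0 := by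
    have e : c2 * (N * N) + c1 * (N * D) + c0 * (D * D) = (c2 * a ^ 2 + c1 * a + c0) * D ^ 2 := by
      rw [hN']; ring
    rw [e] at h
    exact nonneg_of_mul_nonneg_left h (by positivity)
  have h4 : 0 ≤ (lam - a) * (c1 + c2 * (lam + a)) := by
    apply mul_nonneg (by linarith only [hlam])
    have := mul_nonneg h2 (by linarith only [hlam, ha1] : 0 ≤ lam + a - 19 / 10)
    linarith only [h1, this]
  linarith only [h3, h4]

/-- the facts about `λ = 2l ≥ 1` -/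
theorem lam_facts {l E : ℝ} (hE : E = Real.exp (-(2 * l))) (hl : 1 / 2 ≤ l) :
    0 < E ∧ E ≤ 46 / 125 ∧
      (1 - E) * (11 + 38 * E + 11 * E ^ 2) / (3 * (1 + E) * (1 + 8 * E + E ^ 2)) ≤ 2 * l ∧
      19 / 20 * (3 * (1 + E) * (1 + 8 * E + E ^ 2)) ≤ (1 - E) * (11 + 38 * E + 11 * E ^ 2) := by
  have hE0 : 0 < E := by rw [hE]; exact Real.exp_pos _
  have hE1 : E ≤ 46 / 125 := by
    rw [hE]
    have h1 : Real.exp (-(2 * l)) ≤ Real.exp (-1) := Real.exp_le_exp.2 (by linarith only [hl])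
    refine h1.trans ?_
    rw [Real.exp_neg, inv_le_comm₀ (Real.exp_pos 1) (by norm_num)]
    have := Real.exp_one_gt_d9
    norm_num
    linarith only [this]
  refine ⟨hE0, hE1, ?_, ?_⟩
  · have h := fv_log_ge (E := E) ⟨hE0, by linarith only [hE1]⟩
    have h2 : -Real.log E = 2 * l := by rw [hE, Real.log_exp]; ring
    rw [h2] at h
    exact h
  · nlinarith only [hE0, hE1]

/-- using a check with a single family -/
theorem use_chk {F0 : List Ex3} {Lo : List Ex3} {t : PT3} {A B : ℤ} {D : ℕ} {A' B' : ℤ} {D' : ℕ}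
    {A'' B'' : ℤ} {D'' : ℕ} {x y z : ℝ}
    (h : tchk3 (2 ^ 1024) 40 4000 [F0] Lo t A B D A' B' D' A'' B'' D'' = true)
    (hLo : ∀ E ∈ Lo, E.R x y z ≤ 0) (hD : 0 < D) (hD' : 0 < D') (hD'' : 0 < D'')
    (hA : A < B) (hA' : A' < B') (hA'' : A'' < B'')
    (h0 : (A : ℝ) ≤ D * x) (h1 : (D : ℝ) * x ≤ B) (h2 : (A' : ℝ) ≤ D' * y) (h3 : (D' : ℝ) * y ≤ B')
    (h4 : (A'' : ℝ) ≤ D'' * z) (h5 : (D'' : ℝ) * z ≤ B'') : ∀ E ∈ F0, 0 ≤ E.R x y z := by
  obtain ⟨G, hG, h6⟩ := tchk3_sound hLo t A B D A' B' D' A'' B'' D'' hD hD' hD'' hA hA' hA'' h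
    h0 h1 h2 h3 h4 h5
  rw [List.mem_singleton] at hG
  rw [← hG]
  exact h6

theorem G1_R (b : Ex3) (t E Z : ℝ) : (G1 b).R t E Z = C1.R t E Z - b.R t E Z := rfl

theorem z1_R (t E Z : ℝ) : z1.R t E Z = t * E := rfl

theorem rr_R (t E Z : ℝ) : rr.R t E Z = 10 / 33 * Z * E := by
  simp only [rr, qq, Ex3.R_mul, Ex3.R_c, Ex3.R_Y, Ex3.R_Z, Fr.R]
  push_cast
  ring

theorem R13_R (t E Z : ℝ) : R13.R t E Z = 10 / 33 * Z * E * (1 + 3 * (t * E) * (10 / 33 * Z * E)) := by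
  simp only [R13, Ex3.R_add, Ex3.R_mul, Ex3.R_c, z1_R, rr_R, Fr.R]
  push_cast
  ring

theorem G0_R (τ : Fr) (t E Z : ℝ) : (G0 τ).R t E Z = C0.R t E Z -
    (10 / 33 * Z * E) ^ 2 * (13 / 20 + 11 / 10 * (t * E)) - τ.R * (10 / 33 * Z * E) := by
  simp only [G0, K2, Ex3.R_add, Ex3.R_sub, Ex3.R_mul, Ex3.R_c, z1_R, rr_R]
  simp only [show ∀ (n : ℤ) (d : ℕ), Fr.R ⟨n, d⟩ = (n : ℝ) / ((d : ℝ) + 1) from fun _ _ => rfl]
  push_cast
  ring

theorem H1_R (b : Ex3) (t E Z : ℝ) : (H1 b).R t E Z = C1.R t E Z - R13.R t E Z - b.R t E Z -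
    3 / 5 * (t * E) * (10 / 33 * Z * E) ^ 2 := by
  simp only [H1, Ex3.R_sub, Ex3.R_mul, Ex3.R_c, z1_R, rr_R]
  simp only [show ∀ (n : ℤ) (d : ℕ), Fr.R ⟨n, d⟩ = (n : ℝ) / ((d : ℝ) + 1) from fun _ _ => rfl]
  push_cast
  ring

theorem H0_R (p : Fr) (t E Z : ℝ) : (H0 p).R t E Z = C0.R t E Z - R13.R t E Z * (E - 1) -
    (10 / 33 * Z * E) ^ 2 * (3 / 50 + 18 / 5 * (t * E)) + p.R * (10 / 33 * Z * E) := by
  simp only [H0, Ex3.R_add, Ex3.R_sub, Ex3.R_mul, Ex3.R_c, z1_R, rr_R, Ex3.R_Y]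
  simp only [show ∀ (n : ℤ) (d : ℕ), Fr.R ⟨n, d⟩ = (n : ℝ) / ((d : ℝ) + 1) from fun _ _ => rfl]
  push_cast
  ring

theorem bU_R (t E Z : ℝ) : bU.R t E Z = 3 / 25 * (R13.R t E Z *
    (1 + t * E / 2 + 23 / 50 * (t * E) ^ 2)) := by
  simp only [bU, Ub, z2, Ex3.R_add, Ex3.R_mul, Ex3.R_c, z1_R]
  simp only [show ∀ (n : ℤ) (d : ℕ), Fr.R ⟨n, d⟩ = (n : ℝ) / ((d : ℝ) + 1) from fun _ _ => rfl]
  push_cast
  ring

theorem rU_R (t E Z : ℝ) : rU.R t E Z = 25 / 34 * (1 - t) * (1 + (1 + t * E) * (10 / 33 * Z * E)) -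
    10 / 33 * Z * E := by
  simp only [rU, Ex3.R_add, Ex3.R_sub, Ex3.R_mul, Ex3.R_c, z1_R, rr_R, Ex3.R_X]
  simp only [show ∀ (n : ℤ) (d : ℕ), Fr.R ⟨n, d⟩ = (n : ℝ) / ((d : ℝ) + 1) from fun _ _ => rfl]
  push_cast
  ring

theorem bT_R (t E Z : ℝ) : bT.R t E Z = 3 / 25 * ((1 + 3 * (t * E) * (10 / 33 * Z * E)) *
    rU.R t E Z) := by
  simp only [bT, Ex3.R_add, Ex3.R_mul, Ex3.R_c, z1_R, rr_R]
  simp only [show ∀ (n : ℤ) (d : ℕ), Fr.R ⟨n, d⟩ = (n : ℝ) / ((d : ℝ) + 1) from fun _ _ => rfl]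
  push_cast
  ring

/-- the two inequalities of `fin2` from the checks, general form -/
theorem from_chk {m z l t E Z r V b τ0 p : ℝ} {τf pf : Fr} {be : Ex3}
    (hE : E = Real.exp (-(2 * l))) (hl : 1 / 2 ≤ l) (ht : t * E = z) (hr : r * (m * z) = 1)
    (hrZ : 10 / 33 * Z * E = r) (hb : be.R t E Z = b) (hbV : (m * z) ^ 2 * b = 3 / 25 * ((m + 3) * z) * V)
    (hτ : τf.R = τ0) (hp : pf.R = p)
    (hg : 0 ≤ (hom (G1 be) (G0 τf)).R t E Z) (hh : 0 ≤ (hom (H1 be) (H0 pf)).R t E Z)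
    (h2 : 0 ≤ C2.R t E Z) (hg1 : 0 ≤ (mono (G1 be)).R t E Z) (hh1 : 0 ≤ (mono (H1 be)).R t E Z) :
    3 / 25 * ((m + 3) * z) * (V * (2 * l)) + (13 / 20 + 11 / 10 * z) + τ0 * (m * z) ≤
      (m * z) ^ 2 * (c2r z r * (2 * l) ^ 2 + c1r z r * (2 * l) + c0r t E z r (10 / 33 * Z)) ∧
    (m + 3) * z * (E - 1 + 2 * l) + 3 / 25 * ((m + 3) * z) * (V * (2 * l)) +
      (3 / 50 + 18 / 5 * z) + 3 / 5 * z * (2 * l) - p * (m * z) ≤
      (m * z) ^ 2 * (c2r z r * (2 * l) ^ 2 + c1r z r * (2 * l) + c0r t E z r (10 / 33 * Z)) := by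
  obtain ⟨hE0, hE1, hlam, hND⟩ := lam_facts hE hl
  have hD : 0 < 3 * (1 + E) * (1 + 8 * E + E ^ 2) := by (clear * - hE0; positivity)
  rw [mono_R] at hg1 hh1
  rw [hom_R, NE_R, DE_R] at hg hh
  have k1 := lift hD hlam hND h2 hg1 hg
  have k2 := lift hD hlam hND h2 hh1 hh
  rw [C2_R, G1_R, G0_R, C1_R, C0_R, hb, hrZ, ht, hτ] at k1
  rw [C2_R, H1_R, H0_R, C1_R, C0_R, R13_R, hb, hrZ, ht, hp] at k2
  have e1 : (m * z) ^ 2 * r = m * z := by linear_combination (m * z) * hr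
  have e2 : (m * z) ^ 2 * r ^ 2 = 1 := by linear_combination (r * (m * z) + 1) * hr
  have e3 : (m * z) ^ 2 * (r * (1 + 3 * z * r)) = (m + 3) * z := by
    linear_combination e1 + 3 * z * e2
  have hw2 : 0 ≤ (m * z) ^ 2 := sq_nonneg _
  have k1' := mul_nonneg hw2 k1
  have k2' := mul_nonneg hw2 k2
  constructor
  · have e : (m * z) ^ 2 * (c2r z r * (2 * l) ^ 2 + (c1r z r - b) * (2 * l) +
        (c0r t E z r (10 / 33 * Z) - r ^ 2 * (13 / 20 + 11 / 10 * z) - τ0 * r)) =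
        (m * z) ^ 2 * (c2r z r * (2 * l) ^ 2 + c1r z r * (2 * l) + c0r t E z r (10 / 33 * Z)) -
        (3 / 25 * ((m + 3) * z) * (V * (2 * l)) + (13 / 20 + 11 / 10 * z) + τ0 * (m * z)) := by
      linear_combination (-(2 * l)) * hbV - (13 / 20 + 11 / 10 * z) * e2 - τ0 * e1
    rw [e] at k1'
    linarith only [k1']
  · have e : (m * z) ^ 2 * (c2r z r * (2 * l) ^ 2 + (c1r z r - r * (1 + 3 * z * r) - b -
        3 / 5 * z * r ^ 2) * (2 * l) +
        (c0r t E z r (10 / 33 * Z) - r * (1 + 3 * z * r) * (E - 1) -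
          r ^ 2 * (3 / 50 + 18 / 5 * z) + p * r)) =
        (m * z) ^ 2 * (c2r z r * (2 * l) ^ 2 + c1r z r * (2 * l) + c0r t E z r (10 / 33 * Z)) -
        ((m + 3) * z * (E - 1 + 2 * l) + 3 / 25 * ((m + 3) * z) * (V * (2 * l)) +
          (3 / 50 + 18 / 5 * z) + 3 / 5 * z * (2 * l) - p * (m * z)) := by
      linear_combination (-(2 * l)) * hbV - (E - 1 + 2 * l) * e3 - (3 / 50 + 18 / 5 * z +
        3 / 5 * z * (2 * l)) * e2 + p * e1
    rw [e] at k2'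
    linarith only [k2']

theorem rho_simple {m z s : ℝ} (hm : 45 ≤ m) (hz : 0 < z) (hs : 0 < s)
    (hsz : s ^ 2 = 1 - z) (hw : 9 ≤ m * z) {w0 : ℝ} (hw0 : w0 ≤ m * z) :
    (1 / 2 + 1 / 10 * w0) * (m * z) ≤ dpR m (z / s ^ 2) := by
  refine le_trans ?_ (rho_ge hm hz hs hsz)
  set w := m * z with hwd
  have h1 : 0 ≤ w * z := by positivity
  have h2 : 0 ≤ w * z ^ 2 := by positivity
  have h3 : 0 ≤ (w - w0) * w := mul_nonneg (by linarith only [hw0]) (by linarith only [hw])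
  have h4 : 0 ≤ z * (w - 2 * z - 1) := by
    have hz1 : z < 1 := by nlinarith only [hsz, hs]
    exact mul_nonneg hz.le (by linarith)
  have h5 : 0 ≤ w * (z * (w - 2 * z - 1)) := mul_nonneg (by linarith only [hw]) h4
  have h6 : 0 ≤ w * z * (z * (w - 2 * z - 1)) := mul_nonneg h1 h4
  have h7 : 0 ≤ w * z * (w - 9) := mul_nonneg h1 (by linarith)
  have h8 : 0 ≤ w * z ^ 2 * (w - 9) := mul_nonneg h2 (by linarith)
  have hz1 : z < 1 := by nlinarith only [hsz, hs]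
  have h9 : 0 ≤ w * z ^ 2 * (1 - z) := mul_nonneg h2 (by linarith only [hz1])
  linarith

theorem Ub_ge {z s u : ℝ} (hz : 0 < z) (hz5 : z ≤ 1 / 5) (hs : 0 < s) (hsz : s ^ 2 = 1 - z)
    (hus : u * s ≤ 1) : u ≤ 1 + z / 2 + 23 / 50 * z ^ 2 := by
  have h1 : 1 ≤ (1 + z / 2 + 23 / 50 * z ^ 2) * s := by
    have h2 : (1 : ℝ) ^ 2 ≤ ((1 + z / 2 + 23 / 50 * z ^ 2) * s) ^ 2 := by
      rw [mul_pow, hsz]
      have a := sub_nonneg.2 hz5
      nlinarith only [a, pow_pos hz 4]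
    exact le_of_sq_le_sq h2 (by positivity)
  by_contra h
  push Not at h
  have := mul_lt_mul_of_pos_right h hs
  linarith only [hus, h1, this]

/-- the variables of the checks -/
structure Ctx (m z l t E Z r : ℝ) : Prop where
  hE : E = Real.exp (-(2 * l))
  ht : t = z * Real.exp (2 * l)
  htE : t * E = z
  hE0 : 0 < E
  hE1 : E ≤ 46 / 125
  ht0 : 0 < t
  hr : r * (m * z) = 1
  hr0 : 0 < r
  hrZ : 10 / 33 * Z * E = r
  hqZ : r * Real.exp (2 * l) = 10 / 33 * Z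
  hZ0 : 0 ≤ Z
  hZ1 : Z ≤ 1
  hR : (m * z) ^ 2 * (r * (1 + 3 * z * r)) = (m + 3) * z

theorem ctx {m z l : ℝ} (hz : 0 < z) (hw : 9 ≤ m * z) (hl : 1 / 2 ≤ l)
    (hcap : 33 / 10 ≤ m * z * Real.exp (-(2 * l))) : ∃ t E Z r, Ctx m z l t E Z r := by
  have hw0 : 0 < m * z := by linarith only [hw]
  obtain ⟨hE0, hE1, -, -⟩ := lam_facts (l := l) rfl hl
  have hB0 : 0 < Real.exp (2 * l) := Real.exp_pos _
  have hBE : Real.exp (2 * l) * Real.exp (-(2 * l)) = 1 := by rw [← Real.exp_add]; norm_num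
  have hr : 1 / (m * z) * (m * z) = 1 := div_mul_cancel₀ 1 hw0.ne'
  have hr0 : 0 < 1 / (m * z) := by positivity
  refine ⟨z * Real.exp (2 * l), Real.exp (-(2 * l)), 33 / 10 * (Real.exp (2 * l) * (1 / (m * z))),
    1 / (m * z), ?_⟩
  generalize 1 / (m * z) = r at *
  generalize hB : Real.exp (2 * l) = B at *
  refine ⟨rfl, by rw [hB], ?_, hE0, hE1, by positivity, hr, hr0, ?_, ?_, by positivity, ?_, ?_⟩
  · linear_combination z * hBE
  · linear_combination r * hBE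
  · rw [hB]; ring
  · have h1 := mul_le_mul_of_nonneg_left hcap (by positivity : 0 ≤ B * r)
    have h2 : B * r * (m * z * Real.exp (-(2 * l))) = 1 := by
      linear_combination (r * (m * z)) * hBE + hr
    linarith only [h1, h2]
  · linear_combination (m * z + 3 * z * (r * (m * z) + 1)) * hr

variable {m z s l u c G N t E Z r : ℝ}

theorem Ctx.out1 (C : Ctx m z l t E Z r) (hz5 : z ≤ 1 / 5) :
    ∀ Ee ∈ [out1], Ee.R t E Z ≤ 0 := by
  have : FXu.out1.R t E Z = t * E - 1 / 5 := by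
    simp only [FXu.out1, Ex3.R_sub, Ex3.R_c, z1_R, Fr.R]
    norm_num
  intro Ee hEe
  rw [List.mem_singleton] at hEe
  rw [hEe, this, C.htE]
  linarith only [hz5]

theorem Ctx.w_ge (C : Ctx m z l t E Z r) (hcap : 33 / 10 ≤ m * z * Real.exp (-(2 * l)))
    {w0 : ℝ} (h : w0 * E ≤ 33 / 10) : w0 ≤ m * z := by
  by_contra h'
  push Not at h'
  have := mul_lt_mul_of_pos_right h' C.hE0
  rw [← C.hE] at hcap
  (clear * - hcap h this; linarith)

theorem Ctx.bU_eq (C : Ctx m z l t E Z r) :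
    bU.R t E Z = 3 / 25 * (r * (1 + 3 * z * r) * (1 + z / 2 + 23 / 50 * z ^ 2)) ∧
    (m * z) ^ 2 * (3 / 25 * (r * (1 + 3 * z * r) * (1 + z / 2 + 23 / 50 * z ^ 2))) =
        3 / 25 * ((m + 3) * z) * (1 + z / 2 + 23 / 50 * z ^ 2) := by
  constructor
  · rw [bU_R, R13_R, C.hrZ, C.htE]
  · linear_combination (3 / 25 * (1 + z / 2 + 23 / 50 * z ^ 2)) * C.hR

theorem Ctx.rU_eq (C : Ctx m z l t E Z r) :
    rU.R t E Z = r * (25 / 34 * (1 - t) * (m * z + (1 + z)) - 1) := by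
  rw [rU_R, C.hrZ, C.htE]
  linear_combination (-(25 / 34 * (1 - t))) * C.hr

theorem Ctx.bT_eq (C : Ctx m z l t E Z r) :
    bT.R t E Z = 3 / 25 * ((1 + 3 * z * r) *
        (r * (25 / 34 * (1 - t) * (m * z + (1 + z)) - 1))) ∧
    (m * z) ^ 2 * (3 / 25 * ((1 + 3 * z * r) *
        (r * (25 / 34 * (1 - t) * (m * z + (1 + z)) - 1)))) =
        3 / 25 * ((m + 3) * z) * (25 / 34 * (1 - t) * (m * z + (1 + z)) - 1) := by
  constructor
  · rw [bT_R, C.rU_eq, C.hrZ, C.htE]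
  · linear_combination (3 / 25 * (25 / 34 * (1 - t) * (m * z + (1 + z)) - 1)) * C.hR

theorem Ctx.chkm (C : Ctx m z l t E Z r) (hz5 : z ≤ 1 / 5) (h1 : t ≤ 1) :
    ∀ Ee ∈ [C2, mono (G1 bU), mono (H1 bU)], 0 ≤ Ee.R t E Z :=
  use_chk chk_m (C.out1 hz5) (by norm_num)
      (by norm_num) (by norm_num) (by norm_num) (by norm_num) (by norm_num)
      (by push_cast; linarith only [C.ht0])
      (by push_cast; linarith only [h1]) (by push_cast; linarith only [C.hE0]) (by push_cast; linarith only [C.hE1])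
      (by push_cast; linarith only [C.hZ0]) (by push_cast; linarith only [C.hZ1])

theorem Ctx.mb (C : Ctx m z l t E Z r) (hz5 : z ≤ 1 / 5) (h0 : 17 / 20 ≤ t) (h1 : t ≤ 1)
    (h2 : E ≤ 3 / 10) :
    ∀ Ee ∈ [C2, mono (G1 bT), mono (H1 bT)], 0 ≤ Ee.R t E Z :=
  use_chk chk_mb (C.out1 hz5) (by norm_num)
      (by norm_num) (by norm_num) (by norm_num) (by norm_num) (by norm_num)
      (by push_cast; linarith only [h0])
      (by push_cast; linarith only [h1]) (by push_cast; linarith only [C.hE0]) (by push_cast; linarith only [h2])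
      (by push_cast; linarith only [C.hZ0]) (by push_cast; linarith only [C.hZ1])

theorem Ctx.a (C : Ctx m z l t E Z r) (hz5 : z ≤ 1 / 5) (h1 : t ≤ 17 / 20) (h2 : E ≤ 3 / 10) :
    ∀ Ee ∈ [hom (G1 bU) (G0 ⟨1, 3⟩), hom (H1 bU) (H0 ⟨47, 99⟩)], 0 ≤ Ee.R t E Z :=
  use_chk chk_a (C.out1 hz5) (by norm_num)
      (by norm_num) (by norm_num) (by norm_num) (by norm_num) (by norm_num)
      (by push_cast; linarith only [C.ht0])
      (by push_cast; linarith only [h1]) (by push_cast; linarith only [C.hE0]) (by push_cast; linarith only [h2])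
      (by push_cast; linarith only [C.hZ0]) (by push_cast; linarith only [C.hZ1])

theorem Ctx.b (C : Ctx m z l t E Z r) (hz5 : z ≤ 1 / 5) (h1 : t ≤ 17 / 20) (h2 : 3 / 10 ≤ E) :
    ∀ Ee ∈ [hom (G1 bU) (G0 ⟨3, 19⟩), hom (H1 bU) (H0 ⟨27, 99⟩)], 0 ≤ Ee.R t E Z :=
  use_chk chk_b (C.out1 hz5) (by norm_num)
      (by norm_num) (by norm_num) (by norm_num) (by norm_num) (by norm_num)
      (by push_cast; linarith only [C.ht0])
      (by push_cast; linarith only [h1]) (by push_cast; linarith) (by push_cast; linarith only [C.hE1])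
      (by push_cast; linarith only [C.hZ0]) (by push_cast; linarith only [C.hZ1])

theorem Ctx.chkc (C : Ctx m z l t E Z r) (hz5 : z ≤ 1 / 5) (h0 : 17 / 20 ≤ t) (h1 : t ≤ 1)
    (h2 : E ≤ 3 / 10) (hV : 0 ≤ 25 / 34 * (1 - t) * (m * z + (1 + z)) - 1) :
    ∀ Ee ∈ [hom (G1 bT) (G0 ⟨1, 3⟩), hom (H1 bT) (H0 ⟨47, 99⟩)], 0 ≤ Ee.R t E Z := by
  have hz'' : out2.R t E Z ≤ 0 := by
    have : out2.R t E Z = 0 - rU.R t E Z := by
      simp only [out2, Ex3.R_sub, Ex3.R_c, Fr.R]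
      norm_num
    rw [this, C.rU_eq]
    have := mul_nonneg C.hr0.le hV
    linarith only [this]
  have hLo2 : ∀ Ee ∈ [FXu.out1, out2], Ee.R t E Z ≤ 0 := by
    intro Ee hEe
    rcases List.mem_cons.1 hEe with h | h
    · exact C.out1 hz5 Ee (by rw [h]; simp)
    · rw [List.mem_singleton] at h
      rw [h]
      exact hz''
  exact use_chk chk_c hLo2 (by norm_num)
      (by norm_num) (by norm_num) (by norm_num) (by norm_num) (by norm_num)
      (by push_cast; linarith only [h0])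
      (by push_cast; linarith only [h1]) (by push_cast; linarith only [C.hE0]) (by push_cast; linarith only [h2])
      (by push_cast; linarith only [C.hZ0]) (by push_cast; linarith only [C.hZ1])

theorem Ctx.A (C : Ctx m z l t E Z r) (hz : 0 < z) (hz5 : z ≤ 1 / 5) (hs : 0 < s)
    (hsz : s ^ 2 = 1 - z) (hw : 9 ≤ m * z) (hl : 1 / 2 ≤ l)
    (hG : -(2 * (z * Real.exp (2 * l) - z) / (s * (1 + s))) + 2 * z * l / (s * (1 + s) ^ 2) ≤ G) :
    (m * z) ^ 2 * (c2r z r * (2 * l) ^ 2 + c1r z r * (2 * l) + c0r t E z r (10 / 33 * Z)) ≤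
      Apart m z s l G := by
  have hA := A_ge hz hz5 hs hsz hw C.hr (by linarith only [hl]) hG
  rw [C.hqZ, ← C.hE, ← C.ht] at hA
  exact hA

/-- the tail bound -/
theorem Ctx.V (C : Ctx m z l t E Z r) (hz : 0 < z) (hz5 : z ≤ 1 / 5) (hs : 0 < s)
    (hsz : s ^ 2 = 1 - z) (hw : 9 ≤ m * z) (h0 : 17 / 20 ≤ t) (h1 : t ≤ 1)
    (htail : 1 + u ≤ ((m + 1) * z + 1) / (2 * z) * ((Real.exp (-(2 * l)) - z) / s ^ 2)) :
    u ≤ 25 / 34 * (1 - t) * (m * z + (1 + z)) - 1 := by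
  have ht0 := C.ht0
  have e1 : ((m + 1) * z + 1) / (2 * z) * ((E - z) / s ^ 2) =
      (m * z + (1 + z)) * (1 - t) / (2 * t * s ^ 2) := by
    have hE0 := C.hE0
    have hz' : z = t * E := C.htE.symm
    have e2 : (E - z) / z = (1 - t) / t := by
      rw [hz']
      field_simp
    calc ((m + 1) * z + 1) / (2 * z) * ((E - z) / s ^ 2) =
        (m * z + (1 + z)) * ((E - z) / z) / (2 * s ^ 2) := by field_simp; ring
      _ = _ := by rw [e2]; field_simp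
  rw [← C.hE, e1] at htail
  have h3 : (m * z + (1 + z)) * (1 - t) / (2 * t * s ^ 2) ≤
      25 / 34 * (1 - t) * (m * z + (1 + z)) := by
    rw [div_le_iff₀ (by (clear * - h0 hs; positivity))]
    have h4 : 34 / 25 ≤ 2 * t * s ^ 2 := by
      rw [hsz]
      nlinarith only [hz5, h0]
    have h5 : 0 ≤ (1 - t) * (m * z + (1 + z)) := mul_nonneg (by linarith only [h1]) (by linarith only [hz, hw])
    have := mul_le_mul_of_nonneg_left h4 h5
    linarith only [this]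
  linarith only [htail, h3]

/-- **region `X ≥ 3`, `u ≥ 0`, `z ≤ 1/5`, `l ≥ 1/2`** -/
theorem region2 (hz : 0 < z) (hz5 : z ≤ 1 / 5)
    (hs : 0 < s) (hsz : s ^ 2 = 1 - z) (hw : 9 ≤ m * z) (hl : 1 / 2 ≤ l)
    (hT : z * Real.exp (2 * l) ≤ 1) (hcap : 33 / 10 ≤ m * z * Real.exp (-(2 * l)))
    (hu : 0 ≤ u) (hus : u * s ≤ 1)
    (htail : 1 + u ≤ ((m + 1) * z + 1) / (2 * z) * ((Real.exp (-(2 * l)) - z) / s ^ 2))
    (hc1 : 1 - 1 / (2 * m) ≤ c) (hc2 : c ≤ 1) (hN : Real.log (1 + u) - u ≤ N)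
    (hG : -(2 * (z * Real.exp (2 * l) - z) / (s * (1 + s))) + 2 * z * l / (s * (1 + s) ^ 2) ≤ G) :
    JTest (dpT m z s l u G N) (dpE m z s l u c N) (dpR m (z / s ^ 2)) u := by
  have hm : 45 ≤ m := by
    by_contra h
    push Not at h
    have := mul_lt_mul_of_pos_right h hz
    linarith only [hz5, hw, this]
  obtain ⟨t, E, Z, r, C⟩ := ctx hz hw hl hcap
  have hA := C.A hz hz5 hs hsz hw hl hG
  have hT' : t ≤ 1 := by rw [C.ht]; exact hT
  have hEe := C.hE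
  rcases le_or_gt t (17 / 20) with h1 | h1
  · -- `t ≤ 17/20`: `u ≤ 1/s`
    have hm' := C.chkm hz5 hT'
    have hV := Ub_ge hz hz5 hs hsz hus
    obtain ⟨hb, hbV⟩ := C.bU_eq
    rcases le_or_gt E (3 / 10) with h2 | h2
    · have hc := C.a hz5 h1 h2
      obtain ⟨f1, f2⟩ := from_chk (τf := ⟨1, 3⟩) (pf := ⟨47, 99⟩) (τ0 := 1 / 4) (p := 47 / 100)
        hEe hl C.htE C.hr C.hrZ hb hbV
        (by norm_num [Fr.R]) (by norm_num [Fr.R]) (hc _ (by simp)) (hc _ (by simp))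
        (hm' _ (by simp)) (hm' _ (by simp)) (hm' _ (by simp))
      rw [hEe] at f2
      have h3 : (11 : ℝ) ≤ m * z := C.w_ge hcap (by linarith only [h2])
      have h4 := rho_simple hm hz hs hsz hw h3
      exact fin2 (θ := 3 / 10) (θ1 := 14 / 25) (kr := 8 / 5) hm hz hz5 hs hsz hw hl hT hu hus hc1
        hc2 hN hV (hEe ▸ hA) (hEe ▸ f1) f2 (by norm_num) (by norm_num) (by norm_num)
        (by linarith only [h4]) (by norm_num) (by norm_num) (by norm_num) (by norm_num)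
    · have hc := C.b hz5 h1 h2.le
      obtain ⟨f1, f2⟩ := from_chk (τf := ⟨3, 19⟩) (pf := ⟨27, 99⟩) (τ0 := 3 / 20) (p := 27 / 100)
        hEe hl C.htE C.hr C.hrZ hb hbV
        (by norm_num [Fr.R]) (by norm_num [Fr.R]) (hc _ (by simp)) (hc _ (by simp))
        (hm' _ (by simp)) (hm' _ (by simp)) (hm' _ (by simp))
      rw [hEe] at f2
      have h4 := rho_simple hm hz hs hsz hw hw
      exact fin2 (θ := 1 / 5) (θ1 := 2 / 5) (kr := 7 / 5) hm hz hz5 hs hsz hw hl hT hu hus hc1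
        hc2 hN hV (hEe ▸ hA) (hEe ▸ f1) f2 (by norm_num) (by norm_num) (by norm_num)
        (by linarith only [h4]) (by norm_num) (by norm_num) (by norm_num) (by norm_num)
  · -- `t ≥ 17/20`: tail bound
    have hE2 : E ≤ 3 / 10 := by
      by_contra h
      push Not at h
      have h3 : 17 / 20 * (3 / 10) < t * E := mul_lt_mul h1 h.le (by norm_num) C.ht0.le
      rw [C.htE] at h3
      linarith only [hz5, h3]
    have hV := C.V hz hz5 hs hsz hw h1.le hT' htail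
    obtain ⟨hb, hbV⟩ := C.bT_eq
    have hm' := C.mb hz5 h1.le hT' hE2
    have hc := C.chkc hz5 h1.le hT' hE2 (hu.trans hV)
    obtain ⟨f1, f2⟩ := from_chk (τf := ⟨1, 3⟩) (pf := ⟨47, 99⟩) (τ0 := 1 / 4) (p := 47 / 100)
      hEe hl C.htE C.hr C.hrZ hb hbV
      (by norm_num [Fr.R]) (by norm_num [Fr.R]) (hc _ (by simp)) (hc _ (by simp))
      (hm' _ (by simp)) (hm' _ (by simp)) (hm' _ (by simp))
    rw [hEe] at f2
    have h3 : (11 : ℝ) ≤ m * z := C.w_ge hcap (by linarith only [hE2])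
    have h4 := rho_simple hm hz hs hsz hw h3
    exact fin2 (θ := 3 / 10) (θ1 := 14 / 25) (kr := 8 / 5) hm hz hz5 hs hsz hw hl hT hu hus hc1
      hc2 hN hV (hEe ▸ hA) (hEe ▸ f1) f2 (by norm_num) (by norm_num) (by norm_num)
      (by linarith only [h4]) (by norm_num) (by norm_num) (by norm_num) (by norm_num)

end FXu

end Vale.Agent.P237.AllN
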