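import Vale.Agent.P237.AllN.FXuC
import Vale.Agent.P237.AllN.FG1

/-!
# P237, block D, region `X ≥ 3`, `u ≥ 0`, `z ≤ 1/5`, `l ≤ 1/2`: the kernel-checked inequalities
-/

namespace Vale.Agent.P237.AllN

open PolyPos

namespace FXu

/-! `X = l`, `Y = z`, `Z = r` -/

def iz2 : Ex3 := Ex3.Y * Ex3.Y
def iz3 : Ex3 := iz2 * Ex3.Y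
def iz4 : Ex3 := iz2 * iz2
def iz5 : Ex3 := iz4 * Ex3.Y
def ir2 : Ex3 := Ex3.Z * Ex3.Z
/-- `(w + k z) r²` -/
def iwk (k : ℤ) : Ex3 := Ex3.Z * (Ex3.c ⟨1, 0⟩ + Ex3.c ⟨k, 0⟩ * Ex3.Y * Ex3.Z)
/-- quadratic in `l` -/
def iq (a b c : Fr) : Ex3 := Ex3.c a + Ex3.c b * Ex3.X + Ex3.c c * (Ex3.X * Ex3.X)
def iT5 : Ex3 := Ex3.c ⟨1, 0⟩ + Ex3.c ⟨5, 1⟩ * Ex3.Y + Ex3.c ⟨35, 7⟩ * iz2 + Ex3.c ⟨105, 15⟩ * iz3 +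
  Ex3.c ⟨1155, 127⟩ * iz4

def ikB : Ex3 := iwk 3 * iq ⟨4, 2⟩ ⟨-81, 124⟩ ⟨97, 499⟩ +
  Ex3.c ⟨3, 15⟩ * Ex3.Y * (iwk 5 * iq ⟨128, 2⟩ ⟨-21, 0⟩ ⟨617, 19⟩ - Ex3.c ⟨6, 0⟩ * ir2 * iq ⟨32, 2⟩ ⟨-1067, 99⟩ ⟨317, 49⟩) +
  Ex3.c ⟨5, 47⟩ * iz2 * (iwk 7 * iq ⟨216, 0⟩ ⟨-1049, 4⟩ ⟨637, 1⟩ - Ex3.c ⟨20, 0⟩ * ir2 * iq ⟨36, 0⟩ ⟨-54, 0⟩ ⟨212, 4⟩) +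
  Ex3.c ⟨35, 511⟩ * iz3 * (iwk 9 * iq ⟨2048, 2⟩ ⟨-989, 0⟩ ⟨1695, 0⟩ - Ex3.c ⟨42, 0⟩ * ir2 * iq ⟨256, 2⟩ ⟨-1707, 9⟩ ⟨797, 4⟩) +
  Ex3.c ⟨63, 1279⟩ * iz4 * (iwk 11 * iq ⟨5000, 2⟩ ⟨-3230, 0⟩ ⟨6397, 0⟩ - Ex3.c ⟨72, 0⟩ * ir2 * iq ⟨500, 2⟩ ⟨-4167, 9⟩ ⟨2192, 4⟩) +
  Ex3.c ⟨77, 2047⟩ * iz5 * (iwk 13 * iq ⟨3456, 0⟩ ⟨-8456, 0⟩ ⟨19775, 0⟩ - Ex3.c ⟨110, 0⟩ * ir2 * iq ⟨288, 0⟩ ⟨-864, 0⟩ ⟨9919, 9⟩)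

def iA : Ex3 := Ex3.c ⟨2, 0⟩ * iwk 3 - Ex3.X * ikB + Ex3.c ⟨3, 0⟩ * Ex3.Y * (Ex3.Z - Ex3.c ⟨3, 0⟩ * ir2) * iT5 -
  Ex3.Y * (Ex3.c ⟨3, 3⟩ + Ex3.c ⟨21, 4⟩ * Ex3.Y) * ir2 +
  Ex3.c ⟨3, 24⟩ * (Ex3.c ⟨1, 0⟩ + Ex3.c ⟨3, 0⟩ * Ex3.Y * Ex3.Z) *
    (Ex3.c ⟨1, 0⟩ + Ex3.Y + iz2 - Ex3.c ⟨3, 0⟩ * Ex3.Z) - Ex3.c ⟨7, 9⟩ * Ex3.Z - Ex3.c ⟨3, 24⟩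

theorem chk_iA : Ex3.nn (2 ^ 1024) 40 4000 0 1 2 0 1 5 0 1 9 iA = true := by decide +kernel

/-! `X = u`, `Y = z`, `Z = r` -/

def jh : Ex3 := Ex3.c ⟨2, 0⟩ + Ex3.c ⟨31, 24⟩ * Ex3.X
def jU : Ex3 := Ex3.c ⟨1, 0⟩ + Ex3.c ⟨1, 1⟩ * Ex3.Y + Ex3.c ⟨23, 49⟩ * (Ex3.Y * Ex3.Y)
def j1u : Ex3 := Ex3.c ⟨1, 0⟩ + Ex3.X
def jz : Ex3 := Ex3.c ⟨1, 0⟩ - Ex3.Y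
def ja : Ex3 := (Ex3.c ⟨9, 99⟩ + Ex3.c ⟨7, 9⟩ * Ex3.Z) * j1u +
  Ex3.c ⟨1471, 249⟩ * jz * (Ex3.X * Ex3.X) * (Ex3.Z * Ex3.Z)
def jg : Ex3 := Ex3.c ⟨4, 0⟩ * jz * jh - Ex3.c ⟨23, 10⟩ * jU * j1u - Ex3.c ⟨1, 4⟩ * j1u * jh
def jb : Ex3 := Ex3.c ⟨3, 24⟩ * (Ex3.c ⟨1, 0⟩ + Ex3.c ⟨3, 0⟩ * Ex3.Y * Ex3.Z) * j1u +
  Ex3.c ⟨4, 0⟩ * jz * Ex3.X * Ex3.Z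
def jT : Ex3 := ja * jg - jb * jb * jh

theorem chk_jT : Ex3.nn (2 ^ 1024) 40 4000 0 28 25 0 1 5 0 1 9 jT = true := by (clear * -; decide +kernel)

/-- sign of `e` -/
def je : Ex3 := Ex3.c ⟨3678, 2499⟩ * jz * Ex3.X * jh + Ex3.c ⟨2, 0⟩ * Ex3.Y * j1u * jh -
  Ex3.c ⟨2, 0⟩ * jU * Ex3.X * j1u

theorem chk_je : Ex3.nn (2 ^ 1024) 40 4000 0 28 25 0 1 5 0 1 9 je = true := by (clear * -; decide +kernel)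

/-- `B r` -/
def kB : Ex3 := (Ex3.c ⟨1, 0⟩ + Ex3.c ⟨4, 0⟩ * Ex3.Y + Ex3.c ⟨23, 24⟩ * (Ex3.Y * Ex3.Y)) * Ex3.Z +
  Ex3.c ⟨3, 24⟩ * (Ex3.c ⟨1, 0⟩ + Ex3.c ⟨3, 0⟩ * Ex3.Y * Ex3.Z) * jU
/-- `A r` -/
def kA : Ex3 := Ex3.c ⟨3, 49⟩ * (Ex3.c ⟨1, 0⟩ + Ex3.c ⟨3, 0⟩ * Ex3.Y * Ex3.Z) +
  (Ex3.c ⟨3, 0⟩ * Ex3.Y + Ex3.c ⟨23, 24⟩ * (Ex3.Y * Ex3.Y) + Ex3.c ⟨1, 19⟩) * Ex3.Z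
/-- `ρ r²` -/
def kρ : Ex3 := Ex3.c ⟨1, 4⟩ * (Ex3.Z * Ex3.Z) + Ex3.c ⟨1, 1⟩ * Ex3.Z * (Ex3.c ⟨1, 0⟩ + Ex3.Y + Ex3.Y * Ex3.Y) +
  Ex3.c ⟨1, 9⟩ * (Ex3.c ⟨1, 0⟩ - Ex3.c ⟨2, 0⟩ * Ex3.Y * Ex3.Z) *
    (Ex3.c ⟨1, 0⟩ + Ex3.c ⟨2, 0⟩ * Ex3.Y + Ex3.c ⟨3, 0⟩ * (Ex3.Y * Ex3.Y))
def kJ1 : Ex3 := Ex3.c ⟨7, 9⟩ * kρ - Ex3.c ⟨100, 2⟩ * (kB * Ex3.Z) * (kB * Ex3.Z) - Ex3.c ⟨5, 0⟩ * kA * kA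
def kJ2 : Ex3 := Ex3.c ⟨1, 4⟩ * kρ - Ex3.Z * (Ex3.c ⟨1, 1⟩ * kB + jU * kA)

theorem chk_J1 : Ex3.nn (2 ^ 1024) 40 4000 0 1 1 0 1 5 0 1 9 kJ1 = true := by (clear * -; decide +kernel)

theorem chk_J2 : Ex3.nn (2 ^ 1024) 40 4000 0 1 1 0 1 5 0 1 9 kJ2 = true := by (clear * -; decide +kernel)

theorem chk_G : Ex.nn (2 ^ 512) 40 4000 894 1000 1000 0 1 2 (fgE ⟨3, 3⟩ ⟨27, 9⟩ ⟨-153, 19⟩) = true := by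
  (clear * -; decide +kernel)

end FXu

end Vale.Agent.P237.AllN
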