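import Vale.Agent.P237.AllN.Kron3

/-!
# P237, block D, region `X ≥ 3`, `u ≥ 0`, `z ≤ 1/5`, `l ≥ 1/2`: the kernel-checked inequalities

Variables: `X = t = z e^{2l}`, `Y = E = e^{-2l}`, `Z = 33/(10 w E)`, `w = m z`; `r = 1/w = (10/33) Y Z`.
-/

namespace Vale.Agent.P237.AllN

open PolyPos

namespace FXu

def z1 : Ex3 := Ex3.X * Ex3.Y
def z2 : Ex3 := z1 * z1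
def z3 : Ex3 := z2 * z1
def z4 : Ex3 := z2 * z2
def z5 : Ex3 := z4 * z1
def z6 : Ex3 := z3 * z3
def t2 : Ex3 := Ex3.X * Ex3.X
def t3 : Ex3 := t2 * Ex3.X
def t4 : Ex3 := t2 * t2
def t5 : Ex3 := t4 * Ex3.X
def t6 : Ex3 := t3 * t3
def E2 : Ex3 := Ex3.Y * Ex3.Y
def E3 : Ex3 := E2 * Ex3.Y
def E4 : Ex3 := E2 * E2
def E5 : Ex3 := E4 * Ex3.Y
def E6 : Ex3 := E3 * E3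
def qq : Ex3 := Ex3.c ⟨10, 32⟩ * Ex3.Z
def rr : Ex3 := qq * Ex3.Y
/-- `r (1 + 3 z r)` -/
def R13 : Ex3 := rr * (Ex3.c ⟨1, 0⟩ + Ex3.c ⟨3, 0⟩ * z1 * rr)

def C2 : Ex3 := Ex3.c ⟨3, 99⟩ * (Ex3.c ⟨1, 0⟩ + Ex3.c ⟨3, 0⟩ * z1 * rr) *
    (Ex3.c ⟨1, 0⟩ + z1 + z2 - Ex3.c ⟨3, 0⟩ * rr) - Ex3.c ⟨88, 0⟩ * z6 * (rr * rr)

def C1 : Ex3 := R13 + Ex3.c ⟨1, 3⟩ * z1 * (rr * rr) +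
    Ex3.c ⟨3, 3⟩ * z1 * (Ex3.c ⟨2, 0⟩ * rr + rr * rr * (Ex3.c ⟨10, 0⟩ * z1 - Ex3.c ⟨3, 0⟩)) +
    Ex3.c ⟨5, 7⟩ * z2 * (Ex3.c ⟨3, 0⟩ * rr + rr * rr * (Ex3.c ⟨21, 0⟩ * z1 - Ex3.c ⟨10, 0⟩)) +
    Ex3.c ⟨35, 63⟩ * z3 * (Ex3.c ⟨4, 0⟩ * rr + rr * rr * (Ex3.c ⟨36, 0⟩ * z1 - Ex3.c ⟨21, 0⟩)) +
    Ex3.c ⟨63, 127⟩ * z4 * (Ex3.c ⟨5, 0⟩ * rr + rr * rr * (Ex3.c ⟨55, 0⟩ * z1 - Ex3.c ⟨36, 0⟩)) +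
    Ex3.c ⟨231, 511⟩ * z5 * (Ex3.c ⟨6, 0⟩ * rr + rr * rr * (Ex3.c ⟨78, 0⟩ * z1 - Ex3.c ⟨55, 0⟩))

def br2 : Ex3 := Ex3.c ⟨1, 3⟩ * z1 * (Ex3.c ⟨3, 0⟩ * E2 - Ex3.c ⟨2, 0⟩)
def br3 : Ex3 := Ex3.c ⟨1, 5⟩ * z2 * (Ex3.c ⟨5, 0⟩ * E3 - Ex3.c ⟨4, 0⟩)
def br4 : Ex3 := Ex3.c ⟨1, 7⟩ * z3 * (Ex3.c ⟨7, 0⟩ * E4 - Ex3.c ⟨6, 0⟩)
def br5 : Ex3 := Ex3.c ⟨1, 9⟩ * z4 * (Ex3.c ⟨9, 0⟩ * E5 - Ex3.c ⟨8, 0⟩)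
def br6 : Ex3 := Ex3.c ⟨1, 11⟩ * z5 * (Ex3.c ⟨11, 0⟩ * E6 - Ex3.c ⟨10, 0⟩)

def C0 : Ex3 := R13 * (Ex3.Y - Ex3.c ⟨1, 0⟩) -
    rr * rr * (Ex3.X - z1) * (Ex3.c ⟨1, 0⟩ + Ex3.c ⟨91, 99⟩ * z1) +
    Ex3.c ⟨3, 3⟩ * (rr * br2 - Ex3.c ⟨1, 3⟩ * qq * Ex3.X + rr * rr * (Ex3.c ⟨5, 0⟩ * (z1 * br2 - Ex3.c ⟨1, 3⟩ * t2) -
      Ex3.c ⟨3, 1⟩ * z1 * (E2 - Ex3.c ⟨1, 0⟩))) +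
    Ex3.c ⟨5, 7⟩ * (rr * br3 - Ex3.c ⟨1, 5⟩ * qq * t2 + rr * rr * (Ex3.c ⟨7, 0⟩ * (z1 * br3 - Ex3.c ⟨1, 5⟩ * t3) -
      Ex3.c ⟨10, 2⟩ * z2 * (E3 - Ex3.c ⟨1, 0⟩))) +
    Ex3.c ⟨35, 63⟩ * (rr * br4 - Ex3.c ⟨1, 7⟩ * qq * t3 + rr * rr * (Ex3.c ⟨9, 0⟩ * (z1 * br4 - Ex3.c ⟨1, 7⟩ * t4) -
      Ex3.c ⟨21, 3⟩ * z3 * (E4 - Ex3.c ⟨1, 0⟩))) +
    Ex3.c ⟨63, 127⟩ * (rr * br5 - Ex3.c ⟨1, 9⟩ * qq * t4 + rr * rr * (Ex3.c ⟨11, 0⟩ * (z1 * br5 - Ex3.c ⟨1, 9⟩ * t5) -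
      Ex3.c ⟨36, 4⟩ * z4 * (E5 - Ex3.c ⟨1, 0⟩))) +
    Ex3.c ⟨231, 511⟩ * (rr * br6 - Ex3.c ⟨1, 11⟩ * qq * t5 + rr * rr * (Ex3.c ⟨13, 0⟩ * (z1 * br6 - Ex3.c ⟨1, 11⟩ * t6) -
      Ex3.c ⟨55, 5⟩ * z5 * (E6 - Ex3.c ⟨1, 0⟩)))

def Ub : Ex3 := Ex3.c ⟨1, 0⟩ + Ex3.c ⟨1, 1⟩ * z1 + Ex3.c ⟨23, 49⟩ * z2
def K2 : Ex3 := Ex3.c ⟨13, 19⟩ + Ex3.c ⟨11, 9⟩ * z1
def NE : Ex3 := (Ex3.c ⟨1, 0⟩ - Ex3.Y) * (Ex3.c ⟨11, 0⟩ + Ex3.c ⟨38, 0⟩ * Ex3.Y + Ex3.c ⟨11, 0⟩ * E2)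
def DE : Ex3 := Ex3.c ⟨3, 0⟩ * (Ex3.c ⟨1, 0⟩ + Ex3.Y) * (Ex3.c ⟨1, 0⟩ + Ex3.c ⟨8, 0⟩ * Ex3.Y + E2)
/-- tail bound: `r u ≤ rU` -/
def rU : Ex3 := Ex3.c ⟨25, 33⟩ * (Ex3.c ⟨1, 0⟩ - Ex3.X) * (Ex3.c ⟨1, 0⟩ + (Ex3.c ⟨1, 0⟩ + z1) * rr) - rr
def bU : Ex3 := Ex3.c ⟨3, 24⟩ * (R13 * Ub)
def bT : Ex3 := Ex3.c ⟨3, 24⟩ * ((Ex3.c ⟨1, 0⟩ + Ex3.c ⟨3, 0⟩ * z1 * rr) * rU)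

/-- linear coefficient: `T`-inequality -/
def G1 (b : Ex3) : Ex3 := C1 - b
/-- constant coefficient: `T`-inequality -/
def G0 (τ : Fr) : Ex3 := C0 - rr * rr * K2 - Ex3.c τ * rr
/-- linear coefficient: `P`-inequality -/
def H1 (b : Ex3) : Ex3 := C1 - R13 - b - Ex3.c ⟨3, 4⟩ * z1 * (rr * rr)
/-- constant coefficient: `P`-inequality -/
def H0 (p : Fr) : Ex3 := C0 - R13 * (Ex3.Y - Ex3.c ⟨1, 0⟩) -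
  rr * rr * (Ex3.c ⟨3, 49⟩ + Ex3.c ⟨18, 4⟩ * z1) + Ex3.c p * rr
def hom (c1 c0 : Ex3) : Ex3 := C2 * (NE * NE) + c1 * (NE * DE) + c0 * (DE * DE)
def mono (c1 : Ex3) : Ex3 := c1 + Ex3.c ⟨19, 9⟩ * C2

def out1 : Ex3 := z1 - Ex3.c ⟨1, 4⟩
def out2 : Ex3 := Ex3.c ⟨0, 0⟩ - rU

theorem chk_a : tchk3 (2 ^ 1024) 40 4000 [[hom (G1 bU) (G0 ⟨1, 3⟩), hom (H1 bU) (H0 ⟨47, 99⟩)]] [out1]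
    (.sy (.leaf 0) (.sx (.leaf 0) (.sx (.leaf 0) (.sz (.leaf 0) (.sy (.leaf 0) (.sz (.leaf 0) (.sx (.sy (.leaf 0) (.sx (.leaf 0) (.sz (.leaf 0) (.sx (.leaf 0) (.sy (.leaf 0) (.out 0)))))) (.sy (.sz (.leaf 0) (.sx (.leaf 0) (.sy (.leaf 0) (.sx (.sy (.leaf 0) (.out 0)) (.out 0))))) (.sx (.sy (.sx (.leaf 0) (.out 0)) (.out 0)) (.out 0))))))))))
    0 17 20 0 3 10 0 1 1 = true := by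
  decide +kernel

theorem chk_b : tchk3 (2 ^ 1024) 40 4000 [[hom (G1 bU) (G0 ⟨3, 19⟩), hom (H1 bU) (H0 ⟨27, 99⟩)]] [out1]
    (.sx (.leaf 0) (.sz (.leaf 0) (.sx (.sy (.leaf 0) (.sx (.leaf 0) (.sx (.leaf 0) (.sx (.leaf 0) (.out 0))))) (.sx (.sy (.sx (.sy (.leaf 0) (.out 0)) (.out 0)) (.out 0)) (.out 0)))))
    0 17 20 300 368 1000 0 1 1 = true := by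
  decide +kernel

theorem chk_c : tchk3 (2 ^ 1024) 40 4000 [[hom (G1 bT) (G0 ⟨1, 3⟩), hom (H1 bT) (H0 ⟨47, 99⟩)]] [out1, out2]
    (.sy (.leaf 0) (.sz (.leaf 0) (.sz (.leaf 0) (.sy (.sz (.leaf 0) (.sx (.leaf 0) (.sx (.leaf 0) (.out 1)))) (.sx (.sy (.sy (.leaf 0) (.out 0)) (.out 0)) (.out 0))))))
    17 20 20 0 3 10 0 1 1 = true := by
  decide +kernel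

theorem chk_m : tchk3 (2 ^ 1024) 40 4000 [[C2, mono (G1 bU), mono (H1 bU)]] [out1]
    (.leaf 0)
    0 1 1 0 46 125 0 1 1 = true := by
  decide +kernel

theorem chk_mb : tchk3 (2 ^ 1024) 40 4000 [[C2, mono (G1 bT), mono (H1 bT)]] [out1]
    (.leaf 0)
    17 20 20 0 3 10 0 1 1 = true := by
  decide +kernel

end FXu

end Vale.Agent.P237.AllN
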