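import Vale.Agent.P237.AllN.KerL0
import Vale.Agent.P237.AllN.PolyArith

/-!
# P237, all dimensions: the plain tangent pair of the logarithmic kernel on `b ≤ 0`

If `l ≤ (1 - x²)(31/50 + 7/50 x²)` then the line `kAc x l + kAp x l * b` is below the kernel `kA`
for `b ≤ 0`.
-/

open MeasureTheory Metric Set Module Filter Topology

namespace Vale.Agent.P237.AllN

open PolyPos

/-- bound of the exponential -/
theorem sg_exp {w : ℝ} (h0 : 0 ≤ w) (h1 : w ≤ 1) :
    Real.exp w ≤ 1 + w + w ^ 2 / 2 + 2 * w ^ 3 / 9 := by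
  have h := Real.exp_bound' h0 h1 (n := 3) (by norm_num)
  simp only [Finset.sum_range_succ, Finset.range_one, Finset.sum_singleton, pow_zero, Nat.factorial, Nat.cast_one, ne_eq, one_ne_zero, not_false_eq_true, div_self, pow_one, Nat.succ_eq_add_one, zero_add, mul_one, div_one, Nat.reduceAdd, Nat.cast_ofNat, Nat.reduceMul] at h
  linarith only [h]

/-- `38 - 7 s²` -/
def sgV : List ℤ := [38, 0, -7]

/-- `s²(38 - 7 s²)` -/
def sgW : List ℤ := [0, 0, 38, 0, -7]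

/-- `1125000 (1 + w + w²/2 + 2w³/9)`, `w = W/50` -/
def sgE : List ℤ :=
  padd [1125000] (padd (psm 22500 sgW) (padd (psm 225 (ppow sgW 2)) (psm 2 (ppow sgW 3))))

/-- `50 (1 - V(1-s)(1+2s))` -/
def sgB1 : List ℤ := padd [50] (psm (-1) (pmul sgV [1, 1, -2]))

theorem ev_sgW (s : ℝ) : ev1 sgW s = s ^ 2 * (38 - 7 * s ^ 2) := by
  simp only [ev1, sgW, Int.reduceNeg, evL, Int.cast_zero, Int.cast_ofNat, Int.cast_neg, mul_zero, add_zero, mul_neg, zero_add]; ring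

theorem ev_sgE (s : ℝ) : ev1 sgE s = 1125000 * (1 + (s ^ 2 * (38 - 7 * s ^ 2) / 50) +
    (s ^ 2 * (38 - 7 * s ^ 2) / 50) ^ 2 / 2 + 2 * (s ^ 2 * (38 - 7 * s ^ 2) / 50) ^ 3 / 9) := by
  simp only [sgE, ev1_padd, ev1_psm, ev1_ppow, ev_sgW, ev1_cons, ev1_nil]
  push_cast
  ring

theorem ev_sgB1 (s : ℝ) : ev1 sgB1 s = 50 - (38 - 7 * s ^ 2) * ((1 - s) * (1 + 2 * s)) := by
  simp only [sgB1, sgV, ev1_padd, ev1_psm, ev1_pmul, ev1_cons, ev1_nil]
  push_cast
  ring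

/-- case A -/
theorem sg_A {s : ℝ} (h0 : 0 < s) (h1 : s < 1) {E : ℝ}
    (hE : E = 1 + (s ^ 2 * (38 - 7 * s ^ 2) / 50) +
    (s ^ 2 * (38 - 7 * s ^ 2) / 50) ^ 2 / 2 + 2 * (s ^ 2 * (38 - 7 * s ^ 2) / 50) ^ 3 / 9) :
    0 ≤ 1 - (38 - 7 * s ^ 2) / 50 * ((1 - s) * (1 + 2 * s)) - s * (1 + s) / 16 * E ^ 2 := by
  have h := check1_sound (A := 0) (B := 1) (D := 1) (by norm_num)
    (p := padd (psm (1125000 ^ 2 * 8) sgB1) (psm (-25) (pmul [0, 1, 1] (ppow sgE 2))))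
    (by (clear * -; decide +kernel)) (x := s) (by simpa only [Int.cast_zero, Int.cast_one, one_mul] using h0.le) (by simpa only [Int.cast_one, one_mul] using h1)
  simp only [ev1_padd, ev1_psm, ev1_pmul, ev1_ppow, ev_sgB1, ev_sgE, ← hE, ev1_cons, ev1_nil] at h
  push_cast at h
  linarith

/-- case B -/
theorem sg_B {s : ℝ} (h0 : 1 / 3 ≤ s) (h1 : s < 1) {E : ℝ}
    (hE : E = 1 + (s ^ 2 * (38 - 7 * s ^ 2) / 50) +
    (s ^ 2 * (38 - 7 * s ^ 2) / 50) ^ 2 / 2 + 2 * (s ^ 2 * (38 - 7 * s ^ 2) / 50) ^ 3 / 9) :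
    0 ≤ s * (1 + s) * (1 - (38 - 7 * s ^ 2) / 50 * ((1 - s) * (1 + 2 * s))) -
      s ^ 2 * (1 + s) ^ 2 / 16 * E ^ 2 -
      4 * E ^ 2 * ((38 - 7 * s ^ 2) / 50 * (1 + s) - 1) ^ 2 := by
  have h := check1_sound (A := 1) (B := 3) (D := 3) (by norm_num)
    (p := padd (psm (1125000 ^ 2 * 200) (pmul [0, 1, 1] sgB1))
      (padd (psm (-625) (pmul (ppow [0, 1, 1] 2) (ppow sgE 2)))
        (psm (-16) (pmul (ppow sgE 2) (ppow (padd (pmul sgV [1, 1]) [-50]) 2)))))
    (by (clear * -; decide +kernel)) (x := s) (by push_cast; linarith only [h0]) (by push_cast; linarith only [h1])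
  simp only [sgV, ev1_padd, ev1_psm, ev1_pmul, ev1_cons, ev1_nil, ev_sgB1, ev1_ppow, ev_sgE, ← hE] at h
  push_cast at h
  linarith

/-- case B with `v` and `Y` -/
theorem sg_B' {s v Y E : ℝ} (h0 : 1 / 3 ≤ s) (h1 : s < 1)
    (hE : E = 1 + (s ^ 2 * (38 - 7 * s ^ 2) / 50) +
    (s ^ 2 * (38 - 7 * s ^ 2) / 50) ^ 2 / 2 + 2 * (s ^ 2 * (38 - 7 * s ^ 2) / 50) ^ 3 / 9)
    (hv : v ≤ (38 - 7 * s ^ 2) / 50) (hv1 : 1 < v * (1 + s)) (hY : 0 ≤ Y) (hYE : Y ≤ E ^ 2) :
    -1 + v * ((1 - s) * (1 + 2 * s)) + s * (1 + s) / 16 * Y +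
      4 * (Y * (v * (1 + s) - 1) ^ 2) / (s * (1 + s)) ≤ 0 := by
  have hB := sg_B h0 h1 hE
  have hs0 : 0 < s := by linarith only [h0]
  have hss : 0 < s * (1 + s) := by positivity
  set V := (38 - 7 * s ^ 2) / 50 with hV
  have h2 : v * ((1 - s) * (1 + 2 * s)) ≤ V * ((1 - s) * (1 + 2 * s)) :=
    mul_le_mul_of_nonneg_right hv (mul_nonneg (by linarith only [h1]) (by linarith only [hs0]))
  have h3 : s * (1 + s) / 16 * Y ≤ s * (1 + s) / 16 * E ^ 2 :=
    mul_le_mul_of_nonneg_left hYE (by (clear * - h0; positivity))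
  have h4 : (v * (1 + s) - 1) ^ 2 ≤ (V * (1 + s) - 1) ^ 2 := by
    apply pow_le_pow_left₀ (by linarith only [hv1])
    have := mul_le_mul_of_nonneg_right hv (by linarith only [hs0] : 0 ≤ 1 + s)
    linarith only [this]
  have h5 : Y * (v * (1 + s) - 1) ^ 2 ≤ E ^ 2 * (V * (1 + s) - 1) ^ 2 :=
    mul_le_mul hYE h4 (sq_nonneg _) (by (clear * -; positivity))
  have h6 : 4 * (Y * (v * (1 + s) - 1) ^ 2) / (s * (1 + s)) ≤
      1 - V * ((1 - s) * (1 + 2 * s)) - s * (1 + s) / 16 * E ^ 2 := by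
    rw [div_le_iff₀ hss]
    have e : (1 - V * ((1 - s) * (1 + 2 * s)) - s * (1 + s) / 16 * E ^ 2) * (s * (1 + s)) =
        s * (1 + s) * (1 - V * ((1 - s) * (1 + 2 * s))) - s ^ 2 * (1 + s) ^ 2 / 16 * E ^ 2 := by
      ring
    rw [e]
    linarith only [hB, h5]
  linarith only [h2, h3, h6]

/-- case `l ≤ 0` -/
theorem sg_neg {s l Y : ℝ} (hs0 : 0 < s) (hs1 : s < 1) (hl0 : l ≤ 0) (hY : Y ≤ 1) :
    -(1 + 2 * l) * (1 / s - 1) + l * (1 - s ^ 2) / s ^ 3 + (1 - s ^ 2) * Y / 16 ≤ 0 := by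
  have e : -(1 + 2 * l) * (1 / s - 1) + l * (1 - s ^ 2) / s ^ 3 =
      (1 - s) / s * (-1 + l * ((1 + s - 2 * s ^ 2) / s ^ 2)) := by
    field_simp
    ring
  rw [e]
  have h3 : 0 ≤ (1 + s - 2 * s ^ 2) / s ^ 2 := div_nonneg (by nlinarith only [hs1, hs0]) (by positivity)
  have h4 : l * ((1 + s - 2 * s ^ 2) / s ^ 2) ≤ 0 := mul_nonpos_of_nonpos_of_nonneg hl0 h3
  have h5 : 0 < (1 - s) / s := div_pos (by linarith only [hs1]) hs0
  have h6 : (1 - s) / s * (-1 + l * ((1 + s - 2 * s ^ 2) / s ^ 2)) ≤ (1 - s) / s * (-1) :=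
    mul_le_mul_of_nonneg_left (by linarith only [h4]) h5.le
  have h7 : (1 - s ^ 2) * Y ≤ (1 - s ^ 2) * 1 :=
    mul_le_mul_of_nonneg_left hY (by nlinarith only [hs1, hs0])
  have h8 : (1 - s) / s * (-1) + (1 - s ^ 2) / 16 =
      -((1 - s) * (16 - s * (1 + s)) / (16 * s)) := by
    field_simp
    ring
  have h9 : 0 ≤ (1 - s) * (16 - s * (1 + s)) / (16 * s) :=
    div_nonneg (mul_nonneg (by linarith only [hs1]) (by nlinarith only [hs0, hs1])) (by positivity)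
  (clear * - h6 h7 h8 h9; linarith)

/-- The criterion of `kA_neg` for the plain tangent pair. -/
theorem kA_neg_plain {x l : ℝ} (hx : x ∈ Ioo (0 : ℝ) 1)
    (hl : l ≤ (1 - x ^ 2) * (31 / 50 + 7 / 50 * x ^ 2)) :
    kAc x l + (x * Real.exp l) ^ 2 / 16 + 4 * (min (kAp x l) 0) ^ 2 ≤ 0 := by
  obtain ⟨hs0, hs1, hxs⟩ := sq_facts hx
  have hx0 := hx.1
  unfold kAc kAp
  rw [hxs] at hl
  rw [mul_pow, hxs]
  set s := sq x with hs
  rcases le_or_gt l 0 with hl0 | hl0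
  · have hp : 0 ≤ x * Real.exp l * (1 / (s * (1 + s)) - l / s ^ 3) := by
      apply mul_nonneg (by (clear * - hx0; positivity))
      have h1 : 0 ≤ 1 / (s * (1 + s)) := by (clear * - hs0; positivity)
      have h2 : l / s ^ 3 ≤ 0 := div_nonpos_of_nonpos_of_nonneg hl0 (by positivity)
      (clear * - h1 h2; linarith)
    rw [min_eq_right hp]
    have he : Real.exp l ≤ 1 := Real.exp_le_one_iff.2 hl0
    have he2 : Real.exp l ^ 2 ≤ 1 := pow_le_one₀ (Real.exp_pos l).le he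
    have := sg_neg hs0 hs1 hl0 he2
    simpa only [neg_add_rev, one_div, ne_eq, OfNat.ofNat_ne_zero, not_false_eq_true, zero_pow, mul_zero, add_zero,     ge_iff_le] using this
  · obtain ⟨v, hv⟩ : ∃ v, l = v * s ^ 2 := ⟨l / s ^ 2, by (clear * - hs0 hl0; field_simp)⟩
    have hV : v ≤ (38 - 7 * s ^ 2) / 50 := by
      have h1 : v * s ^ 2 ≤ (38 - 7 * s ^ 2) / 50 * s ^ 2 := by
        rw [← hv]
        refine hl.trans (le_of_eq ?_)
        ring
      exact le_of_mul_le_mul_right h1 (by positivity)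
    set w : ℝ := s ^ 2 * (38 - 7 * s ^ 2) / 50 with hw
    have hlw : l ≤ w := by
      rw [hw]
      refine hl.trans (le_of_eq ?_)
      ring
    have hw0 : 0 ≤ w := hl0.le.trans hlw
    have hw1 : w ≤ 1 := by
      rw [hw]
      have : s ^ 2 ≤ 1 := by nlinarith only [hxs]
      nlinarith only [hxs]
    set E : ℝ := 1 + w + w ^ 2 / 2 + 2 * w ^ 3 / 9 with hE
    have hlE : Real.exp l ≤ E := (Real.exp_le_exp.2 hlw).trans (sg_exp hw0 hw1)
    have hY0 : 0 ≤ Real.exp l ^ 2 := by positivity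
    have hE2 : Real.exp l ^ 2 ≤ E ^ 2 := pow_le_pow_left₀ (Real.exp_pos l).le hlE 2
    have hA := sg_A hs0 hs1 (E := E) hE
    have hBB := fun h0 h1 => sg_B' (v := v) (Y := Real.exp l ^ 2) h0 hs1 hE hV h1 hY0 hE2
    clear_value E w
    set Y := Real.exp l ^ 2 with hYd
    have e : -(1 + 2 * l) * (1 / s - 1) + l * (1 - s ^ 2) / s ^ 3 =
        (1 - s) / s * (-1 + v * ((1 - s) * (1 + 2 * s))) := by
      rw [hv]
      field_simp
      ring
    rw [e]
    have h5 : 0 < (1 - s) / s := div_pos (by linarith only [hs1]) hs0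
    have h12 : (1 - s ^ 2) * Y / 16 = (1 - s) / s * (s * (1 + s) / 16 * Y) := by
      field_simp
      ring
    rw [h12]
    have ep : 1 / (s * (1 + s)) - l / s ^ 3 = (1 - v * (1 + s)) / (s * (1 + s)) := by
      rw [hv]
      (clear * - hs0; field_simp)
    rw [ep]
    rcases le_or_gt (v * (1 + s)) 1 with hc | hc
    · have hp : 0 ≤ x * Real.exp l * ((1 - v * (1 + s)) / (s * (1 + s))) :=
        mul_nonneg (by positivity) (div_nonneg (by linarith only [hc]) (by positivity))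
      rw [min_eq_right hp]
      have h10 : 0 ≤ (1 - s) * (1 + 2 * s) := mul_nonneg (by linarith only [hs1]) (by linarith only [hs0])
      have h11 := mul_le_mul_of_nonneg_right hV h10
      have h13 : s * (1 + s) / 16 * Y ≤ s * (1 + s) / 16 * E ^ 2 :=
        mul_le_mul_of_nonneg_left hE2 (by positivity)
      have h15 : (1 - s) / s * (-1 + v * ((1 - s) * (1 + 2 * s))) +
          (1 - s) / s * (s * (1 + s) / 16 * Y) ≤ 0 := by
        rw [← mul_add]
        exact mul_nonpos_of_nonneg_of_nonpos h5.le (by linarith only [hA, h11, h13])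
      linarith only [h15]
    · have hp : x * Real.exp l * ((1 - v * (1 + s)) / (s * (1 + s))) ≤ 0 :=
        mul_nonpos_of_nonneg_of_nonpos (by positivity)
          (div_nonpos_of_nonpos_of_nonneg (by linarith only [hc]) (by positivity))
      rw [min_eq_left hp]
      have hs3 : 1 / 3 ≤ s := by
        have hVc : 1 < (38 - 7 * s ^ 2) / 50 * (1 + s) :=
          hc.trans_le (mul_le_mul_of_nonneg_right hV (by linarith only [hs0]))
        by_contra h
        push Not at h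
        have k1 : 0 ≤ (1 / 3 - s) * (107 / 3 - 7 * s) := mul_nonneg (by linarith only [h]) (by linarith only [h])
        have k2 : 0 < s ^ 3 := by positivity
        have k3 : (38 - 7 * s ^ 2) / 50 * (1 + s) =
          1 - ((1 / 3 - s) * (107 / 3 - 7 * s) + 1 / 9 + 7 * s ^ 3) / 50 := by ring
        linarith only [hVc, k1, k2]
      have h17 : 4 * (x * Real.exp l * ((1 - v * (1 + s)) / (s * (1 + s)))) ^ 2 =
          (1 - s) / s * (4 * (Y * (v * (1 + s) - 1) ^ 2) / (s * (1 + s))) := by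
        have : (x * Real.exp l * ((1 - v * (1 + s)) / (s * (1 + s)))) ^ 2 =
            x ^ 2 * Y * (v * (1 + s) - 1) ^ 2 / (s * (1 + s)) ^ 2 := by
          rw [mul_pow, mul_pow, div_pow, ← hYd]
          ring
        rw [this, hxs]
        field_simp
        ring
      rw [h17, ← mul_add, ← mul_add]
      exact mul_nonpos_of_nonneg_of_nonpos h5.le (hBB hs3 hc)

end Vale.Agent.P237.AllN
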