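import Vale.Agent.P237.AllN.Apri
import Vale.Agent.P237.AllN.ApriNum
import Vale.Agent.P237.AllN.PolyArith
import Vale.Agent.P237.AllN.Sgn

/-!
# P237, dimensions 5..8: the upper bound for `l = log (τ/x)` needed on `b ≤ 0`

For `m = 4, 5, 6, 7` and profiles with `N ≤ N_B`: `τ(x) ≤ x exp((1 - x²)(31/50 + 7/50 x²))`.
-/

open MeasureTheory Metric Set Module Filter Topology

namespace Vale.Agent.P237.AllN

open PolyPos

/-- the polynomials -/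
def slY : List ℤ := [31, 0, -24, 0, -7]

/-- `750000 x (1 + y + y²/2 + y³/6)`, `y = Y/50` -/
def slT : List ℤ :=
  pmul [0, 1] (padd [750000] (padd (psm 15000 slY) (padd (psm 150 (ppow slY 2)) (ppow slY 3))))

/-- `5000000 (1 - 3/20 T)` -/
def slB : List ℤ := padd [5000000] (psm (-1) slT)

/-- lower bound of `x exp((1-x²)(31/50+7/50x²))` -/
noncomputable def slLow (x : ℝ) : ℝ :=
  x * (1 + (1 - x ^ 2) * (31 / 50 + 7 / 50 * x ^ 2) +
    ((1 - x ^ 2) * (31 / 50 + 7 / 50 * x ^ 2)) ^ 2 / 2 +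
    ((1 - x ^ 2) * (31 / 50 + 7 / 50 * x ^ 2)) ^ 3 / 6)

theorem ev_slB (x : ℝ) : ev1 slB x = 5000000 * (1 - 3 / 20 * slLow x) := by
  simp only [slB, slT, slY, slLow, ev1_padd, ev1_psm, ev1_pmul, ev1_ppow, ev1_cons, ev1_nil]
  push_cast
  ring

theorem slLow_le {x : ℝ} (hx : x ∈ Ioo (0 : ℝ) 1) :
    slLow x ≤ x * Real.exp ((1 - x ^ 2) * (31 / 50 + 7 / 50 * x ^ 2)) := by
  unfold slLow
  apply mul_le_mul_of_nonneg_left _ hx.1.le
  have h0 : 0 ≤ (1 - x ^ 2) * (31 / 50 + 7 / 50 * x ^ 2) :=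
    mul_nonneg (by nlinarith [hx.1, hx.2]) (by positivity)
  have h := Real.sum_le_exp_of_nonneg h0 4
  simp [Finset.sum_range_succ, Nat.factorial] at h
  linarith

theorem slLow_pos {x : ℝ} (hx : x ∈ Ioo (0 : ℝ) 1) : 0 < slLow x := by
  unfold slLow
  have h0 : 0 ≤ (1 - x ^ 2) * (31 / 50 + 7 / 50 * x ^ 2) :=
    mul_nonneg (by nlinarith [hx.1, hx.2]) (by positivity)
  have hx0 := hx.1
  positivity

theorem slLow_lt {x : ℝ} (hx : x ∈ Ioo (0 : ℝ) 1) : slLow x < 3 := by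
  unfold slLow
  have hx2 : x ^ 2 ≤ 1 := by nlinarith [hx.1, hx.2]
  have h0 : 0 ≤ (1 - x ^ 2) * (31 / 50 + 7 / 50 * x ^ 2) :=
    mul_nonneg (by linarith) (by positivity)
  have h1 : (1 - x ^ 2) * (31 / 50 + 7 / 50 * x ^ 2) ≤ 1 := by nlinarith [sq_nonneg x]
  set y := (1 - x ^ 2) * (31 / 50 + 7 / 50 * x ^ 2)
  have h2 : y ^ 2 ≤ 1 := pow_le_one₀ h0 h1
  have h3 : y ^ 3 ≤ 1 := pow_le_one₀ h0 h1
  have h4 : x * (1 + y + y ^ 2 / 2 + y ^ 3 / 6) ≤ 1 * (1 + y + y ^ 2 / 2 + y ^ 3 / 6) :=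
    mul_le_mul_of_nonneg_right hx.2.le (by positivity)
  linarith

theorem sl_close {m : ℕ} {κ τ t Z C P : ℝ} (hκ : 0 < κ) (hκτ : κ * τ ≤ 1) (hZ : 0 < Z)
    (h1 : (1 - (1 - κ * τ) ^ (m + 1)) * Z ≤ C * P) (h2 : C * P ≤ (1 - (1 - κ * t) ^ (m + 1)) * Z) :
    τ ≤ t := by
  by_contra h
  push Not at h
  have h3 : 1 - κ * τ < 1 - κ * t := by nlinarith
  have h4 : (1 - κ * τ) ^ (m + 1) < (1 - κ * t) ^ (m + 1) :=
    pow_lt_pow_left₀ h3 (by linarith) (by omega)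
  have h5 := h1.trans h2
  have h6 := le_of_mul_le_mul_right h5 hZ
  linarith

theorem sl_int_le {m : ℕ} {Q q : ℝ → ℝ} {x : ℝ} (hx : x ∈ Ioo (0 : ℝ) 1)
    (hQ : ∀ t, HasDerivAt Q (q t) t) (hq : Continuous q) (h0 : Q 0 = 0)
    (h : ∀ t ∈ Icc (0 : ℝ) x, sq t ^ m ≤ q t) : ∫ t in (0 : ℝ)..x, sq t ^ m ≤ Q x := by
  have h1 : ∫ t in (0 : ℝ)..x, q t = Q x - Q 0 :=
    intervalIntegral.integral_eq_sub_of_hasDerivAt (fun t _ => hQ t) (hq.intervalIntegrable _ _)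
  have h2 : ∫ t in (0 : ℝ)..x, sq t ^ m ≤ ∫ t in (0 : ℝ)..x, q t := by
    apply intervalIntegral.integral_mono_on hx.1.le _ (hq.intervalIntegrable _ _) h
    have : Continuous fun t => sq t ^ m := by unfold sq; fun_prop
    exact this.intervalIntegrable _ _
  rw [h1, h0, sub_zero] at h2
  exact h2

theorem sq_le_poly {t : ℝ} (h0 : 0 ≤ t) (h1 : t ≤ 1) :
    sq t ≤ 1 - t ^ 2 / 2 - t ^ 4 / 8 - t ^ 6 / 16 := by
  have ht : t ^ 2 ≤ 1 := by nlinarith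
  have h4 : t ^ 4 ≤ 1 := pow_le_one₀ h0 h1
  have h6 : t ^ 6 ≤ 1 := pow_le_one₀ h0 h1
  unfold sq
  rw [Real.sqrt_le_left (by linarith)]
  have e : (1 - t ^ 2 / 2 - t ^ 4 / 8 - t ^ 6 / 16) ^ 2 =
    1 - t ^ 2 + (5 / 64 * t ^ 8 + t ^ 10 / 64 + t ^ 12 / 256) := by ring
  rw [e]
  have : 0 ≤ 5 / 64 * t ^ 8 + t ^ 10 / 64 + t ^ 12 / 256 := by positivity
  linarith

theorem sq_sq {t : ℝ} (h0 : 0 ≤ t) (h1 : t ≤ 1) : sq t ^ 2 = 1 - t ^ 2 := by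
  unfold sq
  exact Real.sq_sqrt (by nlinarith)

theorem sl_int4 {x : ℝ} (hx : x ∈ Ioo (0 : ℝ) 1) :
    ∫ t in (0 : ℝ)..x, sq t ^ 4 ≤ (15 * x - 10 * x ^ 3 + 3 * x ^ 5) / 15 := by
  apply sl_int_le (Q := fun x => (15 * x - 10 * x ^ 3 + 3 * x ^ 5) / 15)
    (q := fun t => (1 - t ^ 2) ^ 2) hx _ (by fun_prop) (by norm_num)
  · intro t ht
    have := sq_sq ht.1 (ht.2.trans hx.2.le)
    calc sq t ^ 4 = (sq t ^ 2) ^ 2 := by ring
      _ ≤ (1 - t ^ 2) ^ 2 := by rw [this]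
  · intro t
    have := ((((hasDerivAt_id t).const_mul 15).sub ((hasDerivAt_pow 3 t).const_mul 10)).add
      ((hasDerivAt_pow 5 t).const_mul 3)).div_const 15
    refine HasDerivAt.congr_deriv this ?_
    push_cast
    ring

theorem sl_P4 {x : ℝ} (hx : x ∈ Ioo (0 : ℝ) 1) (h34 : x < 3 / 4) :
    (1 - (1 - 3 / 20) ^ (4 + 1)) * (∫ t in (0 : ℝ)..x, sq t ^ 4) ≤
      (1 - (1 - 3 / 20 * slLow x) ^ (4 + 1)) * (∫ t in (0 : ℝ)..1, sq t ^ 4) := by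
  have hP := sl_int4 hx
  have h := check1_sound (A := 0) (B := 3) (D := 4) (by norm_num)
    (p := padd (psm 8 (padd [5000000 ^ 5] (psm (-1) (ppow slB 5))))
      (psm (-(5000000 ^ 5 - 4250000 ^ 5)) [0, 15, 0, -10, 0, 3]))
    (by decide +kernel) (x := x) (by simpa using hx.1.le) (by push_cast; linarith)
  simp only [ev1_padd, ev1_psm, ev1_ppow, ev_slB, ev1_cons, ev1_nil] at h
  rw [ap_Z4]
  push_cast at h
  have h3 : (1 - (1 - 3 / 20 : ℝ) ^ (4 + 1)) * (∫ t in (0 : ℝ)..x, sq t ^ 4) ≤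
      (1 - (1 - 3 / 20 : ℝ) ^ (4 + 1)) * ((15 * x - 10 * x ^ 3 + 3 * x ^ 5) / 15) :=
    mul_le_mul_of_nonneg_left hP (by norm_num)
  refine h3.trans ?_
  set S := (1 - 3 / 20 * slLow x) with hS
  rw [mul_pow] at h
  norm_num at h ⊢
  linarith

theorem sl_int6 {x : ℝ} (hx : x ∈ Ioo (0 : ℝ) 1) :
    ∫ t in (0 : ℝ)..x, sq t ^ 6 ≤
    (35 * x - 35 * x ^ 3 + 21 * x ^ 5 - 5 * x ^ 7) / 35 := by
  apply sl_int_le (Q := fun x => (35 * x - 35 * x ^ 3 + 21 * x ^ 5 - 5 * x ^ 7) / 35)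
    (q := fun t => (1 - t ^ 2) ^ 3) hx _ (by fun_prop) (by norm_num)
  · intro t ht
    have := sq_sq ht.1 (ht.2.trans hx.2.le)
    calc sq t ^ 6 = (sq t ^ 2) ^ 3 := by ring
      _ ≤ (1 - t ^ 2) ^ 3 := by rw [this]
  · intro t
    have := (((((hasDerivAt_id t).const_mul 35).sub ((hasDerivAt_pow 3 t).const_mul 35)).add
      ((hasDerivAt_pow 5 t).const_mul 21)).sub ((hasDerivAt_pow 7 t).const_mul 5)).div_const 35
    refine HasDerivAt.congr_deriv this ?_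
    push_cast
    ring

theorem sl_P6 {x : ℝ} (hx : x ∈ Ioo (0 : ℝ) 1) (h34 : x < 3 / 4) :
    (1 - (1 - 3 / 20) ^ (6 + 1)) * (∫ t in (0 : ℝ)..x, sq t ^ 6) ≤
      (1 - (1 - 3 / 20 * slLow x) ^ (6 + 1)) * (∫ t in (0 : ℝ)..1, sq t ^ 6) := by
  have hP := sl_int6 hx
  have h := check1_sound (A := 0) (B := 3) (D := 4) (by norm_num)
    (p := padd (psm 16 (padd [5000000 ^ 7] (psm (-1) (ppow slB 7))))
      (psm (-(5000000 ^ 7 - 4250000 ^ 7)) [0, 35, 0, -35, 0, 21, 0, -5]))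
    (by decide +kernel) (x := x) (by simpa using hx.1.le) (by push_cast; linarith)
  simp only [ev1_padd, ev1_psm, ev1_ppow, ev_slB, ev1_cons, ev1_nil] at h
  rw [ap_Z6]
  push_cast at h
  have h3 : (1 - (1 - 3 / 20 : ℝ) ^ (6 + 1)) * (∫ t in (0 : ℝ)..x, sq t ^ 6) ≤
      (1 - (1 - 3 / 20 : ℝ) ^ (6 + 1)) * ((35 * x - 35 * x ^ 3 + 21 * x ^ 5 - 5 * x ^ 7) / 35) :=
    mul_le_mul_of_nonneg_left hP (by norm_num)
  refine h3.trans ?_
  set S := (1 - 3 / 20 * slLow x) with hS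
  rw [mul_pow] at h
  norm_num at h ⊢
  linarith

theorem sl_int5 {x : ℝ} (hx : x ∈ Ioo (0 : ℝ) 1) :
    ∫ t in (0 : ℝ)..x, sq t ^ 5 ≤
    (3696 * x - 3080 * x ^ 3 + 1386 * x ^ 5 - 165 * x ^ 7 - 21 * x ^ 11) / 3696 := by
  apply sl_int_le
    (Q := fun x => (3696 * x - 3080 * x ^ 3 + 1386 * x ^ 5 - 165 * x ^ 7 - 21 * x ^ 11) / 3696)
    (q := fun t => (1 - t ^ 2 / 2 - t ^ 4 / 8 - t ^ 6 / 16) * (1 - t ^ 2) ^ 2) hx _
    (by fun_prop) (by norm_num)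
  · intro t ht
    have h2 := sq_sq ht.1 (ht.2.trans hx.2.le)
    calc sq t ^ 5 = sq t * (sq t ^ 2) ^ 2 := by ring
      _ ≤ (1 - t ^ 2 / 2 - t ^ 4 / 8 - t ^ 6 / 16) * (1 - t ^ 2) ^ 2 := by
        rw [h2]
        exact mul_le_mul_of_nonneg_right (sq_le_poly ht.1 (ht.2.trans hx.2.le)) (sq_nonneg _)
  · intro t
    have := ((((((hasDerivAt_id t).const_mul 3696).sub
      ((hasDerivAt_pow 3 t).const_mul 3080)).add ((hasDerivAt_pow 5 t).const_mul 1386)).sub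
      ((hasDerivAt_pow 7 t).const_mul 165)).sub
      ((hasDerivAt_pow 11 t).const_mul 21)).div_const 3696
    refine HasDerivAt.congr_deriv this ?_
    push_cast
    ring

theorem sl_P5 {x : ℝ} (hx : x ∈ Ioo (0 : ℝ) 1) (h34 : x < 3 / 4) :
    (1 - (1 - 3 / 20) ^ (5 + 1)) * (∫ t in (0 : ℝ)..x, sq t ^ 5) ≤
      (1 - (1 - 3 / 20 * slLow x) ^ (5 + 1)) * (157 / 320) := by
  have hP := sl_int5 hx
  have h := check1_sound (A := 0) (B := 3) (D := 4) (by norm_num)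
    (p := padd (psm (157 * 231) (padd [5000000 ^ 6] (psm (-1) (ppow slB 6))))
      (psm (-(20 * (5000000 ^ 6 - 4250000 ^ 6)))
        [0, 3696, 0, -3080, 0, 1386, 0, -165, 0, 0, 0, -21]))
    (by decide +kernel) (x := x) (by simpa using hx.1.le) (by push_cast; linarith)
  simp only [ev1_padd, ev1_psm, ev1_ppow, ev_slB, ev1_cons, ev1_nil] at h
  push_cast at h
  have h3 : (1 - (1 - 3 / 20 : ℝ) ^ (5 + 1)) * (∫ t in (0 : ℝ)..x, sq t ^ 5) ≤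
      (1 - (1 - 3 / 20 : ℝ) ^ (5 + 1)) *
        ((3696 * x - 3080 * x ^ 3 + 1386 * x ^ 5 - 165 * x ^ 7 - 21 * x ^ 11) / 3696) :=
    mul_le_mul_of_nonneg_left hP (by norm_num)
  refine h3.trans ?_
  set S := (1 - 3 / 20 * slLow x) with hS
  rw [mul_pow] at h
  norm_num at h ⊢
  linarith

theorem sl_int7 {x : ℝ} (hx : x ∈ Ioo (0 : ℝ) 1) :
    ∫ t in (0 : ℝ)..x, sq t ^ 7 ≤
    (20592 * x - 24024 * x ^ 3 + 18018 * x ^ 5 - 6435 * x ^ 7 + 715 * x ^ 9 - 117 * x ^ 11 +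
      99 * x ^ 13) / 20592 := by
  apply sl_int_le
    (Q := fun x => (20592 * x - 24024 * x ^ 3 + 18018 * x ^ 5 - 6435 * x ^ 7 + 715 * x ^ 9 -
      117 * x ^ 11 + 99 * x ^ 13) / 20592)
    (q := fun t => (1 - t ^ 2 / 2 - t ^ 4 / 8 - t ^ 6 / 16) * (1 - t ^ 2) ^ 3) hx _
    (by fun_prop) (by norm_num)
  · intro t ht
    have h2 := sq_sq ht.1 (ht.2.trans hx.2.le)
    calc sq t ^ 7 = sq t * (sq t ^ 2) ^ 3 := by ring
      _ ≤ (1 - t ^ 2 / 2 - t ^ 4 / 8 - t ^ 6 / 16) * (1 - t ^ 2) ^ 3 := by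
        rw [h2]
        refine mul_le_mul_of_nonneg_right (sq_le_poly ht.1 (ht.2.trans hx.2.le)) ?_
        rw [← h2]
        positivity
  · intro t
    have := ((((((((hasDerivAt_id t).const_mul 20592).sub
      ((hasDerivAt_pow 3 t).const_mul 24024)).add ((hasDerivAt_pow 5 t).const_mul 18018)).sub
      ((hasDerivAt_pow 7 t).const_mul 6435)).add ((hasDerivAt_pow 9 t).const_mul 715)).sub
      ((hasDerivAt_pow 11 t).const_mul 117)).add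
      ((hasDerivAt_pow 13 t).const_mul 99)).div_const 20592
    refine HasDerivAt.congr_deriv this ?_
    push_cast
    ring

/-- the polynomial for `m = 7` -/
def slP7 : List ℤ := padd (psm 1414413 (padd [5000000 ^ 8] (psm (-1) (ppow slB 8))))
      (psm (-(160 * (5000000 ^ 8 - 4250000 ^ 8)))
        [0, 20592, 0, -24024, 0, 18018, 0, -6435, 0, 715, 0, -117, 0, 99])

theorem slP7_check : check1 0 3 4 slP7 = true := by decide +kernel

theorem sl_chk7 {x : ℝ} (hx : x ∈ Ioo (0 : ℝ) 1) (h34 : x < 3 / 4) :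
    0 ≤ 1414413 * (5000000 ^ 8 - ev1 slB x ^ 8) - (160 * (5000000 ^ 8 - 4250000 ^ 8)) *
      (20592 * x - 24024 * x ^ 3 + 18018 * x ^ 5 - 6435 * x ^ 7 + 715 * x ^ 9 - 117 * x ^ 11 +
        99 * x ^ 13) := by
  have h0 : ((0 : ℤ) : ℝ) ≤ ((4 : ℤ) : ℝ) * x := by push_cast; linarith [hx.1]
  have h1 : ((4 : ℤ) : ℝ) * x < ((3 : ℤ) : ℝ) := by push_cast; linarith
  have h := check1_sound (by norm_num) slP7_check h0 h1
  simp only [slP7, ev1_padd, ev1_psm, ev1_ppow, ev1_cons, ev1_nil] at h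
  refine h.trans (le_of_eq ?_)
  generalize ev1 slB x = B
  push_cast
  ring

theorem sl_fin7 {S Q I : ℝ} (hQ : I ≤ Q / 20592)
    (h : 0 ≤ 1414413 * (5000000 ^ 8 - (5000000 * S) ^ 8) -
      (160 * (5000000 ^ 8 - 4250000 ^ 8)) * Q) :
    (1 - (1 - 3 / 20) ^ (7 + 1)) * I ≤ (1 - S ^ (7 + 1)) * (1099 / 2560) := by
  have h3 : (1 - (1 - 3 / 20 : ℝ) ^ (7 + 1)) * I ≤ (1 - (1 - 3 / 20 : ℝ) ^ (7 + 1)) * (Q / 20592) :=
    mul_le_mul_of_nonneg_left hQ (by norm_num)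
  refine h3.trans ?_
  rw [mul_pow] at h
  norm_num at h ⊢
  linarith

theorem sl_P7 {x : ℝ} (hx : x ∈ Ioo (0 : ℝ) 1) (h34 : x < 3 / 4) :
    (1 - (1 - 3 / 20) ^ (7 + 1)) * (∫ t in (0 : ℝ)..x, sq t ^ 7) ≤
      (1 - (1 - 3 / 20 * slLow x) ^ (7 + 1)) * (1099 / 2560) := by
  have h := sl_chk7 hx h34
  rw [ev_slB] at h
  exact sl_fin7 (sl_int7 hx) h

/-- the polynomial near `x = 1` -/
def slR : List ℤ :=
  padd (pmul [0, 1] (padd [93750] (padd (psm 3750 [31, -24, -7])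
    (padd (psm 75 (ppow [31, -24, -7] 2)) (ppow [31, -24, -7] 3))))) [-93750]

theorem slR_check : check1 11 20 20 slR = true := by decide +kernel

theorem sl_near {x : ℝ} (hx : x ∈ Ioo (0 : ℝ) 1) (h34 : 3 / 4 ≤ x) :
    1 ≤ x * Real.exp ((1 - x ^ 2) * (31 / 50 + 7 / 50 * x ^ 2)) := by
  have hx0 := hx.1
  have hz1 : x ^ 2 < 1 := by nlinarith [hx.2]
  have h0 : ((11 : ℤ) : ℝ) ≤ ((20 : ℤ) : ℝ) * x ^ 2 := by push_cast; nlinarith
  have h1 : ((20 : ℤ) : ℝ) * x ^ 2 < ((20 : ℤ) : ℝ) := by push_cast; linarith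
  have h := check1_sound (by norm_num) slR_check h0 h1
  simp only [slR, ev1_padd, ev1_psm, ev1_pmul, ev1_ppow, ev1_cons, ev1_nil] at h
  push_cast at h
  set z := x ^ 2 with hz
  have hY0 : 0 ≤ 2 * ((1 - z) * (31 / 50 + 7 / 50 * z)) :=
    mul_nonneg (by norm_num) (mul_nonneg (by linarith) (by positivity))
  have hexp := Real.sum_le_exp_of_nonneg hY0 4
  simp [Finset.sum_range_succ, Nat.factorial] at hexp
  set y := (1 - z) * (31 / 50 + 7 / 50 * z) with hy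
  have h2 : 1 ≤ z * Real.exp (2 * y) := by
    have h3 : z * (1 + 2 * y + (2 * y) ^ 2 / 2 + (2 * y) ^ 3 / 6) ≤ z * Real.exp (2 * y) :=
      mul_le_mul_of_nonneg_left hexp (by positivity)
    refine le_trans ?_ h3
    rw [hy]
    nlinarith
  have h4 : z * Real.exp (2 * y) = (x * Real.exp y) ^ 2 := by
    rw [hz, mul_pow, ← Real.exp_nat_mul]
    norm_num
  rw [h4] at h2
  have h5 : 0 ≤ x * Real.exp y := by positivity
  nlinarith

/-- **Upper bound for the transport** under `N ≤ N_B`, `m = 4, 5, 6, 7`. -/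
theorem IsTrans.le_sgn {m : ℕ} (hm4 : 4 ≤ m) (hm7 : m ≤ 7) {r τ τ' T : ℝ → ℝ} (hr : IsProf r)
    (h : IsTrans m r τ τ' T)
    (hN : (∫ y in (-1 : ℝ)..1, r y ^ (m - 1)) ^ m * aInt m ^ (m - 1) ≤
      aInt (m - 1) ^ m * (∫ y in (-1 : ℝ)..1, r y ^ m) ^ (m - 1))
    {x : ℝ} (hx : x ∈ Ioo (0 : ℝ) 1) :
    τ x ≤ x * Real.exp ((1 - x ^ 2) * (31 / 50 + 7 / 50 * x ^ 2)) := by
  have hτ := h.mem x hx
  rcases lt_or_ge x (3 / 4) with h34 | h34
  · refine le_trans ?_ (slLow_le hx)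
    have hκ : (0 : ℝ) < 3 / 20 := by norm_num
    have hκ1 : (3 / 20 : ℝ) ≤ 1 := by norm_num
    have hκτ : (3 / 20 : ℝ) * τ x ≤ 1 := by nlinarith [hτ.2]
    interval_cases m
    · have h1 := h.apri (by norm_num) hr hN hκ hκ1 ap_num4 hx
      refine sl_close hκ hκτ ?_ h1 (sl_P4 hx h34)
      rw [ap_Z4]; norm_num
    · have h1 := h.apri (by norm_num) hr hN hκ hκ1 ap_num5 hx
      refine sl_close hκ hκτ ?_ h1 ((sl_P5 hx h34).trans ?_)
      · rw [ap_Z5]; positivity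
      · rw [ap_Z5]
        apply mul_le_mul_of_nonneg_left
        · linarith [Real.pi_gt_d2]
        · have h2 := slLow_pos hx
          have h3 := slLow_lt hx
          have h4 : (1 - 3 / 20 * slLow x) ^ (5 + 1) ≤ 1 :=
            pow_le_one₀ (by linarith) (by linarith)
          linarith
    · have h1 := h.apri (by norm_num) hr hN hκ hκ1 ap_num6 hx
      refine sl_close hκ hκτ ?_ h1 (sl_P6 hx h34)
      rw [ap_Z6]; norm_num
    · have h1 := h.apri (by norm_num) hr hN hκ hκ1 ap_num7 hx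
      refine sl_close hκ hκτ ?_ h1 ((sl_P7 hx h34).trans ?_)
      · rw [ap_Z7]; positivity
      · rw [ap_Z7]
        apply mul_le_mul_of_nonneg_left
        · linarith [Real.pi_gt_d2]
        · have h2 := slLow_pos hx
          have h3 := slLow_lt hx
          have h4 : (1 - 3 / 20 * slLow x) ^ (7 + 1) ≤ 1 :=
            pow_le_one₀ (by linarith) (by linarith)
          linarith
  · linarith [hτ.2, sl_near hx h34]

/-- the same with the logarithm -/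
theorem IsTrans.log_le_sgn {m : ℕ} (hm4 : 4 ≤ m) (hm7 : m ≤ 7) {r τ τ' T : ℝ → ℝ}
    (hr : IsProf r) (h : IsTrans m r τ τ' T)
    (hN : (∫ y in (-1 : ℝ)..1, r y ^ (m - 1)) ^ m * aInt m ^ (m - 1) ≤
      aInt (m - 1) ^ m * (∫ y in (-1 : ℝ)..1, r y ^ m) ^ (m - 1))
    {x : ℝ} (hx : x ∈ Ioo (0 : ℝ) 1) :
    Real.log (τ x / x) ≤ (1 - x ^ 2) * (31 / 50 + 7 / 50 * x ^ 2) := by
  have hτ := h.mem x hx
  have h1 := h.le_sgn hm4 hm7 hr hN hx
  have hx0 := hx.1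
  rw [Real.log_le_iff_le_exp (div_pos hτ.1 hx0), div_le_iff₀ hx0]
  linarith

/-- **Admissibility of the plain tangent pair** of the kernel `kA`, `m = 4, 5, 6, 7`, for
profiles with `N ≤ N_B`. -/
theorem IsTrans.kA_plain_le {m : ℕ} (hm4 : 4 ≤ m) (hm7 : m ≤ 7) {r τ τ' T : ℝ → ℝ}
    (hr : IsProf r) (h : IsTrans m r τ τ' T)
    (hN : (∫ y in (-1 : ℝ)..1, r y ^ (m - 1)) ^ m * aInt m ^ (m - 1) ≤
      aInt (m - 1) ^ m * (∫ y in (-1 : ℝ)..1, r y ^ m) ^ (m - 1))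
    {x : ℝ} (hx : x ∈ Ioo (0 : ℝ) 1) {b : ℝ} (hb : b ∈ Icc (-1 : ℝ) 1) :
    kAc x (Real.log (τ x / x)) + kAp x (Real.log (τ x / x)) * b ≤ kA (τ x) b := by
  have hτ := h.mem x hx
  have hx0 := hx.1
  have e : x * Real.exp (Real.log (τ x / x)) = τ x := by
    rw [Real.exp_log (div_pos hτ.1 hx0)]
    field_simp
  rcases lt_or_ge 0 b with hb0 | hb0
  · have h1 := kA_plain_pos (x := x) (l := Real.log (τ x / x)) hx (by rw [e]; exact hτ.2) hb0 hb.2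
    rwa [e] at h1
  · have h1 := kA_neg_plain hx (h.log_le_sgn hm4 hm7 hr hN hx)
    rw [e] at h1
    exact kA_neg hτ.1 h1 hb0

end Vale.Agent.P237.AllN
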