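import Vale.Agent.P237.AllN.M4D
import Vale.Agent.P237.AllN.SgnL
import Vale.Agent.P237.AllN.FMain

/-!
# P237: the one-dimensional statement for `m = 4`
-/

open MeasureTheory Metric Set Module Filter Topology

namespace Vale.Agent.P237.AllN

open PolyPos Alm

/-- **The one-dimensional statement for `m = 4`** (dimension `n = 5`). -/
theorem oneD_four : OneD 4 := by
  refine oneD_of_cert le_rfl kA_kern2 (fun x hx b hb => kA_line_ball hx hb) ?_
  intro r τ τ' T hr hT hN
  have hμ : (0 : ℝ) ≤ 1 + 42 / 25 * lf τ (2 / 3) := by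
    have := M4.in_lamlo hr hT
    linarith
  refine cert_pole le_rfl kA_kern2 hr hT hN (XPair.zero 4 τ τ') ?_ hμ M4.x0_mem (41 / 100) (7 / 25)
    (gL := fun x => 11 / 200 * x ^ 2) (gL' := fun x => 11 / 200 * (2 * x))
    (gR := fun _ => 0) (gR' := fun _ => 0)
    (eL := fun x => 31 / 100 * x ^ 2) (eL' := fun x => 31 / 100 * (2 * x))
    (eR := fun _ => 0) (eR' := fun _ => 0) (f := fun _ => 0) (f' := fun _ => 0)
    ?_ ?_ ?_ ?_ ?_ ?_ ?_ ?_ ?_ ?_ (ε := 1 / 1000) (by norm_num) ?_ ?_
  · intro x hx b hb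
    have h1 := hT.kA_plain_le le_rfl (by norm_num) hr hN hx hb
    have h2 : Real.log (τ x / x) = lf τ x := rfl
    rw [h2, kAc_bc0 hx, kAp_bM0, pin_exp hT hx] at h1
    simpa using h1
  · intro x _
    have := ((hasDerivAt_pow 2 x).const_mul (11 / 200 : ℝ))
    simpa only [Nat.cast_ofNat, Nat.add_one_sub_one, pow_one] using this
  · fun_prop
  · intro x _
    exact hasDerivAt_const x 0
  · exact continuousOn_const
  · intro x _
    have := ((hasDerivAt_pow 2 x).const_mul (31 / 100 : ℝ))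
    simpa only [Nat.cast_ofNat, Nat.add_one_sub_one, pow_one] using this
  · fun_prop
  · intro x _
    exact hasDerivAt_const x 0
  · exact continuousOn_const
  · intro x _
    exact hasDerivAt_const x 0
  · exact continuousOn_const
  · intro x hx hx0
    refine (M4.ptL hr hT hx hx0).trans (le_of_eq ?_)
    unfold pcNL
    rw [show ((2 : ℝ) / 3) ^ 2 = 4 / 9 by norm_num]
    ring
  · intro x hx hx0
    refine (M4.ptR hr hT hx hx0).trans (le_of_eq ?_)
    unfold pcNR
    rw [show ((2 : ℝ) / 3) ^ 2 = 4 / 9 by norm_num]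
    ring

theorem oneDF_four : ∃ θ : ℝ, OneDF 4 θ := ⟨0, oneD_four.toF⟩

end Vale.Agent.P237.AllN

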