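import Vale.Agent.P237.AllN.Final4
import Vale.Agent.P237.AllN.CstB
import Vale.Agent.P237.AllN.M4

/-!
# P237: Petty's conjecture in dimension five
-/

open MeasureTheory Metric Set Module

namespace Vale.Agent.P237.AllN

theorem range5 : ∀ m : ℕ, 4 ≤ m → m < 5 → ∃ θ : ℝ, OneDF m θ := by
  intro m hm hm'
  obtain rfl : m = 4 := by omega
  exact oneDF_four

end Vale.Agent.P237.AllN
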