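import Vale.Agent.P237.AllN.PcK

/-!
# P237, plain certificate: kernel checks for `m = 10`
-/

namespace Vale.Agent.P237.AllN

open PolyPos

/-- data of the certificate, `m = 10` -/
def D10 : Dat := ⟨⟨10, ⟨5, 7⟩, ⟨161, 499⟩, ⟨427, 999⟩, ⟨6, 4⟩, ⟨133, 999⟩, ⟨2, 4⟩, ⟨7, 999⟩, ⟨1, 999⟩, ⟨1, 999⟩⟩,
  ⟨1231, 999⟩, ⟨559, 9999⟩, ⟨101, 999⟩, ⟨1081, 999⟩, ⟨283, 499⟩, ⟨339, 999⟩, ⟨493, 9999⟩, ⟨9387, 9999⟩, 5, 500, 1422, 867, 1231, 2 ^ 1024, 40⟩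

theorem chk10_LP :
    D10.kLP (.leaf 0) = true := by
  decide +kernel

theorem chk10_LM :
    D10.kLM (.sx (.leaf 0) (.sy (.leaf 0) (.sx (.leaf 0) (.sy (.leaf 0) .out)))) = true := by
  decide +kernel

theorem chk10_RMT0 :
    D10.kRM D10.rbT 10 0 867 250 1000 (.leaf 0) = true := by
  decide +kernel

theorem chk10_RMt0 :
    D10.kRM D10.rbG 10 0 867 6 250 (.sx (.leaf 0) (.leaf 0)) = true := by
  decide +kernel

theorem chk10_RMc0 :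
    D10.kRM D10.rbC 10 0 867 0 6 (.sx (.leaf 0) (.leaf 0)) = true := by
  decide +kernel

theorem chk10_RP1 :
    D10.kRP1 (.sx (.leaf 0) (.sy (.sx (.leaf 0) (.sy (.sx (.sy .out (.leaf 0)) (.sy .out
    (.sx (.leaf 0) .out))) (.leaf 0))) (.leaf 0))) = true := by
  decide +kernel

theorem chk10_RP2 :
    D10.kRP2 (.sx (.sy (.sx (.sy .out (.leaf 0)) .out) (.leaf 0)) (.sy .out (.sx (.leaf 0)
    .out))) = true := by
  decide +kernel

theorem chk10_RS :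
    D10.kRS (.leaf 1) = true := by
  decide +kernel

end Vale.Agent.P237.AllN
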