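import Vale.Agent.P237.AllN.PcRhoA
import Vale.Agent.P237.AllN.PcRhoB
import Vale.Agent.P237.AllN.PcRhoC

/-!
# The seven bounds of `PcRho` for `5 ≤ m ≤ 15`
-/

namespace Vale.Agent.P237.AllN.PcRho

theorem okC {m : ℕ} (h5 : 5 ≤ m) (h15 : m ≤ 15) : OkC m := by
  interval_cases m
  exacts [okC_5, okC_6, okC_7, okC_8, okC_9, okC_10, okC_11, okC_12, okC_13, okC_14,
    okC_15]

theorem okNeg {m : ℕ} (h5 : 5 ≤ m) (h15 : m ≤ 15) : OkNeg m := by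
  interval_cases m
  exacts [okNeg_5, okNeg_6, okNeg_7, okNeg_8, okNeg_9, okNeg_10, okNeg_11, okNeg_12, okNeg_13,
    okNeg_14,
    okNeg_15]

theorem ok9 {m : ℕ} (h5 : 5 ≤ m) (h15 : m ≤ 15) : Ok9 m := by
  interval_cases m
  exacts [ok9_5, ok9_6, ok9_7, ok9_8, ok9_9, ok9_10, ok9_11, ok9_12, ok9_13, ok9_14,
    ok9_15]

theorem ok10 {m : ℕ} (h5 : 5 ≤ m) (h15 : m ≤ 15) : Ok10 m := by
  interval_cases m
  exacts [ok10_5, ok10_6, ok10_7, ok10_8, ok10_9, ok10_10, ok10_11, ok10_12, ok10_13, ok10_14,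
    ok10_15]

theorem okN3 {m : ℕ} (h5 : 5 ≤ m) (h15 : m ≤ 15) : OkN3 m := by
  interval_cases m
  exacts [okN3_5, okN3_6, okN3_7, okN3_8, okN3_9, okN3_10, okN3_11, okN3_12, okN3_13, okN3_14,
    okN3_15]

theorem okN1 {m : ℕ} (h5 : 5 ≤ m) (h15 : m ≤ 15) : OkN1 m := by
  interval_cases m
  exacts [okN1_5, okN1_6, okN1_7, okN1_8, okN1_9, okN1_10, okN1_11, okN1_12, okN1_13, okN1_14,
    okN1_15]

theorem okN0 {m : ℕ} (h5 : 5 ≤ m) (h15 : m ≤ 15) : OkN0 m := by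
  interval_cases m
  exacts [okN0_5, okN0_6, okN0_7, okN0_8, okN0_9, okN0_10, okN0_11, okN0_12, okN0_13, okN0_14,
    okN0_15]

end Vale.Agent.P237.AllN.PcRho
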