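import Vale.Agent.P237.AllN.PcP
import Vale.Agent.P237.AllN.PcRhoAll

/-!
# P237, plain certificate (m ≥ 5): the bounds of `ρ`
-/

open Set

namespace Vale.Agent.P237.AllN

open PolyPos

theorem r0_R {D : Dat} (h : 0 < D.P.m) : D.r0.R = PcRho.r0 D.P.m := by
  have h1 : ((2 * D.P.m - 1 : ℕ) : ℝ) + 1 = 2 * D.P.m := by
    have : 2 * D.P.m - 1 + 1 = 2 * D.P.m := by omega
    exact_mod_cast this
  have h2 : (D.P.m : ℝ) ≠ 0 := by exact_mod_cast h.ne'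
  simp only [Dat.r0, Fr.R, h1, PcRho.r0]
  push_cast
  field_simp

theorem r1_R {D : Dat} (h : 0 < D.P.m) : D.r1.R = PcRho.r1 D.P.m := by
  have h1 : ((6 * D.P.m ^ 2 - 1 : ℕ) : ℝ) + 1 = 6 * (D.P.m : ℝ) ^ 2 := by
    have : 6 * D.P.m ^ 2 - 1 + 1 = 6 * D.P.m ^ 2 :=
      Nat.sub_add_cancel (Nat.succ_le_of_lt (by positivity))
    exact_mod_cast this
  have h2 : (D.P.m : ℝ) ≠ 0 := by exact_mod_cast h.ne'
  simp only [Dat.r1, Fr.R, h1, PcRho.r1]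
  push_cast
  (clear * - h2; field_simp)

theorem r2_R {D : Dat} (h : 0 < D.P.m) : D.r2.R = PcRho.r2 D.P.m := by
  have h1 : ((24 * D.P.m ^ 3 - 1 : ℕ) : ℝ) + 1 = 24 * (D.P.m : ℝ) ^ 3 := by
    have : 24 * D.P.m ^ 3 - 1 + 1 = 24 * D.P.m ^ 3 :=
      Nat.sub_add_cancel (Nat.succ_le_of_lt (by positivity))
    exact_mod_cast this
  have h2 : (D.P.m : ℝ) ≠ 0 := by exact_mod_cast h.ne'
  simp only [Dat.r2, Fr.R, h1, PcRho.r2]
  push_cast
  field_simp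

theorem rhoOK {D : Dat} (h5 : 5 ≤ D.P.m) (h15 : D.P.m ≤ 15)
    (hc : D.cp.R = (PcRho.cT D.P.m : ℝ) / 10000)
    (hU : 3 * D.k.R ^ 2 ≤ ((PcRho.UT D.P.m : ℝ) / 1000) ^ 2 * ((D.P.m : ℝ) - 1))
    (hU0 : 0 ≤ PcRho.UT D.P.m)
    (hg : (D.g0.R = (PcRho.al9 D.P.m : ℝ) / 10000 ∧ D.g1.R = (PcRho.be9 D.P.m : ℝ) / 10000) ∨
      (D.g0.R = (PcRho.al10 D.P.m : ℝ) / 10000 ∧ D.g1.R = (PcRho.be10 D.P.m : ℝ) / 10000))
    (h3 : D.q3.R = (PcRho.q3T D.P.m : ℝ) / 10000)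
    (h4 : D.q4.R = (PcRho.q4T D.P.m : ℝ) / 10000) : RhoOK D := by
  have hm0 : 0 < D.P.m := by omega
  have hm : (D.P.m : ℝ) ≠ 0 := by exact_mod_cast hm0.ne'
  have hw : ∀ u : ℝ, 0 < 1 + u → 0 < (1 + u) ^ (1 / (D.P.m : ℝ)) ∧
      ((1 + u) ^ (1 / (D.P.m : ℝ))) ^ D.P.m = 1 + u := by
    intro u hu
    refine ⟨Real.rpow_pos_of_pos hu _, ?_⟩
    rw [← Real.rpow_natCast, ← Real.rpow_mul hu.le, one_div_mul_cancel hm, Real.rpow_one]
  have cv : ∀ {u R : ℝ}, 0 < 1 + u → pmf D.P.m u ≤ R * (u ^ 2 / (1 + u)) →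
      pmf D.P.m u * (1 + u) ≤ R * u ^ 2 := by
    intro u R hu h
    rwa [← mul_div_assoc, le_div_iff₀ hu] at h
  refine ⟨?_, ?_, ?_, ?_, ?_, ?_, ?_, ?_⟩
  · intro u hu
    obtain ⟨h1, h2⟩ := hw u hu
    have h3 := one_add_mul_le_pow (a := (1 + u) ^ (1 / (D.P.m : ℝ)) - 1) (by linarith only [h1]) D.P.m
    rw [add_sub_cancel, h2] at h3
    unfold pmf
    linarith only [h3]
  · intro u h0 h1
    have hu : 0 < 1 + u := by linarith only [h0]
    obtain ⟨w1, w2⟩ := hw u hu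
    have hm1 : (0 : ℝ) < D.P.m - 1 := by
      have : (5 : ℝ) ≤ D.P.m := by exact_mod_cast h5
      linarith only [this]
    have h2 : u ^ 2 ≤ ((PcRho.UT D.P.m : ℝ) / 1000) ^ 2 :=
      le_of_mul_le_mul_right (h1.trans hU) hm1
    have h3 : u ≤ (PcRho.UT D.P.m : ℝ) / 1000 := le_of_sq_le_sq h2 (by
      have : (0 : ℝ) ≤ PcRho.UT D.P.m := by exact_mod_cast hU0
      (clear * - hU0; positivity))
    have := cv hu (PcRho.okC h5 h15 u _ w1 w2 h0 h3)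
    rw [r0_R hm0, r1_R hm0, hc]
    refine this.trans_eq ?_
    ring
  · intro u hu h0
    obtain ⟨w1, w2⟩ := hw u hu
    have := cv hu (PcRho.okNeg h5 h15 u _ w1 w2 h0)
    rw [r0_R hm0, r1_R hm0, r2_R hm0]
    refine this.trans_eq ?_
    ring
  · intro u h0 h1
    have hu : 0 < 1 + u := by linarith only [h0]
    obtain ⟨w1, w2⟩ := hw u hu
    rcases hg with ⟨g0, g1⟩ | ⟨g0, g1⟩
    · rw [g0, g1]
      exact cv hu (PcRho.ok9 h5 h15 u _ w1 w2 h0 h1)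
    · rw [g0, g1]
      exact cv hu (PcRho.ok10 h5 h15 u _ w1 w2 h0 h1)
  · intro u hu h0
    obtain ⟨w1, w2⟩ := hw u hu
    exact PcRho.pm_le (by omega) w1 w2
  · intro u h0 n hn hn1
    have hu : 0 < 1 + u := by linarith only [h0]
    obtain ⟨w1, w2⟩ := hw u hu
    have hne := hu.ne'
    have hnu : u / (1 + u) = n := by
      rw [div_eq_iff hne]
      exact hn.symm
    have := cv hu (PcRho.okN3 h5 h15 u _ w1 w2 h0 (by rw [hnu]; exact hn1))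
    rw [r0_R hm0, r1_R hm0, r2_R hm0, h3]
    rw [hnu] at this
    refine this.trans_eq ?_
    ring
  · intro u h0 h1
    have hu : 0 < 1 + u := by linarith only [h1]
    obtain ⟨w1, w2⟩ := hw u hu
    have hne := hu.ne'
    have := cv hu (PcRho.okN1 h5 h15 u _ w1 w2 (by rw [le_div_iff₀ hu]; exact h1))
    have h5' := mul_le_mul_of_nonneg_right this hu.le
    rw [h4]
    refine (le_of_eq ?_).trans (h5'.trans_eq ?_)
    · ring
    · (clear * - hne; field_simp)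
  · intro u h0
    have hu : 0 < 1 + u := by linarith only [h0]
    obtain ⟨w1, w2⟩ := hw u hu
    have hne := hu.ne'
    have := cv hu (PcRho.okN0 h5 h15 u _ w1 w2 h0)
    have h5' := mul_le_mul_of_nonneg_right this hu.le
    rw [r0_R hm0]
    refine (le_of_eq ?_).trans (h5'.trans_eq ?_)
    · ring
    · field_simp
      ring

end Vale.Agent.P237.AllN
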