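import Vale.Agent.P237.AllN.PcInOK
import Vale.Agent.P237.AllN.PcRhoOK
import Vale.Agent.P237.AllN.PcK10

/-!
# P237, plain certificate: `OneD 10`
-/

open Set

namespace Vale.Agent.P237.AllN

open PolyPos

theorem num10 : D10.Num (-868 / 1000) := by
  refine ⟨?_, ?_, ?_, ?_, ?_, ?_, ?_, ?_, ?_, ?_, ?_, ?_, ?_, ?_, ?_, ?_, ?_, ?_, ?_, ?_⟩
  · norm_num [D10]
  · norm_num [D10, Fr.R, Dat.r0]
  · norm_num [D10, Fr.R, Dat.r0]
  · norm_num [D10, Fr.R, Dat.r0]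
  · norm_num [D10, Fr.R, Dat.r0]
  · norm_num [D10, Fr.R, Dat.r0]
  · norm_num [D10, Fr.R, Dat.r0]
  · norm_num [D10, Fr.R, Dat.r0]
  · norm_num [D10, Fr.R, Dat.r0]
  · norm_num [D10, Fr.R, Dat.r0]
  · norm_num [D10, Fr.R, Dat.r0]
  · have h := pcn_log_ge (q := 5547 / 4000) (a := 3 / 12) (by norm_num) (by norm_num) (by
      norm_num [Finset.sum_range_succ, Nat.factorial])
    simp only [D10, Fr.R]
    norm_num at h ⊢
    linarith
  · have h := pcn_log_ge (q := 177459 / 128000) (a := 3 / 12) (by norm_num) (by norm_num) (by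
      norm_num [Finset.sum_range_succ, Nat.factorial])
    simp only [D10, Fr.R]
    norm_num at h ⊢
    linarith
  · norm_num [D10]
  · norm_num [D10]
  · norm_num [D10, Fr.R, Dat.r0]
  · norm_num [D10, Fr.R, Dat.r0]
  · norm_num [D10]
  · norm_num [D10]
  · norm_num [D10]

theorem rho10 : RhoOK D10 := by
  refine rhoOK (by norm_num [D10]) (by norm_num [D10]) ?_ ?_ ?_ (Or.inl ⟨by norm_num [D10, Fr.R, PcRho.al9_v10], by norm_num [D10, Fr.R, PcRho.be9_v10]⟩) ?_ ?_ <;>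
    norm_num [D10, Fr.R, PcRho.cT_v10, PcRho.UT_v10, PcRho.q3T_v10, PcRho.q4T_v10]

theorem chk10 : D10.Chk where
  lp := ⟨_, chk10_LP⟩
  lm := ⟨_, chk10_LM⟩
  rmT := (Or.inl ⟨_, chk10_RMT0⟩)
  rmG := (Or.inl ⟨_, chk10_RMt0⟩)
  rmC := (Or.inl ⟨_, chk10_RMc0⟩)
  rp1 := ⟨_, chk10_RP1⟩
  rp2 := ⟨_, chk10_RP2⟩
  rs := ⟨_, chk10_RS⟩

theorem D10_m : D10.P.m = 10 := rfl

theorem inOK10 : InOK D10.P.m D10.k.R (-868 / 1000) := by
  rw [D10_m]
  refine inOK_of (by norm_num) (by norm_num) ?_ ?_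
  · intro r τ τ' T hr hT x hx
    have h := IsTrans.pin_h4_ten hr hT hx
    refine h.trans (mul_le_mul_of_nonneg_right ?_ hx.1.le)
    norm_num [D10, Fr.R]
  · intro r τ τ' T hr hT x hx hx2
    have h := IsTrans.pin_h7_ten hr hT hx (by rw [hx2]; norm_num)
    refine le_trans ?_ h
    norm_num

/-- **`OneD 10`** -/
theorem oneD_10 : OneD 10 := by
  have h := oneD_of_dat num10 rho10 chk10 (by rw [D10_m]; norm_num) (by norm_num [D10, Fr.R]) inOK10
  rwa [D10_m] at h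

end Vale.Agent.P237.AllN
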