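import Vale.Agent.P237.AllN.PcK

/-!
# P237, plain certificate: kernel checks for `m = 11`
-/

namespace Vale.Agent.P237.AllN

open PolyPos

/-- data of the certificate, `m = 11` -/
def D11 : Dat := ⟨⟨11, ⟨61, 99⟩, ⟨29, 99⟩, ⟨1, 1⟩, ⟨6, 4⟩, ⟨13, 99⟩, ⟨39, 99⟩, ⟨29, 4999⟩, ⟨1, 999⟩, ⟨1, 999⟩⟩,
  ⟨647, 499⟩, ⟨141, 2499⟩, ⟨1, 9⟩, ⟨267, 249⟩, ⟨59, 99⟩, ⟨357, 999⟩, ⟨507, 9999⟩, ⟨594, 624⟩, 6, 481, 1476, 878, 1294, 2 ^ 1024, 40⟩

theorem chk11_LP :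
    D11.kLP (.leaf 0) = true := by
  decide +kernel

theorem chk11_LM :
    D11.kLM (.sx (.leaf 0) (.sy (.leaf 0) (.sx (.sy (.leaf 0) (.sx (.leaf 0) .out)) (.sy
    (.sx (.leaf 0) (.sy (.leaf 0) .out)) .out)))) = true := by
  decide +kernel

theorem chk11_RMT0 :
    D11.kRM D11.rbT 11 0 878 250 1000 (.sx (.leaf 0) (.leaf 0)) = true := by
  decide +kernel

theorem chk11_RMt0 :
    D11.kRM D11.rbG 11 0 878 6 250 (.sx (.leaf 0) (.leaf 0)) = true := by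
  decide +kernel

theorem chk11_RMc0 :
    D11.kRM D11.rbC 11 0 878 0 6 (.sx (.leaf 0) (.leaf 0)) = true := by
  decide +kernel

theorem chk11_RP1 :
    D11.kRP1 (.sx (.leaf 0) (.sy (.sx (.leaf 0) (.sy (.sx (.sy .out (.leaf 0)) (.sy .out
    (.leaf 0))) (.leaf 0))) (.leaf 0))) = true := by
  decide +kernel

theorem chk11_RP2 :
    D11.kRP2 (.sx (.sy (.sx (.sy .out (.leaf 0)) .out) (.leaf 0)) (.sy .out (.sx (.leaf 0)
    .out))) = true := by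
  decide +kernel

theorem chk11_RS :
    D11.kRS (.leaf 1) = true := by
  decide +kernel

end Vale.Agent.P237.AllN
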