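import Vale.Agent.P237.AllN.PcK

/-!
# P237, plain certificate: kernel checks for `m = 12`
-/

namespace Vale.Agent.P237.AllN

open PolyPos

/-- data of the certificate, `m = 12` -/
def D12 : Dat := ⟨⟨12, ⟨3, 4⟩, ⟨51, 199⟩, ⟨509, 999⟩, ⟨6, 4⟩, ⟨16, 124⟩, ⟨37, 99⟩, ⟨49, 9999⟩, ⟨1, 999⟩, ⟨1, 999⟩⟩,
  ⟨677, 499⟩, ⟨563, 9999⟩, ⟨1, 9⟩, ⟨529, 499⟩, ⟨153, 249⟩, ⟨187, 499⟩, ⟨519, 9999⟩, ⟨4801, 4999⟩, 6, 463, 1528, 887, 1354, 2 ^ 1024, 40⟩

theorem chk12_LP :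
    D12.kLP (.leaf 0) = true := by
  decide +kernel

theorem chk12_LM :
    D12.kLM (.sx (.leaf 0) (.sy (.leaf 0) (.sx (.leaf 0) (.sy (.leaf 0) .out)))) = true := by
  decide +kernel

theorem chk12_RMT0 :
    D12.kRM D12.rbT 12 0 887 250 1000 (.sx (.leaf 0) (.leaf 0)) = true := by
  decide +kernel

theorem chk12_RMt0 :
    D12.kRM D12.rbG 12 0 887 6 250 (.sx (.leaf 0) (.leaf 0)) = true := by
  decide +kernel

theorem chk12_RMc0 :
    D12.kRM D12.rbC 12 0 887 0 6 (.sx (.leaf 0) (.leaf 0)) = true := by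
  decide +kernel

theorem chk12_RP1 :
    D12.kRP1 (.sx (.leaf 0) (.sy (.sx (.leaf 0) (.sy (.sx (.sy (.sx (.leaf 0) .out) (.leaf
    0)) (.sy .out (.leaf 0))) (.leaf 0))) (.leaf 0))) = true := by
  decide +kernel

theorem chk12_RP2 :
    D12.kRP2 (.sx (.sy (.sx (.sy .out (.leaf 0)) .out) (.leaf 0)) (.sy .out (.sx (.leaf 0)
    .out))) = true := by
  decide +kernel

theorem chk12_RS :
    D12.kRS (.leaf 1) = true := by
  decide +kernel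

end Vale.Agent.P237.AllN
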