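import Vale.Agent.P237.AllN.PcInOK
import Vale.Agent.P237.AllN.PcRhoOK
import Vale.Agent.P237.AllN.PcK12

/-!
# P237, plain certificate: `OneD 12`
-/

open Set

namespace Vale.Agent.P237.AllN

open PolyPos

theorem num12 : D12.Num (-950 / 1000) := by
  refine ⟨?_, ?_, ?_, ?_, ?_, ?_, ?_, ?_, ?_, ?_, ?_, ?_, ?_, ?_, ?_, ?_, ?_, ?_, ?_, ?_⟩
  · norm_num [D12]
  · norm_num [D12, Fr.R, Dat.r0]
  · norm_num [D12, Fr.R, Dat.r0]
  · norm_num [D12, Fr.R, Dat.r0]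
  · norm_num [D12, Fr.R, Dat.r0]
  · norm_num [D12, Fr.R, Dat.r0]
  · norm_num [D12, Fr.R, Dat.r0]
  · norm_num [D12, Fr.R, Dat.r0]
  · norm_num [D12, Fr.R, Dat.r0]
  · norm_num [D12, Fr.R, Dat.r0]
  · norm_num [D12, Fr.R, Dat.r0]
  · have h := pcn_log_ge (q := 37763 / 24500) (a := 3 / 14) (by norm_num) (by norm_num) (by
      norm_num [Finset.sum_range_succ, Nat.factorial])
    simp only [D12, Fr.R]
    norm_num at h ⊢
    linarith
  · have h := pcn_log_ge (q := 44403601 / 28812000) (a := 3 / 14) (by norm_num) (by norm_num) (by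
      norm_num [Finset.sum_range_succ, Nat.factorial])
    simp only [D12, Fr.R]
    norm_num at h ⊢
    linarith
  · norm_num [D12]
  · norm_num [D12]
  · norm_num [D12, Fr.R, Dat.r0]
  · norm_num [D12, Fr.R, Dat.r0]
  · norm_num [D12]
  · norm_num [D12]
  · norm_num [D12]

theorem rho12 : RhoOK D12 := by
  refine rhoOK (by norm_num [D12]) (by norm_num [D12]) ?_ ?_ ?_ (Or.inl ⟨by norm_num [D12, Fr.R, PcRho.al9_v12], by norm_num [D12, Fr.R, PcRho.be9_v12]⟩) ?_ ?_ <;>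
    norm_num [D12, Fr.R, PcRho.cT_v12, PcRho.UT_v12, PcRho.q3T_v12, PcRho.q4T_v12]

theorem chk12 : D12.Chk where
  lp := ⟨_, chk12_LP⟩
  lm := ⟨_, chk12_LM⟩
  rmT := (Or.inl ⟨_, chk12_RMT0⟩)
  rmG := (Or.inl ⟨_, chk12_RMt0⟩)
  rmC := (Or.inl ⟨_, chk12_RMc0⟩)
  rp1 := ⟨_, chk12_RP1⟩
  rp2 := ⟨_, chk12_RP2⟩
  rs := ⟨_, chk12_RS⟩

theorem D12_m : D12.P.m = 12 := rfl

theorem inOK12 : InOK D12.P.m D12.k.R (-950 / 1000) := by
  rw [D12_m]
  refine inOK_of (by norm_num) (by norm_num) ?_ ?_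
  · intro r τ τ' T hr hT x hx
    have h := IsTrans.pin_h4_twelve hr hT hx
    refine h.trans (mul_le_mul_of_nonneg_right ?_ hx.1.le)
    norm_num [D12, Fr.R]
  · intro r τ τ' T hr hT x hx hx2
    have h := IsTrans.pin_h7_twelve hr hT hx (by rw [hx2]; norm_num)
    refine le_trans ?_ h
    norm_num

/-- **`OneD 12`** -/
theorem oneD_12 : OneD 12 := by
  have h := oneD_of_dat num12 rho12 chk12 (by rw [D12_m]; norm_num) (by norm_num [D12, Fr.R]) inOK12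
  rwa [D12_m] at h

end Vale.Agent.P237.AllN
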