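import Vale.Agent.P237.AllN.PcK

/-!
# P237, plain certificate: kernel checks for `m = 13`
-/

namespace Vale.Agent.P237.AllN

open PolyPos

/-- data of the certificate, `m = 13` -/
def D13 : Dat := ⟨⟨13, ⟨3, 4⟩, ⟨1, 3⟩, ⟨1, 1⟩, ⟨6, 4⟩, ⟨13, 99⟩, ⟨7, 19⟩, ⟨21, 4999⟩, ⟨1, 999⟩, ⟨1, 999⟩⟩,
  ⟨353, 249⟩, ⟨281, 4999⟩, ⟨1, 9⟩, ⟨1049, 999⟩, ⟨633, 999⟩, ⟨39, 99⟩, ⟨529, 9999⟩, ⟨1937, 1999⟩, 7, 448, 1579, 895, 1412, 2 ^ 1024, 40⟩

theorem chk13_LP :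
    D13.kLP (.leaf 0) = true := by
  decide +kernel

theorem chk13_LM :
    D13.kLM (.sx (.leaf 0) (.sy (.leaf 0) (.sx (.sy (.leaf 0) .out) (.sy (.sx (.leaf 0) (.sy
    (.leaf 0) .out)) .out)))) = true := by
  decide +kernel

theorem chk13_RMT0 :
    D13.kRM D13.rbT 13 0 895 250 1000 (.sx (.leaf 0) (.leaf 0)) = true := by
  decide +kernel

theorem chk13_RMt0 :
    D13.kRM D13.rbG 13 0 895 6 250 (.sx (.leaf 0) (.leaf 0)) = true := by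
  decide +kernel

theorem chk13_RMc0 :
    D13.kRM D13.rbC 13 0 895 0 6 (.sx (.leaf 0) (.leaf 0)) = true := by
  decide +kernel

theorem chk13_RP1 :
    D13.kRP1 (.sx (.leaf 0) (.sy (.sx (.leaf 0) (.sy (.sx (.leaf 0) (.sy .out (.leaf 0)))
    (.leaf 0))) (.leaf 0))) = true := by
  decide +kernel

theorem chk13_RP2 :
    D13.kRP2 (.sx (.sy (.sx (.sy .out (.leaf 0)) .out) (.leaf 0)) (.sy .out (.sx (.leaf 0)
    .out))) = true := by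
  decide +kernel

theorem chk13_RS :
    D13.kRS (.leaf 1) = true := by
  decide +kernel

end Vale.Agent.P237.AllN
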