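import Vale.Agent.P237.AllN.PcK

/-!
# P237, plain certificate: kernel checks for `m = 14`
-/

namespace Vale.Agent.P237.AllN

open PolyPos

/-- data of the certificate, `m = 14` -/
def D14 : Dat := ⟨⟨14, ⟨3, 4⟩, ⟨1, 3⟩, ⟨1, 1⟩, ⟨6, 4⟩, ⟨13, 99⟩, ⟨33, 99⟩, ⟨9, 2499⟩, ⟨1, 999⟩, ⟨1, 999⟩⟩,
  ⟨1467, 999⟩, ⟨113, 1999⟩, ⟨1, 9⟩, ⟨1041, 999⟩, ⟨653, 999⟩, ⟨81, 199⟩, ⟨269, 4999⟩, ⟨2439, 2499⟩, 7, 434, 1628, 902, 1467, 2 ^ 1024, 40⟩

theorem chk14_LP :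
    D14.kLP (.leaf 0) = true := by
  decide +kernel

theorem chk14_LM :
    D14.kLM (.sx (.leaf 0) (.sy (.leaf 0) (.sx (.sy (.leaf 0) (.sx (.leaf 0) .out)) (.sy
    (.leaf 0) .out)))) = true := by
  decide +kernel

theorem chk14_RMT0 :
    D14.kRM D14.rbT 14 0 902 250 1000 (.sx (.leaf 0) (.leaf 0)) = true := by
  decide +kernel

theorem chk14_RMt0 :
    D14.kRM D14.rbG 14 0 902 6 250 (.sx (.leaf 0) (.leaf 0)) = true := by
  decide +kernel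

theorem chk14_RMc0 :
    D14.kRM D14.rbC 14 0 902 0 6 (.sx (.leaf 0) (.leaf 0)) = true := by
  decide +kernel

theorem chk14_RP1 :
    D14.kRP1 (.sx (.leaf 0) (.sy (.sx (.leaf 0) (.sy (.sx (.leaf 0) (.sy .out (.leaf 0)))
    (.leaf 0))) (.leaf 0))) = true := by
  decide +kernel

theorem chk14_RP2 :
    D14.kRP2 (.sx (.sy (.sx (.sy .out (.leaf 0)) .out) (.leaf 0)) (.sy .out (.sx (.leaf 0)
    .out))) = true := by
  decide +kernel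

theorem chk14_RS :
    D14.kRS (.leaf 1) = true := by
  decide +kernel

end Vale.Agent.P237.AllN
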