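import Vale.Agent.P237.AllN.PcInOK
import Vale.Agent.P237.AllN.PcRhoOK
import Vale.Agent.P237.AllN.PcK14

/-!
# P237, plain certificate: `OneD 14`
-/

open Set

namespace Vale.Agent.P237.AllN

open PolyPos

theorem num14 : D14.Num (-1023 / 1000) := by
  refine ⟨?_, ?_, ?_, ?_, ?_, ?_, ?_, ?_, ?_, ?_, ?_, ?_, ?_, ?_, ?_, ?_, ?_, ?_, ?_, ?_⟩
  · norm_num [D14]
  · norm_num [D14, Fr.R, Dat.r0]
  · norm_num [D14, Fr.R, Dat.r0]
  · norm_num [D14, Fr.R, Dat.r0]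
  · norm_num [D14, Fr.R, Dat.r0]
  · norm_num [D14, Fr.R, Dat.r0]
  · norm_num [D14, Fr.R, Dat.r0]
  · norm_num [D14, Fr.R, Dat.r0]
  · norm_num [D14, Fr.R, Dat.r0]
  · norm_num [D14, Fr.R, Dat.r0]
  · norm_num [D14, Fr.R, Dat.r0]
  · have h := pcn_log_ge (q := 214357 / 128000) (a := 3 / 16) (by norm_num) (by norm_num) (by
      norm_num [Finset.sum_range_succ, Nat.factorial])
    simp only [D14, Fr.R]
    norm_num at h ⊢
    linarith
  · have h := pcn_log_ge (q := 32919523 / 19660800) (a := 3 / 16) (by norm_num) (by norm_num) (by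
      norm_num [Finset.sum_range_succ, Nat.factorial])
    simp only [D14, Fr.R]
    norm_num at h ⊢
    linarith
  · norm_num [D14]
  · norm_num [D14]
  · norm_num [D14, Fr.R, Dat.r0]
  · norm_num [D14, Fr.R, Dat.r0]
  · norm_num [D14]
  · norm_num [D14]
  · norm_num [D14]

theorem rho14 : RhoOK D14 := by
  refine rhoOK (by norm_num [D14]) (by norm_num [D14]) ?_ ?_ ?_ (Or.inl ⟨by norm_num [D14, Fr.R, PcRho.al9_v14], by norm_num [D14, Fr.R, PcRho.be9_v14]⟩) ?_ ?_ <;>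
    norm_num [D14, Fr.R, PcRho.cT_v14, PcRho.UT_v14, PcRho.q3T_v14, PcRho.q4T_v14]

theorem chk14 : D14.Chk where
  lp := ⟨_, chk14_LP⟩
  lm := ⟨_, chk14_LM⟩
  rmT := (Or.inl ⟨_, chk14_RMT0⟩)
  rmG := (Or.inl ⟨_, chk14_RMt0⟩)
  rmC := (Or.inl ⟨_, chk14_RMc0⟩)
  rp1 := ⟨_, chk14_RP1⟩
  rp2 := ⟨_, chk14_RP2⟩
  rs := ⟨_, chk14_RS⟩

theorem D14_m : D14.P.m = 14 := rfl

theorem inOK14 : InOK D14.P.m D14.k.R (-1023 / 1000) := by
  rw [D14_m]
  refine inOK_of (by norm_num) (by norm_num) ?_ ?_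
  · intro r τ τ' T hr hT x hx
    have h := IsTrans.pin_h4_fourteen hr hT hx
    refine h.trans (mul_le_mul_of_nonneg_right ?_ hx.1.le)
    norm_num [D14, Fr.R]
  · intro r τ τ' T hr hT x hx hx2
    have h := IsTrans.pin_h7_fourteen hr hT hx (by rw [hx2]; norm_num)
    refine le_trans ?_ h
    norm_num

/-- **`OneD 14`** -/
theorem oneD_14 : OneD 14 := by
  have h := oneD_of_dat num14 rho14 chk14 (by rw [D14_m]) (by norm_num [D14, Fr.R]) inOK14
  rwa [D14_m] at h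

end Vale.Agent.P237.AllN
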