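import Vale.Agent.P237.AllN.PcK

/-!
# P237, plain certificate: kernel checks for `m = 5`
-/

namespace Vale.Agent.P237.AllN

open PolyPos

/-- data of the certificate, `m = 5` -/
def D5 : Dat := ⟨⟨5, ⟨269, 199⟩, ⟨667, 1999⟩, ⟨411, 999⟩, ⟨127, 199⟩, ⟨53, 399⟩, ⟨1, 4⟩, ⟨13, 399⟩, ⟨1, 999⟩, ⟨1, 999⟩⟩,
  ⟨849, 999⟩, ⟨257, 4999⟩, ⟨27, 249⟩, ⟨613, 499⟩, ⟨423, 999⟩, ⟨237, 999⟩, ⟨397, 9999⟩, ⟨1927, 2499⟩, 2, 655, 1124, 756, 849, 2 ^ 1024, 40⟩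

theorem chk5_LP :
    D5.kLP (.sx (.leaf 0) (.leaf 0)) = true := by
  decide +kernel

theorem chk5_LM :
    D5.kLM (.sx (.leaf 0) (.sy (.leaf 0) (.sx (.leaf 0) (.sy (.leaf 0) (.sx (.leaf 0) (.sy
    (.leaf 0) .out)))))) = true := by
  decide +kernel

theorem chk5_RMT0 :
    D5.kRM D5.rbT 5 0 664 250 1000 (.leaf 0) = true := by
  decide +kernel

theorem chk5_RMT1 :
    D5.kRM D5.rbT 4 664 756 250 1000 (.sx (.leaf 0) (.sy (.sx (.leaf 0) (.sy (.sx (.leaf 0)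
    (.sy (.sx (.sy .out (.leaf 0)) (.sy .out (.leaf 0))) (.leaf 0))) (.leaf 0))) (.leaf 0)))
    = true := by
  decide +kernel

theorem chk5_RMt0 :
    D5.kRM D5.rbG 5 0 664 6 250 (.leaf 0) = true := by
  decide +kernel

theorem chk5_RMt1 :
    D5.kRM D5.rbG 4 664 756 6 250 (.sx (.sy .out (.leaf 0)) .out) = true := by
  decide +kernel

theorem chk5_RMc0 :
    D5.kRM D5.rbC 5 0 664 0 6 (.leaf 0) = true := by
  decide +kernel

theorem chk5_RMc1 :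
    D5.kRM D5.rbC 4 664 756 0 6 (.leaf 0) = true := by
  decide +kernel

theorem chk5_RP1 :
    D5.kRP1 (.sx (.leaf 1) (.sy (.sx (.leaf 1) (.sy (.sx (.leaf 1) .out) (.sx (.leaf 1) (.sy
    (.sx (.leaf 1) (.sy (.sx (.leaf 1) .out) (.leaf 0))) (.leaf 0))))) (.leaf 0))) = true := by
  decide +kernel

theorem chk5_RP2 :
    D5.kRP2 (.sx (.sy .out (.leaf 0)) .out) = true := by
  decide +kernel

theorem chk5_RS :
    D5.kRS (.leaf 1) = true := by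
  decide +kernel

end Vale.Agent.P237.AllN
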