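import Vale.Agent.P237.AllN.PcInOK
import Vale.Agent.P237.AllN.PcRhoOK
import Vale.Agent.P237.AllN.PcK5

/-!
# P237, plain certificate: `OneD 5`
-/

open Set

namespace Vale.Agent.P237.AllN

open PolyPos

theorem num5 : D5.Num (-569 / 1000) := by
  refine ⟨?_, ?_, ?_, ?_, ?_, ?_, ?_, ?_, ?_, ?_, ?_, ?_, ?_, ?_, ?_, ?_, ?_, ?_, ?_, ?_⟩
  · norm_num [D5]
  · norm_num [D5, Fr.R, Dat.r0]
  · norm_num [D5, Fr.R, Dat.r0]
  · norm_num [D5, Fr.R, Dat.r0]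
  · norm_num [D5, Fr.R, Dat.r0]
  · norm_num [D5, Fr.R, Dat.r0]
  · norm_num [D5, Fr.R, Dat.r0]
  · norm_num [D5, Fr.R, Dat.r0]
  · norm_num [D5, Fr.R, Dat.r0]
  · norm_num [D5, Fr.R, Dat.r0]
  · norm_num [D5, Fr.R, Dat.r0]
  · have h := pcn_log_ge (q := 5192 / 6125) (a := 3 / 7) (by norm_num) (by norm_num) (by
      norm_num [Finset.sum_range_succ, Nat.factorial])
    simp only [D5, Fr.R]
    norm_num at h ⊢
    linarith
  · have h := pcn_log_ge (q := 763004 / 900375) (a := 3 / 7) (by norm_num) (by norm_num) (by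
      norm_num [Finset.sum_range_succ, Nat.factorial])
    simp only [D5, Fr.R]
    norm_num at h ⊢
    linarith
  · norm_num [D5]
  · norm_num [D5]
  · norm_num [D5, Fr.R, Dat.r0]
  · norm_num [D5, Fr.R, Dat.r0]
  · norm_num [D5]
  · norm_num [D5]
  · norm_num [D5]

theorem rho5 : RhoOK D5 := by
  refine rhoOK (by norm_num [D5]) (by norm_num [D5]) ?_ ?_ ?_ (Or.inr ⟨by norm_num [D5, Fr.R, PcRho.al10_v5], by norm_num [D5, Fr.R, PcRho.be10_v5]⟩) ?_ ?_ <;>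
    norm_num [D5, Fr.R, PcRho.cT_v5, PcRho.UT_v5, PcRho.q3T_v5, PcRho.q4T_v5]

theorem chk5 : D5.Chk where
  lp := ⟨_, chk5_LP⟩
  lm := ⟨_, chk5_LM⟩
  rmT := (Or.inr ⟨rfl, by norm_num [D5], ⟨_, chk5_RMT0⟩, ⟨_, chk5_RMT1⟩⟩)
  rmG := (Or.inr ⟨rfl, by norm_num [D5], ⟨_, chk5_RMt0⟩, ⟨_, chk5_RMt1⟩⟩)
  rmC := (Or.inr ⟨rfl, by norm_num [D5], ⟨_, chk5_RMc0⟩, ⟨_, chk5_RMc1⟩⟩)
  rp1 := ⟨_, chk5_RP1⟩
  rp2 := ⟨_, chk5_RP2⟩
  rs := ⟨_, chk5_RS⟩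

theorem D5_m : D5.P.m = 5 := rfl

theorem inOK5 : InOK D5.P.m D5.k.R (-569 / 1000) := by
  rw [D5_m]
  refine inOK_of (by norm_num) (by norm_num) ?_ ?_
  · intro r τ τ' T hr hT x hx
    have h := IsTrans.pin_h4_five hr hT hx
    refine h.trans (mul_le_mul_of_nonneg_right ?_ hx.1.le)
    norm_num [D5, Fr.R]
  · intro r τ τ' T hr hT x hx hx2
    have h := IsTrans.pin_h7_five hr hT hx (by rw [hx2]; norm_num)
    refine le_trans ?_ h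
    norm_num

/-- **`OneD 5`** -/
theorem oneD_5 : OneD 5 := by
  have h := oneD_of_dat num5 rho5 chk5 (by rw [D5_m]; norm_num) (by norm_num [D5, Fr.R]) inOK5
  rwa [D5_m] at h

end Vale.Agent.P237.AllN
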