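import Vale.Agent.P237.AllN.PcK

/-!
# P237, plain certificate: kernel checks for `m = 6`
-/

namespace Vale.Agent.P237.AllN

open PolyPos

/-- data of the certificate, `m = 6` -/
def D6 : Dat := ⟨⟨6, ⟨43, 39⟩, ⟨187, 499⟩, ⟨551, 999⟩, ⟨1, 0⟩, ⟨13, 124⟩, ⟨27, 99⟩, ⟨43, 1999⟩, ⟨1, 999⟩, ⟨1, 999⟩⟩,
  ⟨469, 499⟩, ⟨53, 999⟩, ⟨53, 499⟩, ⟨147, 124⟩, ⟨57, 124⟩, ⟨13, 49⟩, ⟨1, 24⟩, ⟨853, 999⟩, 3, 613, 1187, 791, 938, 2 ^ 1024, 40⟩

theorem chk6_LP :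
    D6.kLP (.leaf 0) = true := by
  decide +kernel

theorem chk6_LM :
    D6.kLM (.sx (.leaf 0) (.sy (.leaf 0) (.sx (.leaf 0) (.sy (.leaf 0) .out)))) = true := by
  decide +kernel

theorem chk6_RMT0 :
    D6.kRM D6.rbT 6 0 791 250 1000 (.sx (.leaf 0) (.leaf 0)) = true := by
  decide +kernel

theorem chk6_RMt0 :
    D6.kRM D6.rbG 6 0 791 6 250 (.sx (.leaf 0) (.sy (.sx (.leaf 0) (.sy (.sx (.leaf 0) .out)
    (.leaf 0))) (.leaf 0))) = true := by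
  decide +kernel

theorem chk6_RMc0 :
    D6.kRM D6.rbC 6 0 791 0 6 (.sx (.leaf 0) (.leaf 0)) = true := by
  decide +kernel

theorem chk6_RP1 :
    D6.kRP1 (.sx (.leaf 1) (.sy (.sx (.leaf 1) (.sy (.sx (.leaf 1) .out) (.leaf 1))) (.leaf
    0))) = true := by
  decide +kernel

theorem chk6_RP2 :
    D6.kRP2 (.sx (.sy .out (.leaf 0)) .out) = true := by
  decide +kernel

theorem chk6_RS :
    D6.kRS (.leaf 1) = true := by
  decide +kernel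

end Vale.Agent.P237.AllN
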