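import Vale.Agent.P237.AllN.PcInOK
import Vale.Agent.P237.AllN.PcRhoOK
import Vale.Agent.P237.AllN.PcK6

/-!
# P237, plain certificate: `OneD 6`
-/

open Set

namespace Vale.Agent.P237.AllN

open PolyPos

theorem num6 : D6.Num (-644 / 1000) := by
  refine ⟨?_, ?_, ?_, ?_, ?_, ?_, ?_, ?_, ?_, ?_, ?_, ?_, ?_, ?_, ?_, ?_, ?_, ?_, ?_, ?_⟩
  · norm_num [D6]
  · norm_num [D6, Fr.R, Dat.r0]
  · norm_num [D6, Fr.R, Dat.r0]
  · norm_num [D6, Fr.R, Dat.r0]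
  · norm_num [D6, Fr.R, Dat.r0]
  · norm_num [D6, Fr.R, Dat.r0]
  · norm_num [D6, Fr.R, Dat.r0]
  · norm_num [D6, Fr.R, Dat.r0]
  · norm_num [D6, Fr.R, Dat.r0]
  · norm_num [D6, Fr.R, Dat.r0]
  · norm_num [D6, Fr.R, Dat.r0]
  · have h := pcn_log_ge (q := 157 / 160) (a := 3 / 8) (by norm_num) (by norm_num) (by
      norm_num [Finset.sum_range_succ, Nat.factorial])
    simp only [D6, Fr.R]
    norm_num at h ⊢
    linarith
  · have h := pcn_log_ge (q := 12055 / 12288) (a := 3 / 8) (by norm_num) (by norm_num) (by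
      norm_num [Finset.sum_range_succ, Nat.factorial])
    simp only [D6, Fr.R]
    norm_num at h ⊢
    linarith
  · norm_num [D6]
  · norm_num [D6]
  · norm_num [D6, Fr.R, Dat.r0]
  · norm_num [D6, Fr.R, Dat.r0]
  · norm_num [D6]
  · norm_num [D6]
  · norm_num [D6]

theorem rho6 : RhoOK D6 := by
  refine rhoOK (by norm_num [D6]) (by norm_num [D6]) ?_ ?_ ?_ (Or.inl ⟨by norm_num [D6, Fr.R, PcRho.al9_v6], by norm_num [D6, Fr.R, PcRho.be9_v6]⟩) ?_ ?_ <;>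
    norm_num [D6, Fr.R, PcRho.cT_v6, PcRho.UT_v6, PcRho.q3T_v6, PcRho.q4T_v6]

theorem chk6 : D6.Chk where
  lp := ⟨_, chk6_LP⟩
  lm := ⟨_, chk6_LM⟩
  rmT := (Or.inl ⟨_, chk6_RMT0⟩)
  rmG := (Or.inl ⟨_, chk6_RMt0⟩)
  rmC := (Or.inl ⟨_, chk6_RMc0⟩)
  rp1 := ⟨_, chk6_RP1⟩
  rp2 := ⟨_, chk6_RP2⟩
  rs := ⟨_, chk6_RS⟩

theorem D6_m : D6.P.m = 6 := rfl

theorem inOK6 : InOK D6.P.m D6.k.R (-644 / 1000) := by
  rw [D6_m]
  refine inOK_of (by norm_num) (by norm_num) ?_ ?_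
  · intro r τ τ' T hr hT x hx
    have h := IsTrans.pin_h4_six hr hT hx
    refine h.trans (mul_le_mul_of_nonneg_right ?_ hx.1.le)
    norm_num [D6, Fr.R]
  · intro r τ τ' T hr hT x hx hx2
    have h := IsTrans.pin_h7_six hr hT hx (by rw [hx2]; norm_num)
    refine le_trans ?_ h
    norm_num

/-- **`OneD 6`** -/
theorem oneD_6 : OneD 6 := by
  have h := oneD_of_dat num6 rho6 chk6 (by rw [D6_m]; norm_num) (by norm_num [D6, Fr.R]) inOK6
  rwa [D6_m] at h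

end Vale.Agent.P237.AllN
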