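import Vale.Agent.P237.AllN.PcK

/-!
# P237, plain certificate: kernel checks for `m = 7`
-/

namespace Vale.Agent.P237.AllN

open PolyPos

/-- data of the certificate, `m = 7` -/
def D7 : Dat := ⟨⟨7, ⟨87, 99⟩, ⟨93, 249⟩, ⟨299, 499⟩, ⟨6, 4⟩, ⟨12, 124⟩, ⟨33, 99⟩, ⟨151, 9999⟩, ⟨1, 999⟩, ⟨1, 999⟩⟩,
  ⟨1019, 999⟩, ⟨541, 9999⟩, ⟨21, 199⟩, ⟨571, 499⟩, ⟨487, 999⟩, ⟨281, 999⟩, ⟨431, 9999⟩, ⟨4417, 4999⟩, 4, 578, 1249, 817, 1019, 2 ^ 1024, 40⟩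

theorem chk7_LP :
    D7.kLP (.leaf 0) = true := by
  decide +kernel

theorem chk7_LM :
    D7.kLM (.sx (.leaf 0) (.sy (.leaf 0) (.sx (.sy (.leaf 0) (.sx (.leaf 0) .out)) (.sy (.sx
    (.leaf 0) (.sy (.leaf 0) (.sx (.leaf 0) .out))) .out)))) = true := by
  decide +kernel

theorem chk7_RMT0 :
    D7.kRM D7.rbT 7 0 817 250 1000 (.leaf 0) = true := by
  decide +kernel

theorem chk7_RMt0 :
    D7.kRM D7.rbG 7 0 817 6 250 (.sx (.leaf 0) (.sy (.sx (.leaf 0) (.sy (.sx (.leaf 0) .out)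
    (.leaf 0))) (.leaf 0))) = true := by
  decide +kernel

theorem chk7_RMc0 :
    D7.kRM D7.rbC 7 0 817 0 6 (.sx (.leaf 0) (.leaf 0)) = true := by
  decide +kernel

theorem chk7_RP1 :
    D7.kRP1 (.sx (.leaf 0) (.sy (.sx (.leaf 1) (.sy (.sx (.leaf 1) .out) (.leaf 0))) (.leaf
    0))) = true := by
  decide +kernel

theorem chk7_RP2 :
    D7.kRP2 (.sx (.sy (.sx (.sy .out (.leaf 0)) .out) (.leaf 0)) .out) = true := by
  decide +kernel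

theorem chk7_RS :
    D7.kRS (.leaf 1) = true := by
  decide +kernel

end Vale.Agent.P237.AllN
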