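import Vale.Agent.P237.AllN.PcInOK
import Vale.Agent.P237.AllN.PcRhoOK
import Vale.Agent.P237.AllN.PcK7

/-!
# P237, plain certificate: `OneD 7`
-/

open Set

namespace Vale.Agent.P237.AllN

open PolyPos

theorem num7 : D7.Num (-710 / 1000) := by
  refine ⟨?_, ?_, ?_, ?_, ?_, ?_, ?_, ?_, ?_, ?_, ?_, ?_, ?_, ?_, ?_, ?_, ?_, ?_, ?_, ?_⟩
  · norm_num [D7]
  · norm_num [D7, Fr.R, Dat.r0]
  · norm_num [D7, Fr.R, Dat.r0]
  · norm_num [D7, Fr.R, Dat.r0]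
  · norm_num [D7, Fr.R, Dat.r0]
  · norm_num [D7, Fr.R, Dat.r0]
  · norm_num [D7, Fr.R, Dat.r0]
  · norm_num [D7, Fr.R, Dat.r0]
  · norm_num [D7, Fr.R, Dat.r0]
  · norm_num [D7, Fr.R, Dat.r0]
  · norm_num [D7, Fr.R, Dat.r0]
  · have h := pcn_log_ge (q := 1237 / 1125) (a := 3 / 9) (by norm_num) (by norm_num) (by
      norm_num [Finset.sum_range_succ, Nat.factorial])
    simp only [D7, Fr.R]
    norm_num at h ⊢
    linarith
  · have h := pcn_log_ge (q := 412 / 375) (a := 3 / 9) (by norm_num) (by norm_num) (by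
      norm_num [Finset.sum_range_succ, Nat.factorial])
    simp only [D7, Fr.R]
    norm_num at h ⊢
    linarith
  · norm_num [D7]
  · norm_num [D7]
  · norm_num [D7, Fr.R, Dat.r0]
  · norm_num [D7, Fr.R, Dat.r0]
  · norm_num [D7]
  · norm_num [D7]
  · norm_num [D7]

theorem rho7 : RhoOK D7 := by
  refine rhoOK (by norm_num [D7]) (by norm_num [D7]) ?_ ?_ ?_ (Or.inl ⟨by norm_num [D7, Fr.R, PcRho.al9_v7], by norm_num [D7, Fr.R, PcRho.be9_v7]⟩) ?_ ?_ <;>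
    norm_num [D7, Fr.R, PcRho.cT_v7, PcRho.UT_v7, PcRho.q3T_v7, PcRho.q4T_v7]

theorem chk7 : D7.Chk where
  lp := ⟨_, chk7_LP⟩
  lm := ⟨_, chk7_LM⟩
  rmT := (Or.inl ⟨_, chk7_RMT0⟩)
  rmG := (Or.inl ⟨_, chk7_RMt0⟩)
  rmC := (Or.inl ⟨_, chk7_RMc0⟩)
  rp1 := ⟨_, chk7_RP1⟩
  rp2 := ⟨_, chk7_RP2⟩
  rs := ⟨_, chk7_RS⟩

theorem D7_m : D7.P.m = 7 := rfl

theorem inOK7 : InOK D7.P.m D7.k.R (-710 / 1000) := by
  rw [D7_m]
  refine inOK_of (by norm_num) (by norm_num) ?_ ?_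
  · intro r τ τ' T hr hT x hx
    have h := IsTrans.pin_h4_seven hr hT hx
    refine h.trans (mul_le_mul_of_nonneg_right ?_ hx.1.le)
    norm_num [D7, Fr.R]
  · intro r τ τ' T hr hT x hx hx2
    have h := IsTrans.pin_h7_seven hr hT hx (by rw [hx2]; norm_num)
    refine le_trans ?_ h
    norm_num

/-- **`OneD 7`** -/
theorem oneD_7 : OneD 7 := by
  have h := oneD_of_dat num7 rho7 chk7 (by rw [D7_m]; norm_num) (by norm_num [D7, Fr.R]) inOK7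
  rwa [D7_m] at h

end Vale.Agent.P237.AllN
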