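import Vale.Agent.P237.AllN.PcK

/-!
# P237, plain certificate: kernel checks for `m = 8`
-/

namespace Vale.Agent.P237.AllN

open PolyPos

/-- data of the certificate, `m = 8` -/
def D8 : Dat := ⟨⟨8, ⟨18, 24⟩, ⟨17, 49⟩, ⟨29, 49⟩, ⟨91, 99⟩, ⟨14, 124⟩, ⟨39, 99⟩, ⟨111, 9999⟩, ⟨1, 999⟩, ⟨1, 999⟩⟩,
  ⟨547, 499⟩, ⟨273, 4999⟩, ⟨103, 999⟩, ⟨279, 249⟩, ⟨103, 199⟩, ⟨151, 499⟩, ⟨57, 1249⟩, ⟨1133, 1249⟩, 4, 548, 1308, 837, 1094, 2 ^ 1024, 40⟩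

theorem chk8_LP :
    D8.kLP (.leaf 0) = true := by
  decide +kernel

theorem chk8_LM :
    D8.kLM (.sx (.leaf 0) (.sy (.leaf 0) (.sx (.leaf 0) (.sy (.leaf 0) .out)))) = true := by
  decide +kernel

theorem chk8_RMT0 :
    D8.kRM D8.rbT 8 0 837 250 1000 (.leaf 0) = true := by
  decide +kernel

theorem chk8_RMt0 :
    D8.kRM D8.rbG 8 0 837 6 250 (.sx (.leaf 0) (.leaf 0)) = true := by
  decide +kernel

theorem chk8_RMc0 :
    D8.kRM D8.rbC 8 0 837 0 6 (.sx (.leaf 0) (.leaf 0)) = true := by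
  decide +kernel

theorem chk8_RP1 :
    D8.kRP1 (.sx (.leaf 0) (.sy (.sx (.leaf 1) (.sy (.sx (.leaf 1) .out) (.leaf 0))) (.leaf
    0))) = true := by
  decide +kernel

theorem chk8_RP2 :
    D8.kRP2 (.sx (.sy (.sx (.sy .out (.leaf 0)) .out) (.leaf 0)) .out) = true := by
  decide +kernel

theorem chk8_RS :
    D8.kRS (.leaf 1) = true := by
  decide +kernel

end Vale.Agent.P237.AllN
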