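import Vale.Agent.P237.AllN.PcK

/-!
# P237, plain certificate: kernel checks for `m = 9`
-/

namespace Vale.Agent.P237.AllN

open PolyPos

/-- data of the certificate, `m = 9` -/
def D9 : Dat := ⟨⟨9, ⟨13, 19⟩, ⟨41, 124⟩, ⟨543, 999⟩, ⟨1, 0⟩, ⟨121, 999⟩, ⟨41, 99⟩, ⟨87, 9999⟩, ⟨1, 999⟩, ⟨1, 999⟩⟩,
  ⟨233, 199⟩, ⟨553, 9999⟩, ⟨51, 499⟩, ⟨137, 124⟩, ⟨541, 999⟩, ⟨321, 999⟩, ⟨119, 2499⟩, ⟨9243, 9999⟩, 5, 523, 1367, 853, 1165, 2 ^ 1024, 40⟩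

theorem chk9_LP :
    D9.kLP (.leaf 0) = true := by
  decide +kernel

theorem chk9_LM :
    D9.kLM (.sx (.leaf 0) (.sy (.leaf 0) (.sx (.sy (.leaf 0) (.sx (.leaf 0) .out)) (.sy (.sx
    (.leaf 0) (.sy (.leaf 0) .out)) .out)))) = true := by
  decide +kernel

theorem chk9_RMT0 :
    D9.kRM D9.rbT 9 0 853 250 1000 (.leaf 0) = true := by
  decide +kernel

theorem chk9_RMt0 :
    D9.kRM D9.rbG 9 0 853 6 250 (.sx (.leaf 0) (.leaf 0)) = true := by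
  decide +kernel

theorem chk9_RMc0 :
    D9.kRM D9.rbC 9 0 853 0 6 (.sx (.leaf 0) (.leaf 0)) = true := by
  decide +kernel

theorem chk9_RP1 :
    D9.kRP1 (.sx (.leaf 0) (.sy (.sx (.leaf 0) (.sy (.sx (.leaf 1) (.sy .out (.sx (.sy .out
    (.leaf 0)) .out))) (.leaf 0))) (.leaf 0))) = true := by
  decide +kernel

theorem chk9_RP2 :
    D9.kRP2 (.sx (.sy (.sx (.sy .out (.leaf 0)) .out) (.leaf 0)) (.sy .out (.sx (.leaf 0)
    .out))) = true := by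
  decide +kernel

theorem chk9_RS :
    D9.kRS (.leaf 1) = true := by
  decide +kernel

end Vale.Agent.P237.AllN
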