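import Vale.Agent.P237.AllN.PcInOK
import Vale.Agent.P237.AllN.PcRhoOK
import Vale.Agent.P237.AllN.PcK9

/-!
# P237, plain certificate: `OneD 9`
-/

open Set

namespace Vale.Agent.P237.AllN

open PolyPos

theorem num9 : D9.Num (-821 / 1000) := by
  refine ⟨?_, ?_, ?_, ?_, ?_, ?_, ?_, ?_, ?_, ?_, ?_, ?_, ?_, ?_, ?_, ?_, ?_, ?_, ?_, ?_⟩
  · norm_num [D9]
  · norm_num [D9, Fr.R, Dat.r0]
  · norm_num [D9, Fr.R, Dat.r0]
  · norm_num [D9, Fr.R, Dat.r0]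
  · norm_num [D9, Fr.R, Dat.r0]
  · norm_num [D9, Fr.R, Dat.r0]
  · norm_num [D9, Fr.R, Dat.r0]
  · norm_num [D9, Fr.R, Dat.r0]
  · norm_num [D9, Fr.R, Dat.r0]
  · norm_num [D9, Fr.R, Dat.r0]
  · norm_num [D9, Fr.R, Dat.r0]
  · have h := pcn_log_ge (q := 19656 / 15125) (a := 3 / 11) (by norm_num) (by norm_num) (by
      norm_num [Finset.sum_range_succ, Nat.factorial])
    simp only [D9, Fr.R]
    norm_num at h ⊢
    linarith
  · have h := pcn_log_ge (q := 7135112 / 5490375) (a := 3 / 11) (by norm_num) (by norm_num) (by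
      norm_num [Finset.sum_range_succ, Nat.factorial])
    simp only [D9, Fr.R]
    norm_num at h ⊢
    linarith
  · norm_num [D9]
  · norm_num [D9]
  · norm_num [D9, Fr.R, Dat.r0]
  · norm_num [D9, Fr.R, Dat.r0]
  · norm_num [D9]
  · norm_num [D9]
  · norm_num [D9]

theorem rho9 : RhoOK D9 := by
  refine rhoOK (by norm_num [D9]) (by norm_num [D9]) ?_ ?_ ?_ (Or.inl ⟨by norm_num [D9, Fr.R, PcRho.al9_v9], by norm_num [D9, Fr.R, PcRho.be9_v9]⟩) ?_ ?_ <;>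
    norm_num [D9, Fr.R, PcRho.cT_v9, PcRho.UT_v9, PcRho.q3T_v9, PcRho.q4T_v9]

theorem chk9 : D9.Chk where
  lp := ⟨_, chk9_LP⟩
  lm := ⟨_, chk9_LM⟩
  rmT := (Or.inl ⟨_, chk9_RMT0⟩)
  rmG := (Or.inl ⟨_, chk9_RMt0⟩)
  rmC := (Or.inl ⟨_, chk9_RMc0⟩)
  rp1 := ⟨_, chk9_RP1⟩
  rp2 := ⟨_, chk9_RP2⟩
  rs := ⟨_, chk9_RS⟩

theorem D9_m : D9.P.m = 9 := rfl

theorem inOK9 : InOK D9.P.m D9.k.R (-821 / 1000) := by
  rw [D9_m]
  refine inOK_of (by norm_num) (by norm_num) ?_ ?_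
  · intro r τ τ' T hr hT x hx
    have h := IsTrans.pin_h4_nine hr hT hx
    refine h.trans (mul_le_mul_of_nonneg_right ?_ hx.1.le)
    norm_num [D9, Fr.R]
  · intro r τ τ' T hr hT x hx hx2
    have h := IsTrans.pin_h7_nine hr hT hx (by rw [hx2]; norm_num)
    refine le_trans ?_ h
    norm_num

/-- **`OneD 9`** -/
theorem oneD_9 : OneD 9 := by
  have h := oneD_of_dat num9 rho9 chk9 (by rw [D9_m]; norm_num) (by norm_num [D9, Fr.R]) inOK9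
  rwa [D9_m] at h

end Vale.Agent.P237.AllN
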