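import Mathlib

/-!
# P237, all dimensions: the uniform plain certificate (`m ≥ 15`), left region

`y = x²/s²`, `Y = (m-1) y`, `x₀² = 2/(m+1)`, `Y(x₀) = 2`, `U = u²/(1+u)`, `w = u - log (1+u)`.
-/

open Set

namespace Vale.Agent.P237.AllN

/-! ### logarithm bounds -/

theorem u15_w_nonneg {u : ℝ} (hu : 0 < 1 + u) : 0 ≤ u - Real.log (1 + u) := by
  have := Real.log_le_sub_one_of_pos hu
  linarith

theorem u15_w_pos_le {u : ℝ} (hu : 0 ≤ u) : u - Real.log (1 + u) ≤ u ^ 2 / (2 + u) := by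
  have h := Real.le_log_one_add_of_nonneg hu
  have e : u - 2 * u / (u + 2) = u ^ 2 / (2 + u) := by field_simp; ring
  linarith only [h, e]

theorem u15_w_pos_ge {u : ℝ} (hu : 0 ≤ u) : u ^ 2 / (1 + u) / 2 ≤ u - Real.log (1 + u) := by
  have hd : ∀ t : ℝ, 0 ≤ t → HasDerivAt (fun t : ℝ => t - Real.log (1 + t) - t ^ 2 / (1 + t) / 2)
      (t ^ 2 / (2 * (1 + t) ^ 2)) t := by
    intro t ht
    have h1 : (1 + t) ≠ 0 := by (clear * - ht; positivity)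
    have hl := ((hasDerivAt_id t).const_add 1).log h1
    have hq := ((hasDerivAt_pow 2 t).div ((hasDerivAt_id t).const_add 1) h1).div_const 2
    refine (((hasDerivAt_id t).sub hl).sub hq).congr_deriv ?_
    simp only [id]
    field_simp
    push_cast
    ring
  have hm : MonotoneOn (fun t : ℝ => t - Real.log (1 + t) - t ^ 2 / (1 + t) / 2) (Icc 0 u) := by
    apply monotoneOn_of_deriv_nonneg (convex_Icc _ _)
    · exact fun t ht => (hd t ht.1).continuousAt.continuousWithinAt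
    · exact fun t ht => (hd t (interior_subset ht).1).differentiableAt.differentiableWithinAt
    · intro t ht
      rw [(hd t (interior_subset ht).1).deriv]
      (clear * -; positivity)
  have := hm ⟨le_rfl, hu⟩ ⟨hu, le_rfl⟩ hu
  simp only [add_zero, Real.log_one, sub_self, ne_eq, OfNat.ofNat_ne_zero, not_false_eq_true, zero_pow, div_one, zero_div, sub_nonneg] at this
  linarith only [this]

theorem u15_w_neg_le {u : ℝ} (hu : -1 < u) (hu0 : u ≤ 0) :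
    u - Real.log (1 + u) ≤ (1 / 2 + u / 6) * (u ^ 2 / (1 + u)) := by
  have hd : ∀ t : ℝ, -1 < t → HasDerivAt
      (fun t : ℝ => (1 / 2 + t / 6) * (t ^ 2 / (1 + t)) - (t - Real.log (1 + t)))
      (t ^ 3 / (3 * (1 + t) ^ 2)) t := by
    intro t ht
    have h1 : (1 + t) ≠ 0 := by linarith only [ht]
    have hl := ((hasDerivAt_id t).const_add 1).log h1
    have hq := ((hasDerivAt_pow 2 t).div ((hasDerivAt_id t).const_add 1) h1)
    have hc := ((hasDerivAt_id t).div_const 6).const_add (1 / 2)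
    refine ((hc.mul hq).sub ((hasDerivAt_id t).sub hl)).congr_deriv ?_
    simp only [id, Pi.div_apply]
    field_simp
    push_cast
    ring
  have hm : AntitoneOn (fun t : ℝ => (1 / 2 + t / 6) * (t ^ 2 / (1 + t)) - (t - Real.log (1 + t)))
      (Icc u 0) := by
    apply antitoneOn_of_deriv_nonpos (convex_Icc _ _)
    · exact fun t ht => (hd t (by linarith only [hu, ht.1])).continuousAt.continuousWithinAt
    · exact fun t ht => (hd t (by linarith only [hu, (interior_subset ht).1])).differentiableAt.differentiableWithinAt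
    · intro t ht
      have ht' := interior_subset ht
      rw [(hd t (by linarith [ht'.1])).deriv]
      have h3 : t ^ 3 ≤ 0 := by
        have : t ^ 3 = t * t ^ 2 := by ring
        rw [this]
        exact mul_nonpos_of_nonpos_of_nonneg ht'.2 (sq_nonneg t)
      have h4 : 0 < 1 + t := by linarith [ht'.1]
      exact div_nonpos_of_nonpos_of_nonneg h3 (by (clear * - h4; positivity))
  have := hm ⟨le_rfl, hu0⟩ ⟨hu0, le_rfl⟩ hu0
  simp only [one_div, zero_div, add_zero, ne_eq, OfNat.ofNat_ne_zero, not_false_eq_true, zero_pow, div_one, mul_zero, Real.log_one, sub_self, sub_nonneg, tsub_le_iff_right] at this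
  linarith only [this]

/-! ### the quadratic form -/

theorem u15_aff {A B w1 w2 w : ℝ} (h1 : 0 ≤ A + B * w1) (h2 : 0 ≤ A + B * w2) (hw1 : w1 ≤ w)
    (hw2 : w ≤ w2) : 0 ≤ A + B * w := by
  rcases le_total 0 B with h | h
  · linarith only [h1, mul_le_mul_of_nonneg_left hw1 h]
  · linarith only [h2, mul_le_mul_of_nonpos_left hw2 h]

theorem u15_Q {a b U w Y : ℝ} (hY0 : 0 ≤ Y) (hY2 : Y ≤ 2) (hw1 : U / 2 ≤ w) (hw2 : w ≤ U) :
    0 ≤ 6 * (a - b) ^ 2 + 9 * a * b - 9 / 2 * a ^ 2 + (9 / 7 * Y - 1 / 2) * a ^ 2 -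
      3 * Y * a * U - 9 * b * w + 44 / 5 * U ^ 2 := by
  have c1 : 0 ≤ (6 * (a - b) ^ 2 + 9 * a * b - 9 / 2 * a ^ 2 - 1 / 2 * a ^ 2 - 9 * b * w +
      44 / 5 * U ^ 2) + (9 / 7 * a ^ 2 - 3 * a * U) * 0 := by
    have := u15_aff (A := 6 * (a - b) ^ 2 + 9 * a * b - 9 / 2 * a ^ 2 - 1 / 2 * a ^ 2 +
      44 / 5 * U ^ 2) (B := -9 * b) (w1 := U / 2) (w2 := U) (w := w)
      (by nlinarith only [sq_nonneg (a - 3 / 2 * b), sq_nonneg (b - 3 / 5 * U)])
      (by nlinarith only [sq_nonneg (a - 3 / 2 * b), sq_nonneg (b - 6 / 5 * U)]) hw1 hw2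
    linarith
  have c2 : 0 ≤ (6 * (a - b) ^ 2 + 9 * a * b - 9 / 2 * a ^ 2 - 1 / 2 * a ^ 2 - 9 * b * w +
      44 / 5 * U ^ 2) + (9 / 7 * a ^ 2 - 3 * a * U) * 2 := by
    have := u15_aff (A := 6 * (a - b) ^ 2 + 9 * a * b - 9 / 2 * a ^ 2 - 1 / 2 * a ^ 2 +
      44 / 5 * U ^ 2 + (9 / 7 * a ^ 2 - 3 * a * U) * 2) (B := -9 * b) (w1 := U / 2) (w2 := U)
      (w := w)
      (by nlinarith only [sq_nonneg (a - 21 / 50 * b - 21 / 25 * U), sq_nonneg (b - 117 / 179 * U)])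
      (by nlinarith [sq_nonneg (a - 21 / 50 * b - 21 / 25 * U), sq_nonneg (b - 192 / 179 * U),
        sq_nonneg U]) hw1 hw2
    (clear * - this; linarith)
  have := u15_aff c1 c2 hY0 hY2
  linarith only [this]

/-! ### the reduced inequality -/

theorem u15_left_pos {M Y l lam u U w S : ℝ} (hM : 16 ≤ M) (hY0 : 0 < Y) (hY2 : Y ≤ 2)
    (hu : 0 ≤ u) (hU : U * (1 + u) = u ^ 2) (hS : 13 / 20 * Y ≤ S) (huk : u ^ 2 ≤ 17 / 100 * Y)
    (hw1 : U / 2 ≤ w) (hw2 : w * (2 + u) ≤ u ^ 2) :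
    U / 10 ≤ M * (U - w) - 2 * u ^ 2 + (S - 2) * U - 3 * Y * l * U - 9 * lam * w +
      Y * (6 * (l - lam) ^ 2 + 9 * lam * l - 9 / 2 * l ^ 2 + (9 / 7 * Y - 1 / 2) * l ^ 2) := by
  have hu1 : 0 < 1 + u := by linarith only [hu]
  have hU0 : 0 ≤ U := by
    by_contra h
    push Not at h
    nlinarith only [hU, h, hu1]
  have hUw : U ≤ (U - w) * (2 + u) := by nlinarith only [hU, hw2]
  have hwU : w ≤ U := by
    by_contra h
    push Not at h
    nlinarith only [hU, hw2, h, hu]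
  have hUu : U ≤ u ^ 2 := by nlinarith only [hU, hu]
  have hT : 0 ≤ Y * (Y * (6 * (l - lam) ^ 2 + 9 * lam * l - 9 / 2 * l ^ 2 +
      (9 / 7 * Y - 1 / 2) * l ^ 2) - 3 * Y * l * U - 9 * lam * w + 3 / 2 * U) := by
    have h1 := u15_Q (a := Y * l) (b := Y * lam) hY0.le hY2 hw1 hwU
    have h2 : U * U ≤ U * (17 / 100 * Y) := mul_le_mul_of_nonneg_left (hUu.trans huk) hU0
    nlinarith only [h1, h2]
  have hT' := nonneg_of_mul_nonneg_right hT hY0
  have h3 : 0 ≤ (M - 16) * (U - w) := mul_nonneg (by linarith only [hM]) (by linarith only [hwU])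
  -- `16 (U-w) - 2 (1+u) U + (S - 7/2) U ≥ U/10`
  have h4 : 0 ≤ (16 * (U - w) - 2 * ((1 + u) * U) + (S - 18 / 5) * U) * (2 + u) := by
    have h5 : 19 / 5 * u ^ 2 ≤ S := by nlinarith only [hS, huk]
    have h6 : 0 ≤ 24 / 5 - 48 / 5 * u + 28 / 5 * u ^ 2 + 19 / 5 * u ^ 3 := by
      nlinarith only [hu, sq_nonneg (u - 6 / 7)]
    have h7 : 0 ≤ U * (24 / 5 - 48 / 5 * u + 28 / 5 * u ^ 2 + 19 / 5 * u ^ 3) :=
      mul_nonneg hU0 h6
    have h8 : 0 ≤ (S - 19 / 5 * u ^ 2) * (U * (2 + u)) :=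
      mul_nonneg (by linarith only [hY0, hS, huk]) (mul_nonneg hU0 (by linarith only [hu]))
    nlinarith only [hU, hw2, h7, h8]
  have h9 := nonneg_of_mul_nonneg_left h4 (by linarith only [hu])
  have h10 : (1 + u) * U = u ^ 2 := by linarith only [hU]
  rw [h10] at h9
  (clear * - hT' h3 h9; linarith)

theorem u15_left_neg {M Y l lam u U w S : ℝ} (hM : 16 ≤ M) (hY0 : 0 < Y) (hY2 : Y ≤ 2)
    (hu1 : 0 < 1 + u) (hu : u ≤ 0) (hU : U * (1 + u) = u ^ 2) (hS : 0 ≤ S)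
    (hl : l ≤ 127 / 200) (hlam : lam ≤ 3 / 5) (hw0 : 0 ≤ w) (hw : w ≤ (1 / 2 + u / 6) * U) :
    U / 10 ≤ M * (U - w) - 2 * u ^ 2 + (S - 2) * U - 3 * Y * l * U - 9 * lam * w +
      Y * (6 * (l - lam) ^ 2 + 9 * lam * l - 9 / 2 * l ^ 2 + (9 / 7 * Y - 1 / 2) * l ^ 2) := by
  have hU0 : 0 ≤ U := by
    by_contra h
    push Not at h
    nlinarith only [hw0, hw, h, hu1]
  have huU : u * U ≤ 0 := mul_nonpos_of_nonpos_of_nonneg hu hU0
  have hwU : w ≤ U := by nlinarith only [hw, hU0, huU]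
  have h1 : 0 ≤ (M - 16) * (U - w) := mul_nonneg (by linarith only [hM]) (by linarith only [hw, hU0, huU])
  have h2 : 0 ≤ S * U := mul_nonneg hS hU0
  have h3 : 0 ≤ (3 / 5 - lam) * w := mul_nonneg (by linarith only [hlam]) hw0
  have h4 : 0 ≤ Y * (6 * (lam - l / 4) ^ 2) := by (clear * - hY0; positivity)
  have h5 : 0 ≤ U * (4 / 27 - u ^ 2 - u ^ 3) := by
    apply mul_nonneg hU0
    have : 4 / 27 - u ^ 2 - u ^ 3 = (u + 2 / 3) ^ 2 * (1 / 3 - u) := by ring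
    rw [this]
    exact mul_nonneg (sq_nonneg _) (by linarith only [hu])
  have h6 : u ^ 4 ≤ 4 / 27 * U := by
    have : u ^ 4 = u ^ 2 * (U * (1 + u)) := by rw [hU]; ring
    nlinarith only [h5, this]
  have key : 381 / 100 * (u * U) - 63 / 40 * u ^ 4 ≤
      - 3 * Y * l * U + Y * ((9 / 7 * Y + 5 / 8) * l ^ 2) := by
    have hY1 : 0 ≤ Y * (5 / 8 - 1 / 7 * Y) * l ^ 2 :=
      mul_nonneg (mul_nonneg hY0.le (by linarith only [hY2])) (sq_nonneg l)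
    rcases le_total l 0 with h | h
    · have h7 : 0 ≤ (-l) * (Y * U) := mul_nonneg (by linarith only [h]) (mul_nonneg hY0.le hU0)
      have h8 : 0 ≤ u ^ 4 := by (clear * -; positivity)
      have h9 : 0 ≤ Y * ((9 / 7 * Y + 5 / 8) * l ^ 2) := by (clear * - hY0; positivity)
      nlinarith only [huU, h7, h8, h9]
    · have h7 : Y * l ≤ 127 / 100 := by nlinarith only [hY2, hY0, hl]
      have h8 : 0 ≤ (127 / 100 - Y * l) * (-(u * U)) := mul_nonneg (by linarith only [h7]) (by linarith only [huU])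
      have h9 : 0 ≤ (Y * l - 21 / 20 * u ^ 2) ^ 2 := sq_nonneg _
      have h10 : - 3 * Y * l * U = 3 * (Y * l) * (u * U) - 3 * (Y * l) * (U * (1 + u)) := by ring
      rw [h10, hU]
      linarith
  have h11 : (1 + u) * U = u ^ 2 := by linarith only [hU]
  linarith

/-! ### the left region -/

theorem u15_left_SY {m x s p Y S : ℝ} (hm : 15 ≤ m) (hs : 0 < s) (hxs : x ^ 2 + s ^ 2 = 1)
    (hp : p = x ^ 2 / s ^ 2) (hY : Y = (m - 1) * p) (hx8 : x ^ 2 ≤ 1 / 8)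
    (hS : S = (m - 1) * (1 - 2 * (s ^ 2 / (1 + s)))) : 13 / 20 * Y ≤ S := by
  have hp0 : 0 ≤ p := by rw [hp]; (clear * - hs; positivity)
  have h1 : 1 - 2 * (s ^ 2 / (1 + s)) = p * (s ^ 2 * (1 + 2 * s) / (1 + s) ^ 2) := by
    rw [hp]
    field_simp
    have : x ^ 2 = (1 - s) * (1 + s) := by linarith only [hxs]
    rw [this]
    ring
  have h2 : 13 / 20 ≤ s ^ 2 * (1 + 2 * s) / (1 + s) ^ 2 := by
    rw [le_div_iff₀ (by positivity)]
    have h3 : 7 / 8 ≤ s ^ 2 := by linarith only [hxs, hx8]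
    have h4 : 93 / 100 ≤ s := by nlinarith only [hs, hxs, hx8]
    nlinarith only [h4]
  rw [hS, h1, hY]
  have := mul_le_mul_of_nonneg_left h2 (mul_nonneg (by linarith only [hm] : 0 ≤ m - 1) hp0)
  linarith only [this]

theorem u15_left_G {m p Y t l lam u U w S F : ℝ} (hm : 15 ≤ m) (hp0 : 0 < p)
    (hY : Y = (m - 1) * p) (hY0 : 0 < Y) (ht1 : t * (2 - Y) = 1) (ht2 : 1 / 2 ≤ t)
    (hF : -(1 / 2 * p) * l ^ 2 ≤ F)
    (core : U / 10 ≤ (m + 1) * (U - w) - 2 * u ^ 2 + (S - 2) * U - 3 * Y * l * U -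
      9 * lam * w + Y * (6 * (l - lam) ^ 2 + 9 * lam * l - 9 / 2 * l ^ 2 +
        (9 / 7 * Y - 1 / 2) * l ^ 2)) :
    U / 10 ≤ (m - 1 + S) * U - (m + 1) * w - 3 * Y * l * U - 9 * lam * w +
      9 * Y * lam * l - 3 / 2 * Y * (3 - (m - 3) * p) * l ^ 2 + (m - 1) * F +
      (16 * Y * (1 + p) * t ^ 2 * (l - lam) ^ 2 + 8 * Y * t * (l - lam) * u +
      (1 - Y) * (4 * Y * t) * (l - lam) ^ 2) := by
  have hG : 16 * Y * (1 + p) * t ^ 2 * (l - lam) ^ 2 + 8 * Y * t * (l - lam) * u +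
      (1 - Y) * (4 * Y * t) * (l - lam) ^ 2 = 2 * (u + 2 * Y * t * (l - lam)) ^ 2 - 2 * u ^ 2 +
        4 * Y * (1 + t) * (l - lam) ^ 2 + 16 * Y * p * t ^ 2 * (l - lam) ^ 2 := by
    linear_combination (8 * Y * t * (l - lam) ^ 2 + 4 * Y * (l - lam) ^ 2) * ht1
  rw [hG]
  have h1 : 6 * Y * (l - lam) ^ 2 ≤ 4 * Y * (1 + t) * (l - lam) ^ 2 := by
    apply mul_le_mul_of_nonneg_right _ (sq_nonneg _)
    nlinarith only [hY0, ht2]
  have h2 : 0 ≤ 16 * Y * p * t ^ 2 * (l - lam) ^ 2 := by positivity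
  have h3 : 0 ≤ (m - 1) * (F + 1 / 2 * p * l ^ 2) := mul_nonneg (by linarith only [hm]) (by linarith only [hF])
  have h4 : 0 ≤ Y * ((m - 3) * p - 6 / 7 * Y) * l ^ 2 := by
    apply mul_nonneg (mul_nonneg hY0.le _) (sq_nonneg l)
    rw [hY]
    nlinarith only [hm, hp0]
  have h5 : (m - 1) * (F + 1 / 2 * p * l ^ 2) = (m - 1) * F + 1 / 2 * Y * l ^ 2 := by
    rw [hY]; ring
  rw [h5] at h3
  have h6 := sq_nonneg (u + 2 * Y * t * (l - lam))
  obtain ⟨q1, hq1⟩ : ∃ q, q = (u + 2 * Y * t * (l - lam)) ^ 2 := ⟨_, rfl⟩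
  obtain ⟨q2, hq2⟩ : ∃ q, q = 16 * Y * p * t ^ 2 * (l - lam) ^ 2 := ⟨_, rfl⟩
  obtain ⟨q3, hq3⟩ : ∃ q, q = 4 * Y * (1 + t) * (l - lam) ^ 2 := ⟨_, rfl⟩
  rw [← hq1] at h6 ⊢
  rw [← hq2] at h2 ⊢
  rw [← hq3] at h1 ⊢
  linarith only [core, h3, h4, h6, h2, h1]

theorem u15_left_alg {m s p Y t l lam u U w S F : ℝ} (hm1 : 0 < m + 1)
    (hY : Y = (m - 1) * p) (hS : S = (m - 1) * (1 - 2 * (s ^ 2 / (1 + s)))) :
    1 / (m + 1) * ((m - 1 + S) * U - (m + 1) * w - 3 * Y * l * U - 9 * lam * w +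
      9 * Y * lam * l - 3 / 2 * Y * (3 - (m - 3) * p) * l ^ 2 + (m - 1) * F +
      (16 * Y * (1 + p) * t ^ 2 * (l - lam) ^ 2 + 8 * Y * t * (l - lam) * u +
      (1 - Y) * (4 * Y * t) * (l - lam) ^ 2)) =
      (m - 1) / (m + 1) * (2 * (1 - s ^ 2 / (1 + s)) - 3 * p * l) * U -
        (1 + 9 * lam / (m + 1)) * w +
        Y * ((1 + 9 * lam / (m + 1)) - 1) * l -
        3 / 2 * ((m - 1) / (m + 1)) * p * (3 - (m - 3) * p) * l ^ 2 +
        (m - 1) / (m + 1) * F +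
      (16 * Y * (1 + p) * t ^ 2 / (m + 1)) * (l - lam) ^ 2 +
      2 * (4 * Y * t / (m + 1)) * (l - lam) * u +
      (1 - Y) * (4 * Y * t / (m + 1)) * (l - lam) ^ 2 := by
  obtain ⟨q, hq⟩ : ∃ q, q = s ^ 2 / (1 + s) := ⟨_, rfl⟩
  rw [← hq] at hS ⊢
  subst hS hY
  field_simp
  ring

/-- **Left region of the uniform plain certificate** (all real `m ≥ 15`, `x² < x₀² = 2/(m+1)`). -/
theorem u15_left {m x s l u lam F x0s : ℝ} (hm : 15 ≤ m) (hx : 0 < x) (hs : 0 < s)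
    (hxs : x ^ 2 + s ^ 2 = 1) (hx0s : x0s = 2 / (m + 1)) (hlt : x ^ 2 < x0s) (hu : 0 < 1 + u)
    (huk : 0 ≤ u → u ^ 2 ≤ 17 / 100 * ((m - 1) * (x ^ 2 / s ^ 2)))
    (hl : l ≤ 127 / 200) (hlam : lam ≤ 3 / 5)
    (hF : -(1 / 2 * (x ^ 2 / s ^ 2)) * l ^ 2 ≤ F) :
    1 / (10 * (m + 1)) * (u ^ 2 / (1 + u)) ≤
      (m - 1) / (m + 1) * (2 * (1 - s ^ 2 / (1 + s)) - 3 * (x ^ 2 / s ^ 2) * l) *
          (u ^ 2 / (1 + u)) -
        (1 + 9 * lam / (m + 1)) * (u - Real.log (1 + u)) +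
        (m - 1) * (x ^ 2 / s ^ 2) * ((1 + 9 * lam / (m + 1)) - 1) * l -
        3 / 2 * ((m - 1) / (m + 1)) * (x ^ 2 / s ^ 2) * (3 - (m - 3) * (x ^ 2 / s ^ 2)) * l ^ 2 +
        (m - 1) / (m + 1) * F +
      (2 * (4 * (m - 1) / (m + 1) ^ 2) * (x ^ 2 * x0s / (x0s - x ^ 2) ^ 2)) * (l - lam) ^ 2 +
      2 * (4 * (m - 1) / (m + 1) ^ 2 * (x ^ 2 / (x0s - x ^ 2))) * (l - lam) * u +
      (1 - (m - 1) * (x ^ 2 / s ^ 2)) * (4 * (m - 1) / (m + 1) ^ 2 * (x ^ 2 / (x0s - x ^ 2))) *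
        (l - lam) ^ 2 := by
  subst hx0s
  have hm1 : 0 < m + 1 := by linarith only [hm]
  have hs2 : 0 < s ^ 2 := by positivity
  have hx2 : 0 < x ^ 2 := by positivity
  have hlt' : x ^ 2 * (m + 1) < 2 := by rwa [lt_div_iff₀ hm1] at hlt
  obtain ⟨p, hp⟩ : ∃ p, p = x ^ 2 / s ^ 2 := ⟨_, rfl⟩
  have hp0 : 0 < p := by rw [hp]; positivity
  obtain ⟨Y, hY⟩ : ∃ Y, Y = (m - 1) * p := ⟨_, rfl⟩
  have hY0 : 0 < Y := by rw [hY]; exact mul_pos (by linarith only [hm]) hp0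
  have hsY : s ^ 2 * (2 - Y) = 2 - (m + 1) * x ^ 2 := by
    rw [hY, hp]
    field_simp
    linarith only [hxs]
  have hY2 : 0 < 2 - Y := by
    have : 0 < s ^ 2 * (2 - Y) := by rw [hsY]; linarith only [hlt']
    exact (pos_iff_pos_of_mul_pos this).1 hs2
  obtain ⟨t, ht⟩ : ∃ t, t = 1 / (2 - Y) := ⟨_, rfl⟩
  have ht1 : t * (2 - Y) = 1 := by rw [ht]; (clear * - hY2; field_simp)
  have ht0 : 0 < t := by rw [ht]; (clear * - hY2; positivity)
  have ht2 : 1 / 2 ≤ t := by nlinarith only [ht1, hY0, ht0]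
  have hd : 2 / (m + 1) - x ^ 2 = s ^ 2 * (2 - Y) / (m + 1) := by
    rw [hsY]; (clear * - hm; field_simp)
  have e1 : 4 * (m - 1) / (m + 1) ^ 2 * (x ^ 2 / (2 / (m + 1) - x ^ 2)) =
      4 * Y * t / (m + 1) := by
    have h : x ^ 2 = p * s ^ 2 := by rw [hp]; field_simp
    rw [hd, ht, h, hY]
    rw [hY] at hY2
    have := hY2.ne'
    field_simp
  have e2 : 2 * (4 * (m - 1) / (m + 1) ^ 2) * (x ^ 2 * (2 / (m + 1)) /
      (2 / (m + 1) - x ^ 2) ^ 2) = 16 * Y * (1 + p) * t ^ 2 / (m + 1) := by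
    have h : x ^ 2 = p * s ^ 2 := by rw [hp]; (clear * - hs hx; field_simp)
    have h1 : 1 + p = 1 / s ^ 2 := by rw [hp]; field_simp; linarith only [hxs]
    rw [hd, h1, ht, h, hY]
    rw [hY] at hY2
    have := hY2.ne'
    field_simp
    ring
  rw [e1, e2, ← hp, ← hY]
  rw [← hp] at hF
  rw [← hp, ← hY] at huk
  obtain ⟨U, hU⟩ : ∃ U, U = u ^ 2 / (1 + u) := ⟨_, rfl⟩
  obtain ⟨w, hw⟩ : ∃ w, w = u - Real.log (1 + u) := ⟨_, rfl⟩
  obtain ⟨S, hS⟩ : ∃ S, S = (m - 1) * (1 - 2 * (s ^ 2 / (1 + s))) := ⟨_, rfl⟩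
  have hUu : U * (1 + u) = u ^ 2 := by rw [hU]; (clear * - hu; field_simp)
  have hSY : 13 / 20 * Y ≤ S := u15_left_SY hm hs hxs hp hY (by nlinarith only [hlt', hm]) hS
  -- core inequality
  have core : U / 10 ≤ (m + 1) * (U - w) - 2 * u ^ 2 + (S - 2) * U - 3 * Y * l * U -
      9 * lam * w + Y * (6 * (l - lam) ^ 2 + 9 * lam * l - 9 / 2 * l ^ 2 +
        (9 / 7 * Y - 1 / 2) * l ^ 2) := by
    rcases le_total 0 u with h | h
    · refine u15_left_pos (by linarith only [hm]) hY0 (by linarith only [hY2]) h hUu hSY (huk h) ?_ ?_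
      · rw [hU, hw]; exact u15_w_pos_ge h
      · rw [hw]
        have := u15_w_pos_le h
        rwa [le_div_iff₀ (by linarith only [h])] at this
    · refine u15_left_neg (by linarith only [hm]) hY0 (by linarith only [hY2]) hu h hUu (by linarith only [hY0, hSY]) hl hlam ?_ ?_
      · rw [hw]; exact u15_w_nonneg hu
      · rw [hw, hU]; exact u15_w_neg_le (by linarith only [hu]) h
  have hfin := u15_left_G hm hp0 hY hY0 ht1 ht2 hF core
  have hfin2 := mul_le_mul_of_nonneg_left hfin (by (clear * - hm; positivity) : (0 : ℝ) ≤ 1 / (m + 1))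
  rw [u15_left_alg (s := s) hm1 hY hS] at hfin2
  rw [← hU, ← hw]
  calc 1 / (10 * (m + 1)) * U = 1 / (m + 1) * (U / 10) := by (clear * - hm; field_simp)
    _ ≤ _ := hfin2

end Vale.Agent.P237.AllN
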