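import Vale.Agent.P237.AllN.U15A
import Vale.Agent.P237.AllN.U15L

/-!
# P237, uniform plain certificate (`m ≥ 15`): right region, `u ≥ 4`
-/

open Set

namespace Vale.Agent.P237.AllN

/-- completing the square in the right potential term -/
theorem u15R_HR {m Y l u lam : ℝ} (hm : 1 < m) (hY : 2 < Y) :
    -(8 / Y ^ 2 * u ^ 2) + 3 / 2 * (l - lam) ^ 2 ≤ u15HR m Y l u lam := by
  have h1 : 0 < Y := by linarith
  have h2 : 0 < Y - 2 := by linarith only [hY]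
  have h3 : 0 < m - 1 := by linarith only [hm]
  have e : u15HR m Y l u lam - (-(8 / Y ^ 2 * u ^ 2) + 3 / 2 * (l - lam) ^ 2) =
      16 * (Y / (m - 1)) / (Y - 2) ^ 2 * (l - lam) ^ 2 +
        8 / Y ^ 2 * (u - Y * (Y + 2) * (l - lam) / (4 * (Y - 2))) ^ 2 +
        (4 * Y ^ 2 + 16) / (2 * Y * (Y - 2) ^ 2) * (l - lam) ^ 2 := by
    unfold u15HR
    field_simp
    ring
  have h4 : 0 ≤ 16 * (Y / (m - 1)) / (Y - 2) ^ 2 * (l - lam) ^ 2 := by (clear * - hY hm; positivity)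
  have h5 : 0 ≤ 8 / Y ^ 2 * (u - Y * (Y + 2) * (l - lam) / (4 * (Y - 2))) ^ 2 := by (clear * - hY; positivity)
  have h6 : 0 ≤ (4 * Y ^ 2 + 16) / (2 * Y * (Y - 2) ^ 2) * (l - lam) ^ 2 := by positivity
  linarith only [e, h4, h5, h6]

/-- the quadratic form for large `Y`, general `l` -/
theorem u15R_core {Y l lam W q : ℝ} (hY : 190 ≤ Y) (hq : 0 ≤ q) (h1 : q / 2 ≤ W) (h2 : W ≤ q) :
    -(37 / 20 * (q ^ 2 * Y)) ≤ 3 / 2 * (l - lam) ^ 2 + 9 * lam * l - 9 / 2 * l ^ 2 +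
      (9 / 7 * Y - 2) * l ^ 2 - 3 * l * (q * Y) - 9 * lam * W := by
  obtain ⟨A, hA⟩ : ∃ A, A = 9 / 7 * Y - 11 := ⟨_, rfl⟩
  obtain ⟨G, hG⟩ : ∃ G, G = 3 * (q * Y) - 18 * W := ⟨_, rfl⟩
  have hA0 : 0 < A := by rw [hA]; linarith only [hY]
  have hqY : 190 * q ≤ q * Y := by nlinarith only [hY, hq]
  have hG0 : 0 ≤ G := by rw [hG]; linarith only [hq, h2, hqY]
  have hG1 : G ≤ 3 * (q * (Y - 3)) := by rw [hG]; linarith only [h1]
  have hG2 : G ^ 2 ≤ (3 * (q * (Y - 3))) ^ 2 := pow_le_pow_left₀ hG0 hG1 2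
  have hW2 : W ^ 2 ≤ q ^ 2 := pow_le_pow_left₀ (by linarith only [hq, h1]) h2 2
  have hp : 0 ≤ (-(9 * (Y - 3) ^ 2) - 54 * A + 37 / 5 * A * Y) := by
    rw [hA]; nlinarith only [hY]
  have h3 : 0 ≤ q ^ 2 * (-(9 * (Y - 3) ^ 2) - 54 * A + 37 / 5 * A * Y) :=
    mul_nonneg (sq_nonneg q) hp
  have h4 : 0 ≤ (4 * A) * (A * l ^ 2 - G * l - 27 / 2 * W ^ 2 + 37 / 20 * (q ^ 2 * Y)) := by
    have h5 : 54 * A * W ^ 2 ≤ 54 * A * q ^ 2 := mul_le_mul_of_nonneg_left hW2 (by linarith only [hY, hA])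
    nlinarith only [hG2, h3, h5, sq_nonneg (2 * A * l - G)]
  have h5 := nonneg_of_mul_nonneg_right h4 (by linarith only [hY, hA])
  have h6 : 0 ≤ 3 / 2 * (lam + 2 * l - 3 * W) ^ 2 := by (clear * -; positivity)
  rw [hA, hG] at h5
  linarith

/-- the quadratic form for large `Y`, `l ≤ 0` -/
theorem u15R_core_neg {Y l lam W q : ℝ} (hY : 190 ≤ Y) (hq : 0 ≤ q) (h1 : q / 2 ≤ W) (h2 : W ≤ q)
    (hl : l ≤ 0) :
    -(27 / 2 * q ^ 2) ≤ 3 / 2 * (l - lam) ^ 2 + 9 * lam * l - 9 / 2 * l ^ 2 +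
      (9 / 7 * Y - 2) * l ^ 2 - 3 * l * (q * Y) - 9 * lam * W := by
  have hqY : 190 * q ≤ q * Y := by nlinarith only [hY, hq]
  have hG0 : 0 ≤ 3 * (q * Y) - 18 * W := by linarith only [hq, h2, hqY]
  have hW2 : W ^ 2 ≤ q ^ 2 := pow_le_pow_left₀ (by linarith only [hq, h1]) h2 2
  have h6 : 0 ≤ 3 / 2 * (lam + 2 * l - 3 * W) ^ 2 := by (clear * -; positivity)
  have h7 : 0 ≤ (3 * (q * Y) - 18 * W) * (-l) := mul_nonneg hG0 (by linarith only [hl])
  have h8 : 0 ≤ (9 / 7 * Y - 11) * l ^ 2 := mul_nonneg (by linarith only [hY]) (sq_nonneg l)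
  linarith

/-- `log 7 ≥ 15/8` -/
theorem u15_log_seven : (15 : ℝ) / 8 ≤ Real.log 7 := by
  rw [Real.le_log_iff_exp_le (by norm_num)]
  have h1 : Real.exp (15 / 8) ^ 8 ≤ 7 ^ 8 := by
    rw [← Real.exp_nat_mul]
    have h2 : Real.exp ((8 : ℕ) * (15 / 8)) = Real.exp 1 ^ 15 := by
      rw [← Real.exp_nat_mul]; norm_num
    rw [h2]
    calc Real.exp 1 ^ 15 ≤ 2.72 ^ 15 := by
          apply pow_le_pow_left₀ (Real.exp_pos _).le
          linarith only [Real.exp_one_lt_d9]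
      _ ≤ 7 ^ 8 := by norm_num
  exact le_of_pow_le_pow_left₀ (by norm_num) (by norm_num) h1

/-- the slope is at most `m/2` where `l > 0` and `u ≥ 4` -/
theorem u15R_half {m x s l u : ℝ} (hm : 15 ≤ m) (hx : 0 < x) (hx1 : x < 1)
    (hxs : x ^ 2 + s ^ 2 = 1) (hs : s ^ 2 ≤ 1 / 16) (hu : 0 ≤ u) (hl : 0 ≤ l)
    (tail : (1 + (1 + u) * s ^ 2 / ((m + 2) - (m + 1) * s ^ 2)) * (x * Real.exp l) ≤ 1) :
    u ≤ m / 2 := by
  have hD : 0 < (m + 2) - (m + 1) * s ^ 2 := by nlinarith only [hxs, hm]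
  have h1 : (1 + (1 + u) * s ^ 2 / ((m + 2) - (m + 1) * s ^ 2)) * x ≤ 1 := by
    refine le_trans ?_ tail
    have h2 : 0 ≤ 1 + (1 + u) * s ^ 2 / ((m + 2) - (m + 1) * s ^ 2) := by (clear * - hu hD; positivity)
    apply mul_le_mul_of_nonneg_left _ h2
    have := Real.one_le_exp hl
    nlinarith only [hx, this]
  have h3 : ((m + 2) - (m + 1) * s ^ 2 + (1 + u) * s ^ 2) * x ≤ (m + 2) - (m + 1) * s ^ 2 := by
    have e : 1 + (1 + u) * s ^ 2 / ((m + 2) - (m + 1) * s ^ 2) =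
        ((m + 2) - (m + 1) * s ^ 2 + (1 + u) * s ^ 2) / ((m + 2) - (m + 1) * s ^ 2) := by
      rw [eq_div_iff hD.ne', add_mul, div_mul_cancel₀ _ hD.ne', one_mul]
    rw [e, div_mul_eq_mul_div, div_le_one hD] at h1
    exact h1
  -- `(1+u)(1+x)x ≤ m+2-(m+1)s²`
  have h4 : (1 - x) * ((1 + u) * ((1 + x) * x)) ≤ (1 - x) * ((m + 2) - (m + 1) * s ^ 2) := by
    have e : s ^ 2 = (1 - x) * (1 + x) := by linarith only [hxs]
    have e2 : (1 + u) * s ^ 2 * x = (1 - x) * ((1 + u) * ((1 + x) * x)) := by rw [e]; ring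
    linarith only [h3, e2]
  have h5 := le_of_mul_le_mul_left h4 (by linarith only [hx1])
  have h6 : 1 - 51 / 100 * s ^ 2 ≤ x := by
    apply le_of_sq_le_sq _ hx.le
    have : x ^ 2 = 1 - s ^ 2 := by linarith only [hxs]
    rw [this]
    nlinarith only [hs]
  have h7 : 2 - 151 / 100 * s ^ 2 ≤ (1 + x) * x := by nlinarith only [hxs, h6]
  have h8 : (1 + u) * (2 - 151 / 100 * s ^ 2) ≤ (m + 2) - (m + 1) * s ^ 2 :=
    (mul_le_mul_of_nonneg_left h7 (by linarith only [hu])).trans h5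
  by_contra h
  push Not at h
  have h9 : 0 ≤ s ^ 2 := sq_nonneg s
  nlinarith only [h8, hm, h, hs]

/-- scalar inequality, `l > 0` -/
theorem u15R_scal_pos {m s u U w Sg : ℝ} (hm : 15 ≤ m) (hu : 4 ≤ u) (hum : u ≤ m / 2)
    (hs : 0 ≤ s) (hus : u * s ≤ 1) (hU : U * (1 + u) = u ^ 2) (hw : w = u - Real.log (1 + u))
    (hSg : (m - 1) * (1 - 2 * s ^ 2 / (1 + s)) ≤ Sg) :
    U / 10 + 8 / 13 + 37 / 20 * U ^ 2 ≤ (m + 1) * (U - w) + (Sg - 2) * U := by
  have hU1 : 16 / 5 ≤ U := by nlinarith only [hu, hU]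
  have hU2 : U ≤ u - 4 / 5 := by nlinarith only [hu, hU]
  have hUw : 0 ≤ U - w := by
    have h1 := u15_w_pos_le (u := u) (by linarith only [hu])
    rw [← hw, le_div_iff₀ (by linarith only [hu])] at h1
    nlinarith only [hU, h1, hu]
  have h2 : 0 ≤ s ^ 2 := sq_nonneg s
  have hs4 : s ≤ 1 / 4 := by nlinarith only [hus, hu]
  rcases le_total U (11 / 2) with h | h
  · -- moderate `U`
    have h3 : 2 * s ^ 2 / (1 + s) ≤ 1 / 10 := by
      rw [div_le_iff₀ (by linarith only [hs])]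
      nlinarith only [hu, hs, hus]
    have h4 : (m - 1) * (9 / 10) ≤ Sg :=
      le_trans (mul_le_mul_of_nonneg_left (by (clear * - h3; linarith)) (by linarith only [hm])) hSg
    have h5 : 0 ≤ (m + 1) * (U - w) := mul_nonneg (by linarith only [hm]) hUw
    nlinarith only [h5, hU1, h, hm, h4]
  · have hu6 : 63 / 10 ≤ u := by linarith only [hU2, h]
    have hss : s ≤ 10 / 63 := by nlinarith only [hus, h, hU2]
    have h3 : 2 * s ^ 2 / (1 + s) ≤ 2 * s ^ 2 := by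
      rw [div_le_iff₀ (by linarith only [hs])]
      nlinarith only [hs]
    have h3' : s ^ 2 ≤ 63 / 2500 := by nlinarith only [hss, hs]
    have h4 : (m - 1) * (949 / 1000) ≤ Sg :=
      le_trans (mul_le_mul_of_nonneg_left (by linarith only [h3, h3']) (by linarith only [hm])) hSg
    have h5 : 7 / 8 ≤ U - w := by
      have h6 : U = u - u / (1 + u) := by
        have : U = u ^ 2 / (1 + u) := by
          rw [eq_div_iff (by linarith only [hU2, h]), hU]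
        rw [this]
        have : 1 + u ≠ 0 := by (clear * - hU2 h; linarith)
        field_simp
        ring
      have h7 : u / (1 + u) ≤ 1 := by
        rw [div_le_one (by linarith only [hU2, h])]; linarith only []
      have h8 : Real.log 7 ≤ Real.log (1 + u) := Real.log_le_log (by norm_num) (by linarith only [hU2, h])
      have h9 := u15_log_seven
      linarith only [hw, h6, h7, h8, h9]
    have h6 : (m + 1) * (7 / 8) ≤ (m + 1) * (U - w) := mul_le_mul_of_nonneg_left h5 (by linarith only [hm])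
    have hUm : U ≤ m / 2 - 4 / 5 := by linarith only [hum, hU2]
    -- `Sg - 2.3 - 1.85 U ≥ .024 m - 1.77`
    have h7 : 6 / 250 * m - 177 / 100 ≤ Sg - 23 / 10 - 37 / 20 * U := by linarith only [hum, hU2, h4]
    have h8 : (6 / 250 * m - 177 / 100) * U ≤ (Sg - 23 / 10 - 37 / 20 * U) * U :=
      mul_le_mul_of_nonneg_right h7 (by linarith only [h])
    have h9 : -((m + 1) * (7 / 8)) ≤ (6 / 250 * m - 177 / 100) * U := by
      rcases le_total 0 (6 / 250 * m - 177 / 100) with h' | h'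
      · have := mul_nonneg h' (by linarith only [h] : 0 ≤ U)
        (clear * - h' this; linarith)
      · have := mul_le_mul_of_nonpos_left hUm h'
        nlinarith only [hm, this]
    nlinarith only [h, h6, h8, h9]

/-- scalar inequality, `l ≤ 0` -/
theorem u15R_scal_neg {m s u U w Sg Y : ℝ} (hm : 15 ≤ m) (hu : 4 ≤ u) (hY : 13 * u ^ 2 ≤ Y)
    (hs : 0 ≤ s) (hus : u * s ≤ 1) (hU : U * (1 + u) = u ^ 2) (hw : w = u - Real.log (1 + u))
    (hSg : (m - 1) * (1 - 2 * s ^ 2 / (1 + s)) ≤ Sg) :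
    U / 10 + 8 / 13 + 27 / 2 * (U ^ 2 / Y) ≤ (m + 1) * (U - w) + (Sg - 2) * U := by
  have hU1 : 16 / 5 ≤ U := by (clear * - hu hU; nlinarith)
  have hU2 : U ≤ u := by nlinarith only [hu, hU]
  have hY0 : 0 < Y := by nlinarith only [hu, hY]
  have hUw : 0 ≤ U - w := by
    have h1 := u15_w_pos_le (u := u) (by linarith only [hu])
    rw [← hw, le_div_iff₀ (by linarith only [hu])] at h1
    nlinarith only [hu, hU, h1]
  have hs4 : s ≤ 1 / 4 := by nlinarith only [hus, hu]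
  have h3 : 2 * s ^ 2 / (1 + s) ≤ 1 / 10 := by
    rw [div_le_iff₀ (by linarith only [hs])]
    nlinarith only [hu, hs, hus]
  have h4 : (m - 1) * (9 / 10) ≤ Sg :=
    le_trans (mul_le_mul_of_nonneg_left (by linarith only [h3]) (by linarith only [hm])) hSg
  have h5 : 0 ≤ (m + 1) * (U - w) := mul_nonneg (by linarith only [hm]) hUw
  have h6 : U ^ 2 / Y ≤ 1 / 13 := by
    rw [div_le_iff₀ hY0]
    nlinarith only [hY, hu, hU]
  nlinarith only [hu, hU, h5, h6, hm, h4]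

/-- **Right region, `u ≥ 4`**, all real `m ≥ 15`. -/
theorem u15_right_big {m x s l u lam v c Y : ℝ} (hm : 15 ≤ m) (hx : 0 < x) (hx1 : x < 1)
    (hs : 0 < s) (hxs : x ^ 2 + s ^ 2 = 1) (hY : Y = (m - 1) * (x ^ 2 / s ^ 2)) (hu : 4 ≤ u)
    (hus : u * s ≤ 1)
    (tail : (1 + (1 + u) * s ^ 2 / ((m + 2) - (m + 1) * s ^ 2)) * (x * Real.exp l) ≤ 1)
    (hv : v = Real.log (1 + u)) (hc : -2 * l ^ 2 ≤ c) :
    1 / 10 * (u ^ 2 / (1 + u)) / Y ≤ u15F m s Y l u lam v c + u15HR m Y l u lam := by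
  have hs4 : s ≤ 1 / 4 := by (clear * - hus hs hu; nlinarith)
  have hs16 : s ^ 2 ≤ 1 / 16 := by nlinarith only [hu, hs, hus]
  have hu1 : (0 : ℝ) < 1 + u := by linarith only [hu]
  have hYu : 13 * u ^ 2 ≤ Y := by
    rw [hY, ← mul_div_assoc, le_div_iff₀ (by positivity)]
    have h1 : (u * s) ^ 2 ≤ 1 ^ 2 := pow_le_pow_left₀ (by positivity) hus 2
    have h2 : 15 / 16 ≤ x ^ 2 := by linarith only [hxs, hs16]
    nlinarith only [hxs, hs16, h1, hm]
  have hY190 : 190 ≤ Y := by nlinarith only [hu, hYu]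
  have hY0 : 0 < Y := by linarith only [hY190]
  obtain ⟨U, hU⟩ : ∃ U, U = u ^ 2 / (1 + u) := ⟨_, rfl⟩
  have hUu : U * (1 + u) = u ^ 2 := by rw [hU]; (clear * - hu; field_simp)
  have hU0 : 0 ≤ U := by rw [hU]; positivity
  obtain ⟨w, hw⟩ : ∃ w, w = u - Real.log (1 + u) := ⟨_, rfl⟩
  obtain ⟨Sg, hSg⟩ : ∃ Sg, Sg = s ^ 2 * (1 + 2 * s) / (1 + s) ^ 2 * Y := ⟨_, rfl⟩
  have hSg' : (m - 1) * (1 - 2 * s ^ 2 / (1 + s)) ≤ Sg := by
    refine le_of_eq ?_
    rw [hSg, hY, show x ^ 2 = (1 - s) * (1 + s) by linarith only [hxs]]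
    field_simp
    ring
  have hw1 : U / 2 ≤ w := by rw [hU, hw]; exact u15_w_pos_ge (by linarith only [hu])
  have hw2 : w ≤ U := by
    have h1 := u15_w_pos_le (u := u) (by linarith only [hu])
    rw [← hw, le_div_iff₀ (by linarith only [hu])] at h1
    nlinarith only [hu, hUu, h1]
  have hq : 0 ≤ U / Y := by (clear * - hU0 hY190; positivity)
  have hW1 : U / Y / 2 ≤ w / Y := by
    rw [div_right_comm]; exact div_le_div_of_nonneg_right hw1 hY0.le
  have hW2 : w / Y ≤ U / Y := div_le_div_of_nonneg_right hw2 hY0.le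
  have hqY : U / Y * Y = U := by (clear * - hY190; field_simp)
  have h37 : 9 / 7 ≤ 3 / 2 * ((m - 3) / (m - 1)) := by
    rw [← mul_div_assoc, le_div_iff₀ (by linarith only [hm])]
    linarith only [hm]
  have h37' : 9 / 7 * Y * l ^ 2 ≤ 3 / 2 * ((m - 3) / (m - 1)) * Y * l ^ 2 :=
    mul_le_mul_of_nonneg_right (mul_le_mul_of_nonneg_right h37 hY0.le) (sq_nonneg l)
  have eF : u15F m s Y l u lam v c = ((m + 1) * (U - w) + (Sg - 2) * U) / Y +
      (9 * lam * l - 9 / 2 * l ^ 2 + 3 / 2 * ((m - 3) / (m - 1)) * Y * l ^ 2 -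
        3 * l * (U / Y * Y) - 9 * lam * (w / Y) + c) := by
    have e1 : v - u / (1 + u) = U - w := by
      rw [hU, hw, hv]
      field_simp
      ring
    have e2 : u - v = w := by rw [hw, hv]
    unfold u15F
    rw [e1, e2, ← hU, hSg]
    field_simp
    ring
  have hHR := u15R_HR (m := m) (Y := Y) (l := l) (u := u) (lam := lam) (by linarith only [hm]) (by linarith only [hY190])
  have h8 : 8 / Y ^ 2 * u ^ 2 ≤ 8 / 13 / Y := by
    rw [div_mul_eq_mul_div, div_le_div_iff₀ (by (clear * - hY190; positivity)) hY0]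
    (clear * - hYu; nlinarith)
  rw [← hU, eF]
  rcases le_total l 0 with hl | hl
  · have hc1 := u15R_core_neg (l := l) (lam := lam) hY190 hq hW1 hW2 hl
    have hsc := u15R_scal_neg hm hu hYu hs.le hus hUu hw hSg'
    have hfin : (U / 10 + 8 / 13 + 27 / 2 * (U ^ 2 / Y)) / Y ≤
        ((m + 1) * (U - w) + (Sg - 2) * U) / Y := div_le_div_of_nonneg_right hsc hY0.le
    have e3 : (U / 10 + 8 / 13 + 27 / 2 * (U ^ 2 / Y)) / Y =
        1 / 10 * U / Y + 8 / 13 / Y + 27 / 2 * (U / Y) ^ 2 := by (clear * - hY190 hU0; field_simp)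
    rw [e3] at hfin
    linarith only [hc, h37', hHR, h8, hc1, hfin]
  · have hhalf := u15R_half hm hx hx1 hxs hs16 (by linarith only [hu]) hl tail
    have hc1 := u15R_core (l := l) (lam := lam) hY190 hq hW1 hW2
    have hsc := u15R_scal_pos hm hu hhalf hs.le hus hUu hw hSg'
    have hfin : (U / 10 + 8 / 13 + 37 / 20 * U ^ 2) / Y ≤
        ((m + 1) * (U - w) + (Sg - 2) * U) / Y := div_le_div_of_nonneg_right hsc hY0.le
    have e3 : (U / 10 + 8 / 13 + 37 / 20 * U ^ 2) / Y =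
        1 / 10 * U / Y + 8 / 13 / Y + 37 / 20 * ((U / Y) ^ 2 * Y) := by (clear * - hY190 hU0; field_simp)
    rw [e3] at hfin
    linarith only [hc, h37', hHR, h8, hc1, hfin]

end Vale.Agent.P237.AllN
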