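import Vale.Agent.P237.AllN.U15A
import Vale.Agent.P237.AllN.U15L

/-!
# P237, uniform plain certificate (`m ≥ 15`): right region, `u ≤ 0`
-/

open Set

namespace Vale.Agent.P237.AllN

/-- completing the square in the right potential term, second form -/
theorem u15R_HR2 {m Y l u lam : ℝ} (hm : 1 < m) (hY : 2 < Y) :
    -(2 / Y * u ^ 2) + 2 * Y / (Y - 2) * (l - lam) ^ 2 ≤ u15HR m Y l u lam := by
  have h1 : 0 < Y := by linarith only [hY]
  have h2 : 0 < Y - 2 := by linarith only [hY]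
  have h3 : 0 < m - 1 := by linarith only [hm]
  have e : u15HR m Y l u lam - (-(2 / Y * u ^ 2) + 2 * Y / (Y - 2) * (l - lam) ^ 2) =
      16 * (Y / (m - 1)) / (Y - 2) ^ 2 * (l - lam) ^ 2 +
        2 / Y * (u - (Y + 2) * (l - lam) / (Y - 2)) ^ 2 := by
    unfold u15HR
    field_simp
    ring
  have h4 : 0 ≤ 16 * (Y / (m - 1)) / (Y - 2) ^ 2 * (l - lam) ^ 2 := by (clear * - hY hm; positivity)
  have h5 : 0 ≤ 2 / Y * (u - (Y + 2) * (l - lam) / (Y - 2)) ^ 2 := by (clear * - hY; positivity)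
  linarith

/-- elimination of `lam` -/
theorem u15R_elimN {Y l lam : ℝ} (hY : 2 < Y) :
    14 / 25 * Y * l ^ 2 ≤ 2 * Y / (Y - 2) * (l - lam) ^ 2 + 9 * lam * l - 9 / 2 * l ^ 2 +
      (9 / 7 * Y - 2) * l ^ 2 := by
  have h1 : 0 < Y := by linarith only [hY]
  have h2 : 0 < Y - 2 := by linarith only [hY]
  have e : 2 * Y / (Y - 2) * (l - lam) ^ 2 + 9 * lam * l - 9 / 2 * l ^ 2 +
      (9 / 7 * Y - 2) * l ^ 2 - 14 / 25 * Y * l ^ 2 =
      2 * Y / (Y - 2) * (lam - (1 - 9 * (Y - 2) / (4 * Y)) * l) ^ 2 +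
      ((9 / 7 - 14 / 25) * Y ^ 2 - 61 / 8 * Y + 81 / 4) / Y * l ^ 2 := by
    field_simp
    ring
  have h4 : 0 ≤ 2 * Y / (Y - 2) * (lam - (1 - 9 * (Y - 2) / (4 * Y)) * l) ^ 2 := by (clear * - hY; positivity)
  have h5 : 0 ≤ ((9 / 7 - 14 / 25) * Y ^ 2 - 61 / 8 * Y + 81 / 4) / Y * l ^ 2 := by
    apply mul_nonneg (div_nonneg _ h1.le) (sq_nonneg l)
    nlinarith only [sq_nonneg (Y - 525 / 100)]
  linarith

/-- logarithm bound for `u ≤ 0` -/
theorem u15_w_neg_le4 {u : ℝ} (hu : -1 < u) (hu0 : u ≤ 0) :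
    u - Real.log (1 + u) ≤
      (1 / 2 + u / 6 - u ^ 2 / 12 + u ^ 3 / 20 - u ^ 4 / 30) * (u ^ 2 / (1 + u)) := by
  have hd : ∀ t : ℝ, -1 < t → HasDerivAt
      (fun t : ℝ => (1 / 2 + t / 6 - t ^ 2 / 12 + t ^ 3 / 20 - t ^ 4 / 30) * (t ^ 2 / (1 + t)) -
        (t - Real.log (1 + t))) (-(t ^ 6 / (6 * (1 + t) ^ 2))) t := by
    intro t ht
    have h1 : (1 + t) ≠ 0 := by linarith
    have hl := ((hasDerivAt_id t).const_add 1).log h1
    have hq := ((hasDerivAt_pow 2 t).div ((hasDerivAt_id t).const_add 1) h1)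
    have hc := (((((hasDerivAt_id t).div_const 6).const_add (1 / 2)).sub
      ((hasDerivAt_pow 2 t).div_const 12)).add ((hasDerivAt_pow 3 t).div_const 20)).sub
      ((hasDerivAt_pow 4 t).div_const 30)
    refine ((hc.mul hq).sub ((hasDerivAt_id t).sub hl)).congr_deriv ?_
    simp only [id, Pi.div_apply, Pi.add_apply, Pi.sub_apply]
    field_simp
    push_cast
    ring
  have hm : AntitoneOn (fun t : ℝ => (1 / 2 + t / 6 - t ^ 2 / 12 + t ^ 3 / 20 - t ^ 4 / 30) *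
      (t ^ 2 / (1 + t)) - (t - Real.log (1 + t))) (Icc u 0) := by
    apply antitoneOn_of_deriv_nonpos (convex_Icc _ _)
    · exact fun t ht => (hd t (by linarith only [hu, ht.1])).continuousAt.continuousWithinAt
    · exact fun t ht => (hd t (by linarith [(interior_subset ht).1])).differentiableAt.differentiableWithinAt
    · intro t ht
      have ht' := interior_subset ht
      rw [(hd t (by linarith [ht'.1])).deriv]
      have h4 : 0 < 1 + t := by linarith only [hu, ht'.1]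
      have : 0 ≤ t ^ 6 / (6 * (1 + t) ^ 2) := by (clear * - h4; positivity)
      linarith only [this]
  have := hm ⟨le_rfl, hu0⟩ ⟨hu0, le_rfl⟩ hu0
  simp only [one_div, zero_div, add_zero, ne_eq, OfNat.ofNat_ne_zero, not_false_eq_true, zero_pow, sub_zero, div_one, mul_zero, Real.log_one, sub_self, sub_nonneg, tsub_le_iff_right] at this
  linarith

/-- `-log z ≤ (1-z)(1+5z)/(2z(2+z))` -/
theorem u15_log_pade {z : ℝ} (hz : 0 < z) (hz1 : z ≤ 1) :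
    -Real.log z ≤ (1 - z) * (1 + 5 * z) / (2 * z * (2 + z)) := by
  have hd : ∀ t : ℝ, 0 < t → HasDerivAt
      (fun t : ℝ => (1 + 4 * t - 5 * t ^ 2) / (4 * t + 2 * t ^ 2) + Real.log t)
      ((t - 1) ^ 3 / (t ^ 2 * (2 + t) ^ 2)) t := by
    intro t ht
    have h1 : 4 * t + 2 * t ^ 2 ≠ 0 := by positivity
    have hn := (((hasDerivAt_id t).const_mul 4).const_add 1).sub ((hasDerivAt_pow 2 t).const_mul 5)
    have hdn := ((hasDerivAt_id t).const_mul 4).add ((hasDerivAt_pow 2 t).const_mul 2)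
    refine ((hn.div hdn h1).add (Real.hasDerivAt_log ht.ne')).congr_deriv ?_
    simp only [id, Pi.add_apply, Pi.sub_apply]
    have h2 : (2 + t) ≠ 0 := by positivity
    have h3 : 4 * t + 2 * t ^ 2 = 2 * t * (2 + t) := by ring
    rw [h3]
    field_simp
    push_cast
    ring
  have hm : AntitoneOn (fun t : ℝ => (1 + 4 * t - 5 * t ^ 2) / (4 * t + 2 * t ^ 2) + Real.log t)
      (Icc z 1) := by
    apply antitoneOn_of_deriv_nonpos (convex_Icc _ _)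
    · exact fun t ht => (hd t (by linarith only [hz, ht.1])).continuousAt.continuousWithinAt
    · exact fun t ht => (hd t (by linarith [(interior_subset ht).1])).differentiableAt.differentiableWithinAt
    · intro t ht
      have ht' := interior_subset ht
      rw [(hd t (by linarith [ht'.1])).deriv]
      have h3 : (t - 1) ^ 3 ≤ 0 := by
        have : (t - 1) ^ 3 = (t - 1) * (t - 1) ^ 2 := by ring
        rw [this]
        exact mul_nonpos_of_nonpos_of_nonneg (by linarith only [ht'.2]) (sq_nonneg _)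
      exact div_nonpos_of_nonpos_of_nonneg h3 (by (clear * -; positivity))
  have h := hm ⟨le_rfl, hz1⟩ ⟨hz1, le_rfl⟩ hz1
  simp only [mul_one, one_pow, Real.log_one, add_zero] at h
  have e : (1 - z) * (1 + 5 * z) / (2 * z * (2 + z)) =
      (1 + 4 * z - 5 * z ^ 2) / (4 * z + 2 * z ^ 2) := by
    congr 1 <;> ring
  rw [e]
  norm_num at h
  linarith only [h]

/-! ### the weight `σ = z(1+2s)/(1+s)²` and the bound for `3 Y l` -/

theorem u15R_sigma {z s : ℝ} (hs : 0 ≤ s) (hs1 : s ≤ 1) (hz : z = 1 - s ^ 2) :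
    4 * z * (3 - z) / (4 - z) ^ 2 ≤ z * (1 + 2 * s) / (1 + s) ^ 2 := by
  have h1 : 0 < 4 - z := by rw [hz]; nlinarith
  have hz0 : 0 ≤ z := by rw [hz]; nlinarith only [hs1, hs]
  rw [div_le_div_iff₀ (by (clear * - h1; positivity)) (by positivity)]
  have h2 : 0 ≤ (1 - s) ^ 2 * (1 + 4 * s + s ^ 2 + 2 * s ^ 3) := by (clear * - hs; positivity)
  have h3 : (1 + 2 * s) * (4 - z) ^ 2 - 4 * (3 - z) * (1 + s) ^ 2 =
      (1 - s) ^ 2 * (1 + 4 * s + s ^ 2 + 2 * s ^ 3) := by rw [hz]; ring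
  nlinarith [mul_nonneg hz0 (h3 ▸ h2)]

theorem u15R_b1 {z sg : ℝ} (hz : 0 ≤ z) (hz1 : z ≤ 3 / 7)
    (hsg : 4 * z * (3 - z) / (4 - z) ^ 2 ≤ sg) :
    (3 * z * (127 / 200 + 33 / 200 * z)) ^ 2 ≤ 14 / 5 * sg := by
  refine le_trans ?_ (mul_le_mul_of_nonneg_left hsg (by norm_num))
  rw [← mul_div_assoc, le_div_iff₀ (by nlinarith only [hz1])]
  have h1 : 0 ≤ (127 / 200 + 33 / 200 * z) * (4 - z) := by nlinarith only [hz1, hz]
  have h2 : (127 / 200 + 33 / 200 * z) * (4 - z) ≤ 509 / 200 := by nlinarith only [sq_nonneg z]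
  have h3 : ((127 / 200 + 33 / 200 * z) * (4 - z)) ^ 2 ≤ (509 / 200) ^ 2 :=
    pow_le_pow_left₀ h1 h2 2
  have h4 : 9 * z * ((127 / 200 + 33 / 200 * z) * (4 - z)) ^ 2 ≤ 14 / 5 * (4 * (3 - z)) := by
    nlinarith only [hz1, h3]
  nlinarith only [h4, hz]

theorem u15R_b2 {z sg : ℝ} (hz : 3 / 7 ≤ z) (hz1 : z ≤ 1)
    (hsg : 4 * z * (3 - z) / (4 - z) ^ 2 ≤ sg) :
    (3 / 4 * (1 + 5 * z) / (2 + z)) ^ 2 ≤ 14 / 5 * sg := by
  refine le_trans ?_ (mul_le_mul_of_nonneg_left hsg (by norm_num))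
  have h4 : 0 < 4 - z := by linarith only [hz1]
  have h2 : 0 < 2 + z := by linarith only [hz]
  rw [← mul_div_assoc, div_pow, div_le_div_iff₀ (by positivity) (by positivity)]
  have key : 0 ≤ -720 + 3912 * z - 7277 * z ^ 2 + 7654 * z ^ 3 - 2021 * z ^ 4 := by
    obtain ⟨t, ht⟩ : ∃ t, t = z - 3 / 7 := ⟨_, rfl⟩
    have ht0 : 0 ≤ t := by linarith
    have ht1 : t ≤ 4 / 7 := by linarith only [hz1, ht]
    have hz' : z = 3 / 7 + t := by linarith only [ht]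
    rw [hz']
    nlinarith only [ht0, mul_nonneg (pow_nonneg ht0 3) (sub_nonneg.2 ht1)]
  linarith

/-- the bound `3 Y l ≤ (m-1) b` with `b² ≤ (14/5) σ` -/
theorem u15R_b {m x s l Y : ℝ} (hm : 1 < m) (hx : 0 < x) (hx1 : x < 1) (hs : 0 < s)
    (hxs : x ^ 2 + s ^ 2 = 1) (hY : Y = (m - 1) * (x ^ 2 / s ^ 2))
    (hl1 : x * Real.exp l ≤ 1)
    (hl2 : x ^ 2 ≤ 3 / 7 → l ≤ (1 - x ^ 2) * (127 / 200 + 33 / 200 * x ^ 2)) :
    ∃ b : ℝ, 0 ≤ b ∧ 3 * (Y * l) ≤ (m - 1) * b ∧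
      b ^ 2 ≤ 14 / 5 * (x ^ 2 * (1 + 2 * s) / (1 + s) ^ 2) := by
  have hs1 : s ≤ 1 := by nlinarith only [hxs]
  have hz : x ^ 2 = 1 - s ^ 2 := by linarith only [hxs]
  have hsg := u15R_sigma (z := x ^ 2) hs.le hs1 hz
  have hx2 : 0 < x ^ 2 := by positivity
  have hYs : Y * (1 - x ^ 2) = (m - 1) * x ^ 2 := by
    rw [hY, show 1 - x ^ 2 = s ^ 2 by linarith only [hxs]]
    (clear * - hs hx; field_simp)
  have hY0 : 0 < Y := by
    rw [hY]
    have : 0 < m - 1 := by linarith only [hm]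
    positivity
  rcases le_total (x ^ 2) (3 / 7) with h | h
  · refine ⟨3 * x ^ 2 * (127 / 200 + 33 / 200 * x ^ 2), by positivity, ?_, u15R_b1 hx2.le h hsg⟩
    have h1 := mul_le_mul_of_nonneg_left (hl2 h) hY0.le
    have h2 : Y * ((1 - x ^ 2) * (127 / 200 + 33 / 200 * x ^ 2)) =
        (m - 1) * x ^ 2 * (127 / 200 + 33 / 200 * x ^ 2) := by rw [← mul_assoc, hYs]
    linarith only [h1, h2]
  · have hz1 : x ^ 2 ≤ 1 := by nlinarith only [hxs]
    refine ⟨3 / 4 * (1 + 5 * x ^ 2) / (2 + x ^ 2), by positivity, ?_, u15R_b2 h hz1 hsg⟩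
    have h1 : l ≤ -Real.log x := by
      have h3 : Real.exp l ≤ x⁻¹ := by
        rw [← one_div, le_div_iff₀ hx]; linarith only [hl1]
      have h4 := Real.log_le_log (Real.exp_pos l) h3
      rwa [Real.log_exp, Real.log_inv] at h4
    have h2 := u15_log_pade hx2 hz1
    rw [Real.log_pow] at h2
    push_cast at h2
    have h5 : l ≤ (1 - x ^ 2) * (1 + 5 * x ^ 2) / (4 * x ^ 2 * (2 + x ^ 2)) := by
      have : (1 - x ^ 2) * (1 + 5 * x ^ 2) / (4 * x ^ 2 * (2 + x ^ 2)) =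
          1 / 2 * ((1 - x ^ 2) * (1 + 5 * x ^ 2) / (2 * x ^ 2 * (2 + x ^ 2))) := by
        field_simp
        ring
      rw [this]
      linarith only [h1, h2]
    have h6 := mul_le_mul_of_nonneg_left h5 hY0.le
    have h7 : Y * ((1 - x ^ 2) * (1 + 5 * x ^ 2) / (4 * x ^ 2 * (2 + x ^ 2))) =
        (m - 1) * (1 / 4 * (1 + 5 * x ^ 2) / (2 + x ^ 2)) := by
      have : Y * ((1 - x ^ 2) * (1 + 5 * x ^ 2) / (4 * x ^ 2 * (2 + x ^ 2))) =
        (Y * (1 - x ^ 2)) * ((1 + 5 * x ^ 2) / (4 * x ^ 2 * (2 + x ^ 2))) := by ring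
      rw [this, hYs]
      (clear * - hx; field_simp)
    have h8 : 3 * ((m - 1) * (1 / 4 * (1 + 5 * x ^ 2) / (2 + x ^ 2))) =
        (m - 1) * (3 / 4 * (1 + 5 * x ^ 2) / (2 + x ^ 2)) := by ring
    linarith only [h6, h7, h8]

/-- one-variable polynomial -/
theorem u15R_poly {d : ℝ} (hd : 0 ≤ d) (hd1 : d ≤ 1) :
    1 / 10 ≤ 13 / 10 + 167 / 30 * d - 12035 / 1000 * d ^ 2 + 5087 / 1000 * d ^ 3 +
      7 / 10 * d ^ 4 := by
  nlinarith [mul_nonneg hd (sq_nonneg (d - 39 / 40)), mul_nonneg hd (sub_nonneg.2 hd1),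
    mul_nonneg (pow_nonneg hd 2) (sub_nonneg.2 hd1), mul_nonneg (pow_nonneg hd 3) (sub_nonneg.2 hd1),
    mul_nonneg (pow_nonneg hd 2) (sq_nonneg (d - 39 / 40))]

theorem u15R_neg_K {m u U l Y b : ℝ} (hm : 15 ≤ m)
    (hU : U * (1 + u) = u ^ 2) (hU0 : 0 ≤ U) (huU : u * U ≤ 0)
    (hb0 : 0 ≤ b) (hb : 3 * (Y * l) ≤ (m - 1) * b) :
    (m - 1) * b * (u * U) - 225 / 56 * u ^ 4 ≤
      - (3 * Y * l * U) + 14 / 25 * (Y * l) ^ 2 := by
  have hm1 : 0 ≤ m - 1 := by linarith only [hm]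
  obtain ⟨K, hK⟩ : ∃ K, K = Y * l := ⟨_, rfl⟩
  rw [← hK] at hb ⊢
  have e : - (3 * Y * l * U) = 3 * K * (u * U) - 3 * K * (U * (1 + u)) := by rw [hK]; ring
  rcases le_total K 0 with h | h
  · have h4 : 0 ≤ (-K) * U := mul_nonneg (by linarith only [h]) hU0
    have h5 : (m - 1) * b * (u * U) ≤ 0 :=
      mul_nonpos_of_nonneg_of_nonpos (mul_nonneg hm1 hb0) huU
    have h6 : 0 ≤ u ^ 4 := by (clear * -; positivity)
    have h7 : - (3 * Y * l * U) = 3 * ((-K) * U) := by rw [hK]; ring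
    rw [h7]
    nlinarith only [h4, h5, h6]
  · rw [e, hU]
    have h4 : 0 ≤ ((m - 1) * b - 3 * K) * (-(u * U)) := mul_nonneg (by linarith) (by linarith)
    nlinarith only [h4, sq_nonneg (K - 75 / 28 * u ^ 2)]

theorem u15R_neg_poly {m u : ℝ} (hm : 15 ≤ m) (hu1 : 0 < 1 + u) (hu : u ≤ 0) :
    1 / 10 ≤ (m + 1) - (m + 32 / 5) *
      (1 / 2 + u / 6 - u ^ 2 / 12 + u ^ 3 / 20 - u ^ 4 / 30) - 2 * (1 + u) - 2 -
      7 / 10 * (m - 1) * u ^ 2 - 225 / 56 * (u ^ 2 * (1 + u)) := by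
  have ha : 0 ≤ -u := by linarith only [hu]
  have hd := u15R_poly (d := -u) ha (by linarith only [hu1])
  have h2 := pow_nonneg ha 2
  have h3 := pow_nonneg ha 3
  have h4 := pow_nonneg ha 4
  have hd2 : 0 ≤ (m - 15) * (1 - (1 / 2 + u / 6 - u ^ 2 / 12 + u ^ 3 / 20 - u ^ 4 / 30) -
      7 / 10 * u ^ 2) := by
    apply mul_nonneg (by linarith only [hm])
    nlinarith only [hu1, ha]
  linarith only [hu, hd, h3, h4, hd2]

theorem u15R_neg_core {m u U w l lam Y b sg Sg : ℝ} (hm : 15 ≤ m) (hu1 : 0 < 1 + u)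
    (hu : u ≤ 0) (hU : U * (1 + u) = u ^ 2) (hlam : lam ≤ 3 / 5) (hw0 : 0 ≤ w)
    (hw : w ≤ (1 / 2 + u / 6 - u ^ 2 / 12 + u ^ 3 / 20 - u ^ 4 / 30) * U)
    (hb0 : 0 ≤ b) (hb : 3 * (Y * l) ≤ (m - 1) * b) (hbs : b ^ 2 ≤ 14 / 5 * sg)
    (hSg : Sg = (m - 1) * sg) :
    U / 10 ≤ (m + 1) * (U - w) + (Sg - 2) * U - 9 * lam * w - 2 * u ^ 2 - 3 * Y * l * U +
      14 / 25 * (Y * l) ^ 2 := by
  have hU0 : 0 ≤ U := by
    by_contra h
    push Not at h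
    nlinarith only [hU, h, hu1]
  have huU : u * U ≤ 0 := mul_nonpos_of_nonpos_of_nonneg hu hU0
  have h1 : (m + 32 / 5) * w ≤
      (m + 32 / 5) * ((1 / 2 + u / 6 - u ^ 2 / 12 + u ^ 3 / 20 - u ^ 4 / 30) * U) :=
    mul_le_mul_of_nonneg_left hw (by linarith only [hm])
  have h2 : 0 ≤ (3 / 5 - lam) * w := mul_nonneg (by (clear * - hlam; linarith)) hw0
  have h3 := u15R_neg_K hm hU hU0 huU hb0 hb
  have h4 : 0 ≤ (m - 1) * (U * (sg + b * u + 7 / 10 * u ^ 2)) := by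
    apply mul_nonneg (by linarith only [hm]) (mul_nonneg hU0 _)
    nlinarith only [hbs, sq_nonneg (u + 5 / 7 * b)]
  have h5 : u ^ 4 = u ^ 2 * (1 + u) * U := by
    have : u ^ 4 = u ^ 2 * (U * (1 + u)) := by rw [hU]; ring
    rw [this]; ring
  have h7 := mul_le_mul_of_nonneg_left (u15R_neg_poly hm hu1 hu) hU0
  have h8 : (m - 1) * (U * (sg + b * u + 7 / 10 * u ^ 2)) =
      Sg * U + (m - 1) * b * (u * U) + 7 / 10 * (m - 1) * u ^ 2 * U := by rw [hSg]; ring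
  rw [h8] at h4
  rw [h5] at h3
  obtain ⟨e, he⟩ : ∃ e, e = 1 / 2 + u / 6 - u ^ 2 / 12 + u ^ 3 / 20 - u ^ 4 / 30 := ⟨_, rfl⟩
  obtain ⟨k, hk⟩ : ∃ k, k = 3 * Y * l * U := ⟨_, rfl⟩
  obtain ⟨n, hn⟩ : ∃ n, n = (Y * l) ^ 2 := ⟨_, rfl⟩
  rw [← he] at h1 h7
  rw [← hk, ← hn] at h3 ⊢
  have h10 : 2 * u ^ 2 = 2 * ((1 + u) * U) := by rw [← hU]; ring
  rw [h10]
  linarith only [h2, h4, h7, h1, h3]

/-- **Right region, `u ≤ 0`**, all real `m ≥ 15`. -/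
theorem u15_right_neg {m x s l u lam v c Y : ℝ} (hm : 15 ≤ m) (hx : 0 < x) (hx1 : x < 1)
    (hs : 0 < s) (hxs : x ^ 2 + s ^ 2 = 1) (hY : Y = (m - 1) * (x ^ 2 / s ^ 2))
    (hlt : 2 < (m + 1) * x ^ 2) (hu1 : 0 < 1 + u) (hu : u ≤ 0) (hlam : lam ≤ 3 / 5)
    (hl1 : x * Real.exp l ≤ 1)
    (hl2 : x ^ 2 ≤ 3 / 7 → l ≤ (1 - x ^ 2) * (127 / 200 + 33 / 200 * x ^ 2))
    (hv : v = Real.log (1 + u)) (hc : -2 * l ^ 2 ≤ c) :
    1 / 10 * (u ^ 2 / (1 + u)) / Y ≤ u15F m s Y l u lam v c + u15HR m Y l u lam := by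
  have hY2 : 2 < Y := by
    rw [hY, ← mul_div_assoc, lt_div_iff₀ (by positivity)]
    linarith only [hxs, hlt]
  have hY0 : 0 < Y := by linarith only [hY2]
  obtain ⟨b, hb0, hb, hbs⟩ := u15R_b (m := m) (by linarith only [hm]) hx hx1 hs hxs hY hl1 hl2
  obtain ⟨U, hU⟩ : ∃ U, U = u ^ 2 / (1 + u) := ⟨_, rfl⟩
  have hUu : U * (1 + u) = u ^ 2 := by rw [hU]; (clear * - hu1; field_simp)
  have hU0 : 0 ≤ U := by rw [hU]; (clear * - hu1; positivity)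
  obtain ⟨w, hw⟩ : ∃ w, w = u - Real.log (1 + u) := ⟨_, rfl⟩
  obtain ⟨Sg, hSg⟩ : ∃ Sg, Sg = s ^ 2 * (1 + 2 * s) / (1 + s) ^ 2 * Y := ⟨_, rfl⟩
  have hSg' : Sg = (m - 1) * (x ^ 2 * (1 + 2 * s) / (1 + s) ^ 2) := by
    rw [hSg, hY]
    field_simp
  have hw0 : 0 ≤ w := by rw [hw]; exact u15_w_nonneg hu1
  have hw4 : w ≤ (1 / 2 + u / 6 - u ^ 2 / 12 + u ^ 3 / 20 - u ^ 4 / 30) * U := by
    rw [hw, hU]; exact u15_w_neg_le4 (by linarith only [hu1]) hu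
  have core := u15R_neg_core (l := l) (lam := lam) hm hu1 hu hUu hlam hw0 hw4 hb0 hb hbs hSg'
  have h37 : 9 / 7 ≤ 3 / 2 * ((m - 3) / (m - 1)) := by
    rw [← mul_div_assoc, le_div_iff₀ (by linarith only [hm])]
    linarith only [hm]
  have h37' : 9 / 7 * Y * l ^ 2 ≤ 3 / 2 * ((m - 3) / (m - 1)) * Y * l ^ 2 :=
    mul_le_mul_of_nonneg_right (mul_le_mul_of_nonneg_right h37 hY0.le) (sq_nonneg l)
  have eF : u15F m s Y l u lam v c + (-(2 / Y * u ^ 2) + 14 / 25 * Y * l ^ 2) =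
      ((m + 1) * (U - w) + (Sg - 2) * U - 9 * lam * w - 2 * u ^ 2 - 3 * Y * l * U +
        14 / 25 * (Y * l) ^ 2) / Y +
      (9 * lam * l - 9 / 2 * l ^ 2 + 3 / 2 * ((m - 3) / (m - 1)) * Y * l ^ 2 + c) := by
    have e1 : v - u / (1 + u) = U - w := by
      rw [hU, hw, hv]
      field_simp
      ring
    have e2 : u - v = w := by rw [hw, hv]
    unfold u15F
    rw [e1, e2, ← hU, hSg]
    field_simp
    ring
  have hHR := u15R_HR2 (m := m) (Y := Y) (l := l) (u := u) (lam := lam) (by linarith only [hm]) hY2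
  have hel := u15R_elimN (Y := Y) (l := l) (lam := lam) hY2
  have hfin : U / 10 / Y ≤ ((m + 1) * (U - w) + (Sg - 2) * U - 9 * lam * w - 2 * u ^ 2 -
      3 * Y * l * U + 14 / 25 * (Y * l) ^ 2) / Y := div_le_div_of_nonneg_right core hY0.le
  rw [← hU]
  have e3 : 1 / 10 * U / Y = U / 10 / Y := by ring
  rw [e3]
  linarith only [hc, h37', eF, hHR, hel, hfin]

end Vale.Agent.P237.AllN
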