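import Vale.Agent.P237.AllN.U15RB

/-!
# P237, uniform plain certificate (`m ≥ 15`): right region, `0 ≤ u ≤ 4`
-/

open Set

namespace Vale.Agent.P237.AllN

/-- Padé upper bound for `u - log (1+u)` -/
theorem u15_w_pade {u : ℝ} (hu : 0 ≤ u) :
    u - Real.log (1 + u) ≤ u ^ 2 * (u + 3) / (u ^ 2 + 6 * u + 6) := by
  have hd : ∀ t : ℝ, 0 ≤ t → HasDerivAt
      (fun t : ℝ => t ^ 2 * (t + 3) / (t ^ 2 + 6 * t + 6) - (t - Real.log (1 + t)))
      (t ^ 4 / ((1 + t) * (t ^ 2 + 6 * t + 6) ^ 2)) t := by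
    intro t ht
    have h1 : (1 + t) ≠ 0 := by positivity
    have h2 : t ^ 2 + 6 * t + 6 ≠ 0 := by (clear * - ht; positivity)
    have hl := ((hasDerivAt_id t).const_add 1).log h1
    have hn := (hasDerivAt_pow 2 t).mul ((hasDerivAt_id t).add_const 3)
    have hdn := (((hasDerivAt_pow 2 t).add ((hasDerivAt_id t).const_mul 6)).add_const 6)
    refine ((hn.div hdn h2).sub ((hasDerivAt_id t).sub hl)).congr_deriv ?_
    simp only [id_eq, Nat.cast_ofNat, Pi.mul_apply, Pi.add_apply]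
    field_simp
    ring
  have hmono : MonotoneOn
      (fun t : ℝ => t ^ 2 * (t + 3) / (t ^ 2 + 6 * t + 6) - (t - Real.log (1 + t))) (Ici 0) := by
    apply monotoneOn_of_deriv_nonneg (convex_Ici 0)
    · intro t ht
      exact (hd t ht).continuousAt.continuousWithinAt
    · intro t ht
      rw [interior_Ici] at ht
      exact (hd t (le_of_lt ht)).differentiableAt.differentiableWithinAt
    · intro t ht
      rw [interior_Ici] at ht
      rw [(hd t (le_of_lt ht)).deriv]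
      have : (0 : ℝ) < t := ht
      (clear * - this; positivity)
  have := hmono (self_mem_Ici : (0:ℝ) ∈ Ici 0) (show u ∈ Ici (0 : ℝ) from hu) hu
  simp only [ne_eq, OfNat.ofNat_ne_zero, not_false_eq_true, zero_pow, zero_add, zero_mul, mul_zero,
    zero_div, add_zero, Real.log_one, sub_self] at this
  linarith only [this]

/-- the right potential term, general split -/
theorem u15R_HRgen {m Y l u lam a b : ℝ} (hm : 1 < m) (hY : 2 < Y) (ha : 0 < a)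
    (hb : b * (Y * (Y - 2) ^ 2) + 4 * (Y + 2) ^ 2 / a ≤
      2 * (Y + 2) * (Y - 1) * (Y - 2) + 16 * Y) :
    -(a / Y * u ^ 2) + b * (l - lam) ^ 2 ≤ u15HR m Y l u lam := by
  have h1 : 0 < Y := by linarith only [hY]
  have h2 : 0 < Y - 2 := by linarith only [hY]
  have h3 : 0 < m - 1 := by linarith only [hm]
  have e : u15HR m Y l u lam - (-(a / Y * u ^ 2) + b * (l - lam) ^ 2) =
      16 * (Y / (m - 1)) / (Y - 2) ^ 2 * (l - lam) ^ 2 +
        a / Y * (u - 2 * (Y + 2) * (l - lam) / (a * (Y - 2))) ^ 2 +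
        (2 * (Y + 2) * (Y - 1) * (Y - 2) + 16 * Y -
          (b * (Y * (Y - 2) ^ 2) + 4 * (Y + 2) ^ 2 / a)) / (Y * (Y - 2) ^ 2) * (l - lam) ^ 2 := by
    unfold u15HR
    field_simp
    ring
  have h4 : 0 ≤ 16 * (Y / (m - 1)) / (Y - 2) ^ 2 * (l - lam) ^ 2 := by positivity
  have h5 : 0 ≤ a / Y * (u - 2 * (Y + 2) * (l - lam) / (a * (Y - 2))) ^ 2 := by positivity
  have h6 : 0 ≤ (2 * (Y + 2) * (Y - 1) * (Y - 2) + 16 * Y -
      (b * (Y * (Y - 2) ^ 2) + 4 * (Y + 2) ^ 2 / a)) / (Y * (Y - 2) ^ 2) * (l - lam) ^ 2 := by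
    apply mul_nonneg _ (sq_nonneg _)
    apply div_nonneg (by linarith only [hb])
    positivity
  linarith only [e, h4, h5, h6]

/-- elimination of `l`, `lam` -/
theorem u15R_elim {Y U W w l lam b β r g k κ Y1 : ℝ} (hY1 : 0 < Y1) (hY : Y1 ≤ Y) (_hU : 0 ≤ U)
    (hW : W = w / Y) (hw0 : 0 ≤ w) (hw2 : w ≤ r * U) (hb : 0 < b) (hβ : 0 ≤ β)
    (hbβ : 81 ≤ 4 * b * β) (hk : 0 < k)
    (hkY : k * Y ≤ 9 / 7 * Y + 5 / 2 - β) (hG0 : -(g * U) ≤ 3 * U + (9 - 2 * β) * W)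
    (hG1 : 3 * U + (9 - 2 * β) * W ≤ g * U) (hκ : g ^ 2 / (4 * k) + β * r ^ 2 / Y1 ≤ κ) :
    -(κ * U ^ 2 / Y) ≤ b * (l - lam) ^ 2 + 9 * lam * l - 9 / 2 * l ^ 2 +
      (9 / 7 * Y - 2) * l ^ 2 - 3 * l * U - 9 * lam * W := by
  have hY0 : 0 < Y := lt_of_lt_of_le hY1 hY
  have hr : 0 ≤ r * U := hw0.trans hw2
  obtain ⟨G, hG⟩ : ∃ G, G = 3 * U + (9 - 2 * β) * W := ⟨_, rfl⟩
  rw [← hG] at hG0 hG1
  have h1 : 0 ≤ b * (l - lam) ^ 2 - 9 * (l - lam) * (l - W) + β * (l - W) ^ 2 := by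
    have h2 : 0 ≤ 4 * b * (b * (l - lam) ^ 2 - 9 * (l - lam) * (l - W) + β * (l - W) ^ 2) := by
      have e : 4 * b * (b * (l - lam) ^ 2 - 9 * (l - lam) * (l - W) + β * (l - W) ^ 2) =
        (2 * b * (l - lam) - 9 * (l - W)) ^ 2 + (4 * b * β - 81) * (l - W) ^ 2 := by ring
      rw [e]
      have := mul_nonneg (sub_nonneg.2 hbβ) (sq_nonneg (l - W))
      nlinarith only [this]
    exact nonneg_of_mul_nonneg_right h2 (by linarith only [hb])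
  have hGs : G ^ 2 ≤ (g * U) ^ 2 := sq_le_sq' hG0 hG1
  have h3 : -(G ^ 2 / (4 * (k * Y))) ≤ k * Y * l ^ 2 - G * l := by
    have hkY0 : 0 < k * Y := by (clear * - hk hY0; positivity)
    have e : k * Y * l ^ 2 - G * l + G ^ 2 / (4 * (k * Y)) =
        k * Y * (l - G / (2 * (k * Y))) ^ 2 := by
      field_simp
      ring
    have := mul_nonneg hkY0.le (sq_nonneg (l - G / (2 * (k * Y))))
    linarith
  have h4 : G ^ 2 / (4 * (k * Y)) ≤ g ^ 2 / (4 * k) * U ^ 2 / Y := by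
    have e : g ^ 2 / (4 * k) * U ^ 2 / Y = (g * U) ^ 2 / (4 * (k * Y)) := by
      (clear * - hY0 hk; field_simp)
    rw [e]
    exact div_le_div_of_nonneg_right hGs (by (clear * - hk hY0; positivity))
  have h5 : β * W ^ 2 ≤ β * r ^ 2 / Y1 * U ^ 2 / Y := by
    have h6 : W ^ 2 ≤ (r * U) ^ 2 / (Y1 * Y) := by
      rw [hW, div_pow]
      apply div_le_div₀ (sq_nonneg _) (pow_le_pow_left₀ hw0 hw2 2) (by positivity)
      rw [pow_two]
      exact mul_le_mul_of_nonneg_right hY hY0.le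
    have e : β * r ^ 2 / Y1 * U ^ 2 / Y = β * ((r * U) ^ 2 / (Y1 * Y)) := by
      (clear * - hY0 hY1; field_simp)
    rw [e]
    exact mul_le_mul_of_nonneg_left h6 hβ
  have h7 : (g ^ 2 / (4 * k) + β * r ^ 2 / Y1) * U ^ 2 / Y ≤ κ * U ^ 2 / Y :=
    div_le_div_of_nonneg_right (mul_le_mul_of_nonneg_right hκ (sq_nonneg U)) hY0.le
  have h8 : (g ^ 2 / (4 * k) + β * r ^ 2 / Y1) * U ^ 2 / Y =
      g ^ 2 / (4 * k) * U ^ 2 / Y + β * r ^ 2 / Y1 * U ^ 2 / Y := by ring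
  have h9 : k * Y * l ^ 2 ≤ (9 / 7 * Y + 5 / 2 - β) * l ^ 2 :=
    mul_le_mul_of_nonneg_right hkY (sq_nonneg l)
  have e : b * (l - lam) ^ 2 + 9 * lam * l - 9 / 2 * l ^ 2 +
      (9 / 7 * Y - 2) * l ^ 2 - 3 * l * U - 9 * lam * W =
      (b * (l - lam) ^ 2 - 9 * (l - lam) * (l - W) + β * (l - W) ^ 2) +
        (9 / 7 * Y + 5 / 2 - β) * l ^ 2 - G * l - β * W ^ 2 := by
    rw [hG]; ring
  rw [e]
  linarith only [h1, h3, h4, h5, h7, h8, h9]

/-- lower bound for the coefficient of `U` -/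
theorem u15R_Sg {m x s Y Y1 : ℝ} (hm : 15 ≤ m) (_hx : 0 < x) (hs : 0 < s)
    (hxs : x ^ 2 + s ^ 2 = 1) (hY : Y = (m - 1) * (x ^ 2 / s ^ 2)) (hY1 : 0 < Y1) (h1 : Y1 ≤ Y) :
    14 * Y1 * (42 + Y1) / ((14 + Y1) * (56 + Y1)) ≤ s ^ 2 * (1 + 2 * s) / (1 + s) ^ 2 * Y := by
  obtain ⟨n, hn⟩ : ∃ n, n = m - 1 := ⟨_, rfl⟩
  have hn14 : 14 ≤ n := by linarith only [hm, hn]
  rw [← hn] at hY
  have hY0 : 0 < Y := by linarith only [hY1, h1]
  have hst : s ^ 2 * (n + Y) = n := by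
    rw [hY]
    field_simp
    linarith
  have hs2 : s ^ 2 = n / (n + Y) := by
    rw [eq_div_iff (by positivity)]; exact hst
  have hs1 : s < 1 := by nlinarith only [hxs, _hx]
  -- `s ≥ 2t/(1+t)`
  obtain ⟨t, ht⟩ : ∃ t, t = s ^ 2 := ⟨_, rfl⟩
  have ht0 : 0 < t := by rw [ht]; positivity
  have hst2 : 2 * t / (1 + t) ≤ s := by
    rw [div_le_iff₀ (by linarith only [ht0]), ht]
    nlinarith only [mul_nonneg hs.le (sq_nonneg (1 - s))]
  have e1 : s ^ 2 * (1 + 2 * s) / (1 + s) ^ 2 * Y = n * (1 - 2 * t / (1 + s)) := by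
    rw [hY, ht, show x ^ 2 = (1 - s) * (1 + s) by linarith only [hxs]]
    field_simp
    ring
  have h2 : n * (1 - 2 * t / ((1 + 3 * t) / (1 + t))) ≤ n * (1 - 2 * t / (1 + s)) := by
    apply mul_le_mul_of_nonneg_left _ (by linarith only [hm, hn])
    apply sub_le_sub_left
    apply div_le_div_of_nonneg_left (by (clear * - ht0; positivity)) (by (clear * - ht0; positivity))
    have : (1 + 3 * t) / (1 + t) = 1 + 2 * t / (1 + t) := by field_simp; ring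
    rw [this]
    linarith only [hst2]
  have e2 : n * (1 - 2 * t / ((1 + 3 * t) / (1 + t))) =
      n * Y * (3 * n + Y) / ((n + Y) * (4 * n + Y)) := by
    have ht' : t = n / (n + Y) := by rw [ht, hs2]
    rw [ht']
    have : 0 < n := by linarith only [hm, hn]
    have h5 : (1 + 3 * (n / (n + Y))) = (4 * n + Y) / (n + Y) := by field_simp; ring
    have h6 : (1 + n / (n + Y)) = (2 * n + Y) / (n + Y) := by field_simp; ring
    rw [h5, h6]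
    have h7 : (0 : ℝ) < 4 * n + Y := by linarith only [hm, hY1, h1, hn]
    have h8 : (0 : ℝ) < 2 * n + Y := by linarith only [hm, hY1, h1, hn]
    field_simp
    ring
  rw [e1]
  refine le_trans ?_ h2
  rw [e2, div_le_div_iff₀ (by positivity) (by (clear * - hn14 hY0; positivity))]
  have hn0 : 0 ≤ n - 14 := by linarith only [hm, hn]
  have hy0 : 0 ≤ Y - Y1 := by linarith only [h1]
  obtain ⟨p, hp⟩ : ∃ p, p = n - 14 := ⟨_, rfl⟩
  obtain ⟨q, hq⟩ : ∃ q, q = Y - Y1 := ⟨_, rfl⟩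
  rw [← hp] at hn0
  rw [← hq] at hy0
  have en : n = p + 14 := by linarith only [hp]
  have eY : Y = q + Y1 := by linarith only [hq]
  rw [en, eY]
  have key : (p + 14) * (q + Y1) * (3 * (p + 14) + (q + Y1)) * ((14 + Y1) * (56 + Y1)) -
      14 * Y1 * (42 + Y1) * ((p + 14 + (q + Y1)) * (4 * (p + 14) + (q + Y1))) =
      460992 * q + 21952 * q * Y1 + 392 * q * Y1 ^ 2 + 10976 * q ^ 2 + 392 * q ^ 2 * Y1 +
        2156 * p * Y1 ^ 2 + 84 * p * Y1 ^ 3 + p * Y1 ^ 4 + 65856 * p * q + 4508 * p * q * Y1 +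
        154 * p * q * Y1 ^ 2 + 2 * p * q * Y1 ^ 3 + 784 * p * q ^ 2 + 70 * p * q ^ 2 * Y1 +
        p * q ^ 2 * Y1 ^ 2 + 154 * p ^ 2 * Y1 ^ 2 + 3 * p ^ 2 * Y1 ^ 3 + 2352 * p ^ 2 * q +
        210 * p ^ 2 * q * Y1 + 3 * p ^ 2 * q * Y1 ^ 2 := by
    ring
  have key2 : 0 ≤ 460992 * q + 21952 * q * Y1 + 392 * q * Y1 ^ 2 + 10976 * q ^ 2 +
        392 * q ^ 2 * Y1 +
        2156 * p * Y1 ^ 2 + 84 * p * Y1 ^ 3 + p * Y1 ^ 4 + 65856 * p * q + 4508 * p * q * Y1 +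
        154 * p * q * Y1 ^ 2 + 2 * p * q * Y1 ^ 3 + 784 * p * q ^ 2 + 70 * p * q ^ 2 * Y1 +
        p * q ^ 2 * Y1 ^ 2 + 154 * p ^ 2 * Y1 ^ 2 + 3 * p ^ 2 * Y1 ^ 3 + 2352 * p ^ 2 * q +
        210 * p ^ 2 * q * Y1 + 3 * p ^ 2 * q * Y1 ^ 2 := by
    (clear * - hy0 hY1 hn0; positivity)
  linarith only [key2]

theorem u15R_mono1 {u u2 : ℝ} (hu : 0 ≤ u) (h : u ≤ u2) :
    (u + 3) * (1 + u) / (u ^ 2 + 6 * u + 6) ≤ (u2 + 3) * (1 + u2) / (u2 ^ 2 + 6 * u2 + 6) := by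
  have hu2 : 0 ≤ u2 := hu.trans h
  rw [div_le_div_iff₀ (by positivity) (by positivity)]
  have h1 : 0 ≤ (u2 - u) * (2 * u * u2 + 3 * (u + u2) + 6) :=
    mul_nonneg (sub_nonneg.2 h) (by positivity)
  linarith only [h1]

theorem u15R_mono2 {u u2 : ℝ} (hu : 0 ≤ u) (h : u ≤ u2) :
    u ^ 2 / (1 + u) ≤ u2 ^ 2 / (1 + u2) := by
  have hu2 : 0 ≤ u2 := hu.trans h
  rw [div_le_div_iff₀ (by positivity) (by positivity)]
  have h1 : 0 ≤ (u2 - u) * (u2 + u + u * u2) :=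
    mul_nonneg (sub_nonneg.2 h) (by positivity)
  linarith

/-- final scalar inequality of one range -/
theorem u15R_scal {m u U w Sg a κ r u2 S1 : ℝ} (hm : 15 ≤ m)
    (huu2 : u ≤ u2) (hU0 : 0 ≤ U) (hw2 : w ≤ r * U) (hwU : w ≤ U) (hUU2 : U ≤ u2 ^ 2 / (1 + u2))
    (ha : 0 < a) (hκ0 : 0 ≤ κ) (hSg1 : S1 ≤ Sg)
    (hfin : 21 / 10 + a * (1 + u2) + κ * (u2 ^ 2 / (1 + u2)) ≤ 16 * (1 - r) + S1) :
    U / 10 + a * (U * (1 + u)) + κ * U ^ 2 ≤ (m + 1) * (U - w) + (Sg - 2) * U := by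
  have h8 : 0 ≤ U - w := by linarith only [hwU]
  have h9 : 16 * (U - w) ≤ (m + 1) * (U - w) := mul_le_mul_of_nonneg_right (by linarith only [hm]) h8
  have h11 : S1 * U ≤ Sg * U := mul_le_mul_of_nonneg_right hSg1 hU0
  have h12 : a * (U * (1 + u)) ≤ a * (U * (1 + u2)) :=
    mul_le_mul_of_nonneg_left (mul_le_mul_of_nonneg_left (by linarith only [huu2]) hU0) ha.le
  have h13 : κ * (U * U) ≤ κ * (u2 ^ 2 / (1 + u2) * U) :=
    mul_le_mul_of_nonneg_left (mul_le_mul_of_nonneg_right hUU2 hU0) hκ0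
  have h14 := mul_le_mul_of_nonneg_right hfin hU0
  have e1 : κ * U ^ 2 = κ * (U * U) := by ring
  have e2 : (21 / 10 + a * (1 + u2) + κ * (u2 ^ 2 / (1 + u2))) * U =
      21 / 10 * U + a * (U * (1 + u2)) + κ * (u2 ^ 2 / (1 + u2) * U) := by ring
  rw [e1]
  rw [e2] at h14
  linarith only [hw2, h9, h11, h12, h13, h14]

/-- the bounds of the linear coefficient -/
theorem u15R_G {Y Y1 Y2 U w β r g : ℝ} (hY10 : 0 < Y1) (h1 : Y1 ≤ Y) (h2 : Y ≤ Y2)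
    (hβ : 9 / 2 ≤ β) (hr1 : 0 ≤ r) (hU0 : 0 ≤ U) (hw1 : U / 2 ≤ w) (hw2 : w ≤ r * U)
    (hG0 : (2 * β - 9) * r ≤ (3 + g) * Y1) (hG1 : 3 * Y2 - (β - 9 / 2) ≤ g * Y2) :
    -(g * U) ≤ 3 * U + (9 - 2 * β) * (w / Y) ∧ 3 * U + (9 - 2 * β) * (w / Y) ≤ g * U := by
  have hY0 : 0 < Y := by linarith only [hY10, h1]
  have hY2 : 0 < Y2 := by linarith only [hY10, h1, h2]
  constructor
  · have h5 : w / Y ≤ r * U / Y1 := div_le_div₀ (by (clear * - hr1 hU0; positivity)) hw2 hY10 h1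
    have h6 : (2 * β - 9) * (w / Y) ≤ (2 * β - 9) * (r * U / Y1) :=
      mul_le_mul_of_nonneg_left h5 (by linarith only [hβ])
    have h7 : (2 * β - 9) * (r * U / Y1) ≤ (3 + g) * U := by
      rw [show (2 * β - 9) * (r * U / Y1) = (2 * β - 9) * r * U / Y1 by ring,
        div_le_iff₀ hY10]
      have := mul_le_mul_of_nonneg_right hG0 hU0
      linarith only [this]
    linarith only [h6, h7]
  · have h5 : U / 2 / Y2 ≤ w / Y := div_le_div₀ (by linarith only [hU0, hw1]) hw1 hY0 h2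
    have h6 : (2 * β - 9) * (U / 2 / Y2) ≤ (2 * β - 9) * (w / Y) :=
      mul_le_mul_of_nonneg_left h5 (by linarith only [hβ])
    have h7 : 3 * U - (2 * β - 9) * (U / 2 / Y2) ≤ g * U := by
      have e : 3 * U - (2 * β - 9) * (U / 2 / Y2) = (3 * Y2 - (β - 9 / 2)) * U / Y2 := by
        field_simp
      rw [e, div_le_iff₀ hY2]
      have := mul_le_mul_of_nonneg_right hG1 hU0
      linarith only [this]
    linarith only [h6, h7]

theorem u15R_G' {Y Y1 U w β r g : ℝ} (hY10 : 0 < Y1) (h1 : Y1 ≤ Y)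
    (hβ : β ≤ 9 / 2) (hr1 : 0 ≤ r) (hU0 : 0 ≤ U) (hw0 : 0 ≤ w) (hw2 : w ≤ r * U)
    (hg0 : 0 ≤ g) (hG1 : 3 * Y1 + (9 - 2 * β) * r ≤ g * Y1) :
    -(g * U) ≤ 3 * U + (9 - 2 * β) * (w / Y) ∧ 3 * U + (9 - 2 * β) * (w / Y) ≤ g * U := by
  have hY0 : 0 < Y := by (clear * - hY10 h1; linarith)
  constructor
  · have h5 : 0 ≤ (9 - 2 * β) * (w / Y) := mul_nonneg (by linarith only [hβ]) (by (clear * - hw0 hY0; positivity))
    have h6 : 0 ≤ g * U := mul_nonneg hg0 hU0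
    linarith only [hU0, h5, h6]
  · have h5 : w / Y ≤ r * U / Y1 := div_le_div₀ (by (clear * - hr1 hU0; positivity)) hw2 hY10 h1
    have h6 : (9 - 2 * β) * (w / Y) ≤ (9 - 2 * β) * (r * U / Y1) :=
      mul_le_mul_of_nonneg_left h5 (by linarith only [hβ])
    have h7 : 3 * U + (9 - 2 * β) * (r * U / Y1) ≤ g * U := by
      have e : 3 * U + (9 - 2 * β) * (r * U / Y1) = (3 * Y1 + (9 - 2 * β) * r) * U / Y1 := by
        (clear * - hY10; field_simp)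
      rw [e, div_le_iff₀ hY10]
      have := mul_le_mul_of_nonneg_right hG1 hU0
      linarith only [this]
    linarith only [h6, h7]

/-- one range of `Y` -/
theorem u15R_range {m x s l u lam v c Y Y1 Y2 a b β r g k κ u2 : ℝ} (hm : 15 ≤ m) (hx : 0 < x)
    (hs : 0 < s) (hxs : x ^ 2 + s ^ 2 = 1) (hY : Y = (m - 1) * (x ^ 2 / s ^ 2)) (hY20 : 2 < Y)
    (hu : 0 ≤ u) (huu2 : u ≤ u2) (hv : v = Real.log (1 + u)) (hc : -2 * l ^ 2 ≤ c)
    (hY1 : 2 ≤ Y1) (h1 : Y1 ≤ Y) (h2 : Y ≤ Y2) (ha : 0 < a) (hb : 0 < b) (hβ : 0 ≤ β)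
    (hr1 : 0 ≤ r) (hbβ : 81 ≤ 4 * b * β) (hk : 0 < k) (hkY : k * Y ≤ 9 / 7 * Y + 5 / 2 - β)
    (hbY : b * (Y * (Y - 2) ^ 2) + 4 * (Y + 2) ^ 2 / a ≤
      2 * (Y + 2) * (Y - 1) * (Y - 2) + 16 * Y)
    (hr : (u2 + 3) * (1 + u2) / (u2 ^ 2 + 6 * u2 + 6) ≤ r)
    (hg0 : 0 ≤ g) (hG : (β ≤ 9 / 2 ∧ 3 * Y1 + (9 - 2 * β) * r ≤ g * Y1) ∨
      (9 / 2 ≤ β ∧ (2 * β - 9) * r ≤ (3 + g) * Y1 ∧ 3 * Y2 - (β - 9 / 2) ≤ g * Y2))
    (hκ : g ^ 2 / (4 * k) + β * r ^ 2 / Y1 ≤ κ)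
    (hfin : 21 / 10 + a * (1 + u2) + κ * (u2 ^ 2 / (1 + u2)) ≤
      16 * (1 - r) + 14 * Y1 * (42 + Y1) / ((14 + Y1) * (56 + Y1))) :
    1 / 10 * (u ^ 2 / (1 + u)) / Y ≤ u15F m s Y l u lam v c + u15HR m Y l u lam := by
  have hY0 : 0 < Y := by linarith only [hY20]
  have hY10 : 0 < Y1 := by linarith only [hY1]
  have hu1 : (0 : ℝ) < 1 + u := by linarith only [hu]
  have hu21 : (0 : ℝ) < 1 + u2 := by linarith only [hu, huu2]
  obtain ⟨U, hU⟩ : ∃ U, U = u ^ 2 / (1 + u) := ⟨_, rfl⟩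
  have hUu : U * (1 + u) = u ^ 2 := by rw [hU]; (clear * - hu; field_simp)
  have hU0 : 0 ≤ U := by rw [hU]; (clear * - hu; positivity)
  obtain ⟨w, hw⟩ : ∃ w, w = u - Real.log (1 + u) := ⟨_, rfl⟩
  obtain ⟨Sg, hSg⟩ : ∃ Sg, Sg = s ^ 2 * (1 + 2 * s) / (1 + s) ^ 2 * Y := ⟨_, rfl⟩
  have hSg1 : 14 * Y1 * (42 + Y1) / ((14 + Y1) * (56 + Y1)) ≤ Sg := by
    rw [hSg]; exact u15R_Sg hm hx hs hxs hY hY10 h1
  have hw1 : U / 2 ≤ w := by rw [hU, hw]; exact u15_w_pos_ge hu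
  have hw2 : w ≤ r * U := by
    have h3 := u15_w_pade hu
    rw [← hw] at h3
    refine h3.trans ?_
    have e : u ^ 2 * (u + 3) / (u ^ 2 + 6 * u + 6) =
        (u + 3) * (1 + u) / (u ^ 2 + 6 * u + 6) * U := by
      rw [hU]; (clear * - hu; field_simp)
    rw [e]
    apply mul_le_mul_of_nonneg_right _ hU0
    exact (u15R_mono1 hu huu2).trans hr
  have hw0 : 0 ≤ w := by linarith only [hU0, hw1]
  have hUU2 : U ≤ u2 ^ 2 / (1 + u2) := by
    rw [hU]; exact u15R_mono2 hu huu2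
  have h37 : 9 / 7 ≤ 3 / 2 * ((m - 3) / (m - 1)) := by
    rw [← mul_div_assoc, le_div_iff₀ (by linarith only [hm])]
    linarith only [hm]
  have h37' : 9 / 7 * Y * l ^ 2 ≤ 3 / 2 * ((m - 3) / (m - 1)) * Y * l ^ 2 :=
    mul_le_mul_of_nonneg_right (mul_le_mul_of_nonneg_right h37 hY0.le) (sq_nonneg l)
  have eF : u15F m s Y l u lam v c = ((m + 1) * (U - w) + (Sg - 2) * U) / Y +
      (9 * lam * l - 9 / 2 * l ^ 2 + 3 / 2 * ((m - 3) / (m - 1)) * Y * l ^ 2 -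
        3 * l * U - 9 * lam * (w / Y) + c) := by
    have e1 : v - u / (1 + u) = U - w := by
      rw [hU, hw, hv]
      field_simp
      ring
    have e2 : u - v = w := by rw [hw, hv]
    unfold u15F
    rw [e1, e2, ← hU, hSg]
    field_simp
    ring
  have hHR := u15R_HRgen (m := m) (Y := Y) (l := l) (u := u) (lam := lam) (by linarith only [hm]) hY20 ha hbY
  have hGG : -(g * U) ≤ 3 * U + (9 - 2 * β) * (w / Y) ∧
      3 * U + (9 - 2 * β) * (w / Y) ≤ g * U := by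
    rcases hG with hG | hG
    · exact u15R_G' hY10 h1 hG.1 hr1 hU0 hw0 hw2 hg0 hG.2
    · exact u15R_G hY10 h1 h2 hG.1 hr1 hU0 hw1 hw2 hG.2.1 hG.2.2
  have hel := u15R_elim (U := U) (W := w / Y) (l := l) (lam := lam) (g := g) hY10 h1 hU0 rfl hw0
    hw2 hb hβ hbβ hk hkY hGG.1 hGG.2 hκ
  have hwU : w ≤ U := by
    have h9 := u15_w_pos_le hu
    rw [← hw, le_div_iff₀ (by linarith only [hu]), ← hUu] at h9
    have h10 : w * (2 + u) ≤ U * (2 + u) := by linarith only [hU0, h9]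
    exact le_of_mul_le_mul_right h10 (by linarith only [hu])
  have hκ0 : 0 ≤ κ := le_trans (by (clear * - hk hβ hY1; positivity)) hκ
  have hfin2 : (U / 10 + a * (U * (1 + u)) + κ * U ^ 2) / Y ≤
      ((m + 1) * (U - w) + (Sg - 2) * U) / Y :=
    div_le_div_of_nonneg_right (u15R_scal hm huu2 hU0 hw2 hwU hUU2 ha hκ0 hSg1 hfin) hY0.le
  have e3 : (U / 10 + a * (U * (1 + u)) + κ * U ^ 2) / Y =
      1 / 10 * U / Y + a / Y * u ^ 2 + κ * U ^ 2 / Y := by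
    rw [hUu]; ring
  rw [e3] at hfin2
  rw [← hU, eF]
  linarith only [hc, h37', hHR, hel, hfin2]

theorem u15R_r1 {m x s l u lam v c Y : ℝ} (hm : 15 ≤ m) (hx : 0 < x) (hs : 0 < s)
    (hxs : x ^ 2 + s ^ 2 = 1) (hY : Y = (m - 1) * (x ^ 2 / s ^ 2)) (hY20 : 2 < Y)
    (hu : 0 ≤ u) (huu2 : u ≤ 369 / 500) (hv : v = Real.log (1 + u)) (hc : -2 * l ^ 2 ≤ c)
    (h2 : Y ≤ 16 / 5) :
    1 / 10 * (u ^ 2 / (1 + u)) / Y ≤ u15F m s Y l u lam v c + u15HR m Y l u lam := by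
  refine u15R_range (Y1 := 2) (Y2 := 16 / 5) (a := 41 / 20) (b := 561 / 100) (β := 361 / 100)
    (r := 593 / 1000) (g := 353 / 100) (k := 73 / 100) (κ := 491 / 100) (u2 := 369 / 500)
    hm hx hs hxs hY hY20 hu huu2 hv hc (by norm_num) hY20.le h2 (by norm_num) (by norm_num)
    (by norm_num) (by norm_num) (by norm_num) (by norm_num) ?_ ?_ (by norm_num) (by norm_num)
    (Or.inl ⟨by norm_num, by norm_num⟩) (by norm_num) (by norm_num)
  · (clear * - hY20; linarith)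
  · have d1 : 0 ≤ Y - 2 := by linarith only [hY20]
    have d2 : 0 ≤ 16 / 5 - Y := by (clear * - h2; linarith)
    nlinarith only [d1, d2]

theorem u15R_r2 {m x s l u lam v c Y : ℝ} (hm : 15 ≤ m) (hx : 0 < x) (hs : 0 < s)
    (hxs : x ^ 2 + s ^ 2 = 1) (hY : Y = (m - 1) * (x ^ 2 / s ^ 2)) (hY20 : 2 < Y)
    (hu : 0 ≤ u) (huu2 : u ≤ 17 / 20) (hv : v = Real.log (1 + u)) (hc : -2 * l ^ 2 ≤ c)
    (h1 : 16 / 5 ≤ Y) (h2 : Y ≤ 17 / 4) :
    1 / 10 * (u ^ 2 / (1 + u)) / Y ≤ u15F m s Y l u lam v c + u15HR m Y l u lam := by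
  refine u15R_range (Y1 := 16 / 5) (Y2 := 17 / 4) (a := 21 / 10) (b := 197 / 50) (β := 257 / 50)
    (r := 603 / 1000) (g := 57 / 20) (k := 23 / 50) (κ := 5) (u2 := 17 / 20)
    hm hx hs hxs hY hY20 hu huu2 hv hc (by (clear * -; norm_num)) h1 h2 (by norm_num) (by norm_num)
    (by norm_num) (by norm_num) (by norm_num) (by norm_num) ?_ ?_ (by norm_num) (by norm_num)
    (Or.inr ⟨by norm_num, by norm_num, by norm_num⟩) (by norm_num) (by norm_num)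
  · linarith only [h1]
  · have d1 : 0 ≤ Y - 16 / 5 := by linarith only [h1]
    have d2 : 0 ≤ 17 / 4 - Y := by linarith only [h2]
    nlinarith only [d1, d2]

theorem u15R_r3 {m x s l u lam v c Y : ℝ} (hm : 15 ≤ m) (hx : 0 < x) (hs : 0 < s)
    (hxs : x ^ 2 + s ^ 2 = 1) (hY : Y = (m - 1) * (x ^ 2 / s ^ 2)) (hY20 : 2 < Y)
    (hu : 0 ≤ u) (huu2 : u ≤ 189 / 200) (hv : v = Real.log (1 + u)) (hc : -2 * l ^ 2 ≤ c)
    (h1 : 17 / 4 ≤ Y) (h2 : Y ≤ 21 / 4) :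
    1 / 10 * (u ^ 2 / (1 + u)) / Y ≤ u15F m s Y l u lam v c + u15HR m Y l u lam := by
  refine u15R_range (Y1 := 17 / 4) (Y2 := 21 / 4) (a := 39 / 20) (b := 317 / 100) (β := 639 / 100)
    (r := 611 / 1000) (g := 66 / 25) (k := 37 / 100) (κ := 132 / 25) (u2 := 189 / 200)
    hm hx hs hxs hY hY20 hu huu2 hv hc (by norm_num) h1 h2 (by norm_num) (by norm_num)
    (by norm_num) (by norm_num) (by norm_num) (by norm_num) ?_ ?_ (by norm_num) (by norm_num)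
    (Or.inr ⟨by norm_num, by norm_num, by norm_num⟩) (by norm_num) (by norm_num)
  · linarith only [h1]
  · have d1 : 0 ≤ Y - 17 / 4 := by linarith only [h1]
    have d2 : 0 ≤ 21 / 4 - Y := by linarith only [h2]
    nlinarith only [d1, d2]

theorem u15R_r4 {m x s l u lam v c Y : ℝ} (hm : 15 ≤ m) (hx : 0 < x) (hs : 0 < s)
    (hxs : x ^ 2 + s ^ 2 = 1) (hY : Y = (m - 1) * (x ^ 2 / s ^ 2)) (hY20 : 2 < Y)
    (hu : 0 ≤ u) (huu2 : u ≤ 263 / 250) (hv : v = Real.log (1 + u)) (hc : -2 * l ^ 2 ≤ c)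
    (h1 : 21 / 4 ≤ Y) (h2 : Y ≤ 13 / 2) :
    1 / 10 * (u ^ 2 / (1 + u)) / Y ≤ u15F m s Y l u lam v c + u15HR m Y l u lam := by
  refine u15R_range (Y1 := 21 / 4) (Y2 := 13 / 2) (a := 7 / 4) (b := 68 / 25) (β := 149 / 20)
    (r := 31 / 50) (g := 51 / 20) (k := 171 / 500) (κ := 53 / 10) (u2 := 263 / 250)
    hm hx hs hxs hY hY20 hu huu2 hv hc (by norm_num) h1 h2 (by norm_num) (by norm_num)
    (by norm_num) (by norm_num) (by norm_num) (by norm_num) ?_ ?_ (by norm_num) (by norm_num)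
    (Or.inr ⟨by norm_num, by norm_num, by norm_num⟩) (by norm_num) (by norm_num)
  · linarith only [h1]
  · have d1 : 0 ≤ Y - 21 / 4 := by linarith only [h1]
    have d2 : 0 ≤ 13 / 2 - Y := by linarith only [h2]
    nlinarith only [d1, d2]

theorem u15R_r5 {m x s l u lam v c Y : ℝ} (hm : 15 ≤ m) (hx : 0 < x) (hs : 0 < s)
    (hxs : x ^ 2 + s ^ 2 = 1) (hY : Y = (m - 1) * (x ^ 2 / s ^ 2)) (hY20 : 2 < Y)
    (hu : 0 ≤ u) (huu2 : u ≤ 1237 / 1000) (hv : v = Real.log (1 + u)) (hc : -2 * l ^ 2 ≤ c)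
    (h1 : 13 / 2 ≤ Y) (h2 : Y ≤ 9) :
    1 / 10 * (u ^ 2 / (1 + u)) / Y ≤ u15F m s Y l u lam v c + u15HR m Y l u lam := by
  refine u15R_range (Y1 := 13 / 2) (Y2 := 9) (a := 29 / 20) (b := 47 / 20) (β := 431 / 50)
    (r := 317 / 500) (g := 51 / 20) (k := 43 / 125) (κ := 263 / 50) (u2 := 1237 / 1000)
    hm hx hs hxs hY hY20 hu huu2 hv hc (by norm_num) h1 h2 (by norm_num) (by norm_num)
    (by norm_num) (by norm_num) (by norm_num) (by norm_num) ?_ ?_ (by norm_num) (by norm_num)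
    (Or.inr ⟨by norm_num, by norm_num, by norm_num⟩) (by norm_num) (by norm_num)
  · linarith only [h1]
  · have d1 : 0 ≤ Y - 13 / 2 := by linarith only [h1]
    have d2 : 0 ≤ 9 - Y := by linarith only [h2]
    nlinarith only [d2, mul_nonneg d1 d2]

theorem u15R_r6 {m x s l u lam v c Y : ℝ} (hm : 15 ≤ m) (hx : 0 < x) (hs : 0 < s)
    (hxs : x ^ 2 + s ^ 2 = 1) (hY : Y = (m - 1) * (x ^ 2 / s ^ 2)) (hY20 : 2 < Y)
    (hu : 0 ≤ u) (huu2 : u ≤ 33 / 20) (hv : v = Real.log (1 + u)) (hc : -2 * l ^ 2 ≤ c)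
    (h1 : 9 ≤ Y) (h2 : Y ≤ 16) :
    1 / 10 * (u ^ 2 / (1 + u)) / Y ≤ u15F m s Y l u lam v c + u15HR m Y l u lam := by
  refine u15R_range (Y1 := 9) (Y2 := 16) (a := 11 / 10) (b := 211 / 100) (β := 48 / 5)
    (r := 331 / 500) (g := 269 / 100) (k := 62 / 125) (κ := 103 / 25) (u2 := 33 / 20)
    hm hx hs hxs hY hY20 hu huu2 hv hc (by norm_num) h1 h2 (by norm_num) (by norm_num)
    (by norm_num) (by norm_num) (by norm_num) (by norm_num) ?_ ?_ (by norm_num) (by norm_num)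
    (Or.inr ⟨by norm_num, by norm_num, by norm_num⟩) (by norm_num) (by norm_num)
  · linarith only [h1]
  · have d1 : 0 ≤ Y - 9 := by linarith only [h1]
    have d2 : 0 ≤ 16 - Y := by linarith only [h2]
    nlinarith only [mul_nonneg d1 d2]

theorem u15R_r7 {m x s l u lam v c Y : ℝ} (hm : 15 ≤ m) (hx : 0 < x) (hs : 0 < s)
    (hxs : x ^ 2 + s ^ 2 = 1) (hY : Y = (m - 1) * (x ^ 2 / s ^ 2)) (hY20 : 2 < Y)
    (hu : 0 ≤ u) (huu2 : u ≤ 326 / 125) (hv : v = Real.log (1 + u)) (hc : -2 * l ^ 2 ≤ c)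
    (h1 : 16 ≤ Y) (h2 : Y ≤ 40) :
    1 / 10 * (u ^ 2 / (1 + u)) / Y ≤ u15F m s Y l u lam v c + u15HR m Y l u lam := by
  refine u15R_range (Y1 := 16) (Y2 := 40) (a := 11 / 20) (b := 173 / 100) (β := 1171 / 100)
    (r := 89 / 125) (g := 141 / 50) (k := 71 / 100) (κ := 159 / 50) (u2 := 326 / 125)
    hm hx hs hxs hY hY20 hu huu2 hv hc (by norm_num) h1 h2 (by norm_num) (by norm_num)
    (by norm_num) (by norm_num) (by norm_num) (by norm_num) ?_ ?_ (by norm_num) (by norm_num)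
    (Or.inr ⟨by norm_num, by norm_num, by norm_num⟩) (by norm_num) (by norm_num)
  · linarith only [h1]
  · have d1 : 0 ≤ Y - 16 := by linarith only [h1]
    have d2 : 0 ≤ 40 - Y := by linarith only [h2]
    nlinarith only [d1]

theorem u15R_r8 {m x s l u lam v c Y : ℝ} (hm : 15 ≤ m) (hx : 0 < x) (hs : 0 < s)
    (hxs : x ^ 2 + s ^ 2 = 1) (hY : Y = (m - 1) * (x ^ 2 / s ^ 2)) (hY20 : 2 < Y)
    (hu : 0 ≤ u) (huu2 : u ≤ 4) (hv : v = Real.log (1 + u)) (hc : -2 * l ^ 2 ≤ c)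
    (h1 : 40 ≤ Y) :
    1 / 10 * (u ^ 2 / (1 + u)) / Y ≤ u15F m s Y l u lam v c + u15HR m Y l u lam := by
  refine u15R_range (Y1 := 40) (Y2 := Y) (a := 1 / 5) (b := 31 / 20) (β := 1307 / 100)
    (r := 761 / 1000) (g := 3) (k := 1021 / 1000) (κ := 12 / 5) (u2 := 4)
    hm hx hs hxs hY hY20 hu huu2 hv hc (by norm_num) h1 le_rfl (by norm_num) (by norm_num)
    (by norm_num) (by norm_num) (by norm_num) (by norm_num) ?_ ?_ (by norm_num) (by norm_num)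
    (Or.inr ⟨by norm_num, by norm_num, by linarith only []⟩) (by norm_num) (by norm_num)
  · linarith only [h1]
  · have d1 : 0 ≤ Y - 40 := by linarith only [h1]
    nlinarith only [d1]

/-- **Right region, `0 ≤ u ≤ 4`**, all real `m ≥ 15`. -/
theorem u15_right_pos {m x s l u lam v c Y : ℝ} (hm : 15 ≤ m) (hx : 0 < x) (hs : 0 < s)
    (hxs : x ^ 2 + s ^ 2 = 1) (hY : Y = (m - 1) * (x ^ 2 / s ^ 2)) (h2x : 2 < (m + 1) * x ^ 2)
    (hu : 0 ≤ u) (hu4 : u ≤ 4) (huk : u ^ 2 ≤ 17 / 100 * Y) (hv : v = Real.log (1 + u))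
    (hc : -2 * l ^ 2 ≤ c) :
    1 / 10 * (u ^ 2 / (1 + u)) / Y ≤ u15F m s Y l u lam v c + u15HR m Y l u lam := by
  have hY20 : 2 < Y := by
    rw [hY, ← mul_div_assoc, lt_div_iff₀ (by positivity), show s ^ 2 = 1 - x ^ 2 by linarith only [hxs]]
    linarith only [h2x]
  have aux : ∀ d e : ℝ, 0 < e → 17 / 100 * d ≤ e ^ 2 → Y ≤ d → u ≤ e := by
    intro d e he h1 h2
    by_contra h
    push Not at h
    nlinarith only [huk, h1, h2, h, he]
  rcases le_total Y (16 / 5) with h1 | h1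
  · exact u15R_r1 hm hx hs hxs hY hY20 hu (aux _ _ (by norm_num) (by norm_num) h1) hv hc h1
  rcases le_total Y (17 / 4) with h2 | h2
  · exact u15R_r2 hm hx hs hxs hY hY20 hu (aux _ _ (by norm_num) (by norm_num) h2) hv hc h1 h2
  rcases le_total Y (21 / 4) with h3 | h3
  · exact u15R_r3 hm hx hs hxs hY hY20 hu (aux _ _ (by norm_num) (by norm_num) h3) hv hc h2 h3
  rcases le_total Y (13 / 2) with h4 | h4
  · exact u15R_r4 hm hx hs hxs hY hY20 hu (aux _ _ (by norm_num) (by norm_num) h4) hv hc h3 h4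
  rcases le_total Y 9 with h5 | h5
  · exact u15R_r5 hm hx hs hxs hY hY20 hu (aux _ _ (by norm_num) (by norm_num) h5) hv hc h4 h5
  rcases le_total Y 16 with h6 | h6
  · exact u15R_r6 hm hx hs hxs hY hY20 hu (aux _ _ (by norm_num) (by norm_num) h6) hv hc h5 h6
  rcases le_total Y 40 with h7 | h7
  · exact u15R_r7 hm hx hs hxs hY hY20 hu (aux _ _ (by norm_num) (by norm_num) h7) hv hc h6 h7
  exact u15R_r8 hm hx hs hxs hY hY20 hu hu4 hv hc h7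

end Vale.Agent.P237.AllN
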