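import Vale.Agent.P237.AllN.U15Fin
import Vale.Agent.P237.AllN.U15RP
import Vale.Agent.P237.AllN.U15RN
import Vale.Agent.P237.AllN.U15RB

/-!
# P237, block C: `OneD m` for `15 ≤ m ≤ 26`, light version
-/

namespace Vale.Agent.P237.AllN

/-- **The right inequality of the uniform plain certificate, `m ≥ 15`.** -/
theorem u15_right_ok {m : ℕ} (hm0 : 15 ≤ m) : U15Right m := by
  intro x l u lam h hlt
  have hm : (15 : ℝ) ≤ m := by exact_mod_cast hm0
  have hs0 : 0 < sq x := sqx_pos h.hx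
  have hxs : x ^ 2 + sq x ^ 2 = 1 := by rw [sqx_sq h.hx]; ring
  have hx0 := h.hx.1
  have hy : 0 < x ^ 2 / sq x ^ 2 := by positivity
  have hc : -2 * l ^ 2 ≤ u15c x l := by
    unfold u15c
    rw [le_div_iff₀ hy]
    have := h.corr2
    linarith
  rcases le_total u 0 with hu | hu
  · exact u15_right_neg hm hx0 h.hx.2 hs0 hxs rfl hlt h.hu hu h.lamhi h.tau1
      (fun _ => h.sgn) rfl hc
  · rcases le_total u 4 with hu4 | hu4
    · exact u15_right_pos hm hx0 hs0 hxs rfl hlt hu hu4 (h.uk hu) rfl hc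
    · exact u15_right_big hm hx0 h.hx.2 hs0 hxs rfl hu4 h.us h.tail rfl hc

/-- block C: `OneD m` for `15 ≤ m ≤ 26` -/
theorem oneD_15_26_light {m : ℕ} (hm : 15 ≤ m) (hm' : m ≤ 26) : OneD m :=
  oneD_u15_of_right hm hm' (u15_right_ok hm)

end Vale.Agent.P237.AllN
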