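import Vale.Agent.P237.AllN.Final4
import Vale.Agent.P237.AllN.M4
import Vale.Agent.P237.AllN.PcM5
import Vale.Agent.P237.AllN.PcM6
import Vale.Agent.P237.AllN.PcM7
import Vale.Agent.P237.AllN.PcM8
import Vale.Agent.P237.AllN.PcM9
import Vale.Agent.P237.AllN.PcM10
import Vale.Agent.P237.AllN.PcM11
import Vale.Agent.P237.AllN.PcM12
import Vale.Agent.P237.AllN.PcM13
import Vale.Agent.P237.AllN.PcM14
import Vale.Agent.P237.AllN.U15Fin2
import Vale.Agent.P237.AllN.FAllF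

/-!
# P237: Petty's conjecture in all dimensions
-/

open MeasureTheory Metric Set Module

namespace Vale.Agent.P237.AllN

/-- the one-dimensional statement for all `m ≥ 4` -/
theorem oneDF_all (m : ℕ) (hm : 4 ≤ m) : ∃ θ : ℝ, OneDF m θ := by
  rcases le_or_gt 27 m with h27 | h27
  · exact ⟨1, oneDF_D h27⟩
  rcases le_or_gt 15 m with h15 | h15
  · exact ⟨0, (oneD_15_26_light h15 (by omega)).toF⟩
  have h : m = 4 ∨ m = 5 ∨ m = 6 ∨ m = 7 ∨ m = 8 ∨ m = 9 ∨ m = 10 ∨ m = 11 ∨ m = 12 ∨ m = 13 ∨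
      m = 14 := by omega
  rcases h with h | h | h | h | h | h | h | h | h | h | h <;> subst h
  · exact oneDF_four
  · exact ⟨0, oneD_5.toF⟩
  · exact ⟨0, oneD_6.toF⟩
  · exact ⟨0, oneD_7.toF⟩
  · exact ⟨0, oneD_8.toF⟩
  · exact ⟨0, oneD_9.toF⟩
  · exact ⟨0, oneD_10.toF⟩
  · exact ⟨0, oneD_11.toF⟩
  · exact ⟨0, oneD_12.toF⟩
  · exact ⟨0, oneD_13.toF⟩
  · exact ⟨0, oneD_14.toF⟩

/-- Petty's projection-volume conjecture in every dimension `n ≥ 3`, with equality cases. -/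
theorem petty_all {V : Type} [NormedAddCommGroup V] [InnerProductSpace ℝ V]
    [FiniteDimensional ℝ V] [MeasurableSpace V] [BorelSpace V] {n : ℕ} (hn : 3 ≤ n)
    (hd : finrank ℝ V = n) : Statement.PettyIn V n :=
  petty_all_from4 oneDF_all hn hd

end Vale.Agent.P237.AllN
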