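import Vale.Agent.P237.AllN.FMain
import Vale.Agent.P237.J4.All4

/-!
# P237, all dimensions: final assembly, induction started in dimension four
-/

open MeasureTheory Metric Set Module

namespace Vale.Agent.P237.AllN

variable {V : Type} [NormedAddCommGroup V] [InnerProductSpace ℝ V] [FiniteDimensional ℝ V]
  [MeasurableSpace V] [BorelSpace V]

/-- The inequality in all dimensions from the one-dimensional statements. -/
theorem pettyIneq_from4 {N : ℕ} (h : ∀ m : ℕ, 4 ≤ m → m < N → ∃ θ : ℝ, OneDF m θ) :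
    ∀ n : ℕ, 4 ≤ n → n ≤ N → PettyIneq n := by
  intro n hn
  induction n, hn using Nat.le_induction with
  | base => exact fun _ => J4.pettyIneq_four
  | succ m hm ih =>
    intro hN
    obtain ⟨θ, hθ⟩ := h m hm (by omega)
    exact pettyIneq_succ_F (by omega) hθ (ih (by omega))

/-- Petty's conjecture in dimensions `3 ≤ n ≤ N` from the one-dimensional statements. -/
theorem petty_from4 {N : ℕ} (h : ∀ m : ℕ, 4 ≤ m → m < N → ∃ θ : ℝ, OneDF m θ) {n : ℕ}
    (hn : 3 ≤ n) (hN : n ≤ max 4 N) (hd : finrank ℝ V = n) : Statement.PettyIn V n := by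
  rcases hn.eq_or_lt with h3 | h3
  · subst h3
    exact Statement.petty_dim_three hd
  rcases (show 4 ≤ n by omega).eq_or_lt with h4 | h4
  · subst h4
    exact J4.petty_four hd
  · have hN' : n ≤ N := by
      rcases le_max_iff.1 hN with h | h <;> omega
    obtain ⟨m, rfl⟩ : ∃ m, n = m + 1 := ⟨n - 1, by omega⟩
    obtain ⟨θ, hθ⟩ := h m (by omega) (by omega)
    exact pettyIn_succ_F (by omega) hθ (pettyIneq_from4 h m (by omega) (by omega)) hd

/-- Petty's conjecture in all dimensions from the one-dimensional statements. -/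
theorem petty_all_from4 (h : ∀ m : ℕ, 4 ≤ m → ∃ θ : ℝ, OneDF m θ) {n : ℕ}
    (hn : 3 ≤ n) (hd : finrank ℝ V = n) : Statement.PettyIn V n :=
  petty_from4 (N := n) (fun m hm _ => h m hm) hn (le_max_right _ _) hd

open Alm in
/-- The factor in the remaining dimensions. -/
theorem pettyC_from4 {N : ℕ} (hN : 4 ≤ N) (h : ∀ m : ℕ, 4 ≤ m → m < N → ∃ θ : ℝ, OneDF m θ) {n : ℕ}
    (hn : N ≤ n) : PettyC n (cst n * (cst N)⁻¹) := by
  have hc : ∀ n, 4 ≤ n → 0 < cst n := by
    intro n hn
    have h1 := le_cst (by omega : 3 ≤ n)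
    have h2 : 0 < 2 / Real.sqrt (3 * Real.pi) := by
      have := Real.pi_pos
      positivity
    linarith
  induction n, hn using Nat.le_induction with
  | base =>
    rw [mul_inv_cancel₀ (hc N hN).ne']
    exact J4.pettyC_one_of (pettyIneq_from4 h N hN le_rfl)
  | succ m hm ih =>
    rw [← del_mul_cst (by omega : 3 ≤ m), mul_assoc]
    have h0 : 0 ≤ cst m * (cst N)⁻¹ :=
      mul_nonneg (cst_nonneg m) (inv_nonneg.2 (cst_nonneg N))
    exact step (by omega : 3 ≤ m) h0 ih

open Alm in
/-- Petty's inequality up to a factor in the remaining dimensions. -/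
theorem almost_from4 {N : ℕ} (hN : 4 ≤ N) (h : ∀ m : ℕ, 4 ≤ m → m < N → ∃ θ : ℝ, OneDF m θ)
    {κ : ℝ} (hκ : κ * cst N ≤ 2 / Real.sqrt (3 * Real.pi)) {n : ℕ}
    (hn : N ≤ n) (hd : finrank ℝ V = n) {K L : Set V}
    (hK : Statement.IsConvexBody K) (hL : Statement.IsProjectionBody K L) :
    κ * (Statement.kappa (n - 1) ^ n * Statement.kappa n ^ (2 - (n : ℤ)) *
      Statement.vol K ^ (n - 1)) ≤ Statement.vol L := by
  have hK' : IsBody K := ⟨hK.1, hK.2.1, hK.2.2⟩
  obtain rfl := (Statement.isProjectionBody_iff hK).1 hL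
  have h1 := pettyC_from4 hN h hn V hd K hK'
  have hR := Alm.RC_pos (m := n) (by omega)
  have hv := (Main.vol_pos hK').le
  have hcN : 0 < cst N := by
    have h1 := le_cst (by omega : 3 ≤ N)
    have h2 : 0 < 2 / Real.sqrt (3 * Real.pi) := by
      have := Real.pi_pos
      positivity
    linarith
  have h2 : κ ≤ cst n * (cst N)⁻¹ := by
    rw [← div_eq_mul_inv, le_div_iff₀ hcN]
    exact hκ.trans (le_cst (by omega : 3 ≤ n))
  rw [← mul_assoc]
  refine le_trans ?_ h1
  exact mul_le_mul_of_nonneg_right (mul_le_mul_of_nonneg_right h2 hR.le) (by positivity)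

end Vale.Agent.P237.AllN
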