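import Vale.Agent.P237.AllN.CutN
import Vale.Agent.P237.AllN.FMain

/-!
# P237, all dimensions: the Fisher type functional, cuts
-/

open MeasureTheory Metric Set Module Filter Topology

namespace Vale.Agent.P237.AllN

/-- the value on `[0,1]` of the cut pair, general right end pair -/
theorem cut_value_gen {m : ℕ} {r : ℝ → ℝ} (hr : IsProf r)
    {c c' p p' : ℝ → ℝ} {α β : ℝ} (h0 : 0 < α) (hαβ : α < β) (h1 : β < 1)
    (hc : ∀ y ∈ Ioo (0 : ℝ) 1, HasDerivAt c (c' y) y) (hc' : ContinuousOn c' (Ioo 0 1))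
    (hp : ∀ y ∈ Ioo (0 : ℝ) 1, HasDerivAt p (p' y) y) (hp' : ContinuousOn p' (Ioo 0 1))
    {M : ℝ} (hM0 : 0 ≤ M) {η P : ℝ} (hηP : 0 ≤ η + P) {ε : ℝ} (hε' : 0 < ε) :
    ∃ h : ℝ, 0 < h ∧ h ≤ α / 2 ∧ β + h ≤ (1 + β) / 2 ∧ ∀ χL χL' χR χR' : ℝ → ℝ,
      Ramp (α - h) α χL χL' → Ramp β (β + h) χR χR' →
      (∫ y in α..β, (((m : ℝ) + 1) * c y + y * c' y + p' y) * r y ^ m) +
      (α * (c α + M) + p α) * r α ^ m - (β * (c β + η + P) + p β - P) * r β ^ m -
      ((m : ℝ) + 1) * M * (∫ y in (0 : ℝ)..α, r y ^ m) -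
      ((m : ℝ) + 1) * (η + P) * (∫ y in β..1, r y ^ m) - 4 * ε ≤
      ∫ y in (0 : ℝ)..1, (((m : ℝ) + 1) * cutC χL χR c M (-(η + P)) y +
        y * cutC' χL χR χL' χR' c c' M (-(η + P)) y + cutP' χL χR χL' χR' p p' P y) * r y ^ m := by
  set Φ : ℝ → ℝ := fun y => ((m : ℝ) + 1) * c y + y * c' y + p' y with hΦ
  set gL : ℝ → ℝ := fun y => y * (c y + M) + p y with hgL
  set gR : ℝ → ℝ := fun y => y * (c y + η + P) + p y - P with hgR
  have hcc : ContinuousOn c (Ioo 0 1) := fun y hy => (hc y hy).continuousAt.continuousWithinAt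
  have hpc : ContinuousOn p (Ioo 0 1) := fun y hy => (hp y hy).continuousAt.continuousWithinAt
  have hrc : ContinuousOn r (Ioo 0 1) :=
    (Alm.prof_cont hr).mono (Ioo_subset_Ioo (by norm_num) le_rfl)
  have hrm : ContinuousOn (fun y => r y ^ m) (Ioo 0 1) := hrc.pow m
  have hΦc : ContinuousOn Φ (Ioo 0 1) := by
    rw [hΦ]
    exact ((continuousOn_const.mul hcc).add (continuousOn_id.mul hc')).add hp'
  have hgLc : ContinuousOn (fun y => gL y * r y ^ m) (Ioo 0 1) := by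
    rw [hgL]
    exact ((continuousOn_id.mul (hcc.add continuousOn_const)).add hpc).mul hrm
  have hgRc : ContinuousOn (fun y => gR y * r y ^ m) (Ioo 0 1) := by
    rw [hgR]
    exact (((continuousOn_id.mul ((hcc.add continuousOn_const).add continuousOn_const)).add hpc).sub
      continuousOn_const).mul hrm
  have hαmem : α ∈ Ioo (0 : ℝ) 1 := ⟨h0, by linarith⟩
  have hβmem : β ∈ Ioo (0 : ℝ) 1 := ⟨by linarith, h1⟩
  -- compact interval
  have hsub : Icc (α / 2) ((1 + β) / 2) ⊆ Ioo 0 1 := fun y hy =>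
    ⟨by linarith [hy.1], by linarith [hy.2]⟩
  obtain ⟨K0, hK0⟩ := isCompact_Icc.exists_bound_of_continuousOn ((hΦc.mul hrm).mono hsub)
  have hK0' : 0 ≤ K0 := (norm_nonneg _).trans (hK0 α ⟨by linarith, by linarith⟩)
  obtain ⟨d1, hd1, hd1'⟩ := Metric.continuousAt_iff.1
    (hgLc.continuousAt (isOpen_Ioo.mem_nhds hαmem)) ε hε'
  obtain ⟨d2, hd2, hd2'⟩ := Metric.continuousAt_iff.1
    (hgRc.continuousAt (isOpen_Ioo.mem_nhds hβmem)) ε hε'
  obtain ⟨h, hh, hh1, hh2, hh3, hh4, hh5⟩ : ∃ h : ℝ, 0 < h ∧ h ≤ α / 2 ∧ β + h ≤ (1 + β) / 2 ∧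
      K0 * h ≤ ε ∧ h < d1 ∧ h < d2 := by
    refine ⟨min (min (α / 2) ((1 - β) / 2)) (min (ε / (K0 + 1)) (min (d1 / 2) (d2 / 2))), ?_, ?_, ?_,
      ?_, ?_, ?_⟩
    · have : 0 < 1 - β := by linarith
      positivity
    · exact (min_le_left _ _).trans (min_le_left _ _)
    · have := (min_le_left (min (α / 2) ((1 - β) / 2))
        (min (ε / (K0 + 1)) (min (d1 / 2) (d2 / 2)))).trans (min_le_right _ _)
      linarith
    · have h2 := (min_le_right (min (α / 2) ((1 - β) / 2))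
        (min (ε / (K0 + 1)) (min (d1 / 2) (d2 / 2)))).trans (min_le_left _ _)
      calc K0 * _ ≤ K0 * (ε / (K0 + 1)) := mul_le_mul_of_nonneg_left h2 hK0'
        _ = ε * (K0 / (K0 + 1)) := by ring
        _ ≤ ε * 1 := mul_le_mul_of_nonneg_left ((div_le_one (by linarith)).2 (by linarith)) hε'.le
        _ = ε := mul_one _
    · have h2 := ((min_le_right (min (α / 2) ((1 - β) / 2))
        (min (ε / (K0 + 1)) (min (d1 / 2) (d2 / 2)))).trans (min_le_right _ _)).trans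
        (min_le_left _ _)
      linarith
    · have h2 := ((min_le_right (min (α / 2) ((1 - β) / 2))
        (min (ε / (K0 + 1)) (min (d1 / 2) (d2 / 2)))).trans (min_le_right _ _)).trans
        (min_le_right _ _)
      linarith
  refine ⟨h, hh, hh1, hh2, ?_⟩
  intro χL χL' χR χR' hL hR
  have hβh : β + h < 1 := by linarith
  have hαh : 0 < α - h := by linarith
  have hCd := cutC_deriv hαh hβh hL hR (by linarith) (by linarith) hc hc' M (-(η + P))
  have hPd := cutP_deriv hαh hβh hL hR (by linarith) (by linarith) hp hp' P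
  have hCcc : Continuous (cutC χL χR c M (-(η + P))) :=
    continuous_iff_continuousAt.2 fun y => (hCd.1 y).continuousAt
  set Q : ℝ → ℝ := fun y => (((m : ℝ) + 1) * cutC χL χR c M (-(η + P)) y +
        y * cutC' χL χR χL' χR' c c' M (-(η + P)) y + cutP' χL χR χL' χR' p p' P y) * r y ^ m with hQ
  have hrii : ∀ a ∈ Icc (0 : ℝ) 1, ∀ b ∈ Icc (0 : ℝ) 1,
      IntervalIntegrable (fun y => r y ^ m) volume a b := fun a ha b hb =>
    Alm.prof_pow_ii hr m ha hb
  have hQii : ∀ a ∈ Icc (0 : ℝ) 1, ∀ b ∈ Icc (0 : ℝ) 1, IntervalIntegrable Q volume a b := by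
    intro a ha b hb
    refine (hrii a ha b hb).continuousOn_mul ?_
    exact ((continuous_const.mul hCcc).add (continuous_id.mul hCd.2) |>.add hPd.2).continuousOn
  have m0 : (0 : ℝ) ∈ Icc (0 : ℝ) 1 := ⟨le_rfl, zero_le_one⟩
  have m1 : (1 : ℝ) ∈ Icc (0 : ℝ) 1 := ⟨zero_le_one, le_rfl⟩
  have ma : α - h ∈ Icc (0 : ℝ) 1 := ⟨hαh.le, by linarith⟩
  have mα : α ∈ Icc (0 : ℝ) 1 := ⟨h0.le, by linarith⟩
  have mβ : β ∈ Icc (0 : ℝ) 1 := ⟨by linarith, h1.le⟩
  have mb : β + h ∈ Icc (0 : ℝ) 1 := ⟨by linarith, hβh.le⟩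
  have split : ∫ y in (0 : ℝ)..1, Q y =
      (∫ y in (0 : ℝ)..(α - h), Q y) + (∫ y in (α - h)..α, Q y) + (∫ y in α..β, Q y) +
      (∫ y in β..(β + h), Q y) + ∫ y in (β + h)..1, Q y := by
    rw [intervalIntegral.integral_add_adjacent_intervals (hQii 0 m0 _ ma) (hQii _ ma _ mα),
      intervalIntegral.integral_add_adjacent_intervals (hQii 0 m0 _ mα) (hQii _ mα _ mβ),
      intervalIntegral.integral_add_adjacent_intervals (hQii 0 m0 _ mβ) (hQii _ mβ _ mb),
      intervalIntegral.integral_add_adjacent_intervals (hQii 0 m0 _ mb) (hQii _ mb _ m1)]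
  rw [split]
  have hm0 : (0 : ℝ) ≤ (m : ℝ) + 1 := by positivity
  have hrn : ∀ y ∈ Ioo (0 : ℝ) 1, 0 ≤ r y ^ m := fun y hy =>
    pow_nonneg (hr.pos y ⟨by linarith [hy.1], hy.2⟩).le m
  -- piece 1
  have I1 : ∫ y in (0 : ℝ)..(α - h), Q y = -(((m : ℝ) + 1) * M) * ∫ y in (0 : ℝ)..(α - h), r y ^ m := by
    rw [← intervalIntegral.integral_const_mul]
    refine intervalIntegral.integral_congr fun y hy => ?_
    rw [uIcc_of_le hαh.le] at hy
    simp only [hQ, cutC, cutC', cutP']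
    rw [hL.left y hy.2, hR.left y (by linarith [hy.2]), hL.left' y hy.2,
      hR.left' y (by linarith [hy.2])]
    ring
  -- piece 3
  have I3 : ∫ y in α..β, Q y = ∫ y in α..β, Φ y * r y ^ m := by
    refine intervalIntegral.integral_congr fun y hy => ?_
    rw [uIcc_of_le hαβ.le] at hy
    simp only [hQ, cutC, cutC', cutP', hΦ]
    rw [hL.right y hy.1, hR.left y hy.2, hL.right' y hy.1, hR.left' y hy.2]
    ring
  -- piece 5
  have I5 : ∫ y in (β + h)..1, Q y = -(((m : ℝ) + 1) * (η + P)) * ∫ y in (β + h)..1, r y ^ m := by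
    rw [← intervalIntegral.integral_const_mul]
    refine intervalIntegral.integral_congr fun y hy => ?_
    rw [uIcc_of_le hβh.le] at hy
    have hya : α ≤ y := by linarith [hy.1]
    simp only [hQ, cutC, cutC', cutP']
    rw [hL.right y hya, hR.right y hy.1, hL.right' y hya, hR.right' y hy.1]
    ring
  -- piece 2
  have I2 : -(K0 * (α - (α - h))) - ((m : ℝ) + 1) * M * (∫ y in (α - h)..α, r y ^ m) +
      (gL α * r α ^ m - ε) ≤ ∫ y in (α - h)..α, Q y := by
    refine ramp_piece (G := fun y => Φ y * r y ^ m) (H := fun y => gL y * r y ^ m) (σ := χL)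
      (θ := fun y => 1 - χL y) (χ' := χL') (by linarith) (hQii _ ma _ mα) (hrii _ ma _ mα)
      hL.cont hL.int ?_ ?_ (mul_nonneg hm0 hM0) ?_ hL.nonneg hL.le_one
      (fun y => by linarith [hL.nonneg y]) hL.nonneg' ?_
    · intro y hy
      simp only [hQ, cutC, cutC', cutP', hΦ, hgL]
      rw [hR.left y (by linarith [hy.2]), hR.left' y (by linarith [hy.2])]
      ring
    · intro y hy
      exact hK0 y ⟨by linarith [hy.1], by linarith [hy.2]⟩
    · intro y hy
      exact hrn y ⟨by linarith [hy.1], by linarith [hy.2]⟩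
    · intro y hy
      have g1 := hd1' (x := y) (by
        rw [Real.dist_eq, abs_lt]
        exact ⟨by linarith [hy.1], by linarith [hy.2]⟩)
      rw [Real.dist_eq] at g1
      have g2 := (abs_lt.1 g1).1
      linarith
  -- piece 4
  have I4 : -(K0 * (β + h - β)) - ((m : ℝ) + 1) * (η + P) * (∫ y in β..(β + h), r y ^ m) +
      (-(gR β * r β ^ m) - ε) ≤ ∫ y in β..(β + h), Q y := by
    refine ramp_piece (G := fun y => Φ y * r y ^ m) (H := fun y => -(gR y * r y ^ m))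
      (σ := fun y => 1 - χR y) (θ := χR) (χ' := χR') (by linarith) (hQii _ mβ _ mb)
      (hrii _ mβ _ mb) hR.cont hR.int ?_ ?_ (mul_nonneg hm0 hηP) ?_
      (fun y => by linarith [hR.le_one y]) (fun y => by linarith [hR.nonneg y]) hR.le_one
      hR.nonneg' ?_
    · intro y hy
      have hya : α ≤ y := by linarith [hy.1]
      simp only [hQ, cutC, cutC', cutP', hΦ, hgR]
      rw [hL.right y hya, hL.right' y hya]
      ring
    · intro y hy
      exact hK0 y ⟨by linarith [hy.1], by linarith [hy.2]⟩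
    · intro y hy
      exact hrn y ⟨by linarith [hy.1], by linarith [hy.2]⟩
    · intro y hy
      have g1 := hd2' (x := y) (by
        rw [Real.dist_eq, abs_lt]
        exact ⟨by linarith [hy.1], by linarith [hy.2]⟩)
      rw [Real.dist_eq] at g1
      have g2 := (abs_lt.1 g1).2
      linarith
  have J1 : ∫ y in (0 : ℝ)..α, r y ^ m = (∫ y in (0 : ℝ)..(α - h), r y ^ m) +
      ∫ y in (α - h)..α, r y ^ m :=
    (intervalIntegral.integral_add_adjacent_intervals (hrii 0 m0 _ ma) (hrii _ ma _ mα)).symm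
  have J2 : ∫ y in β..1, r y ^ m = (∫ y in β..(β + h), r y ^ m) + ∫ y in (β + h)..1, r y ^ m :=
    (intervalIntegral.integral_add_adjacent_intervals (hrii _ mβ _ mb) (hrii _ mb _ m1)).symm
  have e3 : (α * (c α + M) + p α) * r α ^ m = gL α * r α ^ m := rfl
  have e4 : (β * (c β + η + P) + p β - P) * r β ^ m = gR β * r β ^ m := rfl
  rw [J1, J2, I1, I3, I5, e3, e4]
  have e6 : K0 * (α - (α - h)) = K0 * h := by ring
  have e7 : K0 * (β + h - β) = K0 * h := by ring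
  rw [e6] at I2
  rw [e7] at I4
  linarith

/-- pairs for the Fisher type functional -/
structure FisPair (c c' p p' : ℝ → ℝ) : Prop where
  hc : ∀ y, HasDerivAt c (c' y) y
  hc' : Continuous c'
  hp : ∀ y, HasDerivAt p (p' y) y
  hp' : Continuous p'
  hsup : ∀ y ∈ Icc (-1 : ℝ) 1, c y + p y ^ 2 / 4 ≤ 0

/-- the Fisher type functional is at least `w` on the profile `r` -/
def FisGe (m : ℕ) (r : ℝ → ℝ) (w : ℝ) : Prop :=
  ∀ ε > (0 : ℝ), ∃ c c' p p' : ℝ → ℝ, FisPair c c' p p' ∧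
    w - ε ≤ ∫ y in (-1 : ℝ)..1, (((m : ℝ) + 1) * c y + y * c' y + p' y) * r y ^ m

theorem FisGe.mono {m : ℕ} {r : ℝ → ℝ} {v w : ℝ} (h : FisGe m r v) (hwv : w ≤ v) :
    FisGe m r w := by
  intro ε hε
  obtain ⟨c, c', p, p', h1, h2⟩ := h ε hε
  exact ⟨c, c', p, p', h1, by linarith⟩

theorem FisGe.of_forall_lt {m : ℕ} {r : ℝ → ℝ} {w : ℝ} (h : ∀ κ > (0 : ℝ), FisGe m r (w - κ)) :
    FisGe m r w := by
  intro ε hε
  obtain ⟨c, c', p, p', h1, h2⟩ := h (ε / 2) (by positivity) (ε / 2) (by positivity)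
  exact ⟨c, c', p, p', h1, by linarith⟩

theorem FishP.mul_le {m : ℕ} {r : ℝ → ℝ} {Q w : ℝ} (hQ : FishP (m + 1) (fun y => r y ^ m) Q)
    (hQ0 : 0 ≤ Q) (h : FisGe m r w) : Q * w ≤ ∫ y in (-1 : ℝ)..1, r y ^ m := by
  refine le_of_forall_pos_le_add fun ε hε => ?_
  obtain ⟨c, c', p, p', h1, h2⟩ := h (ε / (Q + 1)) (by positivity)
  have h3 := hQ c c' p p' h1.hc h1.hc' h1.hp h1.hp' h1.hsup
  have e : ((m + 1 : ℕ) : ℝ) = (m : ℝ) + 1 := by push_cast; ring
  rw [e] at h3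
  have h4 := mul_le_mul_of_nonneg_left h2 hQ0
  have h5 : Q * (ε / (Q + 1)) ≤ ε := by
    rw [← mul_div_assoc, div_le_iff₀ (by positivity)]
    nlinarith
  have h6 : Q * (w - ε / (Q + 1)) = Q * w - Q * (ε / (Q + 1)) := by ring
  rw [h6] at h4
  linarith

section

variable {a α β b : ℝ} {χL χL' χR χR' : ℝ → ℝ}

/-- the constraint for the cut Fisher pair -/
theorem fis_cut_adm (hL : Ramp a α χL χL') (hR : Ramp β b χR χR')
    (hαβ : α ≤ β) {q : ℝ → ℝ} (q0 : ℝ) (t : ℝ) :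
    cutC χL χR (fun y => -q y ^ 2) 0 (-(q0 ^ 2)) t +
      cutP χL χR (fun y => 2 * q y) (2 * q0) t ^ 2 / 4 ≤ 0 := by
  have hω1 : 0 ≤ χL t - χR t := by
    rcases le_total t β with h2 | h2
    · rw [hR.left t h2]
      linarith [hL.nonneg t]
    · rw [hL.right t (by show α ≤ t; linarith)]
      linarith [hR.le_one t]
  have hR0 := hR.nonneg t
  have hL1 := hL.le_one t
  have e : cutC χL χR (fun y => -q y ^ 2) 0 (-(q0 ^ 2)) t +
      cutP χL χR (fun y => 2 * q y) (2 * q0) t ^ 2 / 4 =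
      -((χL t - χR t) * χR t * (q t - q0) ^ 2 +
        (1 - χL t) * ((χL t - χR t) * q t ^ 2 + χR t * q0 ^ 2)) := by
    unfold cutC cutP
    ring
  rw [e]
  have h1 : 0 ≤ (χL t - χR t) * χR t * (q t - q0) ^ 2 := by positivity
  have h2 : 0 ≤ (1 - χL t) * ((χL t - χR t) * q t ^ 2 + χR t * q0 ^ 2) :=
    mul_nonneg (by linarith) (by positivity)
  linarith

end

/-- **Sharp cut** for the Fisher type functional. -/
theorem fisGe_cut {m : ℕ} {r : ℝ → ℝ} (hr : IsProf r)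
    {q q' : ℝ → ℝ} {α β : ℝ} (h0 : 0 < α) (hαβ : α < β) (h1 : β < 1)
    (hq : ∀ y ∈ Ioo (0 : ℝ) 1, HasDerivAt q (q' y) y) (hq' : ContinuousOn q' (Ioo 0 1)) :
    FisGe m r (2 * ((∫ y in α..β, (-((m : ℝ) + 1) * q y ^ 2 + 2 * q' y * (1 - y * q y)) * r y ^ m) +
      (2 * q α - α * q α ^ 2) * r α ^ m - ((m : ℝ) + 1) * q β ^ 2 * ∫ y in β..1, r y ^ m)) := by
  intro ε0 hε0
  have hqc : ContinuousOn q (Ioo 0 1) := fun y hy => (hq y hy).continuousAt.continuousWithinAt
  have hc : ∀ y ∈ Ioo (0 : ℝ) 1, HasDerivAt (fun y => -q y ^ 2) (-(2 * q y * q' y)) y := by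
    intro y hy
    have := ((hq y hy).pow 2).neg
    refine this.congr_deriv ?_
    simp
  have hc' : ContinuousOn (fun y => -(2 * q y * q' y)) (Ioo 0 1) :=
    ((continuousOn_const.mul hqc).mul hq').neg
  have hp : ∀ y ∈ Ioo (0 : ℝ) 1, HasDerivAt (fun y => 2 * q y) (2 * q' y) y := fun y hy =>
    (hq y hy).const_mul 2
  have hp' : ContinuousOn (fun y => 2 * q' y) (Ioo 0 1) := continuousOn_const.mul hq'
  obtain ⟨h, hh, hh1, hh2, hv⟩ := cut_value_gen (m := m) hr h0 hαβ h1 hc hc' hp hp'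
    (M := 0) le_rfl (η := q β ^ 2 - 2 * q β) (P := 2 * q β) (by nlinarith [sq_nonneg (q β)])
    (ε := ε0 / 8) (by positivity)
  have hβh : β + h < 1 := by linarith
  have hαh : 0 < α - h := by linarith
  obtain ⟨χL, χL', hL⟩ := exists_ramp (a := α - h) (b := α) (by linarith)
  obtain ⟨χR, χR', hR⟩ := exists_ramp (a := β) (b := β + h) (by linarith)
  have hval := hv χL χL' χR χR' hL hR
  have e0 : -(q β ^ 2 - 2 * q β + 2 * q β) = -(q β ^ 2) := by ring
  rw [e0] at hval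
  have hCd := cutC_deriv hαh hβh hL hR (by linarith) (by linarith) hc hc' 0 (-(q β ^ 2))
  have hPd := cutP_deriv hαh hβh hL hR (by linarith) (by linarith) hp hp' (2 * q β)
  have hnp := fun y (hy : y ≤ (0:ℝ)) => cut_nonpos hαh hL hR (by linarith) (fun y => -q y ^ 2)
    (fun y => -(2 * q y * q' y)) (fun y => 2 * q y) (fun y => 2 * q' y) 0 (-(q β ^ 2)) (2 * q β) hy
  have hadm := fun t => fis_cut_adm hL hR hαβ.le (q := q) (q β) t
  have hCcc : Continuous (cutC χL χR (fun y => -q y ^ 2) 0 (-(q β ^ 2))) :=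
    continuous_iff_continuousAt.2 fun y => (hCd.1 y).continuousAt
  set Cf := cutC χL χR (fun y => -q y ^ 2) 0 (-(q β ^ 2)) with hCf
  set Cf' := cutC' χL χR χL' χR' (fun y => -q y ^ 2) (fun y => -(2 * q y * q' y)) 0
    (-(q β ^ 2)) with hCf'
  set Pf := cutP χL χR (fun y => 2 * q y) (2 * q β) with hPf
  set Pf' := cutP' χL χR χL' χR' (fun y => 2 * q y) (fun y => 2 * q' y) (2 * q β) with hPf'
  refine ⟨fun y => Cf y + Cf (-y), fun y => Cf' y - Cf' (-y), fun y => Pf y - Pf (-y),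
    fun y => Pf' y + Pf' (-y), ⟨?_, ?_, ?_, ?_, ?_⟩, ?_⟩
  · intro y
    have e := ((hCd.1 y).add ((hCd.1 (-y)).comp y (hasDerivAt_neg y)))
    refine e.congr_deriv ?_
    ring
  · exact hCd.2.sub (hCd.2.comp continuous_neg)
  · intro y
    have e := (hPd.1 y).sub ((hPd.1 (-y)).comp y (hasDerivAt_neg y))
    refine e.congr_deriv ?_
    ring
  · exact hPd.2.add (hPd.2.comp continuous_neg)
  · intro a ha
    rcases le_total 0 a with h2 | h2
    · have e := hnp (-a) (by linarith)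
      have := hadm a
      rw [e.1, e.2.2.1]
      simpa using this
    · have e := hnp a h2
      have := hadm (-a)
      rw [e.1, e.2.2.1]
      simpa using this
  -- the value
  set F : ℝ → ℝ := fun y => (((m : ℝ) + 1) * (Cf y + Cf (-y)) + y * (Cf' y - Cf' (-y)) +
    (Pf' y + Pf' (-y))) * r y ^ m with hF
  have hrii := Alm.prof_pow_ii hr m (⟨le_rfl, zero_le_one⟩ : (0 : ℝ) ∈ Icc (0 : ℝ) 1)
    (⟨zero_le_one, le_rfl⟩ : (1 : ℝ) ∈ Icc (0 : ℝ) 1)
  have hFii : IntervalIntegrable F volume 0 1 := by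
    refine hrii.continuousOn_mul ?_
    have i1 := hCcc.comp continuous_neg
    have i2 := hCd.2.comp continuous_neg
    have i3 := hPd.2.comp continuous_neg
    exact (((continuous_const.mul (hCcc.add i1)).add
      (continuous_id.mul (hCd.2.sub i2))).add (hPd.2.add i3)).continuousOn
  have hFe : ∀ y, F (-y) = F y := by
    intro y
    simp only [hF, neg_neg, hr.even]
    ring
  rw [integral_even_eq hFe hFii]
  have hFQ : ∫ y in (0 : ℝ)..1, F y = ∫ y in (0 : ℝ)..1, (((m : ℝ) + 1) * Cf y + y * Cf' y +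
      Pf' y) * r y ^ m := by
    refine intervalIntegral.integral_congr fun y hy => ?_
    rw [uIcc_of_le zero_le_one] at hy
    have e := hnp (-y) (by linarith [hy.1])
    simp only [hF]
    rw [e.1, e.2.1, e.2.2.2]
    ring
  rw [hFQ]
  have hI : ∫ y in α..β, (((m : ℝ) + 1) * (-q y ^ 2) + y * -(2 * q y * q' y) + 2 * q' y) * r y ^ m =
      ∫ y in α..β, (-((m : ℝ) + 1) * q y ^ 2 + 2 * q' y * (1 - y * q y)) * r y ^ m := by
    refine intervalIntegral.integral_congr fun y _ => ?_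
    ring
  rw [hI] at hval
  have e1 : (α * (-q α ^ 2 + 0) + 2 * q α) * r α ^ m = (2 * q α - α * q α ^ 2) * r α ^ m := by ring
  have e2 : (β * (-q β ^ 2 + (q β ^ 2 - 2 * q β) + 2 * q β) + 2 * q β - 2 * q β) * r β ^ m = 0 := by
    ring
  have e3 : ((m : ℝ) + 1) * (q β ^ 2 - 2 * q β + 2 * q β) = ((m : ℝ) + 1) * q β ^ 2 := by ring
  rw [e1, e2, e3] at hval
  linarith

end Vale.Agent.P237.AllN
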