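import Vale.Agent.P237.AllN.FisN
import Vale.Agent.P237.AllN.AssN

/-!
# P237, all dimensions: values of the functionals in the transport chart
-/

open MeasureTheory Metric Set Module Filter Topology

namespace Vale.Agent.P237.AllN

theorem AdmGe.of_forall_lt {m : ℕ} {A : ℝ → ℝ → ℝ} {r : ℝ → ℝ} {w : ℝ}
    (h : ∀ κ > (0 : ℝ), AdmGe m A r (w - κ)) : AdmGe m A r w := by
  intro ε hε
  obtain ⟨c, c', p, p', h1, h2⟩ := h (ε / 2) (by positivity) (ε / 2) (by positivity)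
  exact ⟨c, c', p, p', h1, by linarith⟩

theorem fis_prim_zero {G : ℝ → ℝ} (hG : IntervalIntegrable G volume 0 1) :
    Tendsto (fun x => ∫ t in (0 : ℝ)..x, G t) (𝓝[>] 0) (𝓝 0) := by
  have h := intervalIntegral.continuousOn_primitive_interval' hG (a := 0) left_mem_uIcc
  rw [uIcc_of_le zero_le_one] at h
  have h1 : Tendsto (fun x => ∫ t in (0 : ℝ)..x, G t) (𝓝[Icc 0 1] 0)
      (𝓝 (∫ t in (0 : ℝ)..0, G t)) := h 0 ⟨le_rfl, zero_le_one⟩
  rw [intervalIntegral.integral_same] at h1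
  refine h1.mono_left ?_
  rw [nhdsWithin_le_iff]
  filter_upwards [Ioo_mem_nhdsGT (zero_lt_one' ℝ)] with x hx
  exact ⟨hx.1.le, hx.2.le⟩

theorem fis_prim_one {G : ℝ → ℝ} (hG : IntervalIntegrable G volume 0 1) :
    Tendsto (fun x => ∫ t in x..(1 : ℝ), G t) (𝓝[<] 1) (𝓝 0) := by
  have h := intervalIntegral.continuousOn_primitive_interval' hG (a := 1) right_mem_uIcc
  rw [uIcc_of_le zero_le_one] at h
  have h0 : Tendsto (fun x => ∫ t in (1 : ℝ)..x, G t) (𝓝[Icc 0 1] 1)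
      (𝓝 (∫ t in (1 : ℝ)..1, G t)) := h 1 ⟨zero_le_one, le_rfl⟩
  have h1 := h0.neg
  rw [intervalIntegral.integral_same, neg_zero] at h1
  have h2 : Tendsto (fun x => -∫ t in (1 : ℝ)..x, G t) (𝓝[<] 1) (𝓝 0) := by
    refine h1.mono_left ?_
    rw [nhdsWithin_le_iff]
    filter_upwards [Ioo_mem_nhdsLT (zero_lt_one' ℝ)] with x hx
    exact ⟨hx.1.le, hx.2.le⟩
  refine h2.congr fun x => ?_
  rw [intervalIntegral.integral_symm, neg_neg]

section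

variable {m : ℕ} {r τ τ' T : ℝ → ℝ}

theorem fis_T_cont (hT : IsTrans m r τ τ' T) : ContinuousOn T (Ioo 0 1) := fun y hy =>
  (hT.Tder y hy).continuousAt.continuousWithinAt

theorem fis_inv_cont (hT : IsTrans m r τ τ' T) :
    ContinuousOn (fun y => (τ' (T y))⁻¹) (Ioo 0 1) :=
  (hT.cont.comp (fis_T_cont hT) fun y hy => hT.Tmem y hy).inv₀
    fun y hy => (hT.pos _ (hT.Tmem y hy)).ne'

/-- **Value of an admissible pair in the transport chart.** -/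
theorem admGe_integral (hm1 : 1 ≤ m) {A : ℝ → ℝ → ℝ} (hA : Kern2 A)
    (hr : IsProf r) (hT : IsTrans m r τ τ' T)
    {c c' p p' : ℝ → ℝ}
    (hc : ∀ x ∈ Ioo (0 : ℝ) 1, HasDerivAt c (c' x) x) (hc' : ContinuousOn c' (Ioo 0 1))
    (hp : ∀ x ∈ Ioo (0 : ℝ) 1, HasDerivAt p (p' x) x) (hp' : ContinuousOn p' (Ioo 0 1))
    (hle : ∀ x ∈ Ioo (0 : ℝ) 1, ∀ b ∈ Icc (-1 : ℝ) 1, c x + p x * b ≤ A (τ x) b)
    (hc0 : ∃ C : ℝ, ∀ x ∈ Ioo (0 : ℝ) (1/2), |c x| ≤ C)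
    (hp0 : Tendsto p (𝓝[>] 0) (𝓝 0))
    (hc1 : Tendsto (fun x => sq x ^ (m + 2) * c x) (𝓝[<] 1) (𝓝 0))
    (hI : IntervalIntegrable (fun x => (((m : ℝ) + 1) * c x + (τ x * c' x + p' x) / τ' x) *
      sq x ^ m) volume 0 1) :
    AdmGe m A r (2 * ((∫ t in (0 : ℝ)..1, r t ^ m) / (∫ t in (0 : ℝ)..1, sq t ^ m)) *
      ∫ x in (0 : ℝ)..1, (((m : ℝ) + 1) * c x + (τ x * c' x + p' x) / τ' x) * sq x ^ m) := by
  refine AdmGe.of_forall_lt fun κ' hκ' => ?_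
  obtain ⟨κ, hκ⟩ : ∃ κ : ℝ, κ = κ' / 24 := ⟨_, rfl⟩
  have hκ0 : 0 < κ := by rw [hκ]; positivity
  obtain ⟨M, hM⟩ := hA.bdd
  have hM0 : 0 ≤ M := (abs_nonneg _).trans (hM 0 ⟨by norm_num, by norm_num⟩ 0
    ⟨by norm_num, by norm_num⟩)
  obtain ⟨C1, hC1, hone⟩ := hT.near_one hm1 hr
  have hZr := ass_Zr_pos (m := m) hr
  have hZm := ass_Zm_pos m
  set Zr := ∫ t in (0 : ℝ)..1, r t ^ m with hZrd
  set Zm := ∫ t in (0 : ℝ)..1, sq t ^ m with hZmd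
  set q := Zr / Zm with hq
  have hq0 : 0 < q := by positivity
  set R := r 0 ^ m with hR
  have hR0 : 0 < R := pow_pos (hr.pos 0 ⟨by norm_num, by norm_num⟩) m
  set η := κ / R with hη
  have hη0 : 0 < η := by positivity
  have hηR : η * R = κ := by rw [hη]; field_simp
  obtain ⟨P, hP0, δ1, hδ1, hδ1', hPb⟩ := hA.end_pair hη0
  obtain ⟨δ2, hδ2, hcor⟩ := hA.corner η hη0
  set G : ℝ → ℝ := fun x => (((m : ℝ) + 1) * c x + (τ x * c' x + p' x) / τ' x) * sq x ^ m with hG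
  obtain ⟨α, hα0, hαa, A1, A2, A3, A4⟩ := ass_choose_zero hm1 hr hT hc0 hp0
    (fis_prim_zero hI) q 0 R (((m : ℝ) + 1) * M * R) hM0 (a1 := 1 / 2) (by norm_num) hκ0
  obtain ⟨β, hβb, hβ1, B1, B2, B3, B4, B5, B6⟩ := ass_choose_one hm1 hr hT hc1
    (fis_prim_one hI) q 0 C1 (((m : ℝ) + 1) * (η + P) * R) (b1 := 1 / 2) (by norm_num)
    hκ0 hδ1 hδ2
  have hα01 : α ∈ Ioo (0 : ℝ) 1 := ⟨hα0, by linarith⟩
  have hβ01 : β ∈ Ioo (0 : ℝ) 1 := ⟨by linarith, hβ1⟩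
  have hαβ : α < β := by linarith
  have hτα := hT.mem α hα01
  have hτβ := hT.mem β hβ01
  have hτlt : τ α < τ β := hT.mono hα01 hβ01 hαβ
  have hTα := hT.left α hα01
  have hTβ := hT.left β hβ01
  have hTcont := fis_T_cont hT
  have hinv := fis_inv_cont hT
  have dcy : ∀ y ∈ Ioo (0 : ℝ) 1, HasDerivAt (fun y => c (T y)) (c' (T y) * (τ' (T y))⁻¹) y :=
    fun y hy => (hc _ (hT.Tmem y hy)).comp y (hT.Tder y hy)
  have dpy : ∀ y ∈ Ioo (0 : ℝ) 1, HasDerivAt (fun y => p (T y)) (p' (T y) * (τ' (T y))⁻¹) y :=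
    fun y hy => (hp _ (hT.Tmem y hy)).comp y (hT.Tder y hy)
  have ccy : ContinuousOn (fun y => c' (T y) * (τ' (T y))⁻¹) (Ioo 0 1) :=
    (hc'.comp hTcont fun y hy => hT.Tmem y hy).mul hinv
  have cpy : ContinuousOn (fun y => p' (T y) * (τ' (T y))⁻¹) (Ioo 0 1) :=
    (hp'.comp hTcont fun y hy => hT.Tmem y hy).mul hinv
  have hley : ∀ y ∈ Ioo (0 : ℝ) 1, ∀ b ∈ Icc (-1 : ℝ) 1, c (T y) + p (T y) * b ≤ A y b := by
    intro y hy b hb
    have := hle (T y) (hT.Tmem y hy) b hb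
    rwa [hT.right y hy] at this
  have hPy : ∀ y ∈ Icc (τ β) 1, ∀ b ∈ Icc (-1 : ℝ) 1, -η - P * (1 - b) ≤ A y b := by
    intro y hy b hb
    refine hPb y ⟨?_, hy.2⟩ b hb
    have := (abs_lt.1 B5).2
    linarith [hy.1]
  have hcut := admGe_cut (m := m) hA hr (c := fun y => c (T y))
    (c' := fun y => c' (T y) * (τ' (T y))⁻¹) (p := fun y => p (T y))
    (p' := fun y => p' (T y) * (τ' (T y))⁻¹) hτα.1 hτlt hτβ.2 dcy ccy dpy cpy hley hM0 hM
    hη0.le hP0 hPy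
  refine AdmGe.le hcut ?_
  have hcov := hT.integral hm1 hr (F := fun y => ((m : ℝ) + 1) * c (T y) +
    y * (c' (T y) * (τ' (T y))⁻¹) + p' (T y) * (τ' (T y))⁻¹) (by
      refine ((continuousOn_const.mul fun y hy => ?_).add (continuousOn_id.mul ccy)).add cpy
      exact (dcy y hy).continuousAt.continuousWithinAt) hα0 hαβ.le hβ1
  have hcong : ∫ x in α..β, (((m : ℝ) + 1) * c (T (τ x)) +
      τ x * (c' (T (τ x)) * (τ' (T (τ x)))⁻¹) + p' (T (τ x)) * (τ' (T (τ x)))⁻¹) * sq x ^ m =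
      ∫ x in α..β, G x := by
    apply intervalIntegral.integral_congr
    intro x hx
    rw [uIcc_of_le hαβ.le] at hx
    have hx' : x ∈ Ioo (0 : ℝ) 1 := ⟨hα0.trans_le hx.1, hx.2.trans_lt hβ1⟩
    simp only [hG, hT.left x hx']
    rw [div_eq_mul_inv]
    ring
  rw [hcong] at hcov
  have i0α : IntervalIntegrable G volume 0 α := hI.mono_set (by
    rw [uIcc_of_le hα0.le, uIcc_of_le zero_le_one]
    exact Icc_subset_Icc le_rfl hα01.2.le)
  have iαβ : IntervalIntegrable G volume α β := hI.mono_set (by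
    rw [uIcc_of_le hαβ.le, uIcc_of_le zero_le_one]
    exact Icc_subset_Icc hα0.le hβ1.le)
  have iβ1 : IntervalIntegrable G volume β 1 := hI.mono_set (by
    rw [uIcc_of_le hβ1.le, uIcc_of_le zero_le_one]
    exact Icc_subset_Icc hβ01.1.le le_rfl)
  have hsplit : ∫ x in (0 : ℝ)..1, G x = (∫ x in (0 : ℝ)..α, G x) + (∫ x in α..β, G x) +
      ∫ x in β..1, G x := by
    rw [intervalIntegral.integral_add_adjacent_intervals i0α iαβ,
      intervalIntegral.integral_add_adjacent_intervals (i0α.trans iαβ) iβ1]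
  set J := ∫ x in α..β, G x with hJ
  set I := ∫ y in τ α..τ β, (((m : ℝ) + 1) * c (T y) + y * (c' (T y) * (τ' (T y))⁻¹) +
    p' (T y) * (τ' (T y))⁻¹) * r y ^ m with hI'
  have hIJ : I = q * J := by
    rw [hq, div_mul_eq_mul_div, eq_div_iff hZm.ne', hcov]
    ring
  have hmα : τ α ∈ Icc (0 : ℝ) 1 := ⟨hτα.1.le, hτα.2.le⟩
  have hmβ : τ β ∈ Icc (0 : ℝ) 1 := ⟨hτβ.1.le, hτβ.2.le⟩
  have rα0 : 0 ≤ r (τ α) ^ m := pow_nonneg (Alm.prof_nn hr hmα) m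
  have rαR : r (τ α) ^ m ≤ R := pow_le_pow_left₀ (Alm.prof_nn hr hmα) (Alm.prof_le_zero hr hmα) m
  have rβ0 : 0 ≤ r (τ β) ^ m := pow_nonneg (Alm.prof_nn hr hmβ) m
  have rβR : r (τ β) ^ m ≤ R := pow_le_pow_left₀ (Alm.prof_nn hr hmβ) (Alm.prof_le_zero hr hmβ) m
  have b0 : -κ ≤ (τ α * (c α + M) + p α) * r (τ α) ^ m := by
    have h1 : |(τ α * (c α + M) + p α) * r (τ α) ^ m| ≤ |(τ α * (c α + M) + p α) * R| := by
      rw [abs_mul, abs_mul, abs_of_nonneg rα0, abs_of_nonneg hR0.le]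
      exact mul_le_mul_of_nonneg_left rαR (abs_nonneg _)
    linarith [(abs_le.1 (h1.trans A3.le)).1]
  have b1' : (τ β * (c β + η + P) + p β - P) * r (τ β) ^ m ≤ 2 * κ + κ := by
    have h1 : c β + p β ≤ η := by
      have h2 := hle β hβ01 1 ⟨by norm_num, le_rfl⟩
      have h3 := hcor (τ β) ⟨by linarith [(abs_lt.1 B6).2], hτβ.2.le⟩ 1 ⟨by linarith, le_rfl⟩
      have := (abs_le.1 h3).2
      linarith
    exact ass_bdry hτβ.2.le hη0.le hP0 hηR rβ0 rβR h1 hC1.le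
      (pow_nonneg (ass_sq_nonneg β) (m + 2)) (hone β hβ01).1 B3
  have e0 : ((m : ℝ) + 1) * M * (∫ y in (0 : ℝ)..τ α, r y ^ m) ≤ κ := by
    have h1 := (ass_short (m := m) hr le_rfl hτα.1.le hτα.2.le).2
    rw [sub_zero] at h1
    have h2 := mul_le_mul_of_nonneg_left h1 (by positivity : 0 ≤ ((m : ℝ) + 1) * M)
    have h3 := (abs_lt.1 A4).2
    linarith
  have e1 : ((m : ℝ) + 1) * (η + P) * (∫ y in τ β..1, r y ^ m) ≤ κ := by
    have h1 := (ass_short (m := m) hr hτβ.1.le hτβ.2.le le_rfl).2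
    have h2 := mul_le_mul_of_nonneg_left h1 (by positivity : 0 ≤ ((m : ℝ) + 1) * (η + P))
    have h3 := (abs_lt.1 B4).2
    linarith
  have k1 := (abs_lt.1 A1).2
  have k3 := (abs_lt.1 B1).2
  simp only [hTα, hTβ]
  have hκw : κ' = 24 * κ := by rw [hκ]; ring
  rw [hsplit, hκw]
  have e5 : q * (∫ t in (0 : ℝ)..α, G t) + q * J + q * (∫ t in β..1, G t) =
    q * ((∫ x in (0 : ℝ)..α, G x) + J + ∫ x in β..1, G x) := by ring
  have e6 : 2 * q * ((∫ x in (0 : ℝ)..α, G x) + J + ∫ x in β..1, G x) =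
    2 * (q * ((∫ x in (0 : ℝ)..α, G x) + J + ∫ x in β..1, G x)) := by ring
  rw [e6, ← e5]
  linarith

/-- **Value of the Fisher type functional in the transport chart.** -/
theorem fisGe_integral (hm1 : 1 ≤ m) (hr : IsProf r) (hT : IsTrans m r τ τ' T)
    {q q' : ℝ → ℝ}
    (hq : ∀ x ∈ Ioo (0 : ℝ) 1, HasDerivAt q (q' x) x) (hq' : ContinuousOn q' (Ioo 0 1))
    (hq0 : Tendsto q (𝓝[>] 0) (𝓝 0)) (hq1 : ∃ C : ℝ, ∀ x ∈ Ioo (1/2 : ℝ) 1, |q x| ≤ C)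
    (hI : IntervalIntegrable (fun x => (-((m : ℝ) + 1) * q x ^ 2 +
      2 * (q' x / τ' x) * (1 - τ x * q x)) * sq x ^ m) volume 0 1) :
    FisGe m r (2 * ((∫ t in (0 : ℝ)..1, r t ^ m) / (∫ t in (0 : ℝ)..1, sq t ^ m)) *
      ∫ x in (0 : ℝ)..1, (-((m : ℝ) + 1) * q x ^ 2 +
      2 * (q' x / τ' x) * (1 - τ x * q x)) * sq x ^ m) := by
  refine FisGe.of_forall_lt fun κ' hκ' => ?_
  obtain ⟨κ, hκ⟩ : ∃ κ : ℝ, κ = κ' / 24 := ⟨_, rfl⟩
  have hκ0 : 0 < κ := by rw [hκ]; positivity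
  obtain ⟨C, hC⟩ := hq1
  have hZr := ass_Zr_pos (m := m) hr
  have hZm := ass_Zm_pos m
  set Zr := ∫ t in (0 : ℝ)..1, r t ^ m with hZrd
  set Zm := ∫ t in (0 : ℝ)..1, sq t ^ m with hZmd
  set k := Zr / Zm with hk
  have hk0 : 0 < k := by positivity
  set R := r 0 ^ m with hR
  have hR0 : 0 < R := pow_pos (hr.pos 0 ⟨by norm_num, by norm_num⟩) m
  set G : ℝ → ℝ := fun x => (-((m : ℝ) + 1) * q x ^ 2 +
      2 * (q' x / τ' x) * (1 - τ x * q x)) * sq x ^ m with hG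
  have t1 : Tendsto (fun x => k * ∫ t in (0 : ℝ)..x, G t) (𝓝[>] 0) (𝓝 0) := by
    have := (fis_prim_zero hI).const_mul k
    rwa [mul_zero] at this
  have hτ0 := ass_tau_zero hm1 hr hT
  have t2 : Tendsto (fun x => (2 * q x - τ x * q x ^ 2) * R) (𝓝[>] 0) (𝓝 0) := by
    have := ((hq0.const_mul 2).sub (hτ0.mul (hq0.pow 2))).mul_const R
    simpa using this
  have s1 : Tendsto (fun x => k * ∫ t in x..(1 : ℝ), G t) (𝓝[<] 1) (𝓝 0) := by
    have := (fis_prim_one hI).const_mul k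
    rwa [mul_zero] at this
  have hτ1 := ass_tau_one hm1 hr hT
  have s2 : Tendsto (fun x => ((m : ℝ) + 1) * C ^ 2 * R * (1 - τ x)) (𝓝[<] 1) (𝓝 0) := by
    have := hτ1.const_mul (((m : ℝ) + 1) * C ^ 2 * R)
    rwa [mul_zero] at this
  have hI0 : ∀ᶠ x in 𝓝[>] (0 : ℝ), x ∈ Ioo (0 : ℝ) (1 / 2) := Ioo_mem_nhdsGT (by norm_num)
  have hI1 : ∀ᶠ x in 𝓝[<] (1 : ℝ), x ∈ Ioo (1 / 2 : ℝ) 1 := Ioo_mem_nhdsLT (by norm_num)
  obtain ⟨α, hα, A1, A2⟩ := (hI0.and ((ass_small t1 hκ0).and (ass_small t2 hκ0))).exists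
  obtain ⟨β, hβ, B1, B2⟩ := (hI1.and ((ass_small s1 hκ0).and (ass_small s2 hκ0))).exists
  have hα01 : α ∈ Ioo (0 : ℝ) 1 := ⟨hα.1, by linarith [hα.2]⟩
  have hβ01 : β ∈ Ioo (0 : ℝ) 1 := ⟨by linarith [hβ.1], hβ.2⟩
  have hαβ : α < β := by linarith [hα.2, hβ.1]
  have hτα := hT.mem α hα01
  have hτβ := hT.mem β hβ01
  have hτlt : τ α < τ β := hT.mono hα01 hβ01 hαβ
  have hTα := hT.left α hα01
  have hTβ := hT.left β hβ01
  have hTcont := fis_T_cont hT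
  have hinv := fis_inv_cont hT
  have dqy : ∀ y ∈ Ioo (0 : ℝ) 1, HasDerivAt (fun y => q (T y)) (q' (T y) * (τ' (T y))⁻¹) y :=
    fun y hy => (hq _ (hT.Tmem y hy)).comp y (hT.Tder y hy)
  have cqy : ContinuousOn (fun y => q' (T y) * (τ' (T y))⁻¹) (Ioo 0 1) :=
    (hq'.comp hTcont fun y hy => hT.Tmem y hy).mul hinv
  have hcut := fisGe_cut (m := m) hr (q := fun y => q (T y))
    (q' := fun y => q' (T y) * (τ' (T y))⁻¹) hτα.1 hτlt hτβ.2 dqy cqy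
  refine FisGe.mono hcut ?_
  have qc : ContinuousOn (fun y => q (T y)) (Ioo 0 1) := fun y hy =>
    (dqy y hy).continuousAt.continuousWithinAt
  have hcov := hT.integral hm1 hr (F := fun y => -((m : ℝ) + 1) * q (T y) ^ 2 +
    2 * (q' (T y) * (τ' (T y))⁻¹) * (1 - y * q (T y))) (by
      refine (continuousOn_const.mul (qc.pow 2)).add ((continuousOn_const.mul cqy).mul
        (continuousOn_const.sub (continuousOn_id.mul qc)))) hα01.1 hαβ.le hβ01.2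
  have hcong : ∫ x in α..β, (-((m : ℝ) + 1) * q (T (τ x)) ^ 2 +
    2 * (q' (T (τ x)) * (τ' (T (τ x)))⁻¹) * (1 - τ x * q (T (τ x)))) * sq x ^ m =
      ∫ x in α..β, G x := by
    apply intervalIntegral.integral_congr
    intro x hx
    rw [uIcc_of_le hαβ.le] at hx
    have hx' : x ∈ Ioo (0 : ℝ) 1 := ⟨hα01.1.trans_le hx.1, hx.2.trans_lt hβ01.2⟩
    simp only [hG, hT.left x hx']
    rw [div_eq_mul_inv]
  rw [hcong] at hcov
  have i0α : IntervalIntegrable G volume 0 α := hI.mono_set (by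
    rw [uIcc_of_le hα01.1.le, uIcc_of_le zero_le_one]
    exact Icc_subset_Icc le_rfl hα01.2.le)
  have iαβ : IntervalIntegrable G volume α β := hI.mono_set (by
    rw [uIcc_of_le hαβ.le, uIcc_of_le zero_le_one]
    exact Icc_subset_Icc hα01.1.le hβ01.2.le)
  have iβ1 : IntervalIntegrable G volume β 1 := hI.mono_set (by
    rw [uIcc_of_le hβ01.2.le, uIcc_of_le zero_le_one]
    exact Icc_subset_Icc hβ01.1.le le_rfl)
  have hsplit : ∫ x in (0 : ℝ)..1, G x = (∫ x in (0 : ℝ)..α, G x) + (∫ x in α..β, G x) +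
      ∫ x in β..1, G x := by
    rw [intervalIntegral.integral_add_adjacent_intervals i0α iαβ,
      intervalIntegral.integral_add_adjacent_intervals (i0α.trans iαβ) iβ1]
  set J := ∫ x in α..β, G x with hJ
  set I := ∫ y in τ α..τ β, (-((m : ℝ) + 1) * q (T y) ^ 2 +
    2 * (q' (T y) * (τ' (T y))⁻¹) * (1 - y * q (T y))) * r y ^ m with hI'
  have hIJ : I = k * J := by
    rw [hk, div_mul_eq_mul_div, eq_div_iff hZm.ne', hcov]
    ring
  have hmα : τ α ∈ Icc (0 : ℝ) 1 := ⟨hτα.1.le, hτα.2.le⟩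
  have hmβ : τ β ∈ Icc (0 : ℝ) 1 := ⟨hτβ.1.le, hτβ.2.le⟩
  have rα0 : 0 ≤ r (τ α) ^ m := pow_nonneg (Alm.prof_nn hr hmα) m
  have rαR : r (τ α) ^ m ≤ R := pow_le_pow_left₀ (Alm.prof_nn hr hmα) (Alm.prof_le_zero hr hmα) m
  have b0 : -κ ≤ (2 * q α - τ α * q α ^ 2) * r (τ α) ^ m := by
    have h1 : |(2 * q α - τ α * q α ^ 2) * r (τ α) ^ m| ≤ |(2 * q α - τ α * q α ^ 2) * R| := by
      rw [abs_mul, abs_mul, abs_of_nonneg rα0, abs_of_nonneg hR0.le]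
      exact mul_le_mul_of_nonneg_left rαR (abs_nonneg _)
    linarith [(abs_le.1 (h1.trans A2.le)).1]
  have e1 : ((m : ℝ) + 1) * q β ^ 2 * (∫ y in τ β..1, r y ^ m) ≤ κ := by
    have h1 := ass_short (m := m) hr hτβ.1.le hτβ.2.le le_rfl
    have h2 : q β ^ 2 ≤ C ^ 2 := by
      rw [← sq_abs (q β)]
      exact pow_le_pow_left₀ (abs_nonneg _) (hC β hβ) 2
    have h3 : ((m : ℝ) + 1) * q β ^ 2 * (∫ y in τ β..1, r y ^ m) ≤
        ((m : ℝ) + 1) * C ^ 2 * ((1 - τ β) * R) := by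
      refine mul_le_mul (mul_le_mul_of_nonneg_left h2 (by positivity)) h1.2 h1.1 (by positivity)
    have h4 := (abs_lt.1 B2).2
    linarith
  have k1 := (abs_lt.1 A1).2
  have k3 := (abs_lt.1 B1).2
  simp only [hTα, hTβ]
  have hκw : κ' = 24 * κ := by rw [hκ]; ring
  rw [hsplit, hκw]
  have e5 : k * (∫ t in (0 : ℝ)..α, G t) + k * J + k * (∫ t in β..1, G t) =
    k * ((∫ x in (0 : ℝ)..α, G x) + J + ∫ x in β..1, G x) := by ring
  have e6 : 2 * k * ((∫ x in (0 : ℝ)..α, G x) + J + ∫ x in β..1, G x) =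
    2 * (k * ((∫ x in (0 : ℝ)..α, G x) + J + ∫ x in β..1, G x)) := by ring
  rw [e6, ← e5]
  linarith

end

end Vale.Agent.P237.AllN
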