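import Vale.Agent.P237.AllN.FTest
import Vale.Agent.P237.AllN.FPuE

/-!
# P237, block D, region `l > 0`, `u ≥ 0`, `1/5 ≤ x² ≤ 49/100`: auxiliary inequalities
-/

namespace Vale.Agent.P237.AllN.FX

/-- the `J`-test with a multiplier -/
theorem fx_test {T e ρ u t X κ ν E0 : ℝ} (hν : 0 < ν) (hT : t ≤ T) (hX : e - T ≤ X - t)
    (hX0 : 0 ≤ X) (hκ0 : 0 ≤ κ) (hκ1 : κ ≤ 1) (hκ : X ≤ κ * (ρ + X)) (ht : κ * X + ν ≤ t)
    (hρ : 0 < ρ) (hE : -E0 ≤ e) (hE0 : 0 ≤ E0) (hEρ : E0 ≤ ρ)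
    (h2 : E0 ^ 2 ≤ (t - ν) * (ρ - E0)) : JTest T e ρ u := by
  have hκX : 0 ≤ κ * X := mul_nonneg hκ0 hX0
  refine JTest.of_le (T' := T - ν) hρ (by linarith) ?_ (by linarith) fun _ => by linarith
  rcases le_total 0 e with he | he
  · obtain ⟨τ, hτ⟩ : ∃ τ, τ = T - t := ⟨_, rfl⟩
    have hτ0 : 0 ≤ τ := by linarith
    have heX : e ≤ X + τ := by linarith
    have ha : κ * X + τ ≤ T - ν := by linarith
    have h3 : (κ * X + τ) * (ρ + e) ≤ (T - ν) * (ρ + e) :=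
      mul_le_mul_of_nonneg_right ha (by linarith)
    refine le_trans ?_ h3
    have hρX : (1 - κ) * X ≤ ρ := by nlinarith
    have h4 : 0 ≤ X * (κ * (ρ + X) - X) := mul_nonneg hX0 (by linarith)
    have h5 : 0 ≤ τ * (ρ - (1 - κ) * X) := mul_nonneg hτ0 (by linarith)
    have h6 : (X + τ) ^ 2 ≤ (κ * X + τ) * (ρ + (X + τ)) := by nlinarith
    rcases le_total e (κ * X + τ) with h7 | h7
    · nlinarith [mul_nonneg (by linarith : 0 ≤ κ * X + τ) hρ.le]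
    · have h8 : 0 ≤ (X + τ - e) * ((X + τ) + e - (κ * X + τ)) :=
        mul_nonneg (by linarith) (by linarith)
      nlinarith
  · have h3 : e ^ 2 ≤ E0 ^ 2 := by nlinarith
    have h4 : 0 ≤ t - ν := by linarith
    have h5 : (t - ν) * (ρ - E0) ≤ (T - ν) * (ρ + e) := by
      have h6 : (t - ν) * (ρ - E0) ≤ (t - ν) * (ρ + e) :=
        mul_le_mul_of_nonneg_left (by linarith) h4
      have h7 : (t - ν) * (ρ + e) ≤ (T - ν) * (ρ + e) :=
        mul_le_mul_of_nonneg_right (by linarith) (by linarith)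
      linarith
    linarith

/-- `u - log(1+u) ≤ η W` -/
theorem fx_phi {s u : ℝ} (hs0 : 357 / 500 ≤ s) (hs1 : s ≤ 9 / 10) (hu : 0 ≤ u) (hus : u * s ≤ 1) :
    u - Real.log (1 + u) ≤ (8 / 11 - 4 / 35 * s) * (u ^ 2 / (1 + u)) := by
  refine (log_defect hu).trans ?_
  have h1 : (0 : ℝ) < 6 + 6 * u + u ^ 2 := by positivity
  have h2 : (0 : ℝ) < 1 + u := by positivity
  rw [div_le_iff₀ h1]
  have e : (8 / 11 - 4 / 35 * s) * (u ^ 2 / (1 + u)) * (6 + 6 * u + u ^ 2) =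
      u ^ 2 * ((8 / 11 - 4 / 35 * s) * (6 + 6 * u + u ^ 2) / (1 + u)) := by
    field_simp
  rw [e]
  refine mul_le_mul_of_nonneg_left ?_ (sq_nonneg u)
  rw [le_div_iff₀ h2]
  -- (3+u)(1+u) ≤ η (6+6u+u²)
  have h3 : 0 ≤ u * (1 - u * s) := mul_nonneg hu (by linarith)
  have hη0 : 0 < 8 / 11 - 4 / 35 * s - 1 / 2 := by linarith
  have hs : 0 < s := by linarith
  -- convexity in `u`
  have h4 : (1 - (8 / 11 - 4 / 35 * s)) * (u * (u * s)) ≤ (1 - (8 / 11 - 4 / 35 * s)) * u := by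
    refine mul_le_mul_of_nonneg_left ?_ (by linarith)
    nlinarith
  have h5 : (1 - (8 / 11 - 4 / 35 * s)) + (4 - 6 * (8 / 11 - 4 / 35 * s)) * s +
      (3 - 6 * (8 / 11 - 4 / 35 * s)) * s ^ 2 ≤ 0 := by
    nlinarith [mul_nonneg (by linarith : 0 ≤ s - 357 / 500) (by linarith : 0 ≤ 9 / 10 - s),
      mul_nonneg (mul_nonneg (by linarith : 0 ≤ s - 357 / 500) (by linarith : 0 ≤ 9 / 10 - s)) hs.le]
  have h6 : 0 ≤ (6 * (8 / 11 - 4 / 35 * s) - 3) * (1 - u * s) :=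
    mul_nonneg (by linarith) (by linarith)
  have h7 : s * ((3 + u) * (1 + u)) ≤ s * ((8 / 11 - 4 / 35 * s) * (6 + 6 * u + u ^ 2)) := by
    nlinarith [mul_nonneg hu (by linarith : 0 ≤ -((1 - (8 / 11 - 4 / 35 * s)) +
      (4 - 6 * (8 / 11 - 4 / 35 * s)) * s + (3 - 6 * (8 / 11 - 4 / 35 * s)) * s ^ 2))]
  exact le_of_mul_le_mul_left h7 hs

end Vale.Agent.P237.AllN.FX
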