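import Vale.Agent.P237.AllN.FxSound

/-!
# P237, block D, region `l > 0`, `u ≥ 0`, `1/5 ≤ x² ≤ 49/100`: the families, all `μ = m z`
-/

namespace Vale.Agent.P237.AllN.FX

open PolyPos

theorem fx_quad {a b c δ ν μ : ℝ} (hc : 0 ≤ c) (hδ : 0 < δ)
    (h0 : 0 ≤ a * (δ * δ) + b * (ν * δ) + c * (ν * ν)) (h1 : 0 ≤ b * δ + 2 * c * ν)
    (hμ : ν ≤ δ * μ) : 0 ≤ a + b * μ + c * μ ^ 2 := by
  have h2 : 0 ≤ (δ * μ - ν) * (b * δ + 2 * c * ν) := mul_nonneg (by linarith) h1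
  have h3 : 0 ≤ c * (δ * μ - ν) ^ 2 := mul_nonneg hc (sq_nonneg _)
  have h4 : 0 ≤ δ ^ 2 * (a + b * μ + c * μ ^ 2) := by nlinarith
  exact nonneg_of_mul_nonneg_right (by linarith) (by positivity : (0 : ℝ) < δ ^ 2)

theorem fx_pos {a b : ℝ} (ha : 0 < a) (h : 0 ≤ a * b) : 0 ≤ b :=
  nonneg_of_mul_nonneg_right h ha

variable {s z w E F D κ η Cd : ℝ} {n d : Ex}

theorem famK_out (hS : fxS.R s E = w) (hZ : fxZ.R s E = z) (hK : fxK.R s E = κ)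
    (hH : fxH.R s E = η) (hE : 0 < E) (hs : 0 < s) (hw : 0 < w) (hκ : 0 ≤ κ)
    (hd : 0 < d.R s E) {μ : ℝ} (hμ : n.R s E ≤ d.R s E * μ)
    (h0 : 0 ≤ (fq fxK0 fxK1 fxK2 n d).R s E) (h1 : 0 ≤ (fsl fxK1 fxK2 n d).R s E) :
    0 ≤ hKA κ z w s η E (lamU E) + hKB κ z w E (lamU E) * μ + hKC κ w * μ ^ 2 := by
  obtain ⟨k0, k1, k2⟩ := K_R hS hZ hK hH hE hs hw
  have hY := (Y_R (s := s) hE).1
  simp only [fq, fsl, Ex.R_add, Ex.R_mul, Ex.R_c, Fr.R, k0, k1, k2] at h0 h1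
  push_cast at h0 h1
  have hp : 0 < fxY.R s E * (w ^ 2 * (1 + s)) := by positivity
  refine fx_quad (δ := d.R s E) (ν := n.R s E) ?_ hd ?_ ?_ hμ
  · unfold hKC; positivity
  · refine fx_pos hp (h0.trans (le_of_eq ?_))
    ring
  · refine fx_pos hp (h1.trans (le_of_eq ?_))
    ring

theorem famL_out (hS : fxS.R s E = w) (hZ : fxZ.R s E = z) (hD : fxD.R s E = D)
    (hK : fxK.R s E = κ) (hH : fxH.R s E = η) (hG : fxG.R s E = Cd) (hF : E * F = 1)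
    (hE : 0 < E) (hs : 0 < s) (hw : 0 < w) (hsw : s * s = w) (hCd : 0 < Cd) (hκ : 0 ≤ κ)
    (hd : 0 < d.R s E) {μ : ℝ} (hμ : n.R s E ≤ d.R s E * μ)
    (h : ∀ P ∈ famL n d, 0 ≤ P.R s E) :
    0 ≤ hKA κ z w s η E (lamU E) + hKB κ z w E (lamU E) * μ + hKC κ w * μ ^ 2 ∧
    0 ≤ hLA κ z w s E F η D Cd (lamL E) + hLB κ z w s E F (lamL E) * μ +
      hC2 w * lamL E ^ 2 * μ ^ 2 ∧
    0 ≤ hLA κ z w s E F η D Cd (lamL E) - (28 / 13 * (η / s) - hAl z w s E D) / (s * (1 + s)) +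
      hLB κ z w s E F (lamL E) * μ + hC2 w * lamL E ^ 2 * μ ^ 2 := by
  simp only [famL, List.mem_cons, List.not_mem_nil, or_false, forall_eq_or_imp, forall_eq] at h
  obtain ⟨h0, h1, h2, h3, h4⟩ := h
  refine ⟨famK_out hS hZ hK hH hE hs hw hκ hd hμ h0 h1, ?_, ?_⟩
  · simp only [fq, fsl, Ex.R_add, Ex.R_sub, Ex.R_mul, Ex.R_c, Fr.R,
      L0_R hS hZ hK hH hF hE hs hw, L1_R hS hZ hK hF hE hs hw, L2_R hS hE hw,
      R_R hS hZ hD hs hCd.ne', hG] at h2 h4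
    push_cast at h2 h4
    have hL := (L_R (s := s) hE).1
    have hp : 0 < E ^ 6 * (w ^ 2 * s * (1 + s) ^ 2) * fxL.R s E ^ 2 := by positivity
    refine fx_quad (δ := d.R s E) (ν := n.R s E) ?_ hd ?_ ?_ hμ
    · unfold hC2; positivity
    · refine fx_pos (mul_pos hp hCd) (h2.trans (le_of_eq ?_))
      unfold hLA
      ring
    · refine fx_pos hp (h4.trans (le_of_eq ?_))
      ring
  · simp only [fq, fsl, Ex.R_add, Ex.R_sub, Ex.R_mul, Ex.R_c, Fr.R,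
      L0_R hS hZ hK hH hF hE hs hw, L1_R hS hZ hK hF hE hs hw, L2_R hS hE hw,
      R_R hS hZ hD hs hCd.ne', F_R hS hZ hD hH hE hs hw hsw hG, hG] at h3 h4
    push_cast at h3 h4
    have hL := (L_R (s := s) hE).1
    have hp : 0 < E ^ 6 * (w ^ 2 * s * (1 + s) ^ 2) * fxL.R s E ^ 2 := by positivity
    refine fx_quad (δ := d.R s E) (ν := n.R s E) ?_ hd ?_ ?_ hμ
    · unfold hC2; positivity
    · refine fx_pos (mul_pos hp hCd) (h3.trans (le_of_eq ?_))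
      unfold hLA
      ring
    · refine fx_pos hp (h4.trans (le_of_eq ?_))
      ring

theorem famN_out (hS : fxS.R s E = w) (hZ : fxZ.R s E = z) (hD : fxD.R s E = D)
    (hK : fxK.R s E = κ) (hH : fxH.R s E = η) (hG : fxG.R s E = Cd) (hF : E * F = 1)
    (hE : 0 < E) (hs : 0 < s) (hw : 0 < w) (hCd : 0 < Cd) (hκ : 0 ≤ κ)
    (hd : 0 < d.R s E) {μ : ℝ} (hμ : n.R s E ≤ d.R s E * μ)
    (h : ∀ P ∈ famN n d, 0 ≤ P.R s E) :
    0 ≤ hKA κ z w s η E (lamU E) + hKB κ z w E (lamU E) * μ + hKC κ w * μ ^ 2 ∧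
    0 ≤ hNA κ z w s E F η D Cd (lamL E) (fxM.R s E) (fxM0.R s E) +
      hNB κ z w s E F (lamL E) (fxM.R s E) (fxM0.R s E) (fxM1.R s E) * μ +
      hNC w (lamL E) (fxM.R s E) (fxM1.R s E) * μ ^ 2 ∧
    0 ≤ hNA κ z w s E F η D Cd (lamL E) (fxM.R s E) (fxM0.R s E) -
        (28 / 13 * (η / s) - hAl z w s E D) / (1 + s) * fxM0.R s E +
      (hNB κ z w s E F (lamL E) (fxM.R s E) (fxM0.R s E) (fxM1.R s E) -
        (28 / 13 * (η / s) - hAl z w s E D) / (1 + s) * fxM1.R s E) * μ +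
      hNC w (lamL E) (fxM.R s E) (fxM1.R s E) * μ ^ 2 := by
  simp only [famN, List.mem_cons, List.not_mem_nil, or_false, forall_eq_or_imp, forall_eq] at h
  obtain ⟨h0, h1, h2, h3, h4, h5, h6⟩ := h
  obtain ⟨o0, o1⟩ := O_R hS hZ hD hH hE hs hw
  have hL := (L_R (s := s) hE).1
  have hp : 0 < E ^ 6 * (w ^ 2 * s * (1 + s) ^ 2) * fxL.R s E ^ 2 := by positivity
  have hc : 0 ≤ hNC w (lamL E) (fxM.R s E) (fxM1.R s E) := by
    rw [N2_R hS hE hw] at h6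
    exact fx_pos hp h6
  refine ⟨famK_out hS hZ hK hH hE hs hw hκ hd hμ h0 h1, ?_, ?_⟩
  · simp only [fq, fsl, Ex.R_add, Ex.R_sub, Ex.R_mul, Ex.R_c, Fr.R,
      N0_R hS hZ hK hH hF hE hs hw, N1_R hS hZ hK hF hE hs hw, N2_R hS hE hw,
      R_R hS hZ hD hs hCd.ne', hG] at h2 h4
    push_cast at h2 h4
    refine fx_quad (δ := d.R s E) (ν := n.R s E) hc hd ?_ ?_ hμ
    · refine fx_pos (mul_pos hp hCd) (h2.trans (le_of_eq ?_))
      unfold hNA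
      ring
    · refine fx_pos hp (h4.trans (le_of_eq ?_))
      ring
  · simp only [fq, fsl, Ex.R_add, Ex.R_sub, Ex.R_mul, Ex.R_c, Fr.R,
      N0_R hS hZ hK hH hF hE hs hw, N1_R hS hZ hK hF hE hs hw, N2_R hS hE hw,
      R_R hS hZ hD hs hCd.ne', hG, o0, o1] at h3 h5
    push_cast at h3 h5
    refine fx_quad (δ := d.R s E) (ν := n.R s E) hc hd ?_ ?_ hμ
    · refine fx_pos (mul_pos hp hCd) (h3.trans (le_of_eq ?_))
      unfold hNA
      ring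
    · refine fx_pos hp (h5.trans (le_of_eq ?_))
      ring

end Vale.Agent.P237.AllN.FX
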