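import Vale.Agent.P237.AllN.FxMain

/-!
# P237, block D, region `17/100 ≤ l`, `u ≥ 0`, `1/5 ≤ x² ≤ 49/100`, `m x² ≥ 9`: the test
-/

namespace Vale.Agent.P237.AllN.FX

open PolyPos

/-- `W ≤ u/(1+s)` etc. -/
theorem fx_W {s u : ℝ} (hs : 0 < s) (hu : 0 ≤ u) (hus : u * s ≤ 1) :
    0 ≤ u ^ 2 / (1 + u) ∧ u ^ 2 / (1 + u) ≤ u / (1 + s) ∧ u ^ 2 / (1 + u) ≤ 1 / (s * (1 + s)) := by
  have h1 : (0 : ℝ) < 1 + u := by linarith
  refine ⟨by positivity, ?_, ?_⟩
  · rw [div_le_div_iff₀ h1 (by linarith)]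
    nlinarith [mul_nonneg hu (by linarith : 0 ≤ 1 - u * s)]
  · rw [div_le_div_iff₀ h1 (by positivity)]
    nlinarith [mul_nonneg hu (by linarith : 0 ≤ 1 - u * s),
      mul_nonneg (mul_nonneg hu hs.le) (by linarith : 0 ≤ 1 - u * s)]

/-- `T` without its `W`- and `N`-parts -/
theorem fx_lower0 {m z s l u G N E F κ η μ : ℝ} (hs : 0 < s) (hsz : s ^ 2 = 1 - z) (hz1 : z < 1)
    (hEd : E = Real.exp (-(2 * l))) (hFd : F = Real.exp (2 * l)) (hμd : μ = m * z)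
    (hG : z / (s * (1 + s) ^ 2) * (2 * l) - 2 * s * z * (1 - E) /
      ((1 + s) * (2 * (1 - z) * (1 + s) * E - z * (1 - E) * (1 + 2 * s))) ≤ G) :
    hH κ z (1 - z) s E F η (1 - E) (2 * (1 - z) * (1 + s) * E - z * (1 - E) * (1 + 2 * s)) μ
      (2 * l) u + κ * ((μ + 3 * z) * (E - 1 + 2 * l) + (2 - 2 * (1 - z) * s) / s * u +
        191 / 1000 * η / ((1 - z) * (1 + s))) + 1 / 50 * (2 * l) ^ 2 ≤
      dpT m z s l u G N - ((4 / s - 4 * s / (1 + s) - 2 * s ^ 2 - 6 * (z / s ^ 3) * l +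
      ksC z s l + 4 * s ^ 2 * E) * (u ^ 2 / (1 + u)) + 2 * (m + 1) / ((m - 1) * s) * N) := by
  rw [fx_T_eq hs hsz hz1, ← hEd, ← hFd, ← hμd]
  unfold hH
  rw [hA0_κ, hA1_κ, hB0_κ, hB1_κ]
  generalize hA0 0 z (1 - z) E F = a0
  generalize hA1 0 z E F = a1
  generalize hB0 0 z (1 - z) s = b0
  generalize hB1 0 z = b1
  generalize hC0 z (1 - z) s = c0
  generalize hC1 z (1 - z) s = c1
  generalize hC2 (1 - z) = c2
  generalize 2 * (m + 1) / ((m - 1) * s) * N = n at *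
  generalize 191 / 1000 * η / ((1 - z) * (1 + s)) = p at *
  generalize (2 - 2 * (1 - z) * s) / s = q at *
  generalize (4 / s - 4 * s / (1 + s) - 2 * s ^ 2 - 6 * (z / s ^ 3) * l +
      ksC z s l + 4 * s ^ 2 * E) * (u ^ 2 / (1 + u)) = AW at *
  generalize z / (s * (1 + s) ^ 2) = g at *
  generalize 2 * s * z * (1 - E) /
      ((1 + s) * (2 * (1 - z) * (1 + s) * E - z * (1 - E) * (1 + 2 * s))) = k at *
  linarith

/-- the `W`- and `N`-parts -/
theorem fx_wn {m z s l u N E η : ℝ} (hm : 27 ≤ m) (hs0 : 357 / 500 ≤ s) (hs1 : s ≤ 9 / 10)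
    (hη : η = 8 / 11 - 4 / 35 * s) (hu : 0 ≤ u) (hus : u * s ≤ 1)
    (hN : Real.log (1 + u) - u ≤ N)
    (hA : hAl z (1 - z) s E (1 - E) ≤
      4 / s - 4 * s / (1 + s) - 2 * s ^ 2 - 6 * (z / s ^ 3) * l + ksC z s l + 4 * s ^ 2 * E) :
    -(max (hDef z (1 - z) s E η (1 - E)) 0 / (1 + s) * u) ≤
      (4 / s - 4 * s / (1 + s) - 2 * s ^ 2 - 6 * (z / s ^ 3) * l +
      ksC z s l + 4 * s ^ 2 * E) * (u ^ 2 / (1 + u)) + 2 * (m + 1) / ((m - 1) * s) * N := by
  have hs : 0 < s := by linarith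
  obtain ⟨w0, w1, -⟩ := fx_W hs hu hus
  have hphi := fx_phi hs0 hs1 hu hus
  rw [← hη] at hphi
  set A := 4 / s - 4 * s / (1 + s) - 2 * s ^ 2 - 6 * (z / s ^ 3) * l + ksC z s l + 4 * s ^ 2 * E
    with hAdef
  set W := u ^ 2 / (1 + u) with hW
  have hη0 : 0 < η := by rw [hη]; linarith
  have hκs0 : 0 < 2 * (m + 1) / ((m - 1) * s) := div_pos (by linarith) (mul_pos (by linarith) hs)
  have hκs : 2 * (m + 1) / ((m - 1) * s) ≤ 28 / 13 * (1 / s) := by
    rw [div_le_iff₀ (mul_pos (by linarith) hs)]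
    have : 28 / 13 * (1 / s) * ((m - 1) * s) = 28 / 13 * (m - 1) := by field_simp
    rw [this]
    linarith
  have h1 : -(28 / 13 * (η / s) * W) ≤ 2 * (m + 1) / ((m - 1) * s) * N := by
    have h2 : -(η * W) ≤ N := by linarith
    have h3 : 2 * (m + 1) / ((m - 1) * s) * (-(η * W)) ≤ 2 * (m + 1) / ((m - 1) * s) * N :=
      mul_le_mul_of_nonneg_left h2 hκs0.le
    have h4 : 2 * (m + 1) / ((m - 1) * s) * (η * W) ≤ 28 / 13 * (1 / s) * (η * W) :=
      mul_le_mul_of_nonneg_right hκs (by positivity)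
    have h5 : 28 / 13 * (1 / s) * (η * W) = 28 / 13 * (η / s) * W := by ring
    linarith
  have h3 : hDef z (1 - z) s E η (1 - E) * W ≤ max (hDef z (1 - z) s E η (1 - E)) 0 * W :=
    mul_le_mul_of_nonneg_right (le_max_left _ _) w0
  have h4 : max (hDef z (1 - z) s E η (1 - E)) 0 * W ≤
      max (hDef z (1 - z) s E η (1 - E)) 0 * (u / (1 + s)) :=
    mul_le_mul_of_nonneg_left w1 (le_max_right _ _)
  have h5 : hAl z (1 - z) s E (1 - E) * W ≤ A * W := mul_le_mul_of_nonneg_right hA w0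
  have h6 : hDef z (1 - z) s E η (1 - E) * W =
      28 / 13 * (η / s) * W - hAl z (1 - z) s E (1 - E) * W := by unfold hDef; ring
  have h7 : max (hDef z (1 - z) s E η (1 - E)) 0 * (u / (1 + s)) =
      max (hDef z (1 - z) s E η (1 - E)) 0 / (1 + s) * u := by ring
  linarith

/-- upper bound of `e - T` -/
theorem fx_upper {m z s l u c G N E η μ t : ℝ} (hm : 27 ≤ m) (hs0 : 357 / 500 ≤ s)
    (hs1 : s ≤ 9 / 10) (hsz : s ^ 2 = 1 - z) (hz : 0 < z) (hz1 : z < 1)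
    (hmz : 9 ≤ m * z) (hl : 0 ≤ l)
    (hEd : E = Real.exp (-(2 * l))) (hμd : μ = m * z)
    (hη : η = 8 / 11 - 4 / 35 * s) (hu : 0 ≤ u) (hus : u * s ≤ 1)
    (hc0 : 1 - 1 / (2 * m) ≤ c) (hc1 : c ≤ 1) (hc2 : c ^ 2 ≤ (m + 1) / (m + 2))
    (hN : Real.log (1 + u) - u ≤ N)
    (hA : 0 ≤ 4 / s - 4 * s / (1 + s) - 2 * s ^ 2 - 6 * (z / s ^ 3) * l + ksC z s l)
    (ht : t ≤ dpT m z s l u G N - ((4 / s - 4 * s / (1 + s) - 2 * s ^ 2 - 6 * (z / s ^ 3) * l +
      ksC z s l + 4 * s ^ 2 * E) * (u ^ 2 / (1 + u)) + 2 * (m + 1) / ((m - 1) * s) * N)) :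
    dpE m z s l u c N - dpT m z s l u G N ≤
      ((μ + 3 * z) * (E - 1 + 2 * l) + (2 - 2 * (1 - z) * s) / s * u +
        191 / 1000 * η / ((1 - z) * (1 + s))) - t := by
  have hs : 0 < s := by linarith
  have hw : 0 < 1 - z := by linarith
  obtain ⟨w0, -, w2⟩ := fx_W hs hu hus
  obtain ⟨-, hr⟩ := fx_r hm hz hs0 hsz hmz hc0 hc1 hc2
  have hphi := fx_phi hs0 hs1 hu hus
  rw [← hη] at hphi
  have hη0 : 0 < η := by rw [hη]; linarith
  have hm0 : 0 < m := by linarith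
  set A := 4 / s - 4 * s / (1 + s) - 2 * s ^ 2 - 6 * (z / s ^ 3) * l + ksC z s l with hAdef
  set W := u ^ 2 / (1 + u) with hW
  have hAW : 0 ≤ A * W := mul_nonneg hA w0
  have hκ1 : 2 * c / s ≤ 2 * (m + 1) / ((m - 1) * s) := by
    rw [div_le_div_iff₀ hs (mul_pos (by linarith) hs)]
    have : 2 * c * (m - 1) ≤ 2 * (m + 1) := by nlinarith
    nlinarith
  have hκ2 : 2 * (m + 1) / ((m - 1) * s) - 2 * c / s ≤ 191 / 1000 * (1 / s) := by
    have h1 : 2 * (m + 1) / ((m - 1) * s) = (2 + 4 / (m - 1)) * (1 / s) := by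
      have : m - 1 ≠ 0 := by linarith
      field_simp
      ring
    have h2 : 4 / (m - 1) ≤ 2 / 13 := by
      rw [div_le_div_iff₀ (by linarith) (by norm_num)]
      linarith
    have h3 : 1 / (2 * m) ≤ 1 / 54 := by
      rw [div_le_div_iff₀ (by positivity) (by norm_num)]
      linarith
    have h4 : 2 * c / s = 2 * c * (1 / s) := by ring
    rw [h1, h4, ← sub_mul]
    exact mul_le_mul_of_nonneg_right (by linarith) (by positivity)
  have h1 : -((2 * (m + 1) / ((m - 1) * s) - 2 * c / s) * N) ≤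
      191 / 1000 * η / ((1 - z) * (1 + s)) := by
    have h2 : -(η * W) ≤ N := by linarith
    have h3 := mul_le_mul_of_nonneg_left h2 (by linarith : 0 ≤ 2 * (m + 1) / ((m - 1) * s) - 2 * c / s)
    have h4 : (2 * (m + 1) / ((m - 1) * s) - 2 * c / s) * (η * W) ≤
        191 / 1000 * (1 / s) * (η * (1 / (s * (1 + s)))) :=
      mul_le_mul hκ2 (mul_le_mul_of_nonneg_left w2 hη0.le) (by positivity) (by positivity)
    have h5 : 191 / 1000 * (1 / s) * (η * (1 / (s * (1 + s)))) =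
        191 / 1000 * η / ((1 - z) * (1 + s)) := by
      rw [← hsz]
      field_simp
    linarith
  have h2 : (2 * c / s - 2 * s ^ 2 + 2 * (1 - c)) * u ≤ (2 - 2 * (1 - z) * s) / s * u := by
    refine mul_le_mul_of_nonneg_right ?_ hu
    have h3 : 2 * c / s - 2 * s ^ 2 + 2 * (1 - c) = (2 * c - 2 * s ^ 2 * s + 2 * (1 - c) * s) / s := by
      field_simp
    rw [h3, ← hsz]
    refine div_le_div_of_nonneg_right ?_ hs.le
    nlinarith [mul_nonneg (by linarith : 0 ≤ 1 - c) (by linarith : 0 ≤ 1 - s)]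
  have h3 := mul_nonpos_of_nonpos_of_nonneg hr hl
  unfold dpE
  rw [← hEd]
  have e1 : (m + 3) * z * (E - 1 + 2 * l) = (μ + 3 * z) * (E - 1 + 2 * l) := by rw [hμd]; ring
  have e2 : (A + 4 * s ^ 2 * E) * W = A * W + 4 * s ^ 2 * E * W := by ring
  rw [e2] at ht
  generalize dpT m z s l u G N = T at *
  generalize 191 / 1000 * η / ((1 - z) * (1 + s)) = p at *
  generalize (2 - 2 * (1 - z) * s) / s * u = q at *
  rw [e1]
  linarith

/-- lower bound of `e` -/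
theorem fx_e_ge {m z s l u c N : ℝ} (hm : 27 ≤ m) (hs0 : 357 / 500 ≤ s) (hs1 : s ≤ 9 / 10)
    (hsz : s ^ 2 = 1 - z) (hz : 0 < z) (hmz : 9 ≤ m * z) (hl : 0 ≤ l)
    (hzE : z ≤ Real.exp (-(2 * l))) (hu : 0 ≤ u) (hus : u * s ≤ 1)
    (hc0 : 1 - 1 / (2 * m) ≤ c) (hc1 : c ≤ 1) (hc2 : c ^ 2 ≤ (m + 1) / (m + 2))
    (hN : Real.log (1 + u) - u ≤ N) : -(l / 5) ≤ dpE m z s l u c N := by
  have hs : 0 < s := by linarith
  have hm0 : 0 < m := by linarith
  have hs9 : s < 1 := by linarith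
  obtain ⟨w0, w1, -⟩ := fx_W hs hu hus
  obtain ⟨hr, -⟩ := fx_r hm hz hs0 hsz hmz hc0 hc1 hc2
  have hphi := fx_phi hs0 hs1 hu hus
  have hα : 0 ≤ Real.exp (-(2 * l)) - 1 + 2 * l := by
    have := Real.add_one_le_exp (-(2 * l))
    linarith
  have hc3 : 53 / 54 ≤ c := by
    have : 1 / (2 * m) ≤ 1 / 54 := by
      rw [div_le_div_iff₀ (by positivity) (by norm_num)]
      linarith
    linarith
  set W := u ^ 2 / (1 + u) with hW
  set E := Real.exp (-(2 * l)) with hE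
  have h1 : 0 ≤ (m + 3) * z * (E - 1 + 2 * l) := mul_nonneg (by positivity) hα
  have h2 := mul_le_mul_of_nonneg_right hr hl
  have hη0 : 0 < 8 / 11 - 4 / 35 * s := by linarith
  have h3 : -(2 / s * ((8 / 11 - 4 / 35 * s) * W)) ≤ 2 * c / s * N := by
    have h4 : -((8 / 11 - 4 / 35 * s) * W) ≤ N := by linarith
    have h5 := mul_le_mul_of_nonneg_left h4 (by positivity : 0 ≤ 2 * c / s)
    have h6 : 2 * c / s ≤ 2 / s := div_le_div_of_nonneg_right (by linarith) hs.le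
    have h7 : 2 * c / s * ((8 / 11 - 4 / 35 * s) * W) ≤ 2 / s * ((8 / 11 - 4 / 35 * s) * W) :=
      mul_le_mul_of_nonneg_right h6 (by positivity)
    linarith
  have h4 : 4 * s ^ 2 * z * W ≤ 4 * s ^ 2 * E * W :=
    mul_le_mul_of_nonneg_right (mul_le_mul_of_nonneg_left hzE (by positivity)) w0
  have h5 : (2 * z + 53 / 27 * ((1 - s) / s)) * u ≤ (2 * c / s - 2 * s ^ 2 + 2 * (1 - c)) * u := by
    refine mul_le_mul_of_nonneg_right ?_ hu
    have h6 : 2 * c / s - 2 * s ^ 2 + 2 * (1 - c) = 2 * z + 2 * c * ((1 - s) / s) := by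
      rw [show z = 1 - s ^ 2 by linarith]
      field_simp
      ring
    rw [h6]
    have : 53 / 27 * ((1 - s) / s) ≤ 2 * c * ((1 - s) / s) :=
      mul_le_mul_of_nonneg_right (by linarith) (div_nonneg (by linarith) hs.le)
    linarith
  have h6 : (2 / s * (8 / 11 - 4 / 35 * s) - 4 * s ^ 2 * z) * W ≤
      (2 * z + 53 / 27 * ((1 - s) / s)) * u := by
    have h7 : 2 / s * (8 / 11 - 4 / 35 * s) - 4 * s ^ 2 * z ≤
        (2 * z + 53 / 27 * ((1 - s) / s)) * (1 + s) := by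
      have e1 : 2 / s * (8 / 11 - 4 / 35 * s) - 4 * s ^ 2 * z =
          (2 * (8 / 11 - 4 / 35 * s) - 4 * s ^ 3 * (1 - s ^ 2)) / s := by
        rw [show z = 1 - s ^ 2 by linarith]
        field_simp
      have e2 : (2 * z + 53 / 27 * ((1 - s) / s)) * (1 + s) =
          ((2 * (1 - s ^ 2) * s + 53 / 27 * (1 - s)) * (1 + s)) / s := by
        rw [show z = 1 - s ^ 2 by linarith]
        field_simp
      rw [e1, e2]
      refine div_le_div_of_nonneg_right ?_ hs.le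
      nlinarith [mul_nonneg (by linarith : 0 ≤ s - 357 / 500) (by linarith : 0 ≤ 9 / 10 - s),
        mul_nonneg (mul_nonneg (by linarith : 0 ≤ s - 357 / 500) (by linarith : 0 ≤ 9 / 10 - s))
          hs.le, mul_nonneg (mul_nonneg (mul_nonneg (by linarith : 0 ≤ s - 357 / 500)
          (by linarith : 0 ≤ 9 / 10 - s)) hs.le) hs.le,
        mul_nonneg (mul_nonneg (mul_nonneg (mul_nonneg (by linarith : 0 ≤ s - 357 / 500)
          (by linarith : 0 ≤ 9 / 10 - s)) hs.le) hs.le) hs.le]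
    have h8 := mul_le_mul_of_nonneg_right h7 w0
    have h9 : (1 + s) * W ≤ u := by
      have := mul_le_mul_of_nonneg_left w1 (by linarith : 0 ≤ 1 + s)
      rwa [mul_div_cancel₀ _ (by linarith : (1 + s) ≠ 0)] at this
    have h10 : 0 ≤ 2 * z + 53 / 27 * ((1 - s) / s) := by
      have : 0 ≤ (1 - s) / s := div_nonneg (by linarith) hs.le
      linarith
    have h11 := mul_le_mul_of_nonneg_left h9 h10
    linarith
  unfold dpE
  rw [← hE, ← hW]
  linarith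

end Vale.Agent.P237.AllN.FX
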