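import Vale.Agent.P237.AllN.FxReal
import Vale.Agent.P237.AllN.FKs2
import Vale.Agent.P237.AllN.FTest

/-!
# P237, block D, region `l > 0`, `u ≥ 0`, `1/5 ≤ x² ≤ 49/100`: `T` in terms of the coefficients
-/

namespace Vale.Agent.P237.AllN.FX

open PolyPos

theorem fx_exps (l : ℝ) :
    Real.exp (-(4 * l)) = Real.exp (-(2 * l)) ^ 2 ∧ Real.exp (-(6 * l)) = Real.exp (-(2 * l)) ^ 3 ∧
    Real.exp (-(8 * l)) = Real.exp (-(2 * l)) ^ 4 ∧ Real.exp (-(10 * l)) = Real.exp (-(2 * l)) ^ 5 ∧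
    Real.exp (-(12 * l)) = Real.exp (-(2 * l)) ^ 6 ∧
    Real.exp (4 * l) = Real.exp (2 * l) ^ 2 ∧ Real.exp (6 * l) = Real.exp (2 * l) ^ 3 ∧
    Real.exp (8 * l) = Real.exp (2 * l) ^ 4 ∧ Real.exp (10 * l) = Real.exp (2 * l) ^ 5 ∧
    Real.exp (12 * l) = Real.exp (2 * l) ^ 6 := by
  refine ⟨?_, ?_, ?_, ?_, ?_, ?_, ?_, ?_, ?_, ?_⟩ <;> rw [← Real.exp_nat_mul] <;> congr 1 <;>
    push_cast <;> ring

/-- `T` in terms of the coefficient functions -/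
theorem fx_T_eq {m z s l u G N : ℝ} (hs : 0 < s) (hsz : s ^ 2 = 1 - z) (hz1 : z < 1) :
    dpT m z s l u G N =
      hA0 0 z (1 - z) (Real.exp (-(2 * l))) (Real.exp (2 * l)) +
      hA1 0 z (Real.exp (-(2 * l))) (Real.exp (2 * l)) * (m * z) +
      (hB0 0 z (1 - z) s - z / (s * (1 + s) ^ 2) + hB1 0 z * (m * z)) * (2 * l) +
      (hC0 z (1 - z) s + 1 / 50 + hC1 z (1 - z) s * (m * z) + hC2 (1 - z) * (m * z) ^ 2) *
        (2 * l) ^ 2 -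
      3 / 25 * (m * z + 3 * z) * (2 * l) * u +
      (4 / s - 4 * s / (1 + s) - 2 * s ^ 2 - 6 * (z / s ^ 3) * l + ksC z s l +
        4 * s ^ 2 * Real.exp (-(2 * l))) * (u ^ 2 / (1 + u)) +
      G + 2 * (m + 1) / ((m - 1) * s) * N := by
  obtain ⟨e2, e3, e4, e5, e6, f2, f3, f4, f5, f6⟩ := fx_exps l
  have hw : (0 : ℝ) < 1 - z := by linarith
  have h5 : s ^ 5 = (1 - z) ^ 2 * s := by rw [← hsz]; ring
  have h3 : s ^ 3 = (1 - z) * s := by rw [← hsz]; ring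
  have c0 : hC0 z (1 - z) s = -(9 / 4 * z ^ 2 * (1 / ((1 - z) ^ 2 * s))) -
      9 / 4 * z * (1 / ((1 - z) * s)) -
      (3 / 4 * z * (2 * z - 3 * (1 - z)) + 15 / 8 * z ^ 2 * (2 * z - 5 * (1 - z)) +
        105 / 32 * z ^ 3 * (2 * z - 7 * (1 - z)) + 315 / 64 * z ^ 4 * (2 * z - 9 * (1 - z)) +
        3465 / 512 * z ^ 5 * (2 * z - 11 * (1 - z))) - 27 / 100 * z - 1 / 50 := by
    unfold hC0
    field_simp
  have c1 : hC1 z (1 - z) s = 3 / 4 * z * (1 / ((1 - z) ^ 2 * s)) -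
      (3 / 4 * z + 15 / 8 * z ^ 2 + 105 / 32 * z ^ 3 + 315 / 64 * z ^ 4 + 3465 / 512 * z ^ 5) +
      9 / 100 * z * (1 / (1 - z)) - 9 / 100 := by
    unfold hC1
    field_simp
  have c2 : hC2 (1 - z) = 3 / 100 * (1 / (1 - z)) := by
    unfold hC2
    field_simp
  have d5 : z ^ 2 / s ^ 5 = z ^ 2 * (1 / ((1 - z) ^ 2 * s)) := by rw [h5]; ring
  have d3 : z / s ^ 3 = z * (1 / ((1 - z) * s)) := by rw [h3]; ring
  have d2 : z / s ^ 2 = z * (1 / (1 - z)) := by rw [hsz]; ring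
  unfold dpT
  rw [dpS_eq, c0, c1, c2, d5, d3, d2]
  generalize 1 / ((1 - z) ^ 2 * s) = a
  generalize 1 / ((1 - z) * s) = b
  generalize 1 / (1 - z) = c'
  generalize ksC z s l = k
  simp only [dpS0, kpt, kct, hA0, hA1, hB0, hB1, e2, e3, e4, e5, e6, f2, f3, f4, f5, f6]
  generalize Real.exp (-(2 * l)) = E
  generalize Real.exp (2 * l) = F
  generalize z / (s * (1 + s) ^ 2) = g
  generalize u ^ 2 / (1 + u) = W
  ring

theorem hA0_κ (κ z w E F : ℝ) : hA0 κ z w E F = hA0 0 z w E F - κ * (3 * z * (E - 1)) := by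
  unfold hA0; ring

theorem hA1_κ (κ z E F : ℝ) : hA1 κ z E F = hA1 0 z E F - κ * (E - 1) := by
  unfold hA1; ring

theorem hB0_κ (κ z w s : ℝ) : hB0 κ z w s = hB0 0 z w s - κ * (3 * z) := by
  unfold hB0; ring

theorem hB1_κ (κ z : ℝ) : hB1 κ z = hB1 0 z - κ := by
  unfold hB1; ring

/-- lower bound of `A` -/
theorem fx_A_ge {z s l D : ℝ} (hs : 0 < s) (hsz : s ^ 2 = 1 - z)
    (hcl : (1 - z) * (3 * z + 15 / 2 * z ^ 2 + 105 / 8 * z ^ 3 + 315 / 16 * z ^ 4 +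
      3465 / 128 * z ^ 5) - 3 * (z / ((1 - z) * s)) ≤ 0)
    (hD : 2 * l ≤ D * (1 + Real.exp (-(2 * l))) / (2 * Real.exp (-(2 * l)))) :
    hAl z (1 - z) s (Real.exp (-(2 * l))) D ≤
      4 / s - 4 * s / (1 + s) - 2 * s ^ 2 - 6 * (z / s ^ 3) * l + ksC z s l +
        4 * s ^ 2 * Real.exp (-(2 * l)) := by
  obtain ⟨e2, e3, e4, e5, e6, -⟩ := fx_exps l
  have h3 : z / s ^ 3 = z / ((1 - z) * s) := by rw [← hsz]; congr 1
  have h1 : 4 * s / (1 + s) = 4 * ((1 - z) / (s * (1 + s))) := by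
    rw [← hsz]; field_simp
  have key := mul_le_mul_of_nonneg_left hD (by linarith :
    0 ≤ -((1 - z) * (3 * z + 15 / 2 * z ^ 2 + 105 / 8 * z ^ 3 + 315 / 16 * z ^ 4 +
      3465 / 128 * z ^ 5) - 3 * (z / ((1 - z) * s))))
  simp only [hAl, ksC, e2, e3, e4, e5, e6, h3, h1, hsz]
  nlinarith

end Vale.Agent.P237.AllN.FX
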