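import Vale.Agent.P237.AllN.FxZone
import Vale.Agent.P237.AllN.FxT
import Vale.Agent.P237.AllN.FxAux
import Vale.Agent.P237.AllN.FXnVa
import Vale.Agent.P237.AllN.FKs4

/-!
# P237, block D, region `17/100 ≤ l`, `u ≥ 0`, `1/5 ≤ x² ≤ 49/100`, `m x² ≥ 9`
-/

namespace Vale.Agent.P237.AllN.FX

open PolyPos

theorem fx_tX_at {s E : ℝ} (h0 : 7 / 10 ≤ s) (h1 : s ≤ 9 / 10) (h2 : 18 / 100 ≤ E)
    (h3 : E ≤ 72 / 100) (P : Ex) (hP : P ∈ [fxX0, fxX1, fxX2, fxX3, fxX4, fxX5, fxX6]) :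
    0 ≤ P.R s E := by
  have h := fx_tX
  rw [List.all_eq_true] at h
  exact Ex.nn_closed (by norm_num) (by norm_num) (by norm_num) (by norm_num) (h P hP)
    (by push_cast; linarith) (by push_cast; linarith) (by push_cast; linarith)
    (by push_cast; linarith)

/-- signs of the coefficients -/
theorem fx_signs {s z E : ℝ} (hs : 0 < s) (hs0 : 7 / 10 ≤ s) (hs1 : s ≤ 9 / 10)
    (hE0 : 18 / 100 ≤ E) (hE1 : E ≤ 72 / 100) (hsz : s ^ 2 = 1 - z) (hz : 0 < z) (hz1 : z < 1)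
    {μ u : ℝ} (hμ : 9 ≤ μ) (hus : u * s ≤ 1) :
    0 ≤ fxK.R s E ∧ fxK.R s E ≤ 1 ∧
    0 ≤ hB0 (fxK.R s E) z (1 - z) s + hB1 (fxK.R s E) z * μ - 3 / 25 * (μ + 3 * z) * u ∧
    0 ≤ hC0 z (1 - z) s + hC1 z (1 - z) s * μ + hC2 (1 - z) * μ ^ 2 ∧
    (1 - z) * (3 * z + 15 / 2 * z ^ 2 + 105 / 8 * z ^ 3 + 315 / 16 * z ^ 4 +
      3465 / 128 * z ^ 5) - 3 * (z / ((1 - z) * s)) ≤ 0 := by
  have hw : 0 < 1 - z := by linarith
  have hsw : s * s = 1 - z := by rw [← hsz]; ring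
  have hS : fxS.R s E = 1 - z := by simp only [fxS, Ex.R_mul, Ex.R_X]; exact hsw
  have hZ : fxZ.R s E = z := by
    simp only [fxZ, Ex.R_sub, Ex.R_c, Fr.R, hS]; push_cast; ring
  have hP : fxP.R s E = 1 + s := by
    simp only [fxP, Ex.R_add, Ex.R_c, Ex.R_X, Fr.R]; push_cast; ring
  have g := fx_tX_at hs0 hs1 hE0 hE1
  have g0 := g fxX0 (by simp)
  have g1 := g fxX1 (by simp)
  have g2 := g fxX2 (by simp)
  have g3 := g fxX3 (by simp)
  have g4 := g fxX4 (by simp)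
  have g5 := g fxX5 (by simp)
  have g6 := g fxX6 (by simp)
  have hp : 0 < (1 - z) ^ 2 * s * (1 + s) ^ 2 := by positivity
  refine ⟨?_, ?_, ?_, ?_, ?_⟩
  · simp only [fxX4, Ex.R_mul, Ex.R_c, Fr.R] at g4
    push_cast at g4
    linarith
  · simp only [fxX5, Ex.R_sub, Ex.R_c, Fr.R] at g5
    push_cast at g5
    linarith
  · simp only [fxX0, fxX1, Ex.R_add, Ex.R_sub, Ex.R_mul, Ex.R_c, Fr.R,
      B0_R hS hZ rfl hs.ne' (by positivity : 1 + s ≠ 0), B1_R hS hZ rfl, hS, hZ, hP] at g0 g1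
    push_cast at g0 g1
    generalize hB0 (fxK.R s E) z (1 - z) s = b0 at *
    generalize hB1 (fxK.R s E) z = b1 at *
    have k0 : 0 ≤ b1 - 3 / 25 * (1 / s) := by
      refine fx_pos hp (g0.trans (le_of_eq ?_))
      field_simp
      ring
    have k1 : 0 ≤ b0 - 9 / 25 * z * (1 / s) + 9 * (b1 - 3 / 25 * (1 / s)) := by
      refine fx_pos hp (g1.trans (le_of_eq ?_))
      field_simp
      ring
    have k2 : u ≤ 1 / s := by rw [le_div_iff₀ hs]; exact hus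
    have k3 : 0 ≤ (b1 - 3 / 25 * (1 / s)) * (μ - 9) := mul_nonneg k0 (by linarith)
    have k4 : 3 / 25 * (μ + 3 * z) * u ≤ 3 / 25 * (μ + 3 * z) * (1 / s) :=
      mul_le_mul_of_nonneg_left k2 (by positivity)
    nlinarith
  · simp only [fxX2, fxX3, Ex.R_add, Ex.R_mul, Ex.R_c, Fr.R,
      C0_R hS hZ hs.ne' hw.ne', C1_R hS hZ hs.ne' hw.ne', C2_R hS hw.ne'] at g2 g3
    push_cast at g2 g3
    have hc2 : 0 ≤ hC2 (1 - z) := by unfold hC2; positivity
    generalize hC0 z (1 - z) s = c0 at *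
    generalize hC1 z (1 - z) s = c1 at *
    generalize hC2 (1 - z) = c2 at *
    have k0 : 0 ≤ c1 + 18 * c2 := fx_pos hp (g2.trans (le_of_eq (by ring)))
    have k1 : 0 ≤ c0 + 9 * c1 + 81 * c2 := fx_pos hp (g3.trans (le_of_eq (by ring)))
    nlinarith [mul_nonneg k0 (by linarith : 0 ≤ μ - 9), mul_nonneg hc2 (sq_nonneg (μ - 9))]
  · have hT : fxT.R s E = ((1 - z) * s) * ((1 - z) * (3 * z + 15 / 2 * z ^ 2 + 105 / 8 * z ^ 3 +
        315 / 16 * z ^ 4 + 3465 / 128 * z ^ 5) - 3 * (z / ((1 - z) * s))) := by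
      simp only [fxT, fxS5, fxS3, fxZ2, fxZ3, fxZ4, fxZ5, Ex.R_add, Ex.R_sub, Ex.R_mul, Ex.R_c,
        Ex.R_X, Fr.R, hS, hZ]
      push_cast
      field_simp
      ring
    simp only [fxX6, Ex.R_sub, Ex.R_c, Fr.R, hT] at g6
    push_cast at g6
    have : 0 < (1 - z) * s := by positivity
    nlinarith [fx_pos this (g6.trans (le_of_eq (show _ = ((1 - z) * s) *
      -((1 - z) * (3 * z + 15 / 2 * z ^ 2 + 105 / 8 * z ^ 3 +
        315 / 16 * z ^ 4 + 3465 / 128 * z ^ 5) - 3 * (z / ((1 - z) * s))) by ring)))]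

/-- the `r` term -/
theorem fx_r {m z s c : ℝ} (hm : 27 ≤ m) (hz : 0 < z) (hs : 357 / 500 ≤ s)
    (hsz : s ^ 2 = 1 - z) (hmz : 9 ≤ m * z) (hc0 : 1 - 1 / (2 * m) ≤ c) (hc1 : c ≤ 1)
    (hc2 : c ^ 2 ≤ (m + 1) / (m + 2)) :
    -(1 / 5) ≤ 2 * c / s - 2 + 2 * (1 - c) * (1 - m * (z / s ^ 2)) ∧
    2 * c / s - 2 + 2 * (1 - c) * (1 - m * (z / s ^ 2)) ≤ 0 := by
  have hs0 : 0 < s := by linarith
  have hm0 : 0 < m := by linarith
  have hs1 : s < 1 := by nlinarith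
  have hc3 : 53 / 54 ≤ c := by
    have : 1 / (2 * m) ≤ 1 / 54 := by
      rw [div_le_div_iff₀ (by positivity) (by norm_num)]
      linarith
    linarith
  have hz' : z = 1 - s ^ 2 := by linarith
  have e : 2 * c / s - 2 + 2 * (1 - c) * (1 - m * (z / s ^ 2)) =
      (1 - s) / s ^ 2 * (2 * c * s - 2 * ((1 - c) * m) * (1 + s)) := by
    rw [hz']
    field_simp
    ring
  rw [e]
  have hpos : 0 < (1 - s) / s ^ 2 := div_pos (by linarith) (by positivity)
  constructor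
  · have h1 : (1 - c) * m ≤ 1 / 2 := by
      have h2 : 1 - c ≤ 1 / (2 * m) := by linarith
      have h3 := mul_le_mul_of_nonneg_right h2 hm0.le
      have e3 : 1 / (2 * m) * m = 1 / 2 := by field_simp
      linarith
    have h2 : 26 / 27 * s - 1 ≤ 2 * c * s - 2 * ((1 - c) * m) * (1 + s) := by
      nlinarith [mul_nonneg (by linarith : 0 ≤ c - 53 / 54) hs0.le]
    have h3 := mul_le_mul_of_nonneg_left h2 hpos.le
    refine le_trans ?_ h3
    have h4 : -(1 / 5) * s ^ 2 ≤ (1 - s) * (26 / 27 * s - 1) := by nlinarith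
    have e4 : (1 - s) / s ^ 2 * (26 / 27 * s - 1) = (1 - s) * (26 / 27 * s - 1) / s ^ 2 := by ring
    rw [e4, le_div_iff₀ (by positivity)]
    exact h4
  · have h1 : m ≤ 2 * (m + 2) * ((1 - c) * m) := by
      have h2 : c ^ 2 * (m + 2) ≤ m + 1 := by
        rw [le_div_iff₀ (by positivity)] at hc2
        exact hc2
      have h3 : 1 ≤ 2 * (m + 2) * (1 - c) := by
        nlinarith [sq_nonneg (1 - c)]
      nlinarith
    have h4 : 9 ≤ m * (1 - s) * (1 + s) := by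
      have : m * (1 - s) * (1 + s) = m * z := by rw [hz']; ring
      linarith
    have h5 : 4 * s ≤ m * (1 - s) := by
      by_contra hlt
      push Not at hlt
      have : m * (1 - s) * (1 + s) < 4 * s * (1 + s) := mul_lt_mul_of_pos_right hlt (by linarith)
      nlinarith
    have h6 : 2 * c * s - 2 * ((1 - c) * m) * (1 + s) ≤ 0 := by
      have h7 : 2 * c * s * (m + 2) ≤ 2 * ((1 - c) * m) * (1 + s) * (m + 2) := by
        have h8 : m * (1 + s) ≤ 2 * (m + 2) * ((1 - c) * m) * (1 + s) :=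
          mul_le_mul_of_nonneg_right h1 (by linarith)
        have h9 : 2 * c * s * (m + 2) ≤ 2 * s * (m + 2) := by
          have : c * (s * (m + 2)) ≤ 1 * (s * (m + 2)) :=
            mul_le_mul_of_nonneg_right hc1 (by positivity)
          linarith
        nlinarith
      have := le_of_mul_le_mul_right h7 (by linarith : 0 < m + 2)
      linarith
    exact mul_nonpos_of_nonneg_of_nonpos hpos.le h6

end Vale.Agent.P237.AllN.FX
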