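import Vale.Agent.P237.AllN.KronEx

/-!
# P237, block D, region `l > 0`, `u ≥ 0`, `1/5 ≤ x² ≤ 49/100`: polynomial expressions

Variables `X = s`, `Y = E = e^(-2l)`, `z = 1 - s²`.
-/

namespace Vale.Agent.P237.AllN.FX

open PolyPos

def fxD : Ex := Ex.c ⟨1, 0⟩ - Ex.Y
def fxS : Ex := Ex.X * Ex.X
def fxK : Ex := fxD * (Ex.c ⟨67, 2499⟩ + Ex.c ⟨2613, 9999⟩ * fxS) + Ex.c ⟨1269, 9999⟩ * fxS -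
    Ex.c ⟨47, 1249⟩
def fxZ : Ex := Ex.c ⟨1, 0⟩ - fxS
def fxE2 : Ex := Ex.Y * Ex.Y
def fxZ2 : Ex := fxZ * fxZ
def fxE3 : Ex := fxE2 * Ex.Y
def fxZ3 : Ex := fxZ2 * fxZ
def fxE4 : Ex := fxE3 * Ex.Y
def fxZ4 : Ex := fxZ3 * fxZ
def fxE5 : Ex := fxE4 * Ex.Y
def fxZ5 : Ex := fxZ4 * fxZ
def fxE6 : Ex := fxE5 * Ex.Y
def fxZ6 : Ex := fxZ5 * fxZ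
def fxS3 : Ex := fxS * Ex.X
def fxS5 : Ex := fxS3 * fxS
def fxP : Ex := Ex.c ⟨1, 0⟩ + Ex.X
def fxQ : Ex := fxS5 * fxP * fxP
def fxA0 : Ex := (((Ex.c ⟨1, 0⟩ - fxK) * (Ex.c ⟨3, 0⟩ * fxZ) * (Ex.Y - Ex.c ⟨1, 0⟩) + (Ex.c ⟨9,
    15⟩ * fxZ * (Ex.c ⟨3, 0⟩ * fxZ - Ex.c ⟨2, 0⟩ * fxS) * (fxE2 - Ex.c ⟨1, 0⟩) + Ex.c ⟨25, 47⟩ *
    fxZ2 * (Ex.c ⟨3, 0⟩ * fxZ - Ex.c ⟨4, 0⟩ * fxS) * (fxE3 - Ex.c ⟨1, 0⟩) + Ex.c ⟨245, 511⟩ *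
    fxZ3 * (Ex.c ⟨3, 0⟩ * fxZ - Ex.c ⟨6, 0⟩ * fxS) * (fxE4 - Ex.c ⟨1, 0⟩) + Ex.c ⟨567, 1279⟩ *
    fxZ4 * (Ex.c ⟨3, 0⟩ * fxZ - Ex.c ⟨8, 0⟩ * fxS) * (fxE5 - Ex.c ⟨1, 0⟩) + Ex.c ⟨847, 2047⟩ *
    fxZ5 * (Ex.c ⟨3, 0⟩ * fxZ - Ex.c ⟨10, 0⟩ * fxS) * (fxE6 - Ex.c ⟨1, 0⟩)) + (Ex.c ⟨15, 15⟩ *
    fxZ2 + Ex.c ⟨35, 47⟩ * fxZ3 + Ex.c ⟨315, 511⟩ * fxZ4 + Ex.c ⟨693, 1279⟩ * fxZ5 + Ex.c ⟨1001,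
    2047⟩ * fxZ6)) * fxE6 - (Ex.c ⟨15, 15⟩ * fxZ2 * fxE4 + Ex.c ⟨35, 47⟩ * fxZ3 * fxE3 + Ex.c
    ⟨315, 511⟩ * fxZ4 * fxE2 + Ex.c ⟨693, 1279⟩ * fxZ5 * Ex.Y + Ex.c ⟨1001, 2047⟩ * fxZ6 * Ex.c
    ⟨1, 0⟩)) * fxQ
def fxU : Ex := Ex.c ⟨2, 0⟩ - Ex.c ⟨2, 0⟩ * fxS3
def fxH : Ex := Ex.c ⟨8, 10⟩ - Ex.c ⟨4, 34⟩ * Ex.X
def fxL : Ex := Ex.c ⟨3, 0⟩ * (Ex.c ⟨1, 0⟩ + Ex.Y) * (Ex.c ⟨1, 0⟩ + Ex.c ⟨8, 0⟩ * Ex.Y + fxE2)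
def fxB0 : Ex := ((Ex.c ⟨1, 0⟩ - fxK) * (Ex.c ⟨3, 0⟩ * fxZ) + (Ex.c ⟨9, 7⟩ * fxZ * (Ex.c ⟨3, 0⟩ *
    fxZ - Ex.c ⟨2, 0⟩ * fxS) + Ex.c ⟨15, 7⟩ * fxZ2 + (Ex.c ⟨25, 15⟩ * fxZ2 * (Ex.c ⟨3, 0⟩ * fxZ -
    Ex.c ⟨4, 0⟩ * fxS) + Ex.c ⟨35, 15⟩ * fxZ3) + (Ex.c ⟨245, 127⟩ * fxZ3 * (Ex.c ⟨3, 0⟩ * fxZ -
    Ex.c ⟨6, 0⟩ * fxS) + Ex.c ⟨315, 127⟩ * fxZ4) + (Ex.c ⟨567, 255⟩ * fxZ4 * (Ex.c ⟨3, 0⟩ * fxZ -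
    Ex.c ⟨8, 0⟩ * fxS) + Ex.c ⟨693, 255⟩ * fxZ5) + (Ex.c ⟨2541, 1023⟩ * fxZ5 * (Ex.c ⟨3, 0⟩ * fxZ
    - Ex.c ⟨10, 0⟩ * fxS) + Ex.c ⟨3003, 1023⟩ * fxZ6))) * fxQ + fxZ * fxS * fxS
def fxN : Ex := fxD * (Ex.c ⟨11, 0⟩ + Ex.c ⟨38, 0⟩ * Ex.Y + Ex.c ⟨11, 0⟩ * fxE2)
def fxC0 : Ex := (Ex.c ⟨-9, 3⟩ * fxZ2 - Ex.c ⟨9, 3⟩ * fxZ * fxS + (Ex.c ⟨-27, 99⟩ * fxZ - Ex.c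
    ⟨1, 49⟩ - (Ex.c ⟨3, 3⟩ * fxZ * (Ex.c ⟨2, 0⟩ * fxZ - Ex.c ⟨3, 0⟩ * fxS) + Ex.c ⟨15, 7⟩ * fxZ2
    * (Ex.c ⟨2, 0⟩ * fxZ - Ex.c ⟨5, 0⟩ * fxS) + Ex.c ⟨105, 31⟩ * fxZ3 * (Ex.c ⟨2, 0⟩ * fxZ - Ex.c
    ⟨7, 0⟩ * fxS) + Ex.c ⟨315, 63⟩ * fxZ4 * (Ex.c ⟨2, 0⟩ * fxZ - Ex.c ⟨9, 0⟩ * fxS) + Ex.c ⟨3465,
    511⟩ * fxZ5 * (Ex.c ⟨2, 0⟩ * fxZ - Ex.c ⟨11, 0⟩ * fxS))) * fxS5) * fxP * fxP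
def fxL0 : Ex := (fxA0 - fxK * (fxU * fxS3 * fxP * fxP + Ex.c ⟨191, 999⟩ * fxH * fxS3 * fxP) *
    fxE6) * fxL * fxL + (fxB0 - Ex.c ⟨9, 24⟩ * fxZ * fxS * fxS * fxP * fxP) * fxE6 * fxN * fxL +
    fxC0 * fxE6 * fxN * fxN
def fxA1 : Ex := (((Ex.c ⟨1, 0⟩ - fxK) * (Ex.Y - Ex.c ⟨1, 0⟩) + (Ex.c ⟨9, 15⟩ * fxZ * (fxE2 -
    Ex.c ⟨1, 0⟩) + Ex.c ⟨25, 47⟩ * fxZ2 * (fxE3 - Ex.c ⟨1, 0⟩) + Ex.c ⟨245, 511⟩ * fxZ3 * (fxE4 -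
    Ex.c ⟨1, 0⟩) + Ex.c ⟨567, 1279⟩ * fxZ4 * (fxE5 - Ex.c ⟨1, 0⟩) + Ex.c ⟨847, 2047⟩ * fxZ5 *
    (fxE6 - Ex.c ⟨1, 0⟩)) + (Ex.c ⟨3, 15⟩ * fxZ + Ex.c ⟨5, 47⟩ * fxZ2 + Ex.c ⟨35, 511⟩ * fxZ3 +
    Ex.c ⟨63, 1279⟩ * fxZ4 + Ex.c ⟨77, 2047⟩ * fxZ5)) * fxE6 - (Ex.c ⟨3, 15⟩ * fxZ * fxE4 + Ex.c
    ⟨5, 47⟩ * fxZ2 * fxE3 + Ex.c ⟨35, 511⟩ * fxZ3 * fxE2 + Ex.c ⟨63, 1279⟩ * fxZ4 * Ex.Y + Ex.c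
    ⟨77, 2047⟩ * fxZ5 * Ex.c ⟨1, 0⟩)) * fxQ
def fxB1 : Ex := (Ex.c ⟨1, 0⟩ - fxK + (Ex.c ⟨3, 1⟩ * fxZ + Ex.c ⟨15, 7⟩ * fxZ2 + Ex.c ⟨35, 15⟩ *
    fxZ3 + Ex.c ⟨315, 127⟩ * fxZ4 + Ex.c ⟨693, 255⟩ * fxZ5)) * fxQ
def fxC1 : Ex := (Ex.c ⟨3, 3⟩ * fxZ + Ex.c ⟨9, 99⟩ * fxZ * fxS3 + (Ex.c ⟨-9, 99⟩ - (Ex.c ⟨3, 3⟩ *
    fxZ + Ex.c ⟨15, 7⟩ * fxZ2 + Ex.c ⟨105, 31⟩ * fxZ3 + Ex.c ⟨315, 63⟩ * fxZ4 + Ex.c ⟨3465, 511⟩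
    * fxZ5)) * fxS5) * fxP * fxP
def fxL1 : Ex := fxA1 * fxL * fxL + (fxB1 - Ex.c ⟨3, 24⟩ * fxS * fxS * fxP * fxP) * fxE6 * fxN *
    fxL + fxC1 * fxE6 * fxN * fxN
def fxC2 : Ex := Ex.c ⟨3, 99⟩ * fxS3 * fxP * fxP
def fxL2 : Ex := fxC2 * fxE6 * fxN * fxN
def fxG : Ex := Ex.c ⟨2, 0⟩ * fxS * fxP * Ex.Y - fxZ * fxD * (Ex.c ⟨1, 0⟩ + Ex.c ⟨2, 0⟩ * Ex.X)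
def fxR : Ex := Ex.c ⟨2, 0⟩ * Ex.X * fxZ * fxD * fxS5 * fxP * fxE6 * fxL * fxL
def fxT : Ex := fxS5 * (Ex.c ⟨3, 0⟩ * fxZ + Ex.c ⟨15, 1⟩ * fxZ2 + Ex.c ⟨105, 7⟩ * fxZ3 + Ex.c
    ⟨315, 15⟩ * fxZ4 + Ex.c ⟨3465, 127⟩ * fxZ5) - Ex.c ⟨3, 0⟩ * fxZ
def fxW : Ex := (Ex.c ⟨4, 0⟩ * fxS * fxP - Ex.c ⟨4, 0⟩ * fxS * fxS - Ex.c ⟨2, 0⟩ * fxS5 * fxP +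
    fxS5 * fxP * (Ex.c ⟨9, 1⟩ * fxZ * (fxE2 - Ex.c ⟨1, 0⟩) + Ex.c ⟨25, 3⟩ * fxZ2 * (fxE3 - Ex.c
    ⟨1, 0⟩) + Ex.c ⟨245, 31⟩ * fxZ3 * (fxE4 - Ex.c ⟨1, 0⟩) + Ex.c ⟨567, 63⟩ * fxZ4 * (fxE5 - Ex.c
    ⟨1, 0⟩) + Ex.c ⟨2541, 255⟩ * fxZ5 * (fxE6 - Ex.c ⟨1, 0⟩)) + Ex.c ⟨4, 0⟩ * fxS5 * fxP * Ex.Y)
    * Ex.c ⟨2, 0⟩ * Ex.Y + fxT * fxD * (Ex.c ⟨1, 0⟩ + Ex.Y) * fxP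
def fxV : Ex := Ex.c ⟨28, 12⟩ * fxH * fxS * fxP * Ex.c ⟨2, 0⟩ * Ex.Y - fxW
def fxF : Ex := Ex.c ⟨1, 1⟩ * fxV * fxE5 * Ex.X * fxL * fxL * fxG
def fxM : Ex := Ex.c ⟨2, 0⟩ * fxZ * fxS
def fxM1 : Ex := Ex.Y - fxZ
def fxM0 : Ex := fxM1 * (fxZ + Ex.c ⟨1, 0⟩) - Ex.c ⟨2, 0⟩ * fxZ * fxS
def fxN0 : Ex := ((fxA0 - fxK * Ex.c ⟨191, 999⟩ * fxH * fxS3 * fxP * fxE6) * fxM - fxK * (fxU *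
    fxS * fxS * fxP * fxP) * fxM0 * fxE6) * fxL * fxL + (fxB0 * fxM - Ex.c ⟨9, 24⟩ * fxZ * fxQ *
    fxM0) * fxE6 * fxN * fxL + fxC0 * fxM * fxE6 * fxN * fxN
def fxN1 : Ex := (fxA1 * fxM - fxK * (fxU * fxS * fxS * fxP * fxP) * fxM1 * fxE6) * fxL * fxL +
    (fxB1 * fxM - Ex.c ⟨3, 24⟩ * fxQ * (fxM0 + Ex.c ⟨3, 0⟩ * fxZ * fxM1)) * fxE6 * fxN * fxL +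
    fxC1 * fxM * fxE6 * fxN * fxN
def fxN2 : Ex := Ex.c ⟨-3, 24⟩ * fxQ * fxM1 * fxE6 * fxN * fxL + fxC2 * fxM * fxE6 * fxN * fxN
def fxO0 : Ex := Ex.c ⟨1, 1⟩ * fxV * fxE5 * fxS * fxL * fxL * fxM0
def fxO1 : Ex := Ex.c ⟨1, 1⟩ * fxV * fxE5 * fxS * fxL * fxL * fxM1
def fxY : Ex := Ex.c ⟨12, 0⟩ * Ex.Y * (Ex.c ⟨1, 0⟩ + Ex.c ⟨3, 0⟩ * Ex.Y + fxE2)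
def fxJ : Ex := fxD * (Ex.c ⟨1, 0⟩ + Ex.Y) * (Ex.c ⟨1, 0⟩ + Ex.c ⟨3, 0⟩ * Ex.Y + fxE2 + Ex.c ⟨25,
    0⟩ * Ex.Y)
def fxI : Ex := (Ex.Y - Ex.c ⟨1, 0⟩) * fxY + fxJ
def fxK0 : Ex := (fxK * (Ex.c ⟨1, 4⟩ * fxS * fxS) * fxP - (Ex.c ⟨1, 0⟩ - fxK) * (fxU * fxS * fxP
    + Ex.c ⟨191, 999⟩ * fxH * fxS)) * fxY - (Ex.c ⟨1, 0⟩ - fxK) * Ex.c ⟨3, 0⟩ * fxZ * fxI * fxS *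
    fxS * fxP
def fxK1 : Ex := fxK * (Ex.c ⟨1, 1⟩ * fxS - Ex.c ⟨1, 4⟩ * fxZ) * fxP * fxY - (Ex.c ⟨1, 0⟩ - fxK)
    * fxI * fxS * fxS * fxP
def fxK2 : Ex := fxK * Ex.c ⟨1, 9⟩ * fxP * fxY
def fxX0 : Ex := fxB1 - Ex.c ⟨3, 24⟩ * fxS * fxS * fxP * fxP
def fxX1 : Ex := fxB0 - Ex.c ⟨9, 24⟩ * fxZ * fxS * fxS * fxP * fxP + Ex.c ⟨9, 0⟩ * (fxB1 - Ex.c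
    ⟨3, 24⟩ * fxS * fxS * fxP * fxP)
def fxX2 : Ex := fxC1 + Ex.c ⟨18, 0⟩ * fxC2
def fxX3 : Ex := fxC0 + Ex.c ⟨9, 0⟩ * fxC1 + Ex.c ⟨81, 0⟩ * fxC2
def fxX4 : Ex := Ex.c ⟨1, 0⟩ * fxK
def fxX5 : Ex := Ex.c ⟨1, 0⟩ - fxK
def fxX6 : Ex := Ex.c ⟨0, 0⟩ - fxT

/-- value of a quadratic at `n/d` -/
def fq (a b c n d : Ex) : Ex := a * (d * d) + b * (n * d) + c * (n * n)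

/-- slope of a quadratic at `n/d` -/
def fsl (b c n d : Ex) : Ex := b * d + Ex.c ⟨2, 0⟩ * c * n

/-- the family with `u ≤ 1/s` -/
def famL (n d : Ex) : List Ex :=
  [fq fxK0 fxK1 fxK2 n d, fsl fxK1 fxK2 n d, fq fxL0 fxL1 fxL2 n d * fxG - fxR * (d * d),
    fq fxL0 fxL1 fxL2 n d * fxG - fxR * (d * d) - fxF * (d * d), fsl fxL1 fxL2 n d]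

/-- the family with the tail bound -/
def famN (n d : Ex) : List Ex :=
  [fq fxK0 fxK1 fxK2 n d, fsl fxK1 fxK2 n d, fq fxN0 fxN1 fxN2 n d * fxG - fxR * fxM * (d * d),
    fq (fxN0 - fxO0) (fxN1 - fxO1) fxN2 n d * fxG - fxR * fxM * (d * d),
    fsl fxN1 fxN2 n d, fsl (fxN1 - fxO1) fxN2 n d, fxN2]

/-- families on `z ≥ 34/125` -/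
def famsA : List (List Ex) :=
  [famL (Ex.c ⟨27, 0⟩ * fxZ) (Ex.c ⟨1, 0⟩), famL (Ex.c ⟨9, 0⟩) (Ex.c ⟨1, 0⟩),
    famL (Ex.c ⟨177, 49⟩) Ex.Y, famN (Ex.c ⟨27, 0⟩ * fxZ) (Ex.c ⟨1, 0⟩),
    famN (Ex.c ⟨9, 0⟩) (Ex.c ⟨1, 0⟩), famN (Ex.c ⟨177, 49⟩) Ex.Y]

/-- families on `z ≤ 34/125` -/
def famsB : List (List Ex) :=
  [famL (Ex.c ⟨9, 0⟩) (Ex.c ⟨1, 0⟩), famL (Ex.c ⟨33, 9⟩) Ex.Y, famN (Ex.c ⟨9, 0⟩) (Ex.c ⟨1, 0⟩),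
    famN (Ex.c ⟨33, 9⟩) Ex.Y]

end Vale.Agent.P237.AllN.FX
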