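import Vale.Agent.P237.AllN.FxPoly

/-!
# P237, block D, region `l > 0`, `u ≥ 0`, `1/5 ≤ x² ≤ 49/100`: the real coefficient functions
-/

namespace Vale.Agent.P237.AllN.FX

open PolyPos

noncomputable def hA0 (κ z w E F : ℝ) : ℝ :=
  (1 - κ) * (3 * z) * (E - 1) +
  (9 / 16 * z * (3 * z - 2 * w) * (E ^ 2 - 1) - 15 / 16 * z ^ 2 * (F ^ 2 - 1)) +
  (25 / 48 * z ^ 2 * (3 * z - 4 * w) * (E ^ 3 - 1) - 35 / 48 * z ^ 3 * (F ^ 3 - 1)) +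
  (245 / 512 * z ^ 3 * (3 * z - 6 * w) * (E ^ 4 - 1) - 315 / 512 * z ^ 4 * (F ^ 4 - 1)) +
  (567 / 1280 * z ^ 4 * (3 * z - 8 * w) * (E ^ 5 - 1) - 693 / 1280 * z ^ 5 * (F ^ 5 - 1)) +
  (847 / 2048 * z ^ 5 * (3 * z - 10 * w) * (E ^ 6 - 1) - 1001 / 2048 * z ^ 6 * (F ^ 6 - 1))

noncomputable def hA1 (κ z E F : ℝ) : ℝ :=
  (1 - κ) * (E - 1) +
  (9 / 16 * z * (E ^ 2 - 1) - 3 / 16 * z * (F ^ 2 - 1)) +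
  (25 / 48 * z ^ 2 * (E ^ 3 - 1) - 5 / 48 * z ^ 2 * (F ^ 3 - 1)) +
  (245 / 512 * z ^ 3 * (E ^ 4 - 1) - 35 / 512 * z ^ 3 * (F ^ 4 - 1)) +
  (567 / 1280 * z ^ 4 * (E ^ 5 - 1) - 63 / 1280 * z ^ 4 * (F ^ 5 - 1)) +
  (847 / 2048 * z ^ 5 * (E ^ 6 - 1) - 77 / 2048 * z ^ 5 * (F ^ 6 - 1))

noncomputable def hB0 (κ z w s : ℝ) : ℝ :=
  (1 - κ) * (3 * z) + (9 / 8 * z * (3 * z - 2 * w) + 15 / 8 * z ^ 2) +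
  (25 / 16 * z ^ 2 * (3 * z - 4 * w) + 35 / 16 * z ^ 3) +
  (245 / 128 * z ^ 3 * (3 * z - 6 * w) + 315 / 128 * z ^ 4) +
  (567 / 256 * z ^ 4 * (3 * z - 8 * w) + 693 / 256 * z ^ 5) +
  (2541 / 1024 * z ^ 5 * (3 * z - 10 * w) + 3003 / 1024 * z ^ 6) + z / (s * (1 + s) ^ 2)

noncomputable def hB1 (κ z : ℝ) : ℝ :=
  (1 - κ) + 3 / 2 * z + 15 / 8 * z ^ 2 + 35 / 16 * z ^ 3 + 315 / 128 * z ^ 4 + 693 / 256 * z ^ 5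

noncomputable def hC0 (z w s : ℝ) : ℝ :=
  -(9 * z ^ 2 / (4 * (w ^ 2 * s))) - 9 * z / (4 * (w * s)) -
  (3 / 4 * z * (2 * z - 3 * w) + 15 / 8 * z ^ 2 * (2 * z - 5 * w) +
    105 / 32 * z ^ 3 * (2 * z - 7 * w) + 315 / 64 * z ^ 4 * (2 * z - 9 * w) +
    3465 / 512 * z ^ 5 * (2 * z - 11 * w)) - 27 / 100 * z - 1 / 50

noncomputable def hC1 (z w s : ℝ) : ℝ :=
  3 * z / (4 * (w ^ 2 * s)) -
  (3 / 4 * z + 15 / 8 * z ^ 2 + 105 / 32 * z ^ 3 + 315 / 64 * z ^ 4 + 3465 / 512 * z ^ 5) +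
  9 * z / (100 * w) - 9 / 100

noncomputable def hC2 (w : ℝ) : ℝ := 3 / (100 * w)

/-- lower bound of `A = C_K + 4 s² E` -/
noncomputable def hAl (z w s E D : ℝ) : ℝ :=
  4 / s - 4 * (w / (s * (1 + s))) - 2 * w +
  w * (9 / 2 * z * (E ^ 2 - 1) + 25 / 4 * z ^ 2 * (E ^ 3 - 1) + 245 / 32 * z ^ 3 * (E ^ 4 - 1) +
    567 / 64 * z ^ 4 * (E ^ 5 - 1) + 2541 / 256 * z ^ 5 * (E ^ 6 - 1)) + 4 * w * E +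
  (w * (3 * z + 15 / 2 * z ^ 2 + 105 / 8 * z ^ 3 + 315 / 16 * z ^ 4 + 3465 / 128 * z ^ 5) -
    3 * (z / (w * s))) * (D * (1 + E) / (2 * E))

variable {s z w E F D κ η : ℝ}

theorem A0_R (hS : fxS.R s E = w) (hZ : fxZ.R s E = z) (hK : fxK.R s E = κ) (hF : E * F = 1) :
    fxA0.R s E = E ^ 6 * (w ^ 2 * s * (1 + s) ^ 2) * hA0 κ z w E F := by
  have f2 : E ^ 4 * (E ^ 2 * F ^ 2) = E ^ 4 := by rw [← mul_pow, hF]; ring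
  have f3 : E ^ 3 * (E ^ 3 * F ^ 3) = E ^ 3 := by rw [← mul_pow, hF]; ring
  have f4 : E ^ 2 * (E ^ 4 * F ^ 4) = E ^ 2 := by rw [← mul_pow, hF]; ring
  have f5 : E * (E ^ 5 * F ^ 5) = E := by rw [← mul_pow, hF]; ring
  have f6 : E ^ 6 * F ^ 6 = 1 := by rw [← mul_pow, hF]; ring
  simp only [fxA0, fxQ, fxS5, fxS3, fxP, fxZ2, fxZ3, fxZ4, fxZ5, fxZ6, fxE2, fxE3, fxE4, fxE5,
    fxE6, Ex.R_add, Ex.R_sub, Ex.R_mul, Ex.R_c, Ex.R_X, Ex.R_Y, Fr.R, hS, hZ, hK, hA0]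
  push_cast
  linear_combination (w ^ 2 * s * (1 + s) ^ 2) * (15 / 16 * z ^ 2 * f2 + 35 / 48 * z ^ 3 * f3 +
    315 / 512 * z ^ 4 * f4 + 693 / 1280 * z ^ 5 * f5 + 1001 / 2048 * z ^ 6 * f6)

theorem A1_R (hS : fxS.R s E = w) (hZ : fxZ.R s E = z) (hK : fxK.R s E = κ) (hF : E * F = 1) :
    fxA1.R s E = E ^ 6 * (w ^ 2 * s * (1 + s) ^ 2) * hA1 κ z E F := by
  have f2 : E ^ 4 * (E ^ 2 * F ^ 2) = E ^ 4 := by rw [← mul_pow, hF]; ring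
  have f3 : E ^ 3 * (E ^ 3 * F ^ 3) = E ^ 3 := by rw [← mul_pow, hF]; ring
  have f4 : E ^ 2 * (E ^ 4 * F ^ 4) = E ^ 2 := by rw [← mul_pow, hF]; ring
  have f5 : E * (E ^ 5 * F ^ 5) = E := by rw [← mul_pow, hF]; ring
  have f6 : E ^ 6 * F ^ 6 = 1 := by rw [← mul_pow, hF]; ring
  simp only [fxA1, fxQ, fxS5, fxS3, fxP, fxZ2, fxZ3, fxZ4, fxZ5, fxE2, fxE3, fxE4, fxE5,
    fxE6, Ex.R_add, Ex.R_sub, Ex.R_mul, Ex.R_c, Ex.R_X, Ex.R_Y, Fr.R, hS, hZ, hK, hA1]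
  push_cast
  linear_combination (w ^ 2 * s * (1 + s) ^ 2) * (3 / 16 * z * f2 + 5 / 48 * z ^ 2 * f3 +
    35 / 512 * z ^ 3 * f4 + 63 / 1280 * z ^ 4 * f5 + 77 / 2048 * z ^ 5 * f6)

theorem B0_R (hS : fxS.R s E = w) (hZ : fxZ.R s E = z) (hK : fxK.R s E = κ) (hs : s ≠ 0)
    (hs1 : 1 + s ≠ 0) :
    fxB0.R s E = (w ^ 2 * s * (1 + s) ^ 2) * hB0 κ z w s := by
  simp only [fxB0, fxQ, fxS5, fxS3, fxP, fxZ2, fxZ3, fxZ4, fxZ5, fxZ6,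
    Ex.R_add, Ex.R_sub, Ex.R_mul, Ex.R_c, Ex.R_X, Ex.R_Y, Fr.R, hS, hZ, hK, hB0]
  push_cast
  field_simp
  ring

theorem B1_R (hS : fxS.R s E = w) (hZ : fxZ.R s E = z) (hK : fxK.R s E = κ) :
    fxB1.R s E = (w ^ 2 * s * (1 + s) ^ 2) * hB1 κ z := by
  simp only [fxB1, fxQ, fxS5, fxS3, fxP, fxZ2, fxZ3, fxZ4, fxZ5,
    Ex.R_add, Ex.R_sub, Ex.R_mul, Ex.R_c, Ex.R_X, Ex.R_Y, Fr.R, hS, hZ, hK, hB1]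
  push_cast
  ring

theorem C0_R (hS : fxS.R s E = w) (hZ : fxZ.R s E = z) (hs : s ≠ 0) (hw : w ≠ 0) :
    fxC0.R s E = (w ^ 2 * s * (1 + s) ^ 2) * hC0 z w s := by
  simp only [fxC0, fxS5, fxS3, fxP, fxZ2, fxZ3, fxZ4, fxZ5,
    Ex.R_add, Ex.R_sub, Ex.R_mul, Ex.R_c, Ex.R_X, Ex.R_Y, Fr.R, hS, hZ, hC0]
  push_cast
  field_simp
  ring

theorem C1_R (hS : fxS.R s E = w) (hZ : fxZ.R s E = z) (hs : s ≠ 0) (hw : w ≠ 0) :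
    fxC1.R s E = (w ^ 2 * s * (1 + s) ^ 2) * hC1 z w s := by
  simp only [fxC1, fxS5, fxS3, fxP, fxZ2, fxZ3, fxZ4, fxZ5,
    Ex.R_add, Ex.R_sub, Ex.R_mul, Ex.R_c, Ex.R_X, Ex.R_Y, Fr.R, hS, hZ, hC1]
  push_cast
  field_simp
  ring

theorem C2_R (hS : fxS.R s E = w) (hw : w ≠ 0) :
    fxC2.R s E = (w ^ 2 * s * (1 + s) ^ 2) * hC2 w := by
  simp only [fxC2, fxS3, fxP, Ex.R_add, Ex.R_sub, Ex.R_mul, Ex.R_c, Ex.R_X, Ex.R_Y, Fr.R, hS, hC2]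
  push_cast
  field_simp
  ring

theorem V_R (hS : fxS.R s E = w) (hZ : fxZ.R s E = z) (hD : fxD.R s E = D) (hH : fxH.R s E = η) (hs : s ≠ 0) (hw : w ≠ 0) (hE0 : E ≠ 0)
    (hs1 : 1 + s ≠ 0) :
    fxV.R s E = 2 * E * (w * s) * (1 + s) * (28 / 13 * (η / s) - hAl z w s E D) := by
  simp only [fxV, fxW, fxT, fxS5, fxS3, fxP, fxZ2, fxZ3, fxZ4, fxZ5, fxE2, fxE3, fxE4, fxE5, fxE6,
    Ex.R_add, Ex.R_sub, Ex.R_mul, Ex.R_c, Ex.R_X, Ex.R_Y, Fr.R, hS, hZ, hD, hH, hAl]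
  push_cast
  field_simp
  ring

end Vale.Agent.P237.AllN.FX
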