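import Vale.Agent.P237.AllN.FxFin

/-!
# P237, block D, region `17/100 ≤ l`, `u ≥ 0`, `1/5 ≤ x² ≤ 49/100`, `m x² ≥ 9`: the test
-/

namespace Vale.Agent.P237.AllN

open PolyPos

namespace FX

theorem fx_logs {l E : ℝ} (hEd : E = Real.exp (-(2 * l))) (hE1 : E ≤ 1) :
    0 ≤ lamL E ∧ lamL E ≤ 2 * l ∧ 2 * l ≤ lamU E ∧ 2 * l ≤ (1 - E) * (1 + E) / (2 * E) := by
  have hE0 : 0 < E := by rw [hEd]; exact Real.exp_pos _
  have hE3 : E ∈ Set.Ioc (0 : ℝ) 1 := ⟨hE0, hE1⟩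
  have hlog : -Real.log E = 2 * l := by rw [hEd, Real.log_exp]; ring
  refine ⟨?_, ?_, ?_, ?_⟩
  · unfold lamL
    have : 0 ≤ 1 - E := by linarith
    positivity
  · have := fv_log_ge hE3
    rw [hlog] at this
    exact this
  · have := fv_log_le hE3
    rw [hlog] at this
    refine this.trans (le_of_eq ?_)
    unfold lamU
    ring
  · have := fv_log_le1 hE3
    rw [hlog] at this
    refine this.trans (le_of_eq ?_)
    ring

theorem fx_E1 {l E F : ℝ} (hl : 33 / 200 ≤ l) (hE0 : 0 < E) (hEF : E * F = 1)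
    (hFd : F = Real.exp (2 * l)) : E ≤ 18 / 25 := by
  have h1 : Real.exp (33 / 100 : ℝ) ≤ F := by rw [hFd]; exact Real.exp_le_exp.2 (by linarith)
  have h2 : (25 : ℝ) / 18 ≤ Real.exp (33 / 100) := by
    have := Real.sum_le_exp_of_nonneg (by norm_num : (0 : ℝ) ≤ 33 / 100) 5
    simp only [Finset.sum_range_succ, Finset.sum_range_zero, Nat.factorial] at this
    norm_num at this
    linarith
  have h3 : 25 / 18 ≤ F := by linarith
  nlinarith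

theorem fx_Cd {z s E : ℝ} (hs : 0 < s) (hE0 : 0 < E) (hw : 0 < 1 - z) (hzE : z ≤ E) :
    0 < 2 * (1 - z) * (1 + s) * E - z * (1 - E) * (1 + 2 * s) := by
  have h1 : z * (1 - E) ≤ E * (1 - z) := by nlinarith
  have h2 : z * (1 - E) * (1 + 2 * s) ≤ E * (1 - z) * (1 + 2 * s) :=
    mul_le_mul_of_nonneg_right h1 (by linarith)
  nlinarith [mul_pos hE0 hw]

theorem fx_Gf {z s E l : ℝ} (hs : 0 < s) (hsz : s ^ 2 = 1 - z) (hE0 : 0 < E)
    (hCd : 0 < 2 * (1 - z) * (1 + s) * E - z * (1 - E) * (1 + 2 * s)) :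
    z / (s * (1 + s) ^ 2) * (2 * l) - 2 * s * z * (1 - E) /
      ((1 + s) * (2 * (1 - z) * (1 + s) * E - z * (1 - E) * (1 + 2 * s))) =
    2 * (z / (s * (1 + s) ^ 2) * l - s * (z * (1 - E) / E) / ((1 + s) * (2 * s ^ 2 * (1 + s) -
        (z * (1 - E) / E) * (1 + 2 * s)))) := by
  have e1 : (1 + s) * (2 * s ^ 2 * (1 + s) - (z * (1 - E) / E) * (1 + 2 * s)) =
      (1 + s) * (2 * (1 - z) * (1 + s) * E - z * (1 - E) * (1 + 2 * s)) / E := by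
    rw [hsz]
    field_simp
  rw [e1]
  generalize 2 * (1 - z) * (1 + s) * E - z * (1 - E) * (1 + 2 * s) = C at *
  have : C ≠ 0 := hCd.ne'
  field_simp

theorem fx_tp {m z s E u : ℝ} (hz : 0 < z) (hw : 0 < 1 - z) (hsz : s ^ 2 = 1 - z)
    (htail : 1 + u ≤ ((m + 1) * z + 1) / (2 * z) * ((E - z) / s ^ 2)) :
    2 * z * (1 - z) * (1 + u) ≤ (E - z) * (m * z + z + 1) := by
  have h1 : ((m + 1) * z + 1) / (2 * z) * ((E - z) / s ^ 2) =
      (E - z) * (m * z + z + 1) / (2 * z * (1 - z)) := by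
    rw [hsz]
    field_simp
  rw [h1, le_div_iff₀ (by positivity)] at htail
  linarith

theorem fx_rho_eq {m z s : ℝ} (hw : 0 < 1 - z) (hsz : s ^ 2 = 1 - z) :
    dpR m (z / s ^ 2) = 1 / 5 + (1 / 2 / (1 - z) - 1 / 5 * z / (1 - z) ^ 2) * (m * z) +
      1 / 10 / (1 - z) ^ 2 * (m * z) ^ 2 := by
  unfold dpR
  rw [hsz]
  field_simp
  ring

theorem fx_rho_ge {m z s : ℝ} (hm : 27 ≤ m) (hz : 0 < z) (hs : 0 < s) (hsz : s ^ 2 = 1 - z)
    (hmz : 9 ≤ m * z) : 10 ≤ dpR m (z / s ^ 2) := by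
  have hy : z ≤ z / s ^ 2 := by
    rw [le_div_iff₀ (by positivity)]
    nlinarith
  have hy' : m * z ≤ m * (z / s ^ 2) := mul_le_mul_of_nonneg_left hy (by linarith)
  unfold dpR
  generalize z / s ^ 2 = y at *
  have hy2 : 25 / 27 * (m * y) ≤ (m - 2) * y := by nlinarith
  have e1 : m * (m - 2) * y ^ 2 = m * y * ((m - 2) * y) := by ring
  rw [e1]
  have : 75 ≤ m * y * ((m - 2) * y) := by nlinarith
  linarith

theorem fx_kX {m z s l u E η κ : ℝ} (hz : 0 < z) (hm : 0 ≤ m) (hs : 0 < s) (hw : 0 < 1 - z)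
    (hsz : s ^ 2 = 1 - z) (hq : 0 ≤ 2 - 2 * (1 - z) * s) (hus : u * s ≤ 1) (hκ1 : κ ≤ 1)
    (hU : 2 * l ≤ lamU E)
    (z0 : 0 ≤ hKA κ z (1 - z) s η E (lamU E) + hKB κ z (1 - z) E (lamU E) * (m * z) +
      hKC κ (1 - z) * (m * z) ^ 2) :
    (m * z + 3 * z) * (E - 1 + 2 * l) + (2 - 2 * (1 - z) * s) / s * u +
        191 / 1000 * η / ((1 - z) * (1 + s)) ≤
      κ * (dpR m (z / s ^ 2) + ((m * z + 3 * z) * (E - 1 + 2 * l) +
        (2 - 2 * (1 - z) * s) / s * u + 191 / 1000 * η / ((1 - z) * (1 + s)))) := by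
  have h1 : (m * z + 3 * z) * (E - 1 + 2 * l) + (2 - 2 * (1 - z) * s) / s * u +
        191 / 1000 * η / ((1 - z) * (1 + s)) ≤
      (m * z + 3 * z) * (E - 1 + lamU E) + (2 - 2 * (1 - z) * s) / (1 - z) +
        191 / 1000 * η / ((1 - z) * (1 + s)) := by
    have h2 : (m * z + 3 * z) * (E - 1 + 2 * l) ≤ (m * z + 3 * z) * (E - 1 + lamU E) :=
      mul_le_mul_of_nonneg_left (by linarith) (by positivity)
    have h3 : (2 - 2 * (1 - z) * s) / s * u ≤ (2 - 2 * (1 - z) * s) / (1 - z) := by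
      rw [div_mul_eq_mul_div, div_le_div_iff₀ hs hw, ← hsz]
      rw [← hsz] at hq
      nlinarith [mul_le_mul_of_nonneg_left hus (mul_nonneg hq hs.le)]
    linarith
  have h4 := mul_le_mul_of_nonneg_left h1 (by linarith : 0 ≤ 1 - κ)
  rw [fx_rho_eq hw hsz]
  unfold hKA hKB hKC at z0
  generalize 191 / 1000 * η / ((1 - z) * (1 + s)) = p at *
  generalize (2 - 2 * (1 - z) * s) / s * u = q at *
  generalize (2 - 2 * (1 - z) * s) / (1 - z) = q' at *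
  generalize lamU E = lu at *
  have e1 : κ * (1 / 5) - (1 - κ) * (3 * z * (E - 1 + lu) + q' + p) +
      (κ * (1 / 2 / (1 - z) - 1 / 5 * z / (1 - z) ^ 2) - (1 - κ) * (E - 1 + lu)) * (m * z) +
      κ * (1 / 10 / (1 - z) ^ 2) * (m * z) ^ 2 =
      κ * (1 / 5 + (1 / 2 / (1 - z) - 1 / 5 * z / (1 - z) ^ 2) * (m * z) +
        1 / 10 / (1 - z) ^ 2 * (m * z) ^ 2) -
      (1 - κ) * ((m * z + 3 * z) * (E - 1 + lu) + q' + p) := by ring
  rw [e1] at z0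
  generalize 1 / 5 + (1 / 2 / (1 - z) - 1 / 5 * z / (1 - z) ^ 2) * (m * z) +
        1 / 10 / (1 - z) ^ 2 * (m * z) ^ 2 = ρ at *
  generalize (m * z + 3 * z) * (E - 1 + lu) = a at *
  generalize (m * z + 3 * z) * (E - 1 + 2 * l) = b at *
  linarith

/-- `H - δ ≥ 0` from the zone -/
theorem fx_Hd {κ z w s E F η D Cd μ l u : ℝ}
    (hz : ZoneC κ z w s E F η D Cd μ u)
    (kB : 0 ≤ hB0 κ z w s + hB1 κ z * μ - 3 / 25 * (μ + 3 * z) * u)
    (kC : 0 ≤ hC0 z w s + hC1 z w s * μ + hC2 w * μ ^ 2) (hL0 : 0 ≤ lamL E)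
    (hL : lamL E ≤ 2 * l) :
    0 ≤ hH κ z w s E F η D Cd μ (2 * l) u - max (hDef z w s E η D) 0 / (1 + s) * u := by
  obtain ⟨-, z1, z2⟩ := hz
  have hmono : hH κ z w s E F η D Cd μ (lamL E) u ≤ hH κ z w s E F η D Cd μ (2 * l) u := by
    unfold hH
    have h1 : 0 ≤ (hB0 κ z w s + hB1 κ z * μ - 3 / 25 * (μ + 3 * z) * u) *
        (2 * l - lamL E) := mul_nonneg kB (by linarith)
    have h2 : (hC0 z w s + hC1 z w s * μ + hC2 w * μ ^ 2) * lamL E ^ 2 ≤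
        (hC0 z w s + hC1 z w s * μ + hC2 w * μ ^ 2) * (2 * l) ^ 2 :=
      mul_le_mul_of_nonneg_left (pow_le_pow_left₀ hL0 hL 2) kC
    linarith
  rcases le_total (hDef z w s E η D) 0 with hd | hd
  · rw [max_eq_right hd, zero_div, zero_mul, sub_zero]
    linarith
  · rw [max_eq_left hd]
    linarith

/-- the end of the argument -/
theorem fx_end {T e ρ u X κ H δ l : ℝ} (hl : 0 < l) (hl2 : l ≤ 2) (hX0 : 0 ≤ X) (k0 : 0 ≤ κ)
    (k1 : κ ≤ 1) (hκX : X ≤ κ * (ρ + X)) (hρ : 10 ≤ ρ) (hHδ : 0 ≤ H - δ)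
    (hT : H + κ * X + 1 / 50 * (2 * l) ^ 2 - δ ≤ T)
    (heT : e - T ≤ X - (κ * X + 1 / 50 * (2 * l) ^ 2 + (H - δ))) (he : -(l / 5) ≤ e) :
    JTest T e ρ u := by
  have hν : 0 < 1 / 100 * (2 * l) ^ 2 := by positivity
  have h1 : 0 ≤ κ * X := mul_nonneg k0 hX0
  refine fx_test (t := κ * X + 1 / 50 * (2 * l) ^ 2 + (H - δ)) (X := X) (κ := κ)
    (ν := 1 / 100 * (2 * l) ^ 2) (E0 := l / 5) hν (by linarith) heT hX0 k0 k1 hκX
    (by linarith) (by linarith) he (by linarith) (by linarith) ?_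
  have h3 : (1 : ℝ) ≤ ρ - l / 5 := by linarith
  calc (l / 5) ^ 2 = 1 / 100 * (2 * l) ^ 2 * 1 := by ring
    _ ≤ 1 / 100 * (2 * l) ^ 2 * (ρ - l / 5) := mul_le_mul_of_nonneg_left h3 hν.le
    _ ≤ _ := mul_le_mul_of_nonneg_right (by linarith) (by linarith)

theorem fx_re1 {H P Q δ R : ℝ} (h : H + P + Q ≤ R) (hδ : 0 ≤ δ) : P + Q + (H - δ) ≤ R := by
  linarith

theorem fx_re2 {H P Q δ T A : ℝ} (h : H + P + Q ≤ T - A) (h1 : -δ ≤ A) :
    H + P + Q - δ ≤ T := by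
  linarith

end FX

open FX

/-- block D, `l ≥ 33/200`, `u ≥ 0`, `1/5 ≤ z ≤ 49/100`, `m z ≥ 9` -/
theorem fx_region {m z s l u c G N : ℝ} (hm : 27 ≤ m) (hz0 : 1 / 5 ≤ z) (hz1 : z ≤ 49 / 100)
    (hs : 0 < s) (hsz : s ^ 2 = 1 - z) (hmz : 9 ≤ m * z) (hl : 33 / 200 ≤ l)
    (hzE : z ≤ Real.exp (-(2 * l))) (hcap : 33 / 10 ≤ m * z * Real.exp (-(2 * l)))
    (hcap2 : 34 / 125 ≤ z → 354 / 100 ≤ m * z * Real.exp (-(2 * l)))
    (hu : 0 ≤ u) (hus : u * s ≤ 1)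
    (htail : 1 + u ≤ ((m + 1) * z + 1) / (2 * z) * ((Real.exp (-(2 * l)) - z) / s ^ 2))
    (hc0 : 1 - 1 / (2 * m) ≤ c) (hc1 : c ≤ 1) (hc2 : c ^ 2 ≤ (m + 1) / (m + 2))
    (hN : Real.log (1 + u) - u ≤ N)
    (hG : 2 * (z / (s * (1 + s) ^ 2) * l - s * (z * (1 - Real.exp (-(2 * l))) /
      Real.exp (-(2 * l))) / ((1 + s) * (2 * s ^ 2 * (1 + s) -
        (z * (1 - Real.exp (-(2 * l))) / Real.exp (-(2 * l))) * (1 + 2 * s)))) ≤ G) :
    JTest (dpT m z s l u G N) (dpE m z s l u c N) (dpR m (z / s ^ 2)) u := by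
  have hz : 0 < z := by linarith
  have hz' : z < 1 := by linarith
  have hw : 0 < 1 - z := by linarith
  have hs0 : 357 / 500 ≤ s := by nlinarith
  have hs1 : s ≤ 9 / 10 := by nlinarith
  have hl0 : 0 < l := by linarith
  have h1s : 0 ≤ 1 + s := by linarith
  have hη0 : 0 < 8 / 11 - 4 / 35 * s := by linarith
  have hq : 0 ≤ 2 - 2 * (1 - z) * s := by nlinarith
  have hm0 : 0 ≤ m := by linarith
  have he := fx_e_ge hm hs0 hs1 hsz hz hmz hl0.le hzE hu hus hc0 hc1 hc2 hN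
  obtain ⟨E, hEd⟩ : ∃ E, E = Real.exp (-(2 * l)) := ⟨_, rfl⟩
  obtain ⟨F, hFd⟩ : ∃ F, F = Real.exp (2 * l) := ⟨_, rfl⟩
  have hEF : E * F = 1 := by rw [hEd, hFd, ← Real.exp_add]; norm_num
  have hE0 : 0 < E := by rw [hEd]; exact Real.exp_pos _
  rw [← hEd] at hzE hcap hcap2 htail hG
  have hE2 : 18 / 100 ≤ E := by linarith
  have hE1 : E ≤ 18 / 25 := fx_E1 hl hE0 hEF hFd
  obtain ⟨hL0, hL, hU, hLd⟩ := fx_logs hEd (by linarith)
  have h27 : 27 * z ≤ m * z := mul_le_mul_of_nonneg_right hm hz.le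
  obtain ⟨k0, k1, kB, kC, kcl⟩ := fx_signs (μ := m * z) (u := u) hs (by linarith) hs1 hE2
    (by linarith) hsz hz hz' hmz hus
  have hzone := fx_zone hs hsz hz0 hz1 hzE hE1 hEF h27 hmz hcap (fun h => by
    have := hcap2 h
    linarith) hu hus (fx_tp hz hw hsz htail)
  have hHR : fxH.R s E = 8 / 11 - 4 / 35 * s := by
    simp only [fxH, Ex.R_sub, Ex.R_mul, Ex.R_c, Ex.R_X, Fr.R]
    push_cast
    ring
  rw [hHR] at hzone
  generalize fxK.R s E = κ at *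
  have hCd := fx_Cd (s := s) hs hE0 hw hzE
  have hG' := (fx_Gf (l := l) hs hsz hE0 hCd).le.trans hG
  have hA := fx_A_ge (l := l) (D := 1 - E) hs hsz kcl (by rw [← hEd]; exact hLd)
  rw [← hEd] at hA
  have hCK : 0 ≤ 4 / s - 4 * s / (1 + s) - 2 * s ^ 2 - 6 * (z / s ^ 3) * l + ksC z s l := by
    refine kK3 hz hs hsz ?_
    rw [← hFd]
    have hF0 : 0 < F := by rw [hFd]; exact Real.exp_pos _
    calc z * F ≤ E * F := mul_le_mul_of_nonneg_right hzE hF0.le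
      _ = 1 := hEF
  have hl2 : l ≤ 2 := by
    have hF0 : 0 < F := by rw [hFd]; exact Real.exp_pos _
    have h1 : z * F ≤ 1 := (mul_le_mul_of_nonneg_right hzE hF0.le).trans hEF.le
    have h2 := Real.add_one_le_exp (2 * l)
    rw [← hFd] at h2
    have h3 : 1 / 5 * F ≤ z * F := mul_le_mul_of_nonneg_right hz0 hF0.le
    linarith
  have hα : 0 ≤ E - 1 + 2 * l := by
    have := Real.add_one_le_exp (-(2 * l))
    rw [← hEd] at this
    linarith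
  have hX0 : 0 ≤ (m * z + 3 * z) * (E - 1 + 2 * l) + (2 - 2 * (1 - z) * s) / s * u +
        191 / 1000 * (8 / 11 - 4 / 35 * s) / ((1 - z) * (1 + s)) := by
    have h1 : 0 ≤ (m * z + 3 * z) * (E - 1 + 2 * l) := mul_nonneg (by linarith) hα
    have h2 : 0 ≤ (2 - 2 * (1 - z) * s) / s * u := mul_nonneg (div_nonneg hq hs.le) hu
    have h3 : 0 ≤ 191 / 1000 * (8 / 11 - 4 / 35 * s) / ((1 - z) * (1 + s)) := by positivity
    linarith
  have b0 := fx_lower0 (m := m) (l := l) (u := u) (N := N) (κ := κ)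
    (η := 8 / 11 - 4 / 35 * s) hs hsz hz' hEd hFd rfl hG'
  have b1 := fx_wn (η := 8 / 11 - 4 / 35 * s) hm hs0 hs1 rfl hu hus hN hA
  have b3 := fx_Hd (l := l) hzone kB kC hL0 hL
  have hκX := fx_kX (u := u) (l := l) hz hm0 hs hw hsz hq hus k1 hU hzone.1
  have hu2 := fx_upper (m := m) (G := G) (N := N) (c := c) (l := l) (u := u)
    (t := κ * ((m * z + 3 * z) * (E - 1 + 2 * l) + (2 - 2 * (1 - z) * s) / s * u +
        191 / 1000 * (8 / 11 - 4 / 35 * s) / ((1 - z) * (1 + s))) + 1 / 50 * (2 * l) ^ 2 +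
      (hH κ z (1 - z) s E F (8 / 11 - 4 / 35 * s) (1 - E)
        (2 * (1 - z) * (1 + s) * E - z * (1 - E) * (1 + 2 * s)) (m * z) (2 * l) u -
        max (hDef z (1 - z) s E (8 / 11 - 4 / 35 * s) (1 - E)) 0 / (1 + s) * u))
    hm hs0 hs1 hsz hz hz' hmz hl0.le hEd rfl rfl hu hus hc0 hc1 hc2 hN hCK
    (fx_re1 b0 (mul_nonneg (div_nonneg (le_max_right _ _) h1s) hu))
  exact fx_end hl0 hl2 hX0 k0 k1 hκX (fx_rho_ge hm hz hs hsz hmz) b3 (fx_re2 b0 b1) hu2 he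

end Vale.Agent.P237.AllN
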