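import Vale.Agent.P237.AllN.FPn
import Vale.Agent.P237.AllN.FPuE

/-!
# P237, block D, far region, tight zone, part (I)

`1/5 ≤ z ≤ 49/100`, `9 ≤ m z`, `0 ≤ u ≤ 1/s`, `0 ≤ l ≤ 17/100` (helper840's proof for `l ≤ 151/1000`, with a
sharper bound of the kernel part).
-/

namespace Vale.Agent.P237.AllN

open PolyPos

/-! ## the kernel part of the coefficient of `W`, `l ≤ 1/5` -/

theorem fxm_poly {q : List ℤ} {l : ℝ} (h0 : 0 ≤ l) (h1 : l ≤ 1 / 5)
    (h : auto1 6 0 1 5 q = true) : 0 ≤ ev1 q l := by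
  apply ev1_closed (a := 0) (b := 1 / 5) (by (clear * -; norm_num)) _ h0 h1
  intro x hx0 hx1
  exact auto1_sound (n := 6) (A := 0) (B := 1) (D := 5) (by (clear * -; norm_num)) h
    (by push_cast; linarith only [hx0]) (by push_cast; linarith only [hx1])

theorem fxm_e_two {l : ℝ} (h0 : 0 ≤ l) (h1 : l ≤ 1 / 5) :
    l * (-16 + 467 / 10 * l - 469 / 10 * l ^ 2) ≤ 6 * (Real.exp (-(4 * l)) - 1) + 8 * l := by
  have h := fxm_poly (q := padd (psm (1260 ^ 2) [-60, 240, -467, 469]) (psm 60 (ppow kAL 2))) h0 h1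
    (by (clear * -; decide +kernel))
  have hE := ks_E_ge 2 h0 (by linarith)
  rw [ev1_padd, ev1_psm, ev1_psm, ev1_ppow] at h
  simp only [ev1_cons, ev1_nil] at h
  rw [show -(2 * ((2 : ℕ) : ℝ) * l) = -(4 * l) by push_cast; ring] at hE
  generalize ev1 kAL l ^ 2 = A at *
  push_cast at h
  nlinarith only [hE, h]

theorem fxm_e_three {l : ℝ} (h0 : 0 ≤ l) (h1 : l ≤ 1 / 5) :
    l * (-36 + 1704 / 10 * l - 2279 / 10 * l ^ 2) ≤ 10 * (Real.exp (-(6 * l)) - 1) + 24 * l := by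
  have h := fxm_poly (q := padd (psm (1260 ^ 3) [-100, 600, -1704, 2279]) (psm 100 (ppow kAL 3))) h0 h1
    (by (clear * -; decide +kernel))
  have hE := ks_E_ge 3 h0 (by linarith only [h1])
  rw [ev1_padd, ev1_psm, ev1_psm, ev1_ppow] at h
  simp only [ev1_cons, ev1_nil] at h
  rw [show -(2 * ((3 : ℕ) : ℝ) * l) = -(6 * l) by push_cast; ring] at hE
  generalize ev1 kAL l ^ 3 = A at *
  push_cast at h
  linarith

theorem fxm_e_four {l : ℝ} (h0 : 0 ≤ l) (h1 : l ≤ 1 / 5) :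
    l * (-64 + 4101 / 10 * l - 6561 / 10 * l ^ 2) ≤ 14 * (Real.exp (-(8 * l)) - 1) + 48 * l := by
  have h := fxm_poly (q := padd (psm (1260 ^ 4) [-140, 1120, -4101, 6561]) (psm 140 (ppow kAL 4))) h0 h1
    (by (clear * -; decide +kernel))
  have hE := ks_E_ge 4 h0 (by linarith only [h1])
  rw [ev1_padd, ev1_psm, ev1_psm, ev1_ppow] at h
  simp only [ev1_cons, ev1_nil] at h
  rw [show -(2 * ((4 : ℕ) : ℝ) * l) = -(8 * l) by push_cast; ring] at hE
  generalize ev1 kAL l ^ 4 = A at *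
  push_cast at h
  linarith

theorem fxm_e_five {l : ℝ} (h0 : 0 ≤ l) (h1 : l ≤ 1 / 5) :
    l * (-100 + 7936 / 10 * l - 14362 / 10 * l ^ 2) ≤ 18 * (Real.exp (-(10 * l)) - 1) + 80 * l := by
  have h := fxm_poly (q := padd (psm (1260 ^ 5) [-180, 1800, -7936, 14362]) (psm 180 (ppow kAL 5))) h0 h1
    (by (clear * -; decide +kernel))
  have hE := ks_E_ge 5 h0 (by linarith only [h1])
  rw [ev1_padd, ev1_psm, ev1_psm, ev1_ppow] at h
  simp only [ev1_cons, ev1_nil] at h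
  rw [show -(2 * ((5 : ℕ) : ℝ) * l) = -(10 * l) by push_cast; ring] at hE
  generalize ev1 kAL l ^ 5 = A at *
  push_cast at h
  linarith

theorem fxm_e_six {l : ℝ} (h0 : 0 ≤ l) (h1 : l ≤ 1 / 5) :
    l * (-144 + 13417 / 10 * l - 26570 / 10 * l ^ 2) ≤ 22 * (Real.exp (-(12 * l)) - 1) + 120 * l := by
  have h := fxm_poly (q := padd (psm (1260 ^ 6) [-220, 2640, -13417, 26570]) (psm 220 (ppow kAL 6))) h0 h1
    (by (clear * -; decide +kernel))
  have hE := ks_E_ge 6 h0 (by linarith only [h1])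
  rw [ev1_padd, ev1_psm, ev1_psm, ev1_ppow] at h
  simp only [ev1_cons, ev1_nil] at h
  rw [show -(2 * ((6 : ℕ) : ℝ) * l) = -(12 * l) by push_cast; ring] at hE
  generalize ev1 kAL l ^ 6 = A at *
  push_cast at h
  linarith

noncomputable def fxmQ (z l : ℝ) : ℝ :=
  3 / 4 * (-16 + 467 / 10 * l - 469 / 10 * l ^ 2) +
  5 / 8 * z * (-36 + 1704 / 10 * l - 2279 / 10 * l ^ 2) +
  35 / 64 * z ^ 2 * (-64 + 4101 / 10 * l - 6561 / 10 * l ^ 2) +
  63 / 128 * z ^ 3 * (-100 + 7936 / 10 * l - 14362 / 10 * l ^ 2) +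
  231 / 512 * z ^ 4 * (-144 + 13417 / 10 * l - 26570 / 10 * l ^ 2)

/-- `l ≤ 1/5` -/
theorem fxm_C_ge {z s l : ℝ} (hz : 0 ≤ z) (h0 : 0 ≤ l) (h1 : l ≤ 1 / 5) :
    s ^ 2 * z * l * fxmQ z l ≤ ksC z s l := by
  have c2 := mul_le_mul_of_nonneg_left (fxm_e_two h0 h1) (by positivity : 0 ≤ s ^ 2 * (3 / 4 * z))
  have c3 := mul_le_mul_of_nonneg_left (fxm_e_three h0 h1)
    (by (clear * -; positivity) : 0 ≤ s ^ 2 * (5 / 8 * z ^ 2))
  have c4 := mul_le_mul_of_nonneg_left (fxm_e_four h0 h1)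
    (by positivity : 0 ≤ s ^ 2 * (35 / 64 * z ^ 3))
  have c5 := mul_le_mul_of_nonneg_left (fxm_e_five h0 h1)
    (by positivity : 0 ≤ s ^ 2 * (63 / 128 * z ^ 4))
  have c6 := mul_le_mul_of_nonneg_left (fxm_e_six h0 h1)
    (by positivity : 0 ≤ s ^ 2 * (231 / 512 * z ^ 5))
  simp only [fxmQ, ksC]
  linarith only [c2, c3, c4, c5, c6]

def fxmKQ : Ex := fpk 3 4 * fpq (fpk (-16) 1) (fpk 467 10) (fpk (-469) 10) + fpZ * (
  fpk 5 8 * fpq (fpk (-36) 1) (fpk 1704 10) (fpk (-2279) 10) + fpZ * (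
  fpk 35 64 * fpq (fpk (-64) 1) (fpk 4101 10) (fpk (-6561) 10) + fpZ * (
  fpk 63 128 * fpq (fpk (-100) 1) (fpk 7936 10) (fpk (-14362) 10) + fpZ * (
  fpk 231 512 * fpq (fpk (-144) 1) (fpk 13417 10) (fpk (-26570) 10)))))

theorem fxmKQ_R (s l : ℝ) : fxmKQ.R s l = fxmQ (1 - s ^ 2) l := by
  unfold fxmKQ fpq fxmQ
  simp only [Ex.R_add, Ex.R_mul, Ex.R_Y, fpZ_R]
  generalize 1 - s ^ 2 = z
  simp (discharger := norm_num) only [fpk_R]
  push_cast
  ring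

/-- `s³ (1+s) C_K` -/
def fxmCK : Ex := fpk 4 1 * (Ex.X * Ex.X) * fpO - fpk 4 1 * (Ex.X * Ex.X * (Ex.X * Ex.X)) -
  fpk 2 1 * fpS5 * fpO - fpk 6 1 * fpZ * Ex.Y * fpO + fpS5 * fpO * fpZ * Ex.Y * fxmKQ

def fxmBB : Ex := fxmCK + fpk 4 1 * fpS5 * fpO * fpA

noncomputable def fxmCKr (s z l : ℝ) : ℝ :=
  4 / s - 4 * s / (1 + s) - 2 * s ^ 2 - 6 * (z / s ^ 3) * l + s ^ 2 * z * l * fxmQ z l

theorem fxmCK_R {s : ℝ} (hs : 0 < s) (l : ℝ) :
    fxmCK.R s l = s ^ 3 * (1 + s) * fxmCKr s (1 - s ^ 2) l := by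
  unfold fxmCK fpS5 fpO fxmCKr
  simp only [Ex.R_add, Ex.R_sub, Ex.R_mul, Ex.R_X, Ex.R_Y, fpZ_R, fxmKQ_R]
  generalize fxmQ (1 - s ^ 2) l = Q
  generalize 1 - s ^ 2 = z
  simp (discharger := norm_num) only [fpk_R]
  have : 1 + s ≠ 0 := by positivity
  push_cast
  field_simp

/-! ## kernel-checked inequalities, first variable `s`, second variable `l` -/

def fxmC1 : Ex := fpS5 * (fpk 7 50 - Ex.Y * fpEU) + fpk 3 1 * fpZ

def fxmA0 (w : Ex) : Ex := fxmC1 * w + fpC0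

theorem fxmC1_R (s l : ℝ) : fxmC1.R s l =
    s ^ 5 * (7 / 50 - l * fpU (1 - s ^ 2) l) + 3 * (1 - s ^ 2) := by
  unfold fxmC1 fpS5
  simp only [Ex.R_add, Ex.R_sub, Ex.R_mul, Ex.R_X, Ex.R_Y, fpZ_R, fpEU_R]
  generalize fpU (1 - s ^ 2) l = U
  simp (discharger := norm_num) only [fpk_R]
  push_cast
  ring

theorem fxmA0_R (W : Ex) (s l : ℝ) : (fxmA0 W).R s l =
    (s ^ 5 * (7 / 50 - l * fpU (1 - s ^ 2) l) + 3 * (1 - s ^ 2)) * W.R s l +
    (s ^ 5 * (123 / 25 * (1 - s ^ 2) - l * fpV (1 - s ^ 2) l) - 9 * (1 - s ^ 2) -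
      2 * (1 - s ^ 2) * s ^ 2 * (2 / 5 + 13 * (1 - s ^ 2) / 20 + 22 * (1 - s ^ 2) ^ 3 / 5)) := by
  unfold fxmA0 fpC0 fpS5
  simp only [Ex.R_add, Ex.R_mul, fxmC1_R, Ex.R_sub, Ex.R_X, fpZ_R, Ex.R_Y, fpEV_R]
  generalize fpU (1 - s ^ 2) l = U
  generalize fpV (1 - s ^ 2) l = V
  generalize W.R s l = w
  simp (discharger := norm_num) only [fpk_R]
  push_cast
  ring

theorem fxmk_1 : Ex.nn (2 ^ 1024) 40 4000 8164 8950 10000 0 17 100 (fxmA0 (fpk 9 1)) = true := by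
  (clear * -; decide +kernel)
theorem fxmk_2 : Ex.nn (2 ^ 1024) 40 4000 7141 8165 10000 0 17 100
    (fxmA0 (fpk 27 1 * fpZ)) = true := by
  (clear * -; decide +kernel)
theorem fxmk_3 : Ex.nn (2 ^ 1024) 40 4000 7141 8950 10000 0 17 100 fxmC1 = true := by
  (clear * -; decide +kernel)

/-- the `l²` coefficient of `T` -/
theorem fxms_A {s z w l : ℝ} (hs : 0 < s) (hz : z = 1 - s ^ 2) (hz0 : 1 / 5 ≤ z)
    (hz1 : z ≤ 49 / 100) (hw9 : 9 ≤ w) (hw27 : 27 * z ≤ w) (hl : 0 ≤ l) (hl1 : l ≤ 17 / 100) :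
    3 / 2 * w + 3 / 25 * (w + 3 * z) * (w / s ^ 2) ≤
      2 * (w + 3 * z) - l * (w * fpU z l + fpV z l) + 3 * z * (w - 3) / s ^ 5 -
      2 * z / s ^ 3 * (2 / 5 + 13 * z / 20 + 22 * z ^ 3 / 5) +
      3 / 25 * (w + 3 * z) * (w / s ^ 2 - 3) := by
  have hs1 : 10000 * s ≤ 8950 := by nlinarith only [hz, hz0]
  have hs0 : 7141 ≤ 10000 * s := by nlinarith only [hz, hz1, hs]
  have key : ∀ W : Ex, 0 ≤ (fxmA0 W).R s l → W.R s l ≤ w →
      0 ≤ (s ^ 5 * (7 / 50 - l * fpU z l) + 3 * z) * w +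
      (s ^ 5 * (123 / 25 * z - l * fpV z l) - 9 * z -
      2 * z * s ^ 2 * (2 / 5 + 13 * z / 20 + 22 * z ^ 3 / 5)) := by
    intro W h hW
    have h3 := Ex.nn_closed (x := s) (y := l) (by norm_num) (by norm_num) (by norm_num)
      (by norm_num) fxmk_3 (by push_cast; linarith only [hs0]) (by push_cast; linarith only [hs1])
      (by push_cast; linarith only [hl]) (by push_cast; linarith only [hl1])
    rw [fxmC1_R, ← hz] at h3
    rw [fxmA0_R, ← hz] at h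
    have := mul_le_mul_of_nonneg_left hW h3
    linarith only [h, this]
  have main : 0 ≤ (s ^ 5 * (7 / 50 - l * fpU z l) + 3 * z) * w +
      (s ^ 5 * (123 / 25 * z - l * fpV z l) - 9 * z -
      2 * z * s ^ 2 * (2 / 5 + 13 * z / 20 + 22 * z ^ 3 / 5)) := by
    rcases le_total (10000 * s) 8165 with h | h
    · refine key (fpk 27 1 * fpZ) (Ex.nn_closed (by norm_num) (by norm_num) (by norm_num)
        (by norm_num) fxmk_2 (by push_cast; linarith only [hs0]) (by push_cast; linarith only [h])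
        (by push_cast; linarith only [hl]) (by push_cast; linarith only [hl1])) ?_
      rw [Ex.R_mul, fpZ_R, fpk_R _ _ _ _ le_rfl, ← hz]
      push_cast
      linarith only [hw27]
    · refine key (fpk 9 1) (Ex.nn_closed (by norm_num) (by norm_num) (by norm_num)
        (by norm_num) fxmk_1 (by push_cast; linarith only [h]) (by push_cast; linarith only [hs1])
        (by push_cast; linarith only [hl]) (by push_cast; linarith only [hl1])) ?_
      rw [fpk_R _ _ _ _ le_rfl]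
      push_cast
      linarith only [hw9]
  generalize fpU z l = U at *
  generalize fpV z l = V at *
  have e : 2 * (w + 3 * z) - l * (w * U + V) + 3 * z * (w - 3) / s ^ 5 -
      2 * z / s ^ 3 * (2 / 5 + 13 * z / 20 + 22 * z ^ 3 / 5) +
      3 / 25 * (w + 3 * z) * (w / s ^ 2 - 3) -
      (3 / 2 * w + 3 / 25 * (w + 3 * z) * (w / s ^ 2)) =
      ((s ^ 5 * (7 / 50 - l * U) + 3 * z) * w +
      (s ^ 5 * (123 / 25 * z - l * V) - 9 * z -
      2 * z * s ^ 2 * (2 / 5 + 13 * z / 20 + 22 * z ^ 3 / 5))) / s ^ 5 := by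
    field_simp
    ring
  have h4 : 0 ≤ 2 * (w + 3 * z) - l * (w * U + V) + 3 * z * (w - 3) / s ^ 5 -
      2 * z / s ^ 3 * (2 / 5 + 13 * z / 20 + 22 * z ^ 3 / 5) +
      3 / 25 * (w + 3 * z) * (w / s ^ 2 - 3) -
      (3 / 2 * w + 3 / 25 * (w + 3 * z) * (w / s ^ 2)) := by
    rw [e]
    exact div_nonneg main (by positivity)
  (clear * - h4; linarith)

def fxmH : Ex := fpk 6 1 * (Ex.X * Ex.X) + fpk 6 1 * Ex.X + fpk 1 1

def fxmD : Ex := (fxmBB - fpk 3 10 * (Ex.X * Ex.X * Ex.X) * fpO -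
  fpk 2 15 * (Ex.X * Ex.X * (Ex.X * Ex.X)) * (fpO * fpO)) * fxmH -
  fpk 28 13 * (Ex.X * Ex.X) * (fpO * fpO) * (fpk 3 1 * Ex.X + fpk 1 1)

theorem fxmD_R {s : ℝ} (hs : 0 < s) (l : ℝ) :
    fxmD.R s l = s ^ 3 * (1 + s) * (6 * s ^ 2 + 6 * s + 1) *
      (fxmCKr s (1 - s ^ 2) l + 4 * s ^ 2 * fpAr l - 3 / 10 - 2 / 15 * (s * (1 + s)) -
      28 / 13 / s * ((1 + s) * (3 * s + 1) / (6 * s ^ 2 + 6 * s + 1))) := by
  unfold fxmD fxmH fxmBB fpS5 fpO
  simp only [Ex.R_sub, Ex.R_mul, Ex.R_add, fxmCK_R hs, Ex.R_X, fpA_R]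
  generalize fxmCKr s (1 - s ^ 2) l = C
  generalize fpAr l = A
  simp (discharger := norm_num) only [fpk_R]
  have : 6 * s ^ 2 + 6 * s + 1 ≠ 0 := by positivity
  push_cast
  (clear * - hs; field_simp)

theorem fxmk_4 : Ex.nn (2 ^ 1024) 40 4000 7141 8950 10000 0 17 100 fxmD = true := by
  (clear * -; decide +kernel)

theorem fxmk_5 : Ex.nn (2 ^ 1024) 40 4000 7141 8950 10000 0 17 100 fxmCK = true := by
  (clear * -; decide +kernel)

/-- the coefficient of `W` -/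
theorem fxms_B {s z l : ℝ} (hs : 0 < s) (hz : z = 1 - s ^ 2) (hz0 : 1 / 5 ≤ z)
    (hz1 : z ≤ 49 / 100) (hl : 0 ≤ l) (hl1 : l ≤ 17 / 100) :
    3 / 10 + 2 / 15 * (s * (1 + s)) +
      28 / 13 / s * ((1 + s) * (3 * s + 1) / (6 * s ^ 2 + 6 * s + 1)) ≤
      fxmCKr s z l + 4 * s ^ 2 * fpAr l ∧ 0 ≤ fxmCKr s z l := by
  have hs1 : 10000 * s ≤ 8950 := by nlinarith
  have hs0 : 7141 ≤ 10000 * s := by nlinarith only [hz, hz1, hs]
  have h := Ex.nn_closed (x := s) (y := l) (by norm_num) (by norm_num) (by norm_num)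
      (by norm_num) fxmk_4 (by push_cast; linarith only [hs0]) (by push_cast; linarith only [hs1])
      (by push_cast; linarith only [hl]) (by push_cast; linarith only [hl1])
  have h' := Ex.nn_closed (x := s) (y := l) (by norm_num) (by norm_num) (by norm_num)
      (by (clear * -; norm_num)) fxmk_5 (by push_cast; linarith only [hs0]) (by push_cast; linarith only [hs1])
      (by push_cast; linarith only [hl]) (by push_cast; linarith only [hl1])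
  rw [fxmD_R hs, ← hz] at h
  rw [fxmCK_R hs, ← hz] at h'
  have h2 := nonneg_of_mul_nonneg_right h (by positivity)
  have h3 := nonneg_of_mul_nonneg_right h' (by positivity)
  exact ⟨by (clear * - h2; linarith), h3⟩

/-! ## the bound for `e₁ - T` against `ρ`, one variable -/

def fxmAs : Ex := fpk 2073 1000 - fpk 2 1 * (Ex.X * Ex.X * Ex.X) + fpk 2 15 * (Ex.X * Ex.X)

def fxmR1 : Ex := fpk 2 1 * (Ex.X * Ex.X * (Ex.X * Ex.X)) + fpk 45 1 * (Ex.X * Ex.X) + fpk 75 1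

def fxmR2 : Ex := fpk 2 1 * (Ex.X * Ex.X * (Ex.X * Ex.X)) + fpk 135 1 * fpZ * (Ex.X * Ex.X) +
  fpk 675 1 * (fpZ * fpZ)

def fxmP (R : Ex) : Ex := fpk 7 10 * R - fpk 110 3 * (fxmAs * fxmAs) * (Ex.X * fpO)

def fxmP' (R : Ex) : Ex := R - fpk 100 1 * fxmAs * (Ex.X * Ex.X)

theorem fxmk_6 : Ex.nn (2 ^ 512) 40 4000 8164 8950 10000 0 1 1 (fxmP fxmR1) = true := by
  (clear * -; decide +kernel)
theorem fxmk_7 : Ex.nn (2 ^ 512) 40 4000 7141 8165 10000 0 1 1 (fxmP fxmR2) = true := by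
  (clear * -; decide +kernel)
theorem fxmk_8 : Ex.nn (2 ^ 512) 40 4000 8164 8950 10000 0 1 1 (fxmP' fxmR1) = true := by
  (clear * -; decide +kernel)
theorem fxmk_9 : Ex.nn (2 ^ 512) 40 4000 7141 8165 10000 0 1 1 (fxmP' fxmR2) = true := by
  (clear * -; decide +kernel)

theorem fxmAs_R (s l : ℝ) : fxmAs.R s l = 2073 / 1000 - 2 * s ^ 3 + 2 / 15 * s ^ 2 := by
  unfold fxmAs
  simp only [Ex.R_add, Ex.R_sub, Ex.R_mul, Ex.R_X]
  simp (discharger := norm_num) only [fpk_R]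
  push_cast
  ring

theorem fxmP_R (R : Ex) (s l : ℝ) : (fxmP R).R s l =
    7 / 10 * R.R s l - 110 / 3 * (2073 / 1000 - 2 * s ^ 3 + 2 / 15 * s ^ 2) ^ 2 * (s * (1 + s)) := by
  unfold fxmP fpO
  simp only [Ex.R_add, Ex.R_sub, Ex.R_mul, Ex.R_X, fxmAs_R]
  simp (discharger := norm_num) only [fpk_R]
  push_cast
  ring

theorem fxmP'_R (R : Ex) (s l : ℝ) : (fxmP' R).R s l =
    R.R s l - 100 * (2073 / 1000 - 2 * s ^ 3 + 2 / 15 * s ^ 2) * s ^ 2 := by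
  unfold fxmP'
  simp only [Ex.R_sub, Ex.R_mul, Ex.R_X, fxmAs_R]
  simp (discharger := norm_num) only [fpk_R]
  push_cast
  ring

theorem fxmR1_R (s l : ℝ) : fxmR1.R s l = 2 * s ^ 4 + 45 * s ^ 2 + 75 := by
  unfold fxmR1
  simp only [Ex.R_add, Ex.R_mul, Ex.R_X]
  simp (discharger := norm_num) only [fpk_R]
  push_cast
  ring

theorem fxmR2_R (s l : ℝ) : fxmR2.R s l =
    2 * s ^ 4 + 135 * (1 - s ^ 2) * s ^ 2 + 675 * (1 - s ^ 2) ^ 2 := by
  unfold fxmR2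
  simp only [Ex.R_add, Ex.R_mul, Ex.R_X, fpZ_R]
  simp (discharger := norm_num) only [fpk_R]
  push_cast
  ring

/-- the coefficient `a(s)` of `u` in the bound for `e₁ - T` -/
noncomputable def fxma (s : ℝ) : ℝ := 2073 / 1000 / s - 2 * s ^ 2 + 2 / 15 * s

theorem fxms_rho {s z w ρ : ℝ} (hs : 0 < s) (hz : z = 1 - s ^ 2) (hz0 : 1 / 5 ≤ z)
    (hz1 : z ≤ 49 / 100) (hw9 : 9 ≤ w) (hw27 : 27 * z ≤ w)
    (hρ : (2 + 5 * (w / s ^ 2) + 25 / 27 * (w / s ^ 2) ^ 2) / 10 ≤ ρ) :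
    11 / 3 * fxma s ^ 2 * (1 + 1 / s) ≤ 7 / 10 * ρ ∧ fxma s * (1 / s) ≤ 1 / 10 * ρ ∧
      1 / 2 * w ≤ ρ ∧ 0 ≤ fxma s := by
  have hs1 : 10000 * s ≤ 8950 := by nlinarith only [hz, hz0]
  have hs0 : 7141 ≤ 10000 * s := by nlinarith only [hz, hz1, hs]
  have hs4 : 0 < s ^ 4 := by positivity
  have hs2 : 0 < s ^ 2 := by positivity
  have key : ∀ R : ℝ, R ≤ 2 * s ^ 4 + 5 * w * s ^ 2 + 25 / 27 * w ^ 2 →
      0 ≤ 7 / 10 * R - 110 / 3 * (2073 / 1000 - 2 * s ^ 3 + 2 / 15 * s ^ 2) ^ 2 * (s * (1 + s)) →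
      0 ≤ R - 100 * (2073 / 1000 - 2 * s ^ 3 + 2 / 15 * s ^ 2) * s ^ 2 →
      11 / 3 * fxma s ^ 2 * (1 + 1 / s) ≤ 7 / 10 * ρ ∧ fxma s * (1 / s) ≤ 1 / 10 * ρ := by
    intro R hR h1 h2
    have e0 : (2 + 5 * (w / s ^ 2) + 25 / 27 * (w / s ^ 2) ^ 2) / 10 * s ^ 4 =
        (2 * s ^ 4 + 5 * w * s ^ 2 + 25 / 27 * w ^ 2) / 10 := by
      field_simp
    have h3 : R / 10 ≤ ρ * s ^ 4 := by
      have := mul_le_mul_of_nonneg_right hρ hs4.le
      rw [e0] at this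
      linarith only [hR, this]
    have e1 : 11 / 3 * fxma s ^ 2 * (1 + 1 / s) * s ^ 4 =
        11 / 3 * (2073 / 1000 - 2 * s ^ 3 + 2 / 15 * s ^ 2) ^ 2 * (s * (1 + s)) := by
      unfold fxma
      field_simp
      ring
    have e2 : fxma s * (1 / s) * s ^ 4 =
        (2073 / 1000 - 2 * s ^ 3 + 2 / 15 * s ^ 2) * s ^ 2 := by
      unfold fxma
      (clear * - hs; field_simp)
    constructor
    · refine le_of_mul_le_mul_right ?_ hs4
      rw [e1]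
      linarith only [h1, h3]
    · refine le_of_mul_le_mul_right ?_ hs4
      rw [e2]
      linarith only [h2, h3]
  have hz' : 1 - s ^ 2 = z := hz.symm
  have hkey2 : 11 / 3 * fxma s ^ 2 * (1 + 1 / s) ≤ 7 / 10 * ρ ∧
      fxma s * (1 / s) ≤ 1 / 10 * ρ := by
    rcases le_total (10000 * s) 8165 with h | h
    · have h7 := Ex.nn_closed (x := s) (y := 0) (by norm_num) (by norm_num) (by norm_num)
        (by norm_num) fxmk_7 (by push_cast; linarith only [hs0]) (by push_cast; linarith only [h])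
        (by push_cast; linarith only []) (by push_cast; linarith only [])
      have h9 := Ex.nn_closed (x := s) (y := 0) (by norm_num) (by norm_num) (by norm_num)
        (by norm_num) fxmk_9 (by push_cast; linarith only [hs0]) (by push_cast; linarith only [h])
        (by push_cast; linarith only []) (by push_cast; linarith only [])
      rw [fxmP_R, fxmR2_R] at h7
      rw [fxmP'_R, fxmR2_R] at h9
      refine key _ ?_ h7 h9
      rw [hz']
      have a1 : 27 * z * s ^ 2 ≤ w * s ^ 2 := mul_le_mul_of_nonneg_right hw27 hs2.le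
      have a2 : (27 * z) ^ 2 ≤ w ^ 2 := pow_le_pow_left₀ (by (clear * - hz hz0 hs2; linarith)) hw27 2
      nlinarith only [a1, a2]
    · have h6 := Ex.nn_closed (x := s) (y := 0) (by norm_num) (by norm_num) (by norm_num)
        (by norm_num) fxmk_6 (by push_cast; linarith only [h]) (by push_cast; linarith only [hs1])
        (by push_cast; linarith only []) (by push_cast; linarith only [])
      have h8 := Ex.nn_closed (x := s) (y := 0) (by norm_num) (by norm_num) (by norm_num)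
        (by norm_num) fxmk_8 (by push_cast; linarith only [h]) (by push_cast; linarith only [hs1])
        (by push_cast; linarith only []) (by push_cast; linarith only [])
      rw [fxmP_R, fxmR1_R] at h6
      rw [fxmP'_R, fxmR1_R] at h8
      refine key _ ?_ h6 h8
      have a1 : 9 * s ^ 2 ≤ w * s ^ 2 := mul_le_mul_of_nonneg_right hw9 hs2.le
      have a2 : (9 : ℝ) ^ 2 ≤ w ^ 2 := pow_le_pow_left₀ (by linarith only []) hw9 2
      (clear * - a1 a2; nlinarith)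
  refine ⟨hkey2.1, hkey2.2, ?_, ?_⟩
  · have h1 : w ≤ w / s ^ 2 := by
      rw [le_div_iff₀ hs2]
      nlinarith only [hz, hz0, hw9]
    have h2 : 0 ≤ (w / s ^ 2) ^ 2 := sq_nonneg _
    linarith only [hρ, h1, h2]
  · unfold fxma
    have h1 : 2073 / 1000 ≤ 2073 / 1000 / s := by
      rw [le_div_iff₀ hs]; linarith only [hs1]
    linarith

/-! ## the correction term -/

/-- `2s²(1+s) - z l (2 + 111/50 l)(1+2s)` -/
def fxmDb : Ex := fpk 2 1 * (Ex.X * Ex.X) * fpO -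
  fpZ * Ex.Y * (fpk 2 1 + fpk 9 4 * Ex.Y) * (fpk 1 1 + fpk 2 1 * Ex.X)

def fxmG : Ex := (fpk 2 5 + fpZ * (fpk 13 20 + fpZ * fpZ * fpk 22 5)) * (fpO * fpO) * fxmDb -
  fpk 9 4 * (Ex.X * Ex.X * (Ex.X * Ex.X)) * fpO -
  (Ex.X * Ex.X) * fpZ * (fpk 2 1 + fpk 9 4 * Ex.Y) * (fpk 1 1 + fpk 2 1 * Ex.X)

theorem fxmk_10 : Ex.nn (2 ^ 1024) 40 4000 7141 8950 10000 0 17 100 fxmG = true := by
  (clear * -; decide +kernel)

theorem fxmDb_R (s l : ℝ) : fxmDb.R s l = 2 * s ^ 2 * (1 + s) -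
    (1 - s ^ 2) * l * (2 + 9 / 4 * l) * (1 + 2 * s) := by
  unfold fxmDb fpO
  simp only [Ex.R_sub, Ex.R_mul, Ex.R_X, Ex.R_add, fpZ_R, Ex.R_Y]
  simp (discharger := norm_num) only [fpk_R]
  push_cast
  ring

theorem fxmG_R (s l : ℝ) : fxmG.R s l =
    (2 / 5 + 13 * (1 - s ^ 2) / 20 + 22 * (1 - s ^ 2) ^ 3 / 5) * (1 + s) ^ 2 *
      (2 * s ^ 2 * (1 + s) - (1 - s ^ 2) * l * (2 + 9 / 4 * l) * (1 + 2 * s)) -
    9 / 4 * s ^ 4 * (1 + s) - s ^ 2 * (1 - s ^ 2) * (2 + 9 / 4 * l) * (1 + 2 * s) := by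
  unfold fxmG fpO
  simp only [Ex.R_add, Ex.R_sub, Ex.R_mul, Ex.R_X, Ex.R_Y, fpZ_R, fxmDb_R]
  simp (discharger := norm_num) only [fpk_R]
  push_cast
  ring

/-- `e^{2l} - 1 ≤ 2l + 111/50 l²` for `0 ≤ l ≤ 17/100` -/
theorem fxms_exp {l : ℝ} (hl : 0 ≤ l) (hl1 : l ≤ 17 / 100) :
    Real.exp (2 * l) - 1 ≤ l * (2 + 9 / 4 * l) := by
  have h := Corr.exp_le_p (x := 2 * l) (by linarith only [hl]) (by linarith only [hl1])
  have a : 0 ≤ l ^ 2 := by positivity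
  have b3 : l ^ 3 ≤ 17 / 100 * l ^ 2 := by nlinarith only [hl1]
  have b4 : l ^ 4 ≤ (17 / 100) ^ 2 * l ^ 2 := by nlinarith only [b3, hl]
  have b5 : l ^ 5 ≤ (17 / 100) ^ 3 * l ^ 2 := by nlinarith only [b4, b3]
  have b6 : l ^ 6 ≤ (17 / 100) ^ 4 * l ^ 2 := by nlinarith only [b4]
  linarith

/-- from the form of `FxA` to the form of `FCor` -/
theorem fxms_G {s z l h : ℝ} (hs : 0 < s) (hz : z = 1 - s ^ 2) (hz0 : 1 / 5 ≤ z)
    (hz1 : z ≤ 49 / 100) (hl : 0 ≤ l) (hl1 : l ≤ 17 / 100) (hh : h = z * (Real.exp (2 * l) - 1)) :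
    -(2 / s * ((2 / 5 + 13 * z / 20 + 22 * z ^ 3 / 5) * (z / s ^ 2)) * l ^ 2) ≤
      2 * (-(s * h / ((1 + s) * (2 * s ^ 2 * (1 + s) - h * (1 + 2 * s))))) +
        2 * z / (s * (1 + s) ^ 2) * l := by
  have hs1 : 10000 * s ≤ 8950 := by nlinarith only [hz, hz0]
  have hs0 : 7141 ≤ 10000 * s := by nlinarith only [hz, hz1, hs]
  have key := Ex.nn_closed (x := s) (y := l) (by norm_num) (by norm_num) (by norm_num)
      (by norm_num) fxmk_10 (by push_cast; linarith only [hs0]) (by push_cast; linarith only [hs1])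
      (by push_cast; linarith only [hl]) (by push_cast; linarith only [hl1])
  rw [fxmG_R, ← hz] at key
  have hz00 : 0 < z := by linarith only [hz0]
  have hE : 0 ≤ Real.exp (2 * l) - 1 := by
    have := Real.add_one_le_exp (2 * l); linarith only [hl, this]
  have hh0 : 0 ≤ h := by rw [hh]; (clear * - hz0 hE; positivity)
  set k : ℝ := l * (2 + 9 / 4 * l) with hk
  have hhk : h ≤ z * k := by
    rw [hh]
    exact mul_le_mul_of_nonneg_left (fxms_exp hl hl1) hz00.le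
  have hk1 : k ≤ 41 / 100 := by rw [hk]; nlinarith only [hl1, hl]
  have hk0 : 0 ≤ k := by (clear * - hl; positivity)
  set D : ℝ := 2 * s ^ 2 * (1 + s) - z * k * (1 + 2 * s) with hD
  have hD0 : 0 < D := by
    have h1 : z * k ≤ 49 / 100 * (41 / 100) := mul_le_mul hz1 hk1 hk0 (by norm_num)
    have h2 : z * k * (1 + 2 * s) ≤ 49 / 100 * (41 / 100) * (1 + 2 * s) :=
      mul_le_mul_of_nonneg_right h1 (by positivity)
    have h3 : 1 / 2 ≤ s ^ 2 := by nlinarith only [hz, hz1]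
    have h4 : 2 * (1 / 2) * (1 + s) ≤ 2 * s ^ 2 * (1 + s) :=
      mul_le_mul_of_nonneg_right (by linarith only [hz, hz1]) (by positivity)
    rw [hD]
    linarith only [hs, h2, h4]
  have hD1 : D ≤ 2 * s ^ 2 * (1 + s) - h * (1 + 2 * s) := by
    have := mul_le_mul_of_nonneg_right hhk (by positivity : 0 ≤ 1 + 2 * s)
    rw [hD]; linarith only [this]
  have step1 : s * h / ((1 + s) * (2 * s ^ 2 * (1 + s) - h * (1 + 2 * s))) ≤
      s * (z * k) / ((1 + s) * D) := by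
    apply div_le_div₀ (by (clear * - hs hz0 hl; positivity)) (mul_le_mul_of_nonneg_left hhk hs.le) (by (clear * - hs hD0; positivity))
    exact mul_le_mul_of_nonneg_left hD1 (by positivity)
  have step2 : s * (z * k) / ((1 + s) * D) - z / (s * (1 + s) ^ 2) * l ≤
      1 / s * ((2 / 5 + 13 * z / 20 + 22 * z ^ 3 / 5) * (z / s ^ 2)) * l ^ 2 := by
    have e : 1 / s * ((2 / 5 + 13 * z / 20 + 22 * z ^ 3 / 5) * (z / s ^ 2)) * l ^ 2 -
        (s * (z * k) / ((1 + s) * D) - z / (s * (1 + s) ^ 2) * l) =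
        z * l ^ 2 * ((2 / 5 + 13 * z / 20 + 22 * z ^ 3 / 5) * (1 + s) ^ 2 * D -
          9 / 4 * s ^ 4 * (1 + s) - s ^ 2 * z * (2 + 9 / 4 * l) * (1 + 2 * s)) /
          (s ^ 3 * (1 + s) ^ 2 * D) := by
      have hD' : D ≠ 0 := hD0.ne'
      have e1 : s ^ 2 * l * D = s ^ 2 * l * (2 * s ^ 2 * (1 + s) - z * k * (1 + 2 * s)) := by
        rw [hD]
      field_simp
      rw [hk] at e1 ⊢
      linear_combination e1
    have h1 : 0 ≤ 1 / s * ((2 / 5 + 13 * z / 20 + 22 * z ^ 3 / 5) * (z / s ^ 2)) * l ^ 2 -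
        (s * (z * k) / ((1 + s) * D) - z / (s * (1 + s) ^ 2) * l) := by
      rw [e]
      apply div_nonneg _ (by (clear * - hs hD0; positivity))
      apply mul_nonneg (by (clear * - hz0; positivity))
      have e3 : D = 2 * s ^ 2 * (1 + s) - z * l * (2 + 9 / 4 * l) * (1 + 2 * s) := by
        rw [hD, hk]; ring
      rw [e3]
      exact key
    linarith only [h1]
  have e4 : 2 / s * ((2 / 5 + 13 * z / 20 + 22 * z ^ 3 / 5) * (z / s ^ 2)) * l ^ 2 =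
      2 * (1 / s * ((2 / 5 + 13 * z / 20 + 22 * z ^ 3 / 5) * (z / s ^ 2)) * l ^ 2) := by ring
  have e5 : 2 * z / (s * (1 + s) ^ 2) * l = 2 * (z / (s * (1 + s) ^ 2) * l) := by ring
  rw [e4, e5]
  linarith only [step1, step2]

/-! ## `φ(u) = u - log(1+u)`, `0 ≤ u ≤ 1/s` -/

theorem fxms_mono {u v : ℝ} (hu : 0 ≤ u) (huv : u ≤ v) :
    (1 + u) * (3 + u) / (6 + 6 * u + u ^ 2) ≤ (1 + v) * (3 + v) / (6 + 6 * v + v ^ 2) := by
  have hv : 0 ≤ v := hu.trans huv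
  rw [div_le_div_iff₀ (by positivity) (by positivity)]
  have e : (1 + v) * (3 + v) * (6 + 6 * u + u ^ 2) - (1 + u) * (3 + u) * (6 + 6 * v + v ^ 2) =
      (v - u) * (6 + 3 * (u + v) + 2 * u * v) := by ring
  have : 0 ≤ (v - u) * (6 + 3 * (u + v) + 2 * u * v) :=
    mul_nonneg (by linarith only [huv]) (by (clear * - hu hv; positivity))
  linarith only [this]

theorem fxms_mono2 {u v : ℝ} (hu : 0 ≤ u) (huv : u ≤ v) :
    u * (3 + u) / (6 + 6 * u + u ^ 2) ≤ v * (3 + v) / (6 + 6 * v + v ^ 2) := by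
  have hv : 0 ≤ v := hu.trans huv
  rw [div_le_div_iff₀ (by (clear * - hu; positivity)) (by positivity)]
  have e : v * (3 + v) * (6 + 6 * u + u ^ 2) - u * (3 + u) * (6 + 6 * v + v ^ 2) =
      (v - u) * (18 + 6 * (u + v) + 3 * u * v) := by ring
  have : 0 ≤ (v - u) * (18 + 6 * (u + v) + 3 * u * v) :=
    mul_nonneg (by linarith only [huv]) (by (clear * - hu hv; positivity))
  linarith only [this]

/-- `φ ≤ W (s+1)(3s+1)/(6s²+6s+1)` and `φ ≤ 19/50 u` -/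
theorem fxms_phi {s u : ℝ} (hs : 0 < s) (hs0 : 714 / 1000 ≤ s) (hu : 0 ≤ u) (hus : u * s ≤ 1) :
    u - Real.log (1 + u) ≤
      u ^ 2 / (1 + u) * ((1 + s) * (3 * s + 1) / (6 * s ^ 2 + 6 * s + 1)) ∧
    u - Real.log (1 + u) ≤ 19 / 50 * u ∧ 0 ≤ u - Real.log (1 + u) := by
  have h0 := log_defect hu
  have hu1 : u ≤ 1 / s := by rwa [le_div_iff₀ hs]
  refine ⟨?_, ?_, ?_⟩
  · have h1 := fxms_mono hu hu1
    have e1 : (1 + 1 / s) * (3 + 1 / s) / (6 + 6 * (1 / s) + (1 / s) ^ 2) =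
        (1 + s) * (3 * s + 1) / (6 * s ^ 2 + 6 * s + 1) := by
      field_simp
      ring
    rw [e1] at h1
    have h2 := mul_le_mul_of_nonneg_left h1 (by (clear * - hu; positivity) : 0 ≤ u ^ 2 / (1 + u))
    have e2 : u ^ 2 / (1 + u) * ((1 + u) * (3 + u) / (6 + 6 * u + u ^ 2)) =
        u ^ 2 * (3 + u) / (6 + 6 * u + u ^ 2) := by
      field_simp
    rw [e2] at h2
    linarith only [h0, h2]
  · have h1 := fxms_mono2 hu hu1
    have e1 : (1 / s) * (3 + 1 / s) / (6 + 6 * (1 / s) + (1 / s) ^ 2) =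
        (3 * s + 1) / (6 * s ^ 2 + 6 * s + 1) := by
      field_simp
    rw [e1] at h1
    have h3 : (3 * s + 1) / (6 * s ^ 2 + 6 * s + 1) ≤ 19 / 50 := by
      rw [div_le_iff₀ (by positivity)]
      nlinarith only [hs0]
    have h2 := mul_le_mul_of_nonneg_left (h1.trans h3) hu
    have e2 : u * (u * (3 + u) / (6 + 6 * u + u ^ 2)) =
        u ^ 2 * (3 + u) / (6 + 6 * u + u ^ 2) := by
      ring
    rw [e2] at h2
    linarith only [h0, h2]
  · have := Real.log_le_sub_one_of_pos (x := 1 + u) (by linarith only [hu])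
    linarith only [this]

/-! ## lower bound of `T` -/

/-- the `l²`-part -/
theorem fxms_Lpart {m z s l G : ℝ} (hm : 0 ≤ m) (hz : 0 < z) (hs : 0 < s) (hsz : s ^ 2 = 1 - z)
    (hl : 0 ≤ l) (hl2 : l ≤ 1 / 2)
    (hA : 3 / 2 * (m * z) + 3 / 25 * (m * z + 3 * z) * (m * z / s ^ 2) ≤
      2 * (m * z + 3 * z) - l * (m * z * fpU z l + fpV z l) +
      3 * z * (m * z - 3) / s ^ 5 - 2 * z / s ^ 3 * (2 / 5 + 13 * z / 20 + 22 * z ^ 3 / 5) +
      3 / 25 * (m * z + 3 * z) * (m * z / s ^ 2 - 3))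
    (hG : -(2 / s * ((2 / 5 + 13 * z / 20 + 22 * z ^ 3 / 5) * (z / s ^ 2)) * l ^ 2) ≤ G) :
    (3 / 2 * (m * z) + 3 / 25 * (m * z + 3 * z) * (m * z / s ^ 2)) * l ^ 2 ≤
      (m + 3) * z * (Real.exp (-(2 * l)) - 1 + 2 * l) + dpS0 m z l +
      (3 * (m - 3) * (z ^ 2 / s ^ 5) - 9 * (z / s ^ 3)) * l ^ 2 + G +
      3 / 25 * (m + 3) * z * ((m * (z / s ^ 2) - 3) * l ^ 2) := by
  have h1 := dpS0_ge' (m := m) (z := z) hm hz.le hl hl2
  have h2 := mul_le_mul_of_nonneg_right hA (sq_nonneg l)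
  have h3 : l ^ 3 * z * kB' m z l = l ^ 2 * (l * (m * z * fpU z l + fpV z l)) := by
    rw [← fp_kB]
    ring
  rw [h3] at h1
  rw [fpn_lam hs hsz]
  have h4 : 2 * z / s ^ 3 * (2 / 5 + 13 * z / 20 + 22 * z ^ 3 / 5) * l ^ 2 =
      2 / s * ((2 / 5 + 13 * z / 20 + 22 * z ^ 3 / 5) * (z / s ^ 2)) * l ^ 2 := by
    field_simp
  have h5 : 3 / 25 * (m * z + 3 * z) * (m * z / s ^ 2 - 3) * l ^ 2 =
      3 / 25 * (m + 3) * z * ((m * (z / s ^ 2) - 3) * l ^ 2) := by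
    (clear * - hs hm hz; field_simp)
  linarith

/-- the cross term: `(w/s²) l² - 2lu + (s²/w) u² ≥ 0` -/
theorem fxms_cross {m z s l u : ℝ} (hm : 27 ≤ m) (hz : 0 < z) (hs : 0 < s) :
    6 / 25 * (m + 3) * z * (u * l) ≤
      3 / 25 * (m * z + 3 * z) * (m * z / s ^ 2) * l ^ 2 + 2 / 15 * s ^ 2 * u ^ 2 := by
  have hm0 : 0 < m := by linarith only [hm]
  have hw : 0 < m * z := by positivity
  have h1 : 0 ≤ 3 / 25 * (m * z + 3 * z) * ((m * z * l - s ^ 2 * u) ^ 2 / (m * z * s ^ 2)) := by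
    positivity
  have e : 3 / 25 * (m * z + 3 * z) * ((m * z * l - s ^ 2 * u) ^ 2 / (m * z * s ^ 2)) =
      3 / 25 * (m * z + 3 * z) * (m * z / s ^ 2) * l ^ 2 - 6 / 25 * (m + 3) * z * (u * l) +
      3 / 25 * (1 + 3 / m) * (s ^ 2 * u ^ 2) := by
    field_simp
    ring
  have h2 : 3 / m ≤ 3 / 27 := div_le_div_of_nonneg_left (by norm_num) (by norm_num) hm
  have h3 : 3 / 25 * (1 + 3 / m) * (s ^ 2 * u ^ 2) ≤ 2 / 15 * (s ^ 2 * u ^ 2) := by
    apply mul_le_mul_of_nonneg_right _ (by (clear * - hs; positivity))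
    linarith only [h2]
  rw [e] at h1
  linarith only [h1, h3]

theorem fxms_T {m z s l u G N : ℝ} (hm : 27 ≤ m) (hz0 : 1 / 5 ≤ z) (hz1 : z ≤ 49 / 100)
    (hs : 0 < s) (hsz : s ^ 2 = 1 - z) (hw : 9 ≤ m * z) (hl : 0 ≤ l) (hl1 : l ≤ 17 / 100)
    (hu : 0 ≤ u) (hus : u * s ≤ 1) (hN : Real.log (1 + u) - u ≤ N)
    (hG : -(2 / s * ((2 / 5 + 13 * z / 20 + 22 * z ^ 3 / 5) * (z / s ^ 2)) * l ^ 2) ≤ G) :
    3 / 2 * (m * z) * l ^ 2 + 3 / 10 * (u ^ 2 / (1 + u)) ≤ dpT m z s l u G N := by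
  have hz : 0 < z := by linarith only [hz0]
  have hz' : z = 1 - s ^ 2 := by linarith only [hsz]
  have hl2 : l ≤ 1 / 2 := by linarith only [hl1]
  have hm0 : 0 ≤ m := by linarith only [hm]
  have hs0 : 714 / 1000 ≤ s := by nlinarith only [hz1, hsz, hs]
  have hw27 : 27 * z ≤ m * z := mul_le_mul_of_nonneg_right hm hz.le
  have h1 := fxms_Lpart hm0 hz hs hsz hl hl2 (fxms_A (w := m * z) hs hz' hz0 hz1 hw hw27 hl hl1) hG
  obtain ⟨hB, -⟩ := fxms_B hs hz' hz0 hz1 hl hl1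
  obtain ⟨hφ, -, hφ0⟩ := fxms_phi hs hs0 hu hus
  have hcr := fxms_cross (l := l) (u := u) hm hz hs
  have hu1 : 0 < 1 + u := by linarith only [hu]
  set W := u ^ 2 / (1 + u) with hW
  have hW0 : 0 ≤ W := by (clear * - hu; positivity)
  set H := (1 + s) * (3 * s + 1) / (6 * s ^ 2 + 6 * s + 1) with hH
  have hH0 : 0 ≤ H := by positivity
  have hC := mul_le_mul_of_nonneg_right (fxm_C_ge (s := s) hz.le hl (by linarith only [hl1])) hW0
  have hE := fpAr_le hl hl2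
  have hBW := mul_le_mul_of_nonneg_right hB hW0
  -- the `u²` term
  have huW : 2 / 15 * s ^ 2 * u ^ 2 ≤ 2 / 15 * (s * (1 + s)) * W := by
    have e : u ^ 2 = W * (1 + u) := by rw [hW]; (clear * - hu; field_simp)
    rw [e]
    have h2 : s ^ 2 * (1 + u) ≤ s * (1 + s) := by nlinarith only [hs, hus]
    have h3 := mul_le_mul_of_nonneg_right h2 (by (clear * - hu; positivity) : 0 ≤ 2 / 15 * W)
    linarith only [h3]
  -- the `N` term
  have hNt : -(28 / 13 / s * H * W) ≤ 2 * (m + 1) / ((m - 1) * s) * N := by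
    have e1 : 2 * (m + 1) / ((m - 1) * s) = 2 * (m + 1) / (m - 1) / s := by
      rw [div_div]
    have hκ : 2 * (m + 1) / (m - 1) ≤ 28 / 13 := by
      rw [div_le_iff₀ (by linarith only [hm])]; linarith only [hm]
    have h2 : 2 * (m + 1) / (m - 1) / s ≤ 28 / 13 / s := div_le_div_of_nonneg_right hκ hs.le
    have h3 : 0 ≤ 2 * (m + 1) / (m - 1) / s := by
      apply div_nonneg (div_nonneg (by linarith only [hm]) (by linarith only [hm])) hs.le
    rw [e1]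
    have h4 : -(u - Real.log (1 + u)) ≤ N := by linarith only [hN]
    have h6 : 2 * (m + 1) / (m - 1) / s * (u - Real.log (1 + u)) ≤ 28 / 13 / s * (W * H) :=
      mul_le_mul h2 hφ hφ0 (by (clear * - hs; positivity))
    have h7 := mul_le_mul_of_nonneg_left h4 h3
    linarith only [h6, h7]
  have hEW : 4 * s ^ 2 * fpAr l * W ≤ 4 * s ^ 2 * Real.exp (-(2 * l)) * W := by
    apply mul_le_mul_of_nonneg_right _ hW0
    exact mul_le_mul_of_nonneg_left hE (by positivity)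
  unfold dpT
  rw [dpS_eq, ← hW]
  simp only [fxmCKr] at hBW
  have hfin := add_le_add (add_le_add h1 hBW) (add_le_add (add_le_add hC hEW)
    (add_le_add hNt (add_le_add hcr huW)))
  linarith only [h1, hcr, hC, hBW, huW, hNt, hEW]

/-! ## upper bound of `e₁ - T`, lower bound of `e₁` -/

theorem fxms_Nt2 {s u φ : ℝ} (hs : 0 < s) (hu : 0 ≤ u) (hφ : φ ≤ 19 / 50 * u) :
    191 / 1000 / s * φ ≤ 73 / 1000 / s * u := by
  have h2 := mul_le_mul_of_nonneg_left hφ (by positivity : 0 ≤ 191 / 1000 / s)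
  have h3 : 0 ≤ 1 / s * u := by positivity
  have e : 191 / 1000 / s * (19 / 50 * u) = 191 / 1000 * (19 / 50) * (1 / s * u) := by ring
  have e' : 73 / 1000 / s * u = 73 / 1000 * (1 / s * u) := by ring
  rw [e] at h2
  rw [e']
  linarith only [h2, h3]

theorem fxms_q {s c u : ℝ} (hs : 0 < s) (hs1 : s ≤ 1) (hu : 0 ≤ u) (hc2 : c ≤ 1) :
    (2 * c / s - 2 * s ^ 2 + 2 * (1 - c)) * u ≤ (2 / s - 2 * s ^ 2) * u := by
  apply mul_le_mul_of_nonneg_right _ hu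
  have h2 : 2 * (1 - c) ≤ 2 * (1 - c) / s := by
    rw [le_div_iff₀ hs]; nlinarith only [hs1, hc2]
  have e : 2 * c / s = 2 / s - 2 * (1 - c) / s := by ring
  rw [e]; linarith only [h2]

theorem fxms_uu {s u : ℝ} (hs : 0 < s) (hu : 0 ≤ u) (hus : u * s ≤ 1) :
    2 / 15 * s ^ 2 * u ^ 2 ≤ 2 / 15 * s * u := by
  have h2 : 2 / 15 * s * u * (u * s) ≤ 2 / 15 * s * u * 1 :=
    mul_le_mul_of_nonneg_left hus (by (clear * - hs hu; positivity))
  linarith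

theorem fxms_lin {m z s l : ℝ} (hm : 27 ≤ m) (hz : 0 < z) (hz1 : z ≤ 49 / 100) (hs : 0 < s)
    (hsz : s ^ 2 = 1 - z) (hl : 0 ≤ l) (hl1 : l ≤ 17 / 100) :
    (m * z / 2 + 6 * z) * l ^ 2 + 2 * (z / s ^ 2) / (m + 2) * l ≤
      128 / 1000 * (m * z) * l := by
  have hw27 : 27 * z ≤ m * z := mul_le_mul_of_nonneg_right hm hz.le
  have hm0 : 0 < m := by linarith only [hm]
  have key : (m * z / 2 + 6 * z) * l + 2 * (z / s ^ 2) / (m + 2) ≤ 128 / 1000 * (m * z) := by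
    have hy : z / s ^ 2 ≤ 2 * z := by
      rw [div_le_iff₀ (by positivity), hsz]; nlinarith only [hz, hz1]
    have hy2 : 2 * (z / s ^ 2) / (m + 2) ≤ 2 * (2 * z) / 29 :=
      div_le_div₀ (by positivity) (by linarith) (by norm_num) (by linarith only [hm])
    have h3 : (m * z / 2 + 6 * z) * l ≤ (m * z / 2 + 6 * z) * (17 / 100) :=
      mul_le_mul_of_nonneg_left hl1 (by positivity)
    linarith only [hz, hw27, hy2, h3]
  have h5 := mul_le_mul_of_nonneg_right key hl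
  linarith only [h5]

theorem fxms_P {m z s l u c G N : ℝ} (hm : 27 ≤ m) (hz0 : 1 / 5 ≤ z) (hz1 : z ≤ 49 / 100)
    (hs : 0 < s) (hsz : s ^ 2 = 1 - z) (hw : 9 ≤ m * z) (hl : 0 ≤ l) (hl1 : l ≤ 17 / 100)
    (hu : 0 ≤ u) (hus : u * s ≤ 1) (hc1 : 1 - 1 / (2 * m) ≤ c) (hc2 : c ≤ 1)
    (hc3 : c ^ 2 ≤ (m + 1) / (m + 2)) (hN : Real.log (1 + u) - u ≤ N)
    (hG : -(2 / s * ((2 / 5 + 13 * z / 20 + 22 * z ^ 3 / 5) * (z / s ^ 2)) * l ^ 2) ≤ G) :
    dpE m z s l u c N - dpT m z s l u G N ≤ fxma s * u + 128 / 1000 * (m * z) * l := by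
  have hz : 0 < z := by linarith only [hz0]
  have hz' : z = 1 - s ^ 2 := by linarith only [hsz]
  have hl2 : l ≤ 1 / 2 := by linarith only [hl1]
  have hm0 : 0 < m := by linarith only [hm]
  have hs1 : s ≤ 1 := fpn_s1 hs hz hsz
  have hs0 : 714 / 1000 ≤ s := by nlinarith only [hz1, hsz, hs]
  have hw27 : 27 * z ≤ m * z := mul_le_mul_of_nonneg_right hm hz.le
  have h1 := fxms_Lpart hm0.le hz hs hsz hl hl2
    (fxms_A (w := m * z) hs hz' hz0 hz1 hw hw27 hl hl1) hG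
  have hCK := (fxms_B hs hz' hz0 hz1 hl hl1).2
  obtain ⟨-, hφ, hφ0⟩ := fxms_phi hs hs0 hu hus
  have hcr := fxms_cross (l := l) (u := u) hm hz hs
  have hr := mul_le_mul_of_nonneg_right (fpn_r_le hm0 hz hs hsz hc2 hc3) hl
  have hW0 : 0 ≤ u ^ 2 / (1 + u) := by (clear * - hu; positivity)
  have hC := mul_le_mul_of_nonneg_right (fxm_C_ge (s := s) hz.le hl (by linarith only [hl1])) hW0
  have hCK' := mul_nonneg hCK hW0
  have hψ' := mul_le_mul_of_nonneg_left (fpn_psi hl) (by positivity : 0 ≤ (m + 3) * z)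
  have hNt := fpn_Nt hm hs hc1 hc2 hφ0 (by linarith only [hN] : -(u - Real.log (1 + u)) ≤ N)
  have hNt2 := fxms_Nt2 hs hu hφ
  have hq := fxms_q (c := c) hs hs1 hu hc2
  have huu := fxms_uu hs hu hus
  have hlin := fxms_lin hm hz hz1 hs hsz hl hl1
  have ea : fxma s * u = (2 / s - 2 * s ^ 2) * u + 2 / 15 * s * u + 73 / 1000 / s * u := by
    unfold fxma
    ring
  rw [ea]
  unfold fxmCKr at hCK'
  unfold dpT dpE
  rw [dpS_eq]
  generalize u ^ 2 / (1 + u) = W at *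
  have hfin := add_le_add (add_le_add (add_le_add h1 hCK') (add_le_add hC hψ'))
    (add_le_add (add_le_add (add_le_add hr hq) (add_le_add (add_le_add hNt hNt2) hlin))
      (add_le_add hcr huu))
  linarith only [h1, hcr, hr, hψ', hNt, hNt2, hq, huu, hlin, hC, hCK']

/-- lower bound of `e₁` -/
theorem fxms_E {m z s l u c N : ℝ} (hm : 27 ≤ m) (hz0 : 1 / 5 ≤ z) (hz1 : z ≤ 49 / 100)
    (hs : 0 < s) (hsz : s ^ 2 = 1 - z) (hl : 0 ≤ l) (hl1 : l ≤ 17 / 100)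
    (hu : 0 ≤ u) (hc1 : 1 - 1 / (2 * m) ≤ c) (hc2 : c ≤ 1)
    (hN : Real.log (1 + u) - u ≤ N) :
    -(z / s ^ 2 / 5 * l) ≤ dpE m z s l u c N := by
  have hz : 0 < z := by linarith only [hz0]
  have hm0 : 0 < m := by linarith only [hm]
  have hs1 : s ≤ 1 := by nlinarith only [hsz, hz]
  have hs0 : 714 / 1000 ≤ s := by nlinarith only [hz1, hsz, hs]
  have hs2 : s ≤ 895 / 1000 := by nlinarith only [hz0, hsz]
  have hu1 : 0 < 1 + u := by linarith only [hu]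
  have hc5 : 53 / 54 ≤ c := by
    have : 1 / (2 * m) ≤ 1 / 54 := by
      apply one_div_le_one_div_of_le <;> linarith only [hm]
    linarith only [hc1, this]
  -- the `l` term
  have hr : -(z / s ^ 2 / 5) ≤ 2 * c / s - 2 + 2 * (1 - c) * (1 - m * (z / s ^ 2)) := by
    obtain ⟨h1, h2⟩ := fpn_y hz hs hsz
    have hinv : 1 / s ≤ 1401 / 1000 := by
      rw [div_le_iff₀ hs]
      nlinarith only [hs0]
    set y := z / s ^ 2 with hy
    have hy0 : 0 < y := by positivity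
    have e1 : 2 * c / s - 2 + 2 * (1 - c) * (1 - m * y) =
        2 * c * (1 / s - 1) - 2 * (1 - c) * (m * y) := by
      field_simp
      ring
    rw [e1]
    have h3 : 2 * (1 - c) * (m * y) ≤ y := by
      have h4 : (1 - c) ≤ 1 / (2 * m) := by linarith only [hc1]
      have h5 := mul_le_mul_of_nonneg_right h4 (by positivity : 0 ≤ 2 * (m * y))
      have e2 : 1 / (2 * m) * (2 * (m * y)) = y := by (clear * - hm hy0; field_simp)
      linarith only [h5, e2]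
    have h4 : 416 / 1000 * y ≤ 1 / s - 1 := by
      rw [h1]
      nlinarith only [h2, hinv]
    have h5 : 2 * (53 / 54) * (416 / 1000 * y) ≤ 2 * c * (1 / s - 1) :=
      mul_le_mul (by linarith only [hc5]) h4 (by positivity) (by linarith only [hc5])
    (clear * - hy0 h3 h5; linarith)
  have hr' := mul_le_mul_of_nonneg_right hr hl
  have hψ : 0 ≤ (m + 3) * z * (Real.exp (-(2 * l)) - 1 + 2 * l) := by
    have := Real.add_one_le_exp (-(2 * l))
    apply mul_nonneg (by positivity)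
    linarith only [this]
  -- the `u` terms
  have hE : 1 / 2 ≤ Real.exp (-(2 * l)) := by
    have := Real.add_one_le_exp (-(2 * l))
    linarith only [hl1, this]
  set W := u ^ 2 / (1 + u) with hW
  have hW0 : 0 ≤ W := by (clear * - hu; positivity)
  have hlog : 2 * u / (2 + u) ≤ Real.log (1 + u) := by
    have h := Real.le_log_one_add_of_nonneg hu
    have e : 2 * u / (u + 2) = 2 * u / (2 + u) := by rw [add_comm u 2]
    rwa [e] at h
  have hmain : 0 ≤ 4 * s ^ 2 * Real.exp (-(2 * l)) * W + 2 * c / s * N +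
      (2 * c / s - 2 * s ^ 2 + 2 * (1 - c)) * u := by
    have h1 : 2 * c / s * (Real.log (1 + u) - u) ≤ 2 * c / s * N :=
      mul_le_mul_of_nonneg_left hN (by positivity)
    have h2 : 2 * c / s * (2 * u / (2 + u)) ≤ 2 * c / s * Real.log (1 + u) :=
      mul_le_mul_of_nonneg_left hlog (by positivity)
    have h3 : 4 * s ^ 2 * (1 / 2) * W ≤ 4 * s ^ 2 * Real.exp (-(2 * l)) * W := by
      apply mul_le_mul_of_nonneg_right _ hW0
      exact mul_le_mul_of_nonneg_left hE (by positivity)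
    have h4 : 0 ≤ 2 * (1 - c) * u := by
      have : 0 ≤ 1 - c := by linarith only [hc2]
      (clear * - hc2 hu; positivity)
    have h5 : 0 ≤ 4 * s ^ 2 * (1 / 2) * W + 2 * c / s * (2 * u / (2 + u)) - 2 * s ^ 2 * u := by
      have h6 : 2 * (53 / 54) / s * (2 * u / (2 + u)) ≤ 2 * c / s * (2 * u / (2 + u)) := by
        apply mul_le_mul_of_nonneg_right _ (by (clear * - hu; positivity))
        apply div_le_div_of_nonneg_right _ hs.le
        linarith only [hc5]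
      have e : 4 * s ^ 2 * (1 / 2) * W + 2 * (53 / 54) / s * (2 * u / (2 + u)) - 2 * s ^ 2 * u =
          2 * u * (106 / 54 * (1 + u) - s ^ 3 * (2 + u)) / (s * ((1 + u) * (2 + u))) := by
        rw [hW]
        field_simp
        ring
      have h7 : 0 ≤ 106 / 54 * (1 + u) - s ^ 3 * (2 + u) := by
        have h8 : s ^ 3 ≤ (895 / 1000) ^ 3 := pow_le_pow_left₀ hs.le hs2 3
        have h9 : s ^ 3 * (2 + u) ≤ (895 / 1000) ^ 3 * (2 + u) :=
          mul_le_mul_of_nonneg_right h8 (by linarith only [hu])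
        norm_num at h9
        linarith only [hu, h9]
      have h10 : 0 ≤ 2 * u * (106 / 54 * (1 + u) - s ^ 3 * (2 + u)) /
          (s * ((1 + u) * (2 + u))) := by
        apply div_nonneg (mul_nonneg (by (clear * - hu; positivity)) h7) (by (clear * - hs hu; positivity))
      linarith only [h6, e, h10]
    linarith only [h1, h2, h3, h4, h5]
  unfold dpE
  rw [← hW]
  linarith only [hr', hψ, hmain]

/-! ## the region -/

theorem fxms_n1 {a u w l W s ρ : ℝ} (hW0 : 0 ≤ W) (hw0 : 0 < w) (hρ0 : 0 < ρ)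
    (huW : u ^ 2 ≤ (1 + 1 / s) * W) (r1 : 11 / 3 * a ^ 2 * (1 + 1 / s) ≤ 7 / 10 * ρ)
    (r3 : 1 / 2 * w ≤ ρ) :
    (a * u + 128 / 1000 * w * l) ^ 2 ≤ 8 / 10 * (ρ * (3 / 2 * w * l ^ 2 + 3 / 10 * W)) := by
  have h1 : (a * u + 128 / 1000 * w * l) ^ 2 ≤
      11 / 10 * (a * u) ^ 2 + 11 * (128 / 1000 * w * l) ^ 2 := by
    nlinarith only [sq_nonneg (a * u - 10 * (128 / 1000 * w * l))]
  have h2 : 11 / 10 * (a * u) ^ 2 ≤ 7 / 10 * (ρ * (3 / 10 * W)) := by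
    have h3 : 11 / 10 * a ^ 2 * u ^ 2 ≤ 11 / 10 * a ^ 2 * ((1 + 1 / s) * W) :=
      mul_le_mul_of_nonneg_left huW (by (clear * -; positivity))
    have h4 := mul_le_mul_of_nonneg_right r1 hW0
    have e : (a * u) ^ 2 = a ^ 2 * u ^ 2 := by ring
    rw [e]
    linarith only [h3, h4]
  have h5 : 11 * (128 / 1000 * w * l) ^ 2 ≤ 8 / 10 * (ρ * (3 / 2 * w * l ^ 2)) := by
    have h6 : 0 ≤ w * l ^ 2 := by positivity
    have h7 := mul_le_mul_of_nonneg_right r3 h6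
    have e : 11 * (128 / 1000 * w * l) ^ 2 = 11 * (128 / 1000) ^ 2 * (w * (w * l ^ 2)) := by
      ring
    rw [e]
    have h8 : 0 ≤ w * (w * l ^ 2) := by (clear * - hw0; positivity)
    linarith only [h7, h8]
  have h9 : 0 ≤ ρ * (3 / 10 * W) := by positivity
  linarith only [h1, h2, h5, h9]

theorem fxms_n2 {y w l W ρ : ℝ} (hW0 : 0 ≤ W) (hw : 9 ≤ w) (hρ0 : 0 < ρ)
    (hy0 : 0 ≤ y) (hy : y ≤ 1) (r3 : 1 / 2 * w ≤ ρ) :
    (y / 5 * l) ^ 2 ≤ 8 / 10 * (ρ * (3 / 2 * w * l ^ 2 + 3 / 10 * W)) := by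
  have h1 : (y / 5 * l) ^ 2 ≤ 1 / 25 * l ^ 2 := by
    have e : (y / 5 * l) ^ 2 = y ^ 2 * (1 / 25 * l ^ 2) := by ring
    rw [e]
    have h2 : y ^ 2 ≤ 1 := pow_le_one₀ hy0 hy
    have h3 : 0 ≤ 1 / 25 * l ^ 2 := by (clear * -; positivity)
    calc y ^ 2 * (1 / 25 * l ^ 2) ≤ 1 * (1 / 25 * l ^ 2) := mul_le_mul_of_nonneg_right h2 h3
      _ = _ := one_mul _
  have h5 : 1 ≤ ρ * w := by nlinarith only [hw, r3]
  have h6 := mul_le_mul_of_nonneg_right h5 (sq_nonneg l)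
  have h7 := sq_nonneg l
  have h9 : 0 ≤ ρ * (3 / 10 * W) := by positivity
  linarith only [h1, h6, h7, h9]

theorem fxms_final {T e ρ w y W u l s a : ℝ} (hT : 3 / 2 * w * l ^ 2 + 3 / 10 * W ≤ T)
    (hP : e - T ≤ a * u + 128 / 1000 * w * l) (hE : -(y / 5 * l) ≤ e)
    (hw : 9 ≤ w) (hy0 : 0 ≤ y) (hy : y ≤ 1) (hl : 0 ≤ l) (hl1 : l ≤ 17 / 100)
    (hu : 0 ≤ u) (hui : u ≤ 1 / s) (ha0 : 0 ≤ a) (hW0 : 0 ≤ W) (hWp : u ≠ 0 → 0 < W)
    (huW : u ^ 2 ≤ (1 + 1 / s) * W) (r1 : 11 / 3 * a ^ 2 * (1 + 1 / s) ≤ 7 / 10 * ρ)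
    (r2 : a * (1 / s) ≤ 1 / 10 * ρ) (r3 : 1 / 2 * w ≤ ρ) : JTest T e ρ u := by
  have hρ0 : 0 < ρ := by linarith only [hw, r3]
  have hw0 : 0 < w := by linarith only [hw]
  refine JTest.of_theta (T0 := 3 / 2 * w * l ^ 2 + 3 / 10 * W)
    (P := a * u + 128 / 1000 * w * l) (E := y / 5 * l)
    (θ := 15 / 100) (θ1 := 8 / 10) hT (by positivity) ?_ hρ0 (by norm_num)
    (by norm_num) hP (by (clear * - ha0 hu hw hl; positivity)) ?_ (fxms_n1 hW0 hw0 hρ0 huW r1 r3) hE (by positivity) ?_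
    (fxms_n2 hW0 hw hρ0 hy0 hy r3)
  · intro hne
    have := hWp hne
    (clear * - hw this; positivity)
  · have h1 : a * u ≤ a * (1 / s) := mul_le_mul_of_nonneg_left hui ha0
    have h2 : 128 / 1000 * w * l ≤ 128 / 1000 * w * (17 / 100) :=
      mul_le_mul_of_nonneg_left hl1 (by positivity)
    linarith only [hw, r2, r3, h1, h2]
  · have h1 : y / 5 * l ≤ 1 / 5 * (17 / 100) :=
      mul_le_mul (by linarith only [hy]) hl1 hl (by norm_num)
    linarith only [hw, r3, h1]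

/-- the region with the correction bound of `FCor` -/
theorem fxms_region' {m z s l u c G N : ℝ} (hm : 27 ≤ m) (hz0 : 1 / 5 ≤ z) (hz1 : z ≤ 49 / 100)
    (hs : 0 < s) (hsz : s ^ 2 = 1 - z) (hw : 9 ≤ m * z) (hl : 0 ≤ l) (hl1 : l ≤ 17 / 100)
    (hu : 0 ≤ u) (hus : u * s ≤ 1) (hc1 : 1 - 1 / (2 * m) ≤ c) (hc2 : c ≤ 1)
    (hc3 : c ^ 2 ≤ (m + 1) / (m + 2)) (hN : Real.log (1 + u) - u ≤ N)
    (hG : -(2 / s * ((2 / 5 + 13 * z / 20 + 22 * z ^ 3 / 5) * (z / s ^ 2)) * l ^ 2) ≤ G) :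
    JTest (dpT m z s l u G N) (dpE m z s l u c N) (dpR m (z / s ^ 2)) u := by
  have hz : 0 < z := by linarith only [hz0]
  have hz' : z = 1 - s ^ 2 := by linarith only [hsz]
  have hw27 : 27 * z ≤ m * z := mul_le_mul_of_nonneg_right hm hz.le
  have hu1 : 0 < 1 + u := by linarith only [hu]
  have hρ' : (2 + 5 * (m * z / s ^ 2) + 25 / 27 * (m * z / s ^ 2) ^ 2) / 10 ≤
      dpR m (z / s ^ 2) := by
    rw [mul_div_assoc]
    exact fpn_rho (y := z / s ^ 2) hm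
  obtain ⟨r1, r2, r3, ha0⟩ := fxms_rho hs hz' hz0 hz1 hw hw27 hρ'
  have hui : u ≤ 1 / s := by rwa [le_div_iff₀ hs]
  have hW0 : 0 ≤ u ^ 2 / (1 + u) := by (clear * - hu; positivity)
  have huW : u ^ 2 ≤ (1 + 1 / s) * (u ^ 2 / (1 + u)) := by
    have e : u ^ 2 = (1 + u) * (u ^ 2 / (1 + u)) := by (clear * - hu; field_simp)
    calc u ^ 2 = (1 + u) * (u ^ 2 / (1 + u)) := e
      _ ≤ _ := mul_le_mul_of_nonneg_right (by linarith only [hui]) hW0
  have hy : z / s ^ 2 ≤ 1 := by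
    rw [div_le_iff₀ (by positivity), hsz]; linarith only [hz1]
  exact fxms_final (fxms_T hm hz0 hz1 hs hsz hw hl hl1 hu hus hN hG)
    (fxms_P hm hz0 hz1 hs hsz hw hl hl1 hu hus hc1 hc2 hc3 hN hG)
    (fxms_E hm hz0 hz1 hs hsz hl hl1 hu hc1 hc2 hN) hw (by positivity) hy hl hl1 hu hui ha0
    hW0 (fun h => by positivity) huW r1 r2 r3

/-- **the region**, with the correction bound of `FxA` -/
theorem fxms_region {m z s l u c G N : ℝ} (hm : 27 ≤ m) (hz0 : 1 / 5 ≤ z) (hz1 : z ≤ 49 / 100)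
    (hs : 0 < s) (hsz : s ^ 2 = 1 - z) (hw : 9 ≤ m * z) (hl : 0 ≤ l) (hl1 : l ≤ 17 / 100)
    (hu : 0 ≤ u) (hus : u * s ≤ 1) (hc1 : 1 - 1 / (2 * m) ≤ c) (hc2 : c ≤ 1)
    (hc3 : c ^ 2 ≤ (m + 1) / (m + 2)) (hN : Real.log (1 + u) - u ≤ N)
    (hG : 2 * (-(s * (z * (Real.exp (2 * l) - 1)) / ((1 + s) * (2 * s ^ 2 * (1 + s) -
      z * (Real.exp (2 * l) - 1) * (1 + 2 * s))))) + 2 * z / (s * (1 + s) ^ 2) * l ≤ G) :
    JTest (dpT m z s l u G N) (dpE m z s l u c N) (dpR m (z / s ^ 2)) u :=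
  fxms_region' hm hz0 hz1 hs hsz hw hl hl1 hu hus hc1 hc2 hc3 hN
    ((fxms_G hs (by linarith only [hsz]) hz0 hz1 hl hl1 rfl).trans hG)

end Vale.Agent.P237.AllN
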