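import Vale.Agent.P237.AllN.FxReal

/-!
# P237, block D, region `l > 0`, `u ≥ 0`, `1/5 ≤ x² ≤ 49/100`: meaning of the families
-/

namespace Vale.Agent.P237.AllN.FX

open PolyPos

/-- lower bound of `-log E` -/
noncomputable def lamL (E : ℝ) : ℝ :=
  (1 - E) * (11 + 38 * E + 11 * E ^ 2) / (3 * (1 + E) * (1 + 8 * E + E ^ 2))

/-- upper bound of `-log E` -/
noncomputable def lamU (E : ℝ) : ℝ :=
  (1 - E) * (1 + E) * ((1 + 3 * E + E ^ 2) + 25 * E) / (12 * E * (1 + 3 * E + E ^ 2))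

noncomputable def hLA (κ z w s E F η D Cd l : ℝ) : ℝ :=
  hA0 κ z w E F - κ * ((2 - 2 * w * s) / w + 191 / 1000 * η / (w * (1 + s))) +
  (hB0 κ z w s - 9 / 25 * z / s) * l + hC0 z w s * l ^ 2 - 2 * s * z * D / ((1 + s) * Cd)

noncomputable def hLB (κ z w s E F l : ℝ) : ℝ :=
  hA1 κ z E F + (hB1 κ z - 3 / 25 / s) * l + hC1 z w s * l ^ 2

noncomputable def hNA (κ z w s E F η D Cd l M M0 : ℝ) : ℝ :=
  (hA0 κ z w E F - κ * (191 / 1000 * η / (w * (1 + s))) - 2 * s * z * D / ((1 + s) * Cd) +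
    hB0 κ z w s * l + hC0 z w s * l ^ 2) * M - κ * ((2 - 2 * w * s) / s) * M0 -
    9 / 25 * z * M0 * l

noncomputable def hNB (κ z w s E F l M M0 M1 : ℝ) : ℝ :=
  hA1 κ z E F * M - κ * ((2 - 2 * w * s) / s) * M1 +
  (hB1 κ z * M - 3 / 25 * (M0 + 3 * z * M1)) * l + hC1 z w s * M * l ^ 2

noncomputable def hNC (w l M M1 : ℝ) : ℝ := -(3 / 25 * M1 * l) + hC2 w * M * l ^ 2

noncomputable def hKA (κ z w s η E l : ℝ) : ℝ :=
  κ * (1 / 5) - (1 - κ) * (3 * z * (E - 1 + l) + (2 - 2 * w * s) / w +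
    191 / 1000 * η / (w * (1 + s)))

noncomputable def hKB (κ z w E l : ℝ) : ℝ :=
  κ * (1 / 2 / w - 1 / 5 * z / w ^ 2) - (1 - κ) * (E - 1 + l)

noncomputable def hKC (κ w : ℝ) : ℝ := κ * (1 / 10 / w ^ 2)

variable {s z w E F D κ η Cd : ℝ}

theorem L_R (hE : 0 < E) : fxL.R s E ≠ 0 ∧ fxN.R s E = fxL.R s E * lamL E := by
  have h : fxL.R s E = 3 * (1 + E) * (1 + 8 * E + E ^ 2) := by
    simp only [fxL, fxE2, Ex.R_add, Ex.R_mul, Ex.R_c, Ex.R_Y, Fr.R]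
    push_cast; ring
  have h2 : fxN.R s E = (1 - E) * (11 + 38 * E + 11 * E ^ 2) := by
    simp only [fxN, fxD, fxE2, Ex.R_add, Ex.R_sub, Ex.R_mul, Ex.R_c, Ex.R_Y, Fr.R]
    push_cast; ring
  have h3 : 3 * (1 + E) * (1 + 8 * E + E ^ 2) ≠ 0 := by positivity
  refine ⟨by rw [h]; exact h3, ?_⟩
  rw [h, h2, lamL, mul_div_cancel₀ _ h3]

theorem Y_R (hE : 0 < E) : 0 < fxY.R s E ∧ fxI.R s E = fxY.R s E * (E - 1 + lamU E) := by
  have h : fxY.R s E = 12 * E * (1 + 3 * E + E ^ 2) := by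
    simp only [fxY, fxE2, Ex.R_add, Ex.R_mul, Ex.R_c, Ex.R_Y, Fr.R]
    push_cast; ring
  have h2 : fxI.R s E = (E - 1) * fxY.R s E + (1 - E) * (1 + E) * ((1 + 3 * E + E ^ 2) + 25 * E) := by
    simp only [fxI, fxJ, fxD, fxE2, Ex.R_add, Ex.R_sub, Ex.R_mul, Ex.R_c, Ex.R_Y, Fr.R]
    push_cast; ring
  have h3 : 0 < 12 * E * (1 + 3 * E + E ^ 2) := by positivity
  refine ⟨by rw [h]; exact h3, ?_⟩
  rw [h2, h, lamU]
  field_simp

theorem G_R (hS : fxS.R s E = w) (hZ : fxZ.R s E = z) (hD : fxD.R s E = D) :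
    fxG.R s E = 2 * w * (1 + s) * E - z * D * (1 + 2 * s) := by
  simp only [fxG, fxP, Ex.R_add, Ex.R_sub, Ex.R_mul, Ex.R_c, Ex.R_X, Ex.R_Y, Fr.R, hS, hZ, hD]
  push_cast; ring

theorem L0_R (hS : fxS.R s E = w) (hZ : fxZ.R s E = z) (hK : fxK.R s E = κ)
    (hH : fxH.R s E = η) (hF : E * F = 1) (hE : 0 < E) (hs : 0 < s) (hw : 0 < w) :
    fxL0.R s E = E ^ 6 * (w ^ 2 * s * (1 + s) ^ 2) * fxL.R s E ^ 2 *
      (hA0 κ z w E F - κ * ((2 - 2 * w * s) / w + 191 / 1000 * η / (w * (1 + s))) +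
        (hB0 κ z w s - 9 / 25 * z / s) * lamL E + hC0 z w s * lamL E ^ 2) := by
  have h6 : fxE6.R s E = E ^ 6 := by
    simp only [fxE2, fxE3, fxE4, fxE5, fxE6, Ex.R_mul, Ex.R_Y]; ring
  have hU : fxU.R s E = 2 - 2 * w * s := by
    simp only [fxU, fxS3, Ex.R_sub, Ex.R_mul, Ex.R_c, Ex.R_X, Fr.R, hS]; push_cast; ring
  have h3 : fxS3.R s E = w * s := by simp only [fxS3, Ex.R_mul, Ex.R_X, hS]
  have hP : fxP.R s E = 1 + s := by
    simp only [fxP, Ex.R_add, Ex.R_c, Ex.R_X, Fr.R]; push_cast; ring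
  simp only [fxL0, Ex.R_add, Ex.R_sub, Ex.R_mul, Ex.R_c, Fr.R, A0_R hS hZ hK hF,
    B0_R hS hZ hK hs.ne' (by positivity), C0_R hS hZ hs.ne' hw.ne', (L_R hE).2, h6, hU, h3, hP,
    hK, hH, hZ, hS]
  push_cast
  generalize hA0 κ z w E F = a
  generalize hB0 κ z w s = b
  generalize hC0 z w s = c
  generalize lamL E = l
  generalize fxL.R s E = L
  field_simp
  ring

theorem L1_R (hS : fxS.R s E = w) (hZ : fxZ.R s E = z) (hK : fxK.R s E = κ)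
    (hF : E * F = 1) (hE : 0 < E) (hs : 0 < s) (hw : 0 < w) :
    fxL1.R s E = E ^ 6 * (w ^ 2 * s * (1 + s) ^ 2) * fxL.R s E ^ 2 *
      hLB κ z w s E F (lamL E) := by
  have h6 : fxE6.R s E = E ^ 6 := by
    simp only [fxE2, fxE3, fxE4, fxE5, fxE6, Ex.R_mul, Ex.R_Y]; ring
  have hP : fxP.R s E = 1 + s := by
    simp only [fxP, Ex.R_add, Ex.R_c, Ex.R_X, Fr.R]; push_cast; ring
  simp only [fxL1, Ex.R_add, Ex.R_sub, Ex.R_mul, Ex.R_c, Fr.R, A1_R hS hZ hK hF,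
    B1_R hS hZ hK, C1_R hS hZ hs.ne' hw.ne', (L_R hE).2, h6, hP, hS, hLB]
  push_cast
  generalize hA1 κ z E F = a
  generalize hB1 κ z = b
  generalize hC1 z w s = c
  generalize lamL E = l
  generalize fxL.R s E = L
  field_simp
  ring

theorem L2_R (hS : fxS.R s E = w) (hE : 0 < E) (hw : 0 < w) :
    fxL2.R s E = E ^ 6 * (w ^ 2 * s * (1 + s) ^ 2) * fxL.R s E ^ 2 *
      (hC2 w * lamL E ^ 2) := by
  have h6 : fxE6.R s E = E ^ 6 := by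
    simp only [fxE2, fxE3, fxE4, fxE5, fxE6, Ex.R_mul, Ex.R_Y]; ring
  simp only [fxL2, Ex.R_mul, C2_R hS hw.ne', (L_R hE).2, h6]
  ring

theorem R_R (hS : fxS.R s E = w) (hZ : fxZ.R s E = z) (hD : fxD.R s E = D)
    (hs : 0 < s) (hCd : Cd ≠ 0) :
    fxR.R s E = E ^ 6 * (w ^ 2 * s * (1 + s) ^ 2) * fxL.R s E ^ 2 * Cd *
      (2 * s * z * D / ((1 + s) * Cd)) := by
  simp only [fxR, fxS5, fxS3, fxP, fxE2, fxE3, fxE4, fxE5, fxE6, Ex.R_add, Ex.R_mul, Ex.R_c,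
    Ex.R_X, Ex.R_Y, Fr.R, hS, hZ, hD]
  push_cast
  generalize fxL.R s E = L
  field_simp
  ring

theorem F_R (hS : fxS.R s E = w) (hZ : fxZ.R s E = z) (hD : fxD.R s E = D)
    (hH : fxH.R s E = η) (hE : 0 < E) (hs : 0 < s) (hw : 0 < w) (hsw : s * s = w)
    (hG : fxG.R s E = Cd) :
    fxF.R s E = E ^ 6 * (w ^ 2 * s * (1 + s) ^ 2) * fxL.R s E ^ 2 * Cd *
      ((28 / 13 * (η / s) - hAl z w s E D) / (s * (1 + s))) := by
  have h5 : fxE5.R s E = E ^ 5 := by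
    simp only [fxE2, fxE3, fxE4, fxE5, Ex.R_mul, Ex.R_Y]; ring
  simp only [fxF, Ex.R_mul, Ex.R_c, Ex.R_X, Fr.R, h5, hG,
    V_R hS hZ hD hH hs.ne' hw.ne' hE.ne' (by positivity)]
  push_cast
  generalize hAl z w s E D = a
  generalize fxL.R s E = L
  subst hsw
  field_simp
  ring

theorem N0_R (hS : fxS.R s E = w) (hZ : fxZ.R s E = z) (hK : fxK.R s E = κ)
    (hH : fxH.R s E = η) (hF : E * F = 1) (hE : 0 < E) (hs : 0 < s) (hw : 0 < w) :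
    fxN0.R s E = E ^ 6 * (w ^ 2 * s * (1 + s) ^ 2) * fxL.R s E ^ 2 *
      ((hA0 κ z w E F - κ * (191 / 1000 * η / (w * (1 + s))) +
        hB0 κ z w s * lamL E + hC0 z w s * lamL E ^ 2) * fxM.R s E -
        κ * ((2 - 2 * w * s) / s) * fxM0.R s E - 9 / 25 * z * fxM0.R s E * lamL E) := by
  have h6 : fxE6.R s E = E ^ 6 := by
    simp only [fxE2, fxE3, fxE4, fxE5, fxE6, Ex.R_mul, Ex.R_Y]; ring
  have hU : fxU.R s E = 2 - 2 * w * s := by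
    simp only [fxU, fxS3, Ex.R_sub, Ex.R_mul, Ex.R_c, Ex.R_X, Fr.R, hS]; push_cast; ring
  have h3 : fxS3.R s E = w * s := by simp only [fxS3, Ex.R_mul, Ex.R_X, hS]
  have hP : fxP.R s E = 1 + s := by
    simp only [fxP, Ex.R_add, Ex.R_c, Ex.R_X, Fr.R]; push_cast; ring
  have hQ : fxQ.R s E = w ^ 2 * s * (1 + s) ^ 2 := by
    simp only [fxQ, fxS5, fxS3, Ex.R_mul, Ex.R_X, hS, hP]; ring
  simp only [fxN0, Ex.R_add, Ex.R_sub, Ex.R_mul, Ex.R_c, Fr.R, A0_R hS hZ hK hF,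
    B0_R hS hZ hK hs.ne' (by positivity), C0_R hS hZ hs.ne' hw.ne', (L_R hE).2, h6, hU, h3, hP,
    hQ, hK, hH, hZ, hS]
  push_cast
  generalize hA0 κ z w E F = a
  generalize hB0 κ z w s = b
  generalize hC0 z w s = c
  generalize lamL E = l
  generalize fxL.R s E = L
  generalize fxM.R s E = M
  generalize fxM0.R s E = M0
  field_simp
  ring

theorem N1_R (hS : fxS.R s E = w) (hZ : fxZ.R s E = z) (hK : fxK.R s E = κ)
    (hF : E * F = 1) (hE : 0 < E) (hs : 0 < s) (hw : 0 < w) :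
    fxN1.R s E = E ^ 6 * (w ^ 2 * s * (1 + s) ^ 2) * fxL.R s E ^ 2 *
      hNB κ z w s E F (lamL E) (fxM.R s E) (fxM0.R s E) (fxM1.R s E) := by
  have h6 : fxE6.R s E = E ^ 6 := by
    simp only [fxE2, fxE3, fxE4, fxE5, fxE6, Ex.R_mul, Ex.R_Y]; ring
  have hU : fxU.R s E = 2 - 2 * w * s := by
    simp only [fxU, fxS3, Ex.R_sub, Ex.R_mul, Ex.R_c, Ex.R_X, Fr.R, hS]; push_cast; ring
  have hP : fxP.R s E = 1 + s := by
    simp only [fxP, Ex.R_add, Ex.R_c, Ex.R_X, Fr.R]; push_cast; ring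
  have hQ : fxQ.R s E = w ^ 2 * s * (1 + s) ^ 2 := by
    simp only [fxQ, fxS5, fxS3, Ex.R_mul, Ex.R_X, hS, hP]; ring
  simp only [fxN1, Ex.R_add, Ex.R_sub, Ex.R_mul, Ex.R_c, Fr.R, A1_R hS hZ hK hF,
    B1_R hS hZ hK, C1_R hS hZ hs.ne' hw.ne', (L_R hE).2, h6, hU, hP, hQ, hK, hZ, hS, hNB]
  push_cast
  generalize hA1 κ z E F = a
  generalize hB1 κ z = b
  generalize hC1 z w s = c
  generalize lamL E = l
  generalize fxL.R s E = L
  generalize fxM.R s E = M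
  generalize fxM0.R s E = M0
  generalize fxM1.R s E = M1
  field_simp
  ring

theorem N2_R (hS : fxS.R s E = w) (hE : 0 < E) (hw : 0 < w) :
    fxN2.R s E = E ^ 6 * (w ^ 2 * s * (1 + s) ^ 2) * fxL.R s E ^ 2 *
      hNC w (lamL E) (fxM.R s E) (fxM1.R s E) := by
  have h6 : fxE6.R s E = E ^ 6 := by
    simp only [fxE2, fxE3, fxE4, fxE5, fxE6, Ex.R_mul, Ex.R_Y]; ring
  have hP : fxP.R s E = 1 + s := by
    simp only [fxP, Ex.R_add, Ex.R_c, Ex.R_X, Fr.R]; push_cast; ring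
  have hQ : fxQ.R s E = w ^ 2 * s * (1 + s) ^ 2 := by
    simp only [fxQ, fxS5, fxS3, Ex.R_mul, Ex.R_X, hS, hP]; ring
  simp only [fxN2, Ex.R_add, Ex.R_mul, Ex.R_c, Fr.R, C2_R hS hw.ne', (L_R hE).2, h6, hQ, hNC]
  push_cast
  ring

theorem O_R (hS : fxS.R s E = w) (hZ : fxZ.R s E = z) (hD : fxD.R s E = D)
    (hH : fxH.R s E = η) (hE : 0 < E) (hs : 0 < s) (hw : 0 < w) :
    fxO0.R s E = E ^ 6 * (w ^ 2 * s * (1 + s) ^ 2) * fxL.R s E ^ 2 *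
      ((28 / 13 * (η / s) - hAl z w s E D) / (1 + s) * fxM0.R s E) ∧
    fxO1.R s E = E ^ 6 * (w ^ 2 * s * (1 + s) ^ 2) * fxL.R s E ^ 2 *
      ((28 / 13 * (η / s) - hAl z w s E D) / (1 + s) * fxM1.R s E) := by
  have h5 : fxE5.R s E = E ^ 5 := by
    simp only [fxE2, fxE3, fxE4, fxE5, Ex.R_mul, Ex.R_Y]; ring
  constructor
  · simp only [fxO0, Ex.R_mul, Ex.R_c, Fr.R, h5, hS,
      V_R hS hZ hD hH hs.ne' hw.ne' hE.ne' (by positivity)]
    push_cast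
    generalize hAl z w s E D = a
    generalize fxL.R s E = L
    generalize fxM0.R s E = M
    field_simp
    ring
  · simp only [fxO1, Ex.R_mul, Ex.R_c, Fr.R, h5, hS,
      V_R hS hZ hD hH hs.ne' hw.ne' hE.ne' (by positivity)]
    push_cast
    generalize hAl z w s E D = a
    generalize fxL.R s E = L
    generalize fxM1.R s E = M
    field_simp
    ring

theorem K_R (hS : fxS.R s E = w) (hZ : fxZ.R s E = z) (hK : fxK.R s E = κ)
    (hH : fxH.R s E = η) (hE : 0 < E) (hs : 0 < s) (hw : 0 < w) :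
    fxK0.R s E = fxY.R s E * (w ^ 2 * (1 + s)) * hKA κ z w s η E (lamU E) ∧
    fxK1.R s E = fxY.R s E * (w ^ 2 * (1 + s)) * hKB κ z w E (lamU E) ∧
    fxK2.R s E = fxY.R s E * (w ^ 2 * (1 + s)) * hKC κ w := by
  have hU : fxU.R s E = 2 - 2 * w * s := by
    simp only [fxU, fxS3, Ex.R_sub, Ex.R_mul, Ex.R_c, Ex.R_X, Fr.R, hS]; push_cast; ring
  have hP : fxP.R s E = 1 + s := by
    simp only [fxP, Ex.R_add, Ex.R_c, Ex.R_X, Fr.R]; push_cast; ring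
  refine ⟨?_, ?_, ?_⟩
  · simp only [fxK0, Ex.R_add, Ex.R_sub, Ex.R_mul, Ex.R_c, Fr.R, (Y_R hE).2, hU, hP, hK, hH, hZ,
      hS, hKA]
    push_cast
    generalize lamU E = l
    generalize fxY.R s E = L
    field_simp
    ring
  · simp only [fxK1, Ex.R_sub, Ex.R_mul, Ex.R_c, Fr.R, (Y_R hE).2, hP, hK, hZ,
      hS, hKB]
    push_cast
    generalize lamU E = l
    generalize fxY.R s E = L
    field_simp
    ring
  · simp only [fxK2, Ex.R_mul, Ex.R_c, Fr.R, hP, hK, hKC]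
    push_cast
    generalize fxY.R s E = L
    field_simp
    ring

end Vale.Agent.P237.AllN.FX
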