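import Vale.Agent.P237.AllN.FxPoly

/-!
# P237, block D, region `l > 0`, `u ≥ 0`, `1/5 ≤ x² ≤ 49/100`: kernel checks
-/

namespace Vale.Agent.P237.AllN.FX

open PolyPos

theorem fx_tA : tchkE (2 ^ 704) 23 4000 famsA (fxZ - Ex.Y) ((.sy (.sx (.sy .out (.sx (.sy .out
    (.leaf 3)) (.sy (.sx (.sy .out (.leaf 3)) (.leaf 3)) (.leaf 3)))) (.sy (.sx (.sy .out (.sx
    (.sy .out (.sx (.sy .out (.leaf 3)) (.sy (.sx .out (.sy .out (.leaf 3))) (.leaf 3)))) (.sy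
    (.sx (.sy .out (.sx .out (.sy .out (.leaf 5)))) (.sy (.sx .out (.sy .out (.leaf 5))) (.leaf
    5))) (.sx (.sy (.leaf 5) (.leaf 3)) (.leaf 5))))) (.sy (.sx (.sy .out (.sx (.sy .out (.sx
    .out (.sy .out (.leaf 5)))) (.sy (.sx (.sy .out (.leaf 5)) (.leaf 5)) (.leaf 5)))) (.sy (.sx
    (.sy .out (.sx (.sy .out (.leaf 5)) (.leaf 5))) (.sy (.sx (.sy .out (.leaf 5)) (.leaf 5))
    (.leaf 5))) (.leaf 5))) (.sx (.leaf 5) (.sy (.leaf 5) (.sx (.leaf 5) (.leaf 2)))))) (.sx (.sy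
    (.leaf 3) (.leaf 0)) (.sy (.sx (.sy (.leaf 4) (.leaf 1)) (.leaf 1)) (.leaf 1))))) (.leaf 0)))
    105 128 150 27 72 100 = true := by decide +kernel

end Vale.Agent.P237.AllN.FX
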