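import Vale.Agent.P237.AllN.FxPoly

/-!
# P237, block D, region `l > 0`, `u ≥ 0`, `1/5 ≤ x² ≤ 49/100`: kernel checks
-/

namespace Vale.Agent.P237.AllN.FX

open PolyPos

theorem fx_tB : tchkE (2 ^ 640) 23 4000 famsB (fxZ - Ex.Y) ((.sy (.sy (.sy (.sx (.sy .out (.sx
    (.sy .out (.sx .out (.sy .out (.sx .out (.sy .out (.leaf 3)))))) (.sy (.sx .out (.sy .out
    (.sx .out (.leaf 3)))) (.sx (.sy (.sx .out (.leaf 3)) (.leaf 3)) (.leaf 3))))) (.sy (.sx (.sy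
    .out (.sx .out (.sy (.sx .out (.leaf 3)) (.leaf 3)))) (.sy (.sx (.sy .out (.leaf 3)) (.leaf
    3)) (.leaf 3))) (.leaf 3))) (.sx (.sy (.sx (.sy (.sx (.sy .out (.sx (.sy .out (.sx .out
    (.leaf 3))) (.leaf 3))) (.sy (.sx (.sy .out (.leaf 3)) (.leaf 3)) (.leaf 3))) (.leaf 3))
    (.leaf 3)) (.leaf 3)) (.sy (.sx (.leaf 3) (.leaf 1)) (.leaf 1)))) (.sy (.sx (.sy (.sx (.sy
    (.leaf 3) (.sx (.leaf 3) (.leaf 1))) (.leaf 1)) (.leaf 0)) (.leaf 1)) (.leaf 0))) (.leaf 0)))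
    17 18 20 19 72 100 = true := by decide +kernel

theorem fx_tX : ([fxX0, fxX1, fxX2, fxX3, fxX4, fxX5, fxX6].all
    (Ex.nn (2 ^ 512) 23 4000 7 9 10 18 72 100)) = true := by decide +kernel

end Vale.Agent.P237.AllN.FX
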