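import Vale.Agent.P237.AllN.FxFam
import Vale.Agent.P237.AllN.FxTreeA
import Vale.Agent.P237.AllN.FxTreeB

/-!
# P237, block D, region `l > 0`, `u ≥ 0`, `1/5 ≤ x² ≤ 49/100`: the zone `E ≤ 18/25`
-/

namespace Vale.Agent.P237.AllN.FX

open PolyPos

/-- the linear (in `v`) lower bound -/
noncomputable def hH (κ z w s E F η D Cd μ l v : ℝ) : ℝ :=
  hA0 κ z w E F + hA1 κ z E F * μ + (hB0 κ z w s + hB1 κ z * μ) * l +
  (hC0 z w s + hC1 z w s * μ + hC2 w * μ ^ 2) * l ^ 2 - 3 / 25 * (μ + 3 * z) * l * v -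
  κ * ((2 - 2 * w * s) / s * v + 191 / 1000 * η / (w * (1 + s))) -
  2 * s * z * D / ((1 + s) * Cd)

/-- the defect of the `W` coefficient -/
noncomputable def hDef (z w s E η D : ℝ) : ℝ := 28 / 13 * (η / s) - hAl z w s E D

/-- conclusion of the kernel part -/
def ZoneC (κ z w s E F η D Cd μ : ℝ) (v : ℝ) : Prop :=
  0 ≤ hKA κ z w s η E (lamU E) + hKB κ z w E (lamU E) * μ + hKC κ w * μ ^ 2 ∧
  0 ≤ hH κ z w s E F η D Cd μ (lamL E) v ∧
  0 ≤ hH κ z w s E F η D Cd μ (lamL E) v - hDef z w s E η D / (1 + s) * v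

variable {s z w E F D κ η Cd μ u : ℝ} {n d : Ex}

theorem hH_anti (hκ : 0 ≤ κ) (hs : 0 < s) (hq : 0 ≤ 2 - 2 * w * s) (hμ : 0 ≤ μ) (hz : 0 ≤ z)
    {l v u : ℝ} (hl : 0 ≤ l) (huv : u ≤ v) :
    hH κ z w s E F η D Cd μ l v ≤ hH κ z w s E F η D Cd μ l u := by
  unfold hH
  have h1 : 0 ≤ 3 / 25 * (μ + 3 * z) * l * (v - u) :=
    mul_nonneg (by positivity) (by linarith)
  have h2 : 0 ≤ κ * ((2 - 2 * w * s) / s) * (v - u) :=
    mul_nonneg (mul_nonneg hκ (div_nonneg hq hs.le)) (by linarith)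
  nlinarith

theorem zone_anti (hκ : 0 ≤ κ) (hs : 0 < s) (hq : 0 ≤ 2 - 2 * w * s) (hμ : 0 ≤ μ) (hz : 0 ≤ z)
    (hl : 0 ≤ lamL E) {v u : ℝ} (hu : 0 ≤ u) (huv : u ≤ v)
    (h : ZoneC κ z w s E F η D Cd μ v) : ZoneC κ z w s E F η D Cd μ u := by
  obtain ⟨h0, h1, h2⟩ := h
  have ha := hH_anti (F := F) (η := η) (D := D) (Cd := Cd) (E := E) hκ hs hq hμ hz hl huv
  refine ⟨h0, h1.trans ha, ?_⟩
  rcases le_total 0 (hDef z w s E η D) with hd | hd
  · have : hDef z w s E η D / (1 + s) * u ≤ hDef z w s E η D / (1 + s) * v :=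
      mul_le_mul_of_nonneg_left huv (by positivity)
    linarith
  · have : hDef z w s E η D / (1 + s) * u ≤ 0 :=
      mul_nonpos_of_nonpos_of_nonneg (div_nonpos_of_nonpos_of_nonneg hd (by positivity)) hu
    linarith

theorem zone_L (hsw : s * s = w) (hs : 0 < s)
    (h : 0 ≤ hKA κ z w s η E (lamU E) + hKB κ z w E (lamU E) * μ + hKC κ w * μ ^ 2 ∧
    0 ≤ hLA κ z w s E F η D Cd (lamL E) + hLB κ z w s E F (lamL E) * μ +
      hC2 w * lamL E ^ 2 * μ ^ 2 ∧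
    0 ≤ hLA κ z w s E F η D Cd (lamL E) - (28 / 13 * (η / s) - hAl z w s E D) / (s * (1 + s)) +
      hLB κ z w s E F (lamL E) * μ + hC2 w * lamL E ^ 2 * μ ^ 2) :
    ZoneC κ z w s E F η D Cd μ (1 / s) := by
  obtain ⟨h0, h1, h2⟩ := h
  have e1 : hH κ z w s E F η D Cd μ (lamL E) (1 / s) =
      hLA κ z w s E F η D Cd (lamL E) + hLB κ z w s E F (lamL E) * μ +
      hC2 w * lamL E ^ 2 * μ ^ 2 := by
    have : (2 - 2 * w * s) / w = (2 - 2 * w * s) / s * (1 / s) := by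
      rw [← hsw]; field_simp
    unfold hH hLA hLB
    rw [this]
    ring
  refine ⟨h0, by rw [e1]; exact h1, ?_⟩
  have e2 : hDef z w s E η D / (1 + s) * (1 / s) =
      (28 / 13 * (η / s) - hAl z w s E D) / (s * (1 + s)) := by
    unfold hDef; field_simp
  rw [e1, e2]
  linarith

theorem zone_N {M M0 M1 : ℝ} (hM : 0 < M)
    (h : 0 ≤ hKA κ z w s η E (lamU E) + hKB κ z w E (lamU E) * μ + hKC κ w * μ ^ 2 ∧
    0 ≤ hNA κ z w s E F η D Cd (lamL E) M M0 + hNB κ z w s E F (lamL E) M M0 M1 * μ +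
      hNC w (lamL E) M M1 * μ ^ 2 ∧
    0 ≤ hNA κ z w s E F η D Cd (lamL E) M M0 -
        (28 / 13 * (η / s) - hAl z w s E D) / (1 + s) * M0 +
      (hNB κ z w s E F (lamL E) M M0 M1 -
        (28 / 13 * (η / s) - hAl z w s E D) / (1 + s) * M1) * μ +
      hNC w (lamL E) M M1 * μ ^ 2) :
    ZoneC κ z w s E F η D Cd μ ((M1 * μ + M0) / M) := by
  obtain ⟨h0, h1, h2⟩ := h
  obtain ⟨V, hV⟩ : ∃ V, V = (M1 * μ + M0) / M := ⟨_, rfl⟩
  have hV' : M1 * μ + M0 = M * V := by rw [hV]; field_simp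
  rw [← hV]
  have e1 : M * hH κ z w s E F η D Cd μ (lamL E) V =
      hNA κ z w s E F η D Cd (lamL E) M M0 + hNB κ z w s E F (lamL E) M M0 M1 * μ +
      hNC w (lamL E) M M1 * μ ^ 2 := by
    unfold hH hNA hNB hNC
    linear_combination ((3 / 25 * (μ + 3 * z)) * lamL E + κ * ((2 - 2 * w * s) / s)) * hV'
  refine ⟨h0, fx_pos hM (by rw [e1]; exact h1), fx_pos hM ?_⟩
  have e2 : M * (hH κ z w s E F η D Cd μ (lamL E) V - hDef z w s E η D / (1 + s) * V) =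
      hNA κ z w s E F η D Cd (lamL E) M M0 -
        (28 / 13 * (η / s) - hAl z w s E D) / (1 + s) * M0 +
      (hNB κ z w s E F (lamL E) M M0 M1 -
        (28 / 13 * (η / s) - hAl z w s E D) / (1 + s) * M1) * μ +
      hNC w (lamL E) M M1 * μ ^ 2 := by
    rw [mul_sub, e1]
    unfold hDef
    linear_combination ((28 / 13 * (η / s) - hAl z w s E D) / (1 + s)) * hV'
  rw [e2]
  exact h2

theorem fx_cst (E' : ℝ) {x : ℝ} : (Ex.c ⟨-1, 0⟩).R x E' = -1 := by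
  simp [Ex.R_c, Fr.R]

theorem fx_treeA {s E z : ℝ} (hs0 : 0 < s) (hsz : s ^ 2 = 1 - z) (hz1 : z ≤ 49 / 100)
    (hzc : 34 / 125 ≤ z) (hzE : z ≤ E) (hE1 : E ≤ 18 / 25) (hZ : fxZ.R s E = z) :
    ∃ i, ∀ P ∈ famsA.getD i [Ex.c ⟨-1, 0⟩], 0 ≤ P.R s E := by
  have hLo : (fxZ - Ex.Y).R s E ≤ 0 := by
    rw [Ex.R_sub, Ex.R_Y, hZ]; linarith
  have h1 : s ≤ 128 / 150 := by nlinarith
  have h2 : 7 / 10 ≤ s := by nlinarith
  exact tchkE_sound hLo _ 105 128 150 27 72 100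
    (by norm_num) (by norm_num) (by norm_num) (by norm_num) fx_tA
    (by push_cast; linarith) (by push_cast; linarith) (by push_cast; linarith)
    (by push_cast; linarith)

theorem fx_treeB {s E z : ℝ} (hs0 : 0 < s) (hsz : s ^ 2 = 1 - z) (hz0 : 1 / 5 ≤ z)
    (hzc : z ≤ 34 / 125) (hzE : z ≤ E) (hE1 : E ≤ 18 / 25) (hZ : fxZ.R s E = z) :
    ∃ i, ∀ P ∈ famsB.getD i [Ex.c ⟨-1, 0⟩], 0 ≤ P.R s E := by
  have hLo : (fxZ - Ex.Y).R s E ≤ 0 := by
    rw [Ex.R_sub, Ex.R_Y, hZ]; linarith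
  have h1 : s ≤ 9 / 10 := by nlinarith
  have h2 : 17 / 20 ≤ s := by nlinarith
  exact tchkE_sound hLo _ 17 18 20 19 72 100
    (by norm_num) (by norm_num) (by norm_num) (by norm_num) fx_tB
    (by push_cast; linarith) (by push_cast; linarith) (by push_cast; linarith)
    (by push_cast; linarith)

/-- the kernel part of the zone -/
theorem fx_zone (hs0 : 0 < s) (hsz : s ^ 2 = 1 - z) (hz0 : 1 / 5 ≤ z) (hz1 : z ≤ 49 / 100)
    (hzE : z ≤ E) (hE1 : E ≤ 18 / 25) (hEF : E * F = 1) (h27 : 27 * z ≤ μ) (h9 : 9 ≤ μ)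
    (hc : 33 / 10 ≤ μ * E) (hc2 : 34 / 125 ≤ z → 177 / 50 ≤ μ * E)
    (hu : 0 ≤ u) (hus : u * s ≤ 1)
    (ht : 2 * z * (1 - z) * (1 + u) ≤ (E - z) * (μ + z + 1)) :
    ZoneC (fxK.R s E) z (1 - z) s E F (fxH.R s E) (1 - E)
      (2 * (1 - z) * (1 + s) * E - z * (1 - E) * (1 + 2 * s)) μ u := by
  have hE : 0 < E := by linarith
  have hw : 0 < 1 - z := by linarith
  have hsw : s * s = 1 - z := by rw [← hsz]; ring
  have hS : fxS.R s E = 1 - z := by simp only [fxS, Ex.R_mul, Ex.R_X]; exact hsw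
  have hZ : fxZ.R s E = z := by
    simp only [fxZ, Ex.R_sub, Ex.R_c, Fr.R, hS]; push_cast; ring
  have hD : fxD.R s E = 1 - E := by
    simp only [fxD, Ex.R_sub, Ex.R_c, Ex.R_Y, Fr.R]; push_cast; ring
  have hG := G_R (E := E) hS hZ hD
  have hκ : 0 ≤ fxK.R s E := by
    simp only [fxK, Ex.R_add, Ex.R_sub, Ex.R_mul, Ex.R_c, Fr.R, hS, hD]
    push_cast
    nlinarith [mul_nonneg (by linarith : (0 : ℝ) ≤ 1 - E) hw.le]
  have hs1 : s ≤ 9 / 10 := by nlinarith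
  have hs2 : 7 / 10 ≤ s := by nlinarith
  have hCd : 0 < 2 * (1 - z) * (1 + s) * E - z * (1 - E) * (1 + 2 * s) := by
    have h1 : z * (1 - E) ≤ E * (1 - z) := by nlinarith
    have h2 : z * (1 - E) * (1 + 2 * s) ≤ E * (1 - z) * (1 + 2 * s) :=
      mul_le_mul_of_nonneg_right h1 (by linarith)
    nlinarith [mul_pos hE hw]
  have hM : fxM.R s E = 2 * z * (1 - z) := by
    simp only [fxM, Ex.R_mul, Ex.R_c, Fr.R, hS, hZ]; push_cast; ring
  have hM1 : fxM1.R s E = E - z := by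
    simp only [fxM1, Ex.R_sub, Ex.R_Y, hZ]
  have hM0 : fxM0.R s E = (E - z) * (z + 1) - 2 * z * (1 - z) := by
    simp only [fxM0, Ex.R_sub, Ex.R_add, Ex.R_mul, Ex.R_c, Fr.R, hS, hZ, hM1]; push_cast; ring
  have hMp : 0 < fxM.R s E := by rw [hM]; positivity
  have hul : u ≤ 1 / s := by rw [le_div_iff₀ hs0]; exact hus
  have huN : u ≤ (fxM1.R s E * μ + fxM0.R s E) / fxM.R s E := by
    rw [le_div_iff₀ hMp, hM, hM1, hM0]
    nlinarith
  have hlam : 0 ≤ lamL E := by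
    unfold lamL
    have : 0 ≤ 1 - E := by linarith
    positivity
  have hq : 0 ≤ 2 - 2 * (1 - z) * s := by nlinarith
  have L : ∀ n d : Ex, 0 < d.R s E → n.R s E ≤ d.R s E * μ → (∀ P ∈ famL n d, 0 ≤ P.R s E) →
      ZoneC (fxK.R s E) z (1 - z) s E F (fxH.R s E) (1 - E)
        (2 * (1 - z) * (1 + s) * E - z * (1 - E) * (1 + 2 * s)) μ u := by
    intro n d hd hn h
    exact zone_anti hκ hs0 hq (by linarith) (by linarith) hlam hu hul (zone_L hsw hs0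
      (famL_out hS hZ hD rfl rfl hG hEF hE hs0 hw hsw hCd hκ hd hn h))
  have N : ∀ n d : Ex, 0 < d.R s E → n.R s E ≤ d.R s E * μ → (∀ P ∈ famN n d, 0 ≤ P.R s E) →
      ZoneC (fxK.R s E) z (1 - z) s E F (fxH.R s E) (1 - E)
        (2 * (1 - z) * (1 + s) * E - z * (1 - E) * (1 + 2 * s)) μ u := by
    intro n d hd hn h
    exact zone_anti hκ hs0 hq (by linarith) (by linarith) hlam hu huN (zone_N hMp
      (famN_out hS hZ hD rfl rfl hG hEF hE hs0 hw hCd hκ hd hn h))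
  have one : (Ex.c ⟨1, 0⟩).R s E = 1 := by simp [Ex.R_c, Fr.R]
  have c27 : (Ex.c ⟨27, 0⟩ * fxZ).R s E ≤ (Ex.c ⟨1, 0⟩).R s E * μ := by
    rw [one]; simp only [Ex.R_mul, Ex.R_c, Fr.R, hZ]; push_cast; linarith
  have c9 : (Ex.c ⟨9, 0⟩).R s E ≤ (Ex.c ⟨1, 0⟩).R s E * μ := by
    rw [one]; simp only [Ex.R_c, Fr.R]; push_cast; linarith
  have h1p : 0 < (Ex.c ⟨1, 0⟩).R s E := by rw [one]; norm_num
  have hYp : 0 < Ex.Y.R s E := hE
  rcases le_total (34 / 125) z with hzc | hzc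
  · have c3 : (Ex.c ⟨177, 49⟩).R s E ≤ Ex.Y.R s E * μ := by
      have := hc2 hzc
      simp only [Ex.R_c, Ex.R_Y, Fr.R]; push_cast; linarith
    obtain ⟨i, hi⟩ := fx_treeA hs0 hsz hz1 hzc hzE hE1 hZ
    rcases i with _ | _ | _ | _ | _ | _ | i
    · exact L _ _ h1p c27 hi
    · exact L _ _ h1p c9 hi
    · exact L _ _ hYp c3 hi
    · exact N _ _ h1p c27 hi
    · exact N _ _ h1p c9 hi
    · exact N _ _ hYp c3 hi
    · exfalso
      have := hi (Ex.c ⟨-1, 0⟩) (by simp [famsA])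
      rw [fx_cst] at this
      linarith
  · have c3 : (Ex.c ⟨33, 9⟩).R s E ≤ Ex.Y.R s E * μ := by
      simp only [Ex.R_c, Ex.R_Y, Fr.R]; push_cast; linarith
    obtain ⟨i, hi⟩ := fx_treeB hs0 hsz hz0 hzc hzE hE1 hZ
    rcases i with _ | _ | _ | _ | i
    · exact L _ _ h1p c9 hi
    · exact L _ _ hYp c3 hi
    · exact N _ _ h1p c9 hi
    · exact N _ _ hYp c3 hi
    · exfalso
      have := hi (Ex.c ⟨-1, 0⟩) (by simp [famsB])
      rw [fx_cst] at this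
      linarith

end Vale.Agent.P237.AllN.FX
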