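import Vale.Agent.P237.AllN.KronEx

/-!
# P237, block D, `X ≥ 3`, `u ≥ 0`, `1/5 ≤ z ≤ 49/100`: polynomial expressions in `(s, E)`

`E = e^{-2l}`, `z = 1 - s²`, `L = N/D` the lower bound of `-log E`.
-/

namespace Vale.Agent.P237.AllN.Fxq

open PolyPos

/-- the constant `n/d` -/
def xk (n : ℤ) (d : ℕ) : Ex := Ex.c ⟨n, d - 1⟩

theorem xk_R (n : ℤ) (d : ℕ) (x y : ℝ) (hd : 1 ≤ d) : (xk n d).R x y = n / d := by
  unfold xk
  rw [Ex.R_c, Fr.R]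
  congr 1
  obtain ⟨k, rfl⟩ := Nat.exists_eq_add_of_le' hd
  simp

/-- powers -/
noncomputable def xp (a : Ex) (n : ℕ) : Ex :=
  Nat.rec (motive := fun _ => Ex) (xk 1 1) (fun _ b => a * b) n

theorem xp_R (a : Ex) (n : ℕ) (x y : ℝ) : (xp a n).R x y = a.R x y ^ n := by
  induction n with
  | zero =>
    show (xk 1 1).R x y = _
    rw [xk_R _ _ _ _ le_rfl]; simp
  | succ n ih =>
    show (a * xp a n).R x y = _
    rw [Ex.R_mul, ih, pow_succ]; ring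

/-! ## expressions, `X = s`, `Y = E` -/

def xz : Ex := xk 1 1 - Ex.X * Ex.X
def xN : Ex := (xk 1 1 - Ex.Y) * (xk 11 1 + Ex.Y * (xk 38 1 + xk 11 1 * Ex.Y))
def xD : Ex := xk 3 1 * ((xk 1 1 + Ex.Y) * (xk 1 1 + Ex.Y * (xk 8 1 + Ex.Y)))
def xD2 : Ex := xD * xD
def xND : Ex := xN * xD
def xN2 : Ex := xN * xN
noncomputable def xE6 : Ex := xp Ex.Y 6
def xH : Ex := xk 2 1 * (Ex.X * Ex.X * ((xk 1 1 + Ex.X) * Ex.Y)) -
  xz * ((xk 1 1 - Ex.Y) * (xk 1 1 + xk 2 1 * Ex.X))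
def xq : Ex := (xk 1 1 + Ex.X) * (xk 1 1 + Ex.X)
noncomputable def xqH : Ex := xq * xH
noncomputable def xs3 : Ex := xp Ex.X 3

/-- `D² (E^k - 1 + k L)` -/
noncomputable def xA (k : ℕ) : Ex := (xp Ex.Y k - xk 1 1) * xD2 + xk k 1 * xND

/-- `D² E^k (E^{-k} - 1 - k L)` -/
noncomputable def xB (k : ℕ) : Ex := (xk 1 1 - xp Ex.Y k) * xD2 - xk k 1 * (xp Ex.Y k * xND)

/-- `E⁶ D² m_k` -/
noncomputable def xm (k : ℕ) : Ex := xk (2 * k - 1 : ℤ) (2 * k) * (xE6 * xA k) -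
  (xk 1 (2 * k) * (xp Ex.Y (6 - k) * xB k) + xk (k * (k - 1) : ℤ) 2 * (xE6 * xN2))

/-- `E⁶ D² h_k` -/
noncomputable def xh (k : ℕ) : Ex := xk (k * (k - 1) * (2 * k - 1) : ℤ) 2 * (xE6 * xN2) -
  xk ((2 * k - 1) * (k - 1) : ℤ) k * (xE6 * xA k)

noncomputable def mR (k : ℕ) (E L : ℝ) : ℝ :=
  (2 * k - 1) / (2 * k) * (E ^ k - 1 + k * L) - 1 / (2 * k) * ((E ^ k)⁻¹ - 1 - k * L) -
    k * (k - 1) / 2 * L ^ 2

noncomputable def hR (k : ℕ) (E L : ℝ) : ℝ :=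
  k * (k - 1) * (2 * k - 1) / 2 * L ^ 2 - (2 * k - 1) * (k - 1) / k * (E ^ k - 1 + k * L)

noncomputable def vN (E : ℝ) : ℝ := (1 - E) * (11 + 38 * E + 11 * E ^ 2)
noncomputable def vD (E : ℝ) : ℝ := 3 * (1 + E) * (1 + 8 * E + E ^ 2)
noncomputable def vL (E : ℝ) : ℝ := vN E / vD E

theorem vD_pos {E : ℝ} (hE : 0 < E) : 0 < vD E := by unfold vD; positivity

theorem xz_R (s E : ℝ) : xz.R s E = 1 - s ^ 2 := by
  unfold xz
  rw [Ex.R_sub, Ex.R_mul, Ex.R_X, xk_R _ _ _ _ le_rfl]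
  push_cast
  ring

theorem xN_R (s E : ℝ) : xN.R s E = vN E := by
  unfold xN vN
  simp only [Ex.R_add, Ex.R_sub, Ex.R_mul, Ex.R_Y]
  simp (discharger := norm_num) only [xk_R]
  push_cast
  ring

theorem xD_R (s E : ℝ) : xD.R s E = vD E := by
  unfold xD vD
  simp only [Ex.R_add, Ex.R_mul, Ex.R_Y]
  simp (discharger := norm_num) only [xk_R]
  push_cast
  ring

theorem xD2_R (s E : ℝ) : xD2.R s E = vD E ^ 2 := by
  unfold xD2; rw [Ex.R_mul, xD_R]; ring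

theorem xND_R {E : ℝ} (hE : 0 < E) (s : ℝ) : xND.R s E = vD E ^ 2 * vL E := by
  unfold xND vL; rw [Ex.R_mul, xD_R, xN_R]
  have := (vD_pos hE).ne'
  field_simp

theorem xN2_R {E : ℝ} (hE : 0 < E) (s : ℝ) : xN2.R s E = vD E ^ 2 * vL E ^ 2 := by
  unfold xN2 vL; rw [Ex.R_mul, xN_R]
  have := (vD_pos hE).ne'
  field_simp

theorem xE6_R (s E : ℝ) : xE6.R s E = E ^ 6 := by unfold xE6; rw [xp_R, Ex.R_Y]

theorem xA_R {E : ℝ} (hE : 0 < E) (s : ℝ) (k : ℕ) :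
    (xA k).R s E = vD E ^ 2 * (E ^ k - 1 + k * vL E) := by
  unfold xA
  rw [Ex.R_add, Ex.R_mul, Ex.R_mul, Ex.R_sub, xp_R, Ex.R_Y, xD2_R, xND_R hE,
    xk_R _ _ _ _ le_rfl, xk_R _ _ _ _ le_rfl]
  push_cast
  ring

theorem xB_R {E : ℝ} (hE : 0 < E) (s : ℝ) (k : ℕ) :
    (xB k).R s E = vD E ^ 2 * (E ^ k * ((E ^ k)⁻¹ - 1 - k * vL E)) := by
  unfold xB
  rw [Ex.R_sub, Ex.R_mul, Ex.R_mul, Ex.R_sub, Ex.R_mul, xp_R, Ex.R_Y, xD2_R, xND_R hE,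
    xk_R _ _ _ _ le_rfl, xk_R _ _ _ _ le_rfl]
  have : E ^ k * (E ^ k)⁻¹ = 1 := mul_inv_cancel₀ (pow_pos hE k).ne'
  push_cast
  linear_combination -vD E ^ 2 * this

theorem xm_R {E : ℝ} (hE : 0 < E) (s : ℝ) {k : ℕ} (hk : 1 ≤ k) (hk6 : k ≤ 6) :
    (xm k).R s E = E ^ 6 * vD E ^ 2 * mR k E (vL E) := by
  unfold xm mR
  rw [Ex.R_sub, Ex.R_add, Ex.R_mul, Ex.R_mul, Ex.R_mul, Ex.R_mul, Ex.R_mul, Ex.R_mul, xE6_R,
    xA_R hE, xp_R, Ex.R_Y, xB_R hE, xN2_R hE, xk_R _ _ _ _ (by omega), xk_R _ _ _ _ (by omega),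
    xk_R _ _ _ _ (by omega)]
  have h6 : E ^ (6 - k) * E ^ k = E ^ 6 := by rw [← pow_add, Nat.sub_add_cancel hk6]
  have hk0 : (k : ℝ) ≠ 0 := by positivity
  push_cast
  linear_combination -(1 / (2 * k) * vD E ^ 2 * ((E ^ k)⁻¹ - 1 - k * vL E)) * h6

theorem xh_R {E : ℝ} (hE : 0 < E) (s : ℝ) {k : ℕ} (hk : 1 ≤ k) :
    (xh k).R s E = E ^ 6 * vD E ^ 2 * hR k E (vL E) := by
  unfold xh hR
  rw [Ex.R_sub, Ex.R_mul, Ex.R_mul, Ex.R_mul, Ex.R_mul, xE6_R,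
    xA_R hE, xN2_R hE, xk_R _ _ _ _ (by omega), xk_R _ _ _ _ (by omega)]
  push_cast
  ring

/-- kernel sum: coefficient of `w` -/
noncomputable def xK1 : Ex := xz * (xk 3 4 * xm 2 + xz * (xk 5 8 * xm 3 + xz * (xk 35 64 * xm 4 +
  xz * (xk 63 128 * xm 5 + xz * (xk 231 512 * xm 6)))))

noncomputable def xg (k : ℕ) : Ex := xk (1 + 2 * k : ℤ) 1 * (xz * xm k) + xh k

/-- kernel sum: constant coefficient -/
noncomputable def xK0 : Ex := xz * (xk 3 4 * xg 2 + xz * (xk 5 8 * xg 3 + xz * (xk 35 64 * xg 4 +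
  xz * (xk 63 128 * xg 5 + xz * (xk 231 512 * xg 6)))))

noncomputable def k1R (z E L : ℝ) : ℝ := z * (3 / 4 * mR 2 E L + z * (5 / 8 * mR 3 E L + z * (
  35 / 64 * mR 4 E L + z * (63 / 128 * mR 5 E L + z * (231 / 512 * mR 6 E L)))))

noncomputable def gR (k : ℕ) (z E L : ℝ) : ℝ := (1 + 2 * k) * (z * mR k E L) + hR k E L

noncomputable def k0R (z E L : ℝ) : ℝ := z * (3 / 4 * gR 2 z E L + z * (5 / 8 * gR 3 z E L + z * (
  35 / 64 * gR 4 z E L + z * (63 / 128 * gR 5 z E L + z * (231 / 512 * gR 6 z E L)))))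

theorem xK1_R {E : ℝ} (hE : 0 < E) (s : ℝ) :
    xK1.R s E = E ^ 6 * vD E ^ 2 * k1R (1 - s ^ 2) E (vL E) := by
  unfold xK1 k1R
  simp only [Ex.R_add, Ex.R_mul, xz_R]
  rw [xm_R hE s (k := 2) (by norm_num) (by norm_num), xm_R hE s (k := 3) (by norm_num) (by norm_num),
    xm_R hE s (k := 4) (by norm_num) (by norm_num), xm_R hE s (k := 5) (by norm_num) (by norm_num),
    xm_R hE s (k := 6) (by norm_num) (by norm_num)]
  simp (discharger := norm_num) only [xk_R]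
  push_cast
  ring

theorem xg_R {E : ℝ} (hE : 0 < E) (s : ℝ) {k : ℕ} (hk : 1 ≤ k) (hk6 : k ≤ 6) :
    (xg k).R s E = E ^ 6 * vD E ^ 2 * gR k (1 - s ^ 2) E (vL E) := by
  unfold xg gR
  rw [Ex.R_add, Ex.R_mul, Ex.R_mul, xz_R, xm_R hE s hk hk6, xh_R hE s hk,
    xk_R _ _ _ _ le_rfl]
  push_cast
  ring

theorem xK0_R {E : ℝ} (hE : 0 < E) (s : ℝ) :
    xK0.R s E = E ^ 6 * vD E ^ 2 * k0R (1 - s ^ 2) E (vL E) := by
  unfold xK0 k0R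
  simp only [Ex.R_add, Ex.R_mul, xz_R]
  rw [xg_R hE s (k := 2) (by norm_num) (by norm_num), xg_R hE s (k := 3) (by norm_num) (by norm_num),
    xg_R hE s (k := 4) (by norm_num) (by norm_num), xg_R hE s (k := 5) (by norm_num) (by norm_num),
    xg_R hE s (k := 6) (by norm_num) (by norm_num)]
  simp (discharger := norm_num) only [xk_R]
  push_cast
  ring

end Vale.Agent.P237.AllN.Fxq
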