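import Vale.Agent.P237.AllN.FxqD

/-!
# P237, block D, `X ≥ 3`, `u ≥ 0`, `1/5 ≤ z ≤ 49/100`: the test polynomials

`F(u) = T₀ - θ' e₀ + u G₁`, coefficients in `w = m z`, multiplied by the common denominator.
-/

namespace Vale.Agent.P237.AllN.Fxq

open PolyPos

noncomputable def xs5 : Ex := xp Ex.X 5
noncomputable def xJ : Ex := xs5 * xqH
noncomputable def xEN : Ex := xE6 * xN2 * xqH
noncomputable def xXa : Ex := xE6 * (xD * ((Ex.Y - xk 1 1) * xD + xN))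
noncomputable def xDEN : Ex := xE6 * xD2 * xJ
noncomputable def xLL : Ex := xE6 * xND * xJ

noncomputable def xT2 : Ex := xk 3 100 * (xs3 * xEN)
noncomputable def xT1 : Ex := xJ * (xXa + xK1) +
  xEN * (xk 3 4 * xz + xk 9 100 * ((xz - Ex.X * Ex.X) * xs3))
noncomputable def xT0 : Ex := xJ * (xk 3 1 * (xz * xXa) + xK0) -
  xEN * (xz * (xk 9 4 + xk 27 100 * xs5)) -
  xk 2 1 * (Ex.X * xz * ((xk 1 1 - Ex.Y) * (xk 1 1 + Ex.X)) * (xs5 * (xE6 * xD2))) +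
  xz * (xND * xE6) * (xp Ex.X 4 * xH)

/-- `F₀`, coefficients -/
noncomputable def xFa (tp c4 t2 : Ex) : Ex := xT0 -
  tp * (xJ * (xk 3 1 * (xz * xXa)) + xk 1 29 * (xz * xs3 * (xE6 * xND * xqH))) -
  (c4 * t2 * (Ex.X * Ex.X * Ex.Y) + xk 1 50) * xDEN
noncomputable def xFb (tp : Ex) : Ex := xT1 - tp * (xJ * xXa)

def xsg : Ex := xk 1 1 + Ex.X * (xk 6 1 + xk 6 1 * Ex.X)

/-- `G₁ · s · sg · DEN`: constant coefficient; `t21 = 2t - t²` -/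
noncomputable def xG0 (tp c4 t21 kF : Ex) : Ex :=
  (c4 * t21 * (xs3 * Ex.Y * xsg) - tp * ((xk 2 1 - xk 2 1 * xs3) * xsg) -
    kF * (xk 1 1 + xk 3 1 * Ex.X)) * xDEN - xk 9 25 * (xz * (Ex.X * xsg)) * xLL
/-- `G₁ · s · sg · DEN`: coefficient of `w` -/
noncomputable def xG1 : Ex := xk (-3) 25 * (Ex.X * xsg) * xLL

/-- `F(1/s)` -/
noncomputable def yFa (tp c4 t2 t21 kF : Ex) : Ex :=
  Ex.X * Ex.X * xsg * xFa tp c4 t2 + xG0 tp c4 t21 kF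
noncomputable def yFb (tp : Ex) : Ex := Ex.X * Ex.X * xsg * xFb tp + xG1
noncomputable def yFc : Ex := Ex.X * Ex.X * xsg * xT2

/-- `F(U_t)`, `U_t = (w+z+1)(E-z)/(2 z s²) - 1` -/
def xu1 : Ex := Ex.Y - xz
def xu0 : Ex := (xk 1 1 + xz) * (Ex.Y - xz) - xk 2 1 * (xz * (Ex.X * Ex.X))
noncomputable def zFa (tp c4 t2 t21 kF : Ex) : Ex :=
  xk 2 1 * (xz * xs3) * xsg * xFa tp c4 t2 + xu0 * xG0 tp c4 t21 kF
noncomputable def zFb (tp c4 t21 kF : Ex) : Ex :=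
  xk 2 1 * (xz * xs3) * xsg * xFb tp + (xu0 * xG1 + xu1 * xG0 tp c4 t21 kF)
noncomputable def zFc : Ex := xk 2 1 * (xz * xs3) * xsg * xT2 + xu1 * xG1

/-- `-(G₁(w0)) s² sg D` -/
noncomputable def xGm (tp c4 t21 kF W : Ex) : Ex :=
  xk 3 25 * ((W + xk 3 1 * xz) * (xN * (Ex.X * Ex.X * xsg))) -
  ((c4 * t21 * (xp Ex.X 4 * Ex.Y * xsg) - tp * ((xk 2 1 * Ex.X - xk 2 1 * xp Ex.X 4) * xsg) -
    kF * ((xk 1 1 + xk 3 1 * Ex.X) * Ex.X)) * xD)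

/-- values and derivatives at `w = W`, `w = W/E` -/
def q0 (a b c W : Ex) : Ex := a + W * (b + c * W)
def q1 (b c W : Ex) : Ex := b + xk 2 1 * (c * W)
def p0 (a b c W : Ex) : Ex := a * (Ex.Y * Ex.Y) + W * (b * Ex.Y + c * W)
def p1 (b c W : Ex) : Ex := b * Ex.Y + xk 2 1 * (c * W)

/-! ## real values -/

noncomputable def vH (s E : ℝ) : ℝ :=
  2 * s ^ 2 * (1 + s) * E - (1 - s ^ 2) * (1 - E) * (1 + 2 * s)
noncomputable def vq (s E : ℝ) : ℝ := (1 + s) ^ 2 * vH s E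
noncomputable def vd (s E : ℝ) : ℝ := E ^ 6 * vD E ^ 2 * (s ^ 5 * vq s E)
noncomputable def vsg (s : ℝ) : ℝ := 6 * s ^ 2 + 6 * s + 1

noncomputable def r2 (s L : ℝ) : ℝ := 3 / 100 * (L ^ 2 / s ^ 2)
noncomputable def r1 (s z E L : ℝ) : ℝ := (E - 1 + L) + k1R z E L +
  (3 / 4 * (z / s ^ 5) + 9 / 100 * ((z - s ^ 2) / s ^ 2)) * L ^ 2
noncomputable def r0 (s z E L : ℝ) : ℝ := 3 * z * (E - 1 + L) + k0R z E L -
  (9 / 4 * (z / s ^ 5) + 27 / 100 * z) * L ^ 2 -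
  2 * s * z * (1 - E) / ((1 + s) * vH s E) + z * L / (s * (1 + s) ^ 2)

noncomputable def fa (tp c4 t2 s z E L : ℝ) : ℝ := r0 s z E L -
  tp * (3 * z * (E - 1 + L) + 1 / 29 * (z * L / s ^ 2)) - (c4 * t2 * (s ^ 2 * E) + 1 / 50)
noncomputable def fb (tp s z E L : ℝ) : ℝ := r1 s z E L - tp * (E - 1 + L)

noncomputable def g0 (tp c4 t21 kF s z E L : ℝ) : ℝ := c4 * t21 * (s ^ 2 * E) -
  tp * (2 / s - 2 * s ^ 2) - kF * ((1 + 3 * s) / (s * vsg s)) - 9 / 25 * (z * L)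
noncomputable def g1 (L : ℝ) : ℝ := -(3 / 25 * L)

theorem xH_R (s E : ℝ) : xH.R s E = vH s E := by
  unfold xH vH
  simp only [Ex.R_add, Ex.R_sub, Ex.R_mul, Ex.R_X, Ex.R_Y, xz_R]
  simp (discharger := norm_num) only [xk_R]
  push_cast
  ring

theorem xqH_R (s E : ℝ) : xqH.R s E = vq s E := by
  unfold xqH xq vq
  simp only [Ex.R_add, Ex.R_mul, Ex.R_X, xH_R]
  simp (discharger := norm_num) only [xk_R]
  push_cast
  ring

theorem xs3_R (s E : ℝ) : xs3.R s E = s ^ 3 := by unfold xs3; rw [xp_R, Ex.R_X]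
theorem xs5_R (s E : ℝ) : xs5.R s E = s ^ 5 := by unfold xs5; rw [xp_R, Ex.R_X]

theorem xJ_R (s E : ℝ) : xJ.R s E = s ^ 5 * vq s E := by
  unfold xJ; rw [Ex.R_mul, xs5_R, xqH_R]

theorem xEN_R {E : ℝ} (hE : 0 < E) (s : ℝ) :
    xEN.R s E = E ^ 6 * vD E ^ 2 * vL E ^ 2 * vq s E := by
  unfold xEN; rw [Ex.R_mul, Ex.R_mul, xE6_R, xN2_R hE, xqH_R]; ring

theorem xXa_R {E : ℝ} (hE : 0 < E) (s : ℝ) :
    xXa.R s E = E ^ 6 * vD E ^ 2 * (E - 1 + vL E) := by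
  unfold xXa
  simp only [Ex.R_add, Ex.R_sub, Ex.R_mul, Ex.R_Y, xE6_R, xD_R, xN_R]
  rw [xk_R _ _ _ _ le_rfl]
  have : vN E = vD E * vL E := by
    unfold vL
    have := (vD_pos hE).ne'
    field_simp
  rw [this]
  push_cast
  ring

theorem xDEN_R (s E : ℝ) : xDEN.R s E = vd s E := by
  unfold xDEN vd; rw [Ex.R_mul, Ex.R_mul, xE6_R, xD2_R, xJ_R]

theorem xLL_R {E : ℝ} (hE : 0 < E) (s : ℝ) : xLL.R s E = vd s E * vL E := by
  unfold xLL vd; rw [Ex.R_mul, Ex.R_mul, xE6_R, xND_R hE, xJ_R]; ring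

theorem xT2_R {s E : ℝ} (hs : 0 < s) (hE : 0 < E) :
    xT2.R s E = vd s E * r2 s (vL E) := by
  unfold xT2 vd r2; rw [Ex.R_mul, Ex.R_mul, xs3_R, xEN_R hE, xk_R _ _ _ _ (by norm_num)]
  push_cast
  field_simp

theorem xT1_R {s E : ℝ} (hs : 0 < s) (hE : 0 < E) :
    xT1.R s E = vd s E * r1 s (1 - s ^ 2) E (vL E) := by
  unfold xT1 vd r1
  simp only [Ex.R_add, Ex.R_sub, Ex.R_mul, Ex.R_X, xJ_R, xXa_R hE, xK1_R hE, xEN_R hE, xz_R, xs3_R]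
  generalize k1R (1 - s ^ 2) E (vL E) = K
  generalize vL E = L
  generalize vq s E = Q
  generalize vD E = D
  simp (discharger := norm_num) only [xk_R]
  push_cast
  field_simp

theorem xT0_R {s E : ℝ} (hs : 0 < s) (hE : 0 < E) (hH : vH s E ≠ 0) :
    xT0.R s E = vd s E * r0 s (1 - s ^ 2) E (vL E) := by
  unfold xT0 vd r0
  simp only [Ex.R_add, Ex.R_sub, Ex.R_mul, Ex.R_X, Ex.R_Y, xJ_R, xXa_R hE, xK0_R hE, xEN_R hE,
    xz_R, xs5_R, xE6_R, xD2_R, xND_R hE, xp_R, xH_R]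
  unfold vq
  generalize k0R (1 - s ^ 2) E (vL E) = K
  generalize vL E = L
  generalize vH s E = H at *
  generalize vD E = D
  simp (discharger := norm_num) only [xk_R]
  have h1 : 1 + s ≠ 0 := by positivity
  push_cast
  field_simp

theorem xFa_R {s E : ℝ} (hs : 0 < s) (hE : 0 < E) (hH : vH s E ≠ 0) (tp c4 t2 : Ex) :
    (xFa tp c4 t2).R s E = vd s E *
      fa (tp.R s E) (c4.R s E) (t2.R s E) s (1 - s ^ 2) E (vL E) := by
  unfold xFa fa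
  simp only [Ex.R_add, Ex.R_sub, Ex.R_mul, Ex.R_X, Ex.R_Y, xT0_R hs hE hH, xJ_R, xXa_R hE,
    xz_R, xs3_R, xE6_R, xND_R hE, xqH_R, xDEN_R]
  generalize r0 s (1 - s ^ 2) E (vL E) = K
  unfold vd
  generalize vL E = L
  generalize vq s E = Q
  generalize vD E = D
  generalize tp.R s E = tp
  generalize c4.R s E = c4
  generalize t2.R s E = t2
  simp (discharger := norm_num) only [xk_R]
  push_cast
  field_simp

theorem xFb_R {s E : ℝ} (hs : 0 < s) (hE : 0 < E) (tp : Ex) :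
    (xFb tp).R s E = vd s E * fb (tp.R s E) s (1 - s ^ 2) E (vL E) := by
  unfold xFb fb
  simp only [Ex.R_sub, Ex.R_mul, xT1_R hs hE, xJ_R, xXa_R hE]
  unfold vd
  ring

theorem xsg_R (s E : ℝ) : xsg.R s E = vsg s := by
  unfold xsg vsg
  simp only [Ex.R_add, Ex.R_mul, Ex.R_X]
  simp (discharger := norm_num) only [xk_R]
  push_cast
  ring

theorem xG0_R {s E : ℝ} (hs : 0 < s) (hE : 0 < E) (tp c4 t21 kF : Ex) :
    (xG0 tp c4 t21 kF).R s E = vd s E * (s * vsg s) *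
      g0 (tp.R s E) (c4.R s E) (t21.R s E) (kF.R s E) s (1 - s ^ 2) E (vL E) := by
  unfold xG0 g0
  simp only [Ex.R_add, Ex.R_sub, Ex.R_mul, Ex.R_X, Ex.R_Y, xs3_R, xsg_R, xDEN_R, xz_R, xLL_R hE]
  have h : vsg s ≠ 0 := by unfold vsg; positivity
  generalize vsg s = G at *
  generalize vL E = L
  generalize vd s E = D
  generalize tp.R s E = tp
  generalize c4.R s E = c4
  generalize t21.R s E = t21
  generalize kF.R s E = kF
  simp (discharger := norm_num) only [xk_R]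
  push_cast
  field_simp

theorem xG1_R {s E : ℝ} (hE : 0 < E) :
    xG1.R s E = vd s E * (s * vsg s) * g1 (vL E) := by
  unfold xG1 g1
  simp only [Ex.R_mul, Ex.R_X, xsg_R, xLL_R hE]
  simp (discharger := norm_num) only [xk_R]
  push_cast
  ring

theorem yFa_R {s E : ℝ} (hs : 0 < s) (hE : 0 < E) (hH : vH s E ≠ 0) (tp c4 t2 t21 kF : Ex) :
    (yFa tp c4 t2 t21 kF).R s E = vd s E * (s ^ 2 * vsg s) *
      (fa (tp.R s E) (c4.R s E) (t2.R s E) s (1 - s ^ 2) E (vL E) + 1 / s *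
      g0 (tp.R s E) (c4.R s E) (t21.R s E) (kF.R s E) s (1 - s ^ 2) E (vL E)) := by
  unfold yFa
  simp only [Ex.R_add, Ex.R_mul, Ex.R_X, xsg_R, xFa_R hs hE hH, xG0_R hs hE]
  field_simp

theorem yFb_R {s E : ℝ} (hs : 0 < s) (hE : 0 < E) (tp : Ex) :
    (yFb tp).R s E = vd s E * (s ^ 2 * vsg s) *
      (fb (tp.R s E) s (1 - s ^ 2) E (vL E) + 1 / s * g1 (vL E)) := by
  unfold yFb
  simp only [Ex.R_add, Ex.R_mul, Ex.R_X, xsg_R, xFb_R hs hE, xG1_R hE]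
  field_simp

theorem yFc_R {s E : ℝ} (hs : 0 < s) (hE : 0 < E) :
    yFc.R s E = vd s E * (s ^ 2 * vsg s) * r2 s (vL E) := by
  unfold yFc
  simp only [Ex.R_mul, Ex.R_X, xsg_R, xT2_R hs hE]
  ring

theorem xu1_R (s E : ℝ) : xu1.R s E = E - (1 - s ^ 2) := by
  unfold xu1; rw [Ex.R_sub, Ex.R_Y, xz_R]

theorem xu0_R (s E : ℝ) : xu0.R s E = (1 + (1 - s ^ 2)) * (E - (1 - s ^ 2)) -
    2 * ((1 - s ^ 2) * s ^ 2) := by
  unfold xu0
  simp only [Ex.R_add, Ex.R_sub, Ex.R_mul, Ex.R_X, Ex.R_Y, xz_R]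
  simp (discharger := norm_num) only [xk_R]
  push_cast
  ring

/-- `U_t = v0 + v1 w` -/
noncomputable def v0 (s z E : ℝ) : ℝ := ((1 + z) * (E - z) - 2 * (z * s ^ 2)) / (2 * z * s ^ 2)
noncomputable def v1 (s z E : ℝ) : ℝ := (E - z) / (2 * z * s ^ 2)

theorem zFa_R {s E : ℝ} (hs : 0 < s) (hs1 : s < 1) (hE : 0 < E) (hH : vH s E ≠ 0)
    (tp c4 t2 t21 kF : Ex) :
    (zFa tp c4 t2 t21 kF).R s E = vd s E * (2 * (1 - s ^ 2) * s ^ 3 * vsg s) *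
      (fa (tp.R s E) (c4.R s E) (t2.R s E) s (1 - s ^ 2) E (vL E) + v0 s (1 - s ^ 2) E *
      g0 (tp.R s E) (c4.R s E) (t21.R s E) (kF.R s E) s (1 - s ^ 2) E (vL E)) := by
  unfold zFa v0
  simp only [Ex.R_add, Ex.R_mul, xs3_R, xz_R, xsg_R, xFa_R hs hE hH, xG0_R hs hE, xu0_R,
    xk_R _ _ _ _ le_rfl]
  have hz : 1 - s ^ 2 ≠ 0 := by nlinarith
  generalize fa (tp.R s E) (c4.R s E) (t2.R s E) s (1 - s ^ 2) E (vL E) = A
  generalize g0 (tp.R s E) (c4.R s E) (t21.R s E) (kF.R s E) s (1 - s ^ 2) E (vL E) = B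
  generalize 1 - s ^ 2 = z at *
  push_cast
  field_simp

theorem zFb_R {s E : ℝ} (hs : 0 < s) (hs1 : s < 1) (hE : 0 < E)
    (tp c4 t21 kF : Ex) :
    (zFb tp c4 t21 kF).R s E = vd s E * (2 * (1 - s ^ 2) * s ^ 3 * vsg s) *
      (fb (tp.R s E) s (1 - s ^ 2) E (vL E) + (v0 s (1 - s ^ 2) E * g1 (vL E) +
      v1 s (1 - s ^ 2) E *
      g0 (tp.R s E) (c4.R s E) (t21.R s E) (kF.R s E) s (1 - s ^ 2) E (vL E))) := by
  unfold zFb v0 v1
  simp only [Ex.R_add, Ex.R_mul, xs3_R, xz_R, xsg_R, xFb_R hs hE, xG0_R hs hE, xu0_R, xu1_R,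
    xG1_R hE, xk_R _ _ _ _ le_rfl]
  have hz : 1 - s ^ 2 ≠ 0 := by nlinarith
  generalize fb (tp.R s E) s (1 - s ^ 2) E (vL E) = A
  generalize g0 (tp.R s E) (c4.R s E) (t21.R s E) (kF.R s E) s (1 - s ^ 2) E (vL E) = B
  generalize g1 (vL E) = C
  generalize 1 - s ^ 2 = z at *
  push_cast
  field_simp

theorem zFc_R {s E : ℝ} (hs : 0 < s) (hs1 : s < 1) (hE : 0 < E) :
    zFc.R s E = vd s E * (2 * (1 - s ^ 2) * s ^ 3 * vsg s) *
      (r2 s (vL E) + v1 s (1 - s ^ 2) E * g1 (vL E)) := by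
  unfold zFc v1
  simp only [Ex.R_add, Ex.R_mul, xs3_R, xz_R, xsg_R, xT2_R hs hE, xu1_R, xG1_R hE,
    xk_R _ _ _ _ le_rfl]
  have hz : 1 - s ^ 2 ≠ 0 := by nlinarith
  generalize r2 s (vL E) = A
  generalize g1 (vL E) = C
  generalize 1 - s ^ 2 = z at *
  push_cast
  field_simp

theorem xGm_R {s E : ℝ} (hs : 0 < s) (hE : 0 < E) (tp c4 t21 kF W : Ex) :
    (xGm tp c4 t21 kF W).R s E = -(s ^ 2 * vsg s * vD E *
      (g0 (tp.R s E) (c4.R s E) (t21.R s E) (kF.R s E) s (1 - s ^ 2) E (vL E) +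
        g1 (vL E) * W.R s E)) := by
  unfold xGm g0 g1
  simp only [Ex.R_add, Ex.R_sub, Ex.R_mul, Ex.R_X, Ex.R_Y, xp_R, xsg_R, xz_R, xD_R, xN_R]
  have h : vsg s ≠ 0 := by unfold vsg; positivity
  have hN : vN E = vD E * vL E := by
    unfold vL
    have := (vD_pos hE).ne'
    field_simp
  rw [hN]
  generalize vsg s = G at *
  generalize vL E = L
  generalize vD E = D
  generalize tp.R s E = tp
  generalize c4.R s E = c4
  generalize t21.R s E = t21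
  generalize kF.R s E = kF
  generalize W.R s E = w
  simp (discharger := norm_num) only [xk_R]
  push_cast
  field_simp
  ring

theorem q0_R (a b c W : Ex) (s E : ℝ) : (q0 a b c W).R s E =
    a.R s E + b.R s E * W.R s E + c.R s E * W.R s E ^ 2 := by
  unfold q0; simp only [Ex.R_add, Ex.R_mul]; ring
theorem q1_R (b c W : Ex) (s E : ℝ) : (q1 b c W).R s E =
    b.R s E + 2 * c.R s E * W.R s E := by
  unfold q1; simp only [Ex.R_add, Ex.R_mul, xk_R _ _ _ _ le_rfl]; push_cast; ring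
theorem p0_R {E : ℝ} (hE : 0 < E) (a b c W : Ex) (s : ℝ) : (p0 a b c W).R s E = E ^ 2 * (
    a.R s E + b.R s E * (W.R s E / E) + c.R s E * (W.R s E / E) ^ 2) := by
  unfold p0; simp only [Ex.R_add, Ex.R_mul, Ex.R_Y]; field_simp; ring
theorem p1_R {E : ℝ} (hE : 0 < E) (b c W : Ex) (s : ℝ) : (p1 b c W).R s E = E * (
    b.R s E + 2 * c.R s E * (W.R s E / E)) := by
  unfold p1; simp only [Ex.R_add, Ex.R_mul, Ex.R_Y, xk_R _ _ _ _ le_rfl]; push_cast; field_simp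

end Vale.Agent.P237.AllN.Fxq
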