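import Vale.Agent.P237.AllN.FxqE

/-!
# P237, block D, `X ≥ 3`, `u ≥ 0`, `1/5 ≤ z ≤ 49/100`: families of checks
-/

namespace Vale.Agent.P237.AllN.Fxq

open PolyPos

/-- `w ≥ W`, `U = 1/s` -/
noncomputable def famA (tp c4 kF t2 t21 W : Ex) : List Ex :=
  [q0 (xFa tp c4 t2) (xFb tp) xT2 W, q1 (xFb tp) xT2 W,
   q0 (yFa tp c4 t2 t21 kF) (yFb tp) yFc W, q1 (yFb tp) yFc W]
/-- `w ≥ C/E`, `U = 1/s` -/
noncomputable def famB (tp c4 kF t2 t21 C : Ex) : List Ex :=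
  [p0 (xFa tp c4 t2) (xFb tp) xT2 C, p1 (xFb tp) xT2 C,
   p0 (yFa tp c4 t2 t21 kF) (yFb tp) yFc C, p1 (yFb tp) yFc C]
/-- `w ≥ W`, tail -/
noncomputable def famC (tp c4 kF t2 t21 W : Ex) : List Ex :=
  [q0 (zFa tp c4 t2 t21 kF) (zFb tp c4 t21 kF) zFc W, q1 (zFb tp c4 t21 kF) zFc W, zFc,
   xGm tp c4 t21 kF W]
/-- `w ≥ C/E`, `w ≥ 9`, tail -/
noncomputable def famD (tp c4 kF t2 t21 C : Ex) : List Ex :=
  [p0 (zFa tp c4 t2 t21 kF) (zFb tp c4 t21 kF) zFc C, p1 (zFb tp c4 t21 kF) zFc C, zFc,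
   xGm tp c4 t21 kF (xk 9 1)]

/-- `t²`, `2t - t²`, `t = n/10` -/
def xt2 (n : ℤ) : Ex := xk (n * n) 100
def xt21 (n : ℤ) : Ex := xk (20 * n - n * n) 100

end Vale.Agent.P237.AllN.Fxq
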