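import Vale.Agent.P237.AllN.FxqF

/-!
# P237, block D, `X ≥ 3`, `u ≥ 0`, `1/5 ≤ z ≤ 49/100`: bounds of `e₀`, the `λ²` coefficient
-/

namespace Vale.Agent.P237.AllN.Fxq

open PolyPos

/-! ## the `λ²` coefficient, times `s⁵` -/

noncomputable def xS1 : Ex := xz * (xk 3 4 + xz * (xk 15 8 + xz * (xk 105 32 + xz * (xk 315 64 +
  xz * xk 3465 512))))
noncomputable def xS2 : Ex := xz * (xk 3 4 * (xk 5 1 * xz - xk 3 1) + xz * (
  xk 15 8 * (xk 7 1 * xz - xk 5 1) + xz * (xk 105 32 * (xk 9 1 * xz - xk 7 1) + xz * (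
  xk 315 64 * (xk 11 1 * xz - xk 9 1) + xz * (xk 3465 512 * (xk 13 1 * xz - xk 11 1))))))

noncomputable def S1R (z : ℝ) : ℝ := z * (3 / 4 + z * (15 / 8 + z * (105 / 32 + z * (315 / 64 +
  z * (3465 / 512)))))
noncomputable def S2R (z : ℝ) : ℝ := z * (3 / 4 * (5 * z - 3) + z * (15 / 8 * (7 * z - 5) +
  z * (105 / 32 * (9 * z - 7) + z * (315 / 64 * (11 * z - 9) + z * (3465 / 512 * (13 * z - 11))))))

noncomputable def c2a : Ex := (xk 0 1 - xk 9 4 * xz) - xk 27 100 * (xz * xs5) - xs5 * xS2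
noncomputable def c2b : Ex := xk 3 4 * xz + xk 9 100 * ((xz - Ex.X * Ex.X) * xs3) - xs5 * xS1
noncomputable def c2c : Ex := xk 3 100 * xs3

theorem xS1_R (s E : ℝ) : xS1.R s E = S1R (1 - s ^ 2) := by
  unfold xS1 S1R
  simp only [Ex.R_add, Ex.R_mul, xz_R]
  simp (discharger := norm_num) only [xk_R]
  push_cast
  ring
theorem xS2_R (s E : ℝ) : xS2.R s E = S2R (1 - s ^ 2) := by
  unfold xS2 S2R
  simp only [Ex.R_add, Ex.R_sub, Ex.R_mul, xz_R]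
  simp (discharger := norm_num) only [xk_R]
  push_cast
  ring

theorem kc2_27 : tchkE (2 ^ 1024) 40 4000 [[q0 c2a c2b c2c (xk 27 1 * xz),
    q1 c2b c2c (xk 27 1 * xz)]] (xk 0 1) (.leaf 0) 357 409 500 10 37 50 = true := by
  decide +kernel
theorem kc2_9 : tchkE (2 ^ 1024) 40 4000 [[q0 c2a c2b c2c (xk 9 1), q1 c2b c2c (xk 9 1)]]
    (xk 0 1) (.leaf 0) 408 448 500 10 37 50 = true := by
  decide +kernel

/-! ## upper bound of `e₀` -/

noncomputable def xUN : Ex := (xk 1 1 - Ex.Y * Ex.Y) * (xk 1 1 + Ex.Y * (xk 28 1 + Ex.Y))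
noncomputable def xUD : Ex := xk 12 1 * (Ex.Y * (xk 1 1 + Ex.Y * (xk 3 1 + Ex.Y)))
noncomputable def vUD (E : ℝ) : ℝ := 12 * E * (1 + 3 * E + E ^ 2)
/-- upper bound of `-log E` -/
noncomputable def vU (E : ℝ) : ℝ := (1 - E ^ 2) * (1 + 28 * E + E ^ 2) / vUD E

theorem vUD_pos {E : ℝ} (hE : 0 < E) : 0 < vUD E := by unfold vUD; positivity
theorem xUD_R (s E : ℝ) : xUD.R s E = vUD E := by
  unfold xUD vUD
  simp only [Ex.R_add, Ex.R_mul, Ex.R_Y]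
  simp (discharger := norm_num) only [xk_R]
  push_cast
  ring
theorem xUN_R {E : ℝ} (hE : 0 < E) (s : ℝ) : xUN.R s E = vUD E * vU E := by
  unfold xUN vU
  simp only [Ex.R_add, Ex.R_sub, Ex.R_mul, Ex.R_Y]
  simp (discharger := norm_num) only [xk_R]
  have := (vUD_pos hE).ne'
  push_cast
  field_simp
  ring

noncomputable def eUc (tp : Ex) : Ex := tp * ((xk 1 1 + Ex.X) * xUD)
noncomputable def eUb (tp : Ex) : Ex :=
  tp * ((xk 5 1 * (Ex.X * Ex.X) - xk 2 1 * xz) * ((xk 1 1 + Ex.X) * xUD)) -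
  xk 10 1 * (xk 1 1 - tp) * (((Ex.Y - xk 1 1) * xUD + xUN) * (xp Ex.X 4 * (xk 1 1 + Ex.X)))
noncomputable def eUa (tp : Ex) : Ex :=
  xk 2 1 * tp * (xp Ex.X 4 * ((xk 1 1 + Ex.X) * xUD)) -
  xk 10 1 * (xk 1 1 - tp) * (xk 3 1 * xz * (((Ex.Y - xk 1 1) * xUD + xUN) *
    (xp Ex.X 4 * (xk 1 1 + Ex.X))) +
    xk 1 29 * (xz * xUN * (Ex.X * Ex.X * (xk 1 1 + Ex.X))) + xk 4 1 * (xs5 * Ex.Y * xUD) +
    (xk 2 1 - xk 2 1 * xs3) * (Ex.X * Ex.X * ((xk 1 1 + Ex.X) * xUD)))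

theorem eUc_R {s E : ℝ} (hs : 0 < s) (tp : Ex) :
    (eUc tp).R s E = 10 * s ^ 4 * (1 + s) * vUD E * (tp.R s E / (10 * s ^ 4)) := by
  unfold eUc
  simp only [Ex.R_add, Ex.R_mul, Ex.R_X, xUD_R]
  simp (discharger := norm_num) only [xk_R]
  generalize tp.R s E = t
  push_cast
  field_simp

theorem eUb_R {s E : ℝ} (hs : 0 < s) (hE : 0 < E) (tp : Ex) :
    (eUb tp).R s E = 10 * s ^ 4 * (1 + s) * vUD E * (tp.R s E * (5 / s ^ 2 -
      2 * (1 - s ^ 2) / s ^ 4) / 10 - (1 - tp.R s E) * (E - 1 + vU E)) := by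
  unfold eUb
  simp only [Ex.R_add, Ex.R_sub, Ex.R_mul, Ex.R_X, Ex.R_Y, xUD_R, xUN_R hE, xz_R, xp_R]
  simp (discharger := norm_num) only [xk_R]
  generalize tp.R s E = t
  generalize vUD E = D
  generalize vU E = U
  push_cast
  field_simp

theorem eUa_R {s E : ℝ} (hs : 0 < s) (hE : 0 < E) (tp : Ex) :
    (eUa tp).R s E = 10 * s ^ 4 * (1 + s) * vUD E * (tp.R s E / 5 - (1 - tp.R s E) *
      (3 * (1 - s ^ 2) * (E - 1 + vU E) + 1 / 29 * ((1 - s ^ 2) / s ^ 2) * vU E +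
        4 * s ^ 2 * E * (1 / (s * (1 + s))) + (2 / s - 2 * s ^ 2) * (1 / s))) := by
  unfold eUa
  simp only [Ex.R_add, Ex.R_sub, Ex.R_mul, Ex.R_X, Ex.R_Y, xUD_R, xUN_R hE, xz_R, xp_R, xs5_R,
    xs3_R]
  simp (discharger := norm_num) only [xk_R]
  generalize tp.R s E = t
  generalize vUD E = D
  generalize vU E = U
  push_cast
  field_simp
  ring

noncomputable def famU (tp W : Ex) : List Ex :=
  [q0 (eUa tp) (eUb tp) (eUc tp) W, q1 (eUb tp) (eUc tp) W]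
noncomputable def famV (tp C : Ex) : List Ex :=
  [p0 (eUa tp) (eUb tp) (eUc tp) C, p1 (eUb tp) (eUc tp) C]

theorem kcU1 : tchkE (2 ^ 1024) 40 4000 [famU (xk 1 5) (xk 27 1 * xz), famV (xk 1 5) (xk 354 100)]
    (xz - Ex.Y) (.sy (.leaf 1) (.leaf 0)) 357 409 500 10 37 50 = true := by
  decide +kernel
theorem kcU2 : tchkE (2 ^ 1024) 40 4000 [famU (xk 1 5) (xk 9 1), famV (xk 1 5) (xk 354 100)]
    (xz - Ex.Y) (.sy (.leaf 1) (.leaf 0)) 408 426 500 10 37 50 = true := by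
  decide +kernel
theorem kcU3 : tchkE (2 ^ 1024) 40 4000 [famU (xk 3 13) (xk 9 1), famV (xk 3 13) (xk 33 10)]
    (xz - Ex.Y) (.sy (.leaf 1) (.leaf 0)) 426 448 500 10 37 50 = true := by
  decide +kernel

/-! ## lower bound of `e₀` -/

noncomputable def eLa : Ex :=
  (xk 9 1 + xk 3 1 * xz) * (((Ex.Y - xk 1 1) * xD + xN) * (xs3 * xsg)) -
  xk 1 2 * (((xk 1 1 - Ex.X) * (xk 1 1 - Ex.X) * Ex.X + xk 1 27 * (Ex.X * Ex.X)) * (xN * xsg))
noncomputable def eLb : Ex :=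
  (xk 53 27 * ((xk 6 1 * Ex.X + xk 3 1) * (Ex.X * Ex.X)) - xk 2 1 * (xp Ex.X 4 * xsg)) * xD

theorem kcL : tchkE (2 ^ 1024) 40 4000 [[eLa, eLa + eLb]]
    (xz - Ex.Y) (.leaf 0) 357 448 500 10 37 50 = true := by
  decide +kernel

theorem eLa_R {s E : ℝ} (hs : 0 < s) (hE : 0 < E) : eLa.R s E = s ^ 3 * vsg s * vD E *
    ((9 + 3 * (1 - s ^ 2)) * (E - 1 + vL E) - ((1 / s - 1) ^ 2 + 1 / (27 * s)) / 2 * vL E) := by
  unfold eLa
  simp only [Ex.R_add, Ex.R_sub, Ex.R_mul, Ex.R_X, Ex.R_Y, xD_R, xN_R, xz_R, xs3_R, xsg_R]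
  simp (discharger := norm_num) only [xk_R]
  have hN : vN E = vD E * vL E := by
    unfold vL
    have := (vD_pos hE).ne'
    field_simp
  rw [hN]
  generalize vsg s = G
  generalize vD E = D
  generalize vL E = L
  push_cast
  field_simp

theorem eLb_R {s E : ℝ} (hs : 0 < s) : eLb.R s E = s ^ 3 * vsg s * vD E *
    (1 / s * (53 / 27 * ((6 * s + 3) / vsg s) - 2 * s ^ 2)) := by
  unfold eLb
  simp only [Ex.R_add, Ex.R_sub, Ex.R_mul, Ex.R_X, xD_R, xp_R, xsg_R]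
  simp (discharger := norm_num) only [xk_R]
  have : vsg s ≠ 0 := by unfold vsg; positivity
  generalize vsg s = G at *
  push_cast
  field_simp

end Vale.Agent.P237.AllN.Fxq
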