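import Vale.Agent.P237.AllN.FxqF

/-!
# P237, block D, `X ≥ 3`, `u ≥ 0`: kernel check, `357/500 ≤ s ≤ 409/500`
-/

namespace Vale.Agent.P237.AllN.Fxq

open PolyPos

noncomputable def F1l : List (List Ex) :=
  [famA (xk 1 5) (xk 16 5) (xk 3091 1755) (xt2 5) (xt21 5) (xk 27 1 * xz),
   famC (xk 1 5) (xk 16 5) (xk 3091 1755) (xt2 0) (xt21 0) (xk 27 1 * xz),
   famC (xk 1 5) (xk 16 5) (xk 3091 1755) (xt2 1) (xt21 1) (xk 27 1 * xz),
   famC (xk 1 5) (xk 16 5) (xk 3091 1755) (xt2 4) (xt21 4) (xk 27 1 * xz),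
   famD (xk 1 5) (xk 16 5) (xk 3091 1755) (xt2 0) (xt21 0) (xk 354 100)]

def T1l : PT := (.sy (.sy (.sy .out (.sx .out (.sy .out (.sx .out (.sy .out (.sx .out (.sy .out (.leaf 4)))))))) (.sy (.sx .out (.sy (.sx .out (.sy (.sx .out (.leaf 4)) (.leaf 1))) (.leaf 1))) (.sx (.sy (.sx .out (.leaf 1)) (.leaf 1)) (.sy (.leaf 3) (.sx (.leaf 2) (.leaf 0)))))) (.leaf 0))

theorem kc1 : tchkE (2 ^ 1024) 40 4000 F1l (xz - Ex.Y) T1l 357 409 500 10 37 50 = true := by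
  decide +kernel

end Vale.Agent.P237.AllN.Fxq
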