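import Vale.Agent.P237.AllN.FxqF

/-!
# P237, block D, `X ≥ 3`, `u ≥ 0`: kernel check, `408/500 ≤ s ≤ 426/500`
-/

namespace Vale.Agent.P237.AllN.Fxq

open PolyPos

noncomputable def F2l : List (List Ex) :=
  [famA (xk 1 5) (xk 16 5) (xk 3091 1755) (xt2 5) (xt21 5) (xk 9 1),
   famC (xk 1 5) (xk 16 5) (xk 3091 1755) (xt2 3) (xt21 3) (xk 9 1),
   famC (xk 1 5) (xk 16 5) (xk 3091 1755) (xt2 4) (xt21 4) (xk 9 1),
   famD (xk 1 5) (xk 16 5) (xk 3091 1755) (xt2 0) (xt21 0) (xk 354 100),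
   famD (xk 1 5) (xk 16 5) (xk 3091 1755) (xt2 3) (xt21 3) (xk 354 100)]

def T2l : PT := (.sy (.sy (.sy .out (.sy (.sx .out (.sy (.sx .out (.leaf 3)) (.leaf 3))) (.sx (.sy (.sx .out (.leaf 3)) (.leaf 3)) (.leaf 3)))) (.sy (.sy (.leaf 4) (.sx (.leaf 1) (.sy (.sx (.leaf 2) (.leaf 0)) (.leaf 0)))) (.sy (.sx (.sy (.sx (.leaf 1) (.leaf 0)) (.leaf 0)) (.leaf 0)) (.leaf 0)))) (.leaf 0))

theorem kc2 : tchkE (2 ^ 1024) 40 4000 F2l (xz - Ex.Y) T2l 408 426 500 10 37 50 = true := by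
  decide +kernel

end Vale.Agent.P237.AllN.Fxq
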