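import Vale.Agent.P237.AllN.FxqF

/-!
# P237, block D, `X ≥ 3`, `u ≥ 0`: kernel check, `426/500 ≤ s ≤ 448/500`
-/

namespace Vale.Agent.P237.AllN.Fxq

open PolyPos

noncomputable def F3l : List (List Ex) :=
  [famA (xk 3 13) (xk 40 13) (xk 199 117) (xt2 5) (xt21 5) (xk 9 1),
   famB (xk 3 13) (xk 40 13) (xk 199 117) (xt2 5) (xt21 5) (xk 33 10),
   famC (xk 3 13) (xk 40 13) (xk 199 117) (xt2 4) (xt21 4) (xk 9 1),
   famD (xk 3 13) (xk 40 13) (xk 199 117) (xt2 0) (xt21 0) (xk 33 10),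
   famD (xk 3 13) (xk 40 13) (xk 199 117) (xt2 2) (xt21 2) (xk 33 10),
   famD (xk 3 13) (xk 40 13) (xk 199 117) (xt2 3) (xt21 3) (xk 33 10)]

def T3l : PT := (.sy (.sy (.sy (.sy (.sx .out (.sy (.sx (.sy .out (.sx .out (.leaf 3))) (.leaf 3)) (.leaf 3))) (.sx (.sy (.sx .out (.sy (.sx .out (.leaf 3)) (.leaf 3))) (.sx (.sy (.sx .out (.leaf 3)) (.leaf 3)) (.leaf 3))) (.leaf 3))) (.sy (.sx (.leaf 3) (.sy (.leaf 5) (.leaf 1))) (.sx (.sy (.leaf 4) (.sx (.leaf 2) (.leaf 1))) (.leaf 1)))) (.sy (.sy (.sx (.sy (.sx (.sy (.leaf 5) (.leaf 1)) (.leaf 0)) (.leaf 1)) (.leaf 0)) (.leaf 0)) (.leaf 0))) (.leaf 0))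

theorem kc3 : tchkE (2 ^ 1024) 40 4000 F3l (xz - Ex.Y) T3l 426 448 500 10 37 50 = true := by
  decide +kernel

end Vale.Agent.P237.AllN.Fxq
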