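import Vale.Agent.P237.AllN.FxqR
import Vale.Agent.P237.AllN.FxqG
import Vale.Agent.P237.AllN.FxqK1
import Vale.Agent.P237.AllN.FxqK2
import Vale.Agent.P237.AllN.FxqK3

/-!
# P237, block D, `X ≥ 3`, `u ≥ 0`, `1/5 ≤ z ≤ 49/100`: positivity of `Phi` from the kernel checks
-/

namespace Vale.Agent.P237.AllN.Fxq

open Real PolyPos

/-! ## monotonicity in `λ` -/

noncomputable def K1c (z : ℝ) : ℝ := z * (3 / 4 * 2 + z * (5 / 8 * 3 + z * (35 / 64 * 4 +
  z * (63 / 128 * 5 + z * (231 / 512 * 6)))))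
noncomputable def K0c (z : ℝ) : ℝ := z * (3 / 4 * (5 * z * 2 - 3) + z * (5 / 8 * (7 * z * 3 - 10) +
  z * (35 / 64 * (9 * z * 4 - 21) + z * (63 / 128 * (11 * z * 5 - 36) +
  z * (231 / 512 * (13 * z * 6 - 55))))))

theorem K_nonneg {z w : ℝ} (hz : 1 / 5 ≤ z) (hw : 9 ≤ w) : 0 ≤ K1c z * w + K0c z := by
  have e : K1c z * w + K0c z = z * (3 / 4 * (2 * w + 10 * z - 3) + z * (5 / 8 * (3 * w + 21 * z - 10)
    + z * (35 / 64 * (4 * w + 36 * z - 21) + z * (63 / 128 * (5 * w + 55 * z - 36) +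
      z * (231 / 512 * (6 * w + 78 * z - 55)))))) := by unfold K1c K0c; ring
  rw [e]
  have h6 : 0 ≤ 231 / 512 * (6 * w + 78 * z - 55) := by linarith only [hz, hw]
  have h5 : 0 ≤ 63 / 128 * (5 * w + 55 * z - 36) := by linarith only [hz, hw]
  have h4 : 0 ≤ 35 / 64 * (4 * w + 36 * z - 21) := by (clear * - hz hw; linarith)
  have h3 : 0 ≤ 5 / 8 * (3 * w + 21 * z - 10) := by linarith only [hz, hw]
  have h2 : 0 ≤ 3 / 4 * (2 * w + 10 * z - 3) := by linarith only [hz, hw]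
  have hz0 : 0 ≤ z := by linarith only [hz]
  positivity

theorem Phi_mono {tp c4 t2 t21 kF s z E L lam w u : ℝ} (hL : 0 ≤ L) (hLl : L ≤ lam)
    (h1 : 0 ≤ (w + 3 * z) * (1 - tp) - tp * (1 / 29 * (z / s ^ 2)) + (K1c z * w + K0c z) +
      z / (s * (1 + s) ^ 2) - 3 / 25 * (w + 3 * z) * u)
    (h2 : 0 ≤ (3 / 100 * (w ^ 2 / s ^ 2) + w * (3 / 4 * (z / s ^ 5) +
      9 / 100 * ((z - s ^ 2) / s ^ 2) - S1R z) +
      (-(9 / 4 * (z / s ^ 5) + 27 / 100 * z) - S2R z))) :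
    Phi tp c4 t2 t21 kF s z E L w u ≤ Phi tp c4 t2 t21 kF s z E lam w u := by
  have e : Phi tp c4 t2 t21 kF s z E lam w u - Phi tp c4 t2 t21 kF s z E L w u =
      (lam - L) * (((w + 3 * z) * (1 - tp) - tp * (1 / 29 * (z / s ^ 2)) + (K1c z * w + K0c z) +
      z / (s * (1 + s) ^ 2) - 3 / 25 * (w + 3 * z) * u) + (3 / 100 * (w ^ 2 / s ^ 2) +
      w * (3 / 4 * (z / s ^ 5) + 9 / 100 * ((z - s ^ 2) / s ^ 2) - S1R z) +
      (-(9 / 4 * (z / s ^ 5) + 27 / 100 * z) - S2R z)) * (lam + L)) := by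
    unfold Phi fa fb r0 r1 r2 g0 g1 k1R k0R gR mR hR K1c K0c S1R S2R
    push_cast
    ring
  have h3 : 0 ≤ (lam - L) * (((w + 3 * z) * (1 - tp) - tp * (1 / 29 * (z / s ^ 2)) +
      (K1c z * w + K0c z) +
      z / (s * (1 + s) ^ 2) - 3 / 25 * (w + 3 * z) * u) + (3 / 100 * (w ^ 2 / s ^ 2) +
      w * (3 / 4 * (z / s ^ 5) + 9 / 100 * ((z - s ^ 2) / s ^ 2) - S1R z) +
      (-(9 / 4 * (z / s ^ 5) + 27 / 100 * z) - S2R z)) * (lam + L)) :=
    mul_nonneg (by linarith only [hLl]) (add_nonneg h1 (mul_nonneg h2 (by linarith only [hL, hLl])))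
  linarith

theorem quad {d α β γ w0 w : ℝ} (hd : 0 < d) (h0 : 0 ≤ d * α + d * β * w0 + d * γ * w0 ^ 2)
    (h1 : 0 ≤ d * β + 2 * (d * γ) * w0) (hγ : 0 ≤ d * γ) (hw : w0 ≤ w) :
    0 ≤ α + β * w + γ * w ^ 2 := by
  have h2 : 0 ≤ d * (α + β * w + γ * w ^ 2) := by
    have e : d * (α + β * w + γ * w ^ 2) = (d * α + d * β * w0 + d * γ * w0 ^ 2) +
      (d * β + 2 * (d * γ) * w0) * (w - w0) + d * γ * (w - w0) ^ 2 := by ring
    rw [e]
    have := mul_nonneg h1 (sub_nonneg.2 hw)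
    have := mul_nonneg hγ (sq_nonneg (w - w0))
    linarith
  exact nonneg_of_mul_nonneg_right h2 hd

/-- the `λ²` coefficient is nonnegative -/
theorem c2_nonneg {s w : ℝ} (hs : 357 / 500 ≤ s) (hs1 : s ≤ 448 / 500)
    (hw9 : 9 ≤ w) (hw27 : 27 * (1 - s ^ 2) ≤ w) :
    0 ≤ 3 / 100 * (w ^ 2 / s ^ 2) + w * (3 / 4 * ((1 - s ^ 2) / s ^ 5) +
      9 / 100 * ((1 - s ^ 2 - s ^ 2) / s ^ 2) - S1R (1 - s ^ 2)) +
      (-(9 / 4 * ((1 - s ^ 2) / s ^ 5) + 27 / 100 * (1 - s ^ 2)) - S2R (1 - s ^ 2)) := by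
  have hs0 : 0 < s := by linarith only [hs]
  have e0 : (xk 0 1).R s (1 / 5) ≤ 0 := by rw [xk_R _ _ _ _ le_rfl]; simp only [Int.cast_zero, Nat.cast_one, div_one, Std.le_refl]
  have ea : c2a.R s (1 / 5) = s ^ 5 *
      (-(9 / 4 * ((1 - s ^ 2) / s ^ 5) + 27 / 100 * (1 - s ^ 2)) - S2R (1 - s ^ 2)) := by
    unfold c2a
    simp only [Ex.R_sub, Ex.R_mul, xz_R, xs5_R, xS2_R]
    simp (discharger := norm_num) only [xk_R]
    push_cast
    field_simp
    ring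
  have eb : c2b.R s (1 / 5) = s ^ 5 * (3 / 4 * ((1 - s ^ 2) / s ^ 5) +
      9 / 100 * ((1 - s ^ 2 - s ^ 2) / s ^ 2) - S1R (1 - s ^ 2)) := by
    unfold c2b
    simp only [Ex.R_add, Ex.R_sub, Ex.R_mul, Ex.R_X, xz_R, xs5_R, xs3_R, xS1_R]
    simp (discharger := norm_num) only [xk_R]
    push_cast
    field_simp
  have ec : c2c.R s (1 / 5) = s ^ 5 * (3 / 100 / s ^ 2) := by
    unfold c2c
    simp only [Ex.R_mul, xs3_R]
    simp (discharger := norm_num) only [xk_R]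
    push_cast
    (clear * - hs; field_simp)
  have hc : (0 : ℝ) ≤ s ^ 5 * (3 / 100 / s ^ 2) := by positivity
  have hd : 0 < s ^ 5 := by positivity
  have main : ∀ W : Ex, 0 ≤ (q0 c2a c2b c2c W).R s (1 / 5) → 0 ≤ (q1 c2b c2c W).R s (1 / 5) →
      W.R s (1 / 5) ≤ w → 0 ≤ 3 / 100 * (w ^ 2 / s ^ 2) + w * (3 / 4 * ((1 - s ^ 2) / s ^ 5) +
      9 / 100 * ((1 - s ^ 2 - s ^ 2) / s ^ 2) - S1R (1 - s ^ 2)) +
      (-(9 / 4 * ((1 - s ^ 2) / s ^ 5) + 27 / 100 * (1 - s ^ 2)) - S2R (1 - s ^ 2)) := by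
    intro W h0 h1 hW
    rw [q0_R, ea, eb, ec] at h0
    rw [q1_R, eb, ec] at h1
    have := quad hd h0 h1 hc hW
    refine this.trans (le_of_eq ?_)
    ring
  rcases le_total s (409 / 500) with h | h
  · obtain ⟨i, hi⟩ := tchkE_sound e0 (.leaf 0) 357 409 500 10 37 50 (by norm_num) (by norm_num)
      (by norm_num) (by norm_num) kc2_27 (by push_cast; linarith only [hs]) (by push_cast; linarith only [h])
      (by push_cast; linarith only []) (by push_cast; linarith only [])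
    match i with
    | 0 =>
      refine main (xk 27 1 * xz) (hi _ (by simp only [Int.reduceNeg, List.getD_eq_getElem?_getD, List.length_cons, List.length_nil, zero_add, Order.lt_one_iff, getElem?_pos, List.getElem_cons_zero, Option.getD_some, List.mem_cons, List.not_mem_nil, or_false, true_or])) (hi _ (by simp only [Int.reduceNeg, List.getD_eq_getElem?_getD, List.length_cons, List.length_nil, zero_add, Order.lt_one_iff, getElem?_pos, List.getElem_cons_zero, Option.getD_some, List.mem_cons, List.not_mem_nil, or_false, or_true])) ?_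
      rw [Ex.R_mul, xz_R, xk_R _ _ _ _ le_rfl]; push_cast; linarith only [hw27]
    | (n + 1) =>
      exfalso
      have h := hi (Ex.c ⟨-1, 0⟩) (by simp only [Int.reduceNeg, List.getD_eq_getElem?_getD, List.length_cons, List.length_nil, zero_add, Order.lt_one_iff, Nat.add_eq_zero_iff, one_ne_zero, and_false, not_false_eq_true, getElem?_neg, Option.getD_none, List.mem_cons, List.not_mem_nil, or_false])
      rw [Ex.R_c, Fr.R] at h
      (clear * - h; norm_num at h)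
  · obtain ⟨i, hi⟩ := tchkE_sound e0 (.leaf 0) 408 448 500 10 37 50 (by norm_num) (by norm_num)
      (by norm_num) (by norm_num) kc2_9 (by push_cast; linarith only [h]) (by push_cast; linarith only [hs1])
      (by push_cast; linarith only []) (by push_cast; linarith only [])
    match i with
    | 0 =>
      refine main (xk 9 1) (hi _ (by simp only [Int.reduceNeg, List.getD_eq_getElem?_getD, List.length_cons, List.length_nil, zero_add, Order.lt_one_iff, getElem?_pos, List.getElem_cons_zero, Option.getD_some, List.mem_cons, List.not_mem_nil, or_false, true_or])) (hi _ (by simp)) ?_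
      rw [xk_R _ _ _ _ le_rfl]; push_cast; linarith only [hw9]
    | (n + 1) =>
      exfalso
      have h := hi (Ex.c ⟨-1, 0⟩) (by simp only [Int.reduceNeg, List.getD_eq_getElem?_getD, List.length_cons, List.length_nil, zero_add, Order.lt_one_iff, Nat.add_eq_zero_iff, one_ne_zero, and_false, not_false_eq_true, getElem?_neg, Option.getD_none, List.mem_cons, List.not_mem_nil, or_false])
      rw [Ex.R_c, Fr.R] at h
      norm_num at h

/-! ## soundness of the families -/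

variable {s E w u : ℝ}

theorem vH_pos (hs : 0 < s) (hs1 : s < 1) (hzE : 1 - s ^ 2 ≤ E) : 0 < vH s E := by
  unfold vH
  have hz : 0 < 1 - s ^ 2 := by nlinarith only [hs1, hs]
  have h1 : 2 * s ^ 2 * (1 + s) * (1 - s ^ 2) ≤ 2 * s ^ 2 * (1 + s) * E :=
    mul_le_mul_of_nonneg_left hzE (by positivity)
  have h2 : (1 - s ^ 2) * (1 - E) * (1 + 2 * s) ≤ (1 - s ^ 2) * s ^ 2 * (1 + 2 * s) := by
    apply mul_le_mul_of_nonneg_right _ (by positivity)
    exact mul_le_mul_of_nonneg_left (by linarith only [hzE]) hz.le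
  have h3 : 0 < (1 - s ^ 2) * s ^ 2 := by positivity
  linarith

theorem vd_pos (hs : 0 < s) (hs1 : s < 1) (hE : 0 < E) (hzE : 1 - s ^ 2 ≤ E) : 0 < vd s E := by
  have h := vH_pos hs hs1 hzE
  have h2 := vD_pos hE
  unfold vd vq
  positivity

theorem famA_sound (hs : 0 < s) (hs1 : s < 1) (hE : 0 < E) (hzE : 1 - s ^ 2 ≤ E)
    {tp c4 kF t2 t21 W : Ex} (h : ∀ e ∈ famA tp c4 kF t2 t21 W, 0 ≤ e.R s E)
    (hW : W.R s E ≤ w) (hu : 0 ≤ u) (hus : u * s ≤ 1) :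
    0 ≤ Phi (tp.R s E) (c4.R s E) (t2.R s E) (t21.R s E) (kF.R s E) s (1 - s ^ 2) E (vL E) w u := by
  have hH := (vH_pos hs hs1 hzE).ne'
  have hd := vd_pos hs hs1 hE hzE
  have hsg : 0 < vsg s := by unfold vsg; positivity
  have hd2 : 0 < vd s E * (s ^ 2 * vsg s) := by (clear * - hd hs hsg; positivity)
  simp only [famA, List.mem_cons, List.not_mem_nil, or_false, forall_eq_or_imp, forall_eq] at h
  obtain ⟨h1, h2, h3, h4⟩ := h
  rw [q0_R, xFa_R hs hE hH, xFb_R hs hE, xT2_R hs hE] at h1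
  rw [q1_R, xFb_R hs hE, xT2_R hs hE] at h2
  rw [q0_R, yFa_R hs hE hH, yFb_R hs hE, yFc_R hs hE] at h3
  rw [q1_R, yFb_R hs hE, yFc_R hs hE] at h4
  have hr2 : 0 ≤ r2 s (vL E) := by unfold r2; (clear * - hs; positivity)
  have k1 := quad hd h1 h2 (by (clear * - hd hr2; positivity)) hW
  have k2 := quad hd2 h3 h4 (by (clear * - hd hs hsg hr2; positivity)) hW
  unfold Phi
  set P0 := fa (tp.R s E) (c4.R s E) (t2.R s E) s (1 - s ^ 2) E (vL E) +
    fb (tp.R s E) s (1 - s ^ 2) E (vL E) * w + r2 s (vL E) * w ^ 2 with hP0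
  set G1 := g0 (tp.R s E) (c4.R s E) (t21.R s E) (kF.R s E) s (1 - s ^ 2) E (vL E) +
    g1 (vL E) * w with hG1
  have k3 : 0 ≤ P0 + 1 / s * G1 := by
    refine k2.trans (le_of_eq ?_)
    rw [hP0, hG1]; ring
  have hs' : s * P0 + G1 = s * (P0 + 1 / s * G1) := by (clear * - hs; field_simp)
  have k4 : 0 ≤ s * P0 + G1 := by rw [hs']; (clear * - hs k3; positivity)
  have e : P0 + u * G1 = (1 - u * s) * P0 + u * (s * P0 + G1) := by ring
  rw [e]
  exact add_nonneg (mul_nonneg (by linarith only [hus]) k1) (mul_nonneg hu k4)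

theorem famB_sound (hs : 0 < s) (hs1 : s < 1) (hE : 0 < E) (hzE : 1 - s ^ 2 ≤ E)
    {tp c4 kF t2 t21 C : Ex} (h : ∀ e ∈ famB tp c4 kF t2 t21 C, 0 ≤ e.R s E)
    (hW : C.R s E ≤ w * E) (hu : 0 ≤ u) (hus : u * s ≤ 1) :
    0 ≤ Phi (tp.R s E) (c4.R s E) (t2.R s E) (t21.R s E) (kF.R s E) s (1 - s ^ 2) E (vL E) w u := by
  have hH := (vH_pos hs hs1 hzE).ne'
  have hd := vd_pos hs hs1 hE hzE
  have hsg : 0 < vsg s := by unfold vsg; positivity
  have hd2 : 0 < vd s E * (s ^ 2 * vsg s) := by (clear * - hd hs hsg; positivity)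
  simp only [famB, List.mem_cons, List.not_mem_nil, or_false, forall_eq_or_imp, forall_eq] at h
  obtain ⟨h1, h2, h3, h4⟩ := h
  rw [p0_R hE, xFa_R hs hE hH, xFb_R hs hE, xT2_R hs hE] at h1
  rw [p1_R hE, xFb_R hs hE, xT2_R hs hE] at h2
  rw [p0_R hE, yFa_R hs hE hH, yFb_R hs hE, yFc_R hs hE] at h3
  rw [p1_R hE, yFb_R hs hE, yFc_R hs hE] at h4
  have hr2 : 0 ≤ r2 s (vL E) := by unfold r2; (clear * - hs; positivity)
  have hW' : C.R s E / E ≤ w := by rw [div_le_iff₀ hE]; exact hW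
  have hE2 : 0 < E ^ 2 := by positivity
  have k1 := quad hd (nonneg_of_mul_nonneg_right h1 hE2) (nonneg_of_mul_nonneg_right h2 hE)
    (by positivity) hW'
  have k2 := quad hd2 (nonneg_of_mul_nonneg_right h3 hE2) (nonneg_of_mul_nonneg_right h4 hE)
    (by positivity) hW'
  unfold Phi
  set P0 := fa (tp.R s E) (c4.R s E) (t2.R s E) s (1 - s ^ 2) E (vL E) +
    fb (tp.R s E) s (1 - s ^ 2) E (vL E) * w + r2 s (vL E) * w ^ 2 with hP0
  set G1 := g0 (tp.R s E) (c4.R s E) (t21.R s E) (kF.R s E) s (1 - s ^ 2) E (vL E) +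
    g1 (vL E) * w with hG1
  have k3 : 0 ≤ P0 + 1 / s * G1 := by
    refine k2.trans (le_of_eq ?_)
    rw [hP0, hG1]; ring
  have hs' : s * P0 + G1 = s * (P0 + 1 / s * G1) := by (clear * - hs; field_simp)
  have k4 : 0 ≤ s * P0 + G1 := by rw [hs']; (clear * - hs k3; positivity)
  have e : P0 + u * G1 = (1 - u * s) * P0 + u * (s * P0 + G1) := by ring
  rw [e]
  exact add_nonneg (mul_nonneg (by linarith only [hus]) k1) (mul_nonneg hu k4)

theorem tail_aux {P0 G1 U u : ℝ} (h : 0 ≤ P0 + U * G1) (hG : G1 ≤ 0) (hu : u ≤ U) :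
    0 ≤ P0 + u * G1 := by
  nlinarith only [h, hu, hG]

theorem vL_nonneg {E : ℝ} (hE : 0 < E) (hE1 : E ≤ 1) : 0 ≤ vL E := by
  unfold vL vN
  apply div_nonneg _ (vD_pos hE).le
  apply mul_nonneg (by linarith)
  positivity

theorem famC_sound (hs : 0 < s) (hs1 : s < 1) (hE : 0 < E) (hE1 : E ≤ 1) (hzE : 1 - s ^ 2 ≤ E)
    {tp c4 kF t2 t21 W : Ex} (h : ∀ e ∈ famC tp c4 kF t2 t21 W, 0 ≤ e.R s E)
    (hW : W.R s E ≤ w) (hut : u ≤ v0 s (1 - s ^ 2) E + v1 s (1 - s ^ 2) E * w) :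
    0 ≤ Phi (tp.R s E) (c4.R s E) (t2.R s E) (t21.R s E) (kF.R s E) s (1 - s ^ 2) E (vL E) w u := by
  have hH := (vH_pos hs hs1 hzE).ne'
  have hd := vd_pos hs hs1 hE hzE
  have hsg : 0 < vsg s := by unfold vsg; positivity
  have hz : 0 < 1 - s ^ 2 := by nlinarith only [hs1, hs]
  have hd2 : 0 < vd s E * (2 * (1 - s ^ 2) * s ^ 3 * vsg s) := by (clear * - hd hz hs hsg; positivity)
  simp only [famC, List.mem_cons, List.not_mem_nil, or_false, forall_eq_or_imp, forall_eq] at h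
  obtain ⟨h1, h2, h3, h4⟩ := h
  rw [q0_R, zFa_R hs hs1 hE hH, zFb_R hs hs1 hE, zFc_R hs hs1 hE] at h1
  rw [q1_R, zFb_R hs hs1 hE, zFc_R hs hs1 hE] at h2
  rw [zFc_R hs hs1 hE] at h3
  rw [xGm_R hs hE] at h4
  have k1 := quad hd2 h1 h2 h3 hW
  unfold Phi
  set P0 := fa (tp.R s E) (c4.R s E) (t2.R s E) s (1 - s ^ 2) E (vL E) +
    fb (tp.R s E) s (1 - s ^ 2) E (vL E) * w + r2 s (vL E) * w ^ 2 with hP0
  set g := g0 (tp.R s E) (c4.R s E) (t21.R s E) (kF.R s E) s (1 - s ^ 2) E (vL E) with hg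
  have hD := vD_pos hE
  have k3 : g + g1 (vL E) * W.R s E ≤ 0 := by
    have hp : 0 < s ^ 2 * vsg s * vD E := by (clear * - hs hsg hD; positivity)
    nlinarith only [h4, hp]
  have k2 : 0 ≤ P0 + (v0 s (1 - s ^ 2) E + v1 s (1 - s ^ 2) E * w) * (g + g1 (vL E) * w) := by
    refine k1.trans (le_of_eq ?_)
    rw [hP0]; ring
  refine tail_aux k2 ?_ hut
  have : g1 (vL E) * w ≤ g1 (vL E) * W.R s E := by
    apply mul_le_mul_of_nonpos_left hW
    have := vL_nonneg hE hE1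
    unfold g1; linarith only [this]
  linarith only [k3, this]

theorem famD_sound (hs : 0 < s) (hs1 : s < 1) (hE : 0 < E) (hE1 : E ≤ 1) (hzE : 1 - s ^ 2 ≤ E)
    {tp c4 kF t2 t21 C : Ex} (h : ∀ e ∈ famD tp c4 kF t2 t21 C, 0 ≤ e.R s E)
    (hW : C.R s E ≤ w * E) (hw9 : 9 ≤ w)
    (hut : u ≤ v0 s (1 - s ^ 2) E + v1 s (1 - s ^ 2) E * w) :
    0 ≤ Phi (tp.R s E) (c4.R s E) (t2.R s E) (t21.R s E) (kF.R s E) s (1 - s ^ 2) E (vL E) w u := by
  have hH := (vH_pos hs hs1 hzE).ne'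
  have hd := vd_pos hs hs1 hE hzE
  have hsg : 0 < vsg s := by unfold vsg; positivity
  have hz : 0 < 1 - s ^ 2 := by nlinarith only [hs1, hs]
  have hd2 : 0 < vd s E * (2 * (1 - s ^ 2) * s ^ 3 * vsg s) := by (clear * - hd hz hs hsg; positivity)
  simp only [famD, List.mem_cons, List.not_mem_nil, or_false, forall_eq_or_imp, forall_eq] at h
  obtain ⟨h1, h2, h3, h4⟩ := h
  rw [p0_R hE, zFa_R hs hs1 hE hH, zFb_R hs hs1 hE, zFc_R hs hs1 hE] at h1
  rw [p1_R hE, zFb_R hs hs1 hE, zFc_R hs hs1 hE] at h2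
  rw [zFc_R hs hs1 hE] at h3
  rw [xGm_R hs hE] at h4
  have hW' : C.R s E / E ≤ w := by rw [div_le_iff₀ hE]; exact hW
  have hE2 : 0 < E ^ 2 := by positivity
  have k1 := quad hd2 (nonneg_of_mul_nonneg_right h1 hE2) (nonneg_of_mul_nonneg_right h2 hE)
    h3 hW'
  unfold Phi
  set P0 := fa (tp.R s E) (c4.R s E) (t2.R s E) s (1 - s ^ 2) E (vL E) +
    fb (tp.R s E) s (1 - s ^ 2) E (vL E) * w + r2 s (vL E) * w ^ 2 with hP0
  set g := g0 (tp.R s E) (c4.R s E) (t21.R s E) (kF.R s E) s (1 - s ^ 2) E (vL E) with hg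
  have hD := vD_pos hE
  have e9 : (xk 9 1).R s E = 9 := by rw [xk_R _ _ _ _ le_rfl]; norm_num
  rw [e9] at h4
  have k3 : g + g1 (vL E) * 9 ≤ 0 := by
    have hp : 0 < s ^ 2 * vsg s * vD E := by (clear * - hs hsg hD; positivity)
    nlinarith only [h4, hp]
  have k2 : 0 ≤ P0 + (v0 s (1 - s ^ 2) E + v1 s (1 - s ^ 2) E * w) * (g + g1 (vL E) * w) := by
    refine k1.trans (le_of_eq ?_)
    rw [hP0]; ring
  refine tail_aux k2 ?_ hut
  have : g1 (vL E) * w ≤ g1 (vL E) * 9 := by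
    apply mul_le_mul_of_nonpos_left hw9
    have := vL_nonneg hE hE1
    unfold g1; linarith only [this]
  linarith only [k3, this]

/-! ## positivity of `Phi` -/

theorem xt2_R (n : ℤ) (x y : ℝ) : (xt2 n).R x y = ((n : ℝ) / 10) ^ 2 := by
  unfold xt2; rw [xk_R _ _ _ _ (by norm_num)]; push_cast; ring
theorem xt21_R (n : ℤ) (x y : ℝ) :
    (xt21 n).R x y = 2 * ((n : ℝ) / 10) - ((n : ℝ) / 10) ^ 2 := by
  unfold xt21; rw [xk_R _ _ _ _ (by norm_num)]; push_cast; ring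

theorem out_false {F : List (List Ex)} {i : ℕ} {x y : ℝ}
    (hi : ∀ e ∈ F.getD i [Ex.c ⟨-1, 0⟩], 0 ≤ e.R x y) (h : F.length ≤ i) : False := by
  rw [List.getD_eq_default _ _ h] at hi
  have h := hi (Ex.c ⟨-1, 0⟩) (by simp)
  rw [Ex.R_c, Fr.R] at h
  norm_num at h

theorem Phi_pos1 (hs0 : 357 / 500 ≤ s) (hs1 : s ≤ 409 / 500) (hE0 : 1 / 5 ≤ E)
    (hE1 : E ≤ 37 / 50) (hzE : 1 - s ^ 2 ≤ E) (hw9 : 9 ≤ w) (hw27 : 27 * (1 - s ^ 2) ≤ w)
    (hcap : 354 / 100 ≤ w * E) (hu : 0 ≤ u) (hus : u * s ≤ 1)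
    (hut : u ≤ v0 s (1 - s ^ 2) E + v1 s (1 - s ^ 2) E * w) :
    ∃ t : ℝ, 0 ≤ Phi (1 / 5) (16 / 5) (t ^ 2) (2 * t - t ^ 2) (3091 / 1755) s (1 - s ^ 2) E
      (vL E) w u := by
  have hs : 0 < s := by (clear * - hs0; linarith)
  have hs1' : s < 1 := by (clear * - hs1 hs; linarith)
  have hE : 0 < E := by linarith only [hE0]
  have hE1' : E ≤ 1 := by linarith only [hE1]
  have e0 : (xz - Ex.Y).R s E ≤ 0 := by rw [Ex.R_sub, Ex.R_Y, xz_R]; linarith only [hzE]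
  have a1 : (xk 1 5).R s E = 1 / 5 := by rw [xk_R _ _ _ _ (by norm_num)]; (clear * -; norm_num)
  have a2 : (xk 16 5).R s E = 16 / 5 := by rw [xk_R _ _ _ _ (by norm_num)]; (clear * -; norm_num)
  have a3 : (xk 3091 1755).R s E = 3091 / 1755 := by
    rw [xk_R _ _ _ _ (by norm_num)]; norm_num
  have aW : (xk 27 1 * xz).R s E ≤ w := by
    rw [Ex.R_mul, xz_R, xk_R _ _ _ _ le_rfl]; push_cast; linarith only [hw27]
  have aC : (xk 354 100).R s E ≤ w * E := by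
    rw [xk_R _ _ _ _ (by norm_num)]; push_cast; linarith only [hcap]
  obtain ⟨i, hi⟩ := tchkE_sound e0 T1l 357 409 500 10 37 50 (by norm_num) (by norm_num)
      (by norm_num) (by norm_num) kc1 (by push_cast; linarith only [hs0]) (by push_cast; linarith only [hs1])
      (by push_cast; linarith only [hE0]) (by push_cast; linarith only [hE1])
  have key : ∀ n : ℤ, 0 ≤ Phi ((xk 1 5).R s E) ((xk 16 5).R s E) ((xt2 n).R s E)
      ((xt21 n).R s E) ((xk 3091 1755).R s E) s (1 - s ^ 2) E (vL E) w u →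
      ∃ t : ℝ, 0 ≤ Phi (1 / 5) (16 / 5) (t ^ 2) (2 * t - t ^ 2) (3091 / 1755) s (1 - s ^ 2) E
      (vL E) w u := by
    intro n h
    rw [a1, a2, a3, xt2_R, xt21_R] at h
    exact ⟨_, h⟩
  match i with
  | 0 => exact key 5 (famA_sound hs hs1' hE hzE hi aW hu hus)
  | 1 => exact key 0 (famC_sound hs hs1' hE hE1' hzE hi aW hut)
  | 2 => exact key 1 (famC_sound hs hs1' hE hE1' hzE hi aW hut)
  | 3 => exact key 4 (famC_sound hs hs1' hE hE1' hzE hi aW hut)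
  | 4 => exact key 0 (famD_sound hs hs1' hE hE1' hzE hi aC hw9 hut)
  | (n + 5) => exact (out_false hi (by simp only [F1l, List.length_cons, List.length_nil, zero_add, Nat.reduceAdd, le_add_iff_nonneg_left, zero_le])).elim

theorem Phi_pos2 (hs0 : 408 / 500 ≤ s) (hs1 : s ≤ 426 / 500) (hE0 : 1 / 5 ≤ E)
    (hE1 : E ≤ 37 / 50) (hzE : 1 - s ^ 2 ≤ E) (hw9 : 9 ≤ w)
    (hcap : 354 / 100 ≤ w * E) (hu : 0 ≤ u) (hus : u * s ≤ 1)
    (hut : u ≤ v0 s (1 - s ^ 2) E + v1 s (1 - s ^ 2) E * w) :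
    ∃ t : ℝ, 0 ≤ Phi (1 / 5) (16 / 5) (t ^ 2) (2 * t - t ^ 2) (3091 / 1755) s (1 - s ^ 2) E
      (vL E) w u := by
  have hs : 0 < s := by linarith only [hs0]
  have hs1' : s < 1 := by linarith only [hs1]
  have hE : 0 < E := by linarith only [hE0]
  have hE1' : E ≤ 1 := by linarith only [hE1]
  have e0 : (xz - Ex.Y).R s E ≤ 0 := by rw [Ex.R_sub, Ex.R_Y, xz_R]; linarith only [hzE]
  have a1 : (xk 1 5).R s E = 1 / 5 := by rw [xk_R _ _ _ _ (by norm_num)]; norm_num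
  have a2 : (xk 16 5).R s E = 16 / 5 := by rw [xk_R _ _ _ _ (by norm_num)]; norm_num
  have a3 : (xk 3091 1755).R s E = 3091 / 1755 := by
    rw [xk_R _ _ _ _ (by norm_num)]; norm_num
  have aW : (xk 9 1).R s E ≤ w := by
    rw [xk_R _ _ _ _ le_rfl]; push_cast; linarith only [hw9]
  have aC : (xk 354 100).R s E ≤ w * E := by
    rw [xk_R _ _ _ _ (by norm_num)]; push_cast; linarith only [hcap]
  obtain ⟨i, hi⟩ := tchkE_sound e0 T2l 408 426 500 10 37 50 (by norm_num) (by norm_num)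
      (by norm_num) (by norm_num) kc2 (by push_cast; linarith only [hs0]) (by push_cast; linarith only [hs1])
      (by push_cast; linarith only [hE0]) (by push_cast; linarith only [hE1])
  have key : ∀ n : ℤ, 0 ≤ Phi ((xk 1 5).R s E) ((xk 16 5).R s E) ((xt2 n).R s E)
      ((xt21 n).R s E) ((xk 3091 1755).R s E) s (1 - s ^ 2) E (vL E) w u →
      ∃ t : ℝ, 0 ≤ Phi (1 / 5) (16 / 5) (t ^ 2) (2 * t - t ^ 2) (3091 / 1755) s (1 - s ^ 2) E
      (vL E) w u := by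
    intro n h
    rw [a1, a2, a3, xt2_R, xt21_R] at h
    exact ⟨_, h⟩
  match i with
  | 0 => exact key 5 (famA_sound hs hs1' hE hzE hi aW hu hus)
  | 1 => exact key 3 (famC_sound hs hs1' hE hE1' hzE hi aW hut)
  | 2 => exact key 4 (famC_sound hs hs1' hE hE1' hzE hi aW hut)
  | 3 => exact key 0 (famD_sound hs hs1' hE hE1' hzE hi aC hw9 hut)
  | 4 => exact key 3 (famD_sound hs hs1' hE hE1' hzE hi aC hw9 hut)
  | (n + 5) => exact (out_false hi (by simp only [F2l, List.length_cons, List.length_nil, zero_add, Nat.reduceAdd, le_add_iff_nonneg_left, zero_le])).elim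

theorem Phi_pos3 (hs0 : 426 / 500 ≤ s) (hs1 : s ≤ 448 / 500) (hE0 : 1 / 5 ≤ E)
    (hE1 : E ≤ 37 / 50) (hzE : 1 - s ^ 2 ≤ E) (hw9 : 9 ≤ w)
    (hcap : 33 / 10 ≤ w * E) (hu : 0 ≤ u) (hus : u * s ≤ 1)
    (hut : u ≤ v0 s (1 - s ^ 2) E + v1 s (1 - s ^ 2) E * w) :
    ∃ t : ℝ, 0 ≤ Phi (3 / 13) (40 / 13) (t ^ 2) (2 * t - t ^ 2) (199 / 117) s (1 - s ^ 2) E
      (vL E) w u := by
  have hs : 0 < s := by (clear * - hs0; linarith)
  have hs1' : s < 1 := by linarith only [hs1]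
  have hE : 0 < E := by linarith only [hE0]
  have hE1' : E ≤ 1 := by linarith only [hE1]
  have e0 : (xz - Ex.Y).R s E ≤ 0 := by rw [Ex.R_sub, Ex.R_Y, xz_R]; linarith only [hzE]
  have a1 : (xk 3 13).R s E = 3 / 13 := by rw [xk_R _ _ _ _ (by norm_num)]; (clear * -; norm_num)
  have a2 : (xk 40 13).R s E = 40 / 13 := by rw [xk_R _ _ _ _ (by norm_num)]; norm_num
  have a3 : (xk 199 117).R s E = 199 / 117 := by
    rw [xk_R _ _ _ _ (by norm_num)]; norm_num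
  have aW : (xk 9 1).R s E ≤ w := by
    rw [xk_R _ _ _ _ le_rfl]; push_cast; linarith only [hw9]
  have aC : (xk 33 10).R s E ≤ w * E := by
    rw [xk_R _ _ _ _ (by norm_num)]; push_cast; linarith only [hcap]
  obtain ⟨i, hi⟩ := tchkE_sound e0 T3l 426 448 500 10 37 50 (by norm_num) (by norm_num)
      (by norm_num) (by norm_num) kc3 (by push_cast; linarith only [hs0]) (by push_cast; linarith only [hs1])
      (by push_cast; linarith only [hE0]) (by push_cast; linarith only [hE1])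
  have key : ∀ n : ℤ, 0 ≤ Phi ((xk 3 13).R s E) ((xk 40 13).R s E) ((xt2 n).R s E)
      ((xt21 n).R s E) ((xk 199 117).R s E) s (1 - s ^ 2) E (vL E) w u →
      ∃ t : ℝ, 0 ≤ Phi (3 / 13) (40 / 13) (t ^ 2) (2 * t - t ^ 2) (199 / 117) s (1 - s ^ 2) E
      (vL E) w u := by
    intro n h
    rw [a1, a2, a3, xt2_R, xt21_R] at h
    exact ⟨_, h⟩
  match i with
  | 0 => exact key 5 (famA_sound hs hs1' hE hzE hi aW hu hus)
  | 1 => exact key 5 (famB_sound hs hs1' hE hzE hi aC hu hus)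
  | 2 => exact key 4 (famC_sound hs hs1' hE hE1' hzE hi aW hut)
  | 3 => exact key 0 (famD_sound hs hs1' hE hE1' hzE hi aC hw9 hut)
  | 4 => exact key 2 (famD_sound hs hs1' hE hE1' hzE hi aC hw9 hut)
  | 5 => exact key 3 (famD_sound hs hs1' hE hE1' hzE hi aC hw9 hut)
  | (n + 6) => exact (out_false hi (by simp only [F3l, List.length_cons, List.length_nil, zero_add, Nat.reduceAdd, le_add_iff_nonneg_left, zero_le])).elim

end Vale.Agent.P237.AllN.Fxq
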