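import Vale.Agent.P237.AllN.FxqF
import Vale.Agent.P237.AllN.FKs4
import Vale.Agent.P237.AllN.FXnVa
import Vale.Agent.P237.AllN.FPn
import Vale.Agent.P237.AllN.FPuE

/-!
# P237, block D, `X ≥ 3`, `u ≥ 0`, `1/5 ≤ z ≤ 49/100`: reduction to the polynomial `Phi`
-/

namespace Vale.Agent.P237.AllN.Fxq

open Real PolyPos

/-! ## the kernel sum -/

theorem dpS0_eq (m z l : ℝ) :
    dpS0 m z l = m * z * k1R z (exp (-(2 * l))) (2 * l) + k0R z (exp (-(2 * l))) (2 * l) := by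
  have e2 : exp (-(4 * l)) = exp (-(2 * l)) ^ 2 := by
    rw [← exp_nat_mul]; congr 1; push_cast; ring
  have e3 : exp (-(6 * l)) = exp (-(2 * l)) ^ 3 := by
    rw [← exp_nat_mul]; congr 1; push_cast; ring
  have e4 : exp (-(8 * l)) = exp (-(2 * l)) ^ 4 := by
    rw [← exp_nat_mul]; congr 1; push_cast; ring
  have e5 : exp (-(10 * l)) = exp (-(2 * l)) ^ 5 := by
    rw [← exp_nat_mul]; congr 1; push_cast; ring
  have e6 : exp (-(12 * l)) = exp (-(2 * l)) ^ 6 := by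
    rw [← exp_nat_mul]; congr 1; push_cast; ring
  have f2 : exp (4 * l) = (exp (-(2 * l)) ^ 2)⁻¹ := by rw [← e2, ← exp_neg, neg_neg]
  have f3 : exp (6 * l) = (exp (-(2 * l)) ^ 3)⁻¹ := by rw [← e3, ← exp_neg, neg_neg]
  have f4 : exp (8 * l) = (exp (-(2 * l)) ^ 4)⁻¹ := by rw [← e4, ← exp_neg, neg_neg]
  have f5 : exp (10 * l) = (exp (-(2 * l)) ^ 5)⁻¹ := by rw [← e5, ← exp_neg, neg_neg]
  have f6 : exp (12 * l) = (exp (-(2 * l)) ^ 6)⁻¹ := by rw [← e6, ← exp_neg, neg_neg]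
  unfold dpS0 k1R k0R gR mR hR kpt kct
  rw [e2, e3, e4, e5, e6, f2, f3, f4, f5, f6]
  generalize exp (-(2 * l)) = E
  push_cast
  ring

/-! ## the linear test function -/

noncomputable def Phi (tp c4 t2 t21 kF s z E L w u : ℝ) : ℝ :=
  (fa tp c4 t2 s z E L + fb tp s z E L * w + r2 s L * w ^ 2) +
    u * (g0 tp c4 t21 kF s z E L + g1 L * w)

/-- lower bound of `T - θ' e` at `N = log (1+u) - u` -/
theorem F_ge {m z s l u c G N tp kF t : ℝ} (hm : 27 ≤ m) (hz : 0 < z) (hs : 0 < s)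
    (hs1 : s < 1) (hsz : s ^ 2 = 1 - z) (hl : 0 ≤ l) (hzE : z * exp (2 * l) ≤ 1)
    (hu : 0 ≤ u) (hus : u * s ≤ 1)
    (hc1 : 1 - 1 / (2 * m) ≤ c) (hc2 : c ≤ 1) (hc3 : c ^ 2 ≤ (m + 1) / (m + 2))
    (hN : N = log (1 + u) - u)
    (hG : -(2 * s * z * (1 - exp (-(2 * l))) / ((1 + s) * vH s (exp (-(2 * l))))) +
      z * (2 * l) / (s * (1 + s) ^ 2) ≤ G)
    (htp : 0 ≤ tp) (htp1 : tp ≤ 1) (hkF : kF = 28 / 13 - 2 * tp * (53 / 54)) :
    Phi tp (4 * (1 - tp)) (t ^ 2) (2 * t - t ^ 2) kF s z (exp (-(2 * l))) (2 * l) (m * z) u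
      + 1 / 50 ≤ dpT m z s l u G N - tp * dpE m z s l u c N := by
  have hm0 : 0 < m := by linarith only [hm]
  set E := exp (-(2 * l)) with hE
  have hE0 : 0 < E := exp_pos _
  set φ := u - log (1 + u) with hφ
  have hφ0 : 0 ≤ φ := by
    have := log_le_sub_one_of_pos (show 0 < 1 + u by linarith only [hu])
    rw [hφ]; linarith only [this]
  have hN' : N = -φ := by rw [hN, hφ]; ring
  set W := u ^ 2 / (1 + u) with hW
  have hW0 : 0 ≤ W := by (clear * - hu; positivity)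
  have hsg : 0 < vsg s := by unfold vsg; positivity
  -- A1
  have hCK := kK3 hz hs hsz hzE
  have A1 := mul_nonneg hW0 hCK
  -- A3
  have hWt : 0 ≤ W - (u * (2 * t - t ^ 2) - t ^ 2) := by
    have : W - (u * (2 * t - t ^ 2) - t ^ 2) = (u - t * (1 + u)) ^ 2 / (1 + u) := by
      rw [hW]; field_simp; ring
    rw [this]; (clear * - hu; positivity)
  have A3 : 0 ≤ (1 - tp) * (4 * s ^ 2 * E) * (W - (u * (2 * t - t ^ 2) - t ^ 2)) :=
    mul_nonneg (mul_nonneg (by linarith only [htp1]) (by positivity)) hWt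
  -- A4
  have hu1s : u ≤ 1 / s := by rw [le_div_iff₀ hs]; exact hus
  have hφu : φ ≤ u * ((1 + 3 * s) / vsg s) := by
    refine (log_defect hu).trans ?_
    have e : u ^ 2 * (3 + u) / (6 + 6 * u + u ^ 2) = u * (u * (3 + u) / (6 + 6 * u + u ^ 2)) := by
      ring
    rw [e]
    apply mul_le_mul_of_nonneg_left _ hu
    rw [div_le_div_iff₀ (by (clear * - hu; positivity)) hsg]
    unfold vsg
    nlinarith only [hus, hs, mul_nonneg (mul_nonneg hu hs.le) (sub_nonneg.2 hus)]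
  have hκ : 2 * (m + 1) / ((m - 1) * s) ≤ 28 / 13 / s := by
    rw [← div_div]
    apply div_le_div_of_nonneg_right _ hs.le
    rw [div_le_iff₀ (by linarith only [hm])]; linarith only [hm]
  have hc0 : 53 / 54 ≤ c := by
    have h1 : 1 / (2 * m) ≤ 1 / 54 := by
      apply one_div_le_one_div_of_le (by norm_num) (by linarith only [hm])
    linarith only [hc1, h1]
  have hκ2 : 2 * (m + 1) / ((m - 1) * s) - tp * (2 * c / s) ≤ kF / s := by
    have h1 : tp * (2 * (53 / 54) / s) ≤ tp * (2 * c / s) := by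
      apply mul_le_mul_of_nonneg_left _ htp
      apply div_le_div_of_nonneg_right _ hs.le
      linarith only [hc0]
    have h2 : kF / s = 28 / 13 / s - tp * (2 * (53 / 54) / s) := by
      rw [hkF]; ring
    rw [h2]; linarith only [hκ, h1]
  have A4 : 0 ≤ kF * (u * ((1 + 3 * s) / (s * vsg s))) -
      (2 * (m + 1) / ((m - 1) * s) - tp * (2 * c / s)) * φ := by
    have h1 := mul_le_mul_of_nonneg_right hκ2 hφ0
    have hkF0 : 0 ≤ kF := by rw [hkF]; linarith only [htp1]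
    have h2 := mul_le_mul_of_nonneg_left hφu (div_nonneg hkF0 hs.le)
    have h3 : kF / s * (u * ((1 + 3 * s) / vsg s)) = kF * (u * ((1 + 3 * s) / (s * vsg s))) := by
      (clear * - hsg hs; field_simp)
    linarith only [h1, h2, h3]
  -- A5
  have A5 : 0 ≤ tp * (u * ((2 / s - 2 * s ^ 2) - (2 * c / s - 2 * s ^ 2 + 2 * (1 - c)))) := by
    apply mul_nonneg htp (mul_nonneg hu _)
    have h1 : (2 / s - 2 * s ^ 2) - (2 * c / s - 2 * s ^ 2 + 2 * (1 - c)) =
        2 * ((1 - c) * (1 / s - 1)) := by ring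
    rw [h1]
    have h2 : 1 ≤ 1 / s := by rw [le_div_iff₀ hs]; linarith only [hs1]
    have := mul_nonneg (by linarith only [hc2] : 0 ≤ 1 - c) (by linarith only [h2] : 0 ≤ 1 / s - 1)
    linarith only [this]
  -- A6
  have hr := fpn_r_le hm0 hz hs hsz hc2 hc3
  have A6 : 0 ≤ tp * (1 / 29 * (z * (2 * l) / s ^ 2) -
      (2 * c / s - 2 + 2 * (1 - c) * (1 - m * (z / s ^ 2))) * l) := by
    apply mul_nonneg htp
    have h1 := mul_le_mul_of_nonneg_right hr hl
    have hy : 0 ≤ 2 * (z / s ^ 2) := by positivity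
    have h2 : 2 * (z / s ^ 2) / (m + 2) ≤ 2 * (z / s ^ 2) / 29 :=
      div_le_div_of_nonneg_left hy (by norm_num) (by linarith only [hm])
    have h3 := mul_le_mul_of_nonneg_right h2 hl
    have h4 : 2 * (z / s ^ 2) / 29 * l = 1 / 29 * (z * (2 * l) / s ^ 2) := by ring
    linarith only [h1, h3, h4]
  have e3 : z / s ^ 3 = z * (1 - z) / s ^ 5 := by
    rw [← hsz]; field_simp
  have key : dpT m z s l u G N - tp * dpE m z s l u c N -
      (Phi tp (4 * (1 - tp)) (t ^ 2) (2 * t - t ^ 2) kF s z E (2 * l) (m * z) u + 1 / 50) =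
      W * (4 / s - 4 * s / (1 + s) - 2 * s ^ 2 - 6 * (z / s ^ 3) * l + ksC z s l) +
      (G - (-(2 * s * z * (1 - E) / ((1 + s) * vH s E)) + z * (2 * l) / (s * (1 + s) ^ 2))) +
      (1 - tp) * (4 * s ^ 2 * E) * (W - (u * (2 * t - t ^ 2) - t ^ 2)) +
      (kF * (u * ((1 + 3 * s) / (s * vsg s))) -
        (2 * (m + 1) / ((m - 1) * s) - tp * (2 * c / s)) * φ) +
      tp * (u * ((2 / s - 2 * s ^ 2) - (2 * c / s - 2 * s ^ 2 + 2 * (1 - c)))) +
      tp * (1 / 29 * (z * (2 * l) / s ^ 2) -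
      (2 * c / s - 2 + 2 * (1 - c) * (1 - m * (z / s ^ 2))) * l) := by
    unfold dpT dpE Phi fa fb r0 r1 r2 g0 g1
    rw [dpS_eq, dpS0_eq, ← hE, ← hW, hN']
    generalize k1R z E (2 * l) = K1
    generalize k0R z E (2 * l) = K0
    generalize vH s E = H
    generalize vsg s = Q
    generalize ksC z s l = C
    have hs2 : (z - s ^ 2) / s ^ 2 = z / s ^ 2 - 1 := by (clear * - hs; field_simp)
    rw [hs2]
    linear_combination (-9 * l ^ 2) * e3
  linarith only [hG, A1, A3, A4, A5, A6, key]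

end Vale.Agent.P237.AllN.Fxq
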