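import Vale.Agent.P237.Exch5
import Vale.Agent.P237.John1
import Vale.Agent.P237.Slices

/-!
# P237, all dimensions: the space `V` with the gauge norm of a symmetric body
-/

open MeasureTheory Metric Set Module

namespace Vale.Agent.P237.AllN

variable {V : Type*} [NormedAddCommGroup V] [InnerProductSpace ℝ V] [FiniteDimensional ℝ V]
  [MeasurableSpace V] [BorelSpace V]

/-- `V` with the gauge norm of `K`. -/
def GS (_K : Set V) : Type _ := V

section defs

variable (K : Set V)

noncomputable instance instACG : AddCommGroup (GS K) := inferInstanceAs (AddCommGroup V)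

noncomputable instance instMod : Module ℝ (GS K) := inferInstanceAs (Module ℝ V)

instance instFD : FiniteDimensional ℝ (GS K) := inferInstanceAs (FiniteDimensional ℝ V)

instance instMS : MeasurableSpace (GS K) := inferInstanceAs (MeasurableSpace V)

/-- the identity map -/
noncomputable def toGS : V ≃ₗ[ℝ] GS K := LinearEquiv.refl ℝ V

noncomputable instance instNorm : Norm (GS K) := ⟨fun x => gauge K ((toGS K).symm x)⟩

omit [FiniteDimensional ℝ V] [MeasurableSpace V] [BorelSpace V] in
theorem norm_def (x : GS K) : ‖x‖ = gauge K ((toGS K).symm x) := rfl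

end defs

omit [FiniteDimensional ℝ V] [MeasurableSpace V] [BorelSpace V] in
theorem nhds_zero {K : Set V} (hK : IsSymBody K) : K ∈ nhds (0 : V) :=
  mem_interior_iff_mem_nhds.1 hK.zero_mem_interior

omit [FiniteDimensional ℝ V] [MeasurableSpace V] [BorelSpace V] in
theorem balanced {K : Set V} (hK : IsSymBody K) : Balanced ℝ K := by
  intro a ha
  rintro _ ⟨x, hx, rfl⟩
  exact hK.smul_mem hx (by simpa [Real.norm_eq_abs] using ha)

omit [FiniteDimensional ℝ V] [MeasurableSpace V] [BorelSpace V] in
theorem absorbent {K : Set V} (hK : IsSymBody K) : Absorbent ℝ K :=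
  absorbent_nhds_zero (nhds_zero hK)

variable (K : Set V) [hK : Fact (IsSymBody K)]

omit [MeasurableSpace V] [BorelSpace V] in
theorem core : NormedSpace.Core ℝ (GS K) where
  norm_nonneg x := gauge_nonneg _
  norm_smul c x := by
    rw [norm_def, norm_def, map_smul]
    exact gauge_smul (balanced hK.out) c _
  norm_triangle x y := by
    rw [norm_def, norm_def, norm_def, map_add]
    exact gauge_add_le hK.out.convex (absorbent hK.out) _ _
  norm_eq_zero_iff x := by
    rw [norm_def, gauge_eq_zero (absorbent hK.out)
      ((NormedSpace.isVonNBounded_iff ℝ).2 hK.out.compact.isBounded)]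
    simp

noncomputable instance instNACG : NormedAddCommGroup (GS K) :=
  NormedAddCommGroup.ofCore (core K)

noncomputable instance instNS : NormedSpace ℝ (GS K) := NormedSpace.ofCore (core K)

/-- the identity map as a continuous linear equivalence -/
noncomputable def toGSL : V ≃L[ℝ] GS K := (toGS K).toContinuousLinearEquiv

instance instBorel : BorelSpace (GS K) := by
  constructor
  have h1 : (inferInstance : MeasurableSpace V) = borel V := BorelSpace.measurable_eq
  have h2 := (toGSL K).toHomeomorph.isInducing.eq_induced
  have h3 : borel V = (borel (GS K)).comap (toGSL K).toHomeomorph := by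
    rw [← borel_comap, ← h2]
  refine MeasurableSpace.ext fun s => ?_
  have h4 : MeasurableSet[instMS K] s ↔ MeasurableSet[borel V] s := by
    rw [← h1]
    exact Iff.rfl
  rw [h4, h3]
  constructor
  · rintro ⟨t, ht, hts⟩
    have h5 : (toGSL K).toHomeomorph ⁻¹' t = t := rfl
    rw [← hts, h5]
    exact ht
  · intro hs
    exact ⟨s, hs, rfl⟩

instance instNontrivial [Nontrivial V] : Nontrivial (GS K) := inferInstanceAs (Nontrivial V)

/-- Lebesgue measure on `GS K` -/
noncomputable def gm : Measure (GS K) := (volume : Measure V).map (toGSL K)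

instance : (gm K).IsAddHaarMeasure := by
  unfold gm
  exact (toGSL K).isAddHaarMeasure_map volume

theorem integral_gm (F : GS K → ℝ) (s : Set (GS K)) :
    ∫ x in s, F x ∂(gm K) = ∫ y in (toGSL K) ⁻¹' s, F (toGSL K y) := by
  unfold gm
  exact (toGSL K).toHomeomorph.toMeasurableEquiv.measurableEmbedding.setIntegral_map _ _

omit [MeasurableSpace V] [BorelSpace V] in
theorem norm_toGSL_le_iff (y : V) : ‖toGSL K y‖ ≤ 1 ↔ y ∈ K := by
  have h : ‖toGSL K y‖ = gauge K y := rfl
  rw [h, gauge_le_one_iff_mem_closure hK.out.convex (nhds_zero hK.out),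
    hK.out.compact.isClosed.closure_eq]

omit [MeasurableSpace V] [BorelSpace V] in
theorem preimage_closedBall : (toGSL K) ⁻¹' (closedBall 0 1) = K := by
  ext y
  rw [mem_preimage, mem_closedBall, dist_zero_right]
  exact norm_toGSL_le_iff K y

end Vale.Agent.P237.AllN
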