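import Vale.Agent.P237.AllN.SlopeN

/-!
# P237, all dimensions: joint bound for the transport and its slope

Concavity of `r` on both sides of `τ x` at once: for every number `κ` one of two bounds holds.
-/

open MeasureTheory Metric Set Module Filter Topology

namespace Vale.Agent.P237.AllN

open Alm

/-- tangent line alternative, two-sided -/
theorem jt_alt (m : ℕ) {r : ℝ → ℝ} (hr : IsProf r) {y : ℝ} (hy : y ∈ Ioo (0 : ℝ) 1) (κ : ℝ) :
    (∫ t in (0 : ℝ)..y, r t ^ m) ≤ r y ^ m * (∫ t in (0 : ℝ)..y, (1 + κ * (y - t)) ^ m) ∨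
    (∫ t in y..1, r t ^ m) ≤ r y ^ m * (∫ t in y..1, (1 - κ * (t - y)) ^ m) := by
  have h01 : (1 : ℝ) ∈ Icc (0 : ℝ) 1 := ⟨zero_le_one, le_rfl⟩
  have h00 : (0 : ℝ) ∈ Icc (0 : ℝ) 1 := ⟨le_rfl, zero_le_one⟩
  have hyI : y ∈ Icc (0 : ℝ) 1 := ⟨hy.1.le, hy.2.le⟩
  have hR : 0 < r y := hr.pos y ⟨by linarith [hy.1], hy.2⟩
  have hsup : ∀ t ∈ Icc (0 : ℝ) 1, r t ≤ r y + rd r y * (t - y) := fun t ht => sl_super hr hy ht
  rcases le_total (-rd r y) (κ * r y) with h | h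
  · left
    rw [← intervalIntegral.integral_const_mul]
    apply intervalIntegral.integral_mono_on hy.1.le (prof_pow_ii hr m h00 hyI)
      ((by fun_prop : Continuous fun t => r y ^ m * (1 + κ * (y - t)) ^ m).intervalIntegrable _ _)
    intro t ht
    have m2 : t ∈ Icc (0 : ℝ) 1 := ⟨ht.1, ht.2.trans hy.2.le⟩
    rw [← mul_pow]
    refine pow_le_pow_left₀ (prof_nn hr m2) ((hsup t m2).trans ?_) m
    have := mul_le_mul_of_nonneg_right h (by linarith [ht.2] : 0 ≤ y - t)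
    linarith
  · right
    rw [← intervalIntegral.integral_const_mul]
    apply intervalIntegral.integral_mono_on hy.2.le (prof_pow_ii hr m hyI h01)
      ((by fun_prop : Continuous fun t => r y ^ m * (1 - κ * (t - y)) ^ m).intervalIntegrable _ _)
    intro t ht
    have m2 : t ∈ Icc (0 : ℝ) 1 := ⟨hy.1.le.trans ht.1, ht.2⟩
    rw [← mul_pow]
    refine pow_le_pow_left₀ (prof_nn hr m2) ((hsup t m2).trans ?_) m
    have := mul_le_mul_of_nonneg_right h (by linarith [ht.1] : 0 ≤ t - y)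
    linarith

/-- **Joint bound.** -/
theorem IsTrans.joint {m : ℕ} {r τ τ' T : ℝ → ℝ} (hr : IsProf r) (h : IsTrans m r τ τ' T)
    {x : ℝ} (hx : x ∈ Ioo (0 : ℝ) 1) (κ : ℝ) :
    τ' x * (∫ t in (0 : ℝ)..x, sq t ^ m) ≤
      sq x ^ m * (∫ t in (0 : ℝ)..(τ x), (1 + κ * (τ x - t)) ^ m) ∨
    τ' x * (∫ t in x..1, sq t ^ m) ≤
      sq x ^ m * (∫ t in (τ x)..1, (1 - κ * (t - τ x)) ^ m) := by
  have hτ := h.mem x hx
  have hZ := sl_V_pos m hr (y := 0) ⟨le_rfl, zero_lt_one⟩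
  have hG := sl_q_pos m (x := 0) ⟨le_rfl, zero_lt_one⟩
  have h0 := h.mass x hx
  have h1 := h.sl_mass hr hx
  have h2 := h.eqn x hx
  have hp := h.pos x hx
  have hc : 0 ≤ τ' x * ∫ t in (0 : ℝ)..1, sq t ^ m := (mul_pos hp hG).le
  rcases jt_alt m hr hτ κ with h3 | h3
  · left
    have h4 := mul_le_mul_of_nonneg_left h3 hc
    apply le_of_mul_le_mul_right _ hZ
    calc τ' x * (∫ t in (0 : ℝ)..x, sq t ^ m) * (∫ t in (0 : ℝ)..1, r t ^ m)
        = (τ' x * ∫ t in (0 : ℝ)..1, sq t ^ m) * ∫ t in (0 : ℝ)..(τ x), r t ^ m := by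
          linear_combination (-(τ' x)) * h0
      _ ≤ _ := h4
      _ = _ := by linear_combination (∫ t in (0 : ℝ)..(τ x), (1 + κ * (τ x - t)) ^ m) * h2
  · right
    have h4 := mul_le_mul_of_nonneg_left h3 hc
    apply le_of_mul_le_mul_right _ hZ
    calc τ' x * (∫ t in x..1, sq t ^ m) * (∫ t in (0 : ℝ)..1, r t ^ m)
        = (τ' x * ∫ t in (0 : ℝ)..1, sq t ^ m) * ∫ t in (τ x)..1, r t ^ m := by
          linear_combination (-(τ' x)) * h1
      _ ≤ _ := h4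
      _ = _ := by linear_combination (∫ t in (τ x)..1, (1 - κ * (t - τ x)) ^ m) * h2

/-- `∫_0^x (1-t²)²` -/
theorem jt_int0 {x : ℝ} (hx : x ∈ Ioo (0 : ℝ) 1) :
    ∫ t in (0 : ℝ)..x, sq t ^ 4 = x * (15 - 10 * x ^ 2 + 3 * x ^ 4) / 15 := by
  have h1 : ∫ t in (0 : ℝ)..x, sq t ^ 4 = ∫ t in (0 : ℝ)..x, (1 - t ^ 2) ^ 2 := by
    apply intervalIntegral.integral_congr
    intro t ht
    rw [uIcc_of_le hx.1.le] at ht
    simp only
    unfold sq
    have : 0 ≤ 1 - t ^ 2 := by nlinarith [ht.1, ht.2, hx.2]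
    rw [show (4 : ℕ) = 2 * 2 by norm_num, pow_mul, Real.sq_sqrt this]
  have h2 : ∫ t in (0 : ℝ)..x, (1 - t ^ 2) ^ 2 =
      x * (15 - 10 * x ^ 2 + 3 * x ^ 4) / 15 - 0 * (15 - 10 * 0 ^ 2 + 3 * 0 ^ 4) / 15 := by
    apply intervalIntegral.integral_eq_sub_of_hasDerivAt
      (f := fun t : ℝ => t * (15 - 10 * t ^ 2 + 3 * t ^ 4) / 15)
    · intro t _
      have h3 : HasDerivAt (fun t : ℝ => t * (15 - 10 * t ^ 2 + 3 * t ^ 4) / 15)
          ((1 * (15 - 10 * t ^ 2 + 3 * t ^ 4) + t * (-(10 * (2 * t)) + 3 * (4 * t ^ 3))) / 15) t := by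
        have a1 : HasDerivAt (fun t : ℝ => t ^ 2) (2 * t) t := by simpa using hasDerivAt_pow 2 t
        have a2 : HasDerivAt (fun t : ℝ => t ^ 4) (4 * t ^ 3) t := by simpa using hasDerivAt_pow 4 t
        have a3 := ((a1.const_mul 10).const_sub 15).add (a2.const_mul 3)
        exact ((hasDerivAt_id t).mul a3).div_const 15
      refine h3.congr_deriv ?_
      ring
    · exact (by fun_prop : Continuous fun t : ℝ => (1 - t ^ 2) ^ 2).intervalIntegrable _ _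
  rw [h1, h2]
  ring

/-- `∫_x^1 (1-t²)²` -/
theorem jt_int1 {x : ℝ} (hx : x ∈ Ioo (0 : ℝ) 1) :
    ∫ t in x..1, sq t ^ 4 = (1 - x) ^ 3 * (8 + 9 * x + 3 * x ^ 2) / 15 := by
  have h1 : ∫ t in x..1, sq t ^ 4 = ∫ t in x..1, (1 - t ^ 2) ^ 2 := by
    apply intervalIntegral.integral_congr
    intro t ht
    rw [uIcc_of_le hx.2.le] at ht
    simp only
    unfold sq
    have : 0 ≤ 1 - t ^ 2 := by nlinarith [ht.1, ht.2, hx.1]
    rw [show (4 : ℕ) = 2 * 2 by norm_num, pow_mul, Real.sq_sqrt this]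
  have h2 : ∫ t in x..1, (1 - t ^ 2) ^ 2 =
      1 * (15 - 10 * 1 ^ 2 + 3 * 1 ^ 4) / 15 - x * (15 - 10 * x ^ 2 + 3 * x ^ 4) / 15 := by
    apply intervalIntegral.integral_eq_sub_of_hasDerivAt
      (f := fun t : ℝ => t * (15 - 10 * t ^ 2 + 3 * t ^ 4) / 15)
    · intro t _
      have h3 : HasDerivAt (fun t : ℝ => t * (15 - 10 * t ^ 2 + 3 * t ^ 4) / 15)
          ((1 * (15 - 10 * t ^ 2 + 3 * t ^ 4) + t * (-(10 * (2 * t)) + 3 * (4 * t ^ 3))) / 15) t := by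
        have a1 : HasDerivAt (fun t : ℝ => t ^ 2) (2 * t) t := by simpa using hasDerivAt_pow 2 t
        have a2 : HasDerivAt (fun t : ℝ => t ^ 4) (4 * t ^ 3) t := by simpa using hasDerivAt_pow 4 t
        have a3 := ((a1.const_mul 10).const_sub 15).add (a2.const_mul 3)
        exact ((hasDerivAt_id t).mul a3).div_const 15
      refine h3.congr_deriv ?_
      ring
    · exact (by fun_prop : Continuous fun t : ℝ => (1 - t ^ 2) ^ 2).intervalIntegrable _ _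
  rw [h1, h2]
  ring

theorem jt_lin0 (κ y : ℝ) : ∫ t in (0 : ℝ)..y, (1 + κ * (y - t)) ^ 4 =
    y * (5 + 10 * (κ * y) + 10 * (κ * y) ^ 2 + 5 * (κ * y) ^ 3 + (κ * y) ^ 4) / 5 := by
  have h2 : ∫ t in (0 : ℝ)..y, (1 + κ * (y - t)) ^ 4 =
      (-((y - y) * (5 + 10 * (κ * (y - y)) + 10 * (κ * (y - y)) ^ 2 + 5 * (κ * (y - y)) ^ 3 +
        (κ * (y - y)) ^ 4) / 5)) -
      (-((y - 0) * (5 + 10 * (κ * (y - 0)) + 10 * (κ * (y - 0)) ^ 2 + 5 * (κ * (y - 0)) ^ 3 +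
        (κ * (y - 0)) ^ 4) / 5)) := by
    apply intervalIntegral.integral_eq_sub_of_hasDerivAt
      (f := fun t : ℝ => -((y - t) * (5 + 10 * (κ * (y - t)) + 10 * (κ * (y - t)) ^ 2 +
        5 * (κ * (y - t)) ^ 3 + (κ * (y - t)) ^ 4) / 5))
    · intro t _
      have b0 : HasDerivAt (fun t : ℝ => y - t) (-1) t := by
        simpa using (hasDerivAt_id t).const_sub y
      have b1 : HasDerivAt (fun t : ℝ => κ * (y - t)) (κ * -1) t := b0.const_mul κ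
      have b2 := b1.pow 2
      have b3 := b1.pow 3
      have b4 := b1.pow 4
      have b5 := ((((b1.const_mul 10).const_add 5).add (b2.const_mul 10)).add (b3.const_mul 5)).add b4
      have b6 := ((b0.mul b5).div_const 5).neg
      refine HasDerivAt.congr_deriv b6 ?_
      push_cast
      simp only [Pi.add_apply, Pi.pow_apply]
      ring
    · exact (by fun_prop : Continuous fun t : ℝ => (1 + κ * (y - t)) ^ 4).intervalIntegrable _ _
  rw [h2]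
  ring

theorem jt_lin1 (κ y : ℝ) : ∫ t in y..1, (1 - κ * (t - y)) ^ 4 =
    (1 - y) * (5 - 10 * (κ * (1 - y)) + 10 * (κ * (1 - y)) ^ 2 - 5 * (κ * (1 - y)) ^ 3 +
      (κ * (1 - y)) ^ 4) / 5 := by
  have h2 : ∫ t in y..1, (1 - κ * (t - y)) ^ 4 =
      ((1 - y) * (5 + 10 * (-κ * (1 - y)) + 10 * (-κ * (1 - y)) ^ 2 + 5 * (-κ * (1 - y)) ^ 3 +
        (-κ * (1 - y)) ^ 4) / 5) -
      ((y - y) * (5 + 10 * (-κ * (y - y)) + 10 * (-κ * (y - y)) ^ 2 + 5 * (-κ * (y - y)) ^ 3 +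
        (-κ * (y - y)) ^ 4) / 5) := by
    apply intervalIntegral.integral_eq_sub_of_hasDerivAt
      (f := fun t : ℝ => ((t - y) * (5 + 10 * (-κ * (t - y)) + 10 * (-κ * (t - y)) ^ 2 +
        5 * (-κ * (t - y)) ^ 3 + (-κ * (t - y)) ^ 4) / 5))
    · intro t _
      have b0 : HasDerivAt (fun t : ℝ => t - y) 1 t := by
        simpa using (hasDerivAt_id t).sub_const y
      have b1 : HasDerivAt (fun t : ℝ => -κ * (t - y)) (-κ * 1) t := b0.const_mul (-κ)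
      have b2 := b1.pow 2
      have b3 := b1.pow 3
      have b4 := b1.pow 4
      have b5 := ((((b1.const_mul 10).const_add 5).add (b2.const_mul 10)).add (b3.const_mul 5)).add b4
      have b6 := ((b0.mul b5).div_const 5)
      refine HasDerivAt.congr_deriv b6 ?_
      push_cast
      simp only [Pi.add_apply, Pi.pow_apply]
      ring
    · exact (by fun_prop : Continuous fun t : ℝ => (1 - κ * (t - y)) ^ 4).intervalIntegrable _ _
  rw [h2]
  ring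

/-- **Joint bound for `m = 4`**, `E = 1 + u = x τ'/τ`; `v = κ τ`, `w = κ (1-τ)`. -/
theorem IsTrans.joint4 {r τ τ' T : ℝ → ℝ} (hr : IsProf r) (h : IsTrans 4 r τ τ' T)
    {x : ℝ} (hx : x ∈ Ioo (0 : ℝ) 1) (κ : ℝ) {E : ℝ} (hE : E * τ x = x * τ' x) :
    E * (15 - 10 * x ^ 2 + 3 * x ^ 4) ≤ 3 * (1 - x ^ 2) ^ 2 *
      (5 + 10 * (κ * τ x) + 10 * (κ * τ x) ^ 2 + 5 * (κ * τ x) ^ 3 + (κ * τ x) ^ 4) ∨
    E * τ x * ((1 - x) * (8 + 9 * x + 3 * x ^ 2)) ≤ 3 * x * (1 + x) ^ 2 * ((1 - τ x) *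
      (5 - 10 * (κ * (1 - τ x)) + 10 * (κ * (1 - τ x)) ^ 2 - 5 * (κ * (1 - τ x)) ^ 3 +
        (κ * (1 - τ x)) ^ 4)) := by
  have hτ := h.mem x hx
  have hx0 := hx.1
  have hx1 : 0 < 1 - x := by linarith [hx.2]
  have hs : sq x ^ 4 = (1 - x ^ 2) ^ 2 := by
    unfold sq
    have : 0 ≤ 1 - x ^ 2 := by nlinarith [hx.1, hx.2]
    rw [show (4 : ℕ) = 2 * 2 by norm_num, pow_mul, Real.sq_sqrt this]
  rcases h.joint hr hx κ with h1 | h1
  · left
    rw [jt_int0 hx, jt_lin0, hs] at h1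
    have h2 : τ x * (E * (15 - 10 * x ^ 2 + 3 * x ^ 4)) ≤ τ x * (3 * (1 - x ^ 2) ^ 2 *
      (5 + 10 * (κ * τ x) + 10 * (κ * τ x) ^ 2 + 5 * (κ * τ x) ^ 3 + (κ * τ x) ^ 4)) := by
      calc τ x * (E * (15 - 10 * x ^ 2 + 3 * x ^ 4))
          = 15 * (τ' x * (x * (15 - 10 * x ^ 2 + 3 * x ^ 4) / 15)) := by
            linear_combination (15 - 10 * x ^ 2 + 3 * x ^ 4) * hE
        _ ≤ _ := mul_le_mul_of_nonneg_left h1 (by norm_num)
        _ = _ := by ring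
    exact le_of_mul_le_mul_left h2 hτ.1
  · right
    rw [jt_int1 hx, jt_lin1, hs] at h1
    have hc : 0 < (1 - x) ^ 2 := by positivity
    have h2 : (1 - x) ^ 2 * (E * τ x * ((1 - x) * (8 + 9 * x + 3 * x ^ 2))) ≤
        (1 - x) ^ 2 * (3 * x * (1 + x) ^ 2 * ((1 - τ x) *
      (5 - 10 * (κ * (1 - τ x)) + 10 * (κ * (1 - τ x)) ^ 2 - 5 * (κ * (1 - τ x)) ^ 3 +
        (κ * (1 - τ x)) ^ 4))) := by
      calc (1 - x) ^ 2 * (E * τ x * ((1 - x) * (8 + 9 * x + 3 * x ^ 2)))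
          = (15 * x) * (τ' x * ((1 - x) ^ 3 * (8 + 9 * x + 3 * x ^ 2) / 15)) := by
            linear_combination (1 - x) ^ 3 * (8 + 9 * x + 3 * x ^ 2) * hE
        _ ≤ _ := mul_le_mul_of_nonneg_left h1 (by positivity)
        _ = _ := by ring
    exact le_of_mul_le_mul_left h2 hc

end Vale.Agent.P237.AllN
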