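import Vale.Agent.P237.AllN.KerPair

/-!
# P237, all dimensions: the kernel `K₁(ab) log(b/a)` and its variants

`kL k ν a b = (K₁(ab) - k ab) log(b/a) + (k/2)(b²-a²)` for `ab > 0` and `ν (b²-a²)` for `ab ≤ 0`,
`K₁(z) = (1-z)^(-1/2) - 1`, `0 ≤ k ≤ 2/5`.  (`k = 0, ν = 1/16`: helper609; `ν = k/2`: helper764.)
-/

open MeasureTheory Metric Set Module Filter Topology

namespace Vale.Agent.P237.AllN

theorem kL_poly {s : ℝ} (h0 : 0 ≤ s) (h1 : s ≤ 1) :
    0 ≤ 10 + 10 * s ^ 1 + (-33) * s ^ 2 + 7 * s ^ 3 + 26 * s ^ 4 + (-22) * s ^ 5 + (-20) * s ^ 6 + (64/5) * s ^ 7 + (64/5) * s ^ 8 + (-8/5) * s ^ 9 + (-8/5) * s ^ 10 := by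
  · have hx : 0 ≤ s := by linarith
    have hy : 0 ≤ 1 - s := by linarith
    have key : 10 + 10 * s ^ 1 + (-33) * s ^ 2 + 7 * s ^ 3 + 26 * s ^ 4 + (-22) * s ^ 5 + (-20) * s ^ 6 + (64/5) * s ^ 7 + (64/5) * s ^ 8 + (-8/5) * s ^ 9 + (-8/5) * s ^ 10 =
        10 * (1 - s) ^ 10 +
        110 * s ^ 1 * (1 - s) ^ 9 +
        507 * s ^ 2 * (1 - s) ^ 8 +
        1303 * s ^ 3 * (1 - s) ^ 7 +
        2091 * s ^ 4 * (1 - s) ^ 6 +
        2213 * s ^ 5 * (1 - s) ^ 5 +
        1555 * s ^ 6 * (1 - s) ^ 4 +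
        (3349 / 5 : ℝ) * s ^ 7 * (1 - s) ^ 3 +
        (671 / 5 : ℝ) * s ^ 8 * (1 - s) ^ 2 +
        (17 / 5 : ℝ) * s ^ 9 * (1 - s) ^ 1 +
        (2 / 5 : ℝ) * s ^ 10 := by ring
    rw [key]; (clear * - h0 h1; positivity)

/-- the tangent lemma on an arbitrary interval -/
theorem tangent_le_of_deriv2' {s : Set ℝ} (hs : OrdConnected s) {g g' g'' : ℝ → ℝ}
    (hg : ∀ b ∈ s, HasDerivAt g (g' b) b) (hg' : ∀ b ∈ s, HasDerivAt g' (g'' b) b)
    (hpos : ∀ b ∈ s, 0 ≤ g'' b) {q b : ℝ} (hq : q ∈ s) (hb : b ∈ s) :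
    g q + g' q * (b - q) ≤ g b := by
  have hm : MonotoneOn g' s := by
    apply monotoneOn_of_deriv_nonneg hs.convex
    · intro y hy
      exact (hg' y hy).continuousAt.continuousWithinAt
    · intro y hy
      exact (hg' y (interior_subset hy)).differentiableAt.differentiableWithinAt
    · intro y hy
      rw [(hg' y (interior_subset hy)).deriv]
      exact hpos y (interior_subset hy)
  rcases lt_trichotomy q b with h | h | h
  · have hsub : Icc q b ⊆ s := hs.out hq hb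
    obtain ⟨ξ, hξ, e⟩ := exists_hasDerivAt_eq_slope g g' h
      (fun y hy => (hg y (hsub hy)).continuousAt.continuousWithinAt)
      (fun y hy => hg y (hsub ⟨hy.1.le, hy.2.le⟩))
    have h2 : g' q ≤ g' ξ := hm hq (hsub ⟨hξ.1.le, hξ.2.le⟩) hξ.1.le
    have h3 : 0 < b - q := by linarith only [h]
    rw [eq_div_iff h3.ne'] at e
    nlinarith only [e, h, h2]
  · subst h; simp
  · have hsub : Icc b q ⊆ s := hs.out hb hq
    obtain ⟨ξ, hξ, e⟩ := exists_hasDerivAt_eq_slope g g' h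
      (fun y hy => (hg y (hsub hy)).continuousAt.continuousWithinAt)
      (fun y hy => hg y (hsub ⟨hy.1.le, hy.2.le⟩))
    have h2 : g' ξ ≤ g' q := hm (hsub ⟨hξ.1.le, hξ.2.le⟩) hq hξ.2.le
    have h3 : 0 < q - b := by linarith
    rw [eq_div_iff h3.ne'] at e
    nlinarith only [e, h, h2]


noncomputable def lK (z : ℝ) : ℝ := (Real.sqrt (1 - z))⁻¹ - 1

noncomputable def lK1 (z : ℝ) : ℝ := (Real.sqrt (1 - z))⁻¹ ^ 3 / 2

noncomputable def lK2 (z : ℝ) : ℝ := 3 * (Real.sqrt (1 - z))⁻¹ ^ 5 / 4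

theorem lK_hasDerivAt {z : ℝ} (hz : z < 1) : HasDerivAt lK (lK1 z) z :=
  (isqrt_hasDerivAt hz).sub_const 1

theorem lK1_hasDerivAt {z : ℝ} (hz : z < 1) : HasDerivAt lK1 (lK2 z) z := by
  have h := ((isqrt_hasDerivAt hz).pow 3).div_const 2
  refine h.congr_deriv ?_
  unfold lK2
  norm_num
  ring

/-- data of the positive side of `kL k ν` -/
theorem kL_data (k : ℝ) : KData (fun z => lK z - k * z) (fun z => lK1 z - k) lK2
    (fun t => k / 2 * t ^ 2) (fun t => k * t) (fun _ => k) where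
  hK := fun z h => by
    have h2 : HasDerivAt (fun z : ℝ => k * z) (k * 1) z := (hasDerivAt_id z).const_mul k
    rw [mul_one] at h2
    exact (lK_hasDerivAt h).sub h2
  hK1 := fun z h => (lK1_hasDerivAt h).sub_const k
  hφ := fun t => by
    have := (hasDerivAt_pow 2 t).const_mul (k / 2)
    refine this.congr_deriv ?_
    norm_num
    ring
  hφ1 := fun t => by simpa using (hasDerivAt_id t).const_mul k

section
variable {z : ℝ}

theorem lK_eq {s : ℝ} (h0 : 0 < s) : lK (1 - s ^ 2) = (1 - s) / s := by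
  unfold lK
  rw [sub_sub_cancel, Real.sqrt_sq h0.le]
  field_simp

theorem dlK_eq {s : ℝ} (h0 : 0 < s) :
    (1 - s ^ 2) * lK1 (1 - s ^ 2) = (1 - s ^ 2) / (2 * s ^ 3) := by
  unfold lK1
  rw [sub_sub_cancel, Real.sqrt_sq h0.le]
  field_simp

theorem d2lK_eq {s : ℝ} (h0 : 0 < s) :
    (1 - s ^ 2) ^ 2 * lK2 (1 - s ^ 2) = 3 * (1 - s ^ 2) ^ 2 / (4 * s ^ 5) := by
  unfold lK2
  rw [sub_sub_cancel, Real.sqrt_sq h0.le]
  field_simp

theorem d2lK_nonneg : 0 ≤ z ^ 2 * lK2 z := by unfold lK2; positivity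

/-- `z/2 ≤ K₁(z) ≤ z/√(1-z)` -/
theorem lK_bds (h0 : 0 < z) (h1 : z < 1) : z / 2 ≤ lK z ∧ lK z ≤ z / Real.sqrt (1 - z) := by
  obtain ⟨s, hs0, hs1, rfl⟩ := exists_s h0 h1
  rw [lK_eq hs0, sub_sub_cancel, Real.sqrt_sq hs0.le]
  constructor
  · rw [div_le_div_iff₀ (by norm_num) hs0]
    nlinarith only [mul_nonneg (mul_nonneg (sub_nonneg.2 hs1.le) (sub_nonneg.2 hs1.le)) hs0.le]
  · apply div_le_div_of_nonneg_right _ hs0.le
    nlinarith only [hs0, hs1]

/-- convexity inequality -/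
theorem kL_I3 {k : ℝ} (hk : k ≤ 2 / 5) (h0 : 0 < z) (h1 : z < 1) :
    z ^ 2 * lK2 z * -Real.log z ≤ 2 * (z * lK1 z) - lK z - k * (z - z ^ 2) := by
  have hX : 0 ≤ z ^ 2 * lK2 z := d2lK_nonneg
  obtain ⟨s, hs0, hs1, rfl⟩ := exists_s h0 h1
  have hL := mul_le_mul_of_nonneg_left (neg_log_le hs0 hs1) hX
  refine hL.trans ?_
  rw [dlK_eq hs0, lK_eq hs0, d2lK_eq hs0]
  have h : 0 ≤ 1 - s := by linarith only [hs1]
  have hD : (0 : ℝ) < 10 - 8 * s ^ 2 + s ^ 4 := by nlinarith only [h0]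
  have hp := kL_poly hs0.le hs1.le
  rw [← sub_nonneg]
  have hne : (1 - s ^ 2) ≠ 0 := h0.ne'
  have hne1 : (1 - s) ≠ 0 := by intro h; apply hne; nlinarith only [h]
  have e : 2 * ((1 - s ^ 2) / (2 * s ^ 3)) - (1 - s) / s -
      k * ((1 - s ^ 2) - (1 - s ^ 2) ^ 2) -
      3 * (1 - s ^ 2) ^ 2 / (4 * s ^ 5) *
        (s ^ 2 * (30 - 39 * s ^ 2 + 10 * s ^ 4) /
          (3 * (1 - s ^ 2) * (10 - 8 * s ^ 2 + s ^ 4))) =
      (1 - s) * ((10 + 10 * s ^ 1 + (-33) * s ^ 2 + 7 * s ^ 3 + 26 * s ^ 4 + (-22) * s ^ 5 +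
        (-20) * s ^ 6 + (64/5) * s ^ 7 + (64/5) * s ^ 8 + (-8/5) * s ^ 9 + (-8/5) * s ^ 10) +
        4 * (2 / 5 - k) * (1 + s) * s ^ 5 * (10 - 8 * s ^ 2 + s ^ 4)) /
        (4 * s ^ 3 * (10 - 8 * s ^ 2 + s ^ 4)) := by
    have hf : (1 - s ^ 2) = (1 - s) * (1 + s) := by ring
    obtain ⟨D, hDe⟩ : ∃ D, D = 10 - 8 * s ^ 2 + s ^ 4 := ⟨_, rfl⟩
    rw [← hDe] at hD ⊢
    rw [hf] at hne ⊢
    field_simp
    rw [hDe]
    ring
  rw [e]
  have hk' : 0 ≤ 2 / 5 - k := by linarith only [hk]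
  (clear * - hs1 hp hk hs0 hD; positivity)

end

/-! ## the kernel -/

noncomputable def kL (k ν a b : ℝ) : ℝ :=
  if 0 < a * b then k / 2 * b ^ 2 - k / 2 * a ^ 2 +
    (lK (a * b) - k * (a * b)) * Real.log (b / a) else ν * (b ^ 2 - a ^ 2)

theorem kL_pos {k ν a b : ℝ} (ha : 0 < a) (hb : 0 < b) :
    kL k ν a b = gV (fun z => lK z - k * z) (fun t => k / 2 * t ^ 2) a b := by
  unfold kL gV
  rw [if_pos (mul_pos ha hb)]

theorem kL_nonpos {k ν a b : ℝ} (ha : 0 < a) (hb : b ≤ 0) : kL k ν a b = ν * (b ^ 2 - a ^ 2) := by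
  unfold kL
  rw [if_neg (by nlinarith)]

theorem kL_symm (k ν a b : ℝ) : kL k ν (-a) (-b) = kL k ν a b := by
  unfold kL
  rw [neg_mul_neg, neg_div_neg_eq, neg_sq, neg_sq]

theorem kL_anti (k ν a b : ℝ) : kL k ν a b = -kL k ν b a := by
  unfold kL
  rw [mul_comm b a]
  split_ifs with h
  · have : Real.log (b / a) = -Real.log (a / b) := by rw [← Real.log_inv, inv_div]
    rw [this]
    ring
  · ring

theorem kLlog_bound_aux {k a b : ℝ} (hk0 : 0 ≤ k) (hk : k ≤ 1 / 2) (hb : 0 < b) (hba : b ≤ a)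
    (ha1 : a ≤ 1) :
    |(lK (a * b) - k * (a * b)) * Real.log (b / a)| ≤ Real.sqrt (1 - a * b) := by
  have ha : 0 < a := hb.trans_le hba
  have hz0 : 0 < a * b := mul_pos ha hb
  have hz1 : a * b ≤ 1 := by nlinarith only [hba, ha1, hb]
  rcases hz1.eq_or_lt with h1 | h1
  · have ha' : a = 1 := by nlinarith only [hba, h1, hb, ha1]
    have hb' : b = 1 := by rw [ha'] at h1; linarith only [h1]
    subst ha' hb'
    simp only [mul_one, ne_eq, one_ne_zero, not_false_eq_true, div_self, Real.log_one, mul_zero, abs_zero, sub_self, Real.sqrt_zero, Std.le_refl]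
  · obtain ⟨hlo, hle⟩ := lK_bds hz0 h1
    have hK : 0 ≤ lK (a * b) - k * (a * b) := by nlinarith only [hlo, hk, hz0]
    have hle' : lK (a * b) - k * (a * b) ≤ a * b / Real.sqrt (1 - a * b) := by
      have : 0 ≤ k * (a * b) := by positivity
      linarith only [hle, this]
    have hs : 0 < Real.sqrt (1 - a * b) := Real.sqrt_pos.2 (by linarith only [h1])
    have hlog0 : Real.log (b / a) ≤ 0 :=
      Real.log_nonpos (by positivity) (by rw [div_le_one ha]; exact hba)
    have hlog : -Real.log (b / a) ≤ (a - b) / b := by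
      rw [← Real.log_inv, inv_div]
      have := Real.log_le_sub_one_of_pos (x := a / b) (by positivity)
      have e : a / b - 1 = (a - b) / b := by field_simp
      linarith only [this, e]
    rw [abs_mul, abs_of_nonneg hK, abs_of_nonpos hlog0]
    calc (lK (a * b) - k * (a * b)) * -Real.log (b / a)
        ≤ (a * b / Real.sqrt (1 - a * b)) * ((a - b) / b) := by
          apply mul_le_mul hle' hlog (by linarith only [hlog0])
          positivity
      _ = a * (a - b) / Real.sqrt (1 - a * b) := by field_simp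
      _ ≤ (1 - a * b) / Real.sqrt (1 - a * b) := by
          apply div_le_div_of_nonneg_right _ hs.le
          nlinarith only [ha1, hb, hba]
      _ = Real.sqrt (1 - a * b) := by
          rw [div_eq_iff hs.ne', Real.mul_self_sqrt (by linarith only [h1])]

theorem kLlog_bound {k a b : ℝ} (hk0 : 0 ≤ k) (hk : k ≤ 1 / 2) (ha : a ∈ Icc (-1 : ℝ) 1)
    (hb : b ∈ Icc (-1 : ℝ) 1) (h : 0 < a * b) :
    |(lK (a * b) - k * (a * b)) * Real.log (b / a)| ≤ Real.sqrt (1 - a * b) := by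
  have key : ∀ a b : ℝ, a ∈ Icc (-1 : ℝ) 1 → b ∈ Icc (-1 : ℝ) 1 → 0 < a → 0 < b →
      |(lK (a * b) - k * (a * b)) * Real.log (b / a)| ≤ Real.sqrt (1 - a * b) := by
    intro a b ha hb ha0 hb0
    rcases le_total b a with hab | hab
    · exact kLlog_bound_aux hk0 hk hb0 hab ha.2
    · have := kLlog_bound_aux hk0 hk ha0 hab hb.2
      rw [mul_comm b a] at this
      have e : Real.log (b / a) = -Real.log (a / b) := by rw [← Real.log_inv, inv_div]
      rw [e, mul_neg, abs_neg]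
      exact this
  rcases lt_trichotomy 0 a with h0 | h0 | h0
  · exact key a b ha hb h0 (by by_contra hb'; push Not at hb'; nlinarith only [h, h0, hb'])
  · rw [← h0, zero_mul] at h; exact absurd h (lt_irrefl _)
  · have hb0 : b < 0 := by nlinarith only [h, h0]
    have := key (-a) (-b) ⟨by linarith [ha.2], by linarith [ha.1]⟩
      ⟨by linarith [hb.2], by linarith [hb.1]⟩ (by linarith) (by linarith)
    rwa [neg_mul_neg, neg_div_neg_eq] at this

theorem kL_meas (k ν : ℝ) : Measurable (Function.uncurry (kL k ν)) := by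
  have e : Function.uncurry (kL k ν) = fun x : ℝ × ℝ =>
      if 0 < x.1 * x.2 then k / 2 * x.2 ^ 2 - k / 2 * x.1 ^ 2 +
        (lK (x.1 * x.2) - k * (x.1 * x.2)) * Real.log (x.2 / x.1)
      else ν * (x.2 ^ 2 - x.1 ^ 2) := rfl
  rw [e]
  have hK : Measurable lK := by unfold lK; fun_prop
  refine Measurable.ite (measurableSet_lt measurable_const (measurable_fst.mul measurable_snd))
    ?_ (by fun_prop)
  refine ((measurable_snd.pow_const 2).const_mul _ |>.sub
    ((measurable_fst.pow_const 2).const_mul _)).add ?_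
  exact (((hK.comp (measurable_fst.mul measurable_snd)).sub
    ((measurable_fst.mul measurable_snd).const_mul _))).mul
    (Real.measurable_log.comp (measurable_snd.div measurable_fst))

theorem sq_diff_bd {a b : ℝ} (ha : a ∈ Icc (-1 : ℝ) 1) (hb : b ∈ Icc (-1 : ℝ) 1) :
    |b ^ 2 - a ^ 2| ≤ 1 := by
  have h2 : a ^ 2 ≤ 1 := by rw [sq_le_one_iff_abs_le_one, abs_le]; exact ha
  have h3 : b ^ 2 ≤ 1 := by rw [sq_le_one_iff_abs_le_one, abs_le]; exact hb
  rw [abs_le]
  constructor <;> nlinarith only [h2, h3]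

theorem kL_kern {k ν : ℝ} (hk0 : 0 ≤ k) (hk : k ≤ 1 / 2) : Kern (kL k ν) where
  meas := kL_meas k ν
  bdd := by
    refine ⟨3 + |ν|, fun a ha b hb => ?_⟩
    have h6 := sq_diff_bd ha hb
    unfold kL
    split_ifs with h
    · have h1 := kLlog_bound hk0 hk ha hb h
      have h2 : Real.sqrt (1 - a * b) ≤ 2 := by
        rw [Real.sqrt_le_left (by norm_num)]
        linarith
      refine (abs_add_le _ _).trans ?_
      have h5 : |k / 2 * b ^ 2 - k / 2 * a ^ 2| ≤ 1 := by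
        rw [← mul_sub, abs_mul, abs_of_nonneg (by positivity : 0 ≤ k / 2)]
        nlinarith only [hk, hk0, h6]
      have := abs_nonneg ν
      linarith only [h1, h2, h5, this]
    · rw [abs_mul]
      nlinarith only [h6, abs_nonneg ν]
  anti := fun a _ b _ => kL_anti k ν a b

theorem kL_kern2 {k ν : ℝ} (hk0 : 0 ≤ k) (hk : k ≤ 1 / 2) : Kern2 (kL k ν) where
  toKern := kL_kern hk0 hk
  symm := kL_symm k ν
  corner := by
    intro η hη
    refine ⟨min (1 / 2) (min (η / 8) (η ^ 2 / 8)), by positivity, fun a ha b hb => ?_⟩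
    set δ := min (1 / 2 : ℝ) (min (η / 8) (η ^ 2 / 8)) with hδ
    have hδ1 : δ ≤ 1 / 2 := min_le_left _ _
    have hδ2 : δ ≤ η / 8 := (min_le_right _ _).trans (min_le_left _ _)
    have hδ3 : δ ≤ η ^ 2 / 8 := (min_le_right _ _).trans (min_le_right _ _)
    have hδ0 : 0 < δ := by positivity
    have ha' : a ∈ Icc (-1 : ℝ) 1 := ⟨by (clear * - hδ1 hδ0 ha; linarith [ha.1]), ha.2⟩
    have hb' : b ∈ Icc (-1 : ℝ) 1 := ⟨by linarith only [hδ1, hb.1], hb.2⟩
    have ha0 : 0 < a := by linarith only [hδ1, ha.1]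
    have hb0 : 0 < b := by linarith only [hδ1, hb.1]
    have hab : 0 < a * b := mul_pos ha0 hb0
    have h1 := kLlog_bound hk0 hk ha' hb' hab
    have h2 : Real.sqrt (1 - a * b) ≤ η / 2 := by
      rw [Real.sqrt_le_left (by positivity)]
      nlinarith only [hδ3, hδ1, hδ0, ha.1, hb.1]
    have h5 : |k / 2 * b ^ 2 - k / 2 * a ^ 2| ≤ η / 2 := by
      rw [← mul_sub, abs_mul, abs_of_nonneg (by (clear * - hk0; positivity) : 0 ≤ k / 2)]
      have h6 : |b ^ 2 - a ^ 2| ≤ 2 * δ := by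
        rw [abs_le]
        constructor <;> nlinarith only [hδ1, hδ0, ha0, ha.2, hb.1, hb0, ha.1, hb.2]
      nlinarith only [hδ2, hk0, h6, hk, hη]
    unfold kL
    rw [if_pos hab]
    refine (abs_add_le _ _).trans ?_
    linarith only [h1, h2, h5]

/-! ## admissible lines: the side `b > 0` -/

theorem kL_gV_deriv (k : ℝ) {a b : ℝ} (ha : 0 < a) (hb : 0 < b) (hab : a * b < 1) :
    HasDerivAt (gV (fun z => lK z - k * z) (fun t => k / 2 * t ^ 2) a)
      (gD (fun z => lK z - k * z) (fun z => lK1 z - k) (fun t => k * t) a b) b := by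
  have h := gV_has (kL_data k) (hasDerivAt_const b a) (hasDerivAt_id b) ha hb hab
  refine h.congr_deriv ?_
  simp

theorem kL_gD_deriv (k : ℝ) {a b : ℝ} (ha : 0 < a) (hb : 0 < b) (hab : a * b < 1) :
    HasDerivAt (gD (fun z => lK z - k * z) (fun z => lK1 z - k) (fun t => k * t) a)
      (gDD (fun z => lK z - k * z) (fun z => lK1 z - k) lK2 (fun _ => k) a b) b := by
  have h := gD_has (kL_data k) (hasDerivAt_const b a) (hasDerivAt_id b) ha hb hab
  refine h.congr_deriv ?_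
  simp

theorem kL_gDD_nonneg {k : ℝ} (hk0 : 0 ≤ k) (hk : k ≤ 2 / 5) {a b : ℝ} (ha : 0 < a)
    (ha1 : a ≤ 1) (hb : 0 < b) (hab : a * b < 1) :
    0 ≤ gDD (fun z => lK z - k * z) (fun z => lK1 z - k) lK2 (fun _ => k) a b := by
  have hz0 : 0 < a * b := mul_pos ha hb
  have hI := kL_I3 hk hz0 hab
  have hd : 0 ≤ (a * b) ^ 2 * lK2 (a * b) := d2lK_nonneg
  have hlog : Real.log (a * b) ≤ Real.log (b / a) := by
    apply Real.log_le_log hz0
    rw [le_div_iff₀ ha]
    nlinarith only [ha1, hb, hz0]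
  have hzy : a * b ≤ b := by nlinarith only [ha1, hb]
  have h2 : (a * b) ^ 2 ≤ b ^ 2 := pow_le_pow_left₀ hz0.le hzy 2
  have hmul := mul_le_mul_of_nonneg_left hlog hd
  have hk2 : k * (a * b) ^ 2 ≤ k * b ^ 2 := mul_le_mul_of_nonneg_left h2 hk0
  have key : 0 ≤ b ^ 2 * gDD (fun z => lK z - k * z) (fun z => lK1 z - k) lK2 (fun _ => k) a b := by
    have e : b ^ 2 * gDD (fun z => lK z - k * z) (fun z => lK1 z - k) lK2 (fun _ => k) a b =
      k * b ^ 2 + (a * b) ^ 2 * lK2 (a * b) * Real.log (b / a) +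
      2 * (a * b * lK1 (a * b)) - lK (a * b) - k * (a * b) := by
      unfold gDD
      field_simp
      ring
    rw [e]
    linarith
  exact nonneg_of_mul_nonneg_right key (by (clear * - hb; positivity))

/-- tangent lines on the positive side -/
theorem kL_tangent_pos {k ν : ℝ} (hk0 : 0 ≤ k) (hk : k ≤ 2 / 5) {a q b : ℝ} (ha : 0 < a)
    (ha1 : a < 1) (hq : 0 < q) (hq1 : a * q < 1) (hb0 : 0 < b) (hb : b ≤ 1) :
    gC (fun z => lK z - k * z) (fun z => lK1 z - k) (fun t => k / 2 * t ^ 2) (fun t => k * t) a q +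
      gD (fun z => lK z - k * z) (fun z => lK1 z - k) (fun t => k * t) a q * b ≤ kL k ν a b := by
  have h := tangent_le_of_deriv2 (c := 1 / a)
    (fun y hy => kL_gV_deriv k ha hy.1 (by have := hy.2; rw [lt_div_iff₀ ha] at this; linarith only [this]))
    (fun y hy => kL_gD_deriv k ha hy.1 (by have := hy.2; rw [lt_div_iff₀ ha] at this; linarith only [this]))
    (fun y hy => kL_gDD_nonneg hk0 hk ha ha1.le hy.1
      (by have := hy.2; rw [lt_div_iff₀ ha] at this; linarith only [this]))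
    (q := q) (b := b) ⟨hq, by rw [lt_div_iff₀ ha]; linarith only [hq1]⟩
    ⟨hb0, by rw [lt_div_iff₀ ha]; nlinarith only [ha1, ha, hb]⟩
  rw [kL_pos ha hb0]
  unfold gC
  linarith only [h]

/-! ## admissible lines: the side `b ≤ 0` -/

/-- `c + p b ≤ ν (b² - a²)` for all `b ≤ 0` as soon as `c + ν a² + (p⁻)²/(4ν) ≤ 0`. -/
theorem kL_line_neg {k ν : ℝ} (hν : 0 < ν) {a c p b : ℝ} (ha : 0 < a)
    (h : c + ν * a ^ 2 + (min p 0) ^ 2 / (4 * ν) ≤ 0) (hb : b ≤ 0) : c + p * b ≤ kL k ν a b := by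
  rw [kL_nonpos ha hb]
  rcases le_total 0 p with hp | hp
  · rw [min_eq_right hp] at h
    have h1 : p * b ≤ 0 := mul_nonpos_of_nonneg_of_nonpos hp hb
    have h2 : 0 ≤ ν * b ^ 2 := by (clear * - hν; positivity)
    have h3 : (0 : ℝ) ^ 2 / (4 * ν) = 0 := by simp
    linarith
  · rw [min_eq_left hp] at h
    have h1 : 0 ≤ (2 * ν * b - p) ^ 2 / (4 * ν) := by positivity
    have h2 : (2 * ν * b - p) ^ 2 / (4 * ν) = ν * b ^ 2 - p * b + p ^ 2 / (4 * ν) := by
      field_simp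
      ring
    linarith

/-- admissibility of the plain pair -/
theorem kL_le {k ν : ℝ} (hk0 : 0 ≤ k) (hk : k ≤ 2 / 5) (hν : 0 < ν) {a q b : ℝ} (ha : 0 < a)
    (ha1 : a < 1) (hq : 0 < q) (hq1 : a * q < 1)
    (hneg : gC (fun z => lK z - k * z) (fun z => lK1 z - k) (fun t => k / 2 * t ^ 2)
        (fun t => k * t) a q + ν * a ^ 2 +
      (min (gD (fun z => lK z - k * z) (fun z => lK1 z - k) (fun t => k * t) a q) 0) ^ 2 /
        (4 * ν) ≤ 0)
    (hb : b ∈ Icc (-1 : ℝ) 1) :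
    gC (fun z => lK z - k * z) (fun z => lK1 z - k) (fun t => k / 2 * t ^ 2) (fun t => k * t) a q +
      gD (fun z => lK z - k * z) (fun z => lK1 z - k) (fun t => k * t) a q * b ≤ kL k ν a b := by
  rcases lt_or_ge 0 b with h | h
  · exact kL_tangent_pos hk0 hk ha ha1 hq hq1 h hb.2
  · exact kL_line_neg hν ha hneg h

/-! ## component test points -/

/-- Abstract component test: `A = M + R` convex, `M` convex, `R` convex between the two points. -/
theorem comp_tangent {I : Set ℝ} {A A' M M' R R' : ℝ → ℝ} {b0 b1 b : ℝ}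
    (hA : ∀ q ∈ I, ∀ b ∈ I, A q + A' q * (b - q) ≤ A b)
    (hM : ∀ q ∈ I, ∀ b ∈ I, M q + M' q * (b - q) ≤ M b)
    (hR : ∀ q ∈ uIcc b0 b1, ∀ b ∈ uIcc b0 b1, R q + R' q * (b - q) ≤ R b)
    (hAe : ∀ q ∈ I, A q = M q + R q) (hAe' : ∀ q ∈ I, A' q = M' q + R' q)
    (h0 : b0 ∈ I) (h1 : b1 ∈ I) (hb : b ∈ I) :
    M b1 + M' b1 * (b - b1) + R b0 + R' b0 * (b - b0) ≤ A b := by
  have c0 : b0 ∈ uIcc b0 b1 := left_mem_uIcc
  have c1 : b1 ∈ uIcc b0 b1 := right_mem_uIcc
  by_cases hseg : b ∈ uIcc b0 b1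
  · have e1 := hM b1 h1 b hb
    have e2 := hR b0 c0 b hseg
    rw [hAe b hb]
    linarith
  · -- products
    have m1 := hM b1 h1 b0 h0
    have m2 := hM b0 h0 b1 h1
    have r1 := hR b1 c1 b0 c0
    have r2 := hR b0 c0 b1 c1
    have hMm : 0 ≤ (M' b0 - M' b1) * (b0 - b1) := by linarith
    have hRm : 0 ≤ (R' b0 - R' b1) * (b0 - b1) := by linarith
    have a0 := hA b0 h0 b hb
    have a1 := hA b1 h1 b hb
    rw [hAe b0 h0, hAe' b0 h0] at a0
    rw [hAe b1 h1, hAe' b1 h1] at a1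
    rcases le_total b0 b1 with h | h
    · rw [uIcc_of_le h, mem_Icc, not_and_or, not_le, not_le] at hseg
      rcases hseg with hlt | hlt
      · -- `b < b0 ≤ b1`
        have : 0 ≤ (M' b0 - M' b1) * (b - b0) := by
          rcases h.eq_or_lt with he | he
          · rw [he]; simp
          · have h3 : M' b0 - M' b1 ≤ 0 := by
              by_contra hc
              push Not at hc
              nlinarith only [m1, m2, he, hc]
            nlinarith only [hlt, h3]
        linarith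
      · -- `b0 ≤ b1 < b`
        have : 0 ≤ (R' b1 - R' b0) * (b - b1) := by
          rcases h.eq_or_lt with he | he
          · rw [he]; simp
          · have h3 : 0 ≤ R' b1 - R' b0 := by
              by_contra hc
              push Not at hc
              nlinarith only [r1, r2, he, hc]
            nlinarith only [hlt, h3]
        linarith
    · rw [uIcc_of_ge h, mem_Icc, not_and_or, not_le, not_le] at hseg
      rcases hseg with hlt | hlt
      · -- `b < b1 ≤ b0`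
        have : 0 ≤ (R' b1 - R' b0) * (b - b1) := by
          rcases h.eq_or_lt with he | he
          · rw [he]; simp
          · have h3 : R' b1 - R' b0 ≤ 0 := by
              by_contra hc
              push Not at hc
              nlinarith only [r1, r2, he, hc]
            nlinarith only [hlt, h3]
        linarith
      · -- `b1 ≤ b0 < b`
        have : 0 ≤ (M' b0 - M' b1) * (b - b0) := by
          rcases h.eq_or_lt with he | he
          · rw [he]; simp
          · have h3 : 0 ≤ M' b0 - M' b1 := by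
              by_contra hc
              push Not at hc
              nlinarith only [m1, m2, he, hc]
            nlinarith only [hlt, h3]
        linarith

/-- component line (`z/2`-part of the kernel tested at `b1`, the rest at `b0`), positive side -/
theorem kL_comp_pos {k ν : ℝ} (hk0 : 0 ≤ k) (hk : k ≤ 2 / 5) {a b0 b1 b : ℝ} (ha : 0 < a)
    (ha1 : a < 1) (h0 : 0 < b0) (h01 : a * b0 < 1) (h1 : 0 < b1) (h11 : a * b1 < 1)
    (hloc : ∀ t ∈ uIcc b0 b1, a / (2 * t) ≤
      gDD (fun z => lK z - k * z) (fun z => lK1 z - k) lK2 (fun _ => k) a t)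
    (hb0 : 0 < b) (hb : b ≤ 1) :
    (gC (fun z => lK z - k * z) (fun z => lK1 z - k) (fun t => k / 2 * t ^ 2) (fun t => k * t) a b0 +
        (a * b0 - a * b1) / 2) +
      (gD (fun z => lK z - k * z) (fun z => lK1 z - k) (fun t => k * t) a b0 +
        a / 2 * Real.log (b1 / b0)) * b ≤ kL k ν a b := by
  set c := 1 / a with hc
  have hlt : ∀ y ∈ Ioo 0 c, a * y < 1 := fun y hy => by
    have := hy.2; rw [hc, lt_div_iff₀ ha] at this; linarith only [this]
  have hmem : ∀ y, 0 < y → a * y < 1 → y ∈ Ioo 0 c := fun y h h' => ⟨h, by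
    rw [hc, lt_div_iff₀ ha]; linarith only [h']⟩
  have hMd : ∀ y, 0 < y → HasDerivAt (fun b => a * b / 2 * Real.log (b / a))
      (a / 2 * (Real.log (y / a) + 1)) y := by
    intro y hy
    have e1 : HasDerivAt (fun b => a * b / 2) (a / 2) y := by
      have := ((hasDerivAt_id y).const_mul a).div_const 2
      simpa only [id_eq, mul_one] using this
    refine (e1.mul (logdiv_hasDerivAt ha hy)).congr_deriv ?_
    (clear * - hy ha; field_simp)
  have hMd2 : ∀ y, 0 < y → HasDerivAt (fun b => a / 2 * (Real.log (b / a) + 1))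
      (a / (2 * y)) y := by
    intro y hy
    refine (((logdiv_hasDerivAt ha hy).add_const 1).const_mul (a / 2)).congr_deriv ?_
    field_simp
  have hgV := fun y (hy : 0 < y) (hy' : a * y < 1) => kL_gV_deriv k ha hy hy'
  have hgD := fun y (hy : 0 < y) (hy' : a * y < 1) => kL_gD_deriv k ha hy hy'
  have hcov : ∀ y ∈ uIcc b0 b1, 0 < y ∧ a * y < 1 := by
    intro y hy
    rw [mem_uIcc] at hy
    rcases hy with hy | hy
    · exact ⟨h0.trans_le hy.1, (mul_le_mul_of_nonneg_left hy.2 ha.le).trans_lt h11⟩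
    · exact ⟨h1.trans_le hy.1, (mul_le_mul_of_nonneg_left hy.2 ha.le).trans_lt h01⟩
  have key := comp_tangent (I := Ioo 0 c) (b0 := b0) (b1 := b1) (b := b)
    (A := gV (fun z => lK z - k * z) (fun t => k / 2 * t ^ 2) a)
    (A' := gD (fun z => lK z - k * z) (fun z => lK1 z - k) (fun t => k * t) a)
    (M := fun b => a * b / 2 * Real.log (b / a)) (M' := fun b => a / 2 * (Real.log (b / a) + 1))
    (R := fun b => gV (fun z => lK z - k * z) (fun t => k / 2 * t ^ 2) a b -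
      a * b / 2 * Real.log (b / a))
    (R' := fun b => gD (fun z => lK z - k * z) (fun z => lK1 z - k) (fun t => k * t) a b -
      a / 2 * (Real.log (b / a) + 1))
    (fun q hq b hb => tangent_le_of_deriv2 (fun y hy => hgV y hy.1 (hlt y hy))
      (fun y hy => hgD y hy.1 (hlt y hy))
      (fun y hy => kL_gDD_nonneg hk0 hk ha ha1.le hy.1 (hlt y hy)) hq hb)
    (fun q hq b hb => tangent_le_of_deriv2 (c := c) (fun y hy => hMd y hy.1)
      (fun y hy => hMd2 y hy.1) (fun y hy => by have := hy.1; positivity) hq hb)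
    ?_ (fun q _ => by ring) (fun q _ => by ring) (hmem b0 h0 h01) (hmem b1 h1 h11)
    (hmem b hb0 (by nlinarith only [ha1, ha, hb]))
  · rw [kL_pos ha hb0]
    have hl : Real.log (b1 / b0) = Real.log (b1 / a) - Real.log (b0 / a) := by
      rw [Real.log_div h1.ne' h0.ne', Real.log_div h1.ne' ha.ne', Real.log_div h0.ne' ha.ne']
      ring
    rw [hl]
    refine le_trans (le_of_eq ?_) key
    unfold gC
    ring
  · intro q hq b hb
    exact tangent_le_of_deriv2' (s := uIcc b0 b1) ordConnected_uIcc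
      (fun y hy => (hgV y (hcov y hy).1 (hcov y hy).2).sub (hMd y (hcov y hy).1))
      (fun y hy => (hgD y (hcov y hy).1 (hcov y hy).2).sub (hMd2 y (hcov y hy).1))
      (fun y hy => sub_nonneg.2 (hloc y hy)) hq hb

/-- local convexity of the remainder `K₁(z) - z/2` for `k = 0` -/
theorem kL_loc0 {a α β t : ℝ} (ha : 0 < a) (hα : 0 < α) (h1 : α ≤ t) (h2 : t ≤ β)
    (hβ : a * β < 1)
    (h : 3 * (1 + Real.sqrt (1 - a * β)) ^ 2 * -Real.log (α / a) ≤
      2 * Real.sqrt (1 - a * β) ^ 2 * (2 + 4 * Real.sqrt (1 - a * β) +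
        2 * Real.sqrt (1 - a * β) ^ 2 + Real.sqrt (1 - a * β) ^ 3)) :
    a / (2 * t) ≤ gDD (fun z => lK z - 0 * z) (fun z => lK1 z - 0) lK2 (fun _ => 0) a t := by
  have ht : 0 < t := hα.trans_le h1
  have hat : a * t < 1 := (mul_le_mul_of_nonneg_left h2 ha.le).trans_lt hβ
  have hz0 : 0 < a * t := mul_pos ha ht
  set s1 := Real.sqrt (1 - a * β) with hs1
  have hs10 : 0 < s1 := Real.sqrt_pos.2 (by linarith only [hβ])
  have hs : s1 ≤ Real.sqrt (1 - a * t) := Real.sqrt_le_sqrt (by nlinarith only [ha, h2])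
  set s := Real.sqrt (1 - a * t) with hsd
  have hs0 : 0 < s := hs10.trans_le hs
  have hsz : a * t = 1 - s ^ 2 := by rw [hsd, Real.sq_sqrt (by linarith only [hat])]; ring
  have hs1' : s < 1 := by nlinarith only [hz0, hsz]
  have hlog : -Real.log (t / a) ≤ -Real.log (α / a) := by
    have : Real.log (α / a) ≤ Real.log (t / a) :=
      Real.log_le_log (by positivity) (by gcongr)
    linarith only [this]
  -- the inequality at `s`
  have hkey : 3 * (1 + s) ^ 2 * -Real.log (t / a) ≤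
      2 * s ^ 2 * (2 + 4 * s + 2 * s ^ 2 + s ^ 3) := by
    rcases le_or_gt 0 (Real.log (t / a)) with hl | hl
    · have h3 : 3 * (1 + s) ^ 2 * -Real.log (t / a) ≤ 0 :=
        mul_nonpos_of_nonneg_of_nonpos (by positivity) (by linarith only [hl])
      have h4 : 0 ≤ 2 * s ^ 2 * (2 + 4 * s + 2 * s ^ 2 + s ^ 3) := by positivity
      linarith only [h3, h4]
    · set X := -Real.log (t / a) with hX
      have hX0 : 0 < X := by rw [hX]; linarith only [hl]
      have h3 : 3 * (1 + s1) ^ 2 * X ≤ 2 * s1 ^ 2 * (2 + 4 * s1 + 2 * s1 ^ 2 + s1 ^ 3) :=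
        (mul_le_mul_of_nonneg_left hlog (by positivity)).trans h
      -- multiply by `s² (1+s)²`
      have h4 : s1 ^ 2 * (1 + s) ^ 2 ≤ s ^ 2 * (1 + s1) ^ 2 := by
        have : s1 * (1 + s) ≤ s * (1 + s1) := by nlinarith only [hs]
        have h5 := pow_le_pow_left₀ (by positivity) this 2
        linarith
      have h5 : 2 + 4 * s1 + 2 * s1 ^ 2 + s1 ^ 3 ≤ 2 + 4 * s + 2 * s ^ 2 + s ^ 3 := by
        have e2 := pow_le_pow_left₀ hs10.le hs 2
        have e3 := pow_le_pow_left₀ hs10.le hs 3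
        linarith only [hs, e2, e3]
      have h6 : 3 * (1 + s1) ^ 2 * X * (1 + s) ^ 2 ≤
          2 * s ^ 2 * (2 + 4 * s + 2 * s ^ 2 + s ^ 3) * (1 + s1) ^ 2 := by
        calc 3 * (1 + s1) ^ 2 * X * (1 + s) ^ 2
            ≤ 2 * s1 ^ 2 * (2 + 4 * s1 + 2 * s1 ^ 2 + s1 ^ 3) * (1 + s) ^ 2 :=
              mul_le_mul_of_nonneg_right h3 (by positivity)
          _ = 2 * (s1 ^ 2 * (1 + s) ^ 2) * (2 + 4 * s1 + 2 * s1 ^ 2 + s1 ^ 3) := by ring
          _ ≤ 2 * (s ^ 2 * (1 + s1) ^ 2) * (2 + 4 * s + 2 * s ^ 2 + s ^ 3) := by (clear * - h4 h5 hβ hat; gcongr)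
          _ = _ := by ring
      have h7 : (3 * (1 + s) ^ 2 * X) * (1 + s1) ^ 2 ≤
          (2 * s ^ 2 * (2 + 4 * s + 2 * s ^ 2 + s ^ 3)) * (1 + s1) ^ 2 := by
        calc _ = 3 * (1 + s1) ^ 2 * X * (1 + s) ^ 2 := by ring
          _ ≤ _ := h6
      exact le_of_mul_le_mul_right h7 (by positivity)
  -- conclusion
  have e : t ^ 2 * (gDD (fun z => lK z - 0 * z) (fun z => lK1 z - 0) lK2 (fun _ => 0) a t -
      a / (2 * t)) = (1 - s) ^ 2 / (4 * s ^ 5) *
        (2 * s ^ 2 * (2 + 4 * s + 2 * s ^ 2 + s ^ 3) + 3 * (1 + s) ^ 2 * Real.log (t / a)) := by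
    have e1 : t ^ 2 * (gDD (fun z => lK z - 0 * z) (fun z => lK1 z - 0) lK2 (fun _ => 0) a t -
      a / (2 * t)) = (a * t) ^ 2 * lK2 (a * t) * Real.log (t / a) + 2 * (a * t * lK1 (a * t)) -
        lK (a * t) - a * t / 2 := by
      unfold gDD
      field_simp
      ring
    rw [e1, hsz, d2lK_eq hs0, dlK_eq hs0, lK_eq hs0]
    field_simp
    ring
  have h8 : 0 ≤ t ^ 2 * (gDD (fun z => lK z - 0 * z) (fun z => lK1 z - 0) lK2 (fun _ => 0) a t -
      a / (2 * t)) := by
    rw [e]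
    apply mul_nonneg (by positivity)
    linarith only [hkey]
  have h9 := nonneg_of_mul_nonneg_right h8 (by positivity)
  linarith only [h9]

/-- the component correction of the integrand, general `E` -/
theorem comp_integrand {m x τ τ' E E' : ℝ} (hτ' : τ' ≠ 0) :
    (m + 1) * (x ^ 2 * (1 - E) / 2) + (τ * (x * (1 - E) - x ^ 2 * E' / 2) +
      (τ' / 2 * Real.log E + τ / 2 * (E' / E))) / τ' =
    (m + 1) * (x ^ 2 * (1 - E) / 2) + Real.log E / 2 +
      τ / τ' * (x * (1 - E) - x ^ 2 * E' / 2 + E' / E / 2) := by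
  field_simp
  ring

/-- the component correction of the integrand for `E = 1 - L`, `L' = u/x`, `τ/τ' = x (1 - w)`,
`w = u/(1+u)` -/
theorem comp_integrand' {m x τ τ' L u w : ℝ} (hτ' : τ' ≠ 0) (hx : x ≠ 0) (hu : 1 + u ≠ 0)
    (hL : 1 - L ≠ 0) (hw : w = u / (1 + u)) (hτ : τ / τ' = x * (1 - w)) :
    (m + 1) * (x ^ 2 * (1 - (1 - L)) / 2) + (τ * (x * (1 - (1 - L)) - x ^ 2 * (-(u / x)) / 2) +
      (τ' / 2 * Real.log (1 - L) + τ / 2 * (-(u / x) / (1 - L)))) / τ' =
    (m + 1) / 2 * x ^ 2 * L + Real.log (1 - L) / 2 +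
      (1 - w) * x ^ 2 * L - w / 2 * (1 / (1 - L) - x ^ 2) := by
  rw [comp_integrand hτ', hτ, hw]
  field_simp
  ring

end Vale.Agent.P237.AllN
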