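import Vale.Agent.P237.AllN.KerL

/-!
# P237, all dimensions: the kernel `K₁(ab) log(b/a)` (`(b²-a²)/16` for `ab ≤ 0`), explicit pairs

Notation of helper143's note 6702: `x` ball variable, `s = √(1-x²)`, `τ = x e^l`,
`c0 = -(1+2l)(1/s-1) + l x²/s³`, `p0 = τ (1/(s(1+s)) - l/s³)`; component test: add
`x²(1-E)/2` to `c0` and `(τ/2) log E` to `p0` (`E = 1 - L`, or any `E > 0`).
-/

open MeasureTheory Metric Set Module Filter Topology

namespace Vale.Agent.P237.AllN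

/-- `A(a,b) = K₁(ab) log(b/a)` for `ab > 0`, `(b²-a²)/16` for `ab ≤ 0`. -/
noncomputable def kA : ℝ → ℝ → ℝ := kL 0 (1 / 16)

theorem kA_kern2 : Kern2 kA := kL_kern2 le_rfl (by norm_num)

theorem kA_pos {a b : ℝ} (ha : 0 < a) (hb : 0 < b) : kA a b = lK (a * b) * Real.log (b / a) := by
  unfold kA
  rw [kL_pos ha hb]
  unfold gV
  simp

theorem kA_nonpos {a b : ℝ} (ha : 0 < a) (hb : b ≤ 0) : kA a b = (b ^ 2 - a ^ 2) / 16 := by
  unfold kA
  rw [kL_nonpos ha hb]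
  ring

/-- intercept -/
noncomputable def kAc (x l : ℝ) : ℝ := -(1 + 2 * l) * (1 / sq x - 1) + l * x ^ 2 / sq x ^ 3

/-- slope -/
noncomputable def kAp (x l : ℝ) : ℝ :=
  x * Real.exp l * (1 / (sq x * (1 + sq x)) - l / sq x ^ 3)

section
variable {x l : ℝ}

theorem sq_facts (hx : x ∈ Ioo (0 : ℝ) 1) : 0 < sq x ∧ sq x < 1 ∧ x ^ 2 = 1 - sq x ^ 2 := by
  have h : 0 < 1 - x ^ 2 := by nlinarith [hx.1, hx.2]
  have h0 : 0 < sq x := Real.sqrt_pos.2 h
  have h2 : sq x ^ 2 = 1 - x ^ 2 := Real.sq_sqrt h.le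
  refine ⟨h0, ?_, by linarith⟩
  nlinarith [hx.1]

theorem kAc_eq (hx : x ∈ Ioo (0 : ℝ) 1) :
    gC (fun z => lK z - 0 * z) (fun z => lK1 z - 0) (fun t => 0 / 2 * t ^ 2) (fun t => 0 * t)
      (x * Real.exp l) (x ^ 2 / (x * Real.exp l)) = kAc x l := by
  obtain ⟨hs0, hs1, hxs⟩ := sq_facts hx
  have hx0 := hx.1
  rw [gC_std _ _ _ _ hx0 (by positivity) rfl]
  have e1 : lK (x ^ 2) = (1 - sq x) / sq x := by rw [hxs]; exact lK_eq hs0
  have e2 : x ^ 2 * lK1 (x ^ 2) = x ^ 2 / (2 * sq x ^ 3) := by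
    have := dlK_eq hs0
    rw [← hxs] at this
    exact this
  unfold kAc
  simp only [zero_mul, zero_div, sub_zero, mul_zero]
  rw [e1, e2]
  field_simp
  ring

theorem kAp_eq (hx : x ∈ Ioo (0 : ℝ) 1) :
    gD (fun z => lK z - 0 * z) (fun z => lK1 z - 0) (fun t => 0 * t)
      (x * Real.exp l) (x ^ 2 / (x * Real.exp l)) = kAp x l := by
  obtain ⟨hs0, hs1, hxs⟩ := sq_facts hx
  have hx0 := hx.1
  rw [gD_std _ _ _ hx0 (by positivity) rfl]
  have e1 : lK (x ^ 2) = (1 - sq x) / sq x := by rw [hxs]; exact lK_eq hs0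
  have e2 : x ^ 2 * lK1 (x ^ 2) = x ^ 2 / (2 * sq x ^ 3) := by
    have := dlK_eq hs0
    rw [← hxs] at this
    exact this
  have e3 : (1 - sq x) = x ^ 2 / (1 + sq x) := by
    rw [hxs]; field_simp; ring
  unfold kAp
  simp only [zero_mul, sub_zero, zero_add]
  rw [e1, e2, e3]
  field_simp

/-- plain pair, `b > 0`: only `τ = x e^l < 1` is needed -/
theorem kA_plain_pos (hx : x ∈ Ioo (0 : ℝ) 1) (hτ : x * Real.exp l < 1) {b : ℝ} (hb0 : 0 < b)
    (hb : b ≤ 1) : kAc x l + kAp x l * b ≤ kA (x * Real.exp l) b := by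
  have hx0 := hx.1
  have hτ0 : 0 < x * Real.exp l := by positivity
  have hz : x * Real.exp l * (x ^ 2 / (x * Real.exp l)) < 1 := by
    rw [mul_div_cancel₀ _ hτ0.ne']; nlinarith [hx.2]
  have h := kL_tangent_pos (k := 0) (ν := 1 / 16) le_rfl (by norm_num) hτ0 hτ
    (q := x ^ 2 / (x * Real.exp l)) (by positivity) hz hb0 hb
  rw [kAc_eq hx, kAp_eq hx] at h
  exact h

/-- component pair, `b > 0` -/
theorem kA_comp_pos {E : ℝ} (hx : x ∈ Ioo (0 : ℝ) 1) (hτ : x * Real.exp l < 1) (hE : 0 < E)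
    (h1 : E ≤ 1 → 3 * (1 + sq x) ^ 2 * (2 * l - Real.log E) ≤
      2 * sq x ^ 2 * (2 + 4 * sq x + 2 * sq x ^ 2 + sq x ^ 3))
    (h2 : 1 ≤ E → x ^ 2 * E < 1 ∧ 3 * (1 + Real.sqrt (1 - x ^ 2 * E)) ^ 2 * (2 * l) ≤
      2 * Real.sqrt (1 - x ^ 2 * E) ^ 2 * (2 + 4 * Real.sqrt (1 - x ^ 2 * E) +
        2 * Real.sqrt (1 - x ^ 2 * E) ^ 2 + Real.sqrt (1 - x ^ 2 * E) ^ 3))
    {b : ℝ} (hb0 : 0 < b) (hb : b ≤ 1) :
    (kAc x l + x ^ 2 * (1 - E) / 2) + (kAp x l + x * Real.exp l / 2 * Real.log E) * b ≤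
      kA (x * Real.exp l) b := by
  have hx0 := hx.1
  set τ := x * Real.exp l with hτd
  have hτ0 : 0 < τ := by positivity
  have hz : τ * (x ^ 2 / τ) = x ^ 2 := by field_simp
  have hz1 : τ * (x ^ 2 / τ * E) = x ^ 2 * E := by field_simp
  have hx1 : x ^ 2 < 1 := by nlinarith [hx.2]
  have hzE : x ^ 2 * E < 1 := by
    rcases le_total E 1 with h | h
    · nlinarith [sq_nonneg x]
    · exact (h2 h).1
  have hq0 : 0 < x ^ 2 / τ := by positivity
  have hl0 : Real.log (x ^ 2 / τ / τ) = -2 * l := std_log hx0 hτd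
  have hl1 : Real.log (x ^ 2 / τ * E / τ) = -2 * l + Real.log E := by
    rw [show x ^ 2 / τ * E / τ = x ^ 2 / τ / τ * E by ring, Real.log_mul (by positivity) hE.ne',
      hl0]
  have h := kL_comp_pos (k := 0) (ν := 1 / 16) le_rfl (by norm_num) hτ0 hτ
    (b0 := x ^ 2 / τ) (b1 := x ^ 2 / τ * E) hq0 (by rw [hz]; exact hx1) (by positivity)
    (by rw [hz1]; exact hzE) ?_ hb0 hb
  · have e1 : gC (fun z => lK z - 0 * z) (fun z => lK1 z - 0) (fun t => 0 / 2 * t ^ 2)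
        (fun t => 0 * t) τ (x ^ 2 / τ) = kAc x l := kAc_eq hx
    have e2 : gD (fun z => lK z - 0 * z) (fun z => lK1 z - 0) (fun t => 0 * t) τ (x ^ 2 / τ) =
        kAp x l := kAp_eq hx
    rw [e1, e2, hz, hz1] at h
    have e3 : x ^ 2 / τ * E / (x ^ 2 / τ) = E := by field_simp
    rw [e3] at h
    refine le_trans (le_of_eq ?_) h
    ring
  · intro t ht
    rcases le_total E 1 with hE1 | hE1
    · -- `b1 ≤ b0`
      have hle : x ^ 2 / τ * E ≤ x ^ 2 / τ := by nlinarith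
      rw [uIcc_of_ge hle] at ht
      refine kL_loc0 (β := x ^ 2 / τ) hτ0 (by positivity : 0 < x ^ 2 / τ * E) ht.1 ht.2
        (by rw [hz]; exact hx1) ?_
      rw [hz, hl1]
      have := h1 hE1
      unfold sq at this
      refine le_trans (le_of_eq ?_) this
      ring
    · have hle : x ^ 2 / τ ≤ x ^ 2 / τ * E := by nlinarith
      rw [uIcc_of_le hle] at ht
      refine kL_loc0 (β := x ^ 2 / τ * E) hτ0 hq0 ht.1 ht.2 (by rw [hz1]; exact hzE) ?_
      rw [hz1, hl0]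
      refine le_trans (le_of_eq ?_) (h2 hE1).2
      ring

/-- negative side, any line: `c + τ²/16 + 4 (p⁻)² ≤ 0` is enough -/
theorem kA_neg {a c p b : ℝ} (ha : 0 < a) (h : c + a ^ 2 / 16 + 4 * (min p 0) ^ 2 ≤ 0)
    (hb : b ≤ 0) : c + p * b ≤ kA a b := by
  refine kL_line_neg (by norm_num) ha ?_ hb
  refine le_trans (le_of_eq ?_) h
  ring

end

end Vale.Agent.P237.AllN
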