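import Vale.Agent.P237.AllN.KerL0

/-!
# P237, all dimensions: lines of the safe kernel `kS` (contact `q ≤ a`) are admissible for `kA`

(helper275's mixture: for one and the same kernel `kA` one may use the `K₁ log` lines and, for
`l ≥ 0`, the lines of `S12`, and all convex combinations.)
-/

open MeasureTheory Metric Set Module Filter Topology

namespace Vale.Agent.P237.AllN

theorem two_log_le {x : ℝ} (hx : 1 ≤ x) : 2 * Real.log x ≤ x - 1 / x := by
  have hd : ∀ y ∈ Ioi (0 : ℝ), HasDerivAt (fun x : ℝ => x - 1 / x - 2 * Real.log x)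
      ((y - 1) ^ 2 / y ^ 2) y := by
    intro y hy
    have hy' : (0 : ℝ) < y := hy
    have h1 : HasDerivAt (fun x : ℝ => 1 / x) (-(y ^ 2)⁻¹) y := by
      simpa only [one_div] using hasDerivAt_inv hy'.ne'
    have h := ((hasDerivAt_id y).sub h1).sub ((Real.hasDerivAt_log hy'.ne').const_mul 2)
    refine h.congr_deriv ?_
    field_simp
    ring
  have hm : MonotoneOn (fun x : ℝ => x - 1 / x - 2 * Real.log x) (Ici 1) := by
    apply monotoneOn_of_deriv_nonneg (convex_Ici 1)
    · intro y hy
      have hy' : (0 : ℝ) < y := lt_of_lt_of_le one_pos hy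
      exact (hd y hy').continuousAt.continuousWithinAt
    · intro y hy
      rw [interior_Ici] at hy
      have hy' : (0 : ℝ) < y := lt_trans one_pos hy
      exact (hd y hy').differentiableAt.differentiableWithinAt
    · intro y hy
      rw [interior_Ici] at hy
      have hy' : (0 : ℝ) < y := lt_trans one_pos hy
      rw [(hd y hy').deriv]
      (clear * - hy'; positivity)
  have h := hm (mem_Ici.2 le_rfl) (mem_Ici.2 hx) hx
  simp only [Real.log_one] at h
  norm_num at h
  simpa only [one_div, ge_iff_le] using h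

/-- `S12 ≤ K₁ log` for `b ≤ a` -/
theorem kS_le_kA_of_le {a b : ℝ} (hb : 0 < b) (hba : b ≤ a) : kS a b ≤ kA a b := by
  have ha : 0 < a := hb.trans_le hba
  rw [kS_pos ha hb, kA_pos ha hb]
  have e1 : kK (a * b) = lK (a * b) - a * b / 2 - 3 * (a * b) ^ 2 / 8 := by
    unfold kK lK; ring
  have hl1 := two_log_le (x := a / b) (by rw [le_div_iff₀ hb]; (clear * - hba; linarith))
  have hl2 := two_log_le (x := (a / b) ^ 2) (by
    apply one_le_pow₀; rw [le_div_iff₀ hb]; linarith only [hba])
  rw [Real.log_pow] at hl2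
  have hlog : Real.log (b / a) = -Real.log (a / b) := by rw [← Real.log_inv, inv_div]
  set Λ := Real.log (a / b) with hΛ
  have h1 : a * b / 2 * Λ ≤ (a ^ 2 - b ^ 2) / 4 := by
    have e : (a ^ 2 - b ^ 2) / 4 = a * b / 4 * (a / b - 1 / (a / b)) := by
      (clear * - ha hb; field_simp)
    rw [e]
    have : 0 ≤ a * b / 4 := by (clear * - ha hb; positivity)
    nlinarith only [hl1, this]
  have h2 : 3 * (a * b) ^ 2 / 8 * Λ ≤ 3 * (a ^ 4 - b ^ 4) / 32 := by
    have e : 3 * (a ^ 4 - b ^ 4) / 32 = 3 * (a * b) ^ 2 / 32 * ((a / b) ^ 2 - 1 / (a / b) ^ 2) := by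
      field_simp
    rw [e]
    have : 0 ≤ 3 * (a * b) ^ 2 / 32 := by positivity
    push_cast at hl2
    nlinarith only [hl2]
  rw [e1, hlog]
  unfold kφ
  linarith

/-- the slope of the `S12` line is nonnegative for contact `q ≤ a` -/
theorem kSd_nonneg {a q : ℝ} (ha : 0 < a) (ha1 : a < 1) (hq : 0 < q) (hqa : q ≤ a) :
    0 ≤ kSd a q := by
  have hq1 : a * q < 1 := by nlinarith
  set z := a * q with hz
  have hz0 : 0 < z := mul_pos ha hq
  have hdK := dK_nonneg hz0 hq1
  have hI2 := kS_I2 hz0 hq1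
  set lam := Real.log (q / a) with hlam
  have hLam : -lam ≤ -Real.log z := by
    have : Real.log z ≤ lam := by
      apply Real.log_le_log hz0
      rw [le_div_iff₀ ha, hz]
      nlinarith only [ha1, hq, hz0]
    linarith only [this]
  have h2 : z * kK1 z * -lam ≤ z * kK1 z * -Real.log z :=
    mul_le_mul_of_nonneg_left hLam hdK
  have hzq : z ≤ q := by rw [hz]; nlinarith only [ha1, hq]
  have hz4 : z ^ 4 ≤ q ^ 4 := pow_le_pow_left₀ hz0.le hzq 4
  have hz2 : z ^ 2 ≤ q ^ 2 := pow_le_pow_left₀ hz0.le hzq 2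
  have hB : z * kK1 z * -lam - kK z ≤ q ^ 2 / 2 + 3 * q ^ 4 / 8 := by linarith only [hI2, h2, hz4, hz2]
  have e : q * kSd a q = q ^ 2 / 2 + 3 * q ^ 4 / 8 - (z * kK1 z * -lam - kK z) := by
    unfold kSd kφ1
    rw [← hz, ← hlam]
    field_simp
    rw [hz]
    ring
  have h : 0 ≤ q * kSd a q := by rw [e]; (clear * - hI2 h2 hz4 hz2; linarith)
  exact nonneg_of_mul_nonneg_right h hq

theorem kSd_diag {a : ℝ} (ha : 0 < a) : kSd a a = lK (a * a) / a := by
  unfold kSd
  rw [div_self ha.ne', Real.log_one]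
  unfold kφ1 kK lK
  field_simp
  ring

/-- **`S12` lines with contact `q ≤ a` are below `kA`.** -/
theorem kS_line_le_kA {a q b : ℝ} (ha : 0 < a) (ha1 : a < 1) (hq : 0 < q) (hqa : q ≤ a)
    (hb : b ∈ Icc (-1 : ℝ) 1) :
    gC kK kK1 kφ kφ1 a q + gD kK kK1 kφ1 a q * b ≤ kA a b := by
  have hq1 : a * q < 1 := by nlinarith
  have hsd : gD kK kK1 kφ1 a q = kSd a q := rfl
  have hs0 := kSd_nonneg ha ha1 hq hqa
  rcases le_or_gt b 0 with hb0 | hb0
  · -- `b ≤ 0`
    have h0 := kS_le ha ha1 hq hq1 (b := 0) ⟨by norm_num, by norm_num⟩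
    rw [kS_nonpos ha le_rfl] at h0
    rw [kA_nonpos ha hb0, hsd]
    rw [hsd] at h0
    have h1 : kSd a q * b ≤ 0 := mul_nonpos_of_nonneg_of_nonpos hs0 hb0
    have h2 : kφ 0 - kφ a ≤ -(a ^ 2 / 16) := by
      unfold kφ
      nlinarith only []
    (clear * - h0 h1 h2; nlinarith [sq_nonneg b])
  · rcases le_total b a with hba | hba
    · exact (kS_le ha ha1 hq hq1 hb).trans (kS_le_kA_of_le hb0 hba)
    · -- `b ≥ a`
      have h0 := kS_le ha ha1 hq hq1 (b := a) ⟨by linarith only [ha], ha1.le⟩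
      have h1 : kS a a = 0 := by
        rw [kS_pos ha ha, div_self ha.ne', Real.log_one]; ring
      rw [h1] at h0
      -- slope monotonicity
      have haa : a * a < 1 := by nlinarith only [ha1, ha]
      have hc := kS_tangent ha ha1 ha haa (b := q) ⟨by linarith only [hq], by linarith⟩
      have hd := kS_tangent ha ha1 hq hq1 (b := a) ⟨by linarith only [ha], ha1.le⟩
      rw [h1] at hd
      rw [div_self ha.ne', Real.log_one, kSd_diag ha, kS_pos ha hq] at hc
      have hmono : kSd a q * (a - q) ≤ lK (a * a) / a * (a - q) := by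
        have e0 : kφ a - kφ a + kK (a * a) * 0 = 0 := by ring
        rw [e0] at hc
        (clear * - hc hd; linarith)
      have hsl : kSd a q * (b - a) ≤ lK (a * a) / a * (b - a) := by
        rcases hqa.eq_or_lt with he | he
        · rw [he, kSd_diag ha]
        · have h3 : kSd a q ≤ lK (a * a) / a := by
            by_contra hcon
            push Not at hcon
            nlinarith only [hc, hd, he, hcon]
          exact mul_le_mul_of_nonneg_right h3 (by linarith only [hba])
      -- tangent of `K₁ log` at `a`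
      have hT := kL_tangent_pos (k := 0) (ν := 1 / 16) le_rfl (by norm_num) ha ha1 ha haa
        (b := b) hb0 hb.2
      have eT : gC (fun z => lK z - 0 * z) (fun z => lK1 z - 0) (fun t => 0 / 2 * t ^ 2)
          (fun t => 0 * t) a a + gD (fun z => lK z - 0 * z) (fun z => lK1 z - 0)
          (fun t => 0 * t) a a * b = lK (a * a) / a * (b - a) := by
        unfold gC gV gD
        rw [div_self ha.ne', Real.log_one]
        field_simp
        ring
      rw [eT] at hT
      have hT' : lK (a * a) / a * (b - a) ≤ kA a b := hT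
      rw [hsd] at h0 ⊢
      nlinarith only [h0, hsl, hT']

/-- the `S12` pair at `q = x²/τ`, `τ = x e^l`, `l ≥ 0` -/
theorem kS_std_le_kA {x l b : ℝ} (hx : x ∈ Ioo (0 : ℝ) 1) (hl : 0 ≤ l)
    (hτ : x * Real.exp l < 1) (hb : b ∈ Icc (-1 : ℝ) 1) :
    gC kK kK1 kφ kφ1 (x * Real.exp l) (x ^ 2 / (x * Real.exp l)) +
      gD kK kK1 kφ1 (x * Real.exp l) (x ^ 2 / (x * Real.exp l)) * b ≤
      kA (x * Real.exp l) b := by
  have hx0 := hx.1
  have h1 : 1 ≤ Real.exp l := Real.one_le_exp hl
  apply kS_line_le_kA (by positivity) hτ (by (clear * - hx0; positivity)) _ hb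
  rw [div_le_iff₀ (by positivity)]
  have : x ≤ x * Real.exp l := by nlinarith only [hx0, h1]
  nlinarith only [h1, this]

end Vale.Agent.P237.AllN
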