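import Vale.Agent.P237.AllN.KerS

/-!
# P237, all dimensions: supporting pairs of kernels `φ(b) - φ(a) + K(ab) log(b/a)`

For `a, q > 0`, `a q < 1`: `gV` = value of the kernel at `(a,q)`, `gD = ∂₂`, `gC = gV - q gD`
(intercept of the tangent line at `q`), `gA = ∂₁`, `gAD = ∂₁∂₂`, `gDD = ∂₂²`.  If `τ, q` are
functions of `x` then `c = gC (τ x) (q x)`, `p = gD (τ x) (q x)` have the derivatives `gC_has`,
`gD_has`, and `g_integrand` is the integrand of the certificate theorem.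
-/

open MeasureTheory Metric Set Module Filter Topology

namespace Vale.Agent.P237.AllN

noncomputable def gV (K φ : ℝ → ℝ) (a q : ℝ) : ℝ := φ q - φ a + K (a * q) * Real.log (q / a)

noncomputable def gD (K K1 φ1 : ℝ → ℝ) (a q : ℝ) : ℝ :=
  φ1 q + a * K1 (a * q) * Real.log (q / a) + K (a * q) / q

noncomputable def gC (K K1 φ φ1 : ℝ → ℝ) (a q : ℝ) : ℝ := gV K φ a q - gD K K1 φ1 a q * q

noncomputable def gA (K K1 φ1 : ℝ → ℝ) (a q : ℝ) : ℝ :=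
  -φ1 a + q * K1 (a * q) * Real.log (q / a) - K (a * q) / a

noncomputable def gAD (K1 K2 : ℝ → ℝ) (a q : ℝ) : ℝ :=
  (a * q * K2 (a * q) + K1 (a * q)) * Real.log (q / a)

noncomputable def gDD (K K1 K2 φ2 : ℝ → ℝ) (a q : ℝ) : ℝ :=
  φ2 q + (a ^ 2 * K2 (a * q) * Real.log (q / a) +
    2 * (a * K1 (a * q) / q) - K (a * q) / q ^ 2)

/-- `K, K1, K2` are the derivatives on `(-∞,1)`, `φ, φ1, φ2` everywhere. -/
structure KData (K K1 K2 φ φ1 φ2 : ℝ → ℝ) : Prop where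
  hK : ∀ z < 1, HasDerivAt K (K1 z) z
  hK1 : ∀ z < 1, HasDerivAt K1 (K2 z) z
  hφ : ∀ t, HasDerivAt φ (φ1 t) t
  hφ1 : ∀ t, HasDerivAt φ1 (φ2 t) t

section
variable {K K1 K2 φ φ1 φ2 : ℝ → ℝ} {τ q : ℝ → ℝ} {τ' q' x : ℝ}

theorem logdiv_has (hτ : HasDerivAt τ τ' x) (hq : HasDerivAt q q' x) (h0 : 0 < τ x)
    (hq0 : 0 < q x) : HasDerivAt (fun x => Real.log (q x / τ x)) (q' / q x - τ' / τ x) x := by
  have h := (hq.div hτ h0.ne').log (by simp only [Pi.div_apply]; (clear * - hq0 h0; positivity))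
  refine h.congr_deriv ?_
  simp only [Pi.div_apply]
  (clear * - h0 hq0; field_simp)

theorem gV_has (H : KData K K1 K2 φ φ1 φ2) (hτ : HasDerivAt τ τ' x) (hq : HasDerivAt q q' x)
    (h0 : 0 < τ x) (hq0 : 0 < q x) (h1 : τ x * q x < 1) :
    HasDerivAt (fun x => gV K φ (τ x) (q x))
      (gA K K1 φ1 (τ x) (q x) * τ' + gD K K1 φ1 (τ x) (q x) * q') x := by
  have hz : HasDerivAt (fun x => τ x * q x) (τ' * q x + τ x * q') x := hτ.mul hq
  have hl := logdiv_has hτ hq h0 hq0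
  have hK : HasDerivAt (fun x => K (τ x * q x)) (K1 (τ x * q x) * (τ' * q x + τ x * q')) x := by
    have h2 : HasDerivAt K (K1 (τ x * q x)) ((fun x => τ x * q x) x) := H.hK _ h1
    exact h2.comp x hz
  have hφq : HasDerivAt (fun x => φ (q x)) (φ1 (q x) * q') x := (H.hφ (q x)).comp x hq
  have hφτ : HasDerivAt (fun x => φ (τ x)) (φ1 (τ x) * τ') x := (H.hφ (τ x)).comp x hτ
  have h := (hφq.sub hφτ).add (hK.mul hl)
  refine h.congr_deriv ?_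
  unfold gA gD
  field_simp
  ring

theorem gD_has (H : KData K K1 K2 φ φ1 φ2) (hτ : HasDerivAt τ τ' x) (hq : HasDerivAt q q' x)
    (h0 : 0 < τ x) (hq0 : 0 < q x) (h1 : τ x * q x < 1) :
    HasDerivAt (fun x => gD K K1 φ1 (τ x) (q x))
      (gAD K1 K2 (τ x) (q x) * τ' + gDD K K1 K2 φ2 (τ x) (q x) * q') x := by
  have hz : HasDerivAt (fun x => τ x * q x) (τ' * q x + τ x * q') x := hτ.mul hq
  have hl := logdiv_has hτ hq h0 hq0
  have hK : HasDerivAt (fun x => K (τ x * q x)) (K1 (τ x * q x) * (τ' * q x + τ x * q')) x := by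
    have h2 : HasDerivAt K (K1 (τ x * q x)) ((fun x => τ x * q x) x) := H.hK _ h1
    exact h2.comp x hz
  have hK1 : HasDerivAt (fun x => K1 (τ x * q x)) (K2 (τ x * q x) * (τ' * q x + τ x * q')) x := by
    have h2 : HasDerivAt K1 (K2 (τ x * q x)) ((fun x => τ x * q x) x) := H.hK1 _ h1
    exact h2.comp x hz
  have hφq : HasDerivAt (fun x => φ1 (q x)) (φ2 (q x) * q') x := (H.hφ1 (q x)).comp x hq
  have h := (hφq.add ((hτ.mul hK1).mul hl)).add (hK.div hq hq0.ne')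
  refine h.congr_deriv ?_
  unfold gAD gDD
  simp only [Pi.mul_apply]
  field_simp
  ring

/-- derivative of the intercept -/
theorem gC_has (H : KData K K1 K2 φ φ1 φ2) (hτ : HasDerivAt τ τ' x) (hq : HasDerivAt q q' x)
    (h0 : 0 < τ x) (hq0 : 0 < q x) (h1 : τ x * q x < 1) :
    HasDerivAt (fun x => gC K K1 φ φ1 (τ x) (q x))
      (gA K K1 φ1 (τ x) (q x) * τ' -
        q x * (gAD K1 K2 (τ x) (q x) * τ' + gDD K K1 K2 φ2 (τ x) (q x) * q')) x := by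
  have h := (gV_has H hτ hq h0 hq0 h1).sub ((gD_has H hτ hq h0 hq0 h1).mul hq)
  refine h.congr_deriv ?_
  ring

end

/-- The `(P)`-integrand `(m+1) c + (τ c' + p')/τ'` for an arbitrary test point. -/
theorem g_integrand (K K1 K2 φ φ1 φ2 : ℝ → ℝ) {m a q τ' q' : ℝ} (hτ' : τ' ≠ 0) :
    (m + 1) * gC K K1 φ φ1 a q +
      (a * (gA K K1 φ1 a q * τ' - q * (gAD K1 K2 a q * τ' + gDD K K1 K2 φ2 a q * q')) +
      (gAD K1 K2 a q * τ' + gDD K K1 K2 φ2 a q * q')) / τ' =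
    (m + 1) * gC K K1 φ φ1 a q + a * gA K K1 φ1 a q +
      (1 - a * q) * (gAD K1 K2 a q + gDD K K1 K2 φ2 a q * (q' / τ')) := by
  field_simp
  ring

theorem std_log {x τ l : ℝ} (hx : 0 < x) (hl : τ = x * Real.exp l) :
    Real.log (x ^ 2 / τ / τ) = -2 * l := by
  have e : x ^ 2 / τ / τ = Real.exp (-2 * l) := by
    rw [hl, show (-2 * l : ℝ) = -(l + l) by ring, Real.exp_neg, Real.exp_add]
    (clear * - hx; field_simp)
  rw [e, Real.log_exp]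

/-- the intercept for the standard test point `q = x²/τ` -/
theorem gC_std (K K1 φ φ1 : ℝ → ℝ) {x τ l : ℝ} (hx : 0 < x) (hτ : 0 < τ)
    (hl : τ = x * Real.exp l) :
    gC K K1 φ φ1 τ (x ^ 2 / τ) = φ (x ^ 2 / τ) - φ τ - x ^ 2 / τ * φ1 (x ^ 2 / τ) -
      2 * l * (K (x ^ 2) - x ^ 2 * K1 (x ^ 2)) - K (x ^ 2) := by
  have hz : τ * (x ^ 2 / τ) = x ^ 2 := by (clear * - hτ hx; field_simp)
  unfold gC gV gD
  rw [hz, std_log hx hl]
  field_simp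
  ring

/-- the slope for the standard test point `q = x²/τ` -/
theorem gD_std (K K1 φ1 : ℝ → ℝ) {x τ l : ℝ} (hx : 0 < x) (hτ : 0 < τ)
    (hl : τ = x * Real.exp l) :
    gD K K1 φ1 τ (x ^ 2 / τ) = φ1 (x ^ 2 / τ) +
      τ / x ^ 2 * (K (x ^ 2) - 2 * l * (x ^ 2 * K1 (x ^ 2))) := by
  have hz : τ * (x ^ 2 / τ) = x ^ 2 := by field_simp
  unfold gD
  rw [hz, std_log hx hl]
  field_simp
  ring

/-- The standard test point `q = x²/τ`: the integrand in terms of `z = x²`, `l = log (τ/x)`,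
`w = 1 - τ / (x τ')`. -/
theorem g_integrand_std (K K1 K2 φ φ1 φ2 : ℝ → ℝ) {m x τ τ' l : ℝ} (hx : 0 < x) (hτ : 0 < τ)
    (hτ' : 0 < τ') (hl : τ = x * Real.exp l) :
    (m + 1) * gC K K1 φ φ1 τ (x ^ 2 / τ) + τ * gA K K1 φ1 τ (x ^ 2 / τ) +
      (1 - τ * (x ^ 2 / τ)) * (gAD K1 K2 τ (x ^ 2 / τ) +
        gDD K K1 K2 φ2 τ (x ^ 2 / τ) * ((2 * x / τ - x ^ 2 * τ' / τ ^ 2) / τ')) =
    (m + 1) * (φ (x ^ 2 / τ) - φ τ - x ^ 2 / τ * φ1 (x ^ 2 / τ) -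
        2 * l * (K (x ^ 2) - x ^ 2 * K1 (x ^ 2)) - K (x ^ 2)) -
      τ * φ1 τ - 2 * l * (x ^ 2 * K1 (x ^ 2)) - K (x ^ 2) +
      (1 - x ^ 2) * (φ2 (x ^ 2 / τ) * (x ^ 2 / τ ^ 2) *
          (1 - 2 * (1 - τ / (x * τ')))) +
      (1 - x ^ 2) / x ^ 2 * (-2 * l * (x ^ 4 * K2 (x ^ 2) + x ^ 2 * K1 (x ^ 2)) +
        (-2 * l * (x ^ 4 * K2 (x ^ 2)) + 2 * (x ^ 2 * K1 (x ^ 2)) - K (x ^ 2)) *
          (1 - 2 * (1 - τ / (x * τ')))) := by
  have hz : τ * (x ^ 2 / τ) = x ^ 2 := by field_simp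
  rw [gC_std K K1 φ φ1 hx hτ hl]
  unfold gA gAD gDD
  rw [hz, std_log hx hl]
  field_simp
  ring

/-! ## `S12` -/

theorem kS_data : KData kK kK1 kK2 kφ kφ1 (fun t => 1 / 2 + 9 * t ^ 2 / 8) where
  hK := fun _ h => kK_hasDerivAt h
  hK1 := fun _ h => kK1_hasDerivAt h
  hφ := kφ_hasDerivAt
  hφ1 := kφ1_hasDerivAt

/-- admissibility of the pair for `S12` -/
theorem kS_le {a q b : ℝ} (ha : 0 < a) (ha1 : a < 1) (hq : 0 < q) (hq1 : a * q < 1)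
    (hb : b ∈ Icc (-1 : ℝ) 1) :
    gC kK kK1 kφ kφ1 a q + gD kK kK1 kφ1 a q * b ≤ kS a b := by
  have h := kS_tangent ha ha1 hq hq1 hb
  have e : gD kK kK1 kφ1 a q = kSd a q := rfl
  unfold gC gV
  rw [e]
  linarith

end Vale.Agent.P237.AllN
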