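import Vale.Agent.P237.AllN.TransDefs

/-!
# P237, all dimensions: polynomial inequalities for the kernels
-/

namespace Vale.Agent.P237.AllN

theorem kS_poly3 {s : ℝ} (h0 : 0 ≤ s) (h1 : s ≤ 1) :
    0 ≤ 20 + 40 * s ^ 1 + (-26) * s ^ 2 + (-12) * s ^ 3 + 40 * s ^ 4 + (-132) * s ^ 5 + (-300) * s ^ 6 + 68 * s ^ 7 + 436 * s ^ 8 + 128 * s ^ 9 + (-180) * s ^ 10 + (-81) * s ^ 11 + 18 * s ^ 12 + 9 * s ^ 13 := by
  rcases le_total s (4/5) with h0' | h0'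
  · have hx : 0 ≤ s := by linarith only [h0]
    have hy : 0 ≤ 4/5 - s := by linarith
    have key : 20 + 40 * s ^ 1 + (-26) * s ^ 2 + (-12) * s ^ 3 + 40 * s ^ 4 + (-132) * s ^ 5 + (-300) * s ^ 6 + 68 * s ^ 7 + 436 * s ^ 8 + 128 * s ^ 9 + (-180) * s ^ 10 + (-81) * s ^ 11 + 18 * s ^ 12 + 9 * s ^ 13 =
        (6103515625 / 16777216 : ℝ) * (4/5 - s) ^ 13 +
        (89111328125 / 16777216 : ℝ) * s ^ 1 * (4/5 - s) ^ 12 +
        (294091796875 / 8388608 : ℝ) * s ^ 2 * (4/5 - s) ^ 11 +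
        (1166201171875 / 8388608 : ℝ) * s ^ 3 * (4/5 - s) ^ 10 +
        (6219404296875 / 16777216 : ℝ) * s ^ 4 * (4/5 - s) ^ 9 +
        (11798743359375 / 16777216 : ℝ) * s ^ 5 * (4/5 - s) ^ 8 +
        (4089406640625 / 4194304 : ℝ) * s ^ 6 * (4/5 - s) ^ 7 +
        (4160994640625 / 4194304 : ℝ) * s ^ 7 * (4/5 - s) ^ 6 +
        (12206241059375 / 16777216 : ℝ) * s ^ 8 * (4/5 - s) ^ 5 +
        (6176605676875 / 16777216 : ℝ) * s ^ 9 * (4/5 - s) ^ 4 +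
        (998648811875 / 8388608 : ℝ) * s ^ 10 * (4/5 - s) ^ 3 +
        (181742393675 / 8388608 : ℝ) * s ^ 11 * (4/5 - s) ^ 2 +
        (30459382685 / 16777216 : ℝ) * s ^ 12 * (4/5 - s) ^ 1 +
        (1140971529 / 16777216 : ℝ) * s ^ 13 := by ring
    rw [key]; (clear * - h0' h0; positivity)
  · have hx : 0 ≤ s - 4/5 := by linarith
    have hy : 0 ≤ 1 - s := by linarith
    have key : 20 + 40 * s ^ 1 + (-26) * s ^ 2 + (-12) * s ^ 3 + 40 * s ^ 4 + (-132) * s ^ 5 + (-300) * s ^ 6 + 68 * s ^ 7 + 436 * s ^ 8 + 128 * s ^ 9 + (-180) * s ^ 10 + (-81) * s ^ 11 + 18 * s ^ 12 + 9 * s ^ 13 =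
        4563886116 * (1 - s) ^ 13 +
        43703766700 * (s - 4/5) ^ 1 * (1 - s) ^ 12 +
        190204076950 * (s - 4/5) ^ 2 * (1 - s) ^ 11 +
        532882275750 * (s - 4/5) ^ 3 * (1 - s) ^ 10 +
        1224092738750 * (s - 4/5) ^ 4 * (1 - s) ^ 9 +
        2660657331250 * (s - 4/5) ^ 5 * (1 - s) ^ 8 +
        5177675250000 * (s - 4/5) ^ 6 * (1 - s) ^ 7 +
        7987348437500 * (s - 4/5) ^ 7 * (1 - s) ^ 6 +
        9105737500000 * (s - 4/5) ^ 8 * (1 - s) ^ 5 +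
        7418648437500 * (s - 4/5) ^ 9 * (1 - s) ^ 4 +
        4190332031250 * (s - 4/5) ^ 10 * (1 - s) ^ 3 +
        1559423828125 * (s - 4/5) ^ 11 * (1 - s) ^ 2 +
        344238281250 * (s - 4/5) ^ 12 * (1 - s) ^ 1 +
        34179687500 * (s - 4/5) ^ 13 := by ring
    rw [key]; (clear * - h1 h0'; positivity)

theorem kS_poly1 {s : ℝ} (h0 : 0 ≤ s) (h1 : s ≤ 1) :
    0 ≤ 240 + 30 * s ^ 1 + (-462) * s ^ 2 + (-294) * s ^ 3 + (-50) * s ^ 4 + 159 * s ^ 5 + 525 * s ^ 6 + 441 * s ^ 7 + (-93) * s ^ 8 + (-261) * s ^ 9 + (-63) * s ^ 10 + 27 * s ^ 11 + 9 * s ^ 12 := by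
  rcases le_total s (4/5) with h0' | h0'
  · have hx : 0 ≤ s := by linarith
    have hy : 0 ≤ 4/5 - s := by linarith
    have key : 240 + 30 * s ^ 1 + (-462) * s ^ 2 + (-294) * s ^ 3 + (-50) * s ^ 4 + 159 * s ^ 5 + 525 * s ^ 6 + 441 * s ^ 7 + (-93) * s ^ 8 + (-261) * s ^ 9 + (-63) * s ^ 10 + 27 * s ^ 11 + 9 * s ^ 12 =
        (3662109375 / 1048576 : ℝ) * (4/5 - s) ^ 12 +
        (88623046875 / 2097152 : ℝ) * s ^ 1 * (4/5 - s) ^ 11 +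
        (482431640625 / 2097152 : ℝ) * s ^ 2 * (4/5 - s) ^ 10 +
        (1556783203125 / 2097152 : ℝ) * s ^ 3 * (4/5 - s) ^ 9 +
        (3298314453125 / 2097152 : ℝ) * s ^ 4 * (4/5 - s) ^ 8 +
        (2395441484375 / 1048576 : ℝ) * s ^ 5 * (4/5 - s) ^ 7 +
        (2411495078125 / 1048576 : ℝ) * s ^ 6 * (4/5 - s) ^ 6 +
        (1656426903125 / 1048576 : ℝ) * s ^ 7 * (4/5 - s) ^ 5 +
        (185248620625 / 262144 : ℝ) * s ^ 8 * (4/5 - s) ^ 4 +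
        (393390538375 / 2097152 : ℝ) * s ^ 9 * (4/5 - s) ^ 3 +
        (53095386725 / 2097152 : ℝ) * s ^ 10 * (4/5 - s) ^ 2 +
        (4357234705 / 2097152 : ℝ) * s ^ 11 * (4/5 - s) ^ 1 +
        (764851973 / 2097152 : ℝ) * s ^ 12 := by ring
    rw [key]; (clear * - h0 h0'; positivity)
  · have hx : 0 ≤ s - 4/5 := by linarith only [h0']
    have hy : 0 ≤ 1 - s := by linarith
    have key : 240 + 30 * s ^ 1 + (-462) * s ^ 2 + (-294) * s ^ 3 + (-50) * s ^ 4 + 159 * s ^ 5 + 525 * s ^ 6 + 441 * s ^ 7 + (-93) * s ^ 8 + (-261) * s ^ 9 + (-63) * s ^ 10 + 27 * s ^ 11 + 9 * s ^ 12 =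
        6118815784 * (1 - s) ^ 12 +
        83067767350 * (s - 4/5) ^ 1 * (1 - s) ^ 11 +
        537726616700 * (s - 4/5) ^ 2 * (1 - s) ^ 10 +
        2162951292000 * (s - 4/5) ^ 3 * (1 - s) ^ 9 +
        5945932442500 * (s - 4/5) ^ 4 * (1 - s) ^ 8 +
        11661523409375 * (s - 4/5) ^ 5 * (1 - s) ^ 7 +
        16633255843750 * (s - 4/5) ^ 6 * (1 - s) ^ 6 +
        17323785781250 * (s - 4/5) ^ 7 * (1 - s) ^ 5 +
        13050962500000 * (s - 4/5) ^ 8 * (1 - s) ^ 4 +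
        6929250000000 * (s - 4/5) ^ 9 * (1 - s) ^ 3 +
        2460312500000 * (s - 4/5) ^ 10 * (1 - s) ^ 2 +
        524511718750 * (s - 4/5) ^ 11 * (1 - s) ^ 1 +
        50781250000 * (s - 4/5) ^ 12 := by ring
    rw [key]; (clear * - h0' h1; positivity)

theorem kS_poly2 {s : ℝ} (h0 : 0 ≤ s) (h1 : s ≤ 1) :
    0 ≤ 120 + (-156) * s ^ 2 + (-120) * s ^ 3 + (-100) * s ^ 4 + 136 * s ^ 5 + 372 * s ^ 6 + 96 * s ^ 7 + (-180) * s ^ 8 + (-81) * s ^ 9 + 18 * s ^ 10 + 9 * s ^ 11 := by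
  · have hx : 0 ≤ s := by linarith
    have hy : 0 ≤ 1 - s := by linarith
    have key : 120 + (-156) * s ^ 2 + (-120) * s ^ 3 + (-100) * s ^ 4 + 136 * s ^ 5 + 372 * s ^ 6 + 96 * s ^ 7 + (-180) * s ^ 8 + (-81) * s ^ 9 + 18 * s ^ 10 + 9 * s ^ 11 =
        120 * (1 - s) ^ 11 +
        1320 * s ^ 1 * (1 - s) ^ 10 +
        6444 * s ^ 2 * (1 - s) ^ 9 +
        18276 * s ^ 3 * (1 - s) ^ 8 +
        32924 * s ^ 4 * (1 - s) ^ 7 +
        38412 * s ^ 5 * (1 - s) ^ 6 +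
        28152 * s ^ 6 * (1 - s) ^ 5 +
        12040 * s ^ 7 * (1 - s) ^ 4 +
        3120 * s ^ 8 * (1 - s) ^ 3 +
        1239 * s ^ 9 * (1 - s) ^ 2 +
        632 * s ^ 10 * (1 - s) ^ 1 +
        114 * s ^ 11 := by ring
    rw [key]; (clear * - h1 h0; positivity)

theorem kK_poly {s : ℝ} (h0 : 0 ≤ s) (h1 : s ≤ 1) :
    0 ≤ 10 + 10 * s ^ 1 + (-33) * s ^ 2 + 7 * s ^ 3 + 26 * s ^ 4 + (-6) * s ^ 5 + (-4) * s ^ 6 := by
  · have hx : 0 ≤ s := by linarith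
    have hy : 0 ≤ 1 - s := by linarith
    have key : 10 + 10 * s ^ 1 + (-33) * s ^ 2 + 7 * s ^ 3 + 26 * s ^ 4 + (-6) * s ^ 5 + (-4) * s ^ 6 =
        10 * (1 - s) ^ 6 +
        70 * s ^ 1 * (1 - s) ^ 5 +
        167 * s ^ 2 * (1 - s) ^ 4 +
        175 * s ^ 3 * (1 - s) ^ 3 +
        99 * s ^ 4 * (1 - s) ^ 2 +
        45 * s ^ 5 * (1 - s) ^ 1 +
        10 * s ^ 6 := by ring
    rw [key]; (clear * - h0 h1; positivity)

end Vale.Agent.P237.AllN
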