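import Vale.Agent.P237.AllN.KerPoly

/-!
# P237, all dimensions: the unconditionally safe kernel `S12` (helper730)

`A(a,b) = φ(b) - φ(a) + K(ab) log(b/a)` for `ab > 0` and `φ(b) - φ(a)` otherwise, where
`φ(t) = t²/4 + 3t⁴/32`, `K(z) = (1-z)^(-1/2) - 1 - z/2 - 3z²/8`.
-/

open MeasureTheory Metric Set Module Filter Topology

namespace Vale.Agent.P237.AllN

/-! ## a Padé bound for the logarithm -/

theorem log_pade {x : ℝ} (hx : 1 ≤ x) :
    Real.log x ≤ (x - 1) * (x ^ 2 + 19 * x + 10) / (3 * (3 * x ^ 2 + 6 * x + 1)) := by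
  have hd : ∀ y ∈ Ioi (0 : ℝ), HasDerivAt
      (fun x : ℝ => (x - 1) * (x ^ 2 + 19 * x + 10) / (3 * (3 * x ^ 2 + 6 * x + 1)) - Real.log x)
      ((y - 1) ^ 5 / (y * (3 * y ^ 2 + 6 * y + 1) ^ 2)) y := by
    intro y hy
    have hy' : (0 : ℝ) < y := hy
    have hD : (3 * (3 * y ^ 2 + 6 * y + 1) : ℝ) ≠ 0 := by positivity
    have h1 : HasDerivAt (fun x : ℝ => (x - 1) * (x ^ 2 + 19 * x + 10))
        (1 * (y ^ 2 + 19 * y + 10) + (y - 1) * (2 * y + 19)) y := by
      have e1 : HasDerivAt (fun x : ℝ => x - 1) 1 y := (hasDerivAt_id y).sub_const 1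
      have e2 : HasDerivAt (fun x : ℝ => x ^ 2 + 19 * x + 10) (2 * y + 19) y := by
        have := (((hasDerivAt_pow 2 y).add ((hasDerivAt_id y).const_mul 19)).add_const 10)
        refine this.congr_deriv ?_
        norm_num
      exact e1.mul e2
    have h2 : HasDerivAt (fun x : ℝ => 3 * (3 * x ^ 2 + 6 * x + 1)) (3 * (6 * y + 6)) y := by
      have := (((((hasDerivAt_pow 2 y).const_mul 3).add
        ((hasDerivAt_id y).const_mul 6)).add_const 1).const_mul (3 : ℝ))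
      refine this.congr_deriv ?_
      norm_num
      ring
    have h3 := (h1.div h2 hD).sub (Real.hasDerivAt_log hy'.ne')
    refine h3.congr_deriv ?_
    field_simp
    ring
  have hm : MonotoneOn
      (fun x : ℝ => (x - 1) * (x ^ 2 + 19 * x + 10) / (3 * (3 * x ^ 2 + 6 * x + 1)) - Real.log x)
      (Ici 1) := by
    apply monotoneOn_of_deriv_nonneg (convex_Ici 1)
    · intro y hy
      have hy' : (0 : ℝ) < y := lt_of_lt_of_le one_pos hy
      exact (hd y hy').continuousAt.continuousWithinAt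
    · intro y hy
      rw [interior_Ici] at hy
      have hy' : (0 : ℝ) < y := lt_trans one_pos hy
      exact (hd y hy').differentiableAt.differentiableWithinAt
    · intro y hy
      rw [interior_Ici] at hy
      have hy1 : (1 : ℝ) < y := hy
      have hy' : (0 : ℝ) < y := lt_trans one_pos hy
      rw [(hd y hy').deriv]
      have : 0 ≤ y - 1 := by linarith
      positivity
  have h := hm (mem_Ici.2 le_rfl) (mem_Ici.2 hx) hx
  simp only [sub_self, zero_mul, zero_div, Real.log_one] at h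
  linarith only [h]

/-- the bound for `log (1/z)`, `z = 1 - s²` -/
theorem neg_log_le {s : ℝ} (h0 : 0 < s) (h1 : s < 1) :
    -Real.log (1 - s ^ 2) ≤ s ^ 2 * (30 - 39 * s ^ 2 + 10 * s ^ 4) /
      (3 * (1 - s ^ 2) * (10 - 8 * s ^ 2 + s ^ 4)) := by
  have hz : 0 < 1 - s ^ 2 := by nlinarith only [h1, h0]
  have hx : 1 ≤ (1 - s ^ 2)⁻¹ := by
    rw [one_le_inv₀ hz]; nlinarith only []
  have h := log_pade hx
  rw [Real.log_inv] at h
  have hD : (0 : ℝ) < 10 - 8 * s ^ 2 + s ^ 4 := by nlinarith only [hz]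
  refine h.trans (le_of_eq ?_)
  have hD2 : (3 * (1 - s ^ 2)⁻¹ ^ 2 + 6 * (1 - s ^ 2)⁻¹ + 1 : ℝ) =
      (10 - 8 * s ^ 2 + s ^ 4) / (1 - s ^ 2) ^ 2 := by
    field_simp
    ring
  rw [hD2]
  field_simp
  ring

/-! ## the functions -/

noncomputable def kφ (t : ℝ) : ℝ := t ^ 2 / 4 + 3 * t ^ 4 / 32

noncomputable def kφ1 (t : ℝ) : ℝ := t / 2 + 3 * t ^ 3 / 8

/-- `K(z) = (1-z)^(-1/2) - 1 - z/2 - 3z²/8` -/
noncomputable def kK (z : ℝ) : ℝ := (Real.sqrt (1 - z))⁻¹ - 1 - z / 2 - 3 * z ^ 2 / 8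

noncomputable def kK1 (z : ℝ) : ℝ := (Real.sqrt (1 - z))⁻¹ ^ 3 / 2 - 1 / 2 - 3 * z / 4

noncomputable def kK2 (z : ℝ) : ℝ := 3 * (Real.sqrt (1 - z))⁻¹ ^ 5 / 4 - 3 / 4

theorem kφ_hasDerivAt (t : ℝ) : HasDerivAt kφ (kφ1 t) t := by
  have h := ((hasDerivAt_pow 2 t).div_const 4).add (((hasDerivAt_pow 4 t).const_mul 3).div_const 32)
  refine h.congr_deriv ?_
  unfold kφ1
  norm_num
  ring

theorem kφ1_hasDerivAt (t : ℝ) : HasDerivAt kφ1 (1 / 2 + 9 * t ^ 2 / 8) t := by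
  have h := ((hasDerivAt_id t).div_const 2).add (((hasDerivAt_pow 3 t).const_mul 3).div_const 8)
  refine h.congr_deriv ?_
  norm_num
  ring

theorem isqrt_hasDerivAt {z : ℝ} (hz : z < 1) :
    HasDerivAt (fun z : ℝ => (Real.sqrt (1 - z))⁻¹) ((Real.sqrt (1 - z))⁻¹ ^ 3 / 2) z := by
  have h1 : HasDerivAt (fun z : ℝ => 1 - z) (-1) z := by
    simpa using (hasDerivAt_id z).const_sub 1
  have hs : 0 < Real.sqrt (1 - z) := Real.sqrt_pos.2 (by linarith)
  have h2 := (h1.sqrt (by linarith : (1 - z) ≠ 0)).inv hs.ne'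
  refine h2.congr_deriv ?_
  field_simp

theorem kK_hasDerivAt {z : ℝ} (hz : z < 1) : HasDerivAt kK (kK1 z) z := by
  have h := (((isqrt_hasDerivAt hz).sub_const 1).sub ((hasDerivAt_id z).div_const 2)).sub
    (((hasDerivAt_pow 2 z).const_mul 3).div_const 8)
  refine h.congr_deriv ?_
  unfold kK1
  norm_num
  ring

theorem kK1_hasDerivAt {z : ℝ} (hz : z < 1) : HasDerivAt kK1 (kK2 z) z := by
  have h := ((((isqrt_hasDerivAt hz).pow 3).div_const 2).sub_const (1 / 2)).sub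
    (((hasDerivAt_id z).const_mul 3).div_const 4)
  refine h.congr_deriv ?_
  unfold kK2
  norm_num
  ring

section
variable {z : ℝ}

theorem kK_eq {s : ℝ} (h0 : 0 < s) :
    kK (1 - s ^ 2) = (1 - s) ^ 3 * (8 + 9 * s + 3 * s ^ 2) / (8 * s) := by
  unfold kK
  rw [sub_sub_cancel, Real.sqrt_sq h0.le]
  field_simp
  ring

theorem dK_eq {s : ℝ} (h0 : 0 < s) :
    (1 - s ^ 2) * kK1 (1 - s ^ 2) =
      (1 - s) ^ 3 * (1 + s) * (2 + 4 * s + 6 * s ^ 2 + 3 * s ^ 3) / (4 * s ^ 3) := by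
  unfold kK1
  rw [sub_sub_cancel, Real.sqrt_sq h0.le]
  field_simp
  ring

theorem d2K_eq {s : ℝ} (h0 : 0 < s) :
    (1 - s ^ 2) ^ 2 * kK2 (1 - s ^ 2) =
      3 * (1 - s ^ 2) ^ 2 * (1 - s ^ 5) / (4 * s ^ 5) := by
  unfold kK2
  rw [sub_sub_cancel, Real.sqrt_sq h0.le]
  field_simp

theorem exists_s {z : ℝ} (h0 : 0 < z) (h1 : z < 1) : ∃ s : ℝ, 0 < s ∧ s < 1 ∧ z = 1 - s ^ 2 := by
  refine ⟨Real.sqrt (1 - z), Real.sqrt_pos.2 (by linarith), ?_, ?_⟩
  · rw [Real.sqrt_lt' one_pos]; linarith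
  · rw [Real.sq_sqrt (by linarith)]; ring

theorem kK_nonneg (h0 : 0 < z) (h1 : z < 1) : 0 ≤ kK z := by
  obtain ⟨s, hs0, hs1, rfl⟩ := exists_s h0 h1
  rw [kK_eq hs0]
  have : 0 ≤ 1 - s := by linarith
  positivity

theorem dK_nonneg (h0 : 0 < z) (h1 : z < 1) : 0 ≤ z * kK1 z := by
  obtain ⟨s, hs0, hs1, rfl⟩ := exists_s h0 h1
  rw [dK_eq hs0]
  have : 0 ≤ 1 - s := by linarith
  positivity

theorem d2K_nonneg (h0 : 0 < z) (h1 : z < 1) : 0 ≤ z ^ 2 * kK2 z := by
  obtain ⟨s, hs0, hs1, rfl⟩ := exists_s h0 h1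
  rw [d2K_eq hs0]
  have : 0 ≤ 1 - s ^ 5 := by
    have := pow_le_one₀ hs0.le hs1.le (n := 5)
    linarith
  positivity

theorem dK_sub_K (h0 : 0 < z) (h1 : z < 1) : 0 ≤ z * kK1 z - kK z := by
  obtain ⟨s, hs0, hs1, rfl⟩ := exists_s h0 h1
  rw [dK_eq hs0, kK_eq hs0]
  have h : 0 ≤ 1 - s := by linarith
  have e : (1 - s) ^ 3 * (1 + s) * (2 + 4 * s + 6 * s ^ 2 + 3 * s ^ 3) / (4 * s ^ 3) -
      (1 - s) ^ 3 * (8 + 9 * s + 3 * s ^ 2) / (8 * s) =
      (1 - s) ^ 3 * (4 + 12 * s + 12 * s ^ 2 + 9 * s ^ 3 + 3 * s ^ 4) / (8 * s ^ 3) := by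
    field_simp
    ring
  rw [e]
  positivity

/-- (I1) -/
theorem kS_I1 (h0 : 0 < z) (h1 : z < 1) :
    (z * kK1 z - kK z) * -Real.log z - kK z ≤ z ^ 2 / 4 + 3 * z ^ 4 / 16 := by
  have hX := dK_sub_K h0 h1
  obtain ⟨s, hs0, hs1, rfl⟩ := exists_s h0 h1
  have hL := mul_le_mul_of_nonneg_left (neg_log_le hs0 hs1) hX
  refine (sub_le_sub_right hL _).trans ?_
  rw [dK_eq hs0, kK_eq hs0]
  have h : 0 ≤ 1 - s := by linarith only [hs1]
  have hD : (0 : ℝ) < 10 - 8 * s ^ 2 + s ^ 4 := by nlinarith only [h0]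
  have hp := kS_poly1 hs0.le hs1.le
  rw [← sub_nonneg]
  have hne : (1 - s ^ 2) ≠ 0 := h0.ne'
  have hne1 : (1 - s) ≠ 0 := by intro h; apply hne; nlinarith only [h]
  have e : (1 - s ^ 2) ^ 2 / 4 + 3 * (1 - s ^ 2) ^ 4 / 16 -
      (((1 - s) ^ 3 * (1 + s) * (2 + 4 * s + 6 * s ^ 2 + 3 * s ^ 3) / (4 * s ^ 3) -
        (1 - s) ^ 3 * (8 + 9 * s + 3 * s ^ 2) / (8 * s)) *
        (s ^ 2 * (30 - 39 * s ^ 2 + 10 * s ^ 4) /
          (3 * (1 - s ^ 2) * (10 - 8 * s ^ 2 + s ^ 4))) -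
        (1 - s) ^ 3 * (8 + 9 * s + 3 * s ^ 2) / (8 * s)) =
      (1 - s) ^ 2 * (240 + 30 * s ^ 1 + (-462) * s ^ 2 + (-294) * s ^ 3 + (-50) * s ^ 4 +
        159 * s ^ 5 + 525 * s ^ 6 + 441 * s ^ 7 + (-93) * s ^ 8 + (-261) * s ^ 9 +
        (-63) * s ^ 10 + 27 * s ^ 11 + 9 * s ^ 12) /
        (48 * s * (1 + s) * (10 - 8 * s ^ 2 + s ^ 4)) := by
    have hf : (1 - s ^ 2) = (1 - s) * (1 + s) := by ring
    obtain ⟨D, hDe⟩ : ∃ D, D = 10 - 8 * s ^ 2 + s ^ 4 := ⟨_, rfl⟩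
    rw [← hDe] at hD ⊢
    rw [hf] at hne ⊢
    field_simp
    rw [hDe]
    ring
  rw [e]
  (clear * - hs1 hp hs0 hD; positivity)

/-- (I2) -/
theorem kS_I2 (h0 : 0 < z) (h1 : z < 1) :
    z * kK1 z * -Real.log z - kK z ≤ z ^ 2 / 2 + 3 * z ^ 4 / 8 := by
  have hX := dK_nonneg h0 h1
  obtain ⟨s, hs0, hs1, rfl⟩ := exists_s h0 h1
  have hL := mul_le_mul_of_nonneg_left (neg_log_le hs0 hs1) hX
  refine (sub_le_sub_right hL _).trans ?_
  rw [dK_eq hs0, kK_eq hs0]
  have h : 0 ≤ 1 - s := by linarith only [hs1]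
  have hD : (0 : ℝ) < 10 - 8 * s ^ 2 + s ^ 4 := by nlinarith only [h0]
  have hp := kS_poly2 hs0.le hs1.le
  rw [← sub_nonneg]
  have hne : (1 - s ^ 2) ≠ 0 := h0.ne'
  have hne1 : (1 - s) ≠ 0 := by intro h; apply hne; nlinarith only [h]
  have e : (1 - s ^ 2) ^ 2 / 2 + 3 * (1 - s ^ 2) ^ 4 / 8 -
      ((1 - s) ^ 3 * (1 + s) * (2 + 4 * s + 6 * s ^ 2 + 3 * s ^ 3) / (4 * s ^ 3) *
        (s ^ 2 * (30 - 39 * s ^ 2 + 10 * s ^ 4) /
          (3 * (1 - s ^ 2) * (10 - 8 * s ^ 2 + s ^ 4))) -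
        (1 - s) ^ 3 * (8 + 9 * s + 3 * s ^ 2) / (8 * s)) =
      (1 - s) ^ 2 * (120 + (-156) * s ^ 2 + (-120) * s ^ 3 + (-100) * s ^ 4 + 136 * s ^ 5 +
        372 * s ^ 6 + 96 * s ^ 7 + (-180) * s ^ 8 + (-81) * s ^ 9 + 18 * s ^ 10 + 9 * s ^ 11) /
        (24 * s * (10 - 8 * s ^ 2 + s ^ 4)) := by
    have hf : (1 - s ^ 2) = (1 - s) * (1 + s) := by ring
    obtain ⟨D, hDe⟩ : ∃ D, D = 10 - 8 * s ^ 2 + s ^ 4 := ⟨_, rfl⟩
    rw [← hDe] at hD ⊢
    rw [hf] at hne ⊢
    field_simp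
    rw [hDe]
    ring
  rw [e]
  (clear * - hs1 hp hs0 hD; positivity)

/-- (I3) -/
theorem kS_I3 (h0 : 0 < z) (h1 : z < 1) :
    z ^ 2 * kK2 z * -Real.log z ≤
      z ^ 2 / 2 + 9 * z ^ 4 / 8 + 2 * (z * kK1 z) - kK z := by
  have hX := d2K_nonneg h0 h1
  obtain ⟨s, hs0, hs1, rfl⟩ := exists_s h0 h1
  have hL := mul_le_mul_of_nonneg_left (neg_log_le hs0 hs1) hX
  refine hL.trans ?_
  rw [dK_eq hs0, kK_eq hs0, d2K_eq hs0]
  have h : 0 ≤ 1 - s := by linarith only [hs1]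
  have hD : (0 : ℝ) < 10 - 8 * s ^ 2 + s ^ 4 := by nlinarith only [h0]
  have hp := kS_poly3 hs0.le hs1.le
  rw [← sub_nonneg]
  have hne : (1 - s ^ 2) ≠ 0 := h0.ne'
  have hne1 : (1 - s) ≠ 0 := by intro h; apply hne; nlinarith only [h]
  have e : (1 - s ^ 2) ^ 2 / 2 + 9 * (1 - s ^ 2) ^ 4 / 8 +
      2 * ((1 - s) ^ 3 * (1 + s) * (2 + 4 * s + 6 * s ^ 2 + 3 * s ^ 3) / (4 * s ^ 3)) -
      (1 - s) ^ 3 * (8 + 9 * s + 3 * s ^ 2) / (8 * s) -
      3 * (1 - s ^ 2) ^ 2 * (1 - s ^ 5) / (4 * s ^ 5) *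
        (s ^ 2 * (30 - 39 * s ^ 2 + 10 * s ^ 4) /
          (3 * (1 - s ^ 2) * (10 - 8 * s ^ 2 + s ^ 4))) =
      (1 - s) ^ 2 * (20 + 40 * s ^ 1 + (-26) * s ^ 2 + (-12) * s ^ 3 + 40 * s ^ 4 +
        (-132) * s ^ 5 + (-300) * s ^ 6 + 68 * s ^ 7 + 436 * s ^ 8 + 128 * s ^ 9 +
        (-180) * s ^ 10 + (-81) * s ^ 11 + 18 * s ^ 12 + 9 * s ^ 13) /
        (8 * s ^ 3 * (10 - 8 * s ^ 2 + s ^ 4)) := by
    have hf : (1 - s ^ 2) = (1 - s) * (1 + s) := by ring
    obtain ⟨D, hDe⟩ : ∃ D, D = 10 - 8 * s ^ 2 + s ^ 4 := ⟨_, rfl⟩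
    rw [← hDe] at hD ⊢
    rw [hf] at hne ⊢
    field_simp
    rw [hDe]
    ring
  rw [e]
  (clear * - hs1 hp hs0 hD; positivity)

end

/-! ## a tangent lemma -/

theorem tangent_le_of_deriv2 {c : ℝ} {g g' g'' : ℝ → ℝ}
    (hg : ∀ b ∈ Ioo 0 c, HasDerivAt g (g' b) b) (hg' : ∀ b ∈ Ioo 0 c, HasDerivAt g' (g'' b) b)
    (hpos : ∀ b ∈ Ioo 0 c, 0 ≤ g'' b) {q b : ℝ} (hq : q ∈ Ioo 0 c) (hb : b ∈ Ioo 0 c) :
    g q + g' q * (b - q) ≤ g b := by
  have hm : MonotoneOn g' (Ioo 0 c) := by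
    apply monotoneOn_of_deriv_nonneg (convex_Ioo 0 c)
    · intro y hy
      exact (hg' y hy).continuousAt.continuousWithinAt
    · intro y hy
      rw [interior_Ioo] at hy
      exact (hg' y hy).differentiableAt.differentiableWithinAt
    · intro y hy
      rw [interior_Ioo] at hy
      rw [(hg' y hy).deriv]
      exact hpos y hy
  rcases lt_trichotomy q b with h | h | h
  · obtain ⟨ξ, hξ, e⟩ := exists_hasDerivAt_eq_slope g g' h
      (fun y hy => (hg y ⟨hq.1.trans_le hy.1, hy.2.trans_lt hb.2⟩).continuousAt.continuousWithinAt)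
      (fun y hy => hg y ⟨hq.1.trans hy.1, hy.2.trans hb.2⟩)
    have h2 : g' q ≤ g' ξ := hm hq ⟨hq.1.trans hξ.1, hξ.2.trans hb.2⟩ hξ.1.le
    have h3 : 0 < b - q := by linarith
    rw [eq_div_iff h3.ne'] at e
    nlinarith only [e, h, h2]
  · subst h; simp
  · obtain ⟨ξ, hξ, e⟩ := exists_hasDerivAt_eq_slope g g' h
      (fun y hy => (hg y ⟨hb.1.trans_le hy.1, hy.2.trans_lt hq.2⟩).continuousAt.continuousWithinAt)
      (fun y hy => hg y ⟨hb.1.trans hy.1, hy.2.trans hq.2⟩)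
    have h2 : g' ξ ≤ g' q := hm ⟨hb.1.trans hξ.1, hξ.2.trans hq.2⟩ hq hξ.2.le
    have h3 : 0 < q - b := by linarith
    rw [eq_div_iff h3.ne'] at e
    nlinarith only [e, h, h2]

/-! ## the kernel -/

/-- the safe kernel -/
noncomputable def kS (a b : ℝ) : ℝ :=
  kφ b - kφ a + if 0 < a * b then kK (a * b) * Real.log (b / a) else 0

/-- the slope of `kS a ·` at `q > 0` -/
noncomputable def kSd (a q : ℝ) : ℝ :=
  kφ1 q + a * kK1 (a * q) * Real.log (q / a) + kK (a * q) / q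

theorem kS_pos {a b : ℝ} (ha : 0 < a) (hb : 0 < b) :
    kS a b = kφ b - kφ a + kK (a * b) * Real.log (b / a) := by
  unfold kS
  rw [if_pos (mul_pos ha hb)]

theorem kS_nonpos {a b : ℝ} (ha : 0 < a) (hb : b ≤ 0) : kS a b = kφ b - kφ a := by
  unfold kS
  rw [if_neg (by nlinarith), add_zero]

theorem logdiv_hasDerivAt {a b : ℝ} (ha : 0 < a) (hb : 0 < b) :
    HasDerivAt (fun b => Real.log (b / a)) (1 / b) b := by
  have h := ((hasDerivAt_id b).div_const a).log (by simp; constructor <;> positivity)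
  refine h.congr_deriv ?_
  simp
  field_simp

theorem kS_deriv {a b : ℝ} (ha : 0 < a) (hb : 0 < b) (hab : a * b < 1) :
    HasDerivAt (fun b => kφ b - kφ a + kK (a * b) * Real.log (b / a)) (kSd a b) b := by
  have h1 : HasDerivAt (fun b => a * b) a b := by
    simpa using (hasDerivAt_id b).const_mul a
  have h2 : HasDerivAt (fun b => kK (a * b)) (kK1 (a * b) * a) b :=
    (kK_hasDerivAt hab).comp b h1
  have h := ((kφ_hasDerivAt b).sub_const (kφ a)).add (h2.mul (logdiv_hasDerivAt ha hb))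
  refine h.congr_deriv ?_
  unfold kSd
  ring

theorem kSd_deriv {a b : ℝ} (ha : 0 < a) (hb : 0 < b) (hab : a * b < 1) :
    HasDerivAt (kSd a) (1 / 2 + 9 * b ^ 2 / 8 + (a ^ 2 * kK2 (a * b) * Real.log (b / a) +
      2 * (a * kK1 (a * b) / b) - kK (a * b) / b ^ 2)) b := by
  have h1 : HasDerivAt (fun b => a * b) a b := by
    simpa using (hasDerivAt_id b).const_mul a
  have h2 : HasDerivAt (fun b => kK (a * b)) (kK1 (a * b) * a) b :=
    (kK_hasDerivAt hab).comp b h1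
  have h3 : HasDerivAt (fun b => kK1 (a * b)) (kK2 (a * b) * a) b :=
    (kK1_hasDerivAt hab).comp b h1
  have h := ((kφ1_hasDerivAt b).add ((h3.const_mul a).mul (logdiv_hasDerivAt ha hb))).add
    (h2.div (hasDerivAt_id b) hb.ne')
  refine h.congr_deriv ?_
  simp only [id]
  field_simp
  ring

/-- **All tangent lines are below the kernel** (on `[-1,1]`, the negative side included). -/
theorem kS_tangent {a q b : ℝ} (ha : 0 < a) (ha1 : a < 1) (hq : 0 < q) (hq1 : a * q < 1)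
    (hb : b ∈ Icc (-1 : ℝ) 1) :
    (kφ q - kφ a + kK (a * q) * Real.log (q / a)) + kSd a q * (b - q) ≤ kS a b := by
  rcases lt_or_ge 0 b with hb0 | hb0
  · rw [kS_pos ha hb0]
    have key := tangent_le_of_deriv2 (c := 1 / a)
      (g := fun b => kφ b - kφ a + kK (a * b) * Real.log (b / a)) (g' := kSd a)
      (g'' := fun b => 1 / 2 + 9 * b ^ 2 / 8 + (a ^ 2 * kK2 (a * b) * Real.log (b / a) +
        2 * (a * kK1 (a * b) / b) - kK (a * b) / b ^ 2))
      (fun y hy => kS_deriv ha hy.1 (by have := hy.2; rw [lt_div_iff₀ ha] at this; linarith))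
      (fun y hy => kSd_deriv ha hy.1 (by have := hy.2; rw [lt_div_iff₀ ha] at this; linarith))
      ?_ (q := q) (b := b) ⟨hq, by rw [lt_div_iff₀ ha]; linarith⟩
      ⟨hb0, by rw [lt_div_iff₀ ha]; nlinarith only [ha1, ha, hb.2]⟩
    · exact key
    · intro y hy
      have hy0 : 0 < y := hy.1
      have hay : a * y < 1 := by have := hy.2; rw [lt_div_iff₀ ha] at this; linarith
      have hz0 : 0 < a * y := mul_pos ha hy0
      have hI := kS_I3 hz0 hay
      have hd := d2K_nonneg hz0 hay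
      have hlog : Real.log (a * y) ≤ Real.log (y / a) := by
        apply Real.log_le_log hz0
        rw [le_div_iff₀ ha]
        nlinarith only [ha1, hy0, hz0]
      have hzy : a * y ≤ y := by nlinarith only [ha1, hy0]
      have h4 : (a * y) ^ 4 ≤ y ^ 4 := pow_le_pow_left₀ hz0.le hzy 4
      have h2 : (a * y) ^ 2 ≤ y ^ 2 := pow_le_pow_left₀ hz0.le hzy 2
      have hmul := mul_le_mul_of_nonneg_left hlog hd
      have key : 0 ≤ y ^ 2 * (1 / 2 + 9 * y ^ 2 / 8 + (a ^ 2 * kK2 (a * y) * Real.log (y / a) +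
          2 * (a * kK1 (a * y) / y) - kK (a * y) / y ^ 2)) := by
        have e : y ^ 2 * (1 / 2 + 9 * y ^ 2 / 8 + (a ^ 2 * kK2 (a * y) * Real.log (y / a) +
          2 * (a * kK1 (a * y) / y) - kK (a * y) / y ^ 2)) =
          y ^ 2 / 2 + 9 * y ^ 4 / 8 + (a * y) ^ 2 * kK2 (a * y) * Real.log (y / a) +
          2 * (a * y * kK1 (a * y)) - kK (a * y) := by
          field_simp
          ring
        rw [e]
        (clear * - hI h4 h2 hmul; linarith)
      exact nonneg_of_mul_nonneg_right key (by positivity)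
  · rw [kS_nonpos ha hb0]
    set z := a * q with hz
    have hz0 : 0 < z := mul_pos ha hq
    have hK := kK_nonneg hz0 hq1
    have hdK := dK_nonneg hz0 hq1
    have hdKK := dK_sub_K hz0 hq1
    set lam := Real.log (q / a) with hlam
    have eS : kSd a q * (b - q) = kφ1 q * (b - q) + (z * kK1 z * lam + kK z) * (b / q - 1) := by
      unfold kSd
      rw [← hz, ← hlam]
      field_simp
      rw [hz]
      ring
    rw [eS]
    have hbq : b / q ≤ 0 := div_nonpos_of_nonpos_of_nonneg hb0 hq.le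
    have eφ : kφ q + kφ1 q * (b - q) - kφ b =
        -((q - b) ^ 2 * (1 / 4 + 3 / 32 * (3 * q ^ 2 + 2 * q * b + b ^ 2))) := by
      unfold kφ kφ1
      ring
    have hφ : kφ q + kφ1 q * (b - q) - kφ b ≤ -((q - b) ^ 2 * (1 / 4 + 3 * q ^ 2 / 16)) := by
      rw [eφ]
      nlinarith only [mul_nonneg (sq_nonneg (q - b)) (sq_nonneg (q + b))]
    rcases le_or_gt 0 lam with hl | hl
    · have h1 : (z * kK1 z * lam + kK z) * (b / q) ≤ 0 :=
        mul_nonpos_of_nonneg_of_nonpos (by (clear * - hdK hl hK; positivity)) hbq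
      have h2 : 0 ≤ (z * kK1 z - kK z) * lam := mul_nonneg hdKK hl
      have h3 : 0 ≤ (q - b) ^ 2 * (1 / 4 + 3 * q ^ 2 / 16) := by (clear * - hq; positivity)
      linarith
    · -- `Λ = -lam > 0`
      have hI1 := kS_I1 hz0 hq1
      have hI2 := kS_I2 hz0 hq1
      have hLam : -lam ≤ -Real.log z := by
        have : Real.log z ≤ lam := by
          apply Real.log_le_log hz0
          rw [le_div_iff₀ ha, hz]
          nlinarith only [ha1, hq, hz0]
        linarith only [this]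
      have h1 : (z * kK1 z - kK z) * -lam ≤ (z * kK1 z - kK z) * -Real.log z :=
        mul_le_mul_of_nonneg_left hLam hdKK
      have h2 : z * kK1 z * -lam ≤ z * kK1 z * -Real.log z :=
        mul_le_mul_of_nonneg_left hLam hdK
      have hzq : z ≤ q := by rw [hz]; nlinarith only [ha1, hq]
      have hz4 : z ^ 4 ≤ q ^ 4 := pow_le_pow_left₀ hz0.le hzq 4
      have hz2 : z ^ 2 ≤ q ^ 2 := pow_le_pow_left₀ hz0.le hzq 2
      have hA : (z * kK1 z - kK z) * -lam - kK z ≤ q ^ 2 / 4 + 3 * q ^ 4 / 16 := by linarith only [hI1, h1, hz4, hz2]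
      have hB : z * kK1 z * -lam - kK z ≤ q ^ 2 / 2 + 3 * q ^ 4 / 8 := by linarith only [hI2, h2, hz4, hz2]
      have hC : (z * kK1 z * -lam - kK z) * (-(b / q)) ≤
          (q ^ 2 / 2 + 3 * q ^ 4 / 8) * (-(b / q)) :=
        mul_le_mul_of_nonneg_right hB (by linarith only [hbq])
      have hD : (q ^ 2 / 2 + 3 * q ^ 4 / 8) * (-(b / q)) =
          -b * (q / 2 + 3 * q ^ 3 / 8) := by
        (clear * - hq; field_simp)
      have hE : 0 ≤ b ^ 2 * (1 / 4 + 3 * q ^ 2 / 16) := by (clear * - hq; positivity)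
      linarith

/-! ## `Kern2` -/

theorem kK_le {z : ℝ} (h0 : 0 < z) (h1 : z < 1) : kK z ≤ z / Real.sqrt (1 - z) := by
  obtain ⟨s, hs0, hs1, rfl⟩ := exists_s h0 h1
  rw [kK_eq hs0, sub_sub_cancel, Real.sqrt_sq hs0.le, div_le_div_iff₀ (by positivity) hs0]
  have h : 0 ≤ 1 - s := by linarith
  have h2 : (1 - s) ^ 2 * (8 + 9 * s + 3 * s ^ 2) ≤ 8 * (1 + s) := by
    nlinarith [mul_nonneg h hs0.le, mul_nonneg (mul_nonneg h hs0.le) hs0.le,
      mul_nonneg (mul_nonneg h h) hs0.le, mul_nonneg (mul_nonneg h h) (mul_nonneg hs0.le hs0.le)]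
  have h3 := mul_le_mul_of_nonneg_left h2 (mul_nonneg h hs0.le)
  linarith

theorem klog_bound_aux {a b : ℝ} (hb : 0 < b) (hba : b ≤ a) (ha1 : a ≤ 1) :
    |kK (a * b) * Real.log (b / a)| ≤ Real.sqrt (1 - a * b) := by
  have ha : 0 < a := hb.trans_le hba
  have hz0 : 0 < a * b := mul_pos ha hb
  have hz1 : a * b ≤ 1 := by nlinarith only [hba, ha1, hb]
  rcases hz1.eq_or_lt with h1 | h1
  · have ha' : a = 1 := by nlinarith only [hba, h1, hb, ha1]
    have hb' : b = 1 := by rw [ha'] at h1; linarith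
    subst ha' hb'
    simp
  · have hK := kK_nonneg hz0 h1
    have hle := kK_le hz0 h1
    have hs : 0 < Real.sqrt (1 - a * b) := Real.sqrt_pos.2 (by linarith)
    have hlog0 : Real.log (b / a) ≤ 0 :=
      Real.log_nonpos (by positivity) (by rw [div_le_one ha]; exact hba)
    have hlog : -Real.log (b / a) ≤ (a - b) / b := by
      rw [← Real.log_inv, inv_div]
      have := Real.log_le_sub_one_of_pos (x := a / b) (by positivity)
      have e : a / b - 1 = (a - b) / b := by field_simp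
      linarith
    rw [abs_mul, abs_of_nonneg hK, abs_of_nonpos hlog0]
    calc kK (a * b) * -Real.log (b / a)
        ≤ (a * b / Real.sqrt (1 - a * b)) * ((a - b) / b) := by
          apply mul_le_mul hle hlog (by linarith)
          positivity
      _ = a * (a - b) / Real.sqrt (1 - a * b) := by field_simp
      _ ≤ (1 - a * b) / Real.sqrt (1 - a * b) := by
          apply div_le_div_of_nonneg_right _ hs.le
          nlinarith only [ha1, hb, hba]
      _ = Real.sqrt (1 - a * b) := by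
          rw [div_eq_iff hs.ne', Real.mul_self_sqrt (by linarith only [h1])]

theorem kS_symm (a b : ℝ) : kS (-a) (-b) = kS a b := by
  unfold kS kφ
  rw [neg_mul_neg, neg_div_neg_eq]
  ring_nf

theorem kS_anti (a b : ℝ) : kS a b = -kS b a := by
  unfold kS
  rw [mul_comm b a]
  split_ifs with h
  · have : Real.log (b / a) = -Real.log (a / b) := by rw [← Real.log_inv, inv_div]
    rw [this]
    ring
  · ring

theorem klog_bound {a b : ℝ} (ha : a ∈ Icc (-1 : ℝ) 1) (hb : b ∈ Icc (-1 : ℝ) 1) :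
    |if 0 < a * b then kK (a * b) * Real.log (b / a) else 0| ≤ Real.sqrt (1 - a * b) := by
  split_ifs with h
  · -- reduce to positive
    have key : ∀ a b : ℝ, a ∈ Icc (-1 : ℝ) 1 → b ∈ Icc (-1 : ℝ) 1 → 0 < a → 0 < b →
        |kK (a * b) * Real.log (b / a)| ≤ Real.sqrt (1 - a * b) := by
      intro a b ha hb ha0 hb0
      rcases le_total b a with hab | hab
      · exact klog_bound_aux hb0 hab ha.2
      · have := klog_bound_aux ha0 hab hb.2
        rw [mul_comm b a] at this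
        have e : Real.log (b / a) = -Real.log (a / b) := by rw [← Real.log_inv, inv_div]
        rw [e, mul_neg, abs_neg]
        exact this
    rcases lt_trichotomy 0 a with h0 | h0 | h0
    · exact key a b ha hb h0 (by by_contra hb'; push Not at hb'; nlinarith)
    · rw [← h0, zero_mul] at h; exact absurd h (lt_irrefl _)
    · have hb0 : b < 0 := by nlinarith only [h, h0]
      have := key (-a) (-b) ⟨by linarith [ha.2], by linarith [ha.1]⟩
        ⟨by linarith [hb.2], by linarith [hb.1]⟩ (by linarith) (by linarith)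
      rwa [neg_mul_neg, neg_div_neg_eq] at this
  · simp

theorem kφ_bd {a : ℝ} (ha : a ∈ Icc (-1 : ℝ) 1) : 0 ≤ kφ a ∧ kφ a ≤ 1 := by
  have h2 : a ^ 2 ≤ 1 := by
    rw [sq_le_one_iff_abs_le_one, abs_le]; exact ha
  have h4 : a ^ 4 ≤ 1 := by nlinarith only [h2]
  unfold kφ
  constructor
  · positivity
  · linarith only [h2, h4]

theorem kK_meas : Measurable kK := by
  unfold kK
  fun_prop

theorem kS_meas : Measurable (Function.uncurry kS) := by
  have e : Function.uncurry kS = fun x : ℝ × ℝ => kφ x.2 - kφ x.1 +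
      if 0 < x.1 * x.2 then kK (x.1 * x.2) * Real.log (x.2 / x.1) else 0 := rfl
  rw [e]
  have hφ : Measurable kφ := by unfold kφ; fun_prop
  refine ((hφ.comp measurable_snd).sub (hφ.comp measurable_fst)).add ?_
  refine Measurable.ite (measurableSet_lt measurable_const (measurable_fst.mul measurable_snd))
    ?_ measurable_const
  exact (kK_meas.comp (measurable_fst.mul measurable_snd)).mul
    (Real.measurable_log.comp (measurable_snd.div measurable_fst))

theorem kS_kern : Kern kS where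
  meas := kS_meas
  bdd := by
    refine ⟨3, fun a ha b hb => ?_⟩
    have h1 := klog_bound ha hb
    have h2 : Real.sqrt (1 - a * b) ≤ 2 := by
      rw [Real.sqrt_le_left (by norm_num)]
      (clear * - ha hb; nlinarith [ha.1, ha.2, hb.1, hb.2])
    have h3 := kφ_bd ha
    have h4 := kφ_bd hb
    unfold kS
    refine (abs_add_le _ _).trans ?_
    have h5 : |kφ b - kφ a| ≤ 1 := by
      rw [abs_le]; constructor <;> linarith only [h3, h4]
    linarith only [h1, h2, h5]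
  anti := fun a _ b _ => kS_anti a b

theorem kS_kern2 : Kern2 kS where
  toKern := kS_kern
  symm := kS_symm
  corner := by
    intro η hη
    -- `δ` with `2δ ≤ 1`, `4 δ + √(2δ) ≤ η`
    refine ⟨min (1 / 2) (min (η / 8) (η ^ 2 / 8)), by positivity, fun a ha b hb => ?_⟩
    set δ := min (1 / 2 : ℝ) (min (η / 8) (η ^ 2 / 8)) with hδ
    have hδ1 : δ ≤ 1 / 2 := min_le_left _ _
    have hδ2 : δ ≤ η / 8 := (min_le_right _ _).trans (min_le_left _ _)
    have hδ3 : δ ≤ η ^ 2 / 8 := (min_le_right _ _).trans (min_le_right _ _)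
    have hδ0 : 0 < δ := by positivity
    have ha' : a ∈ Icc (-1 : ℝ) 1 := ⟨by linarith only [hδ1, ha.1], ha.2⟩
    have hb' : b ∈ Icc (-1 : ℝ) 1 := ⟨by linarith only [hδ1, hb.1], hb.2⟩
    have h1 := klog_bound ha' hb'
    have h2 : Real.sqrt (1 - a * b) ≤ η / 2 := by
      rw [Real.sqrt_le_left (by positivity)]
      nlinarith only [hδ3, hδ1, hδ0, ha.1, hb.1]
    have h5 : |kφ b - kφ a| ≤ η / 2 := by
      have hlip : ∀ a b : ℝ, a ∈ Icc (1 - δ) 1 → b ∈ Icc (1 - δ) 1 → kφ b - kφ a ≤ η / 2 := by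
        intro a b ha hb
        have ha0 : 0 ≤ a := by linarith only [hδ1, ha.1]
        have hb0 : 0 ≤ b := by linarith only [hδ1, hb.1]
        have e2 : b ^ 2 - a ^ 2 ≤ 2 * δ := by nlinarith only [hδ1, hδ0, hb0, ha.1, hb.2]
        have e4 : b ^ 4 - a ^ 4 ≤ 4 * δ := by
          have hb4 : b ^ 4 ≤ 1 := pow_le_one₀ hb0 hb.2
          have ha4 : 1 - 4 * δ ≤ a ^ 4 := by
            have := one_add_mul_le_pow (a := a - 1) (by linarith only [ha0]) 4
            have e : (1 + (a - 1)) ^ 4 = a ^ 4 := by ring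
            rw [e] at this
            push_cast at this
            linarith only [this, ha.1]
          linarith only [hb4, ha4]
        unfold kφ
        linarith only [hδ2, hδ0, e2, e4]
      rw [abs_le]
      constructor
      · have := hlip b a hb ha; linarith only [this]
      · exact hlip a b ha hb
    unfold kS
    refine (abs_add_le _ _).trans ?_
    linarith only [h1, h2, h5]

end Vale.Agent.P237.AllN
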