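import Vale.Agent.P237.AllN.PolyQ

/-!
# Kernel-checked positivity of polynomial expressions on boxes by Kronecker substitution

A polynomial in `(t, τ)` with integer coefficients is represented by its value at `(e, b)`,
`e = b ^ L`, `b` large, together with a bound of the sum of the absolute values of its
coefficients.  Its coefficients are nonnegative if all base-`b` digits of the value are small.
-/

namespace Vale.Agent.P237.AllN.PolyPos

/-! ## norms and widths of coefficient lists -/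

/-- sum of absolute values -/
def nrm1 : List ℤ → ℕ
  | [] => 0
  | a :: p => a.natAbs + nrm1 p

/-- sum of absolute values, two variables -/
def nrm2 : P2 → ℕ
  | [] => 0
  | a :: p => nrm1 a + nrm2 p

theorem nrm1_padd : ∀ p q : List ℤ, nrm1 (padd p q) ≤ nrm1 p + nrm1 q
  | [], q => by simp [padd, addL, nrm1]
  | a :: p, [] => by simp [padd, addL, nrm1]
  | a :: p, b :: q => by
    have h := nrm1_padd p q
    have h1 := Int.natAbs_add_le a b
    simp only [padd, addL, opsZ, nrm1] at h ⊢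
    omega

theorem nrm1_psm (c : ℤ) : ∀ p : List ℤ, nrm1 (psm c p) = c.natAbs * nrm1 p
  | [] => by simp [psm, nrm1]
  | a :: p => by
    have h := nrm1_psm c p
    simp only [psm, List.map_cons, nrm1, Int.natAbs_mul] at h ⊢
    rw [h]
    ring

theorem nrm1_pmul : ∀ p q : List ℤ, nrm1 (pmul p q) ≤ nrm1 p * nrm1 q
  | [], q => by simp [pmul, nrm1]
  | a :: p, q => by
    have h := nrm1_pmul p q
    have h1 := nrm1_padd (psm a q) (0 :: pmul p q)
    rw [nrm1_psm] at h1
    simp only [pmul, nrm1, Int.natAbs_zero, zero_add] at h h1 ⊢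
    calc _ ≤ a.natAbs * nrm1 q + nrm1 (pmul p q) := h1
      _ ≤ a.natAbs * nrm1 q + nrm1 p * nrm1 q := by omega
      _ = (a.natAbs + nrm1 p) * nrm1 q := by ring

theorem nrm2_add : ∀ p q : P2, nrm2 (p2add p q) ≤ nrm2 p + nrm2 q
  | [], q => by simp [p2add, addL, nrm2]
  | a :: p, [] => by simp [p2add, addL, nrm2]
  | a :: p, b :: q => by
    have h := nrm2_add p q
    have h1 := nrm1_padd a b
    simp only [p2add, addL, nrm2, padd] at h h1 ⊢
    have h2 : nrm1 ((opsL opsZ).add a b) = nrm1 (addL opsZ a b) := rfl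
    omega

theorem nrm2_sm (c : ℤ) : ∀ p : P2, nrm2 (p2sm c p) = c.natAbs * nrm2 p
  | [] => by simp [p2sm, nrm2]
  | a :: p => by
    have h := nrm2_sm c p
    simp only [p2sm, List.map_cons, nrm2, nrm1_psm] at h ⊢
    rw [h]
    ring

theorem nrm2_map_pmul (a : List ℤ) : ∀ q : P2, nrm2 (q.map (pmul a)) ≤ nrm1 a * nrm2 q
  | [] => by simp [nrm2]
  | b :: q => by
    have h := nrm2_map_pmul a q
    have h1 := nrm1_pmul a b
    simp only [List.map_cons, nrm2]
    calc _ ≤ nrm1 a * nrm1 b + nrm1 a * nrm2 q := by omega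
      _ = _ := by ring

theorem nrm2_mul : ∀ p q : P2, nrm2 (p2mul p q) ≤ nrm2 p * nrm2 q
  | [], q => by simp [p2mul, nrm2]
  | a :: p, q => by
    have h := nrm2_mul p q
    have h1 := nrm2_add (q.map (pmul a)) ([] :: p2mul p q)
    have h2 := nrm2_map_pmul a q
    simp only [p2mul, nrm2, nrm1, zero_add] at h h1 ⊢
    calc _ ≤ nrm1 a * nrm2 q + nrm2 p * nrm2 q := by omega
      _ = _ := by ring

/-- all rows have length at most `w + 1` -/
def WD (p : P2) (w : ℕ) : Prop := ∀ r ∈ p, r.length ≤ w + 1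

theorem WD.mono {p : P2} {w w' : ℕ} (h : WD p w) (hw : w ≤ w') : WD p w' :=
  fun r hr => (h r hr).trans (by omega)

theorem length_padd : ∀ p q : List ℤ, (padd p q).length = max p.length q.length
  | [], q => by simp [padd, addL]
  | a :: p, [] => by simp [padd, addL]
  | a :: p, b :: q => by
    have h := length_padd p q
    simp only [padd, addL, List.length_cons] at h ⊢
    omega

theorem length_pmul : ∀ (p q : List ℤ) (w w' : ℕ), p.length ≤ w + 1 → q.length ≤ w' + 1 →
    (pmul p q).length ≤ w + w' + 1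
  | [], q, w, w', _, _ => by simp [pmul]
  | a :: p, q, 0, w', h, h' => by
    have hp : p = [] := by
      cases p with
      | nil => rfl
      | cons b p => simp at h
    subst hp
    simp only [pmul, length_padd, psm, List.length_map, List.length_cons, List.length_nil]
    omega
  | a :: p, q, w + 1, w', h, h' => by
    have h1 := length_pmul p q w w' (by simpa using h) h'
    simp only [pmul, length_padd, psm, List.length_map, List.length_cons]
    omega

theorem WD.add : ∀ {p q : P2} {w : ℕ}, WD p w → WD q w → WD (p2add p q) w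
  | [], q, w, _, hq => by simpa [p2add, addL] using hq
  | a :: p, [], w, hp, _ => by simpa [p2add, addL] using hp
  | a :: p, b :: q, w, hp, hq => by
    have h := WD.add (p := p) (q := q) (fun r hr => hp r (by simp [hr]))
      (fun r hr => hq r (by simp [hr]))
    intro r hr
    simp only [p2add, addL, List.mem_cons] at hr
    rcases hr with hr | hr
    · rw [hr]
      have h1 : ((opsL opsZ).add a b).length = (padd a b).length := rfl
      rw [h1, length_padd]
      have := hp a (by simp)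
      have := hq b (by simp)
      omega
    · exact h r hr

theorem WD.sm {c : ℤ} {p : P2} {w : ℕ} (h : WD p w) : WD (p2sm c p) w := by
  intro r hr
  simp only [p2sm, List.mem_map] at hr
  obtain ⟨a, ha, rfl⟩ := hr
  simpa [psm] using h a ha

theorem WD.mul : ∀ {p q : P2} {w w' : ℕ}, WD p w → WD q w' → WD (p2mul p q) (w + w')
  | [], q, w, w', _, _ => by
    intro r hr
    simp [p2mul] at hr
  | a :: p, q, w, w', hp, hq => by
    have h := WD.mul (p := p) (q := q) (fun r hr => hp r (by simp [hr])) hq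
    rw [p2mul]
    apply WD.add
    · intro r hr
      simp only [List.mem_map] at hr
      obtain ⟨b, hb, rfl⟩ := hr
      exact length_pmul a b w w' (hp a (by simp)) (hq b hb)
    · intro r hr
      simp only [List.mem_cons] at hr
      rcases hr with rfl | hr
      · simp
      · exact h r hr

/-! ## digits -/

/-- digit check -/
def dig (b M : ℕ) (fuel : ℕ) : ℕ → Bool :=
  Nat.rec (fun n => Nat.beq n 0)
    (fun _ ih n => Nat.beq n 0 || (Nat.ble (n % b) M && ih (n / b))) fuel

theorem dig_succ (b M f n : ℕ) :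
    dig b M (f + 1) n = (Nat.beq n 0 || (Nat.ble (n % b) M && dig b M f (n / b))) := rfl

theorem dig_zero_right (b M : ℕ) : ∀ f, dig b M f 0 = true
  | 0 => rfl
  | f + 1 => by rw [dig_succ]; rfl

/-- integer evaluation -/
def evZ (b : ℤ) : List ℤ → ℤ
  | [] => 0
  | a :: p => a + b * evZ b p

theorem evZ_cast (b : ℤ) : ∀ p : List ℤ, ((evZ b p : ℤ) : ℝ) = ev1 p b
  | [] => by simp [evZ, ev1, evL]
  | a :: p => by
    have h := evZ_cast b p
    simp only [evZ, ev1, evL] at h ⊢
    push_cast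
    rw [h]

theorem dig_sound {b M : ℕ} (hb : 2 * M < b) : ∀ (p : List ℤ) (f n : ℕ), nrm1 p ≤ M →
    evZ b p = n → dig b M f n = true → ∀ c ∈ p, 0 ≤ c
  | [], _, _, _, _, _ => by simp
  | a :: p, f, n, hM, hn, hd => by
    have hM1 : a.natAbs ≤ M := by simp only [nrm1] at hM; omega
    have hM2 : nrm1 p ≤ M := by simp only [nrm1] at hM; omega
    simp only [evZ] at hn
    have hb0 : (0 : ℤ) < b := by omega
    -- the case `n = 0`
    have hzero : n = 0 → ∀ c ∈ a :: p, 0 ≤ c := by
      intro h0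
      rw [h0] at hn
      have ha : a = 0 := by
        have hdvd : (b : ℤ) ∣ a := ⟨-evZ b p, by push_cast at hn; linarith⟩
        by_contra hne
        have := Int.le_of_dvd (a := (b : ℤ)) (b := a.natAbs) (by omega)
          (by rwa [Int.dvd_natAbs])
        omega
      have hp0 : evZ b p = ((0 : ℕ) : ℤ) := by
        rw [ha] at hn
        push_cast at hn ⊢
        have : (b : ℤ) * evZ b p = 0 := by linarith
        rcases mul_eq_zero.1 this with h | h
        · omega
        · exact h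
      have h := dig_sound hb p 0 0 hM2 hp0 (dig_zero_right b M 0)
      intro c hc
      rcases List.mem_cons.1 hc with rfl | hc
      · omega
      · exact h c hc
    cases f with
    | zero =>
      exact hzero (Nat.eq_of_beq_eq_true hd)
    | succ f =>
      rw [dig_succ, Bool.or_eq_true, Bool.and_eq_true] at hd
      rcases hd with hd | ⟨h1, h2⟩
      · exact hzero (Nat.eq_of_beq_eq_true hd)
      · have h1 := Nat.le_of_ble_eq_true h1
        have hmod : ((n % b : ℕ) : ℤ) = a % b := by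
          push_cast
          rw [← hn]
          exact Int.add_mul_emod_self_left a b (evZ b p)
        have ha0 : 0 ≤ a := by
          by_contra hneg
          have h3 : a % b = a + b := by
            rw [← Int.add_emod_right]
            exact Int.emod_eq_of_lt (by omega) (by omega)
          omega
        have hamod : a % b = a := Int.emod_eq_of_lt ha0 (by omega)
        have hdiv : evZ b p = ((n / b : ℕ) : ℤ) := by
          push_cast
          rw [← hn, Int.add_mul_ediv_left _ _ hb0.ne', Int.ediv_eq_zero_of_lt ha0 (by omega)]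
          ring
        have h := dig_sound hb p f (n / b) hM2 hdiv h2
        intro c hc
        rcases List.mem_cons.1 hc with rfl | hc
        · exact ha0
        · exact h c hc

/-! ## flattening -/

/-- concatenation of the rows padded to length `L` -/
def flat (L : ℕ) : P2 → List ℤ
  | [] => []
  | r :: p => r ++ (List.replicate (L - r.length) 0 ++ flat L p)

theorem ev1_append (a b : List ℤ) (x : ℝ) :
    ev1 (a ++ b) x = ev1 a x + x ^ a.length * ev1 b x := by
  induction a with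
  | nil => simp [ev1_nil]
  | cons c a ih =>
    rw [List.cons_append, ev1_cons, ih, ev1_cons, List.length_cons, pow_succ]
    ring

theorem ev1_replicate (n : ℕ) (x : ℝ) : ev1 (List.replicate n 0) x = 0 := by
  induction n with
  | zero => simp [ev1_nil]
  | succ n ih => rw [List.replicate_succ, ev1_cons, ih]; simp

theorem nrm1_append (a b : List ℤ) : nrm1 (a ++ b) = nrm1 a + nrm1 b := by
  induction a with
  | nil => simp [nrm1]
  | cons c a ih => simp only [List.cons_append, nrm1, ih]; omega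

theorem nrm1_replicate (n : ℕ) : nrm1 (List.replicate n 0) = 0 := by
  induction n with
  | zero => simp [nrm1]
  | succ n ih => simp [List.replicate_succ, nrm1, ih]

theorem ev1_flat {L : ℕ} (b : ℝ) : ∀ {p : P2}, (∀ r ∈ p, r.length ≤ L) →
    ev1 (flat L p) b = ev2 p (b ^ L) b
  | [], _ => by simp [flat, ev1_nil, ev2_nil]
  | r :: p, h => by
    have h1 := h r (by simp)
    rw [flat, ev1_append, ev1_append, ev1_replicate, ev2_cons,
      ev1_flat b (p := p) (fun s hs => h s (by simp [hs])), List.length_replicate, zero_add,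
      ← mul_assoc, ← pow_add]
    congr 3
    omega

theorem nrm1_flat (L : ℕ) : ∀ p : P2, nrm1 (flat L p) = nrm2 p
  | [] => by simp [flat, nrm1, nrm2]
  | r :: p => by
    rw [flat, nrm1_append, nrm1_append, nrm1_replicate, nrm1_flat L p, nrm2]
    omega

theorem mem_flat {L : ℕ} : ∀ {p : P2} {r : List ℤ} {c : ℤ}, r ∈ p → c ∈ r → c ∈ flat L p
  | [], r, c, hr, _ => by simp at hr
  | s :: p, r, c, hr, hc => by
    rw [flat]
    rcases List.mem_cons.1 hr with rfl | hr
    · exact List.mem_append_left _ hc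
    · exact List.mem_append_right _ (List.mem_append_right _ (mem_flat hr hc))

theorem ev2_nonneg {p : P2} (h : ∀ r ∈ p, ∀ c ∈ r, 0 ≤ c) {t s : ℝ} (ht : 0 ≤ t) (hs : 0 ≤ s) :
    0 ≤ ev2 p t s :=
  evL_nonneg ht p fun r hr => evL_nonneg hs r fun c hc => by exact_mod_cast h r hr c hc

/-! ## encoded values -/

/-- encoded value: numerator `N` at `(e, b)`, norm bound `M`, width `w`, denominator
`(1+t)^i (1+τ)^j (d+1)` -/
structure KV where
  N : ℤ
  M : ℕ
  w : ℕ
  i : ℕ
  j : ℕ
  d : ℕ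

/-- semantics -/
def Sem (b e : ℕ) (v : KV) (f : ℝ → ℝ → ℝ) : Prop :=
  ∃ p : P2, WD p v.w ∧ ev2 p e b = v.N ∧ nrm2 p ≤ v.M ∧ ∀ t s : ℝ, 0 ≤ t → 0 ≤ s →
    ev2 p t s = f t s * ((1 + t) ^ v.i * (1 + s) ^ v.j * ((v.d : ℝ) + 1))

/-- constants -/
def KV.c (a : Fr) : KV := ⟨a.n, a.n.natAbs, 0, 0, 0, a.d⟩

/-- `(A + B t) / (D (1 + t))` -/
def KV.x (e : ℕ) (A B : ℤ) (D : ℕ) : KV := ⟨A + B * e, A.natAbs + B.natAbs, 0, 1, 0, D - 1⟩

/-- `(A + B τ) / (D (1 + τ))` -/
def KV.y (b : ℕ) (A B : ℤ) (D : ℕ) : KV := ⟨A + B * b, A.natAbs + B.natAbs, 1, 0, 1, D - 1⟩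

/-- product -/
def KV.mul (p q : KV) : KV :=
  ⟨p.N * q.N, p.M * q.M, p.w + q.w, p.i + q.i, p.j + q.j, (p.d + 1) * (q.d + 1) - 1⟩

/-- multiplier for the common denominator -/
def KV.f (b e i j D : ℕ) (p : KV) : ℕ :=
  (1 + e) ^ (i - p.i) * (1 + b) ^ (j - p.j) * (D / (p.d + 1))

/-- norm of the multiplier -/
def KV.g (i j D : ℕ) (p : KV) : ℕ := 2 ^ (i - p.i) * 2 ^ (j - p.j) * (D / (p.d + 1))

/-- `p + σ q`, `σ = ±1` -/
def KV.lin (b e : ℕ) (σ : ℤ) (p q : KV) : KV :=
  ⟨(KV.f b e (max p.i q.i) (max p.j q.j) (Nat.lcm (p.d + 1) (q.d + 1)) p : ℕ) * p.N +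
      σ * ((KV.f b e (max p.i q.i) (max p.j q.j) (Nat.lcm (p.d + 1) (q.d + 1)) q : ℕ) * q.N),
    KV.g (max p.i q.i) (max p.j q.j) (Nat.lcm (p.d + 1) (q.d + 1)) p * p.M +
      KV.g (max p.i q.i) (max p.j q.j) (Nat.lcm (p.d + 1) (q.d + 1)) q * q.M,
    max (p.w + (max p.j q.j - p.j)) (q.w + (max p.j q.j - q.j)), max p.i q.i, max p.j q.j,
    Nat.lcm (p.d + 1) (q.d + 1) - 1⟩

theorem sem_c (b e : ℕ) (a : Fr) : Sem b e (KV.c a) (fun _ _ => a.R) := by
  refine ⟨[[a.n]], ?_, ?_, ?_, ?_⟩
  · intro r hr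
    simp only [List.mem_singleton] at hr
    subst hr
    simp
  · simp [ev2, ev1, evL, KV.c]
  · simp [nrm2, nrm1, KV.c]
  · intro t s _ _
    have : (a.d : ℝ) + 1 ≠ 0 := by positivity
    simp [ev2, ev1, evL, KV.c, Fr.R]
    field_simp

theorem sem_x (b e : ℕ) (A B : ℤ) {D : ℕ} (hD : 0 < D) :
    Sem b e (KV.x e A B D) (fun t _ => (A + B * t) / (D * (1 + t))) := by
  refine ⟨[[A], [B]], ?_, ?_, ?_, ?_⟩
  · intro r hr
    simp only [List.mem_cons, List.not_mem_nil, or_false] at hr
    rcases hr with rfl | rfl <;> simp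
  · simp [ev2, ev1, evL, KV.x]
    ring
  · simp [nrm2, nrm1, KV.x]
  · intro t s ht _
    have hD' : ((D - 1 : ℕ) : ℝ) + 1 = D := by
      have : D - 1 + 1 = D := by omega
      exact_mod_cast this
    have h1 : (D : ℝ) ≠ 0 := by exact_mod_cast hD.ne'
    have h2 : 1 + t ≠ 0 := by positivity
    simp only [ev2, ev1, evL, KV.x, pow_one, pow_zero, hD']
    field_simp
    ring

theorem sem_y (b e : ℕ) (A B : ℤ) {D : ℕ} (hD : 0 < D) :
    Sem b e (KV.y b A B D) (fun _ s => (A + B * s) / (D * (1 + s))) := by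
  refine ⟨[[A, B]], ?_, ?_, ?_, ?_⟩
  · intro r hr
    simp only [List.mem_cons, List.not_mem_nil, or_false] at hr
    rcases hr with rfl
    simp [KV.y]
  · simp [ev2, ev1, evL, KV.y]
    ring
  · simp [nrm2, nrm1, KV.y]
  · intro t s _ hs
    have hD' : ((D - 1 : ℕ) : ℝ) + 1 = D := by
      have : D - 1 + 1 = D := by omega
      exact_mod_cast this
    have h1 : (D : ℝ) ≠ 0 := by exact_mod_cast hD.ne'
    have h2 : 1 + s ≠ 0 := by positivity
    simp only [ev2, ev1, evL, KV.y, pow_one, pow_zero, hD']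
    field_simp
    ring

theorem sem_mul {b e : ℕ} {v v' : KV} {f g : ℝ → ℝ → ℝ} (h : Sem b e v f) (h' : Sem b e v' g) :
    Sem b e (KV.mul v v') (fun t s => f t s * g t s) := by
  obtain ⟨p, p1, p2, p3, p4⟩ := h
  obtain ⟨q, q1, q2, q3, q4⟩ := h'
  refine ⟨p2mul p q, p1.mul q1, ?_, (nrm2_mul p q).trans (Nat.mul_le_mul p3 q3), ?_⟩
  · rw [ev2_mul, p2, q2]
    simp [KV.mul]
  · intro t s ht hs
    have hd : (((v.d + 1) * (v'.d + 1) - 1 : ℕ) : ℝ) + 1 = ((v.d : ℝ) + 1) * ((v'.d : ℝ) + 1) := by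
      have : (v.d + 1) * (v'.d + 1) - 1 + 1 = (v.d + 1) * (v'.d + 1) :=
        Nat.sub_add_cancel (Nat.mul_pos (by omega) (by omega))
      exact_mod_cast this
    rw [ev2_mul, p4 t s ht hs, q4 t s ht hs]
    simp only [KV.mul, hd, pow_add]
    ring

/-- the polynomial `(1+t)^i (1+τ)^j` -/
theorem powPoly (i j : ℕ) : ∃ p : P2, WD p j ∧ nrm2 p ≤ 2 ^ i * 2 ^ j ∧
    ∀ t s : ℝ, ev2 p t s = (1 + t) ^ i * (1 + s) ^ j := by
  induction i with
  | zero =>
    induction j with
    | zero =>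
      refine ⟨[[1]], ?_, ?_, ?_⟩
      · intro r hr
        simp only [List.mem_singleton] at hr
        subst hr
        simp
      · simp [nrm2, nrm1]
      · intro t s
        simp [ev2, ev1, evL]
    | succ j ih =>
      obtain ⟨p, h1, h2, h3⟩ := ih
      have hV : WD [[1, 1]] 1 := by
        intro r hr
        simp only [List.mem_singleton] at hr
        subst hr
        simp
      refine ⟨p2mul p [[1, 1]], h1.mul hV, ?_, ?_⟩
      · refine (nrm2_mul _ _).trans ?_
        have : nrm2 [[1, 1]] = 2 := rfl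
        rw [this, pow_succ]
        nlinarith
      · intro t s
        rw [ev2_mul, h3]
        simp [ev2, ev1, evL]
        ring
  | succ i ih =>
    obtain ⟨p, h1, h2, h3⟩ := ih
    have hU : WD [[1], [1]] 0 := by
      intro r hr
      simp only [List.mem_cons, List.not_mem_nil, or_false] at hr
      rcases hr with rfl | rfl <;> simp
    refine ⟨p2mul p [[1], [1]], h1.mul hU, ?_, ?_⟩
    · refine (nrm2_mul _ _).trans ?_
      have : nrm2 [[1], [1]] = 2 := rfl
      rw [this, pow_succ]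
      nlinarith
    · intro t s
      rw [ev2_mul, h3]
      simp [ev2, ev1, evL]
      ring

/-- bringing a value to a common denominator -/
theorem sem_scale {b e : ℕ} {v : KV} {f : ℝ → ℝ → ℝ} (h : Sem b e v f) {i j D : ℕ}
    (hi : v.i ≤ i) (hj : v.j ≤ j) (hD : (v.d + 1) ∣ D) :
    ∃ p : P2, WD p (v.w + (j - v.j)) ∧ ev2 p e b = (KV.f b e i j D v : ℕ) * (v.N : ℝ) ∧
      nrm2 p ≤ KV.g i j D v * v.M ∧ ∀ t s : ℝ, 0 ≤ t → 0 ≤ s →
        ev2 p t s = f t s * ((1 + t) ^ i * (1 + s) ^ j * (D : ℝ)) := by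
  obtain ⟨p, p1, p2, p3, p4⟩ := h
  obtain ⟨q, q1, q2, q3⟩ := powPoly (i - v.i) (j - v.j)
  obtain ⟨k, hk⟩ := hD
  have hdiv : D / (v.d + 1) = k := by
    rw [hk]
    exact Nat.mul_div_cancel_left _ (by omega)
  refine ⟨p2sm (k : ℤ) (p2mul p q), (p1.mul q1).sm, ?_, ?_, ?_⟩
  · rw [ev2_sm, ev2_mul, p2, q3]
    simp only [KV.f, hdiv]
    push_cast
    ring
  · rw [nrm2_sm]
    simp only [KV.g, hdiv, Int.natAbs_natCast]
    calc k * nrm2 (p2mul p q) ≤ k * (nrm2 p * nrm2 q) := Nat.mul_le_mul_left _ (nrm2_mul p q)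
      _ ≤ k * (v.M * (2 ^ (i - v.i) * 2 ^ (j - v.j))) :=
          Nat.mul_le_mul_left _ (Nat.mul_le_mul p3 q2)
      _ = _ := by ring
  · intro t s ht hs
    rw [ev2_sm, ev2_mul, q3, p4 t s ht hs]
    have e1 : (1 + t) ^ i = (1 + t) ^ v.i * (1 + t) ^ (i - v.i) := by
      rw [← pow_add]
      congr 1
      omega
    have e2 : (1 + s) ^ j = (1 + s) ^ v.j * (1 + s) ^ (j - v.j) := by
      rw [← pow_add]
      congr 1
      omega
    have e3 : (D : ℝ) = ((v.d : ℝ) + 1) * k := by
      rw [hk]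
      push_cast
      ring
    rw [e1, e2, e3]
    push_cast
    ring

theorem sem_lin {b e : ℕ} {v v' : KV} {f g : ℝ → ℝ → ℝ} {σ : ℤ} (hσ : σ.natAbs = 1)
    (h : Sem b e v f) (h' : Sem b e v' g) :
    Sem b e (KV.lin b e σ v v') (fun t s => f t s + σ * g t s) := by
  have hD0 : 0 < Nat.lcm (v.d + 1) (v'.d + 1) := Nat.lcm_pos (by omega) (by omega)
  obtain ⟨p, p1, p2, p3, p4⟩ := sem_scale h (i := max v.i v'.i) (j := max v.j v'.j)
    (le_max_left _ _) (le_max_left _ _) (Nat.dvd_lcm_left (v.d + 1) (v'.d + 1))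
  obtain ⟨q, q1, q2, q3, q4⟩ := sem_scale h' (i := max v.i v'.i) (j := max v.j v'.j)
    (le_max_right _ _) (le_max_right _ _) (Nat.dvd_lcm_right (v.d + 1) (v'.d + 1))
  refine ⟨p2add p (p2sm σ q), WD.add (p1.mono (le_max_left _ _)) (q1.mono (le_max_right _ _)).sm,
    ?_, ?_, ?_⟩
  · rw [ev2_add, ev2_sm, p2, q2]
    simp [KV.lin]
  · refine (nrm2_add _ _).trans ?_
    rw [nrm2_sm, hσ, one_mul]
    exact Nat.add_le_add p3 q3
  · intro t s ht hs
    rw [ev2_add, ev2_sm, p4 t s ht hs, q4 t s ht hs]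
    have hd : ((Nat.lcm (v.d + 1) (v'.d + 1) - 1 : ℕ) : ℝ) + 1 =
        (Nat.lcm (v.d + 1) (v'.d + 1) : ℕ) := by
      have : Nat.lcm (v.d + 1) (v'.d + 1) - 1 + 1 = Nat.lcm (v.d + 1) (v'.d + 1) := by omega
      exact_mod_cast this
    simp only [KV.lin, hd]
    ring

/-! ## digit check by one bit mask -/

/-- `b` is a power of two, `n` has at most `T` digits in base `b` and all of them are smaller than `b / 2` -/
def msk (b T n : ℕ) : Bool :=
  Nat.ble 2 b && Nat.beq (Nat.land b (b - 1)) 0 && Nat.ble (n + 1) (b ^ T) &&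
    Nat.beq (Nat.land n ((b / 2) * ((b ^ T - 1) / (b - 1)))) 0

theorem msk_dig {k b : ℕ} (hb : b = 2 ^ (k + 1)) : ∀ T n : ℕ, n < b ^ T →
    n &&& ((b / 2) * ∑ i ∈ Finset.range T, b ^ i) = 0 → dig b (b / 2 - 1) T n = true
  | 0, n, hn, _ => by
    have h0 : n = 0 := by
      rw [pow_zero] at hn
      omega
    rw [h0]
    exact dig_zero_right _ _ _
  | T + 1, n, hn, hl => by
    have hb2 : b / 2 = 2 ^ k := by
      rw [hb, pow_succ]
      exact Nat.mul_div_cancel _ (by norm_num)
    have hk : 0 < 2 ^ k := pow_pos (by norm_num) k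
    have hbk : b = 2 * 2 ^ k := by rw [hb, pow_succ, mul_comm]
    have hb0 : 0 < b := by omega
    have hmask : (b / 2) * ∑ i ∈ Finset.range (T + 1), b ^ i =
        b / 2 + b * ((b / 2) * ∑ i ∈ Finset.range T, b ^ i) := by
      rw [Finset.sum_range_succ', pow_zero, Nat.mul_add, mul_one, add_comm]
      congr 1
      rw [Finset.mul_sum, Finset.mul_sum, Finset.mul_sum]
      refine Finset.sum_congr rfl fun i _ => ?_
      rw [pow_succ]
      ring
    rw [hmask] at hl
    have hlt : b / 2 < b := by omega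
    have hdv : (b / 2 + b * ((b / 2) * ∑ i ∈ Finset.range T, b ^ i)) / b =
        (b / 2) * ∑ i ∈ Finset.range T, b ^ i := by
      rw [Nat.add_mul_div_left _ _ hb0, Nat.div_eq_of_lt hlt, zero_add]
    have hmd : (b / 2 + b * ((b / 2) * ∑ i ∈ Finset.range T, b ^ i)) % b = b / 2 := by
      rw [Nat.add_mul_mod_self_left, Nat.mod_eq_of_lt hlt]
    have h1 : n / b &&& ((b / 2) * ∑ i ∈ Finset.range T, b ^ i) = 0 := by
      have h := congrArg (fun z => z / 2 ^ (k + 1)) hl
      simp only [Nat.and_div_two_pow, Nat.zero_div] at h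
      rw [← hb, hdv] at h
      exact h
    have h2 : n % b &&& 2 ^ k = 0 := by
      have h := congrArg (fun z => z % 2 ^ (k + 1)) hl
      simp only [Nat.and_mod_two_pow, Nat.zero_mod] at h
      rw [← hb, hmd, hb2] at h
      exact h
    have h3 : n % b < 2 ^ k := by
      refine Nat.lt_pow_two_of_testBit _ fun i hi => ?_
      rcases Nat.eq_or_lt_of_le hi with h | h
      · rw [Nat.and_two_pow] at h2
        rw [← h]
        rcases Nat.mul_eq_zero.1 h2 with h4 | h4
        · cases hx : (n % b).testBit k with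
          | false => rfl
          | true =>
            rw [hx] at h4
            exact absurd h4 (by decide)
        · omega
      · refine Nat.testBit_lt_two_pow (lt_of_lt_of_le (Nat.mod_lt _ hb0) ?_)
        rw [hb]
        exact Nat.pow_le_pow_right (by norm_num) h
    have h5 : n / b < b ^ T := by
      rw [pow_succ, mul_comm] at hn
      exact Nat.div_lt_of_lt_mul hn
    have h6 := msk_dig hb T (n / b) h5 h1
    rw [dig_succ, Bool.or_eq_true, Bool.and_eq_true]
    exact Or.inr ⟨Nat.ble_eq_true_of_le (by omega), h6⟩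

theorem msk_sound {b M T n : ℕ} (h : msk b T n = true) (hM : 2 * M + 1 ≤ b) :
    2 * (b / 2 - 1) < b ∧ M ≤ b / 2 - 1 ∧ dig b (b / 2 - 1) T n = true := by
  simp only [msk, Bool.and_eq_true] at h
  obtain ⟨⟨⟨h1, h2⟩, h3⟩, h4⟩ := h
  have h1 := Nat.le_of_ble_eq_true h1
  have h2 : b &&& (b - 1) = 0 := Nat.eq_of_beq_eq_true h2
  have h3 := Nat.le_of_ble_eq_true h3
  have h4 : n &&& ((b / 2) * ((b ^ T - 1) / (b - 1))) = 0 := Nat.eq_of_beq_eq_true h4
  obtain ⟨k, hk⟩ := (Nat.and_sub_one_eq_zero_iff_isPowerOfTwo (by omega)).1 h2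
  obtain ⟨j, rfl⟩ : ∃ j, k = j + 1 := by
    cases k with
    | zero => omega
    | succ j => exact ⟨j, rfl⟩
  rw [← Nat.geomSum_eq h1] at h4
  have h5 := msk_dig hk T n (by omega) h4
  have h6 : b = 2 * 2 ^ j := by rw [hk, pow_succ, mul_comm]
  have h7 : 0 < 2 ^ j := pow_pos (by norm_num) j
  exact ⟨by omega, by omega, h5⟩

/-- positivity check -/
def KV.nn (b L fuel : ℕ) (v : KV) : Bool :=
  Nat.ble (2 * v.M + 1) b && Nat.ble (v.w + 1) L && decide (0 ≤ v.N) &&
    (msk b (L * v.i + v.w + 2) v.N.toNat || dig b v.M fuel v.N.toNat)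

theorem nn_sound {b L fuel : ℕ} {v : KV} {f : ℝ → ℝ → ℝ} (h : Sem b (b ^ L) v f)
    (hc : KV.nn b L fuel v = true) {t s : ℝ} (ht : 0 ≤ t) (hs : 0 ≤ s) : 0 ≤ f t s := by
  simp only [KV.nn, Bool.and_eq_true, Bool.or_eq_true, decide_eq_true_eq] at hc
  obtain ⟨⟨⟨c1, c2⟩, c3⟩, c4⟩ := hc
  have c1 := Nat.le_of_ble_eq_true c1
  have c2 := Nat.le_of_ble_eq_true c2
  obtain ⟨p, p1, p2, p3, p4⟩ := h
  have hlen : ∀ r ∈ p, r.length ≤ L := fun r hr => (p1 r hr).trans c2
  have hev : evZ (b : ℤ) (flat L p) = v.N := by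
    have h1 := evZ_cast (b : ℤ) (flat L p)
    have h2 := ev1_flat (L := L) (b : ℝ) hlen
    have h3 : ((evZ (b : ℤ) (flat L p) : ℤ) : ℝ) = (v.N : ℝ) := by
      rw [h1, ← p2]
      push_cast
      rw [h2]
    exact_mod_cast h3
  have hev' : evZ (b : ℤ) (flat L p) = ((v.N.toNat : ℕ) : ℤ) := by
    rw [hev]
    omega
  have hco : ∀ c ∈ flat L p, 0 ≤ c := by
    rcases c4 with c4 | c4
    · obtain ⟨d1, d2, d3⟩ := msk_sound c4 c1
      exact dig_sound (b := b) (M := b / 2 - 1) d1 (flat L p) _ v.N.toNat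
        (by rw [nrm1_flat]; exact p3.trans d2) hev' d3
    · exact dig_sound (b := b) (M := v.M) (by omega) (flat L p) fuel v.N.toNat
        (by rw [nrm1_flat]; exact p3) hev' c4
  have h5 : 0 ≤ ev2 p t s := ev2_nonneg (fun r hr c hc => hco c (mem_flat hr hc)) ht hs
  rw [p4 t s ht hs] at h5
  have h6 : 0 < (1 + t) ^ v.i * (1 + s) ^ v.j * ((v.d : ℝ) + 1) := by positivity
  exact nonneg_of_mul_nonneg_left h5 h6

end Vale.Agent.P237.AllN.PolyPos
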