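import Vale.Agent.P237.AllN.TruncB
import Vale.Agent.P237.AllN.ApriNum

/-!
# P237, all dimensions: `l ≤ (1 - x²)(31/50 + 7/50 x²)` under the constraint, checked by the kernel

For fixed `m` the truncated linear comparison is a finite number of integer inequalities.
-/

open MeasureTheory Metric Set Module Filter Topology Real

namespace Vale.Agent.P237.AllN

/-- the upper bound -/
noncomputable def lsX (x : ℝ) : ℝ := x * exp ((1 - x ^ 2) * (31 / 50 + 7 / 50 * x ^ 2))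

theorem lsX_mono {x y : ℝ} (hx : 0 < x) (hxy : x ≤ y) (hy : y ^ 2 ≤ 73 / 100) :
    lsX x ≤ lsX y := by
  have hy0 : 0 < y := hx.trans_le hxy
  unfold lsX
  set w : ℝ := (1 - x ^ 2) * (31 / 50 + 7 / 50 * x ^ 2) - (1 - y ^ 2) * (31 / 50 + 7 / 50 * y ^ 2)
    with hw
  have h1 : w ≤ (y ^ 2 - x ^ 2) / (2 * y ^ 2) := by
    rw [le_div_iff₀ (by positivity)]
    have h2 : w = (y ^ 2 - x ^ 2) * (12 / 25 + 7 / 50 * (x ^ 2 + y ^ 2)) := by
      rw [hw]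
      ring
    have h3 : 0 ≤ y ^ 2 - x ^ 2 := by nlinarith
    have h4 : (12 / 25 + 7 / 50 * (x ^ 2 + y ^ 2)) * (2 * y ^ 2) ≤ 1 := by nlinarith [sq_nonneg x]
    rw [h2, mul_assoc]
    nlinarith
  have h5 : x / y ≤ exp (-w) := by
    have h6 := add_one_le_exp (-w)
    have h7 : x / y ≤ 1 - (y ^ 2 - x ^ 2) / (2 * y ^ 2) := by
      rw [div_le_iff₀ hy0]
      have e : (1 - (y ^ 2 - x ^ 2) / (2 * y ^ 2)) * y = (y ^ 2 + x ^ 2) / (2 * y) := by
        field_simp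
        ring
      rw [e, le_div_iff₀ (by positivity)]
      nlinarith [sq_nonneg (y - x)]
    linarith
  rw [div_le_iff₀ hy0] at h5
  have h8 : exp ((1 - x ^ 2) * (31 / 50 + 7 / 50 * x ^ 2)) =
      exp w * exp ((1 - y ^ 2) * (31 / 50 + 7 / 50 * y ^ 2)) := by
    rw [← Real.exp_add]
    congr 1
    rw [hw]
    ring
  rw [h8]
  have h9 : exp w * exp (-w) = 1 := by
    rw [← Real.exp_add]
    simp
  have h10 : 0 < exp w := exp_pos _
  have h11 : x * exp w ≤ y := by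
    calc x * exp w ≤ exp (-w) * y * exp w := mul_le_mul_of_nonneg_right h5 h10.le
      _ = y * (exp w * exp (-w)) := by ring
      _ = y := by rw [h9, mul_one]
  calc x * (exp w * exp ((1 - y ^ 2) * (31 / 50 + 7 / 50 * y ^ 2)))
      = x * exp w * exp ((1 - y ^ 2) * (31 / 50 + 7 / 50 * y ^ 2)) := by ring
    _ ≤ y * exp ((1 - y ^ 2) * (31 / 50 + 7 / 50 * y ^ 2)) :=
        mul_le_mul_of_nonneg_right h11 (exp_pos _).le

theorem ls_exp_lower {t : ℝ} (ht : 0 ≤ t) :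
    1 + t + t ^ 2 / 2 + t ^ 3 / 6 + t ^ 4 / 24 ≤ exp t := by
  have h := Real.sum_le_exp_of_nonneg ht 5
  simp [Finset.sum_range_succ, Nat.factorial] at h
  linarith

theorem lsX_712 : 1 ≤ lsX (712 / 1000) := by
  unfold lsX
  have h := ls_exp_lower (t := (1 - (712 / 1000) ^ 2) * (31 / 50 + 7 / 50 * (712 / 1000 : ℝ) ^ 2))
    (by norm_num)
  have h2 : (1 : ℝ) ≤ 712 / 1000 * (1 + (1 - (712 / 1000) ^ 2) * (31 / 50 + 7 / 50 * (712 / 1000 : ℝ) ^ 2) +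
      ((1 - (712 / 1000) ^ 2) * (31 / 50 + 7 / 50 * (712 / 1000 : ℝ) ^ 2)) ^ 2 / 2 +
      ((1 - (712 / 1000) ^ 2) * (31 / 50 + 7 / 50 * (712 / 1000 : ℝ) ^ 2)) ^ 3 / 6 +
      ((1 - (712 / 1000) ^ 2) * (31 / 50 + 7 / 50 * (712 / 1000 : ℝ) ^ 2)) ^ 4 / 24) := by
    norm_num
  nlinarith

theorem lsX_ge_one {x : ℝ} (hx : 712 / 1000 ≤ x) (hx1 : x < 1) : 1 ≤ lsX x := by
  rcases le_total (x ^ 2) (73 / 100) with h | h
  · exact lsX_712.trans (lsX_mono (by norm_num) hx h)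
  · unfold lsX
    have h1 := add_one_le_exp ((1 - x ^ 2) * (31 / 50 + 7 / 50 * x ^ 2))
    have h2 : 85 / 100 ≤ x := by nlinarith
    have h3 : 0 ≤ 1 - x ^ 2 := by nlinarith
    have h4 : 1 ≤ x * ((1 - x ^ 2) * (31 / 50 + 7 / 50 * x ^ 2) + 1) := by
      have h5 : (1 - x ^ 2) * (72 / 100) ≤ (1 - x ^ 2) * (31 / 50 + 7 / 50 * x ^ 2) :=
        mul_le_mul_of_nonneg_left (by linarith) h3
      have h6 : 1 ≤ x * ((1 - x ^ 2) * (72 / 100) + 1) := by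
        have h7 : 0 ≤ (1 - x) * (72 / 100 * x * (1 + x) - 1) := by
          apply mul_nonneg (by linarith)
          nlinarith
        nlinarith
      have h8 : 0 < x := by linarith
      nlinarith
    have h9 : 0 < x := by linarith
    nlinarith

/-! ### integrals of powers of `s` -/

/-- `∫₀ˣ (1-t²)^h dt` -/
noncomputable def lsA (x : ℝ) : ℕ → ℝ
  | 0 => x
  | h + 1 => (x * (1 - x ^ 2) ^ (h + 1) + (2 * (h : ℝ) + 2) * lsA x h) / (2 * (h : ℝ) + 3)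

theorem lsA_deriv (h : ℕ) (x : ℝ) : HasDerivAt (fun x => lsA x h) ((1 - x ^ 2) ^ h) x := by
  induction h with
  | zero => simpa [lsA] using hasDerivAt_id' x
  | succ h ih =>
    have h1 : HasDerivAt (fun x : ℝ => 1 - x ^ 2) (-(2 * x)) x := by
      have := (hasDerivAt_pow 2 x).const_sub 1
      simpa using this
    have h2 := ((hasDerivAt_id x).mul (h1.pow (h + 1))).add (ih.const_mul (2 * (h : ℝ) + 2))
    have h3 := h2.div_const (2 * (h : ℝ) + 3)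
    refine h3.congr_deriv ?_
    have e : h + 1 - 1 = h := by omega
    rw [e]
    have hne : (2 * (h : ℝ) + 3) ≠ 0 := by positivity
    simp only [id, Pi.pow_apply]
    push_cast
    field_simp
    ring

theorem lsA_zero (h : ℕ) : lsA 0 h = 0 := by
  induction h with
  | zero => simp [lsA]
  | succ h ih => simp [lsA, ih]

theorem lsA_int (h : ℕ) (a b : ℝ) : ∫ t in a..b, (1 - t ^ 2) ^ h = lsA b h - lsA a h := by
  apply intervalIntegral.integral_eq_sub_of_hasDerivAt (fun x _ => lsA_deriv h x)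
  exact (by fun_prop : Continuous fun t : ℝ => (1 - t ^ 2) ^ h).intervalIntegrable _ _

theorem ls_sq_sq {t : ℝ} (h0 : 0 ≤ t) (h1 : t ≤ 1) : sq t ^ 2 = 1 - t ^ 2 := by
  unfold sq
  exact Real.sq_sqrt (by nlinarith)

theorem ls_even (h : ℕ) {a b : ℝ} (ha : 0 ≤ a) (hab : a ≤ b) (hb : b ≤ 1) :
    ∫ t in a..b, sq t ^ (2 * h) = lsA b h - lsA a h := by
  rw [← lsA_int]
  apply intervalIntegral.integral_congr
  intro t ht
  rw [uIcc_of_le hab] at ht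
  simp only
  rw [pow_mul, ls_sq_sq (ha.trans ht.1) (ht.2.trans hb)]

theorem ls_odd_pt {s : ℝ} (h0 : 0 ≤ s) (h1 : s ≤ 1) (h : ℕ) :
    (15 * s ^ (2 * (h + 1)) - 10 * s ^ (2 * (h + 2)) + 3 * s ^ (2 * (h + 3))) / 8 ≤
      s ^ (2 * h + 1) := by
  have h2 : 0 ≤ s ^ (2 * h + 1) * ((1 - s) ^ 3 * (8 + 9 * s + 3 * s ^ 2)) := by
    have : 0 ≤ 1 - s := by linarith
    positivity
  have e1 : s ^ (2 * (h + 1)) = s ^ (2 * h + 1) * s := by ring
  have e2 : s ^ (2 * (h + 2)) = s ^ (2 * h + 1) * s ^ 3 := by ring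
  have e3 : s ^ (2 * (h + 3)) = s ^ (2 * h + 1) * s ^ 5 := by ring
  rw [e1, e2, e3]
  nlinarith

theorem ls_odd (h : ℕ) {x : ℝ} (hx0 : 0 ≤ x) (hx : x ≤ 1) :
    (15 * (lsA 1 (h + 1) - lsA x (h + 1)) - 10 * (lsA 1 (h + 2) - lsA x (h + 2)) +
      3 * (lsA 1 (h + 3) - lsA x (h + 3))) / 8 ≤ ∫ t in x..1, sq t ^ (2 * h + 1) := by
  rw [← ls_even (h + 1) hx0 hx le_rfl, ← ls_even (h + 2) hx0 hx le_rfl,
    ← ls_even (h + 3) hx0 hx le_rfl]
  have h1 : ∫ t in x..1, (15 * sq t ^ (2 * (h + 1)) - 10 * sq t ^ (2 * (h + 2)) +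
      3 * sq t ^ (2 * (h + 3))) / 8 ≤ ∫ t in x..1, sq t ^ (2 * h + 1) := by
    apply intervalIntegral.integral_mono_on hx _ (cn_sq_pow_ii _ _ _)
    · intro t _
      exact ls_odd_pt (cn_sq_nonneg t) (cn_sq_le_one t) h
    · exact (((((cn_sq_pow_ii _ _ _).const_mul _).sub ((cn_sq_pow_ii _ _ _).const_mul _)).add
        ((cn_sq_pow_ii _ _ _).const_mul _))).div_const _
  rw [intervalIntegral.integral_div, intervalIntegral.integral_add, intervalIntegral.integral_sub,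
    intervalIntegral.integral_const_mul, intervalIntegral.integral_const_mul,
    intervalIntegral.integral_const_mul] at h1
  · exact h1
  · exact (cn_sq_pow_ii _ _ _).const_mul _
  · exact (cn_sq_pow_ii _ _ _).const_mul _
  · exact ((cn_sq_pow_ii _ _ _).const_mul _).sub ((cn_sq_pow_ii _ _ _).const_mul _)
  · exact (cn_sq_pow_ii _ _ _).const_mul _

/-- `∫₀^{θ y} ≥ θ ∫₀^y` -/
theorem LE_conc (k : ℕ) {E y θ : ℝ} (hE0 : 0 ≤ E) (hE1 : E ≤ 1) (hy0 : 0 ≤ y) (hy1 : y ≤ 1)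
    (hθ0 : 0 < θ) (hθ1 : θ ≤ 1) : θ * LE k E y ≤ LE k E (θ * y) := by
  unfold LE
  have h1 := intervalIntegral.integral_comp_mul_left (a := 0) (b := y)
    (fun t => (1 - (1 - E) * t) ^ k) hθ0.ne'
  simp only [smul_eq_mul, mul_zero] at h1
  have h2 : ∫ t in (0 : ℝ)..(θ * y), (1 - (1 - E) * t) ^ k =
      θ * ∫ t in (0 : ℝ)..y, (1 - (1 - E) * (θ * t)) ^ k := by
    rw [h1, ← mul_assoc, mul_inv_cancel₀ hθ0.ne', one_mul]
  rw [h2]
  apply mul_le_mul_of_nonneg_left _ hθ0.le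
  apply intervalIntegral.integral_mono_on hy0 (LE_ii _ _ _ _)
    ((by fun_prop : Continuous fun t : ℝ =>
      (1 - (1 - E) * (θ * t)) ^ k).intervalIntegrable _ _)
  intro t ht
  apply pow_le_pow_left₀ (LE_base hE0 hE1 ht.1 (ht.2.trans hy1))
  have h3 : θ * t ≤ 1 * t := mul_le_mul_of_nonneg_right hθ1 ht.1
  nlinarith [mul_le_mul_of_nonneg_left h3 (show 0 ≤ 1 - E by linarith)]

/-! ### integer checks -/

/-- power, fast in the kernel -/
def ipw : ℤ → ℕ → ℤ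
  | Int.ofNat k, n => Int.ofNat (Nat.pow k n)
  | Int.negSucc k, n => (Int.negSucc k) ^ n

theorem ipw_cast (a : ℤ) (n : ℕ) : ((ipw a n : ℤ) : ℝ) = (a : ℝ) ^ n := by
  cases a with
  | ofNat k => simp [ipw]
  | negSucc k => simp [ipw]

/-- scale -/
def lsD : ℤ := 10000000

theorem lsD_cast : ((lsD : ℤ) : ℝ) = 10000000 := by
  unfold lsD
  norm_num

/-- the test proper -/
def tT (m : ℕ) (z f k a u : ℤ) : Bool :=
  if f = lsD then decide (a * k < z * u) else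
    decide (a * (ipw lsD (m + 1) - ipw f (m + 1)) * ipw k (m + 1) <
      z * (ipw (k * lsD) (m + 1) - ipw (k * lsD - (lsD - f) * u) (m + 1)))

theorem tT_sound {m : ℕ} {z f k a u : ℤ} (hf : f ≤ lsD) (hk : 0 < k)
    (h : tT m z f k a u = true) :
    (a : ℝ) / lsD * LE m (f / lsD) 1 < (z : ℝ) / lsD * LE m (f / lsD) ((u / lsD) / (k / lsD)) := by
  have hD : (0 : ℝ) < (lsD : ℝ) := by rw [lsD_cast]; norm_num
  have hk' : (0 : ℝ) < (k : ℝ) := by exact_mod_cast hk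
  have huk : ((u : ℝ) / lsD) / ((k : ℝ) / lsD) = u / k := by
    field_simp
  rw [huk]
  unfold tT at h
  split_ifs at h with hfD
  · rw [decide_eq_true_eq] at h
    have h1 : (a : ℝ) * k < z * u := by exact_mod_cast h
    have e : ((f : ℤ) : ℝ) / lsD = 1 := by rw [hfD]; exact div_self hD.ne'
    rw [e, LE_one, LE_one]
    rw [mul_one, div_mul_div_comm, div_lt_div_iff₀ hD (by positivity)]
    nlinarith
  · rw [decide_eq_true_eq] at h
    have h1 : (a : ℝ) * ((lsD : ℝ) ^ (m + 1) - (f : ℝ) ^ (m + 1)) * (k : ℝ) ^ (m + 1) <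
        z * (((k : ℝ) * lsD) ^ (m + 1) - ((k : ℝ) * lsD - ((lsD : ℝ) - f) * u) ^ (m + 1)) := by
      have h2 : ((a * (ipw lsD (m + 1) - ipw f (m + 1)) * ipw k (m + 1) : ℤ) : ℝ) <
        ((z * (ipw (k * lsD) (m + 1) - ipw (k * lsD - (lsD - f) * u) (m + 1)) : ℤ) : ℝ) := by
        exact_mod_cast h
      push_cast at h2
      rw [ipw_cast, ipw_cast, ipw_cast, ipw_cast, ipw_cast] at h2
      push_cast at h2
      exact h2
    have hf' : (f : ℝ) < lsD := by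
      have : f < lsD := lt_of_le_of_ne hf hfD
      exact_mod_cast this
    have hF : 0 < 1 - (f : ℝ) / lsD := by
      rw [sub_pos, div_lt_one hD]
      exact hf'
    have hm : (0 : ℝ) < (m : ℝ) + 1 := by positivity
    have l1 := LE_mul m ((f : ℝ) / lsD) 1
    have l2 := LE_mul m ((f : ℝ) / lsD) ((u : ℝ) / k)
    have key : (a : ℝ) / lsD * (1 - ((f : ℝ) / lsD) ^ (m + 1)) <
        z / lsD * (1 - (1 - (1 - (f : ℝ) / lsD) * (u / k)) ^ (m + 1)) := by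
      have hDk : 0 < (lsD : ℝ) ^ (m + 1) * (k : ℝ) ^ (m + 1) * lsD := by positivity
      refine lt_of_mul_lt_mul_right ?_ hDk.le
      have e1 : (a : ℝ) / lsD * (1 - ((f : ℝ) / lsD) ^ (m + 1)) *
          ((lsD : ℝ) ^ (m + 1) * (k : ℝ) ^ (m + 1) * lsD) =
          (a : ℝ) * ((lsD : ℝ) ^ (m + 1) - (f : ℝ) ^ (m + 1)) * (k : ℝ) ^ (m + 1) := by
        rw [div_pow]
        field_simp
      have e2 : (z : ℝ) / lsD * (1 - (1 - (1 - (f : ℝ) / lsD) * (u / k)) ^ (m + 1)) *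
          ((lsD : ℝ) ^ (m + 1) * (k : ℝ) ^ (m + 1) * lsD) =
          z * (((k : ℝ) * lsD) ^ (m + 1) - ((k : ℝ) * lsD - ((lsD : ℝ) - f) * u) ^ (m + 1)) := by
        have e3 : ((k : ℝ) * lsD - ((lsD : ℝ) - f) * u) =
            (k * lsD) * (1 - (1 - (f : ℝ) / lsD) * (u / k)) := by
          field_simp
        rw [e3]
        generalize (1 - (1 - (f : ℝ) / lsD) * (u / k)) = q
        rw [mul_pow, mul_pow]
        field_simp
        ring
      rw [e1, e2]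
      exact h1
    have h3 : 0 < ((m : ℝ) + 1) * (1 - (f : ℝ) / lsD) := mul_pos hm hF
    refine lt_of_mul_lt_mul_left ?_ h3.le
    have e4 : ((m : ℝ) + 1) * (1 - (f : ℝ) / lsD) * ((a : ℝ) / lsD * LE m (f / lsD) 1) =
        (a : ℝ) / lsD * (1 - ((f : ℝ) / lsD) ^ (m + 1)) := by
      have e5 : 1 - (1 - (1 - (f : ℝ) / lsD) * 1) ^ (m + 1) = 1 - ((f : ℝ) / lsD) ^ (m + 1) := by
        congr 2
        ring
      rw [e5] at l1
      rw [← l1]
      ring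
    have e6 : ((m : ℝ) + 1) * (1 - (f : ℝ) / lsD) * ((z : ℝ) / lsD * LE m (f / lsD) (u / k)) =
        (z : ℝ) / lsD * (1 - (1 - (1 - (f : ℝ) / lsD) * (u / k)) ^ (m + 1)) := by
      rw [← l2]
      ring
    rw [e4, e6]
    exact key

/-- bound for the truncation point -/
def tK (m : ℕ) (z z' e k : ℤ) : Bool :=
  decide (ipw z' m * ipw (ipw lsD (m + 1) - ipw e (m + 1)) (m - 1) * ipw (m : ℤ) m * (lsD - e) ≤
    k * ipw (ipw lsD m - ipw e m) m * ipw z (m - 1) * ipw ((m : ℤ) + 1) (m - 1))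

theorem tK_alg (n : ℕ) {z' z N1 N0 k D d p q : ℝ} (hD : 0 < D) (hd : 0 < d) (hp : 0 < p)
    (hq : 0 < q) (h1 : z' ^ (n + 1) * N1 ^ n * p ^ (n + 1) * d ≤
      k * N0 ^ (n + 1) * z ^ n * q ^ n) :
    (z' / D) ^ (n + 1) * (N1 / (q * d * D ^ (n + 1))) ^ n ≤
      k / D * ((N0 / (p * d * D ^ n)) ^ (n + 1) * (z / D) ^ n) := by
  have h2 : 0 < p ^ (n + 1) * d * q ^ n * d ^ n * D ^ (n + 1) * (D ^ (n + 1)) ^ n := by
    positivity
  refine le_of_mul_le_mul_right ?_ h2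
  have e1 : (z' / D) ^ (n + 1) * (N1 / (q * d * D ^ (n + 1))) ^ n *
      (p ^ (n + 1) * d * q ^ n * d ^ n * D ^ (n + 1) * (D ^ (n + 1)) ^ n) =
      z' ^ (n + 1) * N1 ^ n * p ^ (n + 1) * d := by
    rw [div_pow, div_pow, mul_pow, mul_pow]
    field_simp
  have e2 : k / D * ((N0 / (p * d * D ^ n)) ^ (n + 1) * (z / D) ^ n) *
      (p ^ (n + 1) * d * q ^ n * d ^ n * D ^ (n + 1) * (D ^ (n + 1)) ^ n) =
      k * N0 ^ (n + 1) * z ^ n * q ^ n := by
    have e3 : (D ^ (n + 1)) ^ n = (D ^ n) ^ (n + 1) := by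
      rw [← pow_mul, ← pow_mul, mul_comm]
    rw [e3, div_pow, div_pow, mul_pow, mul_pow]
    have e4 : D ^ (n + 1) = D * D ^ n := by ring
    have e5 : d ^ (n + 1) = d * d ^ n := by ring
    rw [e4, e5]
    field_simp
  rw [e1, e2]
  exact h1

theorem tK_sound {m : ℕ} (hm : 1 ≤ m) {z z' e k : ℤ} (he : e < lsD)
    (h : tK m z z' e k = true) :
    ((z' : ℝ) / lsD) ^ m * LE m (e / lsD) 1 ^ (m - 1) ≤
      (k : ℝ) / lsD * (LE (m - 1) (e / lsD) 1 ^ m * ((z : ℝ) / lsD) ^ (m - 1)) := by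
  obtain ⟨n, rfl⟩ : ∃ n, m = n + 1 := ⟨m - 1, by omega⟩
  have e1 : n + 1 - 1 = n := by omega
  unfold tK at h
  rw [decide_eq_true_eq, e1] at h
  rw [e1]
  have hD : (0 : ℝ) < (lsD : ℝ) := by rw [lsD_cast]; norm_num
  have h1 : (z' : ℝ) ^ (n + 1) * ((lsD : ℝ) ^ (n + 2) - (e : ℝ) ^ (n + 2)) ^ n *
      ((n : ℝ) + 1) ^ (n + 1) * ((lsD : ℝ) - e) ≤
      k * ((lsD : ℝ) ^ (n + 1) - (e : ℝ) ^ (n + 1)) ^ (n + 1) * (z : ℝ) ^ n *
        ((n : ℝ) + 2) ^ n := by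
    have h2 : ((ipw z' (n + 1) * ipw (ipw lsD (n + 1 + 1) - ipw e (n + 1 + 1)) n *
        ipw ((n + 1 : ℕ) : ℤ) (n + 1) * (lsD - e) : ℤ) : ℝ) ≤
        ((k * ipw (ipw lsD (n + 1) - ipw e (n + 1)) (n + 1) * ipw z n *
          ipw (((n + 1 : ℕ) : ℤ) + 1) n : ℤ) : ℝ) := by
      exact_mod_cast h
    push_cast at h2
    rw [ipw_cast, ipw_cast, ipw_cast, ipw_cast, ipw_cast, ipw_cast] at h2
    push_cast at h2
    rw [ipw_cast, ipw_cast, ipw_cast, ipw_cast] at h2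
    have e2 : (n : ℝ) + 1 + 1 = n + 2 := by ring
    rw [e2] at h2
    exact h2
  have he' : (e : ℝ) < lsD := by exact_mod_cast he
  have hF : 0 < 1 - (e : ℝ) / lsD := by
    rw [sub_pos, div_lt_one hD]
    exact he'
  have l1 := LE_mul (n + 1) ((e : ℝ) / lsD) 1
  have l2 := LE_mul n ((e : ℝ) / lsD) 1
  have e6 : (1 - (1 - (e : ℝ) / lsD) * 1) = (e : ℝ) / lsD := by ring
  rw [e6] at l1 l2
  have hn1 : (0 : ℝ) < (n : ℝ) + 1 := by positivity
  have hn2 : (0 : ℝ) < (n : ℝ) + 2 := by positivity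
  have hde : (0 : ℝ) < (lsD : ℝ) - e := by linarith
  have v1 : LE (n + 1) (e / lsD) 1 = ((lsD : ℝ) ^ (n + 2) - (e : ℝ) ^ (n + 2)) /
      (((n : ℝ) + 2) * ((lsD : ℝ) - e) * (lsD : ℝ) ^ (n + 1)) := by
    rw [eq_div_iff (by positivity)]
    have h3 : LE (n + 1) (e / lsD) 1 * (((n : ℝ) + 2) * (1 - (e : ℝ) / lsD)) =
        1 - ((e : ℝ) / lsD) ^ (n + 2) := by
      rw [← l1]
      push_cast
      ring
    have h4 : LE (n + 1) (e / lsD) 1 * (((n : ℝ) + 2) * ((lsD : ℝ) - e) * (lsD : ℝ) ^ (n + 1)) =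
        LE (n + 1) (e / lsD) 1 * (((n : ℝ) + 2) * (1 - (e : ℝ) / lsD)) * (lsD : ℝ) ^ (n + 2) := by
      field_simp
      ring
    rw [h4, h3, sub_mul, one_mul, div_pow, div_mul_cancel₀ _ (by positivity)]
  have v2 : LE n (e / lsD) 1 = ((lsD : ℝ) ^ (n + 1) - (e : ℝ) ^ (n + 1)) /
      (((n : ℝ) + 1) * ((lsD : ℝ) - e) * (lsD : ℝ) ^ n) := by
    rw [eq_div_iff (by positivity)]
    have h3 : LE n (e / lsD) 1 * (((n : ℝ) + 1) * (1 - (e : ℝ) / lsD)) =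
        1 - ((e : ℝ) / lsD) ^ (n + 1) := by
      rw [← l2]
      ring
    have h4 : LE n (e / lsD) 1 * (((n : ℝ) + 1) * ((lsD : ℝ) - e) * (lsD : ℝ) ^ n) =
        LE n (e / lsD) 1 * (((n : ℝ) + 1) * (1 - (e : ℝ) / lsD)) * (lsD : ℝ) ^ (n + 1) := by
      field_simp
      ring
    rw [h4, h3, sub_mul, one_mul, div_pow, div_mul_cancel₀ _ (by positivity)]
  rw [v1, v2]
  exact tK_alg n hD hde hn1 hn2 h1

end Vale.Agent.P237.AllN
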