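import Vale.Agent.P237.AllN.LStarZ

/-!
# P237, all dimensions: `l ≤ (1 - x²)(31/50 + 7/50 x²)` for m = 15, m = 16, m = 17, m = 18, m = 19, m = 20, m = 21, m = 22
-/

open MeasureTheory Metric Set Module Filter Topology Real

namespace Vale.Agent.P237.AllN

/-- nodes, `m = 15` -/
def nodes15 : List (ℤ × ℤ × ℤ) :=
    [(932, 914992, 1481909), (1094, 1064795, 1724528), (1298, 1247904, 2021090),
     (1566, 1477122, 2392327), (1944, 1775493, 2875566), (2472, 2138233, 3546667),
     (3302, 2570833, 4458475), (4159, 2850551, 5813748), (4918, 2986048, 7083929),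
     (5677, 3050976, 8072395), (6169, 3070174, 8909150), (6513, 3077328, 9360648),
     (6800, 3080796, 9630561), (7120, 3082983, 9825638)]

/-- cells, `m = 15` -/
def cells15 : List (ℤ × ℤ) :=
    [(7170000, 10000000), (7990000, 8768000), (8750000, 6893000), (9610000, 5671000), (10000000, 4996000)]

theorem tP15 : tPairs (tAo 7 3084740) 800 nodes15 = true := by decide +kernel

theorem tC15 : tCells 15 3084738 3182596 (1000 * 800, 1481909) (nodes15.map Prod.snd) 0 cells15 = true := by
  decide +kernel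

theorem ls_15 {r τ τ' T : ℝ → ℝ} (hr : IsProf r) (h : IsTrans 15 r τ τ' T)
    (hN : (∫ y in (-1 : ℝ)..1, r y ^ (15 - 1)) ^ 15 * aInt 15 ^ (15 - 1) ≤
      aInt (15 - 1) ^ 15 * (∫ y in (-1 : ℝ)..1, r y ^ 15) ^ (15 - 1)) {x : ℝ}
    (hx : x ∈ Ioo (0 : ℝ) 1) : τ x ≤ lsX x :=
  ls_main (m := 15) (by norm_num) (z := 3084738) (z' := 3182596) (by norm_num) ls_lo15 ls_hi14
    (fun n a h0 h1 h2 => tAo_sound (h := 7) (zh := 3084740) ls_hi15 h1 h2 h0)
    (by simp [cells15]) (n0 := 800) (u0 := 1481909) (by norm_num) (by norm_num) (by norm_num)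
    (by decide +kernel) tP15 tC15 hr h hN hx

/-- nodes, `m = 16` -/
def nodes16 : List (ℤ × ℤ × ℤ) :=
    [(929, 908304, 1481909), (1087, 1053639, 1719024), (1285, 1230948, 2008306),
     (1545, 1451875, 2368751), (1912, 1739433, 2837905), (2384, 2062781, 3490391),
     (3069, 2431951, 4308866), (3790, 2698004, 5444347), (4657, 2880129, 6555259),
     (5399, 2953480, 7748493), (6057, 2981478, 8621636), (6486, 2989461, 9264511),
     (6817, 2992596, 9610784), (7120, 2994295, 9836315)]

/-- cells, `m = 16` -/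
def cells16 : List (ℤ × ℤ) :=
    [(7110000, 10000000), (7730000, 9136000), (8660000, 7541000), (9570000, 5744000), (10000000, 4887000)]

theorem tP16 : tPairs (tAe 8) 800 nodes16 = true := by decide +kernel

theorem tC16 : tCells 16 2995383 3084740 (1000 * 800, 1481909) (nodes16.map Prod.snd) 0 cells16 = true := by
  decide +kernel

theorem ls_16 {r τ τ' T : ℝ → ℝ} (hr : IsProf r) (h : IsTrans 16 r τ τ' T)
    (hN : (∫ y in (-1 : ℝ)..1, r y ^ (16 - 1)) ^ 16 * aInt 16 ^ (16 - 1) ≤
      aInt (16 - 1) ^ 16 * (∫ y in (-1 : ℝ)..1, r y ^ 16) ^ (16 - 1)) {x : ℝ}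
    (hx : x ∈ Ioo (0 : ℝ) 1) : τ x ≤ lsX x :=
  ls_main (m := 16) (by norm_num) (z := 2995383) (z' := 3084740) (by norm_num) ls_lo16 ls_hi15
    (fun n a h0 h1 h2 => tAe_sound (h := 8) h1 h2 h0)
    (by simp [cells16]) (n0 := 800) (u0 := 1481909) (by norm_num) (by norm_num) (by norm_num)
    (by decide +kernel) tP16 tC16 hr h hN hx

/-- nodes, `m = 17` -/
def nodes17 : List (ℤ × ℤ × ℤ) :=
    [(919, 899633, 1481909), (1064, 1032438, 1700671), (1245, 1193683, 1966280),
     (1479, 1393933, 2296138), (1796, 1644802, 2719304), (2176, 1915049, 3285522),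
     (2663, 2206214, 3951364), (3319, 2502471, 4779600), (3957, 2693757, 5840330),
     (4641, 2815171, 6798136), (5269, 2872946, 7728073), (5732, 2894597, 8479517),
     (6131, 2904581, 8963319), (6554, 2909869, 9328478), (6876, 2911800, 9660129),
     (7120, 2912821, 9872598)]

/-- cells, `m = 17` -/
def cells17 : List (ℤ × ℤ) :=
    [(7050000, 10000000), (7630000, 9529000), (8550000, 7917000), (9520000, 5896000), (10000000, 4799000)]

theorem tP17 : tPairs (tAo 8 2913366) 800 nodes17 = true := by decide +kernel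

theorem tC17 : tCells 17 2913364 2995384 (1000 * 800, 1481909) (nodes17.map Prod.snd) 0 cells17 = true := by
  decide +kernel

theorem ls_17 {r τ τ' T : ℝ → ℝ} (hr : IsProf r) (h : IsTrans 17 r τ τ' T)
    (hN : (∫ y in (-1 : ℝ)..1, r y ^ (17 - 1)) ^ 17 * aInt 17 ^ (17 - 1) ≤
      aInt (17 - 1) ^ 17 * (∫ y in (-1 : ℝ)..1, r y ^ 17) ^ (17 - 1)) {x : ℝ}
    (hx : x ∈ Ioo (0 : ℝ) 1) : τ x ≤ lsX x :=
  ls_main (m := 17) (by norm_num) (z := 2913364) (z' := 2995384) (by norm_num) ls_lo17 ls_hi16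
    (fun n a h0 h1 h2 => tAo_sound (h := 8) (zh := 2913366) ls_hi17 h1 h2 h0)
    (by simp [cells17]) (n0 := 800) (u0 := 1481909) (by norm_num) (by norm_num) (by norm_num)
    (by decide +kernel) tP17 tC17 hr h hN hx

/-- nodes, `m = 18` -/
def nodes18 : List (ℤ × ℤ × ℤ) :=
    [(921, 898751, 1481909), (1069, 1033653, 1704342), (1255, 1198056, 1975419),
     (1499, 1403582, 2314301), (1822, 1654910, 2755281), (2217, 1925716, 3331556),
     (2741, 2221809, 4022249), (3417, 2498429, 4909258), (4111, 2675183, 5992547),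
     (4795, 2769840, 7016831), (5300, 2806023, 7921934), (5706, 2821999, 8513842),
     (6120, 2830736, 8937825), (6444, 2834312, 9319080), (6682, 2835814, 9579537),
     (6900, 2836654, 9748808), (7120, 2837270, 9887014)]

/-- cells, `m = 18` -/
def cells18 : List (ℤ × ℤ) :=
    [(7180000, 10000000), (7800000, 9364000), (8640000, 7601000), (9550000, 5731000), (10000000, 4679000)]

theorem tP18 : tPairs (tAe 9) 800 nodes18 = true := by decide +kernel

theorem tC18 : tCells 18 2837731 2913366 (1000 * 800, 1481909) (nodes18.map Prod.snd) 0 cells18 = true := by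
  decide +kernel

theorem ls_18 {r τ τ' T : ℝ → ℝ} (hr : IsProf r) (h : IsTrans 18 r τ τ' T)
    (hN : (∫ y in (-1 : ℝ)..1, r y ^ (18 - 1)) ^ 18 * aInt 18 ^ (18 - 1) ≤
      aInt (18 - 1) ^ 18 * (∫ y in (-1 : ℝ)..1, r y ^ 18) ^ (18 - 1)) {x : ℝ}
    (hx : x ∈ Ioo (0 : ℝ) 1) : τ x ≤ lsX x :=
  ls_main (m := 18) (by norm_num) (z := 2837731) (z' := 2913366) (by norm_num) ls_lo18 ls_hi17
    (fun n a h0 h1 h2 => tAe_sound (h := 9) h1 h2 h0)
    (by simp [cells18]) (n0 := 800) (u0 := 1481909) (by norm_num) (by norm_num) (by norm_num)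
    (by decide +kernel) tP18 tC18 hr h hN hx

/-- nodes, `m = 19` -/
def nodes19 : List (ℤ × ℤ × ℤ) :=
    [(906, 884510, 1481909), (1033, 1000838, 1676805), (1190, 1139781, 1909590),
     (1390, 1310803, 2196121), (1661, 1527294, 2558830), (2047, 1803540, 3045471),
     (2524, 2090032, 3727072), (3102, 2354323, 4546398), (3635, 2524641, 5497228),
     (4141, 2631598, 6324722), (4696, 2702527, 7058828), (5263, 2740789, 7797998),
     (5677, 2754920, 8472842), (6034, 2761524, 8909150), (6327, 2764514, 9244277),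
     (6524, 2765740, 9489423), (6678, 2766388, 9638549), (6819, 2766813, 9746120),
     (6982, 2767150, 9837564), (7120, 2767484, 9934761)]

/-- cells, `m = 19` -/
def cells19 : List (ℤ × ℤ) :=
    [(7220000, 10000000), (7710000, 9452000), (8610000, 7979000), (9470000, 5782000), (10000000, 4637000)]

theorem tP19 : tPairs (tAo 9 2767698) 800 nodes19 = true := by decide +kernel

theorem tC19 : tCells 19 2767696 2837732 (1000 * 800, 1481909) (nodes19.map Prod.snd) 0 cells19 = true := by
  decide +kernel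

theorem ls_19 {r τ τ' T : ℝ → ℝ} (hr : IsProf r) (h : IsTrans 19 r τ τ' T)
    (hN : (∫ y in (-1 : ℝ)..1, r y ^ (19 - 1)) ^ 19 * aInt 19 ^ (19 - 1) ≤
      aInt (19 - 1) ^ 19 * (∫ y in (-1 : ℝ)..1, r y ^ 19) ^ (19 - 1)) {x : ℝ}
    (hx : x ∈ Ioo (0 : ℝ) 1) : τ x ≤ lsX x :=
  ls_main (m := 19) (by norm_num) (z := 2767696) (z' := 2837732) (by norm_num) ls_lo19 ls_hi18
    (fun n a h0 h1 h2 => tAo_sound (h := 9) (zh := 2767698) ls_hi19 h1 h2 h0)
    (by simp [cells19]) (n0 := 800) (u0 := 1481909) (by norm_num) (by norm_num) (by norm_num)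
    (by decide +kernel) tP19 tC19 hr h hN hx

/-- nodes, `m = 20` -/
def nodes20 : List (ℤ × ℤ × ℤ) :=
    [(928, 902435, 1481909), (1087, 1045713, 1717189), (1291, 1222994, 2008306),
     (1569, 1449121, 2379634), (1980, 1747324, 2880944), (2562, 2089633, 3609850),
     (3275, 2383196, 4610418), (4134, 2581987, 5771425), (4951, 2665076, 7049046),
     (5608, 2690835, 8112088), (6023, 2697624, 8839912), (6309, 2700040, 9234540),
     (6550, 2701215, 9475161), (6743, 2701785, 9657269), (6925, 2702125, 9789118),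
     (7120, 2702389, 9901818)]

/-- cells, `m = 20` -/
def cells20 : List (ℤ × ℤ) :=
    [(7170000, 10000000), (7380000, 9825000), (7720000, 9146000), (8260000, 8092000), (8970000, 6594000), (9650000, 5136000), (10000000, 4438000)]

theorem tP20 : tPairs (tAe 10) 800 nodes20 = true := by decide +kernel

theorem tC20 : tCells 20 2702601 2767698 (1000 * 800, 1481909) (nodes20.map Prod.snd) 0 cells20 = true := by
  decide +kernel

theorem ls_20 {r τ τ' T : ℝ → ℝ} (hr : IsProf r) (h : IsTrans 20 r τ τ' T)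
    (hN : (∫ y in (-1 : ℝ)..1, r y ^ (20 - 1)) ^ 20 * aInt 20 ^ (20 - 1) ≤
      aInt (20 - 1) ^ 20 * (∫ y in (-1 : ℝ)..1, r y ^ 20) ^ (20 - 1)) {x : ℝ}
    (hx : x ∈ Ioo (0 : ℝ) 1) : τ x ≤ lsX x :=
  ls_main (m := 20) (by norm_num) (z := 2702601) (z' := 2767698) (by norm_num) ls_lo20 ls_hi19
    (fun n a h0 h1 h2 => tAe_sound (h := 10) h1 h2 h0)
    (by simp [cells20]) (n0 := 800) (u0 := 1481909) (by norm_num) (by norm_num) (by norm_num)
    (by decide +kernel) tP20 tC20 hr h hN hx

/-- nodes, `m = 21` -/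
def nodes21 : List (ℤ × ℤ × ℤ) :=
    [(932, 905840, 1481909), (1098, 1054145, 1724528), (1314, 1239887, 2028394),
     (1616, 1480075, 2421328), (2044, 1778904, 2965087), (2624, 2101267, 3721833),
     (3288, 2355913, 4714443), (4096, 2531465, 5791819), (4772, 2600399, 6995757),
     (5234, 2623029, 7893364), (5567, 2631924, 8440439), (5844, 2636330, 8798100),
     (6141, 2639096, 9070793), (6351, 2640247, 9336989), (6520, 2640847, 9508274),
     (6644, 2641158, 9635649), (6749, 2641354, 9723058), (6852, 2641501, 9793015),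
     (6976, 2641630, 9857983), (7120, 2641768, 9931347)]

/-- cells, `m = 21` -/
def cells21 : List (ℤ × ℤ) :=
    [(7220000, 10000000), (7360000, 9872000), (7810000, 9403000), (8350000, 7958000), (9080000, 6426000), (9710000, 4931000), (10000000, 4322000)]

theorem tP21 : tPairs (tAo 10 2641893) 800 nodes21 = true := by decide +kernel

theorem tC21 : tCells 21 2641891 2702602 (1000 * 800, 1481909) (nodes21.map Prod.snd) 0 cells21 = true := by
  decide +kernel

theorem ls_21 {r τ τ' T : ℝ → ℝ} (hr : IsProf r) (h : IsTrans 21 r τ τ' T)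
    (hN : (∫ y in (-1 : ℝ)..1, r y ^ (21 - 1)) ^ 21 * aInt 21 ^ (21 - 1) ≤
      aInt (21 - 1) ^ 21 * (∫ y in (-1 : ℝ)..1, r y ^ 21) ^ (21 - 1)) {x : ℝ}
    (hx : x ∈ Ioo (0 : ℝ) 1) : τ x ≤ lsX x :=
  ls_main (m := 21) (by norm_num) (z := 2641891) (z' := 2702602) (by norm_num) ls_lo21 ls_hi20
    (fun n a h0 h1 h2 => tAo_sound (h := 10) (zh := 2641893) ls_hi21 h1 h2 h0)
    (by simp [cells21]) (n0 := 800) (u0 := 1481909) (by norm_num) (by norm_num) (by norm_num)
    (by decide +kernel) tP21 tC21 hr h hN hx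

/-- nodes, `m = 22` -/
def nodes22 : List (ℤ × ℤ × ℤ) :=
    [(926, 898002, 1481909), (1083, 1038352, 1713518), (1286, 1212558, 2000999),
     (1567, 1436507, 2370565), (1924, 1689686, 2877359), (2401, 1971619, 3511507),
     (2871, 2184459, 4337846), (3337, 2337741, 5123344), (3842, 2449080, 5868418),
     (4527, 2532835, 6631509), (5080, 2564262, 7580743), (5608, 2577662, 8264462),
     (5965, 2581745, 8839912), (6183, 2583131, 9182575), (6330, 2583756, 9372384),
     (6441, 2584106, 9491790), (6535, 2584337, 9577282), (6616, 2584497, 9646497),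
     (6684, 2584607, 9703772), (6745, 2584691, 9750150), (6806, 2584762, 9790418),
     (6876, 2584829, 9829418), (6968, 2584900, 9872598), (7120, 2584986, 9926775)]

/-- cells, `m = 22` -/
def cells22 : List (ℤ × ℤ) :=
    [(7270000, 10000000), (7390000, 9907000), (7620000, 9494000), (8110000, 8716000), (8950000, 7167000), (9660000, 5115000), (10000000, 4266000)]

theorem tP22 : tPairs (tAe 11) 800 nodes22 = true := by decide +kernel

theorem tC22 : tCells 22 2585097 2641893 (1000 * 800, 1481909) (nodes22.map Prod.snd) 0 cells22 = true := by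
  decide +kernel

theorem ls_22 {r τ τ' T : ℝ → ℝ} (hr : IsProf r) (h : IsTrans 22 r τ τ' T)
    (hN : (∫ y in (-1 : ℝ)..1, r y ^ (22 - 1)) ^ 22 * aInt 22 ^ (22 - 1) ≤
      aInt (22 - 1) ^ 22 * (∫ y in (-1 : ℝ)..1, r y ^ 22) ^ (22 - 1)) {x : ℝ}
    (hx : x ∈ Ioo (0 : ℝ) 1) : τ x ≤ lsX x :=
  ls_main (m := 22) (by norm_num) (z := 2585097) (z' := 2641893) (by norm_num) ls_lo22 ls_hi21
    (fun n a h0 h1 h2 => tAe_sound (h := 11) h1 h2 h0)
    (by simp [cells22]) (n0 := 800) (u0 := 1481909) (by norm_num) (by norm_num) (by norm_num)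
    (by decide +kernel) tP22 tC22 hr h hN hx

end Vale.Agent.P237.AllN
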