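import Vale.Agent.P237.AllN.LStarN1
import Vale.Agent.P237.AllN.LStarN2
import Vale.Agent.P237.AllN.SgnL

/-!
# P237, all dimensions: the a priori bound and the sign of the plain pair for `4 ≤ m ≤ 22`
-/

open MeasureTheory Metric Set Module Filter Topology Real

namespace Vale.Agent.P237.AllN

/-- **A priori bound**: `τ x ≤ x exp((1 - x²)(31/50 + 7/50 x²))` for `4 ≤ m ≤ 22`. -/
theorem IsTrans.le_lstar {m : ℕ} (hm4 : 4 ≤ m) (hm : m ≤ 22) {r τ τ' T : ℝ → ℝ} (hr : IsProf r)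
    (h : IsTrans m r τ τ' T)
    (hN : (∫ y in (-1 : ℝ)..1, r y ^ (m - 1)) ^ m * aInt m ^ (m - 1) ≤
      aInt (m - 1) ^ m * (∫ y in (-1 : ℝ)..1, r y ^ m) ^ (m - 1))
    {x : ℝ} (hx : x ∈ Ioo (0 : ℝ) 1) :
    τ x ≤ x * Real.exp ((1 - x ^ 2) * (31 / 50 + 7 / 50 * x ^ 2)) := by
  rcases le_or_gt m 7 with h7 | h7
  · exact h.le_sgn hm4 h7 hr hN hx
  · have h8 : 8 ≤ m := h7
    clear h7 hm4
    interval_cases m
    · exact ls_8 hr h hN hx
    · exact ls_9 hr h hN hx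
    · exact ls_10 hr h hN hx
    · exact ls_11 hr h hN hx
    · exact ls_12 hr h hN hx
    · exact ls_13 hr h hN hx
    · exact ls_14 hr h hN hx
    · exact ls_15 hr h hN hx
    · exact ls_16 hr h hN hx
    · exact ls_17 hr h hN hx
    · exact ls_18 hr h hN hx
    · exact ls_19 hr h hN hx
    · exact ls_20 hr h hN hx
    · exact ls_21 hr h hN hx
    · exact ls_22 hr h hN hx

/-- the same with the logarithm -/
theorem IsTrans.log_le_lstar {m : ℕ} (hm4 : 4 ≤ m) (hm : m ≤ 22) {r τ τ' T : ℝ → ℝ}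
    (hr : IsProf r) (h : IsTrans m r τ τ' T)
    (hN : (∫ y in (-1 : ℝ)..1, r y ^ (m - 1)) ^ m * aInt m ^ (m - 1) ≤
      aInt (m - 1) ^ m * (∫ y in (-1 : ℝ)..1, r y ^ m) ^ (m - 1))
    {x : ℝ} (hx : x ∈ Ioo (0 : ℝ) 1) :
    Real.log (τ x / x) ≤ (1 - x ^ 2) * (31 / 50 + 7 / 50 * x ^ 2) := by
  have hτ := h.mem x hx
  have h1 := h.le_lstar hm4 hm hr hN hx
  have hx0 := hx.1
  rw [Real.log_le_iff_le_exp (div_pos hτ.1 hx0), div_le_iff₀ hx0]
  linarith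

/-- **Admissibility of the plain tangent pair** of the kernel `kA`, `4 ≤ m ≤ 22`, for
profiles with `N ≤ N_B`. -/
theorem IsTrans.kA_plain_le_all {m : ℕ} (hm4 : 4 ≤ m) (hm : m ≤ 22) {r τ τ' T : ℝ → ℝ}
    (hr : IsProf r) (h : IsTrans m r τ τ' T)
    (hN : (∫ y in (-1 : ℝ)..1, r y ^ (m - 1)) ^ m * aInt m ^ (m - 1) ≤
      aInt (m - 1) ^ m * (∫ y in (-1 : ℝ)..1, r y ^ m) ^ (m - 1))
    {x : ℝ} (hx : x ∈ Ioo (0 : ℝ) 1) {b : ℝ} (hb : b ∈ Icc (-1 : ℝ) 1) :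
    kAc x (Real.log (τ x / x)) + kAp x (Real.log (τ x / x)) * b ≤ kA (τ x) b := by
  have hτ := h.mem x hx
  have hx0 := hx.1
  have e : x * Real.exp (Real.log (τ x / x)) = τ x := by
    rw [Real.exp_log (div_pos hτ.1 hx0)]
    field_simp
  rcases lt_or_ge 0 b with hb0 | hb0
  · have h1 := kA_plain_pos (x := x) (l := Real.log (τ x / x)) hx (by rw [e]; exact hτ.2) hb0 hb.2
    rwa [e] at h1
  · have h1 := kA_neg_plain hx (h.log_le_lstar hm4 hm hr hN hx)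
    rw [e] at h1
    exact kA_neg hτ.1 h1 hb0

end Vale.Agent.P237.AllN
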