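import Vale.Agent.P237.AllN.LStarB

/-!
# P237, all dimensions: numerical bounds for `∫₀¹ s^m`
-/

open MeasureTheory Metric Set Module Filter Topology Real

namespace Vale.Agent.P237.AllN

theorem ls_Zrec (m : ℕ) : ∫ t in (0 : ℝ)..1, sq t ^ (m + 2) =
    ((m : ℝ) + 2) / ((m : ℝ) + 3) * ∫ t in (0 : ℝ)..1, sq t ^ m := by
  rw [ap_Z, ap_Z]
  have h := Slope.J_zero_rec (m + 1)
  rw [show m + 2 + 1 = m + 1 + 2 from rfl, h]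
  push_cast
  congr 1
  congr 1 <;> ring

theorem ls_Z8 : ∫ t in (0 : ℝ)..1, sq t ^ 8 = 128 / 315 := by
  rw [ls_Zrec 6, ap_Z6]
  norm_num

theorem ls_Z9 : ∫ t in (0 : ℝ)..1, sq t ^ 9 = 63 * π / 512 := by
  rw [ls_Zrec 7, ap_Z7]
  norm_num
  ring

theorem ls_Z10 : ∫ t in (0 : ℝ)..1, sq t ^ 10 = 256 / 693 := by
  rw [ls_Zrec 8, ls_Z8]
  norm_num

theorem ls_Z11 : ∫ t in (0 : ℝ)..1, sq t ^ 11 = 231 * π / 2048 := by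
  rw [ls_Zrec 9, ls_Z9]
  norm_num
  ring

theorem ls_Z12 : ∫ t in (0 : ℝ)..1, sq t ^ 12 = 1024 / 3003 := by
  rw [ls_Zrec 10, ls_Z10]
  norm_num

theorem ls_Z13 : ∫ t in (0 : ℝ)..1, sq t ^ 13 = 429 * π / 4096 := by
  rw [ls_Zrec 11, ls_Z11]
  norm_num
  ring

theorem ls_Z14 : ∫ t in (0 : ℝ)..1, sq t ^ 14 = 2048 / 6435 := by
  rw [ls_Zrec 12, ls_Z12]
  norm_num

theorem ls_Z15 : ∫ t in (0 : ℝ)..1, sq t ^ 15 = 6435 * π / 65536 := by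
  rw [ls_Zrec 13, ls_Z13]
  norm_num
  ring

theorem ls_Z16 : ∫ t in (0 : ℝ)..1, sq t ^ 16 = 32768 / 109395 := by
  rw [ls_Zrec 14, ls_Z14]
  norm_num

theorem ls_Z17 : ∫ t in (0 : ℝ)..1, sq t ^ 17 = 12155 * π / 131072 := by
  rw [ls_Zrec 15, ls_Z15]
  norm_num
  ring

theorem ls_Z18 : ∫ t in (0 : ℝ)..1, sq t ^ 18 = 65536 / 230945 := by
  rw [ls_Zrec 16, ls_Z16]
  norm_num

theorem ls_Z19 : ∫ t in (0 : ℝ)..1, sq t ^ 19 = 46189 * π / 524288 := by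
  rw [ls_Zrec 17, ls_Z17]
  norm_num
  ring

theorem ls_Z20 : ∫ t in (0 : ℝ)..1, sq t ^ 20 = 262144 / 969969 := by
  rw [ls_Zrec 18, ls_Z18]
  norm_num

theorem ls_Z21 : ∫ t in (0 : ℝ)..1, sq t ^ 21 = 88179 * π / 1048576 := by
  rw [ls_Zrec 19, ls_Z19]
  norm_num
  ring

theorem ls_Z22 : ∫ t in (0 : ℝ)..1, sq t ^ 22 = 524288 / 2028117 := by
  rw [ls_Zrec 20, ls_Z20]
  norm_num

theorem ls_Z23 : ∫ t in (0 : ℝ)..1, sq t ^ 23 = 676039 * π / 8388608 := by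
  rw [ls_Zrec 21, ls_Z21]
  norm_num
  ring

theorem ls_Z24 : ∫ t in (0 : ℝ)..1, sq t ^ 24 = 4194304 / 16900975 := by
  rw [ls_Zrec 22, ls_Z22]
  norm_num

theorem ls_Z25 : ∫ t in (0 : ℝ)..1, sq t ^ 25 = 1300075 * π / 16777216 := by
  rw [ls_Zrec 23, ls_Z23]
  norm_num
  ring

theorem ls_Z26 : ∫ t in (0 : ℝ)..1, sq t ^ 26 = 8388608 / 35102025 := by
  rw [ls_Zrec 24, ls_Z24]
  norm_num

theorem ls_Z27 : ∫ t in (0 : ℝ)..1, sq t ^ 27 = 5014575 * π / 67108864 := by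
  rw [ls_Zrec 25, ls_Z25]
  norm_num
  ring

theorem ls_Z28 : ∫ t in (0 : ℝ)..1, sq t ^ 28 = 33554432 / 145422675 := by
  rw [ls_Zrec 26, ls_Z26]
  norm_num

theorem ls_Z29 : ∫ t in (0 : ℝ)..1, sq t ^ 29 = 9694845 * π / 134217728 := by
  rw [ls_Zrec 27, ls_Z27]
  norm_num
  ring

theorem ls_Z30 : ∫ t in (0 : ℝ)..1, sq t ^ 30 = 67108864 / 300540195 := by
  rw [ls_Zrec 28, ls_Z28]
  norm_num

theorem ls_Z31 : ∫ t in (0 : ℝ)..1, sq t ^ 31 = 300540195 * π / 4294967296 := by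
  rw [ls_Zrec 29, ls_Z29]
  norm_num
  ring

theorem ls_Z32 : ∫ t in (0 : ℝ)..1, sq t ^ 32 = 2147483648 / 9917826435 := by
  rw [ls_Zrec 30, ls_Z30]
  norm_num

theorem ls_Z33 : ∫ t in (0 : ℝ)..1, sq t ^ 33 = 583401555 * π / 8589934592 := by
  rw [ls_Zrec 31, ls_Z31]
  norm_num
  ring

theorem ls_Z34 : ∫ t in (0 : ℝ)..1, sq t ^ 34 = 4294967296 / 20419054425 := by
  rw [ls_Zrec 32, ls_Z32]
  norm_num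

theorem ls_Z35 : ∫ t in (0 : ℝ)..1, sq t ^ 35 = 2268783825 * π / 34359738368 := by
  rw [ls_Zrec 33, ls_Z33]
  norm_num
  ring

theorem ls_Z36 : ∫ t in (0 : ℝ)..1, sq t ^ 36 = 17179869184 / 83945001525 := by
  rw [ls_Zrec 34, ls_Z34]
  norm_num

theorem ls_Z37 : ∫ t in (0 : ℝ)..1, sq t ^ 37 = 4418157975 * π / 68719476736 := by
  rw [ls_Zrec 35, ls_Z35]
  norm_num
  ring

theorem ls_Z38 : ∫ t in (0 : ℝ)..1, sq t ^ 38 = 34359738368 / 172308161025 := by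
  rw [ls_Zrec 36, ls_Z36]
  norm_num

theorem ls_Z39 : ∫ t in (0 : ℝ)..1, sq t ^ 39 = 34461632205 * π / 549755813888 := by
  rw [ls_Zrec 37, ls_Z37]
  norm_num
  ring

theorem ls_Z40 : ∫ t in (0 : ℝ)..1, sq t ^ 40 = 274877906944 / 1412926920405 := by
  rw [ls_Zrec 38, ls_Z38]
  norm_num

theorem ls_hi7 : ∫ t in (0 : ℝ)..1, sq t ^ 7 ≤ ((4295147 : ℤ) : ℝ) / lsD := by
  rw [ap_Z7, lsD_cast]
  push_cast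
  linarith [pi_lt_d6]

theorem ls_lo7 : ((4295145 : ℤ) : ℝ) / lsD ≤ ∫ t in (0 : ℝ)..1, sq t ^ 7 := by
  rw [ap_Z7, lsD_cast]
  push_cast
  linarith [pi_gt_d6]

theorem ls_hi8 : ∫ t in (0 : ℝ)..1, sq t ^ 8 ≤ ((4063493 : ℤ) : ℝ) / lsD := by
  rw [ls_Z8, lsD_cast]
  push_cast
  norm_num

theorem ls_lo8 : ((4063492 : ℤ) : ℝ) / lsD ≤ ∫ t in (0 : ℝ)..1, sq t ^ 8 := by
  rw [ls_Z8, lsD_cast]
  push_cast
  norm_num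

theorem ls_hi9 : ∫ t in (0 : ℝ)..1, sq t ^ 9 ≤ ((3865633 : ℤ) : ℝ) / lsD := by
  rw [ls_Z9, lsD_cast]
  push_cast
  linarith [pi_lt_d6]

theorem ls_lo9 : ((3865630 : ℤ) : ℝ) / lsD ≤ ∫ t in (0 : ℝ)..1, sq t ^ 9 := by
  rw [ls_Z9, lsD_cast]
  push_cast
  linarith [pi_gt_d6]

theorem ls_hi10 : ∫ t in (0 : ℝ)..1, sq t ^ 10 ≤ ((3694084 : ℤ) : ℝ) / lsD := by
  rw [ls_Z10, lsD_cast]
  push_cast
  norm_num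

theorem ls_lo10 : ((3694083 : ℤ) : ℝ) / lsD ≤ ∫ t in (0 : ℝ)..1, sq t ^ 10 := by
  rw [ls_Z10, lsD_cast]
  push_cast
  norm_num

theorem ls_hi11 : ∫ t in (0 : ℝ)..1, sq t ^ 11 ≤ ((3543497 : ℤ) : ℝ) / lsD := by
  rw [ls_Z11, lsD_cast]
  push_cast
  linarith [pi_lt_d6]

theorem ls_lo11 : ((3543494 : ℤ) : ℝ) / lsD ≤ ∫ t in (0 : ℝ)..1, sq t ^ 11 := by
  rw [ls_Z11, lsD_cast]
  push_cast
  linarith [pi_gt_d6]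

theorem ls_hi12 : ∫ t in (0 : ℝ)..1, sq t ^ 12 ≤ ((3409924 : ℤ) : ℝ) / lsD := by
  rw [ls_Z12, lsD_cast]
  push_cast
  norm_num

theorem ls_lo12 : ((3409923 : ℤ) : ℝ) / lsD ≤ ∫ t in (0 : ℝ)..1, sq t ^ 12 := by
  rw [ls_Z12, lsD_cast]
  push_cast
  norm_num

theorem ls_hi13 : ∫ t in (0 : ℝ)..1, sq t ^ 13 ≤ ((3290390 : ℤ) : ℝ) / lsD := by
  rw [ls_Z13, lsD_cast]
  push_cast
  linarith [pi_lt_d6]

theorem ls_lo13 : ((3290388 : ℤ) : ℝ) / lsD ≤ ∫ t in (0 : ℝ)..1, sq t ^ 13 := by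
  rw [ls_Z13, lsD_cast]
  push_cast
  linarith [pi_gt_d6]

theorem ls_hi14 : ∫ t in (0 : ℝ)..1, sq t ^ 14 ≤ ((3182596 : ℤ) : ℝ) / lsD := by
  rw [ls_Z14, lsD_cast]
  push_cast
  norm_num

theorem ls_lo14 : ((3182595 : ℤ) : ℝ) / lsD ≤ ∫ t in (0 : ℝ)..1, sq t ^ 14 := by
  rw [ls_Z14, lsD_cast]
  push_cast
  norm_num

theorem ls_hi15 : ∫ t in (0 : ℝ)..1, sq t ^ 15 ≤ ((3084740 : ℤ) : ℝ) / lsD := by
  rw [ls_Z15, lsD_cast]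
  push_cast
  linarith [pi_lt_d6]

theorem ls_lo15 : ((3084738 : ℤ) : ℝ) / lsD ≤ ∫ t in (0 : ℝ)..1, sq t ^ 15 := by
  rw [ls_Z15, lsD_cast]
  push_cast
  linarith [pi_gt_d6]

theorem ls_hi16 : ∫ t in (0 : ℝ)..1, sq t ^ 16 ≤ ((2995384 : ℤ) : ℝ) / lsD := by
  rw [ls_Z16, lsD_cast]
  push_cast
  norm_num

theorem ls_lo16 : ((2995383 : ℤ) : ℝ) / lsD ≤ ∫ t in (0 : ℝ)..1, sq t ^ 16 := by
  rw [ls_Z16, lsD_cast]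
  push_cast
  norm_num

theorem ls_hi17 : ∫ t in (0 : ℝ)..1, sq t ^ 17 ≤ ((2913366 : ℤ) : ℝ) / lsD := by
  rw [ls_Z17, lsD_cast]
  push_cast
  linarith [pi_lt_d6]

theorem ls_lo17 : ((2913364 : ℤ) : ℝ) / lsD ≤ ∫ t in (0 : ℝ)..1, sq t ^ 17 := by
  rw [ls_Z17, lsD_cast]
  push_cast
  linarith [pi_gt_d6]

theorem ls_hi18 : ∫ t in (0 : ℝ)..1, sq t ^ 18 ≤ ((2837732 : ℤ) : ℝ) / lsD := by
  rw [ls_Z18, lsD_cast]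
  push_cast
  norm_num

theorem ls_lo18 : ((2837731 : ℤ) : ℝ) / lsD ≤ ∫ t in (0 : ℝ)..1, sq t ^ 18 := by
  rw [ls_Z18, lsD_cast]
  push_cast
  norm_num

theorem ls_hi19 : ∫ t in (0 : ℝ)..1, sq t ^ 19 ≤ ((2767698 : ℤ) : ℝ) / lsD := by
  rw [ls_Z19, lsD_cast]
  push_cast
  linarith [pi_lt_d6]

theorem ls_lo19 : ((2767696 : ℤ) : ℝ) / lsD ≤ ∫ t in (0 : ℝ)..1, sq t ^ 19 := by
  rw [ls_Z19, lsD_cast]
  push_cast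
  linarith [pi_gt_d6]

theorem ls_hi20 : ∫ t in (0 : ℝ)..1, sq t ^ 20 ≤ ((2702602 : ℤ) : ℝ) / lsD := by
  rw [ls_Z20, lsD_cast]
  push_cast
  norm_num

theorem ls_lo20 : ((2702601 : ℤ) : ℝ) / lsD ≤ ∫ t in (0 : ℝ)..1, sq t ^ 20 := by
  rw [ls_Z20, lsD_cast]
  push_cast
  norm_num

theorem ls_hi21 : ∫ t in (0 : ℝ)..1, sq t ^ 21 ≤ ((2641893 : ℤ) : ℝ) / lsD := by
  rw [ls_Z21, lsD_cast]
  push_cast
  linarith [pi_lt_d6]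

theorem ls_lo21 : ((2641891 : ℤ) : ℝ) / lsD ≤ ∫ t in (0 : ℝ)..1, sq t ^ 21 := by
  rw [ls_Z21, lsD_cast]
  push_cast
  linarith [pi_gt_d6]

theorem ls_hi22 : ∫ t in (0 : ℝ)..1, sq t ^ 22 ≤ ((2585098 : ℤ) : ℝ) / lsD := by
  rw [ls_Z22, lsD_cast]
  push_cast
  norm_num

theorem ls_lo22 : ((2585097 : ℤ) : ℝ) / lsD ≤ ∫ t in (0 : ℝ)..1, sq t ^ 22 := by
  rw [ls_Z22, lsD_cast]
  push_cast
  norm_num

theorem ls_hi23 : ∫ t in (0 : ℝ)..1, sq t ^ 23 ≤ ((2531814 : ℤ) : ℝ) / lsD := by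
  rw [ls_Z23, lsD_cast]
  push_cast
  linarith [pi_lt_d6]

theorem ls_lo23 : ((2531813 : ℤ) : ℝ) / lsD ≤ ∫ t in (0 : ℝ)..1, sq t ^ 23 := by
  rw [ls_Z23, lsD_cast]
  push_cast
  linarith [pi_gt_d6]

theorem ls_hi24 : ∫ t in (0 : ℝ)..1, sq t ^ 24 ≤ ((2481694 : ℤ) : ℝ) / lsD := by
  rw [ls_Z24, lsD_cast]
  push_cast
  norm_num

theorem ls_lo24 : ((2481693 : ℤ) : ℝ) / lsD ≤ ∫ t in (0 : ℝ)..1, sq t ^ 24 := by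
  rw [ls_Z24, lsD_cast]
  push_cast
  norm_num

theorem ls_hi25 : ∫ t in (0 : ℝ)..1, sq t ^ 25 ≤ ((2434437 : ℤ) : ℝ) / lsD := by
  rw [ls_Z25, lsD_cast]
  push_cast
  linarith [pi_lt_d6]

theorem ls_lo25 : ((2434435 : ℤ) : ℝ) / lsD ≤ ∫ t in (0 : ℝ)..1, sq t ^ 25 := by
  rw [ls_Z25, lsD_cast]
  push_cast
  linarith [pi_gt_d6]

theorem ls_hi26 : ∫ t in (0 : ℝ)..1, sq t ^ 26 ≤ ((2389779 : ℤ) : ℝ) / lsD := by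
  rw [ls_Z26, lsD_cast]
  push_cast
  norm_num

theorem ls_lo26 : ((2389778 : ℤ) : ℝ) / lsD ≤ ∫ t in (0 : ℝ)..1, sq t ^ 26 := by
  rw [ls_Z26, lsD_cast]
  push_cast
  norm_num

theorem ls_hi27 : ∫ t in (0 : ℝ)..1, sq t ^ 27 ≤ ((2347493 : ℤ) : ℝ) / lsD := by
  rw [ls_Z27, lsD_cast]
  push_cast
  linarith [pi_lt_d6]

theorem ls_lo27 : ((2347491 : ℤ) : ℝ) / lsD ≤ ∫ t in (0 : ℝ)..1, sq t ^ 27 := by
  rw [ls_Z27, lsD_cast]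
  push_cast
  linarith [pi_gt_d6]

theorem ls_hi28 : ∫ t in (0 : ℝ)..1, sq t ^ 28 ≤ ((2307373 : ℤ) : ℝ) / lsD := by
  rw [ls_Z28, lsD_cast]
  push_cast
  norm_num

theorem ls_lo28 : ((2307372 : ℤ) : ℝ) / lsD ≤ ∫ t in (0 : ℝ)..1, sq t ^ 28 := by
  rw [ls_Z28, lsD_cast]
  push_cast
  norm_num

theorem ls_hi29 : ∫ t in (0 : ℝ)..1, sq t ^ 29 ≤ ((2269243 : ℤ) : ℝ) / lsD := by
  rw [ls_Z29, lsD_cast]
  push_cast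
  linarith [pi_lt_d6]

theorem ls_lo29 : ((2269241 : ℤ) : ℝ) / lsD ≤ ∫ t in (0 : ℝ)..1, sq t ^ 29 := by
  rw [ls_Z29, lsD_cast]
  push_cast
  linarith [pi_gt_d6]

theorem ls_hi30 : ∫ t in (0 : ℝ)..1, sq t ^ 30 ≤ ((2232942 : ℤ) : ℝ) / lsD := by
  rw [ls_Z30, lsD_cast]
  push_cast
  norm_num

theorem ls_lo30 : ((2232941 : ℤ) : ℝ) / lsD ≤ ∫ t in (0 : ℝ)..1, sq t ^ 30 := by
  rw [ls_Z30, lsD_cast]
  push_cast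
  norm_num

theorem ls_hi31 : ∫ t in (0 : ℝ)..1, sq t ^ 31 ≤ ((2198329 : ℤ) : ℝ) / lsD := by
  rw [ls_Z31, lsD_cast]
  push_cast
  linarith [pi_lt_d6]

theorem ls_lo31 : ((2198327 : ℤ) : ℝ) / lsD ≤ ∫ t in (0 : ℝ)..1, sq t ^ 31 := by
  rw [ls_Z31, lsD_cast]
  push_cast
  linarith [pi_gt_d6]

theorem ls_hi32 : ∫ t in (0 : ℝ)..1, sq t ^ 32 ≤ ((2165277 : ℤ) : ℝ) / lsD := by
  rw [ls_Z32, lsD_cast]
  push_cast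
  norm_num

theorem ls_lo32 : ((2165276 : ℤ) : ℝ) / lsD ≤ ∫ t in (0 : ℝ)..1, sq t ^ 32 := by
  rw [ls_Z32, lsD_cast]
  push_cast
  norm_num

theorem ls_hi33 : ∫ t in (0 : ℝ)..1, sq t ^ 33 ≤ ((2133672 : ℤ) : ℝ) / lsD := by
  rw [ls_Z33, lsD_cast]
  push_cast
  linarith [pi_lt_d6]

theorem ls_lo33 : ((2133671 : ℤ) : ℝ) / lsD ≤ ∫ t in (0 : ℝ)..1, sq t ^ 33 := by
  rw [ls_Z33, lsD_cast]
  push_cast
  linarith [pi_gt_d6]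

theorem ls_hi34 : ∫ t in (0 : ℝ)..1, sq t ^ 34 ≤ ((2103412 : ℤ) : ℝ) / lsD := by
  rw [ls_Z34, lsD_cast]
  push_cast
  norm_num

theorem ls_lo34 : ((2103411 : ℤ) : ℝ) / lsD ≤ ∫ t in (0 : ℝ)..1, sq t ^ 34 := by
  rw [ls_Z34, lsD_cast]
  push_cast
  norm_num

theorem ls_hi35 : ∫ t in (0 : ℝ)..1, sq t ^ 35 ≤ ((2074404 : ℤ) : ℝ) / lsD := by
  rw [ls_Z35, lsD_cast]
  push_cast
  linarith [pi_lt_d6]

theorem ls_lo35 : ((2074402 : ℤ) : ℝ) / lsD ≤ ∫ t in (0 : ℝ)..1, sq t ^ 35 := by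
  rw [ls_Z35, lsD_cast]
  push_cast
  linarith [pi_gt_d6]

theorem ls_hi36 : ∫ t in (0 : ℝ)..1, sq t ^ 36 ≤ ((2046563 : ℤ) : ℝ) / lsD := by
  rw [ls_Z36, lsD_cast]
  push_cast
  norm_num

theorem ls_lo36 : ((2046562 : ℤ) : ℝ) / lsD ≤ ∫ t in (0 : ℝ)..1, sq t ^ 36 := by
  rw [ls_Z36, lsD_cast]
  push_cast
  norm_num

theorem ls_hi37 : ∫ t in (0 : ℝ)..1, sq t ^ 37 ≤ ((2019814 : ℤ) : ℝ) / lsD := by
  rw [ls_Z37, lsD_cast]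
  push_cast
  linarith [pi_lt_d6]

theorem ls_lo37 : ((2019813 : ℤ) : ℝ) / lsD ≤ ∫ t in (0 : ℝ)..1, sq t ^ 37 := by
  rw [ls_Z37, lsD_cast]
  push_cast
  linarith [pi_gt_d6]

theorem ls_hi38 : ∫ t in (0 : ℝ)..1, sq t ^ 38 ≤ ((1994087 : ℤ) : ℝ) / lsD := by
  rw [ls_Z38, lsD_cast]
  push_cast
  norm_num

theorem ls_lo38 : ((1994086 : ℤ) : ℝ) / lsD ≤ ∫ t in (0 : ℝ)..1, sq t ^ 38 := by
  rw [ls_Z38, lsD_cast]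
  push_cast
  norm_num

theorem ls_hi39 : ∫ t in (0 : ℝ)..1, sq t ^ 39 ≤ ((1969319 : ℤ) : ℝ) / lsD := by
  rw [ls_Z39, lsD_cast]
  push_cast
  linarith [pi_lt_d6]

theorem ls_lo39 : ((1969317 : ℤ) : ℝ) / lsD ≤ ∫ t in (0 : ℝ)..1, sq t ^ 39 := by
  rw [ls_Z39, lsD_cast]
  push_cast
  linarith [pi_gt_d6]

theorem ls_hi40 : ∫ t in (0 : ℝ)..1, sq t ^ 40 ≤ ((1945451 : ℤ) : ℝ) / lsD := by
  rw [ls_Z40, lsD_cast]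
  push_cast
  norm_num

theorem ls_lo40 : ((1945450 : ℤ) : ℝ) / lsD ≤ ∫ t in (0 : ℝ)..1, sq t ^ 40 := by
  rw [ls_Z40, lsD_cast]
  push_cast
  norm_num

end Vale.Agent.P237.AllN
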