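import Vale.Agent.P237.AllN.LStarC
import Vale.Agent.P237.AllN.LStarZ
import Vale.Agent.P237.AllN.LStarFin
import Vale.Agent.P237.AllN.Brid3

/-!
# P237, all dimensions: `l ≤ (1 - x²)(127/200 + 33/200 x²)` for `4 ≤ m ≤ 26`
-/

open MeasureTheory Metric Set Module Filter Topology Real

namespace Vale.Agent.P237.AllN

/-- nodes, `m = 23` -/
def nodes23 : List (ℤ × ℤ × ℤ) :=
    [(1099, 1050599, 1877218), (1212, 1147406, 2061040), (1342, 1254998, 2270153),
     (1494, 1375319, 2509701), (1674, 1509687, 2788244), (1893, 1660670, 3115696),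
     (2166, 1828958, 3510148), (2520, 2013933, 3994967), (3001, 2207562, 4610510),
     (3701, 2386941, 5418990), (4266, 2465133, 6526186), (4719, 2499300, 7347974),
     (5081, 2514766, 7952929), (5371, 2522171, 8398026), (5605, 2525954, 8728106),
     (5796, 2528019, 8976301), (5953, 2529213, 9166374), (6083, 2529940, 9313923),
     (6192, 2530407, 9430022), (6285, 2530721, 9523042), (6365, 2530940, 9599244),
     (6436, 2531102, 9662433), (6500, 2531224, 9716665), (6559, 2531320, 9764049),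
     (6615, 2531399, 9806460), (6668, 2531462, 9845579), (6721, 2531517, 9881577),
     (6774, 2531565, 9916572), (6827, 2531605, 9950559), (6881, 2531640, 9983531),
     (6900, 2531651, 10016077)]

/-- cells, `m = 23` -/
def cells23 : List (ℤ × ℤ) :=
    [(7462000, 10000000), (7941000, 9430000), (8560000, 7803000), (9439000, 5982000),
     (10000000, 4372000)]

theorem tP23 : tQairs (tAo 11 2531814) 1000 nodes23 = true := by decide +kernel

theorem tC23 : tCells 23 2531813 2585098 (1000 * 1000, 1877218) (nodes23.map Prod.snd) 0 cells23 = true := by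
  decide +kernel

theorem ls2_23 {r τ τ' T : ℝ → ℝ} (hr : IsProf r) (h : IsTrans 23 r τ τ' T)
    (hN : (∫ y in (-1 : ℝ)..1, r y ^ (23 - 1)) ^ 23 * aInt 23 ^ (23 - 1) ≤
      aInt (23 - 1) ^ 23 * (∫ y in (-1 : ℝ)..1, r y ^ 23) ^ (23 - 1)) {x : ℝ}
    (hx : x ∈ Ioo (0 : ℝ) 1) : τ x ≤ lsY x :=
  ls_main2 (m := 23) (by norm_num) (z := 2531813) (z' := 2585098) (by norm_num) ls_lo23 ls_hi22
    (fun n a h0 h1 h2 => tAo_sound (h := 11) (zh := 2531814) ls_hi23 h1 h2 h0)
    (by simp [cells23]) (n0 := 1000) (u0 := 1877218) (by norm_num) (by norm_num) (by norm_num)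
    (by decide +kernel) tP23 tC23 hr h hN hx

/-- nodes, `m = 24` -/
def nodes24 : List (ℤ × ℤ × ℤ) :=
    [(1131, 1075501, 1877218), (1287, 1206213, 2120337), (1477, 1356930, 2408495),
     (1714, 1530814, 2757179), (2021, 1731284, 3188080), (2440, 1958471, 3738474),
     (3056, 2199344, 4472811), (3902, 2382196, 5509142), (4415, 2435352, 6826526),
     (4815, 2458167, 7552558), (5136, 2468831, 8074414), (5399, 2474193, 8462487),
     (5619, 2477078, 8758675), (5803, 2478698, 8990620), (5957, 2479649, 9173121),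
     (6086, 2480231, 9317578), (6194, 2480601, 9432635), (6285, 2480847, 9524712),
     (6364, 2481019, 9599244), (6434, 2481145, 9661656), (6497, 2481240, 9715162),
     (6555, 2481314, 9761860), (6610, 2481375, 9803624), (6664, 2481426, 9842132),
     (6718, 2481469, 9878895), (6772, 2481506, 9914618), (6828, 2481539, 9949294),
     (6887, 2481568, 9984143), (6900, 2481574, 10019628)]

/-- cells, `m = 24` -/
def cells24 : List (ℤ × ℤ) :=
    [(7463000, 10000000), (7823000, 9607000), (8276000, 8331000), (8807000, 6845000),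
     (9596000, 5402000), (10000000, 4166000)]

theorem tP24 : tQairs (tAe 12) 1000 nodes24 = true := by decide +kernel

theorem tC24 : tCells 24 2481693 2531814 (1000 * 1000, 1877218) (nodes24.map Prod.snd) 0 cells24 = true := by
  decide +kernel

theorem ls2_24 {r τ τ' T : ℝ → ℝ} (hr : IsProf r) (h : IsTrans 24 r τ τ' T)
    (hN : (∫ y in (-1 : ℝ)..1, r y ^ (24 - 1)) ^ 24 * aInt 24 ^ (24 - 1) ≤
      aInt (24 - 1) ^ 24 * (∫ y in (-1 : ℝ)..1, r y ^ 24) ^ (24 - 1)) {x : ℝ}
    (hx : x ∈ Ioo (0 : ℝ) 1) : τ x ≤ lsY x :=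
  ls_main2 (m := 24) (by norm_num) (z := 2481693) (z' := 2531814) (by norm_num) ls_lo24 ls_hi23
    (fun n a h0 h1 h2 => tAe_sound (h := 12) h1 h2 h0)
    (by simp [cells24]) (n0 := 1000) (u0 := 1877218) (by norm_num) (by norm_num) (by norm_num)
    (by decide +kernel) tP24 tC24 hr h hN hx

/-- nodes, `m = 25` -/
def nodes25 : List (ℤ × ℤ × ℤ) :=
    [(1131, 1073762, 1877218), (1288, 1204325, 2120337), (1480, 1355060, 2410337),
     (1721, 1529255, 2762663), (2036, 1730258, 3200732), (2470, 1956658, 3765117),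
     (3117, 2191993, 4524549), (3886, 2344142, 5608538), (4385, 2392472, 6802931),
     (4775, 2413178, 7511797), (5088, 2422825, 8024092), (5345, 2427675, 8406277),
     (5557, 2430250, 8699513), (5732, 2431687, 8926748), (5877, 2432531, 9103962),
     (5997, 2433049, 9243490), (6096, 2433378, 9353840), (6178, 2433597, 9441324),
     (6247, 2433749, 9511318), (6306, 2433860, 9568462), (6357, 2433942, 9616043),
     (6403, 2434007, 9656213), (6444, 2434059, 9691676), (6482, 2434102, 9722666),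
     (6518, 2434139, 9750867), (6552, 2434170, 9777118), (6586, 2434198, 9801493),
     (6619, 2434223, 9825460), (6653, 2434246, 9848331), (6687, 2434267, 9871490),
     (6722, 2434287, 9894238), (6759, 2434305, 9917223), (6798, 2434322, 9941042),
     (6840, 2434338, 9965616), (6886, 2434354, 9991463), (6900, 2434358, 10019037)]

/-- cells, `m = 25` -/
def cells25 : List (ℤ × ℤ) :=
    [(7461000, 10000000), (7674000, 9795000), (8154000, 9010000), (8659000, 7328000),
     (9335000, 5794000), (9954000, 4394000), (10000000, 3939000)]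

theorem tP25 : tQairs (tAo 12 2434437) 1000 nodes25 = true := by decide +kernel

theorem tC25 : tCells 25 2434435 2481694 (1000 * 1000, 1877218) (nodes25.map Prod.snd) 0 cells25 = true := by
  decide +kernel

theorem ls2_25 {r τ τ' T : ℝ → ℝ} (hr : IsProf r) (h : IsTrans 25 r τ τ' T)
    (hN : (∫ y in (-1 : ℝ)..1, r y ^ (25 - 1)) ^ 25 * aInt 25 ^ (25 - 1) ≤
      aInt (25 - 1) ^ 25 * (∫ y in (-1 : ℝ)..1, r y ^ 25) ^ (25 - 1)) {x : ℝ}
    (hx : x ∈ Ioo (0 : ℝ) 1) : τ x ≤ lsY x :=
  ls_main2 (m := 25) (by norm_num) (z := 2434435) (z' := 2481694) (by norm_num) ls_lo25 ls_hi24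
    (fun n a h0 h1 h2 => tAo_sound (h := 12) (zh := 2434437) ls_hi25 h1 h2 h0)
    (by simp [cells25]) (n0 := 1000) (u0 := 1877218) (by norm_num) (by norm_num) (by norm_num)
    (by decide +kernel) tP25 tC25 hr h hN hx

/-- nodes, `m = 26` -/
def nodes26 : List (ℤ × ℤ × ℤ) :=
    [(1132, 1071947, 1877218), (1290, 1202315, 2122189), (1484, 1352988, 2414021),
     (1729, 1527344, 2769973), (2051, 1727992, 3215186), (2500, 1953094, 3791735),
     (3180, 2182346, 4576166), (3867, 2306671, 5710528), (4353, 2351046, 6774840),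
     (4732, 2370026, 7468078), (5034, 2378854, 7969523), (5280, 2383304, 8342266),
     (5483, 2385700, 8627158), (5651, 2387058, 8848971), (5791, 2387869, 9023122),
     (5906, 2388368, 9161544), (6000, 2388687, 9270587), (6078, 2388902, 9356539),
     (6143, 2389051, 9425660), (6197, 2389158, 9481718), (6243, 2389237, 9527214),
     (6283, 2389299, 9565194), (6319, 2389349, 9597636), (6350, 2389389, 9626367),
     (6378, 2389421, 9650752), (6404, 2389450, 9672493), (6428, 2389474, 9692438),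
     (6450, 2389495, 9710642), (6471, 2389513, 9727153), (6491, 2389530, 9742756),
     (6510, 2389545, 9757472), (6529, 2389560, 9771324), (6547, 2389572, 9785048),
     (6565, 2389585, 9797934), (6583, 2389596, 9810705), (6601, 2389607, 9823361),
     (6620, 2389618, 9835904), (6639, 2389628, 9849018), (6659, 2389638, 9862004),
     (6680, 2389648, 9875535), (6702, 2389658, 9889588), (6726, 2389668, 9904142),
     (6752, 2389678, 9919822), (6780, 2389688, 9936574), (6811, 2389697, 9954342),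
     (6845, 2389707, 9973684), (6883, 2389717, 9994498), (6900, 2389721, 10017262)]

/-- cells, `m = 26` -/
def cells26 : List (ℤ × ℤ) :=
    [(7481000, 10000000), (7600000, 9898000), (7955000, 9447000), (8456000, 8134000),
     (9027000, 6435000), (9760000, 4912000), (10000000, 3930000)]

theorem tP26 : tQairs (tAe 13) 1000 nodes26 = true := by decide +kernel

theorem tC26 : tCells 26 2389778 2434437 (1000 * 1000, 1877218) (nodes26.map Prod.snd) 0 cells26 = true := by
  decide +kernel

theorem ls2_26 {r τ τ' T : ℝ → ℝ} (hr : IsProf r) (h : IsTrans 26 r τ τ' T)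
    (hN : (∫ y in (-1 : ℝ)..1, r y ^ (26 - 1)) ^ 26 * aInt 26 ^ (26 - 1) ≤
      aInt (26 - 1) ^ 26 * (∫ y in (-1 : ℝ)..1, r y ^ 26) ^ (26 - 1)) {x : ℝ}
    (hx : x ∈ Ioo (0 : ℝ) 1) : τ x ≤ lsY x :=
  ls_main2 (m := 26) (by norm_num) (z := 2389778) (z' := 2434437) (by norm_num) ls_lo26 ls_hi25
    (fun n a h0 h1 h2 => tAe_sound (h := 13) h1 h2 h0)
    (by simp [cells26]) (n0 := 1000) (u0 := 1877218) (by norm_num) (by norm_num) (by norm_num)
    (by decide +kernel) tP26 tC26 hr h hN hx

/-- **A priori bound**: `τ x ≤ x exp((1 - x²)(127/200 + 33/200 x²))` for `4 ≤ m ≤ 26`. -/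
theorem IsTrans.le_lstar2 {m : ℕ} (hm4 : 4 ≤ m) (hm : m ≤ 26) {r τ τ' T : ℝ → ℝ} (hr : IsProf r)
    (h : IsTrans m r τ τ' T)
    (hN : (∫ y in (-1 : ℝ)..1, r y ^ (m - 1)) ^ m * aInt m ^ (m - 1) ≤
      aInt (m - 1) ^ m * (∫ y in (-1 : ℝ)..1, r y ^ m) ^ (m - 1))
    {x : ℝ} (hx : x ∈ Ioo (0 : ℝ) 1) :
    τ x ≤ x * Real.exp ((1 - x ^ 2) * (127 / 200 + 33 / 200 * x ^ 2)) := by
  rcases le_or_gt m 22 with h7 | h7
  · refine (h.le_lstar hm4 h7 hr hN hx).trans ?_
    apply mul_le_mul_of_nonneg_left _ hx.1.le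
    apply Real.exp_le_exp.2
    have h1 : 0 ≤ 1 - x ^ 2 := by nlinarith [hx.1, hx.2]
    apply mul_le_mul_of_nonneg_left _ h1
    nlinarith [sq_nonneg x]
  · have h8 : 23 ≤ m := h7
    clear h7 hm4
    interval_cases m
    · exact ls2_23 hr h hN hx
    · exact ls2_24 hr h hN hx
    · exact ls2_25 hr h hN hx
    · exact ls2_26 hr h hN hx

/-- the same with the logarithm -/
theorem IsTrans.log_le_lstar2 {m : ℕ} (hm4 : 4 ≤ m) (hm : m ≤ 26) {r τ τ' T : ℝ → ℝ}
    (hr : IsProf r) (h : IsTrans m r τ τ' T)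
    (hN : (∫ y in (-1 : ℝ)..1, r y ^ (m - 1)) ^ m * aInt m ^ (m - 1) ≤
      aInt (m - 1) ^ m * (∫ y in (-1 : ℝ)..1, r y ^ m) ^ (m - 1))
    {x : ℝ} (hx : x ∈ Ioo (0 : ℝ) 1) :
    lf τ x ≤ (1 - x ^ 2) * (127 / 200 + 33 / 200 * x ^ 2) := by
  have hτ := h.mem x hx
  have h1 := h.le_lstar2 hm4 hm hr hN hx
  have hx0 := hx.1
  unfold lf
  rw [Real.log_le_iff_le_exp (div_pos hτ.1 hx0), div_le_iff₀ hx0]
  linarith

end Vale.Agent.P237.AllN
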