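import Vale.Agent.P237.AllN.LStar

/-!
# P237, all dimensions: `l ≤ (1 - x²)(31/50 + 7/50 x²)`, the checker
-/

open MeasureTheory Metric Set Module Filter Topology Real

namespace Vale.Agent.P237.AllN

theorem lsD_pos : (0 : ℝ) < (lsD : ℝ) := by rw [lsD_cast]; norm_num

/-- all cells -/
def tCells (m : ℕ) (z z' : ℤ) (p0 : ℤ × ℤ) (prs : List (ℤ × ℤ)) : ℤ → List (ℤ × ℤ) → Bool
  | e, [] => decide (lsD ≤ e)
  | e, (f, k) :: l =>
    decide (e < lsD) && decide (0 ≤ f) && decide (f ≤ lsD) && decide (0 < k) &&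
      (decide (lsD ≤ k) || tK m z z' e k) && decide (p0.2 ≤ k) && tT m z f k p0.1 p0.2 &&
      (prs.all fun p => decide (k ≤ p.2) || tT m z f k p.1 p.2) && tCells m z z' p0 prs f l

theorem tCells_sound {m : ℕ} (hm : 1 ≤ m) {z z' : ℤ} {Z Z' : ℝ} (hz0 : 0 < z)
    (hz : (z : ℝ) / lsD ≤ Z) (hz' : Z' ≤ (z' : ℝ) / lsD) (hZ'0 : 0 < Z') {p0 : ℤ × ℤ}
    {prs : List (ℤ × ℤ)} (hp0 : 0 < p0.2) :
    ∀ (l : List (ℤ × ℤ)) (e : ℤ), 0 ≤ e → tCells m z z' p0 prs e l = true →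
    ∀ E κ τ P : ℝ, (e : ℝ) / lsD ≤ E → ((e : ℝ) / lsD < E ∨ l ≠ []) → E ≤ 1 → 0 < τ → τ ≤ κ →
      κ ≤ 1 → P * LE m E 1 = Z * LE m E (τ / κ) →
      κ * (LE (m - 1) E 1 ^ m * Z ^ (m - 1)) ≤ Z' ^ m * LE m E 1 ^ (m - 1) →
      (∀ θ : ℝ, 0 < θ → θ ≤ 1 → P ≤ θ * ((p0.1 : ℝ) / lsD) → τ ≤ θ * ((p0.2 : ℝ) / lsD)) ∧
      (∀ p ∈ prs, 0 < p.2 → P ≤ (p.1 : ℝ) / lsD → τ ≤ (p.2 : ℝ) / lsD) := by
  intro l
  have hD := lsD_pos
  induction l with
  | nil =>
    intro e he h E κ τ P hE hE' hE1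
    exfalso
    rcases hE' with hE' | hE'
    · unfold tCells at h
      rw [decide_eq_true_eq] at h
      have h1 : (lsD : ℝ) ≤ e := by exact_mod_cast h
      have h2 : 1 ≤ (e : ℝ) / lsD := by rw [le_div_iff₀ hD]; linarith only [h1]
      linarith only [hE1, hE', h2]
    · exact hE' rfl
  | cons c l ih =>
    obtain ⟨f, k⟩ := c
    intro e he h E κ τ P hE _ hE1 hτ0 hτκ hκ1 hP hκ
    unfold tCells at h
    simp only [Bool.and_eq_true, Bool.or_eq_true, decide_eq_true_eq, List.all_eq_true] at h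
    obtain ⟨⟨⟨⟨⟨⟨⟨⟨he1, hf0⟩, hfD⟩, hk0⟩, hK⟩, hp0k⟩, hT0⟩, hTs⟩, hrec⟩ := h
    rcases le_or_gt E ((f : ℝ) / lsD) with hEf | hEf
    · -- this cell
      have he0 : (0 : ℝ) ≤ (e : ℝ) / lsD := by
        have : (0 : ℝ) ≤ (e : ℝ) := by exact_mod_cast he
        (clear * - he hD; positivity)
      have hE0 : 0 ≤ E := he0.trans hE
      have hF1 : (f : ℝ) / lsD ≤ 1 := by
        rw [div_le_one hD]
        exact_mod_cast hfD
      have hk0' : (0 : ℝ) < (k : ℝ) := by exact_mod_cast hk0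
      have hz0' : (0 : ℝ) < (z : ℝ) := by exact_mod_cast hz0
      have hZ0 : 0 < Z := lt_of_lt_of_le (by positivity) hz
      have hκk : κ ≤ (k : ℝ) / lsD := by
        rcases hK with hK | hK
        · refine hκ1.trans ?_
          rw [le_div_iff₀ hD, one_mul]
          exact_mod_cast hK
        · have h1 := tK_sound hm he1 hK
          have he1' : (e : ℝ) / lsD ≤ 1 := by
            rw [div_le_one hD]
            exact_mod_cast he1.le
          have p1 := LE_pos m he0 he1' zero_lt_one le_rfl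
          have p2 := LE_pos (m - 1) he0 he1' zero_lt_one le_rfl
          refine LE_kap hm he0 hE hE1 hZ0 hZ'0 hκ ?_
          calc Z' ^ m * LE m ((e : ℝ) / lsD) 1 ^ (m - 1)
              ≤ ((z' : ℝ) / lsD) ^ m * LE m ((e : ℝ) / lsD) 1 ^ (m - 1) := by
                apply mul_le_mul_of_nonneg_right _ (by (clear * - p1; positivity))
                exact pow_le_pow_left₀ hZ'0.le hz' m
            _ ≤ (k : ℝ) / lsD * (LE (m - 1) ((e : ℝ) / lsD) 1 ^ m * ((z : ℝ) / lsD) ^ (m - 1)) := h1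
            _ ≤ (k : ℝ) / lsD * (LE (m - 1) ((e : ℝ) / lsD) 1 ^ m * Z ^ (m - 1)) := by
                apply mul_le_mul_of_nonneg_left _ (by (clear * - hk0 hD; positivity))
                apply mul_le_mul_of_nonneg_left _ (by (clear * - p2; positivity))
                exact pow_le_pow_left₀ (by (clear * - hz0 hD; positivity)) hz _
      have hF0 : 0 ≤ (f : ℝ) / lsD := hE0.trans hEf
      have pF := LE_pos m hF0 hF1 zero_lt_one le_rfl
      constructor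
      · intro θ hθ0 hθ1 hPθ
        have h2 := tT_sound hfD hk0 hT0
        have hu0 : (0 : ℝ) < (p0.2 : ℝ) := by exact_mod_cast hp0
        have hy0 : 0 ≤ ((p0.2 : ℝ) / lsD) / ((k : ℝ) / lsD) := by (clear * - hp0 hD hk0; positivity)
        have hy1 : ((p0.2 : ℝ) / lsD) / ((k : ℝ) / lsD) ≤ 1 := by
          rw [div_le_one (by (clear * - hk0 hD; positivity))]
          apply div_le_div_of_nonneg_right _ hD.le
          exact_mod_cast hp0k
        refine LE_cell hE0 hEf hF1 hτ0 hτκ hκk (by (clear * - hθ0 hp0 hD; positivity)) hZ0 hP ?_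
        intro _
        have h3 := LE_conc m hF0 hF1 hy0 hy1 hθ0 hθ1
        have e1 : θ * ((p0.2 : ℝ) / lsD) / ((k : ℝ) / lsD) =
            θ * (((p0.2 : ℝ) / lsD) / ((k : ℝ) / lsD)) := by ring
        rw [e1]
        have py : 0 ≤ LE m ((f : ℝ) / lsD) (((p0.2 : ℝ) / lsD) / ((k : ℝ) / lsD)) := by
          have h4 := LE_mono m hF0 hF1 le_rfl hy0 hy1
          have h5 : LE m ((f : ℝ) / lsD) 0 = 0 := by simp only [LE, intervalIntegral.integral_same]
          rw [h5] at h4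
          exact h4
        calc P * LE m ((f : ℝ) / lsD) 1 ≤ θ * ((p0.1 : ℝ) / lsD) * LE m ((f : ℝ) / lsD) 1 :=
              mul_le_mul_of_nonneg_right hPθ pF.le
          _ = θ * ((p0.1 : ℝ) / lsD * LE m ((f : ℝ) / lsD) 1) := by ring
          _ < θ * ((z : ℝ) / lsD * LE m ((f : ℝ) / lsD)
                (((p0.2 : ℝ) / lsD) / ((k : ℝ) / lsD))) := mul_lt_mul_of_pos_left h2 hθ0
          _ = (z : ℝ) / lsD * (θ * LE m ((f : ℝ) / lsD)
                (((p0.2 : ℝ) / lsD) / ((k : ℝ) / lsD))) := by ring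
          _ ≤ Z * (θ * LE m ((f : ℝ) / lsD) (((p0.2 : ℝ) / lsD) / ((k : ℝ) / lsD))) :=
              mul_le_mul_of_nonneg_right hz (mul_nonneg hθ0.le py)
          _ ≤ Z * LE m ((f : ℝ) / lsD) (θ * (((p0.2 : ℝ) / lsD) / ((k : ℝ) / lsD))) :=
              mul_le_mul_of_nonneg_left h3 hZ0.le
      · intro p hp hp2 hPp
        have hu0 : (0 : ℝ) < (p.2 : ℝ) := by exact_mod_cast hp2
        refine LE_cell hE0 hEf hF1 hτ0 hτκ hκk (by (clear * - hp2 hD; positivity)) hZ0 hP ?_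
        intro hX
        have hpk : p.2 < k := by
          have h3 : (p.2 : ℝ) < k := by
            have := mul_lt_mul_of_pos_right hX hD
            rwa [div_mul_cancel₀ _ hD.ne', div_mul_cancel₀ _ hD.ne'] at this
          exact_mod_cast h3
        have h4 : tT m z f k p.1 p.2 = true := by
          rcases hTs p hp with h5 | h5
          · exact absurd h5 (not_le.2 hpk)
          · exact h5
        have h2 := tT_sound hfD hk0 h4
        have hy0 : 0 ≤ ((p.2 : ℝ) / lsD) / ((k : ℝ) / lsD) := by (clear * - hp2 hD hk0; positivity)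
        have hy1 : ((p.2 : ℝ) / lsD) / ((k : ℝ) / lsD) ≤ 1 := by
          rw [div_le_one (by positivity)]
          apply div_le_div_of_nonneg_right _ hD.le
          exact_mod_cast hpk.le
        have py : 0 ≤ LE m ((f : ℝ) / lsD) (((p.2 : ℝ) / lsD) / ((k : ℝ) / lsD)) := by
          have h4 := LE_mono m hF0 hF1 le_rfl hy0 hy1
          have h5 : LE m ((f : ℝ) / lsD) 0 = 0 := by simp only [LE, intervalIntegral.integral_same]
          rw [h5] at h4
          exact h4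
        calc P * LE m ((f : ℝ) / lsD) 1 ≤ (p.1 : ℝ) / lsD * LE m ((f : ℝ) / lsD) 1 :=
              mul_le_mul_of_nonneg_right hPp pF.le
          _ < (z : ℝ) / lsD * LE m ((f : ℝ) / lsD) (((p.2 : ℝ) / lsD) / ((k : ℝ) / lsD)) := h2
          _ ≤ Z * LE m ((f : ℝ) / lsD) (((p.2 : ℝ) / lsD) / ((k : ℝ) / lsD)) :=
              mul_le_mul_of_nonneg_right hz py
    · exact ih f hf0 hrec E κ τ P hEf.le (Or.inl hEf) hE1 hτ0 hτκ hκ1 hP hκ

/-- check of `u / D ≤ X(n / M)`, `M = 10000` -/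
def tU (n u : ℤ) : Bool :=
  decide (u * 10000 * 24 * ipw 1000000000000000000 4 ≤ lsD * n *
    (24 * ipw 1000000000000000000 4 +
      24 * ((100000000 - n * n) * (6200000000 + 14 * (n * n))) * ipw 1000000000000000000 3 +
      12 * ipw ((100000000 - n * n) * (6200000000 + 14 * (n * n))) 2 *
        ipw 1000000000000000000 2 +
      4 * ipw ((100000000 - n * n) * (6200000000 + 14 * (n * n))) 3 * 1000000000000000000 +
      ipw ((100000000 - n * n) * (6200000000 + 14 * (n * n))) 4))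

theorem tU_sound {n u : ℤ} (hn : 0 < n) (hn1 : n ≤ 10000) (h : tU n u = true) :
    (u : ℝ) / lsD ≤ lsX ((n : ℝ) / 10000) := by
  have hD := lsD_pos
  unfold tU at h
  rw [decide_eq_true_eq] at h
  set T : ℤ := (100000000 - n * n) * (6200000000 + 14 * (n * n)) with hT
  have h1 : (u : ℝ) * 10000 * 24 * (1000000000000000000 : ℝ) ^ 4 ≤ lsD * n *
    (24 * (1000000000000000000 : ℝ) ^ 4 + 24 * (T : ℝ) * (1000000000000000000 : ℝ) ^ 3 +
      12 * (T : ℝ) ^ 2 * (1000000000000000000 : ℝ) ^ 2 +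
      4 * (T : ℝ) ^ 3 * 1000000000000000000 + (T : ℝ) ^ 4) := by
    have h2 : ((u * 10000 * 24 * ipw 1000000000000000000 4 : ℤ) : ℝ) ≤ ((lsD * n *
      (24 * ipw 1000000000000000000 4 + 24 * T * ipw 1000000000000000000 3 +
      12 * ipw T 2 * ipw 1000000000000000000 2 + 4 * ipw T 3 * 1000000000000000000 +
      ipw T 4) : ℤ) : ℝ) := by exact_mod_cast h
    push_cast at h2
    rw [ipw_cast, ipw_cast, ipw_cast, ipw_cast, ipw_cast, ipw_cast] at h2
    push_cast at h2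
    exact h2
  have hn' : (0 : ℝ) < (n : ℝ) := by exact_mod_cast hn
  have hn1' : (n : ℝ) ≤ 10000 := by exact_mod_cast hn1
  set t : ℝ := (1 - ((n : ℝ) / 10000) ^ 2) * (31 / 50 + 7 / 50 * ((n : ℝ) / 10000) ^ 2) with ht
  have hTt : (T : ℝ) = t * 1000000000000000000 := by
    rw [hT, ht]
    push_cast
    ring
  have ht0 : 0 ≤ t := by
    rw [ht]
    have h3 : ((n : ℝ) / 10000) ≤ 1 := by rw [div_le_one (by norm_num)]; exact hn1'
    have h4 : 0 ≤ (n : ℝ) / 10000 := by positivity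
    have h5 : ((n : ℝ) / 10000) ^ 2 ≤ 1 := pow_le_one₀ h4 h3
    apply mul_nonneg (by linarith only [h5]) (by positivity)
  have hexp := ls_exp_lower ht0
  unfold lsX
  rw [← ht]
  have h6 : (u : ℝ) ≤ lsD * ((n : ℝ) / 10000 * (1 + t + t ^ 2 / 2 + t ^ 3 / 6 + t ^ 4 / 24)) := by
    rw [hTt] at h1
    have h7 : (0 : ℝ) < 10000 * 24 * (1000000000000000000 : ℝ) ^ 4 := by norm_num
    refine le_of_mul_le_mul_right ?_ h7
    calc (u : ℝ) * (10000 * 24 * (1000000000000000000 : ℝ) ^ 4)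
        = u * 10000 * 24 * (1000000000000000000 : ℝ) ^ 4 := by ring
      _ ≤ _ := h1
      _ = _ := by ring
  rw [div_le_iff₀ hD]
  calc (u : ℝ) ≤ lsD * ((n : ℝ) / 10000 * (1 + t + t ^ 2 / 2 + t ^ 3 / 6 + t ^ 4 / 24)) := h6
    _ ≤ lsD * ((n : ℝ) / 10000 * exp t) := by
        apply mul_le_mul_of_nonneg_left _ hD.le
        exact mul_le_mul_of_nonneg_left hexp (by positivity)
    _ = _ := by ring

/-- double factorial -/
def lsF : ℕ → ℤ
  | 0 => 1
  | h + 1 => lsF h * (2 * (h : ℤ) + 3)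

theorem lsF_pos (h : ℕ) : 0 < lsF h := by
  induction h with
  | zero => simp only [lsF, zero_lt_one]
  | succ h ih =>
    rw [lsF]
    (clear * - ih; positivity)

/-- scaled integral -/
def lsB (n : ℤ) : ℕ → ℤ
  | 0 => n
  | h + 1 => lsF h * n * ipw (100000000 - n * n) (h + 1) +
      (2 * (h : ℤ) + 2) * 100000000 * lsB n h

theorem lsB_eq (n : ℤ) (h : ℕ) : (lsB n h : ℝ) =
    lsA ((n : ℝ) / 10000) h * ((10000 : ℝ) ^ (2 * h + 1) * lsF h) := by
  induction h with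
  | zero =>
    simp only [lsB, lsA, mul_zero, zero_add, pow_one, lsF, Int.cast_one, mul_one, isUnit_iff_ne_zero, ne_eq, OfNat.ofNat_ne_zero, not_false_eq_true, IsUnit.div_mul_cancel]
  | succ h ih =>
    rw [lsB, lsA, lsF]
    push_cast
    rw [ih, ipw_cast]
    push_cast
    have h3 : (2 * (h : ℝ) + 3) ≠ 0 := by positivity
    have e1 : (1 - ((n : ℝ) / 10000) ^ 2) ^ (h + 1) * (10000 : ℝ) ^ (2 * (h + 1) + 1) =
        (100000000 - (n : ℝ) * n) ^ (h + 1) * 10000 := by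
      have e2 : (10000 : ℝ) ^ (2 * (h + 1) + 1) = (100000000 : ℝ) ^ (h + 1) * 10000 := by
        rw [pow_succ, pow_mul]
        (clear * -; norm_num)
      rw [e2, ← mul_assoc, ← mul_pow]
      congr 2
      ring
    have e4 : (10000 : ℝ) ^ (2 * (h + 1) + 1) = 100000000 * (10000 : ℝ) ^ (2 * h + 1) := by
      have : 2 * (h + 1) + 1 = 2 * h + 1 + 2 := by ring
      rw [this, pow_add]
      ring
    calc (lsF h : ℝ) * n * (100000000 - (n : ℝ) * n) ^ (h + 1) +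
          (2 * (h : ℝ) + 2) * 100000000 *
            (lsA ((n : ℝ) / 10000) h * ((10000 : ℝ) ^ (2 * h + 1) * lsF h))
        = (lsF h : ℝ) * (n / 10000 * ((100000000 - (n : ℝ) * n) ^ (h + 1) * 10000)) +
          (2 * (h : ℝ) + 2) * lsF h * lsA ((n : ℝ) / 10000) h *
            (100000000 * (10000 : ℝ) ^ (2 * h + 1)) := by ring
      _ = (lsF h : ℝ) * (n / 10000 * ((1 - ((n : ℝ) / 10000) ^ 2) ^ (h + 1) *
            (10000 : ℝ) ^ (2 * (h + 1) + 1))) +
          (2 * (h : ℝ) + 2) * lsF h * lsA ((n : ℝ) / 10000) h *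
            (10000 : ℝ) ^ (2 * (h + 1) + 1) := by rw [e1, e4]
      _ = _ := by
          field_simp

/-- check of `A_m(n/M) ≤ a / D`, `m = 2 h` -/
def tAe (h : ℕ) (n a : ℤ) : Bool :=
  decide (lsD * lsB n h ≤ a * ipw 10000 (2 * h + 1) * lsF h)

theorem tAe_sound {h : ℕ} {n a : ℤ} (hn : 0 ≤ n) (hn1 : n ≤ 10000) (hT : tAe h n a = true) :
    ∫ t in (0 : ℝ)..((n : ℝ) / 10000), sq t ^ (2 * h) ≤ (a : ℝ) / lsD := by
  have hD := lsD_pos
  unfold tAe at hT
  rw [decide_eq_true_eq] at hT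
  have hn' : (0 : ℝ) ≤ (n : ℝ) := by exact_mod_cast hn
  have hn1' : (n : ℝ) ≤ 10000 := by exact_mod_cast hn1
  rw [ls_even h le_rfl (by (clear * - hn; positivity)) (by rw [div_le_one (by norm_num)]; exact hn1'), lsA_zero,
    sub_zero]
  have h1 : (lsD : ℝ) * (lsB n h : ℝ) ≤ a * (10000 : ℝ) ^ (2 * h + 1) * lsF h := by
    have h2 : ((lsD * lsB n h : ℤ) : ℝ) ≤ ((a * ipw 10000 (2 * h + 1) * lsF h : ℤ) : ℝ) := by
      exact_mod_cast hT
    push_cast at h2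
    rw [ipw_cast] at h2
    push_cast at h2
    exact h2
  rw [lsB_eq] at h1
  have hF : (0 : ℝ) < lsF h := by exact_mod_cast lsF_pos h
  have h3 : (0 : ℝ) < (10000 : ℝ) ^ (2 * h + 1) * lsF h := by positivity
  rw [le_div_iff₀ hD]
  refine le_of_mul_le_mul_right ?_ h3
  calc lsA ((n : ℝ) / 10000) h * lsD * ((10000 : ℝ) ^ (2 * h + 1) * lsF h)
      = lsD * (lsA ((n : ℝ) / 10000) h * ((10000 : ℝ) ^ (2 * h + 1) * lsF h)) := by ring
    _ ≤ a * (10000 : ℝ) ^ (2 * h + 1) * lsF h := h1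
    _ = _ := by ring

/-- check of `A_m(n/M) ≤ a / D`, `m = 2 h + 1` -/
def tAo (h : ℕ) (zh n a : ℤ) : Bool :=
  decide (8 * (zh - a) * (ipw 10000 (2 * h + 7) * lsF (h + 3)) ≤
    lsD * (15 * (lsB 10000 (h + 1) - lsB n (h + 1)) * 10000000000000000 * (2 * (h : ℤ) + 5) *
        (2 * (h : ℤ) + 7) -
      10 * (lsB 10000 (h + 2) - lsB n (h + 2)) * 100000000 * (2 * (h : ℤ) + 7) +
      3 * (lsB 10000 (h + 3) - lsB n (h + 3))))

theorem tAo_sound {h : ℕ} {zh n a : ℤ} (hz : ∫ t in (0 : ℝ)..1, sq t ^ (2 * h + 1) ≤ (zh : ℝ) / lsD)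
    (hn : 0 ≤ n) (hn1 : n ≤ 10000) (hT : tAo h zh n a = true) :
    ∫ t in (0 : ℝ)..((n : ℝ) / 10000), sq t ^ (2 * h + 1) ≤ (a : ℝ) / lsD := by
  have hD := lsD_pos
  unfold tAo at hT
  rw [decide_eq_true_eq] at hT
  have hn' : (0 : ℝ) ≤ (n : ℝ) := by exact_mod_cast hn
  have hn1' : (n : ℝ) ≤ 10000 := by exact_mod_cast hn1
  have hx0 : 0 ≤ (n : ℝ) / 10000 := by positivity
  have hx1 : (n : ℝ) / 10000 ≤ 1 := by rw [div_le_one (by norm_num)]; exact hn1'
  have h4 := ls_odd h hx0 hx1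
  have h5 := intervalIntegral.integral_add_adjacent_intervals
    (cn_sq_pow_ii (2 * h + 1) 0 ((n : ℝ) / 10000)) (cn_sq_pow_ii (2 * h + 1) ((n : ℝ) / 10000) 1)
  have hF : (0 : ℝ) < lsF (h + 3) := by exact_mod_cast lsF_pos (h + 3)
  have hcast : ((8 * (zh - a) * (ipw 10000 (2 * h + 7) * lsF (h + 3)) : ℤ) : ℝ) ≤
    ((lsD * (15 * (lsB 10000 (h + 1) - lsB n (h + 1)) * 10000000000000000 * (2 * (h : ℤ) + 5) *
        (2 * (h : ℤ) + 7) -
      10 * (lsB 10000 (h + 2) - lsB n (h + 2)) * 100000000 * (2 * (h : ℤ) + 7) +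
      3 * (lsB 10000 (h + 3) - lsB n (h + 3))) : ℤ) : ℝ) := by exact_mod_cast hT
  push_cast at hcast
  rw [ipw_cast, lsB_eq, lsB_eq, lsB_eq, lsB_eq, lsB_eq, lsB_eq] at hcast
  push_cast at hcast
  have e0 : ((10000 : ℝ) / 10000) = 1 := by norm_num
  rw [e0] at hcast
  set x : ℝ := (n : ℝ) / 10000 with hx
  have f1 : (lsF (h + 3) : ℝ) = lsF (h + 1) * (2 * (h : ℝ) + 5) * (2 * (h : ℝ) + 7) := by
    have e1 : lsF (h + 3) = lsF (h + 1) * (2 * ((h + 1 : ℕ) : ℤ) + 3) *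
      (2 * ((h + 2 : ℕ) : ℤ) + 3) := by
      rw [show h + 3 = h + 2 + 1 from rfl, lsF, show h + 2 = h + 1 + 1 from rfl, lsF]
    rw [e1]
    push_cast
    ring
  have f2 : (lsF (h + 2) : ℝ) * (2 * (h : ℝ) + 7) = lsF (h + 3) := by
    have e1 : lsF (h + 3) = lsF (h + 2) * (2 * ((h + 2 : ℕ) : ℤ) + 3) := by
      rw [show h + 3 = h + 2 + 1 from rfl, lsF]
    rw [e1]
    push_cast
    ring
  have g1 : (10000 : ℝ) ^ (2 * (h + 1) + 1) * 10000000000000000 = (10000 : ℝ) ^ (2 * h + 7) := by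
    have : 2 * h + 7 = 2 * (h + 1) + 1 + 4 := by ring
    rw [this, pow_add (10000 : ℝ) (2 * (h + 1) + 1) 4]
    congr 1
    norm_num
  have g2 : (10000 : ℝ) ^ (2 * (h + 2) + 1) * 100000000 = (10000 : ℝ) ^ (2 * h + 7) := by
    have : 2 * h + 7 = 2 * (h + 2) + 1 + 2 := by ring
    rw [this, pow_add (10000 : ℝ) (2 * (h + 2) + 1) 2]
    congr 1
    norm_num
  have g3 : (10000 : ℝ) ^ (2 * (h + 3) + 1) = (10000 : ℝ) ^ (2 * h + 7) := by
    have : 2 * h + 7 = 2 * (h + 3) + 1 := by ring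
    rw [this]
  have hS : (0 : ℝ) < (10000 : ℝ) ^ (2 * h + 7) * lsF (h + 3) := by (clear * - hF; positivity)
  have key : 8 * ((zh : ℝ) - a) * ((10000 : ℝ) ^ (2 * h + 7) * lsF (h + 3)) ≤
      lsD * (15 * (lsA 1 (h + 1) - lsA x (h + 1)) - 10 * (lsA 1 (h + 2) - lsA x (h + 2)) +
      3 * (lsA 1 (h + 3) - lsA x (h + 3))) * ((10000 : ℝ) ^ (2 * h + 7) * lsF (h + 3)) := by
    refine hcast.trans (le_of_eq ?_)
    calc (lsD : ℝ) * (15 * (lsA 1 (h + 1) * ((10000 : ℝ) ^ (2 * (h + 1) + 1) * lsF (h + 1)) -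
            lsA x (h + 1) * ((10000 : ℝ) ^ (2 * (h + 1) + 1) * lsF (h + 1))) *
            10000000000000000 * (2 * (h : ℝ) + 5) * (2 * (h : ℝ) + 7) -
          10 * (lsA 1 (h + 2) * ((10000 : ℝ) ^ (2 * (h + 2) + 1) * lsF (h + 2)) -
            lsA x (h + 2) * ((10000 : ℝ) ^ (2 * (h + 2) + 1) * lsF (h + 2))) * 100000000 *
            (2 * (h : ℝ) + 7) +
          3 * (lsA 1 (h + 3) * ((10000 : ℝ) ^ (2 * (h + 3) + 1) * lsF (h + 3)) -
            lsA x (h + 3) * ((10000 : ℝ) ^ (2 * (h + 3) + 1) * lsF (h + 3))))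
        = lsD * (15 * (lsA 1 (h + 1) - lsA x (h + 1)) *
            ((10000 : ℝ) ^ (2 * (h + 1) + 1) * 10000000000000000) *
            (lsF (h + 1) * (2 * (h : ℝ) + 5) * (2 * (h : ℝ) + 7)) -
          10 * (lsA 1 (h + 2) - lsA x (h + 2)) *
            ((10000 : ℝ) ^ (2 * (h + 2) + 1) * 100000000) *
            (lsF (h + 2) * (2 * (h : ℝ) + 7)) +
          3 * (lsA 1 (h + 3) - lsA x (h + 3)) * (10000 : ℝ) ^ (2 * (h + 3) + 1) *
            lsF (h + 3)) := by ring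
      _ = lsD * (15 * (lsA 1 (h + 1) - lsA x (h + 1)) * (10000 : ℝ) ^ (2 * h + 7) *
            lsF (h + 3) -
          10 * (lsA 1 (h + 2) - lsA x (h + 2)) * (10000 : ℝ) ^ (2 * h + 7) *
            lsF (h + 3) +
          3 * (lsA 1 (h + 3) - lsA x (h + 3)) * (10000 : ℝ) ^ (2 * h + 7) *
            lsF (h + 3)) := by rw [g1, g2, g3, f2, ← f1]
      _ = _ := by ring
  have key2 := le_of_mul_le_mul_right key hS
  rw [le_div_iff₀ hD] at hz ⊢
  have h6 := mul_le_mul_of_nonneg_right h4 hD.le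
  rw [← h5] at hz
  nlinarith only [hz, key2, h6]

/-- all nodes -/
def tPairs (tA : ℤ → ℤ → Bool) : ℤ → List (ℤ × ℤ × ℤ) → Bool
  | n, [] => decide (7120 ≤ n)
  | n, (n', a, u) :: l =>
    decide (0 < n) && decide (n ≤ n') && decide (n' ≤ 10000) && decide (0 < u) && tU n u &&
      tA n' a && tPairs tA n' l

theorem tPairs_sound {m : ℕ} {tA : ℤ → ℤ → Bool}
    (hA : ∀ n a : ℤ, tA n a = true → 0 ≤ n → n ≤ 10000 →
      ∫ t in (0 : ℝ)..((n : ℝ) / 10000), sq t ^ m ≤ (a : ℝ) / lsD) :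
    ∀ (l : List (ℤ × ℤ × ℤ)) (n : ℤ), tPairs tA n l = true → ∀ x : ℝ, (n : ℝ) / 10000 ≤ x →
      x < 712 / 1000 → ∃ p ∈ l.map Prod.snd, 0 < p.2 ∧
        (∫ t in (0 : ℝ)..x, sq t ^ m) ≤ (p.1 : ℝ) / lsD ∧ (p.2 : ℝ) / lsD ≤ lsX x := by
  intro l
  induction l with
  | nil =>
    intro n h x hx hx1
    exfalso
    unfold tPairs at h
    rw [decide_eq_true_eq] at h
    have h1 : (7120 : ℝ) ≤ n := by exact_mod_cast h
    have h2 : (n : ℝ) ≤ x * 10000 := by
      rw [div_le_iff₀ (by norm_num)] at hx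
      exact hx
    linarith only [hx, hx1, h1]
  | cons c l ih =>
    obtain ⟨n', a, u⟩ := c
    intro n h x hx hx1
    unfold tPairs at h
    simp only [Bool.and_eq_true, decide_eq_true_eq] at h
    obtain ⟨⟨⟨⟨⟨⟨hn0, hnn⟩, hn1⟩, hu⟩, hU⟩, hAa⟩, hrec⟩ := h
    rcases le_or_gt x ((n' : ℝ) / 10000) with hxn | hxn
    · refine ⟨(a, u), by simp only [List.map_cons, List.mem_cons, List.mem_map, Prod.exists, exists_eq_right, true_or], hu, ?_, ?_⟩
      · have h1 := hA n' a hAa (by omega) hn1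
        refine le_trans ?_ h1
        have hx0 : 0 ≤ x := by
          have : (0 : ℝ) < (n : ℝ) := by exact_mod_cast hn0
          have : 0 < (n : ℝ) / 10000 := by positivity
          (clear m tA hA l ih n' a u hx1 hrec hAa hU hu hn1 hnn hxn h1 this; linarith)
        rw [← intervalIntegral.integral_add_adjacent_intervals (cn_sq_pow_ii m 0 x)
          (cn_sq_pow_ii m x ((n' : ℝ) / 10000))]
        have : 0 ≤ ∫ t in x..((n' : ℝ) / 10000), sq t ^ m :=
          intervalIntegral.integral_nonneg hxn fun t _ => pow_nonneg (cn_sq_nonneg t) m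
        linarith only [this]
      · have h1 := tU_sound hn0 (hnn.trans hn1) hU
        have hn0' : (0 : ℝ) < (n : ℝ) / 10000 := by
          have : (0 : ℝ) < (n : ℝ) := by exact_mod_cast hn0
          positivity
        exact h1.trans (lsX_mono hn0' hx (by nlinarith only [hx1, hx, hn0']))
    · obtain ⟨p, hp, h1⟩ := ih n' hrec x hxn.le hx1
      exact ⟨p, by simp only [List.map_cons, List.mem_cons]; exact Or.inr hp, h1⟩

/-- **The bound from the integer checks.** -/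
theorem ls_main {m : ℕ} (hm : 1 ≤ m) {z z' : ℤ} (hz0 : 0 < z)
    (hz : (z : ℝ) / lsD ≤ ∫ t in (0 : ℝ)..1, sq t ^ m)
    (hz' : ∫ t in (0 : ℝ)..1, sq t ^ (m - 1) ≤ (z' : ℝ) / lsD) {tA : ℤ → ℤ → Bool}
    (hA : ∀ n a : ℤ, tA n a = true → 0 ≤ n → n ≤ 10000 →
      ∫ t in (0 : ℝ)..((n : ℝ) / 10000), sq t ^ m ≤ (a : ℝ) / lsD)
    {n0 u0 : ℤ} {nodes : List (ℤ × ℤ × ℤ)} {cells : List (ℤ × ℤ)} (hc : cells ≠ [])
    (hn0 : 0 < n0) (hn1 : n0 ≤ 7000) (hu0 : 0 < u0) (hU : tU n0 u0 = true)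
    (hP : tPairs tA n0 nodes = true)
    (hC : tCells m z z' (1000 * n0, u0) (nodes.map Prod.snd) 0 cells = true)
    {r τ τ' T : ℝ → ℝ} (hr : IsProf r) (h : IsTrans m r τ τ' T)
    (hN : (∫ y in (-1 : ℝ)..1, r y ^ (m - 1)) ^ m * aInt m ^ (m - 1) ≤
      aInt (m - 1) ^ m * (∫ y in (-1 : ℝ)..1, r y ^ m) ^ (m - 1)) {x : ℝ}
    (hx : x ∈ Ioo (0 : ℝ) 1) : τ x ≤ lsX x := by
  obtain ⟨E, κ, hE0, hE1, hτκ, hκ1, hPE, hκ⟩ := h.truncLE hm hr hN hx
  have hτ := h.mem x hx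
  have hs := tCells_sound hm hz0 hz hz' (cn_Z_pos (m - 1)) (p0 := (1000 * n0, u0)) hu0 cells 0
    le_rfl hC E κ (τ x) (∫ t in (0 : ℝ)..x, sq t ^ m) (by simpa only [Int.cast_zero, zero_div] using hE0) (Or.inr hc) hE1 hτ.1
    hτκ hκ1 hPE hκ
  have hn0' : (0 : ℝ) < (n0 : ℝ) := by exact_mod_cast hn0
  have hn1' : (n0 : ℝ) ≤ 7000 := by exact_mod_cast hn1
  rcases le_or_gt x ((n0 : ℝ) / 10000) with h0 | h0
  · -- near `0`
    have hq : 0 < (n0 : ℝ) / 10000 := by (clear * - hn0; positivity)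
    set θ : ℝ := x / ((n0 : ℝ) / 10000) with hθ
    have hθ0 : 0 < θ := div_pos hx.1 hq
    have hθ1 : θ ≤ 1 := (div_le_one hq).2 h0
    have hθx : θ * ((n0 : ℝ) / 10000) = x := div_mul_cancel₀ _ hq.ne'
    have hPx : (∫ t in (0 : ℝ)..x, sq t ^ m) ≤ x := by
      have h1 : (∫ t in (0 : ℝ)..x, sq t ^ m) ≤ ∫ t in (0 : ℝ)..x, (1 : ℝ) := by
        apply intervalIntegral.integral_mono_on hx.1.le (cn_sq_pow_ii _ _ _) (by simp)
        intro t _
        exact pow_le_one₀ (cn_sq_nonneg t) (cn_sq_le_one t)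
      simpa only [ge_iff_le, intervalIntegral.integral_const, sub_zero, smul_eq_mul, mul_one] using h1
    have h1 := hs.1 θ hθ0 hθ1 (by
      simp only
      have e : ((1000 * n0 : ℤ) : ℝ) / lsD = (n0 : ℝ) / 10000 := by
        rw [lsD_cast]
        push_cast
        ring
      rw [e, hθx]
      exact hPx)
    simp only at h1
    have h2 := tU_sound hn0 (by omega) hU
    have h3 : θ * ((u0 : ℝ) / lsD) ≤ θ * lsX ((n0 : ℝ) / 10000) :=
      mul_le_mul_of_nonneg_left h2 hθ0.le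
    refine h1.trans (h3.trans ?_)
    unfold lsX
    rw [← mul_assoc, hθx]
    apply mul_le_mul_of_nonneg_left _ hx.1.le
    apply Real.exp_le_exp.2
    have h4 : x ^ 2 ≤ ((n0 : ℝ) / 10000) ^ 2 := pow_le_pow_left₀ hx.1.le h0 2
    (clear * - h4; nlinarith [sq_nonneg x, sq_nonneg ((n0 : ℝ) / 10000)])
  · rcases lt_or_ge x (712 / 1000) with h1 | h1
    · obtain ⟨p, hp, hp2, hp3, hp4⟩ := tPairs_sound hA nodes n0 hP x h0.le h1
      exact (hs.2 p hp hp2 hp3).trans hp4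
    · exact hτ.2.le.trans (lsX_ge_one h1 hx.2)

end Vale.Agent.P237.AllN
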