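import Vale.Agent.P237.AllN.LStarB

/-!
# P237, all dimensions: integer checks for a priori bounds `τ x ≤ x C` on an interval
-/

open MeasureTheory Metric Set Module Filter Topology Real

namespace Vale.Agent.P237.AllN

/-- nodes of a step: on `[n, nend] / M` the bound `τ ≤ x c / D` -/
def tStep (tA : ℤ → ℤ → Bool) (c nend : ℤ) : ℤ → List (ℤ × ℤ × ℤ) → Bool
  | n, [] => decide (nend ≤ n)
  | n, (n', a, u) :: l =>
    decide (0 < n) && decide (n ≤ n') && decide (n' ≤ 10000) && decide (0 < u) &&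
      decide (u * 10000 ≤ n * c) && tA n' a && tStep tA c nend n' l

theorem tStep_sound {m : ℕ} {tA : ℤ → ℤ → Bool}
    (hA : ∀ n a : ℤ, tA n a = true → 0 ≤ n → n ≤ 10000 →
      ∫ t in (0 : ℝ)..((n : ℝ) / 10000), sq t ^ m ≤ (a : ℝ) / lsD) {c nend : ℤ} (hc : 0 ≤ c) :
    ∀ (l : List (ℤ × ℤ × ℤ)) (n : ℤ), tStep tA c nend n l = true → ∀ x : ℝ,
      (n : ℝ) / 10000 ≤ x → x < (nend : ℝ) / 10000 → ∃ p ∈ l.map Prod.snd, 0 < p.2 ∧
        (∫ t in (0 : ℝ)..x, sq t ^ m) ≤ (p.1 : ℝ) / lsD ∧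
          (p.2 : ℝ) / lsD ≤ x * ((c : ℝ) / lsD) := by
  intro l
  have hD := lsD_pos
  induction l with
  | nil =>
    intro n h x hx hx1
    exfalso
    unfold tStep at h
    rw [decide_eq_true_eq] at h
    have h1 : (nend : ℝ) ≤ n := by exact_mod_cast h
    have h2 : (nend : ℝ) / 10000 ≤ (n : ℝ) / 10000 := by
      apply div_le_div_of_nonneg_right h1 (by norm_num)
    (clear * - hx hx1 h1; linarith)
  | cons q l ih =>
    obtain ⟨n', a, u⟩ := q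
    intro n h x hx hx1
    unfold tStep at h
    simp only [Bool.and_eq_true, decide_eq_true_eq] at h
    obtain ⟨⟨⟨⟨⟨⟨hn0, hnn⟩, hn1⟩, hu⟩, hU⟩, hAa⟩, hrec⟩ := h
    rcases le_or_gt x ((n' : ℝ) / 10000) with hxn | hxn
    · refine ⟨(a, u), by simp only [List.map_cons, List.mem_cons, List.mem_map, Prod.exists, exists_eq_right, true_or], hu, ?_, ?_⟩
      · have h1 := hA n' a hAa (by (clear * - hn0 hnn; omega)) hn1
        refine le_trans ?_ h1
        rw [← intervalIntegral.integral_add_adjacent_intervals (cn_sq_pow_ii m 0 x)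
          (cn_sq_pow_ii m x ((n' : ℝ) / 10000))]
        have : 0 ≤ ∫ t in x..((n' : ℝ) / 10000), sq t ^ m :=
          intervalIntegral.integral_nonneg hxn fun t _ => pow_nonneg (cn_sq_nonneg t) m
        linarith only [this]
      · simp only
        have h2 : (u : ℝ) * 10000 ≤ n * c := by exact_mod_cast hU
        have h3 : (0 : ℝ) ≤ c := by exact_mod_cast hc
        rw [← mul_div_assoc]
        apply div_le_div_of_nonneg_right _ hD.le
        have h4 : (n : ℝ) / 10000 * c ≤ x * c := mul_le_mul_of_nonneg_right hx h3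
        linarith only [h2, h4]
    · obtain ⟨p, hp, h1⟩ := ih n' hrec x hxn.le hx1
      exact ⟨p, by simp only [List.map_cons, List.mem_cons]; exact Or.inr hp, h1⟩

/-- **Bound on a step.** -/
theorem ls_step {m : ℕ} (hm : 1 ≤ m) {z z' : ℤ} (hz0 : 0 < z)
    (hz : (z : ℝ) / lsD ≤ ∫ t in (0 : ℝ)..1, sq t ^ m)
    (hz' : ∫ t in (0 : ℝ)..1, sq t ^ (m - 1) ≤ (z' : ℝ) / lsD) {tA : ℤ → ℤ → Bool}
    (hA : ∀ n a : ℤ, tA n a = true → 0 ≤ n → n ≤ 10000 →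
      ∫ t in (0 : ℝ)..((n : ℝ) / 10000), sq t ^ m ≤ (a : ℝ) / lsD)
    {n0 nend c : ℤ} {nodes : List (ℤ × ℤ × ℤ)} {cells : List (ℤ × ℤ)} (hc : cells ≠ [])
    (hc0 : 0 ≤ c) (hS : tStep tA c nend n0 nodes = true)
    (hC : tCells m z z' (0, 1) (nodes.map Prod.snd) 0 cells = true)
    {r τ τ' T : ℝ → ℝ} (hr : IsProf r) (h : IsTrans m r τ τ' T)
    (hN : (∫ y in (-1 : ℝ)..1, r y ^ (m - 1)) ^ m * aInt m ^ (m - 1) ≤
      aInt (m - 1) ^ m * (∫ y in (-1 : ℝ)..1, r y ^ m) ^ (m - 1)) {x : ℝ}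
    (hx : x ∈ Ioo (0 : ℝ) 1) (h0 : (n0 : ℝ) / 10000 ≤ x) (h1 : x < (nend : ℝ) / 10000) :
    τ x ≤ x * ((c : ℝ) / lsD) := by
  obtain ⟨E, κ, hE0, hE1, hτκ, hκ1, hPE, hκ⟩ := h.truncLE hm hr hN hx
  have hτ := h.mem x hx
  have hs := tCells_sound hm hz0 hz hz' (cn_Z_pos (m - 1)) (p0 := (0, 1)) one_pos cells 0
    le_rfl hC E κ (τ x) (∫ t in (0 : ℝ)..x, sq t ^ m) (by simpa only [Int.cast_zero, zero_div] using hE0) (Or.inr hc) hE1 hτ.1
    hτκ hκ1 hPE hκ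
  obtain ⟨p, hp, hp2, hp3, hp4⟩ := tStep_sound hA hc0 nodes n0 hS x h0 h1
  exact (hs.2 p hp hp2 hp3).trans hp4

/-- **Bound on the first step.** -/
theorem ls_step0 {m : ℕ} (hm : 1 ≤ m) {z z' : ℤ} (hz0 : 0 < z)
    (hz : (z : ℝ) / lsD ≤ ∫ t in (0 : ℝ)..1, sq t ^ m)
    (hz' : ∫ t in (0 : ℝ)..1, sq t ^ (m - 1) ≤ (z' : ℝ) / lsD) {tA : ℤ → ℤ → Bool}
    (hA : ∀ n a : ℤ, tA n a = true → 0 ≤ n → n ≤ 10000 →
      ∫ t in (0 : ℝ)..((n : ℝ) / 10000), sq t ^ m ≤ (a : ℝ) / lsD)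
    {n0 nend c u0 : ℤ} {nodes : List (ℤ × ℤ × ℤ)} {cells : List (ℤ × ℤ)} (hc : cells ≠ [])
    (hc0 : 0 ≤ c) (hn0 : 0 < n0) (hu0 : 0 < u0) (hu0c : u0 * 10000 ≤ n0 * c)
    (hS : tStep tA c nend n0 nodes = true)
    (hC : tCells m z z' (1000 * n0, u0) (nodes.map Prod.snd) 0 cells = true)
    {r τ τ' T : ℝ → ℝ} (hr : IsProf r) (h : IsTrans m r τ τ' T)
    (hN : (∫ y in (-1 : ℝ)..1, r y ^ (m - 1)) ^ m * aInt m ^ (m - 1) ≤
      aInt (m - 1) ^ m * (∫ y in (-1 : ℝ)..1, r y ^ m) ^ (m - 1)) {x : ℝ}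
    (hx : x ∈ Ioo (0 : ℝ) 1) (h1 : x < (nend : ℝ) / 10000) :
    τ x ≤ x * ((c : ℝ) / lsD) := by
  have hD := lsD_pos
  obtain ⟨E, κ, hE0, hE1, hτκ, hκ1, hPE, hκ⟩ := h.truncLE hm hr hN hx
  have hτ := h.mem x hx
  have hs := tCells_sound hm hz0 hz hz' (cn_Z_pos (m - 1)) (p0 := (1000 * n0, u0)) hu0 cells 0
    le_rfl hC E κ (τ x) (∫ t in (0 : ℝ)..x, sq t ^ m) (by simpa only [Int.cast_zero, zero_div] using hE0) (Or.inr hc) hE1 hτ.1
    hτκ hκ1 hPE hκ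
  have hn0' : (0 : ℝ) < (n0 : ℝ) := by exact_mod_cast hn0
  rcases le_or_gt x ((n0 : ℝ) / 10000) with h0 | h0
  · -- near `0`
    have hq : 0 < (n0 : ℝ) / 10000 := by positivity
    set θ : ℝ := x / ((n0 : ℝ) / 10000) with hθ
    have hθ0 : 0 < θ := div_pos hx.1 hq
    have hθ1 : θ ≤ 1 := (div_le_one hq).2 h0
    have hθx : θ * ((n0 : ℝ) / 10000) = x := div_mul_cancel₀ _ hq.ne'
    have hPx : (∫ t in (0 : ℝ)..x, sq t ^ m) ≤ x := by
      have h1 : (∫ t in (0 : ℝ)..x, sq t ^ m) ≤ ∫ t in (0 : ℝ)..x, (1 : ℝ) := by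
        apply intervalIntegral.integral_mono_on hx.1.le (cn_sq_pow_ii _ _ _) (by simp)
        intro t _
        exact pow_le_one₀ (cn_sq_nonneg t) (cn_sq_le_one t)
      simpa only [ge_iff_le, intervalIntegral.integral_const, sub_zero, smul_eq_mul, mul_one] using h1
    have h1 := hs.1 θ hθ0 hθ1 (by
      simp only
      have e : ((1000 * n0 : ℤ) : ℝ) / lsD = (n0 : ℝ) / 10000 := by
        rw [lsD_cast]
        push_cast
        ring
      rw [e, hθx]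
      exact hPx)
    simp only at h1
    have h2 : (u0 : ℝ) / lsD ≤ (n0 : ℝ) / 10000 * ((c : ℝ) / lsD) := by
      have h3 : (u0 : ℝ) * 10000 ≤ n0 * c := by exact_mod_cast hu0c
      rw [← mul_div_assoc]
      apply div_le_div_of_nonneg_right _ hD.le
      linarith only [h3]
    have h3 : θ * ((u0 : ℝ) / lsD) ≤ θ * ((n0 : ℝ) / 10000 * ((c : ℝ) / lsD)) :=
      mul_le_mul_of_nonneg_left h2 hθ0.le
    rw [← mul_assoc, hθx] at h3
    exact h1.trans h3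
  · obtain ⟨p, hp, hp2, hp3, hp4⟩ := tStep_sound hA hc0 nodes n0 hS x h0.le h1
    exact (hs.2 p hp hp2 hp3).trans hp4

theorem ls_lt_of {m : ℕ} {x q : ℝ} {n : ℤ} (_hx : 0 < x) (hn : 0 < n) (h : (m : ℝ) * x ^ 2 ≤ q)
    (hq : q * 100000000 < m * (n : ℝ) ^ 2) : x < (n : ℝ) / 10000 := by
  have hn' : (0 : ℝ) < (n : ℝ) := by exact_mod_cast hn
  by_contra hcon
  push Not at hcon
  have h1 : ((n : ℝ) / 10000) ^ 2 ≤ x ^ 2 := pow_le_pow_left₀ (by (clear * - hn; positivity)) hcon 2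
  have h2 : (m : ℝ) * ((n : ℝ) / 10000) ^ 2 ≤ m * x ^ 2 :=
    mul_le_mul_of_nonneg_left h1 (by (clear * -; positivity))
  have h3 : (m : ℝ) * ((n : ℝ) / 10000) ^ 2 * 100000000 = m * (n : ℝ) ^ 2 := by ring
  linarith only [h, hq, h2]

theorem ls_ge_of {m : ℕ} {x q : ℝ} {n : ℤ} (hx : 0 < x) (hm : 0 < m) (h : q ≤ (m : ℝ) * x ^ 2)
    (hq : m * (n : ℝ) ^ 2 ≤ q * 100000000) : (n : ℝ) / 10000 ≤ x := by
  have hm' : (0 : ℝ) < (m : ℝ) := by exact_mod_cast hm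
  by_contra hcon
  push Not at hcon
  have h1 : x ^ 2 < ((n : ℝ) / 10000) ^ 2 := pow_lt_pow_left₀ hcon hx.le (by norm_num)
  have h2 : (m : ℝ) * x ^ 2 < m * ((n : ℝ) / 10000) ^ 2 := mul_lt_mul_of_pos_left h1 hm'
  have h3 : (m : ℝ) * ((n : ℝ) / 10000) ^ 2 * 100000000 = m * (n : ℝ) ^ 2 := by ring
  linarith only [h, hq, h2]

theorem ls_log_of {x t L : ℝ} {c : ℤ} (hx : 0 < x) (ht : 0 < t) (hL : 0 ≤ L)
    (h : t ≤ x * ((c : ℝ) / lsD))
    (hc : (c : ℝ) / lsD ≤ 1 + L + L ^ 2 / 2 + L ^ 3 / 6 + L ^ 4 / 24) :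
    Real.log (t / x) ≤ L := by
  rw [Real.log_le_iff_le_exp (div_pos ht hx), div_le_iff₀ hx]
  have h1 := ls_exp_lower hL
  have h2 : x * ((c : ℝ) / lsD) ≤ x * exp L := mul_le_mul_of_nonneg_left (hc.trans h1) hx.le
  linarith only [h, h2]

/-- the box of the a priori bounds, `q = m x²` -/
def ApBox3 (q l : ℝ) : Prop :=
  (q ≤ 16 / 25 → l ≤ 1 / 2) ∧ (16 / 25 ≤ q → q ≤ 121 / 16 → l ≤ 2 / 5) ∧
  (121 / 16 ≤ q → q ≤ 9 → l ≤ 11 / 25)

/-! ### a larger bound for `m ≤ 26` -/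

/-- the second upper bound -/
noncomputable def lsY (x : ℝ) : ℝ := x * exp ((1 - x ^ 2) * (127 / 200 + 33 / 200 * x ^ 2))

theorem lsY_mono {x y : ℝ} (hx : 0 < x) (hxy : x ≤ y) (hy : y ^ 2 ≤ 7 / 10) :
    lsY x ≤ lsY y := by
  have hy0 : 0 < y := hx.trans_le hxy
  unfold lsY
  set w : ℝ := (1 - x ^ 2) * (127 / 200 + 33 / 200 * x ^ 2) -
    (1 - y ^ 2) * (127 / 200 + 33 / 200 * y ^ 2) with hw
  have h1 : w ≤ (y ^ 2 - x ^ 2) / (2 * y ^ 2) := by
    rw [le_div_iff₀ (by positivity)]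
    have h2 : w = (y ^ 2 - x ^ 2) * (94 / 200 + 33 / 200 * (x ^ 2 + y ^ 2)) := by
      rw [hw]
      ring
    have h3 : 0 ≤ y ^ 2 - x ^ 2 := by nlinarith only [hx, hxy]
    have h4 : (94 / 200 + 33 / 200 * (x ^ 2 + y ^ 2)) * (2 * y ^ 2) ≤ 1 := by
      have h5 : (94 / 200 + 33 / 200 * (x ^ 2 + y ^ 2)) ≤ 94 / 200 + 66 / 200 * y ^ 2 := by
        nlinarith only [h3]
      have h6 : (94 / 200 + 66 / 200 * y ^ 2) * (2 * y ^ 2) ≤ 1 := by nlinarith only [hy]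
      nlinarith only [hy, h3]
    rw [h2, mul_assoc]
    nlinarith only [h3, h4]
  have h5 : x / y ≤ exp (-w) := by
    have h6 := add_one_le_exp (-w)
    have h7 : x / y ≤ 1 - (y ^ 2 - x ^ 2) / (2 * y ^ 2) := by
      rw [div_le_iff₀ hy0]
      have e : (1 - (y ^ 2 - x ^ 2) / (2 * y ^ 2)) * y = (y ^ 2 + x ^ 2) / (2 * y) := by
        field_simp
        ring
      rw [e, le_div_iff₀ (by positivity)]
      nlinarith only [sq_nonneg (y - x)]
    linarith only [h1, h6, h7]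
  rw [div_le_iff₀ hy0] at h5
  have h8 : exp ((1 - x ^ 2) * (127 / 200 + 33 / 200 * x ^ 2)) =
      exp w * exp ((1 - y ^ 2) * (127 / 200 + 33 / 200 * y ^ 2)) := by
    rw [← Real.exp_add]
    congr 1
    rw [hw]
    ring
  rw [h8]
  have h9 : exp w * exp (-w) = 1 := by
    rw [← Real.exp_add]
    simp
  have h10 : 0 < exp w := exp_pos _
  have h11 : x * exp w ≤ y := by
    calc x * exp w ≤ exp (-w) * y * exp w := mul_le_mul_of_nonneg_right h5 h10.le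
      _ = y * (exp w * exp (-w)) := by ring
      _ = y := by rw [h9, mul_one]
  calc x * (exp w * exp ((1 - y ^ 2) * (127 / 200 + 33 / 200 * y ^ 2)))
      = x * exp w * exp ((1 - y ^ 2) * (127 / 200 + 33 / 200 * y ^ 2)) := by ring
    _ ≤ y * exp ((1 - y ^ 2) * (127 / 200 + 33 / 200 * y ^ 2)) :=
        mul_le_mul_of_nonneg_right h11 (exp_pos _).le

theorem lsY_69 : 1 ≤ lsY (69 / 100) := by
  unfold lsY
  have h := ls_exp_lower (t := (1 - (69 / 100) ^ 2) * (127 / 200 + 33 / 200 * (69 / 100 : ℝ) ^ 2))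
    (by norm_num)
  have h2 : (1 : ℝ) ≤ 69 / 100 *
      (1 + (1 - (69 / 100) ^ 2) * (127 / 200 + 33 / 200 * (69 / 100 : ℝ) ^ 2) +
      ((1 - (69 / 100) ^ 2) * (127 / 200 + 33 / 200 * (69 / 100 : ℝ) ^ 2)) ^ 2 / 2 +
      ((1 - (69 / 100) ^ 2) * (127 / 200 + 33 / 200 * (69 / 100 : ℝ) ^ 2)) ^ 3 / 6 +
      ((1 - (69 / 100) ^ 2) * (127 / 200 + 33 / 200 * (69 / 100 : ℝ) ^ 2)) ^ 4 / 24) := by
    norm_num
  nlinarith

theorem lsY_ge_one {x : ℝ} (hx : 69 / 100 ≤ x) (hx1 : x < 1) : 1 ≤ lsY x := by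
  rcases le_total (x ^ 2) (7 / 10) with h | h
  · exact lsY_69.trans (lsY_mono (by norm_num) hx h)
  · unfold lsY
    have h1 := add_one_le_exp ((1 - x ^ 2) * (127 / 200 + 33 / 200 * x ^ 2))
    have h2 : 83 / 100 ≤ x := by nlinarith only [h, hx]
    have h3 : 0 ≤ 1 - x ^ 2 := by nlinarith only [hx1, hx]
    have h4 : 1 ≤ x * ((1 - x ^ 2) * (127 / 200 + 33 / 200 * x ^ 2) + 1) := by
      have h5 : (1 - x ^ 2) * (75 / 100) ≤ (1 - x ^ 2) * (127 / 200 + 33 / 200 * x ^ 2) :=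
        mul_le_mul_of_nonneg_left (by linarith) h3
      have h6 : 1 ≤ x * ((1 - x ^ 2) * (75 / 100) + 1) := by
        have h7 : 0 ≤ (1 - x) * (75 / 100 * x * (1 + x) - 1) := by
          apply mul_nonneg (by linarith only [hx1])
          nlinarith only [h2]
        nlinarith only [h7]
      have h8 : 0 < x := by linarith only [h2]
      (clear * - h5 h6 hx; nlinarith)
    have h9 : 0 < x := by linarith only [h2]
    nlinarith

/-- check of `u / D ≤ Y(n / M)`, `M = 10000` -/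
def tV (n u : ℤ) : Bool :=
  decide (u * 10000 * 24 * ipw 10000000000000000000 4 ≤ lsD * n *
    (24 * ipw 10000000000000000000 4 +
      24 * ((100000000 - n * n) * (63500000000 + 165 * (n * n))) * ipw 10000000000000000000 3 +
      12 * ipw ((100000000 - n * n) * (63500000000 + 165 * (n * n))) 2 *
        ipw 10000000000000000000 2 +
      4 * ipw ((100000000 - n * n) * (63500000000 + 165 * (n * n))) 3 * 10000000000000000000 +
      ipw ((100000000 - n * n) * (63500000000 + 165 * (n * n))) 4))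

theorem tV_sound {n u : ℤ} (hn : 0 < n) (hn1 : n ≤ 10000) (h : tV n u = true) :
    (u : ℝ) / lsD ≤ lsY ((n : ℝ) / 10000) := by
  have hD := lsD_pos
  unfold tV at h
  rw [decide_eq_true_eq] at h
  set T : ℤ := (100000000 - n * n) * (63500000000 + 165 * (n * n)) with hT
  have h1 : (u : ℝ) * 10000 * 24 * (10000000000000000000 : ℝ) ^ 4 ≤ lsD * n *
    (24 * (10000000000000000000 : ℝ) ^ 4 + 24 * (T : ℝ) * (10000000000000000000 : ℝ) ^ 3 +
      12 * (T : ℝ) ^ 2 * (10000000000000000000 : ℝ) ^ 2 +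
      4 * (T : ℝ) ^ 3 * 10000000000000000000 + (T : ℝ) ^ 4) := by
    have h2 : ((u * 10000 * 24 * ipw 10000000000000000000 4 : ℤ) : ℝ) ≤ ((lsD * n *
      (24 * ipw 10000000000000000000 4 + 24 * T * ipw 10000000000000000000 3 +
      12 * ipw T 2 * ipw 10000000000000000000 2 + 4 * ipw T 3 * 10000000000000000000 +
      ipw T 4) : ℤ) : ℝ) := by exact_mod_cast h
    push_cast at h2
    rw [ipw_cast, ipw_cast, ipw_cast, ipw_cast, ipw_cast, ipw_cast] at h2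
    push_cast at h2
    exact h2
  have hn' : (0 : ℝ) < (n : ℝ) := by exact_mod_cast hn
  have hn1' : (n : ℝ) ≤ 10000 := by exact_mod_cast hn1
  set t : ℝ := (1 - ((n : ℝ) / 10000) ^ 2) * (127 / 200 + 33 / 200 * ((n : ℝ) / 10000) ^ 2) with ht
  have hTt : (T : ℝ) = t * 10000000000000000000 := by
    rw [hT, ht]
    push_cast
    ring
  have ht0 : 0 ≤ t := by
    rw [ht]
    have h3 : ((n : ℝ) / 10000) ≤ 1 := by rw [div_le_one (by norm_num)]; exact hn1'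
    have h4 : 0 ≤ (n : ℝ) / 10000 := by positivity
    have h5 : ((n : ℝ) / 10000) ^ 2 ≤ 1 := pow_le_one₀ h4 h3
    apply mul_nonneg (by linarith only [h5]) (by positivity)
  have hexp := ls_exp_lower ht0
  unfold lsY
  rw [← ht]
  have h6 : (u : ℝ) ≤ lsD * ((n : ℝ) / 10000 * (1 + t + t ^ 2 / 2 + t ^ 3 / 6 + t ^ 4 / 24)) := by
    rw [hTt] at h1
    have h7 : (0 : ℝ) < 10000 * 24 * (10000000000000000000 : ℝ) ^ 4 := by norm_num
    refine le_of_mul_le_mul_right ?_ h7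
    calc (u : ℝ) * (10000 * 24 * (10000000000000000000 : ℝ) ^ 4)
        = u * 10000 * 24 * (10000000000000000000 : ℝ) ^ 4 := by ring
      _ ≤ _ := h1
      _ = _ := by ring
  rw [div_le_iff₀ hD]
  calc (u : ℝ) ≤ lsD * ((n : ℝ) / 10000 * (1 + t + t ^ 2 / 2 + t ^ 3 / 6 + t ^ 4 / 24)) := h6
    _ ≤ lsD * ((n : ℝ) / 10000 * exp t) := by
        apply mul_le_mul_of_nonneg_left _ hD.le
        exact mul_le_mul_of_nonneg_left hexp (by positivity)
    _ = _ := by ring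

/-- all nodes -/
def tQairs (tA : ℤ → ℤ → Bool) : ℤ → List (ℤ × ℤ × ℤ) → Bool
  | n, [] => decide (6900 ≤ n)
  | n, (n', a, u) :: l =>
    decide (0 < n) && decide (n ≤ n') && decide (n' ≤ 10000) && decide (0 < u) && tV n u &&
      tA n' a && tQairs tA n' l

theorem tQairs_sound {m : ℕ} {tA : ℤ → ℤ → Bool}
    (hA : ∀ n a : ℤ, tA n a = true → 0 ≤ n → n ≤ 10000 →
      ∫ t in (0 : ℝ)..((n : ℝ) / 10000), sq t ^ m ≤ (a : ℝ) / lsD) :
    ∀ (l : List (ℤ × ℤ × ℤ)) (n : ℤ), tQairs tA n l = true → ∀ x : ℝ, (n : ℝ) / 10000 ≤ x →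
      x < 69 / 100 → ∃ p ∈ l.map Prod.snd, 0 < p.2 ∧
        (∫ t in (0 : ℝ)..x, sq t ^ m) ≤ (p.1 : ℝ) / lsD ∧ (p.2 : ℝ) / lsD ≤ lsY x := by
  intro l
  induction l with
  | nil =>
    intro n h x hx hx1
    exfalso
    unfold tQairs at h
    rw [decide_eq_true_eq] at h
    have h1 : (6900 : ℝ) ≤ n := by exact_mod_cast h
    have h2 : (n : ℝ) ≤ x * 10000 := by
      rw [div_le_iff₀ (by norm_num)] at hx
      exact hx
    linarith
  | cons c l ih =>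
    obtain ⟨n', a, u⟩ := c
    intro n h x hx hx1
    unfold tQairs at h
    simp only [Bool.and_eq_true, decide_eq_true_eq] at h
    obtain ⟨⟨⟨⟨⟨⟨hn0, hnn⟩, hn1⟩, hu⟩, hU⟩, hAa⟩, hrec⟩ := h
    rcases le_or_gt x ((n' : ℝ) / 10000) with hxn | hxn
    · refine ⟨(a, u), by simp only [List.map_cons, List.mem_cons, List.mem_map, Prod.exists, exists_eq_right, true_or], hu, ?_, ?_⟩
      · have h1 := hA n' a hAa (by omega) hn1
        refine le_trans ?_ h1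
        rw [← intervalIntegral.integral_add_adjacent_intervals (cn_sq_pow_ii m 0 x)
          (cn_sq_pow_ii m x ((n' : ℝ) / 10000))]
        have : 0 ≤ ∫ t in x..((n' : ℝ) / 10000), sq t ^ m :=
          intervalIntegral.integral_nonneg hxn fun t _ => pow_nonneg (cn_sq_nonneg t) m
        linarith only [this]
      · have h1 := tV_sound hn0 (hnn.trans hn1) hU
        have hn0' : (0 : ℝ) < (n : ℝ) / 10000 := by
          have : (0 : ℝ) < (n : ℝ) := by exact_mod_cast hn0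
          (clear * - hn0; positivity)
        exact h1.trans (lsY_mono hn0' hx (by nlinarith only [hx1, hx, hn0']))
    · obtain ⟨p, hp, h1⟩ := ih n' hrec x hxn.le hx1
      exact ⟨p, by simp only [List.map_cons, List.mem_cons]; exact Or.inr hp, h1⟩

/-- **The second bound from the integer checks.** -/
theorem ls_main2 {m : ℕ} (hm : 1 ≤ m) {z z' : ℤ} (hz0 : 0 < z)
    (hz : (z : ℝ) / lsD ≤ ∫ t in (0 : ℝ)..1, sq t ^ m)
    (hz' : ∫ t in (0 : ℝ)..1, sq t ^ (m - 1) ≤ (z' : ℝ) / lsD) {tA : ℤ → ℤ → Bool}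
    (hA : ∀ n a : ℤ, tA n a = true → 0 ≤ n → n ≤ 10000 →
      ∫ t in (0 : ℝ)..((n : ℝ) / 10000), sq t ^ m ≤ (a : ℝ) / lsD)
    {n0 u0 : ℤ} {nodes : List (ℤ × ℤ × ℤ)} {cells : List (ℤ × ℤ)} (hc : cells ≠ [])
    (hn0 : 0 < n0) (hn1 : n0 ≤ 6000) (hu0 : 0 < u0) (hU : tV n0 u0 = true)
    (hP : tQairs tA n0 nodes = true)
    (hC : tCells m z z' (1000 * n0, u0) (nodes.map Prod.snd) 0 cells = true)
    {r τ τ' T : ℝ → ℝ} (hr : IsProf r) (h : IsTrans m r τ τ' T)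
    (hN : (∫ y in (-1 : ℝ)..1, r y ^ (m - 1)) ^ m * aInt m ^ (m - 1) ≤
      aInt (m - 1) ^ m * (∫ y in (-1 : ℝ)..1, r y ^ m) ^ (m - 1)) {x : ℝ}
    (hx : x ∈ Ioo (0 : ℝ) 1) : τ x ≤ lsY x := by
  obtain ⟨E, κ, hE0, hE1, hτκ, hκ1, hPE, hκ⟩ := h.truncLE hm hr hN hx
  have hτ := h.mem x hx
  have hs := tCells_sound hm hz0 hz hz' (cn_Z_pos (m - 1)) (p0 := (1000 * n0, u0)) hu0 cells 0
    le_rfl hC E κ (τ x) (∫ t in (0 : ℝ)..x, sq t ^ m) (by simpa only [Int.cast_zero, zero_div] using hE0) (Or.inr hc) hE1 hτ.1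
    hτκ hκ1 hPE hκ
  have hn0' : (0 : ℝ) < (n0 : ℝ) := by exact_mod_cast hn0
  have hn1' : (n0 : ℝ) ≤ 6000 := by exact_mod_cast hn1
  rcases le_or_gt x ((n0 : ℝ) / 10000) with h0 | h0
  · -- near `0`
    have hq : 0 < (n0 : ℝ) / 10000 := by positivity
    set θ : ℝ := x / ((n0 : ℝ) / 10000) with hθ
    have hθ0 : 0 < θ := div_pos hx.1 hq
    have hθ1 : θ ≤ 1 := (div_le_one hq).2 h0
    have hθx : θ * ((n0 : ℝ) / 10000) = x := div_mul_cancel₀ _ hq.ne'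
    have hPx : (∫ t in (0 : ℝ)..x, sq t ^ m) ≤ x := by
      have h1 : (∫ t in (0 : ℝ)..x, sq t ^ m) ≤ ∫ t in (0 : ℝ)..x, (1 : ℝ) := by
        apply intervalIntegral.integral_mono_on hx.1.le (cn_sq_pow_ii _ _ _) (by simp)
        intro t _
        exact pow_le_one₀ (cn_sq_nonneg t) (cn_sq_le_one t)
      simpa only [ge_iff_le, intervalIntegral.integral_const, sub_zero, smul_eq_mul, mul_one] using h1
    have h1 := hs.1 θ hθ0 hθ1 (by
      simp only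
      have e : ((1000 * n0 : ℤ) : ℝ) / lsD = (n0 : ℝ) / 10000 := by
        rw [lsD_cast]
        push_cast
        ring
      rw [e, hθx]
      exact hPx)
    simp only at h1
    have h2 := tV_sound hn0 (by omega) hU
    have h3 : θ * ((u0 : ℝ) / lsD) ≤ θ * lsY ((n0 : ℝ) / 10000) :=
      mul_le_mul_of_nonneg_left h2 hθ0.le
    refine h1.trans (h3.trans ?_)
    unfold lsY
    rw [← mul_assoc, hθx]
    apply mul_le_mul_of_nonneg_left _ hx.1.le
    apply Real.exp_le_exp.2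
    have h4 : x ^ 2 ≤ ((n0 : ℝ) / 10000) ^ 2 := pow_le_pow_left₀ hx.1.le h0 2
    nlinarith only [h4]
  · rcases lt_or_ge x (69 / 100) with h1 | h1
    · obtain ⟨p, hp, hp2, hp3, hp4⟩ := tQairs_sound hA nodes n0 hP x h0.le h1
      exact (hs.2 p hp hp2 hp3).trans hp4
    · exact hτ.2.le.trans (lsY_ge_one h1 hx.2)

end Vale.Agent.P237.AllN
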