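import Vale.Agent.P237.AllN.LStarZ

/-!
# P237, all dimensions: `l ≤ (1 - x²)(31/50 + 7/50 x²)` for m = 8, m = 9, m = 10, m = 11, m = 12, m = 13, m = 14
-/

open MeasureTheory Metric Set Module Filter Topology Real

namespace Vale.Agent.P237.AllN

/-- nodes, `m = 8` -/
def nodes8 : List (ℤ × ℤ × ℤ) :=
    [(962, 950248, 1481909), (1161, 1141107, 1779553), (1411, 1374358, 2143307),
     (1732, 1665120, 2596749), (2163, 2033946, 3171931), (2771, 2506447, 3928847),
     (3551, 3017830, 4958888), (4588, 3520937, 6197802), (6015, 3906892, 7659976),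
     (7120, 4033565, 9227435)]

/-- cells, `m = 8` -/
def cells8 : List (ℤ × ℤ) :=
    [(6240000, 10000000), (7190000, 9092000), (8840000, 7807000), (9820000, 6554000), (10000000, 6337000)]

theorem tP8 : tPairs (tAe 4) 800 nodes8 = true := by decide +kernel

theorem tC8 : tCells 8 4063492 4295147 (1000 * 800, 1481909) (nodes8.map Prod.snd) 0 cells8 = true := by
  decide +kernel

theorem ls_8 {r τ τ' T : ℝ → ℝ} (hr : IsProf r) (h : IsTrans 8 r τ τ' T)
    (hN : (∫ y in (-1 : ℝ)..1, r y ^ (8 - 1)) ^ 8 * aInt 8 ^ (8 - 1) ≤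
      aInt (8 - 1) ^ 8 * (∫ y in (-1 : ℝ)..1, r y ^ 8) ^ (8 - 1)) {x : ℝ}
    (hx : x ∈ Ioo (0 : ℝ) 1) : τ x ≤ lsX x :=
  ls_main (m := 8) (by norm_num) (z := 4063492) (z' := 4295147) (by norm_num) ls_lo8 ls_hi7
    (fun n a h0 h1 h2 => tAe_sound (h := 4) h1 h2 h0)
    (by simp [cells8]) (n0 := 800) (u0 := 1481909) (by norm_num) (by norm_num) (by norm_num)
    (by decide +kernel) tP8 tC8 hr h hN hx

/-- nodes, `m = 9` -/
def nodes9 : List (ℤ × ℤ × ℤ) :=
    [(945, 941570, 1481909), (1123, 1110878, 1748378), (1345, 1317785, 2074023),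
     (1629, 1574122, 2477464), (2006, 1898712, 2988327), (2545, 2322552, 3655396),
     (3406, 2888836, 4581802), (4582, 3427189, 5975548), (5824, 3728798, 7652223),
     (6893, 3832949, 9051882), (7120, 3862354, 9882830)]

/-- cells, `m = 9` -/
def cells9 : List (ℤ × ℤ) :=
    [(6460000, 10000000), (7460000, 8967000), (8670000, 7499000), (9630000, 6422000), (10000000, 6084000)]

theorem tP9 : tPairs (tAo 4 3865633) 800 nodes9 = true := by decide +kernel

theorem tC9 : tCells 9 3865630 4063493 (1000 * 800, 1481909) (nodes9.map Prod.snd) 0 cells9 = true := by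
  decide +kernel

theorem ls_9 {r τ τ' T : ℝ → ℝ} (hr : IsProf r) (h : IsTrans 9 r τ τ' T)
    (hN : (∫ y in (-1 : ℝ)..1, r y ^ (9 - 1)) ^ 9 * aInt 9 ^ (9 - 1) ≤
      aInt (9 - 1) ^ 9 * (∫ y in (-1 : ℝ)..1, r y ^ 9) ^ (9 - 1)) {x : ℝ}
    (hx : x ∈ Ioo (0 : ℝ) 1) : τ x ≤ lsX x :=
  ls_main (m := 9) (by norm_num) (z := 3865630) (z' := 4063493) (by norm_num) ls_lo9 ls_hi8
    (fun n a h0 h1 h2 => tAo_sound (h := 4) (zh := 3865633) ls_hi9 h1 h2 h0)
    (by simp [cells9]) (n0 := 800) (u0 := 1481909) (by norm_num) (by norm_num) (by norm_num)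
    (by decide +kernel) tP9 tC9 hr h hN hx

/-- nodes, `m = 10` -/
def nodes10 : List (ℤ × ℤ × ℤ) :=
    [(954, 940115, 1481909), (1144, 1119633, 1764884), (1383, 1340046, 2112322),
     (1693, 1615286, 2546183), (2110, 1961912, 3102524), (2703, 2401759, 3836845),
     (3638, 2951780, 4846202), (4850, 3403163, 6329229), (5817, 3586618, 7989700),
     (6560, 3654021, 9045234), (7120, 3681818, 9664409)]

/-- cells, `m = 10` -/
def cells10 : List (ℤ × ℤ) :=
    [(6970000, 10000000), (7840000, 8285000), (8940000, 7028000), (9830000, 6087000), (10000000, 5823000)]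

theorem tP10 : tPairs (tAe 5) 800 nodes10 = true := by decide +kernel

theorem tC10 : tCells 10 3694083 3865633 (1000 * 800, 1481909) (nodes10.map Prod.snd) 0 cells10 = true := by
  decide +kernel

theorem ls_10 {r τ τ' T : ℝ → ℝ} (hr : IsProf r) (h : IsTrans 10 r τ τ' T)
    (hN : (∫ y in (-1 : ℝ)..1, r y ^ (10 - 1)) ^ 10 * aInt 10 ^ (10 - 1) ≤
      aInt (10 - 1) ^ 10 * (∫ y in (-1 : ℝ)..1, r y ^ 10) ^ (10 - 1)) {x : ℝ}
    (hx : x ∈ Ioo (0 : ℝ) 1) : τ x ≤ lsX x :=
  ls_main (m := 10) (by norm_num) (z := 3694083) (z' := 3865633) (by norm_num) ls_lo10 ls_hi9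
    (fun n a h0 h1 h2 => tAe_sound (h := 5) h1 h2 h0)
    (by simp [cells10]) (n0 := 800) (u0 := 1481909) (by norm_num) (by norm_num) (by norm_num)
    (by decide +kernel) tP10 tC10 hr h hN hx

/-- nodes, `m = 11` -/
def nodes11 : List (ℤ × ℤ × ℤ) :=
    [(822, 816850, 1297604), (970, 958361, 1522401), (1152, 1129472, 1794218),
     (1381, 1338901, 2126905), (1679, 1600564, 2542569), (2069, 1920946, 3077575),
     (2593, 2305716, 3765456), (3397, 2784944, 4662498), (4407, 3193096, 5961624),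
     (5631, 3444273, 7422238), (6505, 3514504, 8863149), (7120, 3535726, 9624727)]

/-- cells, `m = 11` -/
def cells11 : List (ℤ × ℤ) :=
    [(6760000, 10000000), (7450000, 8859000), (8580000, 7598000), (9680000, 6186000), (10000000, 5629000)]

theorem tP11 : tPairs (tAo 5 3543497) 700 nodes11 = true := by decide +kernel

theorem tC11 : tCells 11 3543494 3694084 (1000 * 700, 1297604) (nodes11.map Prod.snd) 0 cells11 = true := by
  decide +kernel

theorem ls_11 {r τ τ' T : ℝ → ℝ} (hr : IsProf r) (h : IsTrans 11 r τ τ' T)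
    (hN : (∫ y in (-1 : ℝ)..1, r y ^ (11 - 1)) ^ 11 * aInt 11 ^ (11 - 1) ≤
      aInt (11 - 1) ^ 11 * (∫ y in (-1 : ℝ)..1, r y ^ 11) ^ (11 - 1)) {x : ℝ}
    (hx : x ∈ Ioo (0 : ℝ) 1) : τ x ≤ lsX x :=
  ls_main (m := 11) (by norm_num) (z := 3543494) (z' := 3694084) (by norm_num) ls_lo11 ls_hi10
    (fun n a h0 h1 h2 => tAo_sound (h := 5) (zh := 3543497) ls_hi11 h1 h2 h0)
    (by simp [cells11]) (n0 := 700) (u0 := 1297604) (by norm_num) (by norm_num) (by norm_num)
    (by decide +kernel) tP11 tC11 hr h hN hx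

/-- nodes, `m = 12` -/
def nodes12 : List (ℤ × ℤ × ℤ) :=
    [(824, 813219, 1297604), (974, 956408, 1526081), (1159, 1129047, 1801550),
     (1393, 1340945, 2139662), (1701, 1607037, 2564249), (2135, 1953308, 3116772),
     (2785, 2399718, 3880283), (3604, 2829599, 4982003), (4614, 3164457, 6278042),
     (5548, 3322256, 7693469), (6443, 3385870, 8778556), (7120, 3403383, 9578786)]

/-- cells, `m = 12` -/
def cells12 : List (ℤ × ℤ) :=
    [(6790000, 10000000), (7690000, 9023000), (8800000, 7269000), (9670000, 5883000), (10000000, 5441000)]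

theorem tP12 : tPairs (tAe 6) 700 nodes12 = true := by decide +kernel

theorem tC12 : tCells 12 3409923 3543497 (1000 * 700, 1297604) (nodes12.map Prod.snd) 0 cells12 = true := by
  decide +kernel

theorem ls_12 {r τ τ' T : ℝ → ℝ} (hr : IsProf r) (h : IsTrans 12 r τ τ' T)
    (hN : (∫ y in (-1 : ℝ)..1, r y ^ (12 - 1)) ^ 12 * aInt 12 ^ (12 - 1) ≤
      aInt (12 - 1) ^ 12 * (∫ y in (-1 : ℝ)..1, r y ^ 12) ^ (12 - 1)) {x : ℝ}
    (hx : x ∈ Ioo (0 : ℝ) 1) : τ x ≤ lsX x :=
  ls_main (m := 12) (by norm_num) (z := 3409923) (z' := 3543497) (by norm_num) ls_lo12 ls_hi11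
    (fun n a h0 h1 h2 => tAe_sound (h := 6) h1 h2 h0)
    (by simp [cells12]) (n0 := 700) (u0 := 1297604) (by norm_num) (by norm_num) (by norm_num)
    (by decide +kernel) tP12 tC12 hr h hN hx

/-- nodes, `m = 13` -/
def nodes13 : List (ℤ × ℤ × ℤ) :=
    [(942, 927535, 1481909), (1117, 1090875, 1742875), (1338, 1291291, 2063076),
     (1629, 1542729, 2464794), (2037, 1869333, 2988327), (2616, 2272450, 3709607),
     (3323, 2660006, 4701051), (4237, 2996788, 5846577), (5092, 3171270, 7191859),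
     (5958, 3253447, 8278408), (6596, 3278041, 9176232), (7120, 3286405, 9689835)]

/-- cells, `m = 13` -/
def cells13 : List (ℤ × ℤ) :=
    [(6910000, 10000000), (7790000, 8980000), (8900000, 7153000), (9740000, 5685000), (10000000, 5257000)]

theorem tP13 : tPairs (tAo 6 3290390) 800 nodes13 = true := by decide +kernel

theorem tC13 : tCells 13 3290388 3409924 (1000 * 800, 1481909) (nodes13.map Prod.snd) 0 cells13 = true := by
  decide +kernel

theorem ls_13 {r τ τ' T : ℝ → ℝ} (hr : IsProf r) (h : IsTrans 13 r τ τ' T)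
    (hN : (∫ y in (-1 : ℝ)..1, r y ^ (13 - 1)) ^ 13 * aInt 13 ^ (13 - 1) ≤
      aInt (13 - 1) ^ 13 * (∫ y in (-1 : ℝ)..1, r y ^ 13) ^ (13 - 1)) {x : ℝ}
    (hx : x ∈ Ioo (0 : ℝ) 1) : τ x ≤ lsX x :=
  ls_main (m := 13) (by norm_num) (z := 3290388) (z' := 3409924) (by norm_num) ls_lo13 ls_hi12
    (fun n a h0 h1 h2 => tAo_sound (h := 6) (zh := 3290390) ls_hi13 h1 h2 h0)
    (by simp [cells13]) (n0 := 800) (u0 := 1481909) (by norm_num) (by norm_num) (by norm_num)
    (by decide +kernel) tP13 tC13 hr h hN hx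

/-- nodes, `m = 14` -/
def nodes14 : List (ℤ × ℤ × ℤ) :=
    [(929, 910661, 1481909), (1085, 1056373, 1719024), (1279, 1231897, 2004653),
     (1528, 1448953, 2357866), (1868, 1725195, 2807390), (2306, 2046140, 3412840),
     (2885, 2400865, 4175426), (3819, 2807846, 5146245), (4953, 3066162, 6597852),
     (5775, 3144179, 8114484), (6327, 3167221, 9005033), (6743, 3175771, 9489423),
     (7120, 3180013, 9789118)]

/-- cells, `m = 14` -/
def cells14 : List (ℤ × ℤ) :=
    [(7100000, 10000000), (7600000, 8741000), (8420000, 7607000), (9490000, 6154000), (10000000, 5179000)]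

theorem tP14 : tPairs (tAe 7) 800 nodes14 = true := by decide +kernel

theorem tC14 : tCells 14 3182595 3290390 (1000 * 800, 1481909) (nodes14.map Prod.snd) 0 cells14 = true := by
  decide +kernel

theorem ls_14 {r τ τ' T : ℝ → ℝ} (hr : IsProf r) (h : IsTrans 14 r τ τ' T)
    (hN : (∫ y in (-1 : ℝ)..1, r y ^ (14 - 1)) ^ 14 * aInt 14 ^ (14 - 1) ≤
      aInt (14 - 1) ^ 14 * (∫ y in (-1 : ℝ)..1, r y ^ 14) ^ (14 - 1)) {x : ℝ}
    (hx : x ∈ Ioo (0 : ℝ) 1) : τ x ≤ lsX x :=
  ls_main (m := 14) (by norm_num) (z := 3182595) (z' := 3290390) (by norm_num) ls_lo14 ls_hi13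
    (fun n a h0 h1 h2 => tAe_sound (h := 7) h1 h2 h0)
    (by simp [cells14]) (n0 := 800) (u0 := 1481909) (by norm_num) (by norm_num) (by norm_num)
    (by decide +kernel) tP14 tC14 hr h hN hx

end Vale.Agent.P237.AllN
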