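import Vale.Agent.P237.AllN.PcCorr2

/-!
# P237, `m = 4`: the correction term below the cylinder
-/

set_option linter.all false

namespace Vale.Agent.P237.AllN.Corr

open PolyPos Real

/-- `4 + 3 s²` -/
def m4p : List ℤ := [4, 0, 3]

/-- `16 + s² (4 + 3 s²)` -/
def m4G : List ℤ := [16, 0, 4, 0, 3]

/-- `100 (1 + s² q)`, `q = (79 + 14 s²)/100` -/
def m4a : List ℤ := [100, 0, 79, 0, 14]

/-- `100 (1 + s³ q)` -/
def m4b : List ℤ := [100, 0, 0, 79, 0, 14]

/-- `s²` -/
def m4t : List ℤ := [0, 0, 1]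

/-- `20 C` -/
def m4C : List ℤ := padd [9] (padd (psm 11 cz) (psm 20 (ppow cz 2)))

def m4P : List ℤ := padd (psm (8 * 4096) (pmul (pmul m4C (ppow [1, 1] 2)) (pmul (ppow m4a 2) m4b)))
  (padd (psm (-20) (pmul (ppow m4G 4) (pmul cz (pmul [10000] (padd m4b [0, 200])))))
    (psm (-20 * 64) (pmul (pmul m4t (padd m4G [16])) (pmul m4G (pmul (ppow m4a 2) m4b)))))

set_option maxRecDepth 100000 in
theorem m4P_nonneg {s : ℝ} (h0 : 0 ≤ s) (h1 : s < 1) : 0 ≤ ev1 m4P s :=
  auto1_sound (n := 4) (A := 0) (B := 1) (D := 1) (by norm_num) (by (clear * -; decide +kernel))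
    (by push_cast; linarith) (by push_cast; linarith)

theorem m4_main {s t z p G q : ℝ} (hs0 : 0 < s) (hs1 : s < 1) (ht : t = s ^ 2)
    (hz : z = 1 - s ^ 2) (hp : p = 4 + 3 * t) (hG : G = 16 + t * p)
    (hq : q = (79 + 14 * t) / 100) :
    64 * t * (16 + G) * G * ((1 + t * q) ^ 2 * (1 + s ^ 3 * q)) +
      G ^ 4 * z * (1 + 2 * s + s ^ 3 * q) ≤
    8 * (9 / 20 + 11 / 20 * z + z ^ 2) * (1 + s) ^ 2 * 4096 *
      ((1 + t * q) ^ 2 * (1 + s ^ 3 * q)) := by
  have h := m4P_nonneg hs0.le hs1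
  have e : ev1 m4P s = 20000000 * (8 * (9 / 20 + 11 / 20 * z + z ^ 2) * (1 + s) ^ 2 * 4096 *
      ((1 + t * q) ^ 2 * (1 + s ^ 3 * q)) - (64 * t * (16 + G) * G *
      ((1 + t * q) ^ 2 * (1 + s ^ 3 * q)) + G ^ 4 * z * (1 + 2 * s + s ^ 3 * q))) := by
    have e1 : ev1 m4G s = G := by
      simp only [m4G, ev1_cons, ev1_nil, hG, hp, ht]; push_cast; ring
    have e2 : ev1 m4a s = 100 * (1 + t * q) := by
      simp only [m4a, ev1_cons, ev1_nil, hq, ht]; push_cast; ring
    have e3 : ev1 m4b s = 100 * (1 + s ^ 3 * q) := by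
      simp only [m4b, ev1_cons, ev1_nil, hq, ht]; push_cast; ring
    have e4 : ev1 cz s = z := by rw [ev_cz, hz]
    have e5 : ev1 m4C s = 20 * (9 / 20 + 11 / 20 * z + z ^ 2) := by
      simp only [m4C, ev1_padd, ev1_psm, ev1_ppow, ev1_cons, ev1_nil, e4]; push_cast; ring
    have e6 : ev1 m4t s = t := by
      simp only [m4t, ev1_cons, ev1_nil, ht]; push_cast; ring
    simp only [m4P, ev1_padd, ev1_psm, ev1_ppow, ev1_pmul, ev1_cons, ev1_nil, e1, e2, e3, e4, e5,
      e6]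
    push_cast
    ring
  rw [e] at h
  linarith only [h]

/-- the correction term below the cylinder, `m = 4` -/
theorem corrM4 {s sig l z : ℝ} (hs0 : 0 < s) (hs1 : s < 1) (hz : z = 1 - s ^ 2)
    (hsig : 0 ≤ sig) (he : sig ^ 2 = 1 - z * exp (2 * l))
    (hl : exp l ≤ (15 - 10 * z + 3 * z ^ 2) / 8) :
    -((9 / 20 + 11 / 20 * z + z ^ 2) * (z / s ^ 2) * l ^ 2) ≤ Fc s sig l := by
  have hz0 : 0 < z := by rw [hz]; nlinarith only [hs1, hs0]
  rcases le_or_gt l 0 with h | h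
  · refine neg_case hs0 hz hz0.le hsig he h ?_
    have h1 : 0 ≤ z ^ 2 * (1 + s) ^ 2 := by positivity
    have h2 : 0 ≤ z * (1 + s) ^ 2 := by positivity
    nlinarith only [h2, hz]
  · set t : ℝ := s ^ 2 with ht
    have ht0 : 0 < t := by positivity
    have ht1 : t < 1 := by linarith only [hz0, hz]
    set p : ℝ := 4 + 3 * t with hp
    set G : ℝ := 16 + t * p with hG
    set q : ℝ := (79 + 14 * t) / 100 with hq
    have hp0 : 0 < p := by positivity
    have hG0 : 0 < G := by positivity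
    have hq0 : 0 < q := by positivity
    set R : ℝ := 1 + t * p / 8 with hR
    have hR0 : 0 < R := by positivity
    have hRl : exp l ≤ R := by
      refine hl.trans (le_of_eq ?_)
      rw [hR, hp, show z = 1 - t from hz]
      ring
    set a : ℝ := log R with ha
    have hea : exp a = R := exp_log hR0
    have hea2 : exp (2 * a) = R ^ 2 := by
      rw [show 2 * a = a + a by ring, exp_add, hea]; ring
    have hla : l ≤ a := by
      rw [← hea] at hRl
      exact exp_le_exp.1 hRl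
    have ha0 : 0 < a := h.trans_le hla
    have hσ : (s ^ 3 * q) ^ 2 ≤ 1 - z * R ^ 2 := by
      have e1 : 1 - z * R ^ 2 - (s ^ 3 * q) ^ 2 = t ^ 3 * ((40 + 15 * t + 9 * t ^ 2) / 64 - q ^ 2) := by
        rw [hR, hp, show z = 1 - t from hz, hq, ht]
        ring
      have e2 : 0 ≤ (40 + 15 * t + 9 * t ^ 2) / 64 - q ^ 2 := by
        rw [hq]
        nlinarith only []
      have e3 : 0 ≤ t ^ 3 * ((40 + 15 * t + 9 * t ^ 2) / 64 - q ^ 2) := by (clear * - hs0 e2; positivity)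
      linarith only [e1, e3]
    refine gen hs0 hz hz0.le (by positivity) hsig he h hla hea2.le hσ ?_
    set w : ℝ := t * p / G with hw
    have hw0 : 0 < w := by positivity
    have hw1 : w < 1 := by
      rw [hw, div_lt_one hG0, hG]
      linarith only []
    have haw : 2 * w ≤ a := by
      have h1 := half_log_ge hw0.le hw1
      have h2 : (1 + w) / (1 - w) = R := by
        have h3 : 1 + w = (16 + 2 * (t * p)) / G := by rw [hw, hG]; field_simp; ring
        have h4 : 1 - w = 16 / G := by rw [hw, hG]; field_simp; ring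
        rw [h3, h4, hR]
        field_simp
        ring
      rw [h2] at h1
      have : 0 ≤ w ^ 3 / 3 + w ^ 5 / 5 := by positivity
      rw [ha]; linarith only [h1, this]
    have hmain := m4_main hs0 hs1 ht hz hp hG hq
    have hd1 : 0 < (1 + t * q) ^ 2 * (1 + s ^ 3 * q) := by positivity
    have key : (R ^ 2 - 1) ^ 2 * z * (1 + 2 * s + s ^ 3 * q) /
        ((s ^ 3 * q + s) ^ 2 * (1 + s ^ 3 * q)) + (R ^ 2 - 1 - 2 * (2 * w)) ≤
        2 * (9 / 20 + 11 / 20 * z + z ^ 2) * (1 + s) ^ 2 * (2 * w) ^ 2 / s ^ 2 := by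
      have hRt : R = (G - 8) / 8 := by rw [hR, hG]; ring
      have e0 : R ^ 2 - 1 = t * p * G / 64 := by rw [hR, hG]; ring
      have e1 : (R ^ 2 - 1) ^ 2 * z * (1 + 2 * s + s ^ 3 * q) /
        ((s ^ 3 * q + s) ^ 2 * (1 + s ^ 3 * q)) = t * p ^ 2 / G ^ 2 *
          (G ^ 4 * z * (1 + 2 * s + s ^ 3 * q) / (4096 * ((1 + t * q) ^ 2 * (1 + s ^ 3 * q)))) := by
        rw [e0, show s ^ 3 * q + s = s * (1 + t * q) by rw [ht]; ring, mul_pow]
        rw [show (s ^ 2 : ℝ) = t from ht.symm]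
        field_simp
        ring
      have e2 : R ^ 2 - 1 - 2 * (2 * w) = t * p ^ 2 / G ^ 2 *
          (64 * t * (16 + G) * G / 4096) := by
        rw [e0, hw]
        have : G = 16 + t * p := hG
        field_simp
        rw [this]
        ring
      have e3 : 2 * (9 / 20 + 11 / 20 * z + z ^ 2) * (1 + s) ^ 2 * (2 * w) ^ 2 / s ^ 2 =
          t * p ^ 2 / G ^ 2 * (8 * (9 / 20 + 11 / 20 * z + z ^ 2) * (1 + s) ^ 2) := by
        rw [hw, show (s ^ 2 : ℝ) = t from ht.symm]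
        field_simp
        ring
      rw [e1, e2, e3, ← mul_add]
      apply mul_le_mul_of_nonneg_left _ (by positivity)
      rw [div_add_div _ _ (by positivity) (by norm_num), div_le_iff₀ (by positivity)]
      linear_combination 4096 * hmain
    have h6 : (2 * w) ^ 2 ≤ a ^ 2 := pow_le_pow_left₀ (by positivity) haw 2
    have h7 : 2 * (9 / 20 + 11 / 20 * z + z ^ 2) * (1 + s) ^ 2 * (2 * w) ^ 2 / s ^ 2 ≤
        2 * (9 / 20 + 11 / 20 * z + z ^ 2) * (1 + s) ^ 2 * a ^ 2 / s ^ 2 := by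
      apply div_le_div_of_nonneg_right _ (by positivity)
      exact mul_le_mul_of_nonneg_left h6 (by positivity)
    linarith only [haw, key, h7]

/-- the correction term below the cylinder, `m = 4` -/
theorem corr_M4 {x l : ℝ} (hx0 : 0 < x) (hx1 : x < 1)
    (hl : exp l ≤ (15 - 10 * x ^ 2 + 3 * x ^ 4) / 8) :
    -((9 / 20 + 11 / 20 * x ^ 2 + (x ^ 2) ^ 2) * (x ^ 2 / sq x ^ 2)) * l ^ 2 ≤
      sq x * (bg (x * exp l) - bg x) + x ^ 2 * l / (1 + sq x) ^ 2 := by
  have h1 : x * exp l ≤ 1 := by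
    have h2 : x * exp l ≤ x * ((15 - 10 * x ^ 2 + 3 * x ^ 4) / 8) :=
      mul_le_mul_of_nonneg_left hl hx0.le
    have h3 : 0 ≤ (1 - x) ^ 3 * (8 + 9 * x + 3 * x ^ 2) := by
      have : 0 < 1 - x := by linarith only [hx1]
      positivity
    linarith
  obtain ⟨a1, a2, a3, a4, a5⟩ := sq_facts hx0 hx1 h1
  have h := corrM4 a1 a2 a3 a4 a5 (l := l) (by
    rw [show (x ^ 2) ^ 2 = x ^ 4 by ring]; exact hl)
  rw [Fc_bg hx0 hx1, neg_mul]
  exact h

end Vale.Agent.P237.AllN.Corr
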