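import Vale.Agent.P237.AllN.M4In

/-!
# P237, `m = 4`: the joint lines
-/

open MeasureTheory Metric Set Module Filter Topology

namespace Vale.Agent.P237.AllN.M4

open PolyPos Alm

theorem fam_casesE {F : List (List Ex)} {x y : ℝ}
    (h : ∃ i, ∀ p ∈ F.getD i [Ex.c ⟨-1, 0⟩], 0 ≤ p.R x y) : ∃ L ∈ F, ∀ p ∈ L, 0 ≤ p.R x y := by
  obtain ⟨i, hi⟩ := h
  by_cases hl : i < F.length
  · refine ⟨F[i], List.getElem_mem hl, fun p hp => hi p ?_⟩
    rw [List.getD_eq_getElem _ _ hl]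
    exact hp
  · exfalso
    have := hi (Ex.c ⟨-1, 0⟩) (by rw [List.getD_eq_default _ _ (by omega)]; simp)
    simp only [Ex.R, Fr.R, Int.reduceNeg, Int.cast_neg, Int.cast_one, CharP.cast_eq_zero, zero_add, div_one, Left.nonneg_neg_iff] at this
    linarith only [this]

theorem jloL {z : ℝ} (h0 : 361 / 2500 ≤ z) (h1 : z ≤ 4 / 9) :
    9 / 16 * z * (18 / 5 - 107 / 10 * z + 46 / 5 * z ^ 2) ^ 2 <
      (18 / 25 - 187 / 200 * z + 26 / 100 * (1 - z)) ^ 2 * (1 - z) := by
  have h := auto1_sound (n := 4) (A := 14440) (B := 44446) (D := 100000) (by norm_num)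
    (p := [4800000 , -52963000, 235526125, -515443250, 553725000, -238050000])
    (by (clear * -; decide +kernel)) (x := z) (by push_cast; linarith only [h0]) (by push_cast; linarith only [h1])
  simp only [ev1, evL] at h
  norm_num at h
  (clear * - h; nlinarith)

theorem jloR {t : ℝ} (h0 : 19 / 100 ≤ t) (h1 : t ≤ 5 / 9) :
    9 / 16 * (1 - t) * (15 / 100 + 3 / 2 * t) ^ 2 <
      (34 / 100 + 31 / 100 * t + 29 / 100) ^ 2 * t := by
  nlinarith [mul_nonneg (sub_nonneg.2 h0) (sub_nonneg.2 h1),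
    mul_nonneg (mul_nonneg (sub_nonneg.2 h0) (sub_nonneg.2 h1)) (sub_nonneg.2 h0)]

variable {r τ τ' T : ℝ → ℝ} {x : ℝ}

theorem uf_E (h : IsTrans 4 r τ τ' T) (hx : x ∈ Ioo (0 : ℝ) 1) :
    (1 + uf τ τ' x) * τ x = x * τ' x := by
  have := (h.mem x hx).1
  rw [pin_E]
  (clear * - this; field_simp)

theorem ev_jkL (x y : ℝ) : jkL.R x y = 18 / 5 - 107 / 10 * x ^ 2 + 46 / 5 * (x ^ 2) ^ 2 := by
  simp only [jkL, Ex.R_add, Ex.R_sub, Ex.R_mul, Ex.R_c, Fr.R, ev_jz]; push_cast; ring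

theorem ev_jEL (x y : ℝ) : jEL.R x y =
    18 / 5 - 107 / 10 * x ^ 2 + 46 / 5 * (x ^ 2) ^ 2 + (18 / 25 - 187 / 200 * x ^ 2) -
      (1 - x ^ 2) * y := by
  simp only [jEL, Ex.R_add, Ex.R_sub, Ex.R_mul, Ex.R_c, Fr.R, Ex.R_Y, ev_jz, ev_jt, ev_jkL]
  push_cast
  ring

theorem ev_jkR (x y : ℝ) : jkR.R x y = (1 - x ^ 2) * (15 / 100 + 3 / 2 * (1 - x ^ 2)) := by
  simp only [jkR, Ex.R_add, Ex.R_mul, Ex.R_c, Fr.R, ev_jt]; push_cast; ring

theorem ev_jER (x y : ℝ) : jER.R x y =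
    (1 - x ^ 2) * (15 / 100 + 3 / 2 * (1 - x ^ 2)) +
      (1 - x ^ 2) * (34 / 100 + 31 / 100 * (1 - x ^ 2)) - (1 - x ^ 2) * y := by
  simp only [jER, Ex.R_add, Ex.R_sub, Ex.R_mul, Ex.R_c, Fr.R, Ex.R_Y, ev_jt, ev_jkR]
  push_cast
  ring

theorem ev_zero (x y : ℝ) : (en 0).R x y ≤ 0 := by rw [en_R]; simp

/-- left joint line -/
theorem jlineL (hr : IsProf r) (h : IsTrans 4 r τ τ' T) (hx : x ∈ Ioo (0 : ℝ) 1)
    (h0 : 19 / 50 ≤ x) (h1 : x < 2 / 3) :
    lf τ x ≤ 18 / 25 - 187 / 200 * x ^ 2 -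
      (18 / 5 - 107 / 10 * x ^ 2 + 46 / 5 * (x ^ 2) ^ 2) * uf τ τ' x := by
  have hz0 : 361 / 2500 ≤ x ^ 2 := by (clear * - h0; nlinarith)
  have hz1 : x ^ 2 < 4 / 9 := by nlinarith only [h1, h0]
  have hk : 0 < 18 / 5 - 107 / 10 * x ^ 2 + 46 / 5 * (x ^ 2) ^ 2 := by
    nlinarith only [h0, h1]
  refine jline_gen hr h hx (y0 := 26 / 100) (y1 := 83 / 100) hk (by linarith only [hz1]) (by norm_num)
    (jloL hz0 hz1.le) (by linarith only [hz0]) ?_
  intro y hy0 hy1 hτ
  have key : jkL.R x y * (1 + uf τ τ' x) ≤ jEL.R x y := by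
    have hlit : 0 ≤ (jA jEL jkL jWL).R x y ∧ 0 ≤ (jB jEL jkL jWL).R x y := by
      rcases lt_or_ge y 0 with hy | hy
      · obtain ⟨L, hL, hp⟩ := fam_casesE (tchkE_sound (ev_zero x y) _ _ _ _ _ _ _ (by norm_num)
          (by norm_num) (by norm_num) (by norm_num) jL_low (by push_cast; linarith only [h0])
          (by push_cast; linarith only [h1]) (by push_cast; linarith only [hy0]) (by push_cast; linarith only [hy]))
        simp only [List.mem_cons, List.not_mem_nil, or_false] at hL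
        subst hL
        exact ⟨hp _ (by simp), hp _ (by simp)⟩
      · obtain ⟨L, hL, hp⟩ := fam_casesE (tchkE_sound (ev_zero x y) _ _ _ _ _ _ _ (by norm_num)
          (by norm_num) (by norm_num) (by norm_num) jL_high (by push_cast; linarith only [h0])
          (by push_cast; linarith only [h1]) (by push_cast; linarith only [hy]) (by push_cast; linarith only [hy1]))
        simp only [List.mem_cons, List.not_mem_nil, or_false] at hL
        subst hL
        exact ⟨hp _ (by simp), hp _ (by simp)⟩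
    refine jl_poly hr h hx (uf_E h hx) hτ (W := jWL) ?_ hlit.1 hlit.2
    rw [ev_jkL]
    exact hk
  rw [ev_jkL, ev_jEL] at key
  linarith only [key]

/-- right joint line -/
theorem jlineR (hr : IsProf r) (h : IsTrans 4 r τ τ' T) (hx : x ∈ Ioo (0 : ℝ) 1)
    (h0 : 2 / 3 ≤ x) (h1 : x < 9 / 10) :
    lf τ x ≤ (1 - x ^ 2) * (34 / 100 + 31 / 100 * (1 - x ^ 2)) -
      (1 - x ^ 2) * (15 / 100 + 3 / 2 * (1 - x ^ 2)) * uf τ τ' x := by
  have hz0 : 19 / 100 < 1 - x ^ 2 := by nlinarith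
  have hz1 : 1 - x ^ 2 ≤ 5 / 9 := by nlinarith only [h0]
  have hk : 0 < (1 - x ^ 2) * (15 / 100 + 3 / 2 * (1 - x ^ 2)) := by
    have : 0 < 1 - x ^ 2 := by linarith only [hz0]
    (clear * - hz0; positivity)
  have ht : 0 < 1 - x ^ 2 := by linarith only [hz0]
  refine jline_gen hr h hx (y0 := 29 / 100) (y1 := 71 / 100) hk (by positivity) (by norm_num)
    ?_ (by linarith only [hz1]) ?_
  · have h2 := jloR hz0.le hz1
    have h3 := mul_lt_mul_of_pos_left h2 (pow_pos ht 2)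
    have e : (1 : ℝ) - (1 - x ^ 2) = x ^ 2 := by ring
    rw [e] at h3
    nlinarith only [h3]
  intro y hy0 hy1 hτ
  have key : jkR.R x y * (1 + uf τ τ' x) ≤ jER.R x y := by
    have hlit : (0 ≤ (jA jER jkR jWR).R x y ∧ 0 ≤ (jB jER jkR jWR).R x y) ∨
        (0 ≤ (jA0 jER jkR).R x y ∧ 0 ≤ (jB jER jkR (en 0)).R x y) := by
      rcases lt_or_ge y 0 with hy | hy
      · obtain ⟨L, hL, hp⟩ := fam_casesE (tchkE_sound (ev_zero x y) _ _ _ _ _ _ _ (by norm_num)
          (by norm_num) (by norm_num) (by norm_num) jR_low (by push_cast; linarith only [h0])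
          (by push_cast; linarith only [h1]) (by push_cast; linarith only [hy0]) (by push_cast; linarith only [hy]))
        simp only [List.mem_cons, List.not_mem_nil, or_false] at hL
        rcases hL with hL | hL
        · subst hL
          exact Or.inl ⟨hp _ (by simp), hp _ (by simp)⟩
        · subst hL
          exact Or.inr ⟨hp _ (by simp), hp _ (by simp)⟩
      · obtain ⟨L, hL, hp⟩ := fam_casesE (tchkE_sound (ev_zero x y) _ _ _ _ _ _ _ (by norm_num)
          (by norm_num) (by norm_num) (by norm_num) jR_high (by push_cast; linarith only [h0])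
          (by push_cast; linarith only [h1]) (by push_cast; linarith only [hy]) (by push_cast; linarith only [hy1]))
        simp only [List.mem_cons, List.not_mem_nil, or_false] at hL
        rcases hL with hL | hL
        · subst hL
          exact Or.inl ⟨hp _ (by simp), hp _ (by simp)⟩
        · subst hL
          exact Or.inr ⟨hp _ (by simp), hp _ (by simp)⟩
    rcases hlit with hlit | hlit
    · refine jl_poly hr h hx (uf_E h hx) hτ (W := jWR) ?_ hlit.1 hlit.2
      rw [ev_jkR]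
      exact hk
    · refine jl_poly0 hr h hx (uf_E h hx) hτ ?_ hlit.1 hlit.2
      rw [ev_jkR]
      exact hk
  rw [ev_jkR, ev_jER] at key
  linarith only [key]

end Vale.Agent.P237.AllN.M4
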