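import Vale.Agent.P237.AllN.PolyArith

/-!
# P237, `m = 4`: bounds of `u - 4 ((1+u)^{1/4} - 1)`
-/

namespace Vale.Agent.P237.AllN.M4

open PolyPos

/-- `(V+1)² (V²+1)²` -/
def rhD : List ℤ := pmul (ppow [1, 1] 2) (ppow [1, 0, 1] 2)

/-- `V² + 2V + 3` -/
def rhN : List ℤ := [3, 2, 1]

/-- `V⁴ - 1` -/
def rhu : List ℤ := [-1, 0, 0, 0, 1]

/-- `V⁴` -/
def rh4 : List ℤ := [0, 0, 0, 0, 1]

def rhb : List ℤ := padd (pmul (padd [192] (padd (psm 80 rhu) (psm (-35) (ppow rhu 2)))) rhD)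
  (psm (-512) (pmul rh4 rhN))

def rha : List ℤ := padd (pmul (padd [60] (padd (psm 25 rhu) (psm (-8) (ppow rhu 2)))) rhD)
  (psm (-160) (pmul rh4 rhN))

def rhe : List ℤ := padd (pmul (padd (psm 300 (ppow rh4 2)) (padd (psm 125 (pmul rhu rh4))
  (psm 128 (ppow rhu 2)))) rhD) (psm (-800) (pmul (ppow rh4 3) rhN))

def rhg : List ℤ := padd (pmul (padd (psm 3 rh4) (psm 5 rhu)) rhD)
  (psm (-8) (pmul (ppow rh4 2) rhN))

set_option maxRecDepth 100000 in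
theorem rhb_nonneg {V : ℝ} (h0 : 0 ≤ V) (h1 : V < 1) : 0 ≤ ev1 rhb V :=
  auto1_sound (n := 4) (A := 0) (B := 1) (D := 1) (by norm_num) (by decide +kernel)
    (by push_cast; linarith only [h0]) (by push_cast; linarith)

set_option maxRecDepth 100000 in
theorem rha_nonneg {V : ℝ} (h0 : 1 ≤ V) (h1 : V < 1139 / 1000) : 0 ≤ ev1 rha V :=
  auto1_sound (n := 4) (A := 1000) (B := 1139) (D := 1000) (by norm_num) (by (clear * -; decide +kernel))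
    (by push_cast; linarith only [h0]) (by push_cast; linarith)

set_option maxRecDepth 100000 in
theorem rhe_nonneg {V : ℝ} (h0 : 1 ≤ V) (h1 : V < 1301 / 1000) : 0 ≤ ev1 rhe V :=
  auto1_sound (n := 4) (A := 1000) (B := 1301) (D := 1000) (by norm_num) (by (clear * -; decide +kernel))
    (by push_cast; linarith only [h0]) (by push_cast; linarith)

variable {V u : ℝ}

theorem rh_pm (hV : V ^ 4 = 1 + u) : u - 4 * (V - 1) = (V - 1) ^ 2 * (V ^ 2 + 2 * V + 3) := by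
  linear_combination -hV

theorem rh_u (hV : V ^ 4 = 1 + u) : u = (V - 1) * ((V + 1) * (V ^ 2 + 1)) := by
  linear_combination -hV

theorem rho0 (hV0 : 0 < V) (hV : V ^ 4 = 1 + u) : 0 ≤ u - 4 * (V - 1) := by
  rw [rh_pm hV]; positivity

/-- general reduction -/
theorem rh_red {ρ : ℝ} (hV : V ^ 4 = 1 + u)
    (h : V ^ 4 * (V ^ 2 + 2 * V + 3) ≤ ρ * ((V + 1) ^ 2 * (V ^ 2 + 1) ^ 2)) :
    (u - 4 * (V - 1)) * (1 + u) ≤ ρ * u ^ 2 := by
  have h1 := mul_le_mul_of_nonneg_left h (sq_nonneg (V - 1))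
  have h2 : (u - 4 * (V - 1)) * (1 + u) = (V - 1) ^ 2 * (V ^ 4 * (V ^ 2 + 2 * V + 3)) := by
    rw [rh_pm hV, ← hV]; ring
  have h3 : ρ * u ^ 2 = (V - 1) ^ 2 * (ρ * ((V + 1) ^ 2 * (V ^ 2 + 1) ^ 2)) := by
    rw [rh_u hV]; ring
  rw [h2, h3]
  exact h1

theorem ev_rhD (V : ℝ) : ev1 rhD V = (V + 1) ^ 2 * (V ^ 2 + 1) ^ 2 := by
  simp only [rhD, ev1_pmul, ev1_ppow, ev1_cons, ev1_nil]; push_cast; ring

theorem ev_rhN (V : ℝ) : ev1 rhN V = V ^ 2 + 2 * V + 3 := by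
  simp only [rhN, ev1_cons, ev1_nil]; push_cast; ring

theorem ev_rh4 (V : ℝ) : ev1 rh4 V = V ^ 4 := by
  simp only [rh4, ev1_cons, ev1_nil]; push_cast; ring

theorem ev_rhu (hV : V ^ 4 = 1 + u) : ev1 rhu V = u := by
  simp only [rhu, ev1_cons, ev1_nil]; push_cast; linear_combination hV

/-- (b) `u ≤ 0` -/
theorem rho_b (hV0 : 0 < V) (hV : V ^ 4 = 1 + u) (hu : u ≤ 0) :
    (u - 4 * (V - 1)) * (1 + u) ≤ (3 / 8 + 5 / 32 * u - 35 / 512 * u ^ 2) * u ^ 2 := by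
  rcases eq_or_lt_of_le hu with h0 | h0
  · have : V = 1 := by
      rw [h0, add_zero] at hV
      exact (pow_eq_one_iff_of_nonneg hV0.le (by norm_num)).1 hV
    rw [this, h0]; norm_num
  · have hV1 : V < 1 := by
      by_contra h
      push Not at h
      have := one_le_pow₀ h (n := 4)
      linarith
    apply rh_red hV
    have h := rhb_nonneg hV0.le hV1
    simp only [rhb, ev1_padd, ev1_psm, ev1_pmul, ev1_ppow, ev_rhD, ev_rhN, ev_rh4, ev_rhu hV,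
      ev1_cons, ev1_nil] at h
    push_cast at h
    linarith

/-- (a) `0 ≤ u ≤ 17/25` -/
theorem rho_a (hV0 : 0 < V) (hV : V ^ 4 = 1 + u) (hu : 0 ≤ u) (hu1 : u ≤ 17 / 25) :
    (u - 4 * (V - 1)) * (1 + u) ≤ (3 / 8 + 5 / 32 * u - 1 / 20 * u ^ 2) * u ^ 2 := by
  have hV1 : 1 ≤ V := by
    by_contra h
    push Not at h
    have := pow_lt_one₀ hV0.le h (n := 4) (by norm_num)
    linarith only [hV, hu, this]
  have hV2 : V < 1139 / 1000 := by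
    by_contra h
    push Not at h
    have := pow_le_pow_left₀ (by norm_num) h 4
    norm_num at this
    linarith only [hV, hu1, this]
  apply rh_red hV
  have h := rha_nonneg hV1 hV2
  simp only [rha, ev1_padd, ev1_psm, ev1_pmul, ev1_ppow, ev_rhD, ev_rhN, ev_rh4, ev_rhu hV,
    ev1_cons, ev1_nil] at h
  push_cast at h
  linarith only [h]

/-- (e) `n = u/(1+u) ≤ 13/20` -/
theorem rho_e (hV0 : 0 < V) (hV : V ^ 4 = 1 + u) (hu : 0 ≤ u) {β : ℝ} (hβ : β * (1 + u) = 1)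
    (hβ1 : 7 / 20 ≤ β) :
    (u - 4 * (V - 1)) * (1 + u) ≤
      (3 / 8 + 5 / 32 * (1 - β) + 4 / 25 * (1 - β) ^ 2) * u ^ 2 := by
  have hV1 : 1 ≤ V := by
    by_contra h
    push Not at h
    have := pow_lt_one₀ hV0.le h (n := 4) (by norm_num)
    linarith only [hV, hu, this]
  have hV2 : V < 1301 / 1000 := by
    by_contra h
    push Not at h
    have h1 := pow_le_pow_left₀ (by norm_num) h 4
    norm_num at h1
    rw [hV] at h1
    have : 1 < β * (1 + u) := by nlinarith only [hβ1, h1]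
    linarith only [hβ, this]
  apply rh_red hV
  have h := rhe_nonneg hV1 hV2
  simp only [rhe, ev1_padd, ev1_psm, ev1_pmul, ev1_ppow, ev_rhD, ev_rhN, ev_rh4, ev_rhu hV,
    ev1_cons, ev1_nil] at h
  push_cast at h
  rw [← hV] at hβ
  have hβu : β * u = 1 - β := by
    have : β * (1 + u) = 1 := by rw [← hV]; exact hβ
    linarith only [this]
  have hb0 : 0 < β := by linarith only [hβ1]
  have e : 0 ≤ β ^ 2 * ((((300 : ℝ) * (V ^ 4) ^ 2 + (125 * (u * V ^ 4) + 128 * u ^ 2)) *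
      ((V + 1) ^ 2 * (V ^ 2 + 1) ^ 2) + -800 * ((V ^ 4) ^ 3 * (V ^ 2 + 2 * V + 3)))) := by
    apply mul_nonneg (by positivity)
    linarith only [h]
  have e2 : β ^ 2 * ((((300 : ℝ) * (V ^ 4) ^ 2 + (125 * (u * V ^ 4) + 128 * u ^ 2)) *
      ((V + 1) ^ 2 * (V ^ 2 + 1) ^ 2) + -800 * ((V ^ 4) ^ 3 * (V ^ 2 + 2 * V + 3)))) =
      (300 * (β * V ^ 4) ^ 2 + 125 * (β * u) * (β * V ^ 4) + 128 * (β * u) ^ 2) *
      ((V + 1) ^ 2 * (V ^ 2 + 1) ^ 2) - 800 * ((β * V ^ 4) ^ 2 * (V ^ 4 * (V ^ 2 + 2 * V + 3))) := by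
    ring
  rw [e2, hβ, hβu] at e
  linarith only [e]

/-- (g) `u ≥ 0` -/
theorem rho_g (hV0 : 0 < V) (hV : V ^ 4 = 1 + u) (hu : 0 ≤ u) {β : ℝ} (hβ : β * (1 + u) = 1) :
    (u - 4 * (V - 1)) * (1 + u) ≤ (3 / 8 + 5 / 8 * (1 - β)) * u ^ 2 := by
  have hV1 : 1 ≤ V := by
    by_contra h
    push Not at h
    have := pow_lt_one₀ hV0.le h (n := 4) (by norm_num)
    linarith only [hV, hu, this]
  apply rh_red hV
  obtain ⟨w, hw⟩ : ∃ w, V = 1 + w := ⟨V - 1, by ring⟩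
  have hw0 : 0 ≤ w := by linarith
  rw [← hV] at hβ
  have hβu : β * u = 1 - β := by
    have : β * (1 + u) = 1 := by rw [← hV]; exact hβ
    linarith
  have hb0 : 0 < β := by
    by_contra h
    push Not at h
    have : β * V ^ 4 ≤ 0 := mul_nonpos_of_nonpos_of_nonneg h (by positivity)
    linarith
  have h1 : 0 ≤ (3 * V ^ 4 + 5 * u) * ((V + 1) ^ 2 * (V ^ 2 + 1) ^ 2) -
      8 * ((V ^ 4) ^ 2 * (V ^ 2 + 2 * V + 3)) := by
    have e : (3 * V ^ 4 + 5 * u) * ((V + 1) ^ 2 * (V ^ 2 + 1) ^ 2) -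
      8 * ((V ^ 4) ^ 2 * (V ^ 2 + 2 * V + 3)) = 8 * (30 * w + 225 / 2 * w ^ 2 + 189 * w ^ 3 +
        357 / 2 * w ^ 4 + 99 * w ^ 5 + 243 / 8 * w ^ 6 + 4 * w ^ 7) := by
      have hu' : u = V ^ 4 - 1 := by linarith
      rw [hu', hw]
      ring
    rw [e]
    (clear * - hw0; positivity)
  have h2 := mul_nonneg hb0.le h1
  have e2 : β * ((3 * V ^ 4 + 5 * u) * ((V + 1) ^ 2 * (V ^ 2 + 1) ^ 2) -
      8 * ((V ^ 4) ^ 2 * (V ^ 2 + 2 * V + 3))) = (3 * (β * V ^ 4) + 5 * (β * u)) *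
      ((V + 1) ^ 2 * (V ^ 2 + 1) ^ 2) - 8 * ((β * V ^ 4) * (V ^ 4 * (V ^ 2 + 2 * V + 3))) := by
    ring
  rw [e2, hβ, hβu] at h2
  linarith

/-- (d) `u ≤ 0` -/
theorem rho_d (hV0 : 0 < V) (hV : V ^ 4 = 1 + u) :
    (u - 4 * (V - 1)) * (1 + u) ≤ (3 * (1 + u)) * u ^ 2 := by
  apply rh_red hV
  rw [← hV]
  have h1 : V ^ 2 + 2 * V + 3 ≤ 3 * ((V + 1) ^ 2 * (V ^ 2 + 1) ^ 2) := by
    have : 0 ≤ V ^ 2 * (V + 1) ^ 2 * (V ^ 2 + 2) := by positivity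
    nlinarith
  have h2 := mul_le_mul_of_nonneg_left h1 (by positivity : 0 ≤ V ^ 4)
  linarith

end Vale.Agent.P237.AllN.M4
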