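import Vale.Agent.P237.AllN.PcIn2

/-!
# P237: the elementary inputs for `m = 4`
-/

open MeasureTheory Set Finset

namespace Vale.Agent.P237.AllN

open Alm

section

variable {r τ τ' T : ℝ → ℝ} {x : ℝ}

theorem pin_P_four (hx : x ∈ Ioo (0 : ℝ) 1) :
    (∫ t in (0 : ℝ)..x, sq t ^ 4) = x - 2 / 3 * x ^ 3 + x ^ 5 / 5 := by
  have h1 : (∫ t in (0 : ℝ)..x, sq t ^ 4) =
      ∫ t in (0 : ℝ)..x, ∑ i ∈ range 3, (fun i => ([1, -2, 1] : List ℝ).getD i 0) i * (t ^ 2) ^ i := by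
    apply intervalIntegral.integral_congr
    intro t ht
    rw [Set.uIcc_of_le hx.1.le] at ht
    have ht' : t ∈ Icc (0 : ℝ) 1 := ⟨ht.1, ht.2.trans hx.2.le⟩
    have e1 := pin_sq_sq ht'
    have e3 : sq t ^ 4 = (1 - t ^ 2) ^ 2 := by rw [← e1]; ring
    simp only [e3, Finset.sum_range_succ, Finset.sum_range_zero, List.getD_cons_zero,
      List.getD_cons_succ]
    ring
  rw [h1, pin_int_poly]
  simp only [Finset.sum_range_succ, Finset.sum_range_zero, List.getD_cons_zero,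
    List.getD_cons_succ]
  push_cast
  ring

/-- comparison with the cone, `m = 4` -/
theorem IsTrans.pin_cone_four (hr : IsProf r) (h : IsTrans 4 r τ τ' T)
    (hx : x ∈ Ioo (0 : ℝ) 1) :
    (1 - τ x) ^ 5 * 8 ≤ (1 - x) ^ 3 * (8 + 9 * x + 3 * x ^ 2) := by
  have h1 := h.pin_cone hr hx
  have h2 := pin_split 4 x
  rw [pin_P_four hx, pin_am, pin_am_four] at h2
  rw [pin_am, pin_am_four] at h1
  have h3 : (∫ t in x..1, sq t ^ 4) = 8 / 15 - (x - 2 / 3 * x ^ 3 + x ^ 5 / 5) := by linarith only [h2]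
  rw [h3] at h1
  have e1 : (1 - x) ^ 3 * (8 + 9 * x + 3 * x ^ 2) =
      15 * (8 / 15 - (x - 2 / 3 * x ^ 3 + x ^ 5 / 5)) := by ring
  rw [e1]
  norm_num at h1 ⊢
  linarith only [h1]

theorem pin_exp_one_ge : (2718 / 1000 : ℝ) ≤ Real.exp 1 := by
  have := Real.exp_one_gt_d9
  linarith only [this]

/-- **(h6)** for `m = 4` -/
theorem IsTrans.pin_h6_four (hr : IsProf r) (h : IsTrans 4 r τ τ' T)
    (hx : x ∈ Ioo (0 : ℝ) 1) : -1 ≤ lf τ x := by
  by_contra hcon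
  push Not at hcon
  have hτ := h.mem x hx
  have h1 := h.pin_cone_four hr hx
  have hx0 := hx.1
  have hx1 := hx.2
  have h3 : τ x ≤ 368 / 1000 * x := by
    rw [← pin_exp h hx]
    have h4 : Real.exp (lf τ x) < Real.exp (-1) := Real.exp_lt_exp.2 hcon
    have h5 : Real.exp (-1) ≤ 368 / 1000 := by
      rw [Real.exp_neg]
      have := pin_exp_one_ge
      calc (Real.exp 1)⁻¹ ≤ (2718 / 1000 : ℝ)⁻¹ := inv_anti₀ (by norm_num) this
        _ ≤ 368 / 1000 := by norm_num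
    nlinarith only [hx0, h4, h5]
  have h4 : (1 - 368 / 1000 * x) ^ 5 ≤ (1 - τ x) ^ 5 :=
    pow_le_pow_left₀ (by nlinarith only [hx1]) (by linarith) _
  have h5 : (1 - x) ^ 3 * (8 + 9 * x + 3 * x ^ 2) < (1 - 368 / 1000 * x) ^ 5 * 8 := by
    have h6 : 0 < x * (0.28 + 10.8 * x - 14 * x ^ 2 + 0.7 * x ^ 3 + 2.9 * x ^ 4) := by
      apply mul_pos hx0
      nlinarith only [hx1, pow_pos hx0 4, mul_pos (pow_pos hx0 3) (sub_pos.2 hx1)]
    nlinarith only [h6, pow_pos hx0 5]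
  linarith only [h1, h4, h5]

/-- **(h7)** for `m = 4` -/
theorem IsTrans.pin_h7_four (hr : IsProf r) (h : IsTrans 4 r τ τ' T) :
    -(97 / 200) ≤ lf τ (2 / 3) := by
  have hx : (2 / 3 : ℝ) ∈ Ioo (0 : ℝ) 1 := by constructor <;> norm_num
  refine h.pin_ge_of hr hx (ρ := 1473 / 2500) (Q := 71 / 1000) (by norm_num) (by norm_num) ?_ ?_
  · rw [pin_P_four hx, pin_am, pin_am_four]
    (clear * -; norm_num)
  · have h5 := pin_exp_ge (97 / 200) (by norm_num)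
    norm_num at h5 ⊢
    linarith

/-- **(h4)** for `m = 4` -/
theorem IsTrans.pin_h4_four (hr : IsProf r) (h : IsTrans 4 r τ τ' T)
    (hx : x ∈ Ioo (0 : ℝ) 1) : uf τ τ' x * sq x ≤ 3 / 4 * x := by
  refine h.pin_h4_of (by norm_num) hr hx ?_
  rw [pin_am_four]
  norm_num

end

end Vale.Agent.P237.AllN
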