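import Vale.Agent.P237.AllN.M4K
import Vale.Agent.P237.AllN.M4JL
import Vale.Agent.P237.AllN.M4Rho
import Vale.Agent.P237.AllN.M4Corr
import Vale.Agent.P237.AllN.PcIn4
import Vale.Agent.P237.AllN.Brid9

/-!
# P237, `m = 4`: the pointwise inequality
-/

open MeasureTheory Metric Set Module Filter Topology

namespace Vale.Agent.P237.AllN.M4

open PolyPos Alm

/-! ### elementary bounds -/

theorem exp_bd {v : ℝ} (h : |v| ≤ 1) : |Real.exp v - (1 + v + v ^ 2 / 2 + v ^ 3 / 6)| ≤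
    5 / 96 * v ^ 4 := by
  have h1 := Real.exp_bound h (n := 4) (by norm_num)
  have e : ∑ m ∈ Finset.range 4, v ^ m / (m.factorial : ℝ) = 1 + v + v ^ 2 / 2 + v ^ 3 / 6 := by
    simp only [Finset.sum_range_succ, Finset.range_one, Finset.sum_singleton, pow_zero, Nat.factorial, Nat.cast_one, ne_eq, one_ne_zero, not_false_eq_true, div_self, pow_one, Nat.succ_eq_add_one, zero_add, mul_one, div_one, Nat.reduceAdd, Nat.cast_ofNat, Nat.reduceMul]
  rw [e] at h1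
  have e2 : |v| ^ 4 = v ^ 4 := by
    rw [show (4 : ℕ) = 2 * 2 by norm_num, pow_mul, sq_abs, pow_mul]
  rw [e2] at h1
  refine h1.trans (le_of_eq ?_)
  norm_num [Nat.factorial]
  ring

variable {r τ τ' T : ℝ → ℝ} {x : ℝ}

theorem in_lhi (hr : IsProf r) (h : IsTrans 4 r τ τ' T) (hx : x ∈ Ioo (0 : ℝ) 1) :
    lf τ x ≤ 63 / 100 := by
  have h1 := in_cyl hr h hx
  by_contra hc
  push Not at hc
  have h3 := Real.exp_lt_exp.2 hc
  have h5 := pin_exp_ge (63 / 100) (by norm_num)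
  norm_num at h5
  have h6 : x ^ 4 ≤ x ^ 2 := by
    have := mul_le_mul_of_nonneg_left (show x ^ 2 ≤ 1 by nlinarith only [hx.1, hx.2]) (sq_nonneg x)
    nlinarith only [this]
  nlinarith only [h1, h3, h5, h6]

/-- window bound -/
theorem in_ly (hr : IsProf r) (h : IsTrans 4 r τ τ' T) (hx : x ∈ Ioo (0 : ℝ) 1)
    (hx0 : 2 / 3 ≤ x) :
    lf τ x ≤ (1 - x ^ 2) * (1 / 2 + 1 / 4 * (1 - x ^ 2) - 1 / 10 * (1 - x ^ 2) ^ 2) := by
  have h1 := in_cyl hr h hx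
  have hx2 : x ^ 2 < 1 := by nlinarith only [hx0, hx.2]
  have hx3 : 4 / 9 ≤ x ^ 2 := by nlinarith only [hx0]
  obtain ⟨t, ht⟩ : ∃ t, t = 1 - x ^ 2 := ⟨_, rfl⟩
  rw [← ht]
  have e : (15 - 10 * x ^ 2 + 3 * x ^ 4) / 8 = 1 + t / 2 + 3 / 8 * t ^ 2 := by rw [ht]; ring
  rw [e] at h1
  have ht0 : 0 < t := by linarith only [hx2, ht]
  have ht1 : t ≤ 5 / 9 := by linarith only [hx3, ht]
  have hw : 0 ≤ t * (1 / 2 + 1 / 4 * t - 1 / 10 * t ^ 2) := by
    have : 0 ≤ 1 / 2 + 1 / 4 * t - 1 / 10 * t ^ 2 := by nlinarith only [hx2, ht]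
    (clear * - ht0 this; positivity)
  have h2 := Real.quadratic_le_exp_of_nonneg hw
  have h3 : 1 + t / 2 + 3 / 8 * t ^ 2 ≤ 1 + t * (1 / 2 + 1 / 4 * t - 1 / 10 * t ^ 2) +
      (t * (1 / 2 + 1 / 4 * t - 1 / 10 * t ^ 2)) ^ 2 / 2 := by
    have e3 : 1 + t * (1 / 2 + 1 / 4 * t - 1 / 10 * t ^ 2) +
      (t * (1 / 2 + 1 / 4 * t - 1 / 10 * t ^ 2)) ^ 2 / 2 - (1 + t / 2 + 3 / 8 * t ^ 2) =
      t ^ 3 * (1 / 40 - 3 / 160 * t - 1 / 40 * t ^ 2 + 1 / 200 * t ^ 3) := by ring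
    have h4 : 0 ≤ 1 / 40 - 3 / 160 * t - 1 / 40 * t ^ 2 + 1 / 200 * t ^ 3 := by
      have : 0 ≤ t ^ 3 := by positivity
      nlinarith only [hx3, ht, this]
    have h5 := mul_nonneg (pow_nonneg ht0.le 3) h4
    linarith only [h5]
  exact Real.exp_le_exp.1 (h1.trans (h3.trans h2))

/-- tail bound -/
theorem in_lt (hr : IsProf r) (h : IsTrans 4 r τ τ' T) (hx : x ∈ Ioo (0 : ℝ) 1)
    (hx0 : 9 / 10 ≤ x) {t be : ℝ} (ht : t = 1 - x ^ 2) (hbe : 0 < be)
    (hu : be * (1 + uf τ τ' x) = 1) :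
    lf τ x ≤ t * (1 / 2 + 1 / 4 * t + 1 / 6 * t ^ 2 + 231 / 1000 * t ^ 3 -
      2 / (2 * be * (6 - 5 * t) + t)) := by
  have h1 := in_tail hr h hx
  have hx1 := hx.1
  have hx2 : x ^ 2 < 1 := by nlinarith only [hx0, hx.2]
  have ht0 : 0 < t := by linarith only [ht, hx2]
  have ht1 : t ≤ 19 / 100 := by nlinarith only [hx0, ht]
  have hsq : sq x ^ 2 = t := by rw [pin_sq_sq (Ioo_subset_Icc_self hx), ht]
  rw [hsq] at h1
  have hG : 0 < 6 - 5 * t := by linarith only [ht1]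
  obtain ⟨w, hw⟩ : ∃ w, w = t / (be * (6 - 5 * t)) := ⟨_, rfl⟩
  have hw0 : 0 < w := by rw [hw]; (clear * - ht0 hbe hG; positivity)
  have hE : 1 + uf τ τ' x = 1 / be := by
    rw [eq_div_iff hbe.ne']; linarith only [hu]
  have e1 : (1 + uf τ τ' x) * t / (6 - 5 * t) = w := by
    rw [hE, hw]
    (clear * - ht0 hbe; field_simp)
  rw [e1] at h1
  have h2 := Real.le_log_one_add_of_nonneg hw0.le
  -- log
  have h3 : Real.log (1 + w) + (Real.log x + lf τ x) ≤ 0 := by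
    have h4 := Real.log_nonpos (by (clear * - hw0 hx0; positivity)) h1
    rw [Real.log_mul (by positivity) (by positivity), Real.log_mul (by positivity) (by positivity),
      Real.log_exp] at h4
    exact h4
  have e2 : 2 * w / (w + 2) = t * (2 / (2 * be * (6 - 5 * t) + t)) := by
    rw [hw]
    obtain ⟨G, hGd⟩ : ∃ G, G = 6 - 5 * t := ⟨_, rfl⟩
    rw [← hGd] at hG ⊢
    have hb : be * G ≠ 0 := by (clear * - hbe hG; positivity)
    have h4 : t / (be * G) + 2 = (2 * be * G + t) / (be * G) := by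
      field_simp
      ring
    rw [h4]
    have h5 : 2 * be * G + t ≠ 0 := by positivity
    (clear * - hbe hG h5 ht0; field_simp)
  rw [e2] at h2
  have h5 : -Real.log x ≤ t * (1 / 2 + 1 / 4 * t + 1 / 6 * t ^ 2 + 231 / 1000 * t ^ 3) := by
    have h6 := Real.abs_log_sub_add_sum_range_le (x := t) (by rw [abs_of_pos ht0]; linarith only [ht1]) 5
    have e3 : Real.log (1 - t) = 2 * Real.log x := by
      rw [ht, show (1 : ℝ) - (1 - x ^ 2) = x ^ 2 by ring, Real.log_pow]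
      norm_num
    rw [e3, abs_of_pos ht0] at h6
    have h7 := (abs_le.1 h6).1
    simp only [Finset.sum_range_succ, Finset.sum_range_zero] at h7
    norm_num at h7
    have h8 : t ^ 6 / (1 - t) ≤ t ^ 4 * (45 / 1000) := by
      rw [div_le_iff₀ (by linarith only [ht1])]
      have h9 : t ^ 2 ≤ 45 / 1000 * (1 - t) := by nlinarith only [ht1, hsq]
      have h10 := mul_le_mul_of_nonneg_left h9 (pow_nonneg ht0.le 4)
      nlinarith only [h10]
    have h11 : t ^ 5 ≤ 19 / 100 * t ^ 4 := by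
      have := mul_le_mul_of_nonneg_left ht1 (pow_nonneg ht0.le 4)
      nlinarith only [this]
    have h12 : 0 ≤ t ^ 4 := by positivity
    nlinarith only [h7, h8, h11]
  have : lf τ x ≤ -Real.log x - Real.log (1 + w) := by linarith only [h3]
  refine this.trans ?_
  linarith only [h2, h5]

/-- the lower bound of `T` -/
theorem low4 (hr : IsProf r) (h : IsTrans 4 r τ τ' T) (hx : x ∈ Ioo (0 : ℝ) 1) {R rb : ℝ}
    (hR : R ≤ 1 - sq x ^ 2 / (1 + sq x))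
    (hrb : ∀ V : ℝ, 0 < V → V ^ 4 = 1 + uf τ τ' x →
      (uf τ τ' x - 4 * (V - 1)) * (1 + uf τ τ' x) ≤ rb * uf τ τ' x ^ 2) :
    pcLow ((4 : ℕ) : ℝ) (42 / 25) (3 / 20) (13 / 250) R (9 / 20 + 11 / 20 * x ^ 2 + (x ^ 2) ^ 2)
      (rb / (1 + uf τ τ' x)) (x ^ 2 / sq x ^ 2) (lf τ x) (uf τ τ' x) (lf τ (2 / 3)) ≤
      brT 4 τ τ' (1 + 42 / 25 * lf τ (2 / 3)) x := by
  have hu := uf_pos h hx
  have hs := sqx_pos hx
  have hlo := h.pin_h6_four hr hx
  have hhi := in_lhi hr h hx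
  have hl1 := in_lamlo hr h
  have hl2 := in_lamhi hr h
  set l := lf τ x with hl
  set u := uf τ τ' x with hu'
  set lam := lf τ (2 / 3) with hlam
  obtain ⟨v, hv⟩ : ∃ v, v = l / 4 := ⟨_, rfl⟩
  have hv1 : -(1 / 4) ≤ v := by rw [hv]; linarith only [hlo]
  have hv2 : v ≤ 63 / 400 := by rw [hv]; linarith only [hhi]
  have hE := exp_bd (v := v) (by rw [abs_le]; constructor <;> linarith only [hhi, hv, hlo])
  have hE1 := (abs_le.1 hE).1
  have hE2 := (abs_le.1 hE).2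
  have hV0 : 0 < (1 + u) ^ (1 / ((4 : ℕ) : ℝ)) := Real.rpow_pos_of_pos hu _
  have hV4 : ((1 + u) ^ (1 / ((4 : ℕ) : ℝ))) ^ 4 = 1 + u := by
    rw [← Real.rpow_natCast, ← Real.rpow_mul hu.le]
    norm_num
  have hmu : 0 < 1 + 42 / 25 * lam := by linarith only [hl1]
  have hvl : Real.exp (l / ((4 : ℕ) : ℝ)) = Real.exp v := by rw [hv]; norm_num
  have hv4 : l = 4 * v := by rw [hv]; ring
  have hvv : 0 ≤ v ^ 2 := sq_nonneg v
  unfold brT
  rw [← hl, ← hu']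
  refine pc_lower (m := ((4 : ℕ) : ℝ)) (by norm_num) hs hu hR ?_ ?_ ?_ ?_ ?_ ?_
  · have h1 := Corr.corr_M4 hx.1 hx.2 (in_cyl hr h hx)
    rw [pin_exp h hx] at h1
    exact h1
  · have := rho0 hV0 hV4
    norm_num at this ⊢
    exact this
  · have h1 := hrb _ hV0 hV4
    rw [div_mul_eq_mul_div, le_div_iff₀ hu]
    norm_num at h1 ⊢
    linarith only [h1]
  · have := Real.exp_pos (l / ((4 : ℕ) : ℝ))
    (clear * - hmu; positivity)
  · rw [hvl, hv4]
    have h1 : Real.exp v - 1 - v ≤ 1 / 2 * v ^ 2 + v ^ 3 / 6 + 5 / 96 * v ^ 4 := by (clear * - hE2; linarith)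
    have h2 : 1 / 2 * v ^ 2 + v ^ 3 / 6 + 5 / 96 * v ^ 4 ≤ 416 / 780 * v ^ 2 := by
      have e : 416 / 780 * v ^ 2 - (1 / 2 * v ^ 2 + v ^ 3 / 6 + 5 / 96 * v ^ 4) =
        v ^ 2 * (416 / 780 - 1 / 2 - v / 6 - 5 / 96 * v ^ 2) := by ring
      have : 0 ≤ 416 / 780 - 1 / 2 - v / 6 - 5 / 96 * v ^ 2 := by nlinarith only [hhi, hv, hlo]
      have := mul_nonneg hvv this
      linarith only [this]
    have h3 : (1 + 42 / 25 * lam) * (Real.exp v - 1 - v) ≤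
        (1 + 42 / 25 * lam) * (416 / 780 * v ^ 2) :=
      mul_le_mul_of_nonneg_left (h1.trans h2) hmu.le
    have h4 : (1 + 42 / 25 * lam) * (416 / 780 * v ^ 2) ≤ 39 / 25 * (416 / 780 * v ^ 2) :=
      mul_le_mul_of_nonneg_right (by linarith only [hl2]) (by (clear * -; positivity))
    norm_num
    nlinarith only [h3, h4]
  · rw [hvl, hv4]
    have h1 : 1 / 2 * v ^ 2 + v ^ 3 / 6 - 5 / 96 * v ^ 4 ≤ Real.exp v - 1 - v := by linarith only [hE1]
    have h2 : 45 / 100 * v ^ 2 ≤ 1 / 2 * v ^ 2 + v ^ 3 / 6 - 5 / 96 * v ^ 4 := by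
      have e : 1 / 2 * v ^ 2 + v ^ 3 / 6 - 5 / 96 * v ^ 4 - 45 / 100 * v ^ 2 =
        v ^ 2 * (5 / 100 + v / 6 - 5 / 96 * v ^ 2) := by ring
      have : 0 ≤ 5 / 100 + v / 6 - 5 / 96 * v ^ 2 := by nlinarith only [hlo, hv, hhi]
      have := mul_nonneg hvv this
      linarith only [this]
    have h3 : (1 + 42 / 25 * lam) * (45 / 100 * v ^ 2) ≤
        (1 + 42 / 25 * lam) * (Real.exp v - 1 - v) :=
      mul_le_mul_of_nonneg_left (h2.trans h1) hmu.le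
    have h4 : 1768 / 10000 * (45 / 100 * v ^ 2) ≤ (1 + 42 / 25 * lam) * (45 / 100 * v ^ 2) :=
      mul_le_mul_of_nonneg_right (by linarith only [hl1]) (by (clear * -; positivity))
    norm_num
    nlinarith only [h3, h4]

end Vale.Agent.P237.AllN.M4
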