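import Vale.Agent.P237.AllN.M4A

/-!
# P237, `m = 4`: the pointwise inequality left and right of the pole
-/

open MeasureTheory Metric Set Module Filter Topology

namespace Vale.Agent.P237.AllN.M4

open PolyPos Alm

theorem frR (n : ℤ) (d : ℕ) : Fr.R ⟨n, d⟩ = n / ((d : ℝ) + 1) := rfl

theorem R_k1 : P4.k1.R = 42 / 25 := by simp only [P4, frR]; norm_num
theorem R_a1 : P4.a1.R = 41 / 100 := by simp only [P4, frR]; norm_num
theorem R_a2 : P4.a2.R = 11 / 200 := by simp only [P4, frR]; norm_num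
theorem R_a3 : P4.a3.R = 31 / 100 := by simp only [P4, frR]; norm_num
theorem R_a4 : P4.a4.R = 7 / 25 := by simp only [P4, frR]; norm_num
theorem R_th : P4.th.R = 3 / 20 := by simp only [P4, frR]; norm_num
theorem R_c2 : P4.c2.R = 13 / 250 := by simp only [P4, frR]; norm_num
theorem R_eps : P4.eps.R = 1 / 1000 := by simp only [P4, frR]; norm_num
theorem R_e0 : 0 < P4.e0.R := by simp only [P4, frR]; norm_num
theorem R_cx : cx.R = 4 / 9 := by simp only [cx, frR]; norm_num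
theorem m4 : P4.m = 4 := rfl

theorem qR_R (z : Ex) (x y : ℝ) : (qR z).R x y =
    1 / 2 + 3 / 8 * z.R x y + 1 / 16 * z.R x y ^ 2 := by
  simp only [qR, Ex.R_add, Ex.R_mul, Ex.R_c, frR]; norm_num; ring

theorem qC4_R (z : Ex) (x y : ℝ) : (qC4 z).R x y =
    9 / 20 + 11 / 20 * z.R x y + z.R x y ^ 2 := by
  simp only [qC4, Ex.R_add, Ex.R_mul, Ex.R_c, frR]; norm_num; ring

theorem rbA_R (x y : ℝ) : rbA.R x y = 3 / 8 + 5 / 32 * (x * y) - 1 / 20 * (x * y) ^ 2 := by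
  simp only [rbA, Ex.R_add, Ex.R_sub, Ex.R_mul, Ex.R_c, Ex.R_X, Ex.R_Y, frR]; norm_num; ring

theorem rbL_R (x y : ℝ) : rbL.R x y = 3 / 8 - 5 / 32 * (x * y) - 35 / 512 * (x * y) ^ 2 := by
  simp only [rbL, Ex.R_add, Ex.R_sub, Ex.R_mul, Ex.R_c, Ex.R_X, Ex.R_Y, frR]; norm_num; ring

theorem rbR_R (x y : ℝ) : rbR.R x y = 3 / 8 - 5 / 32 * (1 - y) - 35 / 512 * (1 - y) ^ 2 := by
  simp only [rbR, Ex.R_add, Ex.R_sub, Ex.R_mul, Ex.R_c, Ex.R_X, Ex.R_Y, frR]; norm_num; ring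

theorem rbD_R (x y : ℝ) : rbD.R x y = 3 * y := by
  simp only [rbD, Ex.R_add, Ex.R_sub, Ex.R_mul, Ex.R_c, Ex.R_X, Ex.R_Y, frR]; norm_num

theorem rbE_R (x y : ℝ) : rbE.R x y = 3 / 8 + 5 / 32 * (1 - y) + 4 / 25 * (1 - y) ^ 2 := by
  simp only [rbE, Ex.R_add, Ex.R_sub, Ex.R_mul, Ex.R_c, Ex.R_X, Ex.R_Y, frR]; norm_num; ring

theorem rbG_R (x y : ℝ) : rbG.R x y = 3 / 8 + 5 / 8 * (1 - y) := by
  simp only [rbG, Ex.R_add, Ex.R_sub, Ex.R_mul, Ex.R_c, Ex.R_X, Ex.R_Y, frR]; norm_num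

theorem lyJ_R (x y : ℝ) : lyJ.R x y = 18 / 25 - 187 / 200 * x ^ 2 -
    (18 / 5 - 107 / 10 * x ^ 2 + 46 / 5 * (x ^ 2) ^ 2) * (x * y) := by
  simp only [lyJ, Ex.R_add, Ex.R_sub, Ex.R_mul, Ex.R_c, Ex.R_X, Ex.R_Y, frR]; norm_num; ring

theorem lyW_R (x y : ℝ) : lyW.R x y = 1 / 2 + 1 / 4 * (x * x) - 1 / 10 * (x * x) ^ 2 := by
  simp only [lyW, Ex.R_add, Ex.R_sub, Ex.R_mul, Ex.R_c, Ex.R_X, frR]; norm_num; ring

theorem lpW_R (x y : ℝ) : (lpW ⟨231, 999⟩).R x y =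
    1 / 2 + 1 / 4 * (x * x) + 1 / 6 * (x * x) ^ 2 + 231 / 1000 * (x * x) ^ 3 := by
  simp only [lpW, Ex.R_add, Ex.R_mul, Ex.R_c, Ex.R_X, frR]; norm_num; ring

theorem jj4_R (x y : ℝ) : jj4.R x y = 34 / 100 + 31 / 100 * (x * x) := by
  simp only [jj4, Ex.R_add, Ex.R_mul, Ex.R_c, Ex.R_X, frR]; norm_num

theorem kk4_R (x y : ℝ) : kk4.R x y = 15 / 100 + 3 / 2 * (x * x) := by
  simp only [kk4, Ex.R_add, Ex.R_mul, Ex.R_c, Ex.R_X, frR]; norm_num

theorem loLP_R (x y : ℝ) : loLP.R x y = y ^ 2 * (1 - x ^ 2) - 9 / 16 := by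
  simp only [loLP, Ex.R_sub, Ex.R_mul, Ex.R_c, Ex.R_X, Ex.R_Y, frR]; norm_num; ring

theorem loRM_R (x y : ℝ) : loRM.R x y =
    15 * (x * x) ^ 2 - y * (8 + 4 * (x * x) + 3 * (x * x) ^ 2) := by
  simp only [loRM, Ex.R_add, Ex.R_sub, Ex.R_mul, Ex.R_c, Ex.R_X, Ex.R_Y, frR]; norm_num; ring

theorem loRP_R (x y : ℝ) : loRP.R x y =
    (1 - y) ^ 2 * (x * x) - 9 / 16 * y ^ 2 * (1 - x * x) := by
  simp only [loRP, Ex.R_sub, Ex.R_mul, Ex.R_c, Ex.R_X, Ex.R_Y, frR]; norm_num; ring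

theorem zero_R (x y : ℝ) : (Ex.c ⟨0, 0⟩).R x y ≤ 0 := by
  simp only [Ex.R_c, frR]; norm_num

theorem qR_le {s : ℝ} (hs0 : 0 < s) (hs1 : s ≤ 1) {z : ℝ} (hz : z = 1 - s ^ 2) :
    1 / 2 + 3 / 8 * z + 1 / 16 * z ^ 2 ≤ 1 - s ^ 2 / (1 + s) := by
  rw [← sub_nonneg]
  have e : 1 - s ^ 2 / (1 + s) - (1 / 2 + 3 / 8 * z + 1 / 16 * z ^ 2) =
      (1 - s) ^ 3 * (1 + 4 * s + s ^ 2) / (16 * (1 + s)) := by
    rw [hz]
    field_simp
    ring
  rw [e]
  have : 0 ≤ 1 - s := by linarith only [hs1]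
  positivity

theorem v_le {v z c z1 : ℝ} (hc : 0 ≤ c) (hz : z ≤ z1) (hz1 : z1 ≤ 1)
    (h : v ^ 2 * (1 - z) ≤ 9 / 16) (h1 : 9 / 16 < c ^ 2 * (1 - z1)) : v ≤ c := by
  by_contra hcon
  push Not at hcon
  have h2 : c ^ 2 < v ^ 2 := pow_lt_pow_left₀ hcon hc (by norm_num)
  have h3 : c ^ 2 * (1 - z1) ≤ v ^ 2 * (1 - z1) :=
    mul_le_mul_of_nonneg_right h2.le (by linarith only [hz1])
  have h4 : v ^ 2 * (1 - z1) ≤ v ^ 2 * (1 - z) :=
    mul_le_mul_of_nonneg_left (by linarith only [hz]) (sq_nonneg v)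
  linarith only [h, h1, h3, h4]

variable {r τ τ' T : ℝ → ℝ} {x : ℝ}

/-- **left of the pole** -/
theorem ptL (hr : IsProf r) (h : IsTrans 4 r τ τ' T) (hx : x ∈ Ioo (0 : ℝ) 1)
    (hx0 : x < 2 / 3) :
    1 / 1000 * (uf τ τ' x ^ 2 / (1 + uf τ τ' x)) ≤
      brT 4 τ τ' (1 + 42 / 25 * lf τ (2 / 3)) x +
      pcNL ((4 : ℕ) : ℝ) (41 / 100) (11 / 200) (31 / 100) (4 / 9) (x ^ 2) (x ^ 2 / sq x ^ 2)
        (lf τ x - lf τ (2 / 3)) (uf τ τ' x) (lf τ (2 / 3)) := by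
  have hu := uf_pos h hx
  have hs := sqx_pos hx
  have hs1 : sq x ≤ 1 := pin_sq_le_one x
  have hsq : sq x ^ 2 = 1 - x ^ 2 := pin_sq_sq (Ioo_subset_Icc_self hx)
  have hx1 := hx.1
  have hz0 : 0 < x ^ 2 := pow_pos hx1 2
  have hz1 : x ^ 2 < 4 / 9 := by nlinarith only [hx0, hx1]
  have ht : 0 < 1 - x ^ 2 := by linarith only [hz1]
  have hR := qR_le hs hs1 (z := x ^ 2) (by rw [hsq]; ring)
  have hδ : cx.R - x ^ 2 ≠ 0 := by rw [R_cx]; linarith only [hz1]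
  rcases le_or_gt 0 (uf τ τ' x) with hu0 | hu0
  · obtain ⟨v, hv⟩ : ∃ v, uf τ τ' x = x * v := ⟨uf τ τ' x / x, by (clear * - hx1; field_simp)⟩
    have hv0 : 0 ≤ v := by
      by_contra hc
      push Not at hc
      have := mul_neg_of_pos_of_neg hx1 hc
      linarith only [hu0, hv, this]
    have hwin := in_win2 hr h hx hu0
    rw [hv] at hwin
    have hv2 : v ^ 2 * (1 - x ^ 2) ≤ 9 / 16 := by
      have : x ^ 2 * (v ^ 2 * (1 - x ^ 2)) ≤ x ^ 2 * (9 / 16) := by linarith only [hwin]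
      exact le_of_mul_le_mul_left this hz0
    have hu1 : uf τ τ' x ≤ 17 / 25 := by
      rw [hv]
      by_contra hc
      push Not at hc
      have h1 : (17 / 25) ^ 2 < (x * v) ^ 2 := pow_lt_pow_left₀ hc (by norm_num) (by norm_num)
      have h2 : (x * v) ^ 2 * (5 / 9) ≤ (x * v) ^ 2 * (1 - x ^ 2) :=
        mul_le_mul_of_nonneg_left (by linarith only [hz1]) (sq_nonneg _)
      nlinarith only [hwin, h1, h2]
    have hlow := low4 hr h hx hR (rb := 3 / 8 + 5 / 32 * uf τ τ' x - 1 / 20 * uf τ τ' x ^ 2)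
      (fun V hV0 hV => rho_a hV0 hV hu0 hu1)
    have hrb : 0 ≤ 3 / 8 + 5 / 32 * (x * v) - 1 / 20 * (x * v) ^ 2 := by
      rw [hv] at hu0 hu1
      nlinarith only [hz1, hu0, hv2]
    rcases lt_or_ge x (38 / 100) with hx2 | hx2
    · obtain ⟨L, hL, hp⟩ := fam_casesE (tchkE_sound (x := x) (y := v) (by rw [loLP_R]; linarith only [hv2])
        _ _ _ _ _ _ _ (by norm_num) (by norm_num) (by norm_num) (by norm_num) kLP1
        (by push_cast; linarith only [hx1]) (by push_cast; linarith only [hx2]) (by push_cast; linarith only [hv0])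
        (by
          have := v_le (c := 82 / 100) (z1 := 1444 / 10000) (by norm_num)
            (show x ^ 2 ≤ 1444 / 10000 by nlinarith only [hx2, hx1]) (by norm_num) hv2 (by norm_num)
          push_cast; linarith only [this]))
      simp only [List.mem_cons, List.not_mem_nil, or_false] at hL
      subst hL
      have hF := formLP hp R_e0 (by nlinarith only [hz1])
      simp only [qR_R, qC4_R, rbA_R, Ex.R_mul, Ex.R_X] at hF
      have key := regLP (P := P4) (cx := cx) (by rw [m4]; norm_num) (l := lf τ x)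
        (lam := lf τ (2 / 3)) (t := 1 - x ^ 2) rfl ht (by rw [m4]; norm_num) hrb
        (by simp only [Ex.R_c, frR]; norm_num) (by rw [← hv]; exact hu) hδ
        (Or.inl (by simp only [Ex.R_c, frR]; norm_num)) hF
      rw [R_k1, R_a1, R_a2, R_a3, R_th, R_c2, R_eps, R_cx, m4, ← hv, ← hsq, ← pow_two] at key
      linarith only [hlow, key]
    · obtain ⟨L, hL, hp⟩ := fam_casesE (tchkE_sound (x := x) (y := v) (by rw [loLP_R]; linarith only [hv2])
        _ _ _ _ _ _ _ (by norm_num) (by norm_num) (by norm_num) (by norm_num) kLP2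
        (by push_cast; linarith only [hx2]) (by push_cast; linarith only [hx0]) (by push_cast; linarith only [hv0])
        (by
          have := v_le (c := 101 / 100) (z1 := 4 / 9) (by norm_num)
            hz1.le (by norm_num) hv2 (by norm_num)
          push_cast; linarith only [this]))
      simp only [List.mem_cons, List.not_mem_nil, or_false] at hL
      subst hL
      have hF := formLP hp R_e0 (by nlinarith only [hz1])
      simp only [qR_R, qC4_R, rbA_R, lyJ_R, Ex.R_mul, Ex.R_X] at hF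
      have hJ := jlineL hr h hx (by linarith only [hx2]) hx0
      rw [hv] at hJ
      have key := regLP (P := P4) (cx := cx) (by rw [m4]; norm_num) (l := lf τ x)
        (lam := lf τ (2 / 3)) (t := 1 - x ^ 2) rfl ht (by rw [m4]; norm_num) hrb
        (by simp only [Ex.R_c, frR]; norm_num) (by rw [← hv]; exact hu) hδ
        (Or.inr hJ) hF
      rw [R_k1, R_a1, R_a2, R_a3, R_th, R_c2, R_eps, R_cx, m4, ← hv, ← hsq, ← pow_two] at key
      linarith only [hlow, key]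
  · obtain ⟨n, hn⟩ : ∃ n, uf τ τ' x = -(x ^ 2 * n) := ⟨-uf τ τ' x / x ^ 2, by (clear * - hx1; field_simp)⟩
    have hn0 : 0 ≤ n := by
      by_contra hc
      push Not at hc
      have := mul_neg_of_pos_of_neg hz0 hc
      linarith only [hu0, hn, this]
    have hlo := in_low hr h hx
    rw [hn] at hlo
    have hn1 : n * (15 - 10 * x ^ 2 + 3 * x ^ 4) ≤ 20 - 12 * x ^ 2 := by
      have : x ^ 2 * (n * (15 - 10 * x ^ 2 + 3 * x ^ 4)) ≤ x ^ 2 * (20 - 12 * x ^ 2) := by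
        nlinarith only [hlo]
      exact le_of_mul_le_mul_left this hz0
    have hn2 : n ≤ 135 / 100 := by
      by_contra hc
      push Not at hc
      have h1 : 0 < 15 - 10 * x ^ 2 + 3 * x ^ 4 := by nlinarith only [hz1]
      have h2 := mul_lt_mul_of_pos_right hc h1
      nlinarith only [hn1, h2, sq_nonneg (x ^ 2 - 18 / 100)]
    have hlow := low4 hr h hx hR (rb := 3 / 8 + 5 / 32 * uf τ τ' x - 35 / 512 * uf τ τ' x ^ 2)
      (fun V hV0 hV => rho_b hV0 hV hu0.le)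
    obtain ⟨L, hL, hp⟩ := fam_casesE (tchkE_sound (x := x ^ 2) (y := n) (zero_R _ _)
        _ _ _ _ _ _ _ (by norm_num) (by norm_num) (by norm_num) (by norm_num) kLM
        (by push_cast; linarith only [hz0]) (by push_cast; linarith only [hz1]) (by push_cast; linarith only [hn0])
        (by push_cast; linarith only [hn2]))
    simp only [List.mem_cons, List.not_mem_nil, or_false] at hL
    subst hL
    have hF := formLM hp R_e0 hz0 ht
    simp only [qR_R, qC4_R, rbL_R, Ex.R_X] at hF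
    have key := regLM (P := P4) (cx := cx) (by rw [m4]; norm_num) (l := lf τ x) (x := x)
      (lam := lf τ (2 / 3)) (t := 1 - x ^ 2) rfl hx1 rfl ht (by linarith only [hu, hn]) hδ
      (by rw [m4]; norm_num) hF
    rw [R_k1, R_a1, R_a2, R_a3, R_th, R_c2, R_eps, R_cx, m4, ← hn, ← hsq] at key
    have e : 3 / 8 - 5 / 32 * (x ^ 2 * n) - 35 / 512 * (x ^ 2 * n) ^ 2 =
        3 / 8 + 5 / 32 * uf τ τ' x - 35 / 512 * uf τ τ' x ^ 2 := by rw [hn]; ring
    rw [e] at key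
    linarith only [hlow, key]

end Vale.Agent.P237.AllN.M4
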