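import Vale.Agent.P237.AllN.M4B

/-!
# P237, `m = 4`: the pointwise inequality right of the pole, the pieces
-/

open MeasureTheory Metric Set Module Filter Topology

namespace Vale.Agent.P237.AllN.M4

open PolyPos Alm

variable {r τ τ' T : ℝ → ℝ} {x : ℝ}

theorem hm0 : 0 < P4.m := by rw [m4]; norm_num
theorem hm1 : 1 ≤ P4.m := by rw [m4]; norm_num
theorem eR1 (a b : ℝ) : (Ex.c ⟨1, 0⟩ - Ex.X * Ex.X).R a b = 1 - a * a := by
  simp only [Ex.R_sub, Ex.R_mul, Ex.R_c, Ex.R_X, frR]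
  norm_num
theorem eG (t : ℝ) : ((P4.m : ℕ) : ℝ) + 2 - ((P4.m : ℝ) + 1) * t = 6 - 5 * t := by
  rw [m4]; norm_num

/-- region `u ≤ 0`, from the matrix check -/
theorem rRM {s E z l lam rb : ℝ} {kap : Fr} {rbe : Ex} (hs : 0 < s) (hz : z = 1 - s * s)
    (hz1 : 4 / 9 < z) (hE0 : 0 < E) (hE1 : E ≤ 1) (hrb : rbe.R s E = rb) (hrb0 : 0 ≤ rb)
    (hkap : 0 ≤ kap.R)
    (hl : l ≤ s * s * (1 / 2 + 1 / 4 * (s * s) - 1 / 10 * (s * s) ^ 2))
    (hp : ∀ p ∈ fRM kap rbe, 0 ≤ p.R s E) :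
    1 / 1000 * ((E - 1) ^ 2 / (1 + (E - 1))) ≤
      pcLow ((4 : ℕ) : ℝ) (42 / 25) (3 / 20) (13 / 250) (1 - s * s / (1 + s))
        (9 / 20 + 11 / 20 * z + z ^ 2) (rb / (1 + (E - 1))) (z / (s * s)) l (E - 1) lam +
      pcNR ((4 : ℕ) : ℝ) (7 / 25) (4 / 9) z (z / (s * s)) (l - lam) (E - 1) := by
  have hF := formRM (P := P4) (cx := cx) (kap := Ex.c kap) (ly := lyW)
    (C := qC4 (Ex.c ⟨1, 0⟩ - Ex.X * Ex.X)) (rh := rbe) hp R_e0 hs
  rw [qC4_R, lyW_R, eR1, hrb] at hF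
  have key := regRM (P := P4) (cx := cx) hm0 (l := l) (s := s)
    (lam := lam) (t := s * s) (z := z) hs rfl hz (by linarith only [hz1]) hE0 hE1
    (by rw [R_cx]; linarith only [hz1]) hrb0 hkap hm1 hl hF
  rw [R_k1, R_a4, R_th, R_c2, R_eps, R_cx, m4, ← hz] at key
  exact key

/-- region `u ≥ 0`, joint line, from the matrix check -/
theorem rRJ {s be u z l lam rb : ℝ} {kap : Fr} {rbe : Ex} (hs : 0 < s) (hz : z = 1 - s * s)
    (hz1 : 4 / 9 < z) (hbe : 0 < be) (hu : u = (1 - be) / be) (hrb : rbe.R s be = rb)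
    (hrb0 : 0 ≤ rb) (hkap : 0 ≤ kap.R)
    (hl : l ≤ s * s * (34 / 100 + 31 / 100 * (s * s) - (15 / 100 + 3 / 2 * (s * s)) * u))
    (hp : ∀ p ∈ fRJ kap rbe, 0 ≤ p.R s be) :
    1 / 1000 * (u ^ 2 / (1 + u)) ≤
      pcLow ((4 : ℕ) : ℝ) (42 / 25) (3 / 20) (13 / 250) (1 - s * s / (1 + s))
        (9 / 20 + 11 / 20 * z + z ^ 2) (rb / (1 + u)) (z / (s * s)) l u lam +
      pcNR ((4 : ℕ) : ℝ) (7 / 25) (4 / 9) z (z / (s * s)) (l - lam) u := by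
  have hF := formRJ (P := P4) (cx := cx) (kap := Ex.c kap) (jj := jj4) (kk := kk4)
    (C := qC4 (Ex.c ⟨1, 0⟩ - Ex.X * Ex.X)) (rh := rbe) hp R_e0 hs hbe
  rw [qC4_R, jj4_R, kk4_R, eR1, hrb] at hF
  have key := regRJ (P := P4) (cx := cx) hm0 (l := l) (s := s)
    (lam := lam) (t := s * s) (z := z) hs rfl hz (by linarith only [hz1]) hbe hu
    (by rw [R_cx]; linarith only [hz1]) hrb0 hkap hm1 hl hF
  rw [R_k1, R_a4, R_th, R_c2, R_eps, R_cx, m4, ← hz] at key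
  exact key

/-- region `u ≥ 0`, tail bound, from the matrix check -/
theorem rRP {s be u z l lam rb : ℝ} {kap : Fr} {rbe : Ex} (hs : 0 < s) (hz : z = 1 - s * s)
    (hz1 : 4 / 9 < z) (hbe : 0 < be) (hu : u = (1 - be) / be) (hrb : rbe.R s be = rb)
    (hrb0 : 0 ≤ rb) (hkap : 0 ≤ kap.R)
    (hl : l ≤ s * s * (1 / 2 + 1 / 4 * (s * s) + 1 / 6 * (s * s) ^ 2 + 231 / 1000 * (s * s) ^ 3 -
      2 / (2 * be * (6 - 5 * (s * s)) + s * s)))
    (hp : ∀ p ∈ fRP kap ⟨231, 999⟩ rbe, 0 ≤ p.R s be) :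
    1 / 1000 * (u ^ 2 / (1 + u)) ≤
      pcLow ((4 : ℕ) : ℝ) (42 / 25) (3 / 20) (13 / 250) (1 - s * s / (1 + s))
        (9 / 20 + 11 / 20 * z + z ^ 2) (rb / (1 + u)) (z / (s * s)) l u lam +
      pcNR ((4 : ℕ) : ℝ) (7 / 25) (4 / 9) z (z / (s * s)) (l - lam) u := by
  have hDD : 0 < 2 * be * (6 - 5 * (s * s)) + s * s := by
    have : 0 < 6 - 5 * (s * s) := by linarith only [hz, hz1]
    positivity
  have hF := formRP (P := P4) (cx := cx) (kap := Ex.c kap) (lp := lpW ⟨231, 999⟩)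
    (C := qC4 (Ex.c ⟨1, 0⟩ - Ex.X * Ex.X)) (rh := rbe) hp R_e0 hs (by rw [eG]; exact hDD)
  rw [qC4_R, lpW_R, eR1, hrb] at hF
  have key := regRP (P := P4) (cx := cx) hm0 (l := l) (s := s)
    (lam := lam) (t := s * s) (z := z) hs rfl hz (by linarith only [hz1]) hbe hu
    (by rw [R_cx]; linarith only [hz1]) hrb0 hkap hm1 (by rw [eG]; exact hDD) (by rw [eG]; exact hl) hF
  rw [R_k1, R_a4, R_th, R_c2, R_eps, R_cx, m4, ← hz] at key
  exact key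

/-- region `u ≥ 0` near `x = 1`, from the matrix check -/
theorem rRS {s v u z l lam : ℝ} {kap : Fr} (hs : 0 < s) (hz : z = 1 - s * s)
    (hz1 : 4 / 9 < z) (hv0 : 0 ≤ v) (hv : v = u * s) (hkap : 0 ≤ kap.R)
    (hl : l ≤ s * s * (1 / 2 + 1 / 4 * (s * s) + 1 / 6 * (s * s) ^ 2 + 231 / 1000 * (s * s) ^ 3 -
      2 * (s + v) / (2 * s * (6 - 5 * (s * s)) + s * s * (s + v))))
    (hp : ∀ p ∈ fRS kap ⟨231, 999⟩, 0 ≤ p.R s v) :
    1 / 1000 * (u ^ 2 / (1 + u)) ≤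
      pcLow ((4 : ℕ) : ℝ) (42 / 25) (3 / 20) (13 / 250) (1 - s * s / (1 + s))
        (9 / 20 + 11 / 20 * z + z ^ 2) ((3 / 8 * s + v) / (s + v) / (1 + u)) (z / (s * s)) l u lam +
      pcNR ((4 : ℕ) : ℝ) (7 / 25) (4 / 9) z (z / (s * s)) (l - lam) u := by
  have hDD : 0 < 2 * s * (6 - 5 * (s * s)) + s * s * (s + v) := by
    have : 0 < 6 - 5 * (s * s) := by linarith only [hz, hz1]
    positivity
  have hF := formRS (P := P4) (cx := cx) (kap := Ex.c kap) (lp := lpW ⟨231, 999⟩)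
    (C := qC4 (Ex.c ⟨1, 0⟩ - Ex.X * Ex.X)) (r0 := Ex.c ⟨3, 7⟩) hp R_e0 hs
    (by rw [eG]; exact hDD)
  have e38 : (Ex.c ⟨3, 7⟩).R s v = 3 / 8 := by simp only [Ex.R_c, frR]; norm_num
  rw [qC4_R, lpW_R, eR1, e38] at hF
  have key := regRS (P := P4) (cx := cx) hm0 (l := l) (s := s) (v := v)
    (lam := lam) (t := s * s) (z := z) hs rfl hz (by linarith only [hz1]) hv0 hv
    (by rw [R_cx]; linarith only [hz1]) (by norm_num) hkap hm1 (by rw [eG]; exact hDD)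
    (by rw [eG]; exact hl) hF
  rw [R_k1, R_a4, R_th, R_c2, R_eps, R_cx, m4, ← hz] at key
  exact key

end Vale.Agent.P237.AllN.M4
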