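import Vale.Agent.P237.AllN.M4C

/-!
# P237, `m = 4`: the pointwise inequality right of the pole
-/

open MeasureTheory Metric Set Module Filter Topology

namespace Vale.Agent.P237.AllN.M4

open PolyPos Alm

variable {r τ τ' T : ℝ → ℝ} {x : ℝ}

/-- the claim -/
def Cl (τ τ' : ℝ → ℝ) (x : ℝ) : Prop :=
  1 / 1000 * (uf τ τ' x ^ 2 / (1 + uf τ τ' x)) ≤
      brT 4 τ τ' (1 + 42 / 25 * lf τ (2 / 3)) x +
      pcNR ((4 : ℕ) : ℝ) (7 / 25) (4 / 9) (x ^ 2) (x ^ 2 / sq x ^ 2)
        (lf τ x - lf τ (2 / 3)) (uf τ τ' x)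

/-- the low bound in terms of `s` -/
theorem lowR (hr : IsProf r) (h : IsTrans 4 r τ τ' T) (hx : x ∈ Ioo (0 : ℝ) 1) {rb : ℝ}
    (hrb : ∀ V : ℝ, 0 < V → V ^ 4 = 1 + uf τ τ' x →
      (uf τ τ' x - 4 * (V - 1)) * (1 + uf τ τ' x) ≤ rb * uf τ τ' x ^ 2)
    (key : 1 / 1000 * (uf τ τ' x ^ 2 / (1 + uf τ τ' x)) ≤
      pcLow ((4 : ℕ) : ℝ) (42 / 25) (3 / 20) (13 / 250) (1 - sq x * sq x / (1 + sq x))
        (9 / 20 + 11 / 20 * x ^ 2 + (x ^ 2) ^ 2) (rb / (1 + uf τ τ' x)) (x ^ 2 / (sq x * sq x))
        (lf τ x) (uf τ τ' x) (lf τ (2 / 3)) +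
      pcNR ((4 : ℕ) : ℝ) (7 / 25) (4 / 9) (x ^ 2) (x ^ 2 / (sq x * sq x))
        (lf τ x - lf τ (2 / 3)) (uf τ τ' x)) : Cl τ τ' x := by
  have hlow := low4 hr h hx (R := 1 - sq x * sq x / (1 + sq x)) (by rw [pow_two]) hrb
  have e : sq x * sq x = sq x ^ 2 := (pow_two _).symm
  unfold Cl
  rw [e] at key hlow
  (clear * - key hlow; linarith)

theorem sx_facts (hx : x ∈ Ioo (0 : ℝ) 1) (hx0 : 2 / 3 < x) : 0 < sq x ∧ x ^ 2 = 1 - sq x * sq x ∧
    4 / 9 < x ^ 2 ∧ sq x < 746 / 1000 := by
  have hs := sqx_pos hx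
  have hsq : sq x ^ 2 = 1 - x ^ 2 := pin_sq_sq (Ioo_subset_Icc_self hx)
  refine ⟨hs, by linarith only [hsq], by nlinarith only [hx0], ?_⟩
  by_contra hc
  push Not at hc
  nlinarith only [hx0, hsq, hc]

theorem ptRM (hr : IsProf r) (h : IsTrans 4 r τ τ' T) (hx : x ∈ Ioo (0 : ℝ) 1)
    (hx0 : 2 / 3 < x) (hu0 : uf τ τ' x ≤ 0) : Cl τ τ' x := by
  obtain ⟨hs, hz, hz1, hs2⟩ := sx_facts hx hx0
  have hu := uf_pos h hx
  obtain ⟨E, hE⟩ : ∃ E, E = 1 + uf τ τ' x := ⟨_, rfl⟩
  have hE0 : 0 < E := by rw [hE]; exact hu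
  have hE1 : E ≤ 1 := by rw [hE]; linarith only [hu0]
  have huE : uf τ τ' x = E - 1 := by rw [hE]; ring
  have hlo := in_low hr h hx
  have hLo : loRM.R (sq x) E ≤ 0 := by
    rw [loRM_R]
    rw [← hE, show x ^ 4 = (x ^ 2) ^ 2 by ring, hz] at hlo
    nlinarith only [hlo]
  have hly := in_ly hr h hx hx0.le
  have hss : 1 - x ^ 2 = sq x * sq x := by linarith only [hz]
  rw [hss] at hly
  rcases le_or_gt (1 / 20) E with hE2 | hE2
  · obtain ⟨L, hL, hp⟩ := fam_casesE (tchkE_sound (x := sq x) (y := E) hLo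
      _ _ _ _ _ _ _ (by norm_num) (by norm_num) (by norm_num) (by norm_num) kRM1
      (by push_cast; linarith only [hs]) (by push_cast; linarith only [hs2]) (by push_cast; linarith only [hE2])
      (by push_cast; linarith only [hu0, hE]))
    have main : ∀ kap : Fr, 0 ≤ kap.R → (∀ p ∈ fRM kap rbR, 0 ≤ p.R (sq x) E) →
        Cl τ τ' x := by
      intro kap hkap hp
      refine lowR hr h hx (rb := 3 / 8 + 5 / 32 * uf τ τ' x - 35 / 512 * uf τ τ' x ^ 2)
        (fun V hV0 hV => rho_b hV0 hV hu0) ?_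
      have := rRM (lam := lf τ (2 / 3)) hs hz hz1 hE0 hE1
        (rb := 3 / 8 + 5 / 32 * uf τ τ' x - 35 / 512 * uf τ τ' x ^ 2)
        (by rw [rbR_R, huE]; ring) (by nlinarith only [hu, hu0]) hkap hly hp
      rw [← huE] at this
      exact this
    simp only [List.mem_cons, List.not_mem_nil, or_false] at hL
    rcases hL with rfl | rfl | rfl | rfl | rfl
    · exact main _ (by simp only [frR]; norm_num) hp
    · exact main _ (by simp only [frR]; norm_num) hp
    · exact main _ (by simp only [frR]; norm_num) hp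
    · exact main _ (by simp only [frR]; norm_num) hp
    · exact main _ (by simp only [frR]; norm_num) hp
  · obtain ⟨L, hL, hp⟩ := fam_casesE (tchkE_sound (x := sq x) (y := E) hLo
      _ _ _ _ _ _ _ (by norm_num) (by norm_num) (by norm_num) (by norm_num) kRM2
      (by push_cast; linarith only [hs]) (by push_cast; linarith only [hs2]) (by push_cast; linarith only [hu, hE])
      (by push_cast; linarith only [hE2]))
    simp only [List.mem_cons, List.not_mem_nil, or_false] at hL
    subst hL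
    refine lowR hr h hx (rb := 3 * (1 + uf τ τ' x)) (fun V hV0 hV => rho_d hV0 hV) ?_
    have := rRM (lam := lf τ (2 / 3)) hs hz hz1 hE0 hE1
      (rb := 3 * (1 + uf τ τ' x)) (by rw [rbD_R, hE]) (by linarith only [hu])
      (by simp only [frR]; norm_num) hly hp
    rw [← huE] at this
    exact this

theorem ptRP (hr : IsProf r) (h : IsTrans 4 r τ τ' T) (hx : x ∈ Ioo (0 : ℝ) 1)
    (hx0 : 2 / 3 < x) (hu0 : 0 < uf τ τ' x) : Cl τ τ' x := by
  obtain ⟨hs, hz, hz1, hs2⟩ := sx_facts hx hx0
  have hu := uf_pos h hx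
  obtain ⟨be, hbe⟩ : ∃ be, be = 1 / (1 + uf τ τ' x) := ⟨_, rfl⟩
  have hbe0 : 0 < be := by rw [hbe]; positivity
  have hbeu : be * (1 + uf τ τ' x) = 1 := by rw [hbe]; (clear * - hu0; field_simp)
  have hbe1 : be ≤ 1 := by nlinarith only [hbeu, hu0]
  have hub2 : be * uf τ τ' x = 1 - be := by linarith only [hbeu]
  have hub : uf τ τ' x = (1 - be) / be := by
    rw [eq_div_iff hbe0.ne']
    linarith only [hbeu]
  have hwin := in_win2 hr h hx hu0.le
  have hss : 1 - x ^ 2 = sq x * sq x := by linarith only [hz]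
  have hLo : loRP.R (sq x) be ≤ 0 := by
    rw [loRP_R, ← hub2, ← hz, ← hss]
    have := mul_le_mul_of_nonneg_left hwin (sq_nonneg be)
    nlinarith only [this]
  rcases lt_or_ge x (9 / 10) with hx3 | hx3
  · have hs3 : 435 / 1000 ≤ sq x := by
      by_contra hc
      push Not at hc
      nlinarith only [hz, hx3, hc, hx0, hs]
    rcases le_or_gt (7 / 20) be with hb | hb
    · obtain ⟨L, hL, hp⟩ := fam_casesE (tchkE_sound (x := sq x) (y := be) (zero_R _ _)
        _ _ _ _ _ _ _ (by norm_num) (by norm_num) (by norm_num) (by norm_num) kRJ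
        (by push_cast; linarith only [hs3]) (by push_cast; linarith only [hs2]) (by push_cast; linarith only [hb])
        (by push_cast; linarith only [hbe1]))
      have hJ := jlineR hr h hx hx0.le hx3
      rw [hss] at hJ
      have hJ' : lf τ x ≤ sq x * sq x * (34 / 100 + 31 / 100 * (sq x * sq x) -
          (15 / 100 + 3 / 2 * (sq x * sq x)) * uf τ τ' x) := by linarith only [hJ]
      have main : ∀ kap : Fr, 0 ≤ kap.R → (∀ p ∈ fRJ kap rbE, 0 ≤ p.R (sq x) be) →
          Cl τ τ' x := by
        intro kap hkap hp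
        exact lowR hr h hx (rb := 3 / 8 + 5 / 32 * (1 - be) + 4 / 25 * (1 - be) ^ 2)
          (fun V hV0 hV => rho_e hV0 hV hu0.le hbeu hb)
          (rRJ (lam := lf τ (2 / 3)) hs hz hz1 hbe0 hub (rbE_R _ _) (by nlinarith only []) hkap hJ' hp)
      simp only [List.mem_cons, List.not_mem_nil, or_false] at hL
      rcases hL with rfl | rfl | rfl
      · exact main _ (by simp only [frR]; norm_num) hp
      · exact main _ (by simp only [frR]; norm_num) hp
      · exact main _ (by simp only [frR]; norm_num) hp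
    · exfalso
      obtain ⟨L, hL, hp⟩ := fam_casesE (tchkE_sound (x := sq x) (y := be) hLo
        _ _ _ _ _ _ _ (by norm_num) (by norm_num) (by norm_num) (by norm_num) kRO
        (by push_cast; linarith only [hs3]) (by push_cast; linarith only [hs2]) (by push_cast; linarith only [hbe0])
        (by push_cast; linarith only [hb]))
      simp at hL
  · have hs3 : sq x ≤ 436 / 1000 := by
      by_contra hc
      push Not at hc
      nlinarith only [hz, hx3, hc]
    have hlt := in_lt hr h hx hx3 (t := sq x * sq x) hss.symm hbe0 hbeu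
    rcases le_or_gt (1 / 5) (sq x) with hs4 | hs4
    · rcases le_or_gt (7 / 20) be with hb | hb
      · obtain ⟨L, hL, hp⟩ := fam_casesE (tchkE_sound (x := sq x) (y := be) (zero_R _ _)
          _ _ _ _ _ _ _ (by norm_num) (by norm_num) (by norm_num) (by norm_num) kRP1
          (by push_cast; linarith only [hs]) (by push_cast; linarith only [hs3]) (by push_cast; linarith only [hb])
          (by push_cast; linarith only [hbe1]))
        simp only [List.mem_cons, List.not_mem_nil, or_false] at hL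
        subst hL
        exact lowR hr h hx (rb := 3 / 8 + 5 / 32 * (1 - be) + 4 / 25 * (1 - be) ^ 2)
          (fun V hV0 hV => rho_e hV0 hV hu0.le hbeu hb)
          (rRP (lam := lf τ (2 / 3)) hs hz hz1 hbe0 hub (rbE_R _ _) (by nlinarith only [])
            (by simp only [frR]; norm_num) hlt hp)
      · obtain ⟨L, hL, hp⟩ := fam_casesE (tchkE_sound (x := sq x) (y := be) hLo
          _ _ _ _ _ _ _ (by norm_num) (by norm_num) (by norm_num) (by norm_num) kRP2
          (by push_cast; linarith only [hs4]) (by push_cast; linarith only [hs3]) (by push_cast; linarith only [hbe0])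
          (by push_cast; linarith only [hb]))
        have main : ∀ kap : Fr, 0 ≤ kap.R → (∀ p ∈ fRP kap ⟨231, 999⟩ rbG, 0 ≤ p.R (sq x) be) →
            Cl τ τ' x := by
          intro kap hkap hp
          exact lowR hr h hx (rb := 3 / 8 + 5 / 8 * (1 - be))
            (fun V hV0 hV => rho_g hV0 hV hu0.le hbeu)
            (rRP (lam := lf τ (2 / 3)) hs hz hz1 hbe0 hub (rbG_R _ _) (by nlinarith only [hb])
              hkap hlt hp)
        simp only [List.mem_cons, List.not_mem_nil, or_false] at hL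
        rcases hL with rfl | rfl
        · exact main _ (by simp only [frR]; norm_num) hp
        · exact main _ (by simp only [frR]; norm_num) hp
    · obtain ⟨v, hv⟩ : ∃ v, v = uf τ τ' x * sq x := ⟨_, rfl⟩
      have hv0 : 0 ≤ v := by rw [hv]; positivity
      have hv1 : v ≤ 3 / 4 := by
        have := in_win hr h hx
        rw [← hv] at this
        linarith only [this, hx.2]
      obtain ⟨L, hL, hp⟩ := fam_casesE (tchkE_sound (x := sq x) (y := v) (zero_R _ _)
          _ _ _ _ _ _ _ (by norm_num) (by norm_num) (by norm_num) (by norm_num) kRS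
          (by push_cast; linarith only [hs]) (by push_cast; linarith only [hs4]) (by push_cast; linarith only [hv0])
          (by push_cast; linarith only [hv1]))
      simp only [List.mem_cons, List.not_mem_nil, or_false] at hL
      subst hL
      have hss1 : 0 < 6 - 5 * (sq x * sq x) := by linarith only [hz, hz1]
      have hq : 0 < sq x + v := by linarith only [hs, hv0]
      have hDS : 0 < 2 * sq x * (6 - 5 * (sq x * sq x)) + sq x * sq x * (sq x + v) := by
        (clear * - hs hss1 hv0; positivity)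
      have hDD : 0 < 2 * be * (6 - 5 * (sq x * sq x)) + sq x * sq x := by
        (clear * - hbe0 hss1 hs; positivity)
      have hbe2 : be = sq x / (sq x + v) := by
        rw [hbe, hv]
        field_simp
      have eB : 2 / (2 * be * (6 - 5 * (sq x * sq x)) + sq x * sq x) =
          2 * (sq x + v) / (2 * sq x * (6 - 5 * (sq x * sq x)) + sq x * sq x * (sq x + v)) := by
        rw [div_eq_div_iff hDD.ne' hDS.ne', hbe2]
        (clear * - hs hv0; field_simp)
      rw [eB] at hlt
      have e : (3 / 8 * sq x + v) / (sq x + v) = 3 / 8 + 5 / 8 * (1 - be) := by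
        rw [hbe2]
        field_simp
        ring
      refine lowR hr h hx (rb := 3 / 8 + 5 / 8 * (1 - be))
        (fun V hV0 hV => rho_g hV0 hV hu0.le hbeu) ?_
      rw [← e]
      exact rRS (lam := lf τ (2 / 3)) hs hz hz1 hv0 hv
        (by simp only [frR]; norm_num) hlt hp

/-- **right of the pole** -/
theorem ptR (hr : IsProf r) (h : IsTrans 4 r τ τ' T) (hx : x ∈ Ioo (0 : ℝ) 1)
    (hx0 : 2 / 3 < x) : Cl τ τ' x := by
  rcases le_or_gt (uf τ τ' x) 0 with hu0 | hu0
  · exact ptRM hr h hx hx0 hu0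
  · exact ptRP hr h hx hx0 hu0

end Vale.Agent.P237.AllN.M4
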