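import Vale.Agent.P237.AllN.PolyArith

/-!
# Arithmetic of integer coefficient lists in two variables and certified positivity on trees of boxes
-/

namespace Vale.Agent.P237.AllN.PolyPos

/-- two-variable coefficient lists -/
abbrev P2 := List (List ℤ)

/-- sum -/
def p2add (p q : P2) : P2 := addL (opsL opsZ) p q

/-- scalar multiple -/
def p2sm (c : ℤ) (p : P2) : P2 := p.map (psm c)

/-- difference -/
def p2sub (p q : P2) : P2 := p2add p (p2sm (-1) q)

/-- product -/
def p2mul : P2 → P2 → P2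
  | [], _ => []
  | a :: p, q => p2add (q.map (pmul a)) ([] :: p2mul p q)

theorem ev2_nil (x y : ℝ) : ev2 [] x y = 0 := by simp [ev2, evL]

theorem ev2_cons (a : List ℤ) (p : P2) (x y : ℝ) :
    ev2 (a :: p) x y = ev1 a y + x * ev2 p x y := by simp [ev2, evL]

theorem ev2_add (p q : P2) (x y : ℝ) : ev2 (p2add p q) x y = ev2 p x y + ev2 q x y :=
  evL_addL (lin_opsL lin_opsZ y) x p q

theorem ev2_sm (c : ℤ) (p : P2) (x y : ℝ) : ev2 (p2sm c p) x y = c * ev2 p x y := by
  induction p with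
  | nil => simp [p2sm, ev2_nil]
  | cons a p ih =>
    simp only [p2sm, List.map_cons, ev2_cons, ev1_psm] at ih ⊢
    rw [ih]
    ring

theorem ev2_sub (p q : P2) (x y : ℝ) : ev2 (p2sub p q) x y = ev2 p x y - ev2 q x y := by
  rw [p2sub, ev2_add, ev2_sm]
  push_cast
  ring

theorem ev2_map_pmul (a : List ℤ) (q : P2) (x y : ℝ) :
    ev2 (q.map (pmul a)) x y = ev1 a y * ev2 q x y := by
  induction q with
  | nil => simp [ev2_nil]
  | cons b q ih =>
    simp only [List.map_cons, ev2_cons, ev1_pmul, ih]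
    ring

theorem ev2_mul (p q : P2) (x y : ℝ) : ev2 (p2mul p q) x y = ev2 p x y * ev2 q x y := by
  induction p with
  | nil => simp [p2mul, ev2_nil]
  | cons a p ih =>
    rw [p2mul, ev2_add, ev2_map_pmul, ev2_cons, ih, ev2_cons, ev1_nil]
    ring

/-- subdivision trees; `leaf i` uses the `i`-th family -/
inductive PT
  | leaf (i : ℕ)
  | out
  | sx (l r : PT)
  | sy (l r : PT)

/-- check on a box `[A/D, B/D) × [A'/D', B'/D')`: on leaves all members of one family are
nonnegative, on `out` boxes the region polynomial is at least `1` -/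
def tchk (F : List (List P2)) (Lo : P2) : PT → ℤ → ℤ → ℤ → ℤ → ℤ → ℤ → Bool
  | .leaf i, A, B, D, A', B', D' => (F.getD i [[[-1]]]).all (check2 A B D A' B' D')
  | .out, A, B, D, A', B', D' => check2 A B D A' B' D' (p2sub Lo [[1]])
  | .sx l r, A, B, D, A', B', D' =>
    tchk F Lo l (2 * A) (A + B) (2 * D) A' B' D' && tchk F Lo r (A + B) (2 * B) (2 * D) A' B' D'
  | .sy l r, A, B, D, A', B', D' =>
    tchk F Lo l A B D (2 * A') (A' + B') (2 * D') && tchk F Lo r A B D (A' + B') (2 * B') (2 * D')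

theorem tchk_sound {F : List (List P2)} {Lo : P2} {x y : ℝ} (hLo : ev2 Lo x y ≤ 0) :
    ∀ (t : PT) (A B D A' B' D' : ℤ), 0 < D → 0 < D' → tchk F Lo t A B D A' B' D' = true →
      (A : ℝ) ≤ D * x → (D : ℝ) * x < B → (A' : ℝ) ≤ D' * y → (D' : ℝ) * y < B' →
      ∃ i, ∀ p ∈ F.getD i [[[-1]]], 0 ≤ ev2 p x y
  | .leaf i, A, B, D, A', B', D', hD, hD', h, h0, h1, h2, h3 => by
    refine ⟨i, fun p hp => ?_⟩
    simp only [tchk, List.all_eq_true] at h
    exact check2_sound hD hD' (h p hp) h0 h1 h2 h3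
  | .out, A, B, D, A', B', D', hD, hD', h, h0, h1, h2, h3 => by
    exfalso
    have h4 := check2_sound hD hD' (by simpa [tchk] using h) h0 h1 h2 h3
    rw [ev2_sub] at h4
    simp only [ev2, ev1, evL] at h4 hLo
    norm_num at h4
    linarith
  | .sx l r, A, B, D, A', B', D', hD, hD', h, h0, h1, h2, h3 => by
    simp only [tchk, Bool.and_eq_true] at h
    rcases lt_or_ge (((2 * D : ℤ) : ℝ) * x) ((A + B : ℤ) : ℝ) with h4 | h4
    · exact tchk_sound hLo l _ _ _ _ _ _ (by omega) hD' h.1 (by push_cast at *; linarith) h4 h2 h3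
    · exact tchk_sound hLo r _ _ _ _ _ _ (by omega) hD' h.2 h4 (by push_cast at *; linarith) h2 h3
  | .sy l r, A, B, D, A', B', D', hD, hD', h, h0, h1, h2, h3 => by
    simp only [tchk, Bool.and_eq_true] at h
    rcases lt_or_ge (((2 * D' : ℤ) : ℝ) * y) ((A' + B' : ℤ) : ℝ) with h4 | h4
    · exact tchk_sound hLo l _ _ _ _ _ _ hD (by omega) h.1 h0 h1 (by push_cast at *; linarith) h4
    · exact tchk_sound hLo r _ _ _ _ _ _ hD (by omega) h.2 h0 h1 h4 (by push_cast at *; linarith)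

/-- the four polynomials of the psd test: `a - e`, `ab - Wd²`, `ac - Wf²`, determinant -/
def psdP (a b c d f g W e : P2) : List P2 :=
  let dd := p2mul d d
  let ff := p2mul f f
  [p2sub a e, p2sub (p2mul a b) (p2mul W dd), p2sub (p2mul a c) (p2mul W ff),
    p2sub (p2mul a (p2sub (p2mul b c) (p2mul g g)))
      (p2mul W (p2add (p2sub (p2mul c dd) (p2sm 2 (p2mul g (p2mul d f)))) (p2mul b ff)))]

theorem psdP_sound {a b c d f g W e : P2} {x y : ℝ}
    (h : ∀ p ∈ psdP a b c d f g W e, 0 ≤ ev2 p x y) :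
    ev2 e x y ≤ ev2 a x y ∧ 0 ≤ ev2 a x y * ev2 b x y - ev2 W x y * ev2 d x y ^ 2 ∧
    0 ≤ ev2 a x y * ev2 c x y - ev2 W x y * ev2 f x y ^ 2 ∧
    0 ≤ ev2 a x y * (ev2 b x y * ev2 c x y - ev2 g x y ^ 2) - ev2 W x y *
      (ev2 c x y * ev2 d x y ^ 2 - 2 * ev2 g x y * ev2 d x y * ev2 f x y +
        ev2 b x y * ev2 f x y ^ 2) := by
  simp only [psdP, List.mem_cons, List.not_mem_nil, or_false, forall_eq_or_imp, forall_eq,
    ev2_sub, ev2_add, ev2_mul, ev2_sm] at h
  obtain ⟨h1, h2, h3, h4⟩ := h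
  push_cast at h4
  refine ⟨by linarith, by linarith, by linarith, by linarith⟩

end Vale.Agent.P237.AllN.PolyPos
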