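import Vale.Agent.P237.AllN.PcQ
import Vale.Agent.P237.AllN.PolyArith2

/-!
# P237, plain certificate (m ≥ 5): the five regions
-/

namespace Vale.Agent.P237.AllN

open PolyPos

theorem pc_psd {A B C D F G W e : P2} {x y : ℝ} (h : ∀ p ∈ psdP A B C D F G W e, 0 ≤ ev2 p x y)
    (he : 0 < ev2 e x y) (hW : 0 < ev2 W x y) (X Y Z : ℝ) :
    0 ≤ ev2 A x y * X ^ 2 + ev2 W x y * (ev2 B x y * Y ^ 2 + ev2 C x y * Z ^ 2 +
      2 * ev2 D x y * X * Y + 2 * ev2 F x y * X * Z + 2 * ev2 G x y * Y * Z) := by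
  obtain ⟨h1, h2, h3, h4⟩ := psdP_sound h
  exact psd3 hW (he.trans_le h1) h2 h3 h4 X Y Z

/-- The matrix entries on the right, `t = s²`, `z = x²`, extra multiplier `η`. -/
theorem pc_right {m k1 a4 th c2 x02 eps R C rb η lm z u t lam e : ℝ} (hm : m ≠ 0)
    (ht : t ≠ 0) (hE : 1 + u ≠ 0) (hδ : z - x02 ≠ 0) :
    (1 + u) * (pcLow m k1 th c2 R C (rb / (1 + u)) (z / t)
        (lam + (z - x02) * e) u lam +
      pcNR m a4 x02 z (z / t) ((z - x02) * e) u -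
      eps * (u ^ 2 / (1 + u)) -
      η / (1 + u) * u ^ 2 * (lm - (lam + (z - x02) * e))) =
    let γ := (m - 1) / (m + 1)
    let δ := z - x02
    let E := 1 + u
    let a0 := th * (m - 1) / (2 * m) - 9 / 2 * γ - γ * C
    let Qul := -(3 * γ * z + rb * t / m - η * t) * u
    let Qll := E * (z * t * a0 + 3 / 2 * γ * (m - 3) * z ^ 2) - c2 * rb * u ^ 2 * t ^ 2
    let Qlk := E * (m - 1) * k1 * z * t - k1 / m * rb * u ^ 2 * t ^ 2
    let a := 2 * γ * R - rb - eps - η * lm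
    let d := 1 / 2 * (δ * Qul - 2 * a4 * z * t * E)
    let f := 1 / 2 * (Qul - k1 * rb * u * t)
    let b := δ ^ 2 * Qll + E * (2 * a4 * z * x02 * t ^ 2 - a4 * z * δ * t * (t - (m - 1) * z))
    let g := 1 / 2 * δ * (2 * Qll + Qlk)
    let c := Qll + Qlk
    a * u ^ 2 + (b * (e / t) ^ 2 + c * (lam / t) ^ 2 + 2 * d * u * (e / t) +
      2 * f * u * (lam / t) + 2 * g * (e / t) * (lam / t)) := by
  unfold pcLow pcNR
  simp only
  field_simp
  ring

/-- real version of the entries on the left (`x`, `v`, with multiplier `η`) -/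
theorem pc_left_ge {m k1 a1 a2 a3 th c2 x02 eps R C rb η lm x v t lam l e : ℝ} (hm : m ≠ 0)
    (ht : 0 < t) (hE : 0 < 1 + x * v) (hδ : x02 - x ^ 2 ≠ 0) (hl : l = lam + (x02 - x ^ 2) * e)
    (hη : 0 ≤ η) (hlm : η = 0 ∨ l ≤ lm)
    (h : 0 ≤ (let γ := (m - 1) / (m + 1)
      let δ := x02 - x ^ 2
      let E := 1 + x * v
      let a0 := th * (m - 1) / (2 * m) - 9 / 2 * γ - γ * C
      let Qul := -3 * γ * x ^ 2 * t * v - t ^ 2 * rb * v / m + η * t ^ 2 * v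
      let Qll := E * (t * a0 + 3 / 2 * γ * (m - 3) * x ^ 2) - c2 * rb * v ^ 2 * t ^ 2
      let Qlk := (m - 1) * k1 * t * E - k1 / m * rb * v ^ 2 * t ^ 2
      let a := t ^ 2 * (2 * γ * R - rb - eps) - η * lm * t ^ 2
      let d := 1 / 2 * (δ * Qul + 2 * x * t ^ 2 * E * (a1 + a2 * δ))
      let f := 1 / 2 * (Qul - k1 * t ^ 2 * rb * v + a3 * x * t ^ 2 * E)
      let b := δ ^ 2 * Qll + E * t ^ 2 * (2 * a1 * x02 + 2 * a2 * δ ^ 2) +
        E * t * (t - (m - 1) * x ^ 2) * δ * (a1 + a2 * δ)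
      let g := 1 / 2 * (2 * δ * Qll + δ * Qlk + δ * a3 * E * t * (3 * t - (m - 1) * x ^ 2))
      let c := Qll + Qlk
      a * (x * v) ^ 2 + (b * (x * e) ^ 2 + c * (x * lam) ^ 2 + 2 * d * (x * v) * (x * e) +
        2 * f * (x * v) * (x * lam) + 2 * g * (x * e) * (x * lam)))) :
    eps * ((x * v) ^ 2 / (1 + x * v)) ≤
      pcLow m k1 th c2 R C (rb / (1 + x * v)) (x ^ 2 / t) l (x * v) lam +
      pcNL m a1 a2 a3 x02 (x ^ 2) (x ^ 2 / t) (l - lam) (x * v) lam := by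
  have key := pc_left (k1 := k1) (a1 := a1) (a2 := a2) (a3 := a3) (th := th) (c2 := c2)
    (x02 := x02) (eps := eps) (R := R) (C := C) (rb := rb) (η := η) (lm := lm) (x := x) (v := v)
    (t := t) (lam := lam) (e := e) hm ht.ne' hE.ne' hδ
  simp only at key h
  rw [← key] at h
  have hpos : 0 < (1 + x * v) * t ^ 2 := by (clear * - hE ht; positivity)
  have h1 := nonneg_of_mul_nonneg_right h hpos
  have h2 : 0 ≤ η / (1 + x * v) * (x * v) ^ 2 * (lm - (lam + (x02 - x ^ 2) * e)) := by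
    rcases hlm with h0 | h0
    · rw [h0]
      simp
    · rw [← hl]
      have : 0 ≤ lm - l := by linarith only [h0]
      (clear * - hη hE h0; positivity)
  have h3 : l - lam = (x02 - x ^ 2) * e := by rw [hl]; ring
  rw [h3, hl]
  linarith only [h1, h2]

/-- real version of the entries on the right (`z`, `u`, with multiplier `η`) -/
theorem pc_right_ge {m k1 a4 th c2 x02 eps R C rb η lm z u t lam l e : ℝ} (hm : m ≠ 0)
    (ht : 0 < t) (hE : 0 < 1 + u) (hδ : z - x02 ≠ 0) (hl : l = lam + (z - x02) * e)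
    (hη : 0 ≤ η) (hlm : η = 0 ∨ l ≤ lm)
    (h : 0 ≤ (let γ := (m - 1) / (m + 1)
      let δ := z - x02
      let E := 1 + u
      let a0 := th * (m - 1) / (2 * m) - 9 / 2 * γ - γ * C
      let Qul := -(3 * γ * z + rb * t / m - η * t) * u
      let Qll := E * (z * t * a0 + 3 / 2 * γ * (m - 3) * z ^ 2) - c2 * rb * u ^ 2 * t ^ 2
      let Qlk := E * (m - 1) * k1 * z * t - k1 / m * rb * u ^ 2 * t ^ 2
      let a := 2 * γ * R - rb - eps - η * lm
      let d := 1 / 2 * (δ * Qul - 2 * a4 * z * t * E)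
      let f := 1 / 2 * (Qul - k1 * rb * u * t)
      let b := δ ^ 2 * Qll + E * (2 * a4 * z * x02 * t ^ 2 - a4 * z * δ * t * (t - (m - 1) * z))
      let g := 1 / 2 * δ * (2 * Qll + Qlk)
      let c := Qll + Qlk
      a * u ^ 2 + (b * (e / t) ^ 2 + c * (lam / t) ^ 2 + 2 * d * u * (e / t) +
        2 * f * u * (lam / t) + 2 * g * (e / t) * (lam / t)))) :
    eps * (u ^ 2 / (1 + u)) ≤
      pcLow m k1 th c2 R C (rb / (1 + u)) (z / t) l u lam +
      pcNR m a4 x02 z (z / t) (l - lam) u := by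
  have key := pc_right (k1 := k1) (a4 := a4) (th := th) (c2 := c2)
    (x02 := x02) (eps := eps) (R := R) (C := C) (rb := rb) (η := η) (lm := lm) (z := z) (u := u)
    (t := t) (lam := lam) (e := e) hm ht.ne' hE.ne' hδ
  simp only at key h
  rw [← key] at h
  have h1 := nonneg_of_mul_nonneg_right h hE
  have h2 : 0 ≤ η / (1 + u) * u ^ 2 * (lm - (lam + (z - x02) * e)) := by
    rcases hlm with h0 | h0
    · rw [h0]
      simp
    · rw [← hl]
      have : 0 ≤ lm - l := by linarith only [h0]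
      (clear * - hη hE h0; positivity)
  have h3 : l - lam = (z - x02) * e := by rw [hl]; ring
  rw [h3, hl]
  linarith only [h1, h2]

/-- region `x < x₀`, `u ≥ 0`; variables `x`, `v = u/x` -/
theorem pc_LP {m k1 a1 a2 a3 th c2 x02 eps R C rb x v t lam l D : ℝ}
    {La Lb Lc Ld Lf Lg Le : P2} (hm : m ≠ 0) (ht : 0 < t) (hE : 0 < 1 + x * v)
    (hδ : x02 - x ^ 2 ≠ 0) (hD : 0 < D)
    (hp : ∀ p ∈ psdP La Lb Lc Ld Lf Lg [[1]] Le, 0 ≤ ev2 p x v) (he : 0 < ev2 Le x v)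
    (ea : ev2 La x v = D * (t ^ 2 * (2 * ((m - 1) / (m + 1)) * R - rb - eps)))
    (eb : ev2 Lb x v = D * ((x02 - x ^ 2) ^ 2 * ((1 + x * v) * (t * (th * (m - 1) / (2 * m) -
      9 / 2 * ((m - 1) / (m + 1)) - (m - 1) / (m + 1) * C) + 3 / 2 * ((m - 1) / (m + 1)) *
      (m - 3) * x ^ 2) - c2 * rb * v ^ 2 * t ^ 2) + (1 + x * v) * t ^ 2 * (2 * a1 * x02 +
      2 * a2 * (x02 - x ^ 2) ^ 2) + (1 + x * v) * t * (t - (m - 1) * x ^ 2) * (x02 - x ^ 2) *
      (a1 + a2 * (x02 - x ^ 2))))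
    (ec : ev2 Lc x v = D * (((1 + x * v) * (t * (th * (m - 1) / (2 * m) -
      9 / 2 * ((m - 1) / (m + 1)) - (m - 1) / (m + 1) * C) + 3 / 2 * ((m - 1) / (m + 1)) *
      (m - 3) * x ^ 2) - c2 * rb * v ^ 2 * t ^ 2) + ((m - 1) * k1 * t * (1 + x * v) -
      k1 / m * rb * v ^ 2 * t ^ 2)))
    (ed : ev2 Ld x v = D * (1 / 2 * ((x02 - x ^ 2) * (-3 * ((m - 1) / (m + 1)) * x ^ 2 * t * v -
      t ^ 2 * rb * v / m) + 2 * x * t ^ 2 * (1 + x * v) * (a1 + a2 * (x02 - x ^ 2)))))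
    (ef : ev2 Lf x v = D * (1 / 2 * ((-3 * ((m - 1) / (m + 1)) * x ^ 2 * t * v -
      t ^ 2 * rb * v / m) - k1 * t ^ 2 * rb * v + a3 * x * t ^ 2 * (1 + x * v))))
    (eg : ev2 Lg x v = D * (1 / 2 * (2 * (x02 - x ^ 2) * ((1 + x * v) * (t * (th * (m - 1) / (2 * m) -
      9 / 2 * ((m - 1) / (m + 1)) - (m - 1) / (m + 1) * C) + 3 / 2 * ((m - 1) / (m + 1)) *
      (m - 3) * x ^ 2) - c2 * rb * v ^ 2 * t ^ 2) + (x02 - x ^ 2) * ((m - 1) * k1 * t * (1 + x * v) -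
      k1 / m * rb * v ^ 2 * t ^ 2) + (x02 - x ^ 2) * a3 * (1 + x * v) * t *
      (3 * t - (m - 1) * x ^ 2)))) :
    eps * ((x * v) ^ 2 / (1 + x * v)) ≤
      pcLow m k1 th c2 R C (rb / (1 + x * v)) (x ^ 2 / t) l (x * v) lam +
      pcNL m a1 a2 a3 x02 (x ^ 2) (x ^ 2 / t) (l - lam) (x * v) lam := by
  have hW : (0 : ℝ) < ev2 [[1]] x v := by simp [ev2, ev1, evL]
  set e := (l - lam) / (x02 - x ^ 2) with hedef
  have h := pc_psd hp he hW (x * v) (x * e) (x * lam)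
  have hW1 : ev2 [[1]] x v = 1 := by simp [ev2, ev1, evL]
  rw [hW1, ea, eb, ec, ed, ef, eg] at h
  refine pc_left_ge (η := 0) (lm := 0) (e := e) hm ht hE hδ ?_ le_rfl (Or.inl rfl) ?_
  · rw [hedef]
    field_simp
    ring
  · refine nonneg_of_mul_nonneg_right (a := D) ?_ hD
    refine h.trans (le_of_eq ?_)
    simp only
    ring

end Vale.Agent.P237.AllN
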