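import Vale.Agent.P237.AllN.PcE
import Vale.Agent.P237.AllN.PcR

/-!
# P237, plain certificate for `m = 4`: matrix entries with a free pole `x₀² = cx` and with
multipliers coming from a joint bound of `l` and `u`, and the reduction of the pointwise
inequality to the quadratic forms
-/

namespace Vale.Agent.P237.AllN.M4

open PolyPos

section

variable {α : Type} [Add α] [Sub α] [Mul α]

/-- entries on the left, `u ≥ 0`; variables `x`, `v = u/x`; multiplier `kap`, `l ≤ ly` -/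
def entLP (k : Fr → α) (P : Pm) (cx : Fr) (kap ly R C rb x v : α) : Ent α :=
  let one := k ⟨1, 0⟩
  let z := x * x
  let t := one - z
  let t2 := t * t
  let E := one + x * v
  let de := k cx - z
  let a0 := k P.th * k P.ch - k ⟨9, 1⟩ * k P.cg - k P.cg * C
  let S := k ⟨3, 0⟩ * k P.cg * z + k P.ci * (rb * t)
  let Qu := (one - kap) * (t * v * S)
  let Qll := E * (t * a0 + k ⟨3, 1⟩ * k P.cg * k P.c3 * z) - k P.c2 * (rb * (v * v) * t2)
  let Qlk := k P.c1 * k P.k1 * (t * E) - k P.k1 * k P.ci * (rb * (v * v) * t2)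
  let A := k P.a1 + k P.a2 * de
  { a := t2 * (k ⟨2, 0⟩ * k P.cg * R - rb - k P.eps) - kap * (t * S) * ly
    b := de * de * Qll + E * t2 * (k ⟨2, 0⟩ * k P.a1 * k cx + k ⟨2, 0⟩ * k P.a2 * (de * de)) +
      E * t * (t - k P.c1 * z) * (de * A)
    c := Qll + Qlk
    d := k ⟨1, 1⟩ * (k ⟨2, 0⟩ * x * t2 * E * A - de * Qu)
    f := k ⟨1, 1⟩ * (k P.a3 * x * t2 * E - Qu - k P.k1 * (t2 * rb * v))
    g := k ⟨1, 1⟩ * (de * (k ⟨2, 0⟩ * Qll + Qlk) +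
      de * k P.a3 * E * t * (k ⟨3, 0⟩ * t - k P.c1 * z))
    W := one
    e := k P.e0 * t2 }

/-- entries on the left, `u ≤ 0`; variables `z = x²`, `n1 = -u/z` -/
def entLM (k : Fr → α) (P : Pm) (cx : Fr) (R C rb z n1 : α) : Ent α :=
  let one := k ⟨1, 0⟩
  let t := one - z
  let t2 := t * t
  let n := z * n1
  let E := one - n
  let de := k cx - z
  let a0 := k P.th * k P.ch - k ⟨9, 1⟩ * k P.cg - k P.cg * C
  let S := k ⟨3, 0⟩ * k P.cg * z + k P.ci * (rb * t)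
  let Qu := n1 * (S * t)
  let Qll := E * (t * a0 + k ⟨3, 1⟩ * k P.cg * k P.c3 * z) - k P.c2 * (rb * (z * (n1 * n1)) * t2)
  let Qlk := k P.c1 * k P.k1 * (t * E) - k P.k1 * k P.ci * (rb * (z * (n1 * n1)) * t2)
  let A := k P.a1 + k P.a2 * de
  { a := t2 * (k ⟨2, 0⟩ * k P.cg * R - rb - k P.eps)
    b := de * de * Qll + E * t2 * (k ⟨2, 0⟩ * k P.a1 * k cx + k ⟨2, 0⟩ * k P.a2 * (de * de)) +
      E * t * (t - k P.c1 * z) * (de * A)
    c := Qll + Qlk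
    d := k ⟨1, 1⟩ * (de * Qu + k ⟨2, 0⟩ * t2 * E * A)
    f := k ⟨1, 1⟩ * (Qu + k P.k1 * (t2 * rb * n1) + k P.a3 * t2 * E)
    g := k ⟨1, 1⟩ * (de * (k ⟨2, 0⟩ * Qll + Qlk) +
      de * k P.a3 * E * t * (k ⟨3, 0⟩ * t - k P.c1 * z))
    W := z
    e := k P.e0 * t2 }

/-- entries on the right, `u ≤ 0`; variables `s`, `E = 1 + u` -/
def entRM (k : Fr → α) (P : Pm) (cx : Fr) (kap ly C rh s E : α) : Ent α :=
  let one := k ⟨1, 0⟩
  let t := s * s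
  let z := one - t
  let n := one - E
  let de := z - k cx
  let a0 := k P.th * k P.ch - k ⟨9, 1⟩ * k P.cg - k P.cg * C
  let S := k ⟨3, 0⟩ * k P.cg * z + k P.ci * (rh * t)
  let Qu := n * (one - kap * n) * S
  let Qll := E * (z * t * a0 + k ⟨3, 1⟩ * k P.cg * k P.c3 * (z * z)) -
    k P.c2 * (rh * (n * n) * (t * t))
  let Qlk := E * (k P.c1 * k P.k1) * (z * t) - k P.k1 * k P.ci * (rh * (n * n) * (t * t))
  { a := k ⟨2, 0⟩ * k P.cg * (one + s - t) - (one + s) * (rh + kap * (n * S) * ly + k P.eps)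
    b := de * de * Qll + E * (k ⟨2, 0⟩ * k P.a4 * k cx * (z * (t * t)) -
      k P.a4 * (z * de) * t * (t - k P.c1 * z))
    c := Qll + Qlk
    d := k ⟨1, 1⟩ * (de * Qu - k ⟨2, 0⟩ * k P.a4 * (z * t) * E)
    f := k ⟨1, 1⟩ * (Qu + k P.k1 * (rh * n * t))
    g := k ⟨1, 1⟩ * de * (k ⟨2, 0⟩ * Qll + Qlk)
    W := one + s
    e := k P.e0 }

/-- entries on the right, `u ≥ 0`; variables `s`, `β = 1/(1 + u)`; tail bound of `l` -/
def entRP (k : Fr → α) (P : Pm) (cx : Fr) (kap lp C rh s be : α) : Ent α :=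
  let one := k ⟨1, 0⟩
  let t := s * s
  let z := one - t
  let n := one - be
  let de := z - k cx
  let a0 := k P.th * k P.ch - k ⟨9, 1⟩ * k P.cg - k P.cg * C
  let S := k ⟨3, 0⟩ * k P.cg * z + k P.ci * (rh * t)
  let G := k P.cm + k ⟨2, 0⟩ - (k P.cm + one) * t
  let D2 := k ⟨2, 0⟩ * be * G + t
  let lt := lp * D2 - k ⟨2, 0⟩
  let Qu := (one - kap) * n * S
  let Qll := be * (z * t * a0 + k ⟨3, 1⟩ * k P.cg * k P.c3 * (z * z)) -
    k P.c2 * (rh * (n * n) * (t * t))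
  let Qlk := be * (k P.c1 * k P.k1) * (z * t) - k P.k1 * k P.ci * (rh * (n * n) * (t * t))
  { a := D2 * (k ⟨2, 0⟩ * k P.cg * (one + s - t) - (one + s) * (rh + k P.eps)) -
      (one + s) * kap * S * lt
    b := de * de * Qll + be * (k ⟨2, 0⟩ * k P.a4 * k cx * (z * (t * t)) -
      k P.a4 * (z * de) * t * (t - k P.c1 * z))
    c := Qll + Qlk
    d := k ⟨-1, 1⟩ * (de * Qu + k ⟨2, 0⟩ * k P.a4 * (z * t))
    f := k ⟨-1, 1⟩ * (Qu + k P.k1 * (rh * n * t))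
    g := k ⟨1, 1⟩ * de * (k ⟨2, 0⟩ * Qll + Qlk)
    W := D2 * (one + s)
    e := k P.e0 * D2 }

/-- entries on the right, `u ≥ 0`; variables `s`, `β = 1/(1 + u)`; joint bound
`l ≤ t (jj - kk u)` -/
def entRJ (k : Fr → α) (P : Pm) (cx : Fr) (kap jj kk C rh s be : α) : Ent α :=
  let one := k ⟨1, 0⟩
  let t := s * s
  let z := one - t
  let n := one - be
  let de := z - k cx
  let a0 := k P.th * k P.ch - k ⟨9, 1⟩ * k P.cg - k P.cg * C
  let S := k ⟨3, 0⟩ * k P.cg * z + k P.ci * (rh * t)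
  let lt := jj * be - kk * n
  let Qu := (one - kap) * n * S
  let Qll := be * (z * t * a0 + k ⟨3, 1⟩ * k P.cg * k P.c3 * (z * z)) -
    k P.c2 * (rh * (n * n) * (t * t))
  let Qlk := be * (k P.c1 * k P.k1) * (z * t) - k P.k1 * k P.ci * (rh * (n * n) * (t * t))
  { a := be * (k ⟨2, 0⟩ * k P.cg * (one + s - t) - (one + s) * (rh + k P.eps)) -
      (one + s) * kap * S * lt
    b := de * de * Qll + be * (k ⟨2, 0⟩ * k P.a4 * k cx * (z * (t * t)) -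
      k P.a4 * (z * de) * t * (t - k P.c1 * z))
    c := Qll + Qlk
    d := k ⟨-1, 1⟩ * (de * Qu + k ⟨2, 0⟩ * k P.a4 * (z * t))
    f := k ⟨-1, 1⟩ * (Qu + k P.k1 * (rh * n * t))
    g := k ⟨1, 1⟩ * de * (k ⟨2, 0⟩ * Qll + Qlk)
    W := be * (one + s)
    e := k P.e0 * be }

/-- entries on the right, `u ≥ 0`, near `x = 1`; variables `s`, `v = u s` (`q = s + v`),
`ρ` bounded by `(r0 s + v) / (s + v)` -/
def entRS (k : Fr → α) (P : Pm) (cx : Fr) (kap lp C r0 s v : α) : Ent α :=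
  let one := k ⟨1, 0⟩
  let t := s * s
  let z := one - t
  let de := z - k cx
  let q := s + v
  let rq := r0 * s + v
  let a0 := k P.th * k P.ch - k ⟨9, 1⟩ * k P.cg - k P.cg * C
  let Sq := k ⟨3, 0⟩ * k P.cg * (z * q) + k P.ci * (rq * t)
  let G := k P.cm + k ⟨2, 0⟩ - (k P.cm + one) * t
  let D2 := k ⟨2, 0⟩ * s * G + t * q
  let lt := lp * D2 - k ⟨2, 0⟩ * q
  let Qu := (one - kap) * v * Sq
  let Qll := s * (q * q) * (z * t * a0 + k ⟨3, 1⟩ * k P.cg * k P.c3 * (z * z)) -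
    k P.c2 * (rq * (v * v) * (t * t))
  let Qlk := s * (q * q) * (k P.c1 * k P.k1) * (z * t) -
    k P.k1 * k P.ci * (rq * (v * v) * (t * t))
  { a := D2 * (k ⟨2, 0⟩ * k P.cg * (one + s - t) * q - (one + s) * (rq + k P.eps * q)) -
      (one + s) * kap * Sq * lt
    b := de * de * Qll + s * (q * q) * (k ⟨2, 0⟩ * k P.a4 * k cx * (z * (t * t)) -
      k P.a4 * (z * de) * t * (t - k P.c1 * z))
    c := Qll + Qlk
    d := k ⟨-1, 1⟩ * (de * Qu + k ⟨2, 0⟩ * k P.a4 * (z * t) * (q * q))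
    f := k ⟨-1, 1⟩ * (Qu + k P.k1 * (rq * v * t))
    g := k ⟨1, 1⟩ * de * (k ⟨2, 0⟩ * Qll + Qlk)
    W := D2 * (one + s)
    e := k P.e0 * (s * s) }

end

theorem formLP {P : Pm} {cx : Fr} {kap ly R C rb : Ex} {x v : ℝ}
    (h : ∀ p ∈ psdE (entLP Ex.c P cx kap ly R C rb Ex.X Ex.Y), 0 ≤ p.R x v) (he : 0 < P.e0.R)
    (ht : 0 < 1 - x * x) :
    FormNN (entLP Fr.R P cx (kap.R x v) (ly.R x v) (R.R x v) (C.R x v) (rb.R x v) x v) := by
  refine formNN_of h ?_ ?_ ?_ ?_ ?_ ?_ ?_ ?_ ?_ ?_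
  any_goals simp only [entLP, Ex.R_add, Ex.R_sub, Ex.R_mul, Ex.R_c, Ex.R_X, Ex.R_Y]
  · rw [Fr.R1]
    positivity
  · rw [Fr.R1]
    norm_num

theorem formLM {P : Pm} {cx : Fr} {R C rb : Ex} {z n1 : ℝ}
    (h : ∀ p ∈ psdE (entLM Ex.c P cx R C rb Ex.X Ex.Y), 0 ≤ p.R z n1) (he : 0 < P.e0.R)
    (hz : 0 < z) (ht : 0 < 1 - z) :
    FormNN (entLM Fr.R P cx (R.R z n1) (C.R z n1) (rb.R z n1) z n1) := by
  refine formNN_of h ?_ ?_ ?_ ?_ ?_ ?_ ?_ ?_ ?_ ?_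
  any_goals simp only [entLM, Ex.R_add, Ex.R_sub, Ex.R_mul, Ex.R_c, Ex.R_X, Ex.R_Y]
  · rw [Fr.R1]
    positivity
  · exact hz

theorem formRM {P : Pm} {cx : Fr} {kap ly C rh : Ex} {s E : ℝ}
    (h : ∀ p ∈ psdE (entRM Ex.c P cx kap ly C rh Ex.X Ex.Y), 0 ≤ p.R s E) (he : 0 < P.e0.R)
    (hs : 0 < s) :
    FormNN (entRM Fr.R P cx (kap.R s E) (ly.R s E) (C.R s E) (rh.R s E) s E) := by
  refine formNN_of h ?_ ?_ ?_ ?_ ?_ ?_ ?_ ?_ ?_ ?_
  any_goals simp only [entRM, Ex.R_add, Ex.R_sub, Ex.R_mul, Ex.R_c, Ex.R_X, Ex.R_Y]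
  · exact he
  · rw [Fr.R1]
    (clear * - hs; positivity)

theorem formRP {P : Pm} {cx : Fr} {kap lp C rh : Ex} {s be : ℝ}
    (h : ∀ p ∈ psdE (entRP Ex.c P cx kap lp C rh Ex.X Ex.Y), 0 ≤ p.R s be) (he : 0 < P.e0.R)
    (hs : 0 < s) (hD : 0 < 2 * be * ((P.m : ℝ) + 2 - (P.m + 1) * (s * s)) + s * s) :
    FormNN (entRP Fr.R P cx (kap.R s be) (lp.R s be) (C.R s be) (rh.R s be) s be) := by
  refine formNN_of h ?_ ?_ ?_ ?_ ?_ ?_ ?_ ?_ ?_ ?_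
  any_goals simp only [entRP, Ex.R_add, Ex.R_sub, Ex.R_mul, Ex.R_c, Ex.R_X, Ex.R_Y]
  · rw [Fr.R1, Fr.R2, Pm.cm_R]
    exact mul_pos he hD
  · rw [Fr.R1, Fr.R2, Pm.cm_R]
    exact mul_pos hD (by linarith only [hs])

theorem formRJ {P : Pm} {cx : Fr} {kap jj kk C rh : Ex} {s be : ℝ}
    (h : ∀ p ∈ psdE (entRJ Ex.c P cx kap jj kk C rh Ex.X Ex.Y), 0 ≤ p.R s be) (he : 0 < P.e0.R)
    (hs : 0 < s) (hbe : 0 < be) :
    FormNN (entRJ Fr.R P cx (kap.R s be) (jj.R s be) (kk.R s be) (C.R s be) (rh.R s be)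
      s be) := by
  refine formNN_of h ?_ ?_ ?_ ?_ ?_ ?_ ?_ ?_ ?_ ?_
  any_goals simp only [entRJ, Ex.R_add, Ex.R_sub, Ex.R_mul, Ex.R_c, Ex.R_X, Ex.R_Y]
  · exact mul_pos he hbe
  · rw [Fr.R1]
    exact mul_pos hbe (by linarith)

theorem formRS {P : Pm} {cx : Fr} {kap lp C r0 : Ex} {s v : ℝ}
    (h : ∀ p ∈ psdE (entRS Ex.c P cx kap lp C r0 Ex.X Ex.Y), 0 ≤ p.R s v) (he : 0 < P.e0.R)
    (hs : 0 < s)
    (hD : 0 < 2 * s * ((P.m : ℝ) + 2 - (P.m + 1) * (s * s)) + s * s * (s + v)) :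
    FormNN (entRS Fr.R P cx (kap.R s v) (lp.R s v) (C.R s v) (r0.R s v) s v) := by
  refine formNN_of h ?_ ?_ ?_ ?_ ?_ ?_ ?_ ?_ ?_ ?_
  any_goals simp only [entRS, Ex.R_add, Ex.R_sub, Ex.R_mul, Ex.R_c, Ex.R_X, Ex.R_Y]
  · exact mul_pos he (mul_pos hs hs)
  · rw [Fr.R1, Fr.R2, Pm.cm_R]
    exact mul_pos hD (by linarith)

theorem regLP {P : Pm} {cx : Fr} (hm : 0 < P.m) {kap ly R C rb x v t l lam : ℝ}
    (htx : t = 1 - x ^ 2) (ht : 0 < t) (hm1 : 1 ≤ P.m) (hrb : 0 ≤ rb) (hkap : 0 ≤ kap)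
    (hE : 0 < 1 + x * v) (hδ : cx.R - x ^ 2 ≠ 0) (hl : kap = 0 ∨ l ≤ ly)
    (hF : FormNN (entLP Fr.R P cx kap ly R C rb x v)) :
    P.eps.R * ((x * v) ^ 2 / (1 + x * v)) ≤
      pcLow P.m P.k1.R P.th.R P.c2.R R C (rb / (1 + x * v)) (x ^ 2 / t) l (x * v) lam +
      pcNL P.m P.a1.R P.a2.R P.a3.R cx.R (x ^ 2) (x ^ 2 / t) (l - lam)
        (x * v) lam := by
  have hm' : (P.m : ℝ) ≠ 0 := by exact_mod_cast hm.ne'
  have hm2 : (1 : ℝ) ≤ P.m := by exact_mod_cast hm1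
  have hm1 : (P.m : ℝ) + 1 ≠ 0 := by positivity
  set e := (l - lam) / (cx.R - x ^ 2) with hedef
  have h := hF (x * v) (x * e) (x * lam)
  simp only [entLP, Fr.R1, Fr.R2, Fr.R3, Fr.R12, Fr.R32, Fr.R92, Pm.cg_R, Pm.c1_R,
    Pm.c3_R, Pm.ci_R P hm, Pm.ch_R P hm] at h
  have hS : 0 ≤ 3 * (((P.m : ℝ) - 1) / (P.m + 1)) * x ^ 2 + 1 / (P.m : ℝ) * (rb * t) := by
    have h1 : 0 ≤ ((P.m : ℝ) - 1) / (P.m + 1) := div_nonneg (by linarith only [hm2]) (by linarith only [])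
    (clear * - hm2 hm hrb ht; positivity)
  have hη : 0 ≤ kap *
      ((3 * (((P.m : ℝ) - 1) / (P.m + 1)) * x ^ 2 + 1 / (P.m : ℝ) * (rb * t)) / t) := by
    (clear * - hkap hm2 hm hrb ht; positivity)
  refine pc_left_ge (η := kap *
      ((3 * (((P.m : ℝ) - 1) / (P.m + 1)) * x ^ 2 + 1 / (P.m : ℝ) * (rb * t)) / t))
    (lm := ly) (e := e) hm' ht hE hδ ?_ hη ?_ ?_
  · rw [hedef, mul_comm, div_mul_cancel₀ _ hδ]
    ring
  · rcases hl with h0 | h0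
    · left
      rw [h0, zero_mul]
    · exact Or.inr h0
  · refine h.trans (le_of_eq ?_)
    simp only
    have : (1 : ℝ) - x * x = t := by rw [htx]; ring
    rw [this]
    have htne := ht.ne'
    clear_value e
    field_simp
    ring

theorem regLM {P : Pm} {cx : Fr} (hm : 0 < P.m) {R C rb x z n1 t l lam : ℝ} (hz : z = x ^ 2)
    (hx : 0 < x) (htx : t = 1 - x ^ 2) (ht : 0 < t) (hE : 0 < 1 - z * n1)
    (hδ : cx.R - x ^ 2 ≠ 0) (hm1 : 1 ≤ P.m)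
    (hF : FormNN (entLM Fr.R P cx R C rb z n1)) :
    P.eps.R * ((-(z * n1)) ^ 2 / (1 + -(z * n1))) ≤
      pcLow P.m P.k1.R P.th.R P.c2.R R C (rb / (1 + -(z * n1))) (x ^ 2 / t) l (-(z * n1)) lam +
      pcNL P.m P.a1.R P.a2.R P.a3.R cx.R (x ^ 2) (x ^ 2 / t) (l - lam)
        (-(z * n1)) lam := by
  have hm' : (P.m : ℝ) ≠ 0 := by exact_mod_cast hm.ne'
  have hm2 : (1 : ℝ) ≤ P.m := by exact_mod_cast hm1
  have hm1 : (P.m : ℝ) + 1 ≠ 0 := by positivity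
  set e := (l - lam) / (cx.R - x ^ 2) with hedef
  have h := hF (-(z * n1)) e lam
  simp only [entLM, Fr.R1, Fr.R2, Fr.R3, Fr.R12, Fr.R32, Fr.R92, Pm.cg_R, Pm.c1_R,
    Pm.c3_R, Pm.ci_R P hm, Pm.ch_R P hm] at h
  have hvz : x * (-(x * n1)) = -(z * n1) := by rw [hz]; ring
  rw [← hvz]
  refine pc_left_ge (η := 0) (lm := 0) (e := e) hm' ht (by rw [hvz]; linarith only [hE]) hδ ?_ le_rfl
    (Or.inl rfl) ?_
  · rw [hedef, mul_comm, div_mul_cancel₀ _ hδ]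
    ring
  · refine h.trans (le_of_eq ?_)
    simp only
    have htne := ht.ne'
    have : (1 : ℝ) - z = t := by rw [htx, hz]
    rw [this]
    have hz2 : z = x ^ 2 := hz
    rw [hz2]
    clear_value e
    field_simp
    ring

theorem regRM {P : Pm} {cx : Fr} (hm : 0 < P.m) {kap ly C rh s E z t l lam : ℝ}
    (hs : 0 < s) (hts : t = s * s) (hz : z = 1 - t) (hz0 : 0 ≤ z) (hE : 0 < E) (hE1 : E ≤ 1)
    (hδ : z - cx.R ≠ 0) (hrb : 0 ≤ rh) (hkap : 0 ≤ kap)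
    (hm1 : 1 ≤ P.m) (hl : l ≤ t * ly)
    (hF : FormNN (entRM Fr.R P cx kap ly C rh s E)) :
    P.eps.R * ((E - 1) ^ 2 / (1 + (E - 1))) ≤
      pcLow P.m P.k1.R P.th.R P.c2.R (1 - t / (1 + s)) C (rh / (1 + (E - 1))) (z / t) l
        (E - 1) lam +
      pcNR P.m P.a4.R cx.R z (z / t) (l - lam) (E - 1) := by
  have hm' : (P.m : ℝ) ≠ 0 := by exact_mod_cast hm.ne'
  have hm2 : (1 : ℝ) ≤ P.m := by exact_mod_cast hm1
  have hm1 : (P.m : ℝ) + 1 ≠ 0 := by positivity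
  have ht : 0 < t := by rw [hts]; positivity
  have htne := ht.ne'
  have hs1 : (1 : ℝ) + s ≠ 0 := by positivity
  set e := (l - lam) / (z - cx.R) with hedef
  have h := hF (E - 1) (e / t) (lam / t)
  have h1 : 0 ≤ ((P.m : ℝ) - 1) / (P.m + 1) := div_nonneg (by linarith only [hm2]) (by linarith only [])
  have hS : 0 ≤ 3 * (((P.m : ℝ) - 1) / (P.m + 1)) * z + 1 / (P.m : ℝ) * (rh * t) := by
    (clear * - hm2 hm hz0 hrb ht; positivity)
  have hn : 0 ≤ 1 - E := by linarith only [hE1]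
  have hη : 0 ≤ kap * (1 - E) *
      ((3 * (((P.m : ℝ) - 1) / (P.m + 1)) * z + 1 / (P.m : ℝ) * (rh * t)) / t) := by
    (clear * - hkap hE1 hm2 hm hz0 hrb ht; positivity)
  refine pc_right_ge (η := kap * (1 - E) *
      ((3 * (((P.m : ℝ) - 1) / (P.m + 1)) * z + 1 / (P.m : ℝ) * (rh * t)) / t))
    (lm := t * ly) (e := e) hm' ht (by linarith only [hE]) hδ ?_ hη (Or.inr hl) ?_
  · rw [hedef, mul_comm, div_mul_cancel₀ _ hδ]
    ring
  · refine nonneg_of_mul_nonneg_right (a := 1 + s) (h.trans (le_of_eq ?_)) (by linarith only [hs])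
    simp only [entRM, Fr.R1, Fr.R2, Fr.R3, Fr.R12, Fr.R32, Fr.R92, Pm.cg_R, Pm.c1_R,
      Pm.c3_R, Pm.ci_R P hm, Pm.ch_R P hm]
    rw [← hts, ← hz]
    clear_value e
    field_simp
    ring

theorem regRP {P : Pm} {cx : Fr} (hm : 0 < P.m) {kap lp C rh s be z t u l lam : ℝ}
    (hs : 0 < s) (hts : t = s * s) (hz : z = 1 - t) (hz0 : 0 ≤ z) (hbe : 0 < be)
    (hu : u = (1 - be) / be)
    (hδ : z - cx.R ≠ 0) (hrb : 0 ≤ rh) (hkap : 0 ≤ kap)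
    (hm1 : 1 ≤ P.m) (hD : 0 < 2 * be * ((P.m : ℝ) + 2 - (P.m + 1) * t) + t)
    (hl : l ≤ t * (lp - 2 / (2 * be * ((P.m : ℝ) + 2 - (P.m + 1) * t) + t)))
    (hF : FormNN (entRP Fr.R P cx kap lp C rh s be)) :
    P.eps.R * (u ^ 2 / (1 + u)) ≤
      pcLow P.m P.k1.R P.th.R P.c2.R (1 - t / (1 + s)) C (rh / (1 + u)) (z / t) l u lam +
      pcNR P.m P.a4.R cx.R z (z / t) (l - lam) u := by
  have hm' : (P.m : ℝ) ≠ 0 := by exact_mod_cast hm.ne'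
  have hm2 : (1 : ℝ) ≤ P.m := by exact_mod_cast hm1
  have hm1 : (P.m : ℝ) + 1 ≠ 0 := by positivity
  have ht : 0 < t := by rw [hts]; positivity
  have htne := ht.ne'
  have hbne := hbe.ne'
  have hs1 : (1 : ℝ) + s ≠ 0 := by positivity
  have hE : 1 + u = 1 / be := by
    rw [hu]
    field_simp
    ring
  have hE0 : 0 < 1 + u := by rw [hE]; positivity
  set e := (l - lam) / (z - cx.R) with hedef
  set D := 2 * be * ((P.m : ℝ) + 2 - (P.m + 1) * t) + t with hDdef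
  have hDne := hD.ne'
  have h := hF u (e / (t * be)) (lam / (t * be))
  have h1 : 0 ≤ ((P.m : ℝ) - 1) / (P.m + 1) := div_nonneg (by linarith only [hm2]) (by linarith only [])
  have hη : 0 ≤ kap *
      ((3 * (((P.m : ℝ) - 1) / (P.m + 1)) * z + 1 / (P.m : ℝ) * (rh * t)) / t) := by
    (clear * - hkap hm2 hm hz0 hrb ht; positivity)
  refine pc_right_ge (η := kap *
      ((3 * (((P.m : ℝ) - 1) / (P.m + 1)) * z + 1 / (P.m : ℝ) * (rh * t)) / t))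
    (lm := t * (lp - 2 / D)) (e := e) hm' ht hE0 hδ ?_ hη (Or.inr hl) ?_
  · rw [hedef, mul_comm, div_mul_cancel₀ _ hδ]
    ring
  · refine nonneg_of_mul_nonneg_right (a := D * (1 + s)) (h.trans (le_of_eq ?_))
      (mul_pos hD (by linarith only [hs]))
    simp only [entRP, Fr.R1, Fr.R2, Fr.R3, Fr.R12, Fr.Rm12, Fr.R32, Fr.R92, Pm.cg_R,
      Pm.c1_R, Pm.c3_R, Pm.cm_R, Pm.ci_R P hm, Pm.ch_R P hm]
    rw [← hts, ← hz, ← hDdef]
    have hu2 : (1 - be) = u * be := by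
      rw [hu]
      (clear * - hbne; field_simp)
    have hE2 : (1 + u) = 1 / be := hE
    rw [hu2, hE2]
    clear_value D e
    field_simp
    ring

theorem regRJ {P : Pm} {cx : Fr} (hm : 0 < P.m) {kap jj kk C rh s be z t u l lam : ℝ}
    (hs : 0 < s) (hts : t = s * s) (hz : z = 1 - t) (hz0 : 0 ≤ z) (hbe : 0 < be)
    (hu : u = (1 - be) / be)
    (hδ : z - cx.R ≠ 0) (hrb : 0 ≤ rh) (hkap : 0 ≤ kap)
    (hm1 : 1 ≤ P.m)
    (hl : l ≤ t * (jj - kk * u))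
    (hF : FormNN (entRJ Fr.R P cx kap jj kk C rh s be)) :
    P.eps.R * (u ^ 2 / (1 + u)) ≤
      pcLow P.m P.k1.R P.th.R P.c2.R (1 - t / (1 + s)) C (rh / (1 + u)) (z / t) l u lam +
      pcNR P.m P.a4.R cx.R z (z / t) (l - lam) u := by
  have hm' : (P.m : ℝ) ≠ 0 := by exact_mod_cast hm.ne'
  have hm2 : (1 : ℝ) ≤ P.m := by exact_mod_cast hm1
  have hm1 : (P.m : ℝ) + 1 ≠ 0 := by positivity
  have ht : 0 < t := by rw [hts]; positivity
  have htne := ht.ne'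
  have hbne := hbe.ne'
  have hs1 : (1 : ℝ) + s ≠ 0 := by positivity
  have hE : 1 + u = 1 / be := by
    rw [hu]
    field_simp
    ring
  have hE0 : 0 < 1 + u := by rw [hE]; positivity
  set e := (l - lam) / (z - cx.R) with hedef
  have h := hF u (e / (t * be)) (lam / (t * be))
  have h1 : 0 ≤ ((P.m : ℝ) - 1) / (P.m + 1) := div_nonneg (by linarith only [hm2]) (by linarith only [])
  have hη : 0 ≤ kap *
      ((3 * (((P.m : ℝ) - 1) / (P.m + 1)) * z + 1 / (P.m : ℝ) * (rh * t)) / t) := by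
    (clear * - hkap hm2 hm hz0 hrb ht; positivity)
  refine pc_right_ge (η := kap *
      ((3 * (((P.m : ℝ) - 1) / (P.m + 1)) * z + 1 / (P.m : ℝ) * (rh * t)) / t))
    (lm := t * (jj - kk * u)) (e := e) hm' ht hE0 hδ ?_ hη (Or.inr hl) ?_
  · rw [hedef, mul_comm, div_mul_cancel₀ _ hδ]
    ring
  · refine nonneg_of_mul_nonneg_right (a := be * (1 + s)) (h.trans (le_of_eq ?_))
      (mul_pos hbe (by linarith only [hs]))
    simp only [entRJ, Fr.R1, Fr.R2, Fr.R3, Fr.R12, Fr.Rm12, Fr.R32, Fr.R92, Pm.cg_R,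
      Pm.c1_R, Pm.c3_R, Pm.ci_R P hm, Pm.ch_R P hm]
    rw [← hts, ← hz]
    have hu2 : (1 - be) = u * be := by
      rw [hu]
      (clear * - hbne; field_simp)
    have hE2 : (1 + u) = 1 / be := hE
    rw [hu2, hE2]
    clear_value e
    field_simp
    ring

theorem regRS {P : Pm} {cx : Fr} (hm : 0 < P.m) {kap lp C r0 s v z t u l lam : ℝ}
    (hs : 0 < s) (hts : t = s * s) (hz : z = 1 - t) (hz0 : 0 ≤ z) (hv : 0 ≤ v)
    (hu : v = u * s)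
    (hδ : z - cx.R ≠ 0) (hr0 : 0 ≤ r0) (hkap : 0 ≤ kap)
    (hm1 : 1 ≤ P.m) (hD : 0 < 2 * s * ((P.m : ℝ) + 2 - (P.m + 1) * t) + t * (s + v))
    (hl : l ≤ t * (lp - 2 * (s + v) / (2 * s * ((P.m : ℝ) + 2 - (P.m + 1) * t) + t * (s + v))))
    (hF : FormNN (entRS Fr.R P cx kap lp C r0 s v)) :
    P.eps.R * (u ^ 2 / (1 + u)) ≤
      pcLow P.m P.k1.R P.th.R P.c2.R (1 - t / (1 + s)) C ((r0 * s + v) / (s + v) / (1 + u))
        (z / t) l u lam +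
      pcNR P.m P.a4.R cx.R z (z / t) (l - lam) u := by
  have hm' : (P.m : ℝ) ≠ 0 := by exact_mod_cast hm.ne'
  have hm2 : (1 : ℝ) ≤ P.m := by exact_mod_cast hm1
  have hm1 : (P.m : ℝ) + 1 ≠ 0 := by positivity
  have ht : 0 < t := by rw [hts]; positivity
  have htne := ht.ne'
  have hsne := hs.ne'
  have hs1 : (1 : ℝ) + s ≠ 0 := by positivity
  have hq : 0 < s + v := by positivity
  obtain ⟨q, hqd⟩ : ∃ q, q = s + v := ⟨_, rfl⟩
  rw [← hqd] at hq hD hl ⊢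
  have hqne := hq.ne'
  have hE : 1 + u = q / s := by
    rw [hqd, hu]
    (clear * - hsne; field_simp)
  have hE0 : 0 < 1 + u := by rw [hE]; (clear * - hq hs; positivity)
  set e := (l - lam) / (z - cx.R) with hedef
  set D := 2 * s * ((P.m : ℝ) + 2 - (P.m + 1) * t) + t * q with hDdef
  have hDne := hD.ne'
  have h := hF (u / q) (e / (t * s * q)) (lam / (t * s * q))
  have h1 : 0 ≤ ((P.m : ℝ) - 1) / (P.m + 1) := div_nonneg (by linarith only [hm2]) (by linarith only [])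
  have hη : 0 ≤ kap *
      ((3 * (((P.m : ℝ) - 1) / (P.m + 1)) * z + 1 / (P.m : ℝ) * ((r0 * s + v) / q * t)) / t) := by
    (clear * - hkap hm2 hm hz0 hr0 hs hv hq ht; positivity)
  refine pc_right_ge (η := kap *
      ((3 * (((P.m : ℝ) - 1) / (P.m + 1)) * z + 1 / (P.m : ℝ) * ((r0 * s + v) / q * t)) / t))
    (lm := t * (lp - 2 * q / D)) (e := e) hm' ht hE0 hδ ?_ hη (Or.inr hl) ?_
  · rw [hedef, mul_comm, div_mul_cancel₀ _ hδ]
    ring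
  · refine nonneg_of_mul_nonneg_right (a := D / q * (1 + s)) (h.trans (le_of_eq ?_))
      (mul_pos (div_pos hD hq) (by linarith only [hs]))
    simp only [entRS, Fr.R2, Pm.cm_R, Fr.R1, Pm.cg_R, Fr.R3, Pm.ci_R P hm, Pm.ch_R P hm, Fr.R92, Fr.R32, Pm.c3_R, Pm.c1_R, Fr.Rm12, Fr.R12]
    rw [← hts, ← hz, ← hqd, ← hDdef, hE]
    obtain ⟨w, hw⟩ : ∃ w, w = r0 * s + v := ⟨_, rfl⟩
    rw [← hw, hu]
    clear_value D e
    field_simp
    ring

end Vale.Agent.P237.AllN.M4
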