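import Vale.Agent.P237.AllN.PcIn

/-!
# P237: the numerical inputs (h4), (h7) of the pointwise inequality, `m = 5, ..., 14`
-/

open MeasureTheory Set Finset

namespace Vale.Agent.P237.AllN

open Alm

theorem pin_am_two : Slope.am 2 = 2 / 3 := by
  have h := pin_am_rec 0
  rw [pin_am_zero] at h
  norm_num at h
  rw [h]

theorem pin_am_three : Slope.am 3 = 3 / 16 * Real.pi := by
  have h := pin_am_rec 1
  rw [pin_am_one] at h
  norm_num at h
  rw [h]
  ring

theorem pin_am_four : Slope.am 4 = 8 / 15 := by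
  have h := pin_am_rec 2
  rw [pin_am_two] at h
  norm_num at h
  rw [h]

theorem pin_am_five : Slope.am 5 = 5 / 32 * Real.pi := by
  have h := pin_am_rec 3
  rw [pin_am_three] at h
  norm_num at h
  rw [h]
  ring

theorem pin_am_six : Slope.am 6 = 16 / 35 := by
  have h := pin_am_rec 4
  rw [pin_am_four] at h
  norm_num at h
  rw [h]

theorem pin_am_seven : Slope.am 7 = 35 / 256 * Real.pi := by
  have h := pin_am_rec 5
  rw [pin_am_five] at h
  norm_num at h
  rw [h]
  ring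

theorem pin_am_eight : Slope.am 8 = 128 / 315 := by
  have h := pin_am_rec 6
  rw [pin_am_six] at h
  norm_num at h
  rw [h]

theorem pin_am_nine : Slope.am 9 = 63 / 512 * Real.pi := by
  have h := pin_am_rec 7
  rw [pin_am_seven] at h
  norm_num at h
  rw [h]
  ring

theorem pin_am_ten : Slope.am 10 = 256 / 693 := by
  have h := pin_am_rec 8
  rw [pin_am_eight] at h
  norm_num at h
  rw [h]

theorem pin_am_eleven : Slope.am 11 = 231 / 2048 * Real.pi := by
  have h := pin_am_rec 9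
  rw [pin_am_nine] at h
  norm_num at h
  rw [h]
  ring

theorem pin_am_twelve : Slope.am 12 = 1024 / 3003 := by
  have h := pin_am_rec 10
  rw [pin_am_ten] at h
  norm_num at h
  rw [h]

theorem pin_am_thirteen : Slope.am 13 = 429 / 4096 * Real.pi := by
  have h := pin_am_rec 11
  rw [pin_am_eleven] at h
  norm_num at h
  rw [h]
  ring

theorem pin_am_fourteen : Slope.am 14 = 2048 / 6435 := by
  have h := pin_am_rec 12
  rw [pin_am_twelve] at h
  norm_num at h
  rw [h]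

theorem pin_div_pi {a b : ℝ} (hb : 0 < b) (h : a / 3.141592 ≤ b) : a / Real.pi ≤ b := by
  have h1 := Real.pi_gt_d6
  rw [div_le_iff₀ (by norm_num)] at h
  rw [div_le_iff₀ (by linarith only [h1])]
  nlinarith only [h, hb, h1]

section

variable {r τ τ' T : ℝ → ℝ} {x : ℝ}

theorem IsTrans.pin_h4_of {m : ℕ} (hm : 3 ≤ m) (hr : IsProf r) (h : IsTrans m r τ τ' T)
    (hx : x ∈ Ioo (0 : ℝ) 1) {k : ℝ} (hk : (m : ℝ) ≤ k * (2 * ((m : ℝ) + 1) * Slope.am m)) :
    uf τ τ' x * sq x ≤ k * x := by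
  have h1 := h.pin_h4 hm hr hx
  have hA := Slope.am_pos m
  have h2 : (m : ℝ) / (2 * ((m : ℝ) + 1) * Slope.am m) ≤ k := by
    rw [div_le_iff₀ (by positivity)]
    exact hk
  exact h1.trans (mul_le_mul_of_nonneg_right h2 hx.1.le)

/-- **(h4)** for `m = 5` -/
theorem IsTrans.pin_h4_five (hr : IsProf r) (h : IsTrans 5 r τ τ' T)
    (hx : x ∈ Ioo (0 : ℝ) 1) : uf τ τ' x * sq x ≤ 8489 / 10000 * x := by
  refine h.pin_h4_of (by norm_num) hr hx ?_
  rw [pin_am_five]
  have h1 := Real.pi_gt_d6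
  push_cast
  linarith

/-- **(h4)** for `m = 6` -/
theorem IsTrans.pin_h4_six (hr : IsProf r) (h : IsTrans 6 r τ τ' T)
    (hx : x ∈ Ioo (0 : ℝ) 1) : uf τ τ' x * sq x ≤ 15 / 16 * x := by
  refine h.pin_h4_of (by norm_num) hr hx ?_
  rw [pin_am_six]
  norm_num

/-- **(h4)** for `m = 7` -/
theorem IsTrans.pin_h4_seven (hr : IsProf r) (h : IsTrans 7 r τ τ' T)
    (hx : x ∈ Ioo (0 : ℝ) 1) : uf τ τ' x * sq x ≤ 5093 / 5000 * x := by
  refine h.pin_h4_of (by norm_num) hr hx ?_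
  rw [pin_am_seven]
  have h1 := Real.pi_gt_d6
  push_cast
  linarith

/-- **(h4)** for `m = 8` -/
theorem IsTrans.pin_h4_eight (hr : IsProf r) (h : IsTrans 8 r τ τ' T)
    (hx : x ∈ Ioo (0 : ℝ) 1) : uf τ τ' x * sq x ≤ 35 / 32 * x := by
  refine h.pin_h4_of (by norm_num) hr hx ?_
  rw [pin_am_eight]
  norm_num

/-- **(h4)** for `m = 9` -/
theorem IsTrans.pin_h4_nine (hr : IsProf r) (h : IsTrans 9 r τ τ' T)
    (hx : x ∈ Ioo (0 : ℝ) 1) : uf τ τ' x * sq x ≤ 5821 / 5000 * x := by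
  refine h.pin_h4_of (by norm_num) hr hx ?_
  rw [pin_am_nine]
  have h1 := Real.pi_gt_d6
  push_cast
  linarith

/-- **(h4)** for `m = 10` -/
theorem IsTrans.pin_h4_ten (hr : IsProf r) (h : IsTrans 10 r τ τ' T)
    (hx : x ∈ Ioo (0 : ℝ) 1) : uf τ τ' x * sq x ≤ 315 / 256 * x := by
  refine h.pin_h4_of (by norm_num) hr hx ?_
  rw [pin_am_ten]
  norm_num

/-- **(h4)** for `m = 11` -/
theorem IsTrans.pin_h4_eleven (hr : IsProf r) (h : IsTrans 11 r τ τ' T)
    (hx : x ∈ Ioo (0 : ℝ) 1) : uf τ τ' x * sq x ≤ 2587 / 2000 * x := by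
  refine h.pin_h4_of (by norm_num) hr hx ?_
  rw [pin_am_eleven]
  have h1 := Real.pi_gt_d6
  push_cast
  linarith

/-- **(h4)** for `m = 12` -/
theorem IsTrans.pin_h4_twelve (hr : IsProf r) (h : IsTrans 12 r τ τ' T)
    (hx : x ∈ Ioo (0 : ℝ) 1) : uf τ τ' x * sq x ≤ 693 / 512 * x := by
  refine h.pin_h4_of (by norm_num) hr hx ?_
  rw [pin_am_twelve]
  norm_num

/-- **(h4)** for `m = 13` -/
theorem IsTrans.pin_h4_thirteen (hr : IsProf r) (h : IsTrans 13 r τ τ' T)
    (hx : x ∈ Ioo (0 : ℝ) 1) : uf τ τ' x * sq x ≤ 14111 / 10000 * x := by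
  refine h.pin_h4_of (by norm_num) hr hx ?_
  rw [pin_am_thirteen]
  have h1 := Real.pi_gt_d6
  push_cast
  linarith

/-- **(h4)** for `m = 14` -/
theorem IsTrans.pin_h4_fourteen (hr : IsProf r) (h : IsTrans 14 r τ τ' T)
    (hx : x ∈ Ioo (0 : ℝ) 1) : uf τ τ' x * sq x ≤ 3003 / 2048 * x := by
  refine h.pin_h4_of (by norm_num) hr hx ?_
  rw [pin_am_fourteen]
  norm_num

theorem pin_sq_ge_poly {t : ℝ} (ht : t ∈ Icc (0 : ℝ) 1) :
    (1 - t ^ 2) * (1 + t ^ 2 / 2 + 3 * (t ^ 2) ^ 2 / 8 + 5 * (t ^ 2) ^ 3 / 16) ≤ sq t := by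
  have e1 := pin_sq_sq ht
  have hs := sl_sq_nonneg t
  have hz : t ^ 2 ≤ 1 := by nlinarith only [e1]
  have hz0 : 0 ≤ t ^ 2 := sq_nonneg t
  rw [← e1]
  set z := t ^ 2 with hzd
  set g := 1 + z / 2 + 3 * z ^ 2 / 8 + 5 * z ^ 3 / 16 with hg
  have hg0 : 0 ≤ g := by (clear * -; positivity)
  have h1 : (sq t * g) ^ 2 ≤ 1 := by
    rw [mul_pow, e1, hg]
    nlinarith only [hz0, pow_nonneg hz0 5]
  have h2 : sq t * g ≤ 1 := by
    rw [← one_pow 2] at h1
    exact le_of_sq_le_sq h1 zero_le_one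
  nlinarith only [hs, h2]

/-- **(h7)** for `m = 5` -/
theorem IsTrans.pin_h7_five (hr : IsProf r) (h : IsTrans 5 r τ τ' T)
    (hx : x ∈ Ioo (0 : ℝ) 1) (hz : x ^ 2 = 3 / 7) : -(2843 / 5000) ≤ lf τ x := by
  have h1 := pin_P_ge (m := 5) (x := x) 7 (fun i => ([1, -5 / 2, 15 / 8, -5 / 16, -5 / 16, 9 / 16, -5 / 16] : List ℝ).getD i 0)
    hx.1.le (by
      intro t ht
      have ht' : t ∈ Icc (0 : ℝ) 1 := ⟨ht.1, ht.2.trans hx.2.le⟩
      have e1 := pin_sq_sq ht'
      have e2 := pin_sq_ge_poly ht'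
      have e3 : sq t ^ 5 = (1 - t ^ 2) ^ 2 * sq t := by rw [← e1]; ring
      rw [e3]
      have e5 : 0 ≤ 1 - t ^ 2 := by rw [← e1]; (clear * -; positivity)
      refine le_trans (le_of_eq ?_) (mul_le_mul_of_nonneg_left e2 (pow_nonneg e5 2))
      simp only [Finset.sum_range_succ, Finset.sum_range_zero, List.getD_cons_zero,
        List.getD_cons_succ]
      ring)
  rw [hz] at h1
  simp only [Finset.sum_range_succ, Finset.sum_range_zero, List.getD_cons_zero,
    List.getD_cons_succ] at h1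
  norm_num at h1
  have h2 : 3273 / 5000 ≤ x := by nlinarith only [hz, hx.1]
  have h3 : x ≤ 6547 / 10000 := by nlinarith only [hz]
  refine h.pin_ge_of hr hx (ρ := 31 / 50) (Q := 141 / 2500) (by norm_num) (by norm_num) ?_ ?_
  · rw [pin_am, pin_am_five]
    have h4 := Real.pi_lt_d6
    linarith only [h1, h2, h4]
  · have h5 := pin_exp_ge (2843 / 5000) (by norm_num)
    norm_num at h5 ⊢
    linarith only [h3, h5]

/-- **(h7)** for `m = 6` -/
theorem IsTrans.pin_h7_six (hr : IsProf r) (h : IsTrans 6 r τ τ' T)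
    (hx : x ∈ Ioo (0 : ℝ) 1) (hz : x ^ 2 = 3 / 8) : -(161 / 250) ≤ lf τ x := by
  have h1 := pin_P_ge (m := 6) (x := x) 4 (fun i => ([1, -3, 3, -1] : List ℝ).getD i 0)
    hx.1.le (by
      intro t ht
      have ht' : t ∈ Icc (0 : ℝ) 1 := ⟨ht.1, ht.2.trans hx.2.le⟩
      have e1 := pin_sq_sq ht'
      have e3 : sq t ^ 6 = (1 - t ^ 2) ^ 3 := by rw [← e1]; ring
      rw [e3]
      apply le_of_eq
      simp only [Finset.sum_range_succ, Finset.sum_range_zero, List.getD_cons_zero,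
        List.getD_cons_succ]
      ring)
  rw [hz] at h1
  simp only [Finset.sum_range_succ, Finset.sum_range_zero, List.getD_cons_zero,
    List.getD_cons_succ] at h1
  norm_num at h1
  have h2 : 6123 / 10000 ≤ x := by nlinarith only [hz, hx.1]
  have h3 : x ≤ 1531 / 2500 := by nlinarith only [hz]
  refine h.pin_ge_of hr hx (ρ := 67 / 100) (Q := 3 / 50) (by norm_num) (by norm_num) ?_ ?_
  · rw [pin_am, pin_am_six]
    linarith only [h1, h2]
  · have h5 := pin_exp_ge (161 / 250) (by norm_num)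
    norm_num at h5 ⊢
    linarith only [h3, h5]

/-- **(h7)** for `m = 7` -/
theorem IsTrans.pin_h7_seven (hr : IsProf r) (h : IsTrans 7 r τ τ' T)
    (hx : x ∈ Ioo (0 : ℝ) 1) (hz : x ^ 2 = 1 / 3) : -(71 / 100) ≤ lf τ x := by
  have h1 := pin_P_ge (m := 7) (x := x) 8 (fun i => ([1, -7 / 2, 35 / 8, -35 / 16, 0, 7 / 8, -7 / 8, 5 / 16] : List ℝ).getD i 0)
    hx.1.le (by
      intro t ht
      have ht' : t ∈ Icc (0 : ℝ) 1 := ⟨ht.1, ht.2.trans hx.2.le⟩
      have e1 := pin_sq_sq ht'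
      have e2 := pin_sq_ge_poly ht'
      have e3 : sq t ^ 7 = (1 - t ^ 2) ^ 3 * sq t := by rw [← e1]; ring
      rw [e3]
      have e5 : 0 ≤ 1 - t ^ 2 := by rw [← e1]; (clear * -; positivity)
      refine le_trans (le_of_eq ?_) (mul_le_mul_of_nonneg_left e2 (pow_nonneg e5 3))
      simp only [Finset.sum_range_succ, Finset.sum_range_zero, List.getD_cons_zero,
        List.getD_cons_succ]
      ring)
  rw [hz] at h1
  simp only [Finset.sum_range_succ, Finset.sum_range_zero, List.getD_cons_zero,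
    List.getD_cons_succ] at h1
  norm_num at h1
  have h2 : 5773 / 10000 ≤ x := by nlinarith only [hz, hx.1]
  have h3 : x ≤ 2887 / 5000 := by nlinarith only [hz]
  refine h.pin_ge_of hr hx (ρ := 709 / 1000) (Q := 79 / 1250) (by norm_num) (by norm_num) ?_ ?_
  · rw [pin_am, pin_am_seven]
    have h4 := Real.pi_lt_d6
    linarith only [h1, h2, h4]
  · have h5 := pin_exp_ge (71 / 100) (by norm_num)
    norm_num at h5 ⊢
    linarith only [h3, h5]

/-- **(h7)** for `m = 8` -/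
theorem IsTrans.pin_h7_eight (hr : IsProf r) (h : IsTrans 8 r τ τ' T)
    (hx : x ∈ Ioo (0 : ℝ) 1) (hz : x ^ 2 = 3 / 10) : -(769 / 1000) ≤ lf τ x := by
  have h1 := pin_P_ge (m := 8) (x := x) 5 (fun i => ([1, -4, 6, -4, 1] : List ℝ).getD i 0)
    hx.1.le (by
      intro t ht
      have ht' : t ∈ Icc (0 : ℝ) 1 := ⟨ht.1, ht.2.trans hx.2.le⟩
      have e1 := pin_sq_sq ht'
      have e3 : sq t ^ 8 = (1 - t ^ 2) ^ 4 := by rw [← e1]; ring
      rw [e3]
      apply le_of_eq
      simp only [Finset.sum_range_succ, Finset.sum_range_zero, List.getD_cons_zero,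
        List.getD_cons_succ]
      ring)
  rw [hz] at h1
  simp only [Finset.sum_range_succ, Finset.sum_range_zero, List.getD_cons_zero,
    List.getD_cons_succ] at h1
  norm_num at h1
  have h2 : 5477 / 10000 ≤ x := by nlinarith only [hz, hx.1]
  have h3 : x ≤ 2739 / 5000 := by nlinarith only [hz]
  refine h.pin_ge_of hr hx (ρ := 739 / 1000) (Q := 327 / 5000) (by norm_num) (by norm_num) ?_ ?_
  · rw [pin_am, pin_am_eight]
    linarith only [h1, h2]
  · have h5 := pin_exp_ge (769 / 1000) (by norm_num)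
    norm_num at h5 ⊢
    linarith only [h3, h5]

/-- **(h7)** for `m = 9` -/
theorem IsTrans.pin_h7_nine (hr : IsProf r) (h : IsTrans 9 r τ τ' T)
    (hx : x ∈ Ioo (0 : ℝ) 1) (hz : x ^ 2 = 3 / 11) : -(821 / 1000) ≤ lf τ x := by
  have h1 := pin_P_ge (m := 9) (x := x) 9 (fun i => ([1, -9 / 2, 63 / 8, -105 / 16, 35 / 16, 7 / 8, -7 / 4, 19 / 16, -5 / 16] : List ℝ).getD i 0)
    hx.1.le (by
      intro t ht
      have ht' : t ∈ Icc (0 : ℝ) 1 := ⟨ht.1, ht.2.trans hx.2.le⟩
      have e1 := pin_sq_sq ht'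
      have e2 := pin_sq_ge_poly ht'
      have e3 : sq t ^ 9 = (1 - t ^ 2) ^ 4 * sq t := by rw [← e1]; ring
      rw [e3]
      have e5 : 0 ≤ 1 - t ^ 2 := by rw [← e1]; (clear * -; positivity)
      refine le_trans (le_of_eq ?_) (mul_le_mul_of_nonneg_left e2 (pow_nonneg e5 4))
      simp only [Finset.sum_range_succ, Finset.sum_range_zero, List.getD_cons_zero,
        List.getD_cons_succ]
      ring)
  rw [hz] at h1
  simp only [Finset.sum_range_succ, Finset.sum_range_zero, List.getD_cons_zero,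
    List.getD_cons_succ] at h1
  norm_num at h1
  have h2 : 2611 / 5000 ≤ x := by nlinarith only [hz, hx.1]
  have h3 : x ≤ 5223 / 10000 := by nlinarith only [hz]
  refine h.pin_ge_of hr hx (ρ := 191 / 250) (Q := 673 / 10000) (by norm_num) (by norm_num) ?_ ?_
  · rw [pin_am, pin_am_nine]
    have h4 := Real.pi_lt_d6
    linarith only [h1, h2, h4]
  · have h5 := pin_exp_ge (821 / 1000) (by norm_num)
    norm_num at h5 ⊢
    linarith only [h3, h5]

/-- **(h7)** for `m = 10` -/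
theorem IsTrans.pin_h7_ten (hr : IsProf r) (h : IsTrans 10 r τ τ' T)
    (hx : x ∈ Ioo (0 : ℝ) 1) (hz : x ^ 2 = 1 / 4) : -(217 / 250) ≤ lf τ x := by
  have h1 := pin_P_ge (m := 10) (x := x) 6 (fun i => ([1, -5, 10, -10, 5, -1] : List ℝ).getD i 0)
    hx.1.le (by
      intro t ht
      have ht' : t ∈ Icc (0 : ℝ) 1 := ⟨ht.1, ht.2.trans hx.2.le⟩
      have e1 := pin_sq_sq ht'
      have e3 : sq t ^ 10 = (1 - t ^ 2) ^ 5 := by rw [← e1]; ring
      rw [e3]
      apply le_of_eq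
      simp only [Finset.sum_range_succ, Finset.sum_range_zero, List.getD_cons_zero,
        List.getD_cons_succ]
      ring)
  rw [hz] at h1
  simp only [Finset.sum_range_succ, Finset.sum_range_zero, List.getD_cons_zero,
    List.getD_cons_succ] at h1
  norm_num at h1
  have h2 : 1 / 2 ≤ x := by nlinarith only [hz, hx.1]
  have h3 : x ≤ 1 / 2 := by nlinarith only [hz]
  refine h.pin_ge_of hr hx (ρ := 98 / 125) (Q := 687 / 10000) (by norm_num) (by norm_num) ?_ ?_
  · rw [pin_am, pin_am_ten]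
    linarith only [h1, h2]
  · have h5 := pin_exp_ge (217 / 250) (by norm_num)
    norm_num at h5 ⊢
    linarith only [h3, h5]

/-- **(h7)** for `m = 11` -/
theorem IsTrans.pin_h7_eleven (hr : IsProf r) (h : IsTrans 11 r τ τ' T)
    (hx : x ∈ Ioo (0 : ℝ) 1) (hz : x ^ 2 = 3 / 13) : -(114 / 125) ≤ lf τ x := by
  have h1 := pin_P_ge (m := 11) (x := x) 10 (fun i => ([1, -11 / 2, 99 / 8, -231 / 16, 35 / 4, -21 / 16, -21 / 8, 47 / 16, -3 / 2, 5 / 16] : List ℝ).getD i 0)
    hx.1.le (by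
      intro t ht
      have ht' : t ∈ Icc (0 : ℝ) 1 := ⟨ht.1, ht.2.trans hx.2.le⟩
      have e1 := pin_sq_sq ht'
      have e2 := pin_sq_ge_poly ht'
      have e3 : sq t ^ 11 = (1 - t ^ 2) ^ 5 * sq t := by rw [← e1]; ring
      rw [e3]
      have e5 : 0 ≤ 1 - t ^ 2 := by rw [← e1]; (clear * -; positivity)
      refine le_trans (le_of_eq ?_) (mul_le_mul_of_nonneg_left e2 (pow_nonneg e5 5))
      simp only [Finset.sum_range_succ, Finset.sum_range_zero, List.getD_cons_zero,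
        List.getD_cons_succ]
      ring)
  rw [hz] at h1
  simp only [Finset.sum_range_succ, Finset.sum_range_zero, List.getD_cons_zero,
    List.getD_cons_succ] at h1
  norm_num at h1
  have h2 : 4803 / 10000 ≤ x := by nlinarith only [hz, hx.1]
  have h3 : x ≤ 1201 / 2500 := by nlinarith only [hz]
  refine h.pin_ge_of hr hx (ρ := 401 / 500) (Q := 351 / 5000) (by norm_num) (by norm_num) ?_ ?_
  · rw [pin_am, pin_am_eleven]
    have h4 := Real.pi_lt_d6
    linarith only [h1, h2, h4]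
  · have h5 := pin_exp_ge (114 / 125) (by norm_num)
    norm_num at h5 ⊢
    linarith only [h3, h5]

/-- **(h7)** for `m = 12` -/
theorem IsTrans.pin_h7_twelve (hr : IsProf r) (h : IsTrans 12 r τ τ' T)
    (hx : x ∈ Ioo (0 : ℝ) 1) (hz : x ^ 2 = 3 / 14) : -(19 / 20) ≤ lf τ x := by
  have h1 := pin_P_ge (m := 12) (x := x) 7 (fun i => ([1, -6, 15, -20, 15, -6, 1] : List ℝ).getD i 0)
    hx.1.le (by
      intro t ht
      have ht' : t ∈ Icc (0 : ℝ) 1 := ⟨ht.1, ht.2.trans hx.2.le⟩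
      have e1 := pin_sq_sq ht'
      have e3 : sq t ^ 12 = (1 - t ^ 2) ^ 6 := by rw [← e1]; ring
      rw [e3]
      apply le_of_eq
      simp only [Finset.sum_range_succ, Finset.sum_range_zero, List.getD_cons_zero,
        List.getD_cons_succ]
      ring)
  rw [hz] at h1
  simp only [Finset.sum_range_succ, Finset.sum_range_zero, List.getD_cons_zero,
    List.getD_cons_succ] at h1
  norm_num at h1
  have h2 : 4629 / 10000 ≤ x := by nlinarith only [hz, hx.1]
  have h3 : x ≤ 463 / 1000 := by nlinarith only [hz]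
  refine h.pin_ge_of hr hx (ρ := 102 / 125) (Q := 711 / 10000) (by norm_num) (by norm_num) ?_ ?_
  · rw [pin_am, pin_am_twelve]
    linarith only [h1, h2]
  · have h5 := pin_exp_ge (19 / 20) (by norm_num)
    norm_num at h5 ⊢
    linarith only [h3, h5]

/-- **(h7)** for `m = 13` -/
theorem IsTrans.pin_h7_thirteen (hr : IsProf r) (h : IsTrans 13 r τ τ' T)
    (hx : x ∈ Ioo (0 : ℝ) 1) (hz : x ^ 2 = 1 / 5) : -(989 / 1000) ≤ lf τ x := by
  have h1 := pin_P_ge (m := 13) (x := x) 11 (fun i => ([1, -13 / 2, 143 / 8, -429 / 16, 371 / 16, -161 / 16, -21 / 16, 89 / 16, -71 / 16, 29 / 16, -5 / 16] : List ℝ).getD i 0)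
    hx.1.le (by
      intro t ht
      have ht' : t ∈ Icc (0 : ℝ) 1 := ⟨ht.1, ht.2.trans hx.2.le⟩
      have e1 := pin_sq_sq ht'
      have e2 := pin_sq_ge_poly ht'
      have e3 : sq t ^ 13 = (1 - t ^ 2) ^ 6 * sq t := by rw [← e1]; ring
      rw [e3]
      have e5 : 0 ≤ 1 - t ^ 2 := by rw [← e1]; (clear * -; positivity)
      refine le_trans (le_of_eq ?_) (mul_le_mul_of_nonneg_left e2 (pow_nonneg e5 6))
      simp only [Finset.sum_range_succ, Finset.sum_range_zero, List.getD_cons_zero,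
        List.getD_cons_succ]
      ring)
  rw [hz] at h1
  simp only [Finset.sum_range_succ, Finset.sum_range_zero, List.getD_cons_zero,
    List.getD_cons_succ] at h1
  norm_num at h1
  have h2 : 559 / 1250 ≤ x := by nlinarith only [hz, hx.1]
  have h3 : x ≤ 4473 / 10000 := by nlinarith only [hz]
  refine h.pin_ge_of hr hx (ρ := 829 / 1000) (Q := 9 / 125) (by norm_num) (by norm_num) ?_ ?_
  · rw [pin_am, pin_am_thirteen]
    have h4 := Real.pi_lt_d6
    linarith only [h1, h2, h4]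
  · have h5 := pin_exp_ge (989 / 1000) (by norm_num)
    norm_num at h5 ⊢
    linarith only [h3, h5]

/-- **(h7)** for `m = 14` -/
theorem IsTrans.pin_h7_fourteen (hr : IsProf r) (h : IsTrans 14 r τ τ' T)
    (hx : x ∈ Ioo (0 : ℝ) 1) (hz : x ^ 2 = 3 / 16) : -(1023 / 1000) ≤ lf τ x := by
  have h1 := pin_P_ge (m := 14) (x := x) 8 (fun i => ([1, -7, 21, -35, 35, -21, 7, -1] : List ℝ).getD i 0)
    hx.1.le (by
      intro t ht
      have ht' : t ∈ Icc (0 : ℝ) 1 := ⟨ht.1, ht.2.trans hx.2.le⟩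
      have e1 := pin_sq_sq ht'
      have e3 : sq t ^ 14 = (1 - t ^ 2) ^ 7 := by rw [← e1]; ring
      rw [e3]
      apply le_of_eq
      simp only [Finset.sum_range_succ, Finset.sum_range_zero, List.getD_cons_zero,
        List.getD_cons_succ]
      ring)
  rw [hz] at h1
  simp only [Finset.sum_range_succ, Finset.sum_range_zero, List.getD_cons_zero,
    List.getD_cons_succ] at h1
  norm_num at h1
  have h2 : 433 / 1000 ≤ x := by nlinarith only [hz, hx.1]
  have h3 : x ≤ 4331 / 10000 := by nlinarith only [hz]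
  refine h.pin_ge_of hr hx (ρ := 21 / 25) (Q := 727 / 10000) (by norm_num) (by norm_num) ?_ ?_
  · rw [pin_am, pin_am_fourteen]
    linarith only [h1, h2]
  · have h5 := pin_exp_ge (1023 / 1000) (by norm_num)
    norm_num at h5 ⊢
    linarith only [h3, h5]

end

end Vale.Agent.P237.AllN
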