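import Vale.Agent.P237.AllN.M4J
import Vale.Agent.P237.AllN.PcIn2

/-!
# P237, `m = 4`: the inputs of the pointwise inequality
-/

open MeasureTheory Metric Set Module Filter Topology

namespace Vale.Agent.P237.AllN.M4

open PolyPos Alm

variable {r τ τ' T : ℝ → ℝ} {x : ℝ}

/-- cylinder -/
theorem in_cyl (hr : IsProf r) (h : IsTrans 4 r τ τ' T) (hx : x ∈ Ioo (0 : ℝ) 1) :
    Real.exp (lf τ x) ≤ (15 - 10 * x ^ 2 + 3 * x ^ 4) / 8 := by
  have h1 := h.le_cyl (by norm_num) hr x hx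
  rw [jt_int0 hx, pin_am, pin_am_four, ← pin_exp h hx] at h1
  have h2 : x * Real.exp (lf τ x) ≤ x * ((15 - 10 * x ^ 2 + 3 * x ^ 4) / 8) := by linarith
  exact le_of_mul_le_mul_left h2 hx.1

/-- lower bound of the slope -/
theorem in_low (hr : IsProf r) (h : IsTrans 4 r τ τ' T) (hx : x ∈ Ioo (0 : ℝ) 1) :
    15 * (1 - x ^ 2) ^ 2 ≤ (1 + uf τ τ' x) * (15 - 10 * x ^ 2 + 3 * x ^ 4) := by
  have h1 := h.pin_cyl hr hx
  rw [jt_int0 hx] at h1
  have hs : sq x ^ 4 = (1 - x ^ 2) ^ 2 := by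
    rw [show (4 : ℕ) = 2 * 2 by norm_num, pow_mul, pin_sq_sq (Ioo_subset_Icc_self hx)]
  rw [hs] at h1
  have h2 : x * (15 * (1 - x ^ 2) ^ 2) ≤
      x * ((1 + uf τ τ' x) * (15 - 10 * x ^ 2 + 3 * x ^ 4)) := by linarith only [h1]
  exact le_of_mul_le_mul_left h2 hx.1

/-- window -/
theorem in_win (hr : IsProf r) (h : IsTrans 4 r τ τ' T) (hx : x ∈ Ioo (0 : ℝ) 1) :
    uf τ τ' x * sq x ≤ 3 / 4 * x := by
  have h1 := h.pin_h4 (by norm_num) hr hx
  rw [pin_am_four] at h1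
  norm_num at h1
  linarith only [h1]

/-- window, squared -/
theorem in_win2 (hr : IsProf r) (h : IsTrans 4 r τ τ' T) (hx : x ∈ Ioo (0 : ℝ) 1)
    (hu : 0 ≤ uf τ τ' x) : uf τ τ' x ^ 2 * (1 - x ^ 2) ≤ 9 / 16 * x ^ 2 := by
  have h1 := in_win hr h hx
  have h2 := mul_nonneg hu (sl_sq_nonneg x)
  have h3 := pow_le_pow_left₀ h2 h1 2
  rw [mul_pow, pin_sq_sq (Ioo_subset_Icc_self hx)] at h3
  linarith

/-- tail -/
theorem in_tail (hr : IsProf r) (h : IsTrans 4 r τ τ' T) (hx : x ∈ Ioo (0 : ℝ) 1) :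
    (1 + (1 + uf τ τ' x) * sq x ^ 2 / (6 - 5 * sq x ^ 2)) * (x * Real.exp (lf τ x)) ≤ 1 := by
  have h1 := h.pin_h5 (by norm_num) hr hx
  norm_num at h1
  exact h1

/-- lower bound of `l` -/
theorem in_llo (hr : IsProf r) (h : IsTrans 4 r τ τ' T) (hx : x ∈ Ioo (0 : ℝ) 1) :
    -(161 / 100) ≤ lf τ x := by
  have h1 := h.pin_tau_ge hr hx
  rw [← pin_exp h hx] at h1
  norm_num at h1
  have h2 : 1 ≤ 5 * Real.exp (lf τ x) := by
    have : x * 1 ≤ x * (5 * Real.exp (lf τ x)) := by linarith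
    exact le_of_mul_le_mul_left this hx.1
  by_contra hc
  push Not at hc
  have h3 := Real.exp_lt_exp.2 hc
  have h4 : Real.exp (-(161 / 100)) * Real.exp (161 / 100) = 1 := by
    rw [← Real.exp_add]; simp
  have h5 := pin_exp_ge (161 / 100) (by norm_num)
  norm_num at h5
  have h6 : (5 : ℝ) < Real.exp (161 / 100) := by linarith only [h5]
  have h7 : 0 < Real.exp (-(161 / 100)) := Real.exp_pos _
  nlinarith only [h2, h3, h4, h5]

theorem x0_mem : (2 / 3 : ℝ) ∈ Ioo (0 : ℝ) 1 := by constructor <;> norm_num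

/-- lower bound of `λ` -/
theorem in_lamlo (hr : IsProf r) (h : IsTrans 4 r τ τ' T) : -(49 / 100) ≤ lf τ (2 / 3) := by
  refine h.pin_ge_of hr x0_mem (ρ := 5895 / 10000) (Q := 71 / 1000) (by norm_num) (by norm_num) ?_ ?_
  · rw [jt_int0 x0_mem, pin_am, pin_am_four]
    norm_num
  · have h5 := pin_exp_ge (49 / 100) (by norm_num)
    norm_num at h5 ⊢
    linarith

/-- upper bound of `λ` -/
theorem in_lamhi (hr : IsProf r) (h : IsTrans 4 r τ τ' T) : lf τ (2 / 3) ≤ 1 / 3 := by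
  have h1 := in_cyl hr h x0_mem
  by_contra hc
  push Not at hc
  have h3 := Real.exp_lt_exp.2 hc
  have h5 := pin_exp_ge (1 / 3) (by norm_num)
  norm_num at h1 h5
  linarith only [h3, h1, h5]

/-- joint line, general form -/
theorem jline_gen (hr : IsProf r) (h : IsTrans 4 r τ τ' T) (hx : x ∈ Ioo (0 : ℝ) 1)
    {j k y0 y1 : ℝ} (hk : 0 < k) (hj : 0 ≤ j + y0 * (1 - x ^ 2)) (hy0 : 0 ≤ y0)
    (hlow : 9 / 16 * x ^ 2 * k ^ 2 < (j + y0 * (1 - x ^ 2)) ^ 2 * (1 - x ^ 2))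
    (hy1 : 1 / 2 + 3 / 8 * (1 - x ^ 2) < y1)
    (hc : ∀ y, -y0 ≤ y → y < y1 → τ x = x * (1 + (1 - x ^ 2) * y) →
      k * (1 + uf τ τ' x) ≤ k + j - (1 - x ^ 2) * y) :
    lf τ x ≤ j - k * uf τ τ' x := by
  by_contra hcon
  push Not at hcon
  have ht : 0 < 1 - x ^ 2 := by nlinarith only [hlow]
  set t := 1 - x ^ 2 with htd
  set l := lf τ x with hl
  set u := uf τ τ' x with hu
  obtain ⟨y, hy⟩ : ∃ y, Real.exp l = 1 + t * y := ⟨(Real.exp l - 1) / t, by field_simp; ring⟩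
  have hτ : τ x = x * (1 + t * y) := by rw [← hy, hl, pin_exp h hx]
  have h1 := Real.add_one_le_exp l
  have h2 : k + j - t * y < k * (1 + u) := by linarith only [hcon, hy, h1]
  have hyu : y < y1 := by
    have h3 := in_cyl hr h hx
    rw [← hl, hy] at h3
    have e : (15 - 10 * x ^ 2 + 3 * x ^ 4) / 8 = 1 + t * (1 / 2 + 3 / 8 * t) := by rw [htd]; ring
    rw [e] at h3
    have h4 : t * y ≤ t * (1 / 2 + 3 / 8 * t) := by linarith only [h3]
    exact (le_of_mul_le_mul_left h4 ht).trans_lt hy1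
  rcases le_or_gt (-y0) y with h5 | h5
  · have := hc y h5 hyu hτ
    linarith only [hcon, hy, h1, this]
  · have h6 : j + y0 * t < k * u := by nlinarith only [hcon, hy, h1, h5, hlow]
    have h7 : 0 < k * u := by linarith only [hj, h6]
    have hu0 : 0 ≤ u := ((mul_pos_iff_of_pos_left hk).1 h7).le
    have h8 := in_win2 hr h hx hu0
    have h9 : (j + y0 * t) ^ 2 ≤ (k * u) ^ 2 := pow_le_pow_left₀ hj h6.le 2
    have h10 := mul_le_mul_of_nonneg_right h9 ht.le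
    have h11 := mul_le_mul_of_nonneg_left h8 (sq_nonneg k)
    rw [← htd, ← hu] at h11
    linarith

end Vale.Agent.P237.AllN.M4
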