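import Vale.Agent.P237.AllN.Slope3

/-!
# P237, all dimensions: slope bounds for the transport of a concave profile

`r` is a concave nonincreasing nonnegative profile on `[0,1]`, `m ≥ 3`, `x ↦ θ` is the monotone
transport from the density `√(1-t²)^m` to the density `r^m`.  We prove
`x s^m I ≤ (1 + 1/s) a θ r(θ)^m` and `x s^m I ≤ (1 + k x / s) a θ r(θ)^m`, where
`s = √(1-x²)`, `I = ∫ r^m`, `a = ∫ √(1-t²)^m`, `k = m / (2 (m+1) a)`.
-/

open Real Set MeasureTheory intervalIntegral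

namespace Vale.Agent.P237.AllN.Slope

/-- the half of `aInt` -/
noncomputable def am (m : ℕ) : ℝ := ∫ t in (0:ℝ)..1, √(1 - t ^ 2) ^ m

theorem intervalIntegrable_pow_of_anti (m : ℕ) {r : ℝ → ℝ} (hanti : AntitoneOn r (Icc 0 1))
    (hnn : ∀ t ∈ Icc (0:ℝ) 1, 0 ≤ r t) {a b : ℝ} (ha : 0 ≤ a) (hab : a ≤ b) (hb : b ≤ 1) :
    IntervalIntegrable (fun t => r t ^ m) volume a b := by
  apply AntitoneOn.intervalIntegrable
  rw [uIcc_of_le hab]
  intro x hx y hy hxy
  have hx' : x ∈ Icc (0:ℝ) 1 := ⟨by linarith only [ha, hx.1], by linarith only [hb, hx.2]⟩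
  have hy' : y ∈ Icc (0:ℝ) 1 := ⟨by linarith [hy.1], by linarith [hy.2]⟩
  exact pow_le_pow_left₀ (hnn y hy') (hanti hx' hy' hxy) m

/-- `θ r(θ)^m ≤ ∫_0^θ r^m` -/
theorem le_integral_left (m : ℕ) {r : ℝ → ℝ} (hanti : AntitoneOn r (Icc 0 1))
    (hnn : ∀ t ∈ Icc (0:ℝ) 1, 0 ≤ r t) {θ : ℝ} (h0 : 0 ≤ θ) (h1 : θ ≤ 1) :
    θ * r θ ^ m ≤ ∫ t in (0:ℝ)..θ, r t ^ m := by
  have h := intervalIntegral.integral_mono_on h0 (f := fun _ => r θ ^ m) (g := fun t => r t ^ m)
    (μ := volume) (by simp) (intervalIntegrable_pow_of_anti m hanti hnn le_rfl h0 h1)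
    (fun t ht => pow_le_pow_left₀ (hnn θ ⟨h0, h1⟩)
      (hanti ⟨ht.1, by linarith only [h1, ht.2]⟩ ⟨h0, h1⟩ ht.2) m)
  simpa only [ge_iff_le, intervalIntegral.integral_const, sub_zero, smul_eq_mul] using h

/-- `∫_θ^1 r^m ≤ (1-θ) r(θ)^m` -/
theorem integral_right_le (m : ℕ) {r : ℝ → ℝ} (hanti : AntitoneOn r (Icc 0 1))
    (hnn : ∀ t ∈ Icc (0:ℝ) 1, 0 ≤ r t) {θ : ℝ} (h0 : 0 ≤ θ) (h1 : θ ≤ 1) :
    ∫ t in θ..(1:ℝ), r t ^ m ≤ (1 - θ) * r θ ^ m := by
  have h := intervalIntegral.integral_mono_on h1 (g := fun _ => r θ ^ m) (f := fun t => r t ^ m)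
    (μ := volume) (intervalIntegrable_pow_of_anti m hanti hnn h0 h1 le_rfl) (by simp)
    (fun t ht => pow_le_pow_left₀ (hnn t ⟨by linarith only [h0, ht.1], ht.2⟩)
      (hanti ⟨h0, h1⟩ ⟨by linarith only [h0, ht.1], ht.2⟩ ht.1) m)
  simpa only [ge_iff_le, intervalIntegral.integral_const, smul_eq_mul] using h

/-- tangent line alternative -/
theorem slope_key (m : ℕ) {r : ℝ → ℝ} (hconc : ConcaveOn ℝ (Icc 0 1) r)
    (hanti : AntitoneOn r (Icc 0 1)) (hnn : ∀ t ∈ Icc (0:ℝ) 1, 0 ≤ r t)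
    {θ q : ℝ} (h0 : 0 < θ) (h1 : θ < 1) (hq : 0 < q) :
    (∫ t in (0:ℝ)..θ, r t ^ m) ≤ θ * r θ ^ m * (((1 + q) ^ (m + 1) - 1) / (((m : ℝ) + 1) * q)) ∨
    (∫ t in θ..(1:ℝ), r t ^ m) ≤ θ * r θ ^ m * (1 / (((m : ℝ) + 1) * q)) := by
  have hn : (0 : ℝ) < (m : ℝ) + 1 := by positivity
  have hcv : ∀ x y a b : ℝ, x ∈ Icc (0:ℝ) 1 → y ∈ Icc (0:ℝ) 1 → 0 ≤ a → 0 ≤ b → a + b = 1 →
      a * r x + b * r y ≤ r (a * x + b * y) := by
    intro x y a b hx hy ha hb hab
    exact hconc.2 hx hy ha hb hab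
  -- primitive of the power of the line
  have hder : ∀ t : ℝ, HasDerivAt
      (fun t : ℝ => -(θ * r θ ^ m / (((m : ℝ) + 1) * q)) * (1 + q * (1 - t / θ)) ^ (m + 1))
      ((r θ * (1 + q * (1 - t / θ))) ^ m) t := by
    intro t
    have e1 : HasDerivAt (fun t : ℝ => 1 + q * (1 - t / θ)) (q * (-(1 / θ))) t := by
      have := ((((hasDerivAt_id t).div_const θ).const_sub 1).const_mul q).const_add 1
      simpa using this
    have e2 := (e1.pow (m + 1)).const_mul (-(θ * r θ ^ m / (((m : ℝ) + 1) * q)))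
    refine e2.congr_deriv ?_
    push_cast
    rw [mul_pow]
    (clear * - h0 hq; field_simp)
  have hcont : Continuous fun t : ℝ => (r θ * (1 + q * (1 - t / θ))) ^ m := by fun_prop
  have hint : ∀ a b : ℝ, ∫ t in a..b, (r θ * (1 + q * (1 - t / θ))) ^ m =
      (-(θ * r θ ^ m / (((m : ℝ) + 1) * q)) * (1 + q * (1 - b / θ)) ^ (m + 1)) -
      (-(θ * r θ ^ m / (((m : ℝ) + 1) * q)) * (1 + q * (1 - a / θ)) ^ (m + 1)) := fun a b =>
    integral_eq_sub_of_hasDerivAt (fun t _ => hder t) (hcont.intervalIntegrable _ _)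
  by_cases hA : ∀ t ∈ Icc 0 θ, r t ≤ r θ * (1 + q * (1 - t / θ))
  · left
    have h2 : (∫ t in (0:ℝ)..θ, r t ^ m) ≤ ∫ t in (0:ℝ)..θ, (r θ * (1 + q * (1 - t / θ))) ^ m := by
      apply intervalIntegral.integral_mono_on h0.le
        (intervalIntegrable_pow_of_anti m hanti hnn le_rfl h0.le h1.le)
        (hcont.intervalIntegrable _ _)
      intro t ht
      exact pow_le_pow_left₀ (hnn t ⟨ht.1, by linarith only [h1, ht.2]⟩) (hA t ht) m
    rw [hint] at h2
    refine h2.trans (le_of_eq ?_)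
    rw [div_self h0.ne', zero_div, sub_self, mul_zero, add_zero, one_pow, sub_zero, mul_one]
    ring
  · right
    push Not at hA
    obtain ⟨t0, ht0, hlt⟩ := hA
    have ht0θ : t0 < θ := by
      rcases lt_or_eq_of_le ht0.2 with h | h
      · exact h
      · exfalso
        rw [h, div_self h0.ne'] at hlt
        simp at hlt
    have hline : ∀ t ∈ Icc θ 1, r t ≤ r θ * (1 + q * (1 - t / θ)) := by
      intro t ht
      rcases lt_or_eq_of_le ht.1 with h | h
      · have hd : 0 < t - t0 := by linarith only [ht0θ, h]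
        have hc := hcv t0 t ((t - θ) / (t - t0)) ((θ - t0) / (t - t0))
          ⟨ht0.1, by linarith only [h1, ht0θ]⟩ ⟨by linarith only [h0, h], ht.2⟩
          (div_nonneg (by linarith only [h]) hd.le) (div_nonneg (by linarith only [ht0θ]) hd.le)
          (by rw [← add_div, div_eq_one_iff_eq hd.ne']; ring)
        have e : (t - θ) / (t - t0) * t0 + (θ - t0) / (t - t0) * t = θ := by
          field_simp
          ring
        rw [e, div_mul_eq_mul_div, div_mul_eq_mul_div, ← add_div, div_le_iff₀ hd] at hc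
        have h3 : (t - θ) * (r θ * (1 + q * (1 - t0 / θ))) ≤ (t - θ) * r t0 :=
          mul_le_mul_of_nonneg_left hlt.le (by linarith only [h])
        have h4 : (θ - t0) * r t ≤ (θ - t0) * (r θ * (1 + q * (1 - t / θ))) := by
          have h5 : (θ - t0) * (r θ * (1 + q * (1 - t / θ))) =
              r θ * (t - t0) - (t - θ) * (r θ * (1 + q * (1 - t0 / θ))) := by
            field_simp
            ring
          rw [h5]
          linarith only [hc, h3]
        exact le_of_mul_le_mul_left h4 (by linarith only [ht0θ])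
      · rw [← h, div_self h0.ne']
        simp
    have h2 : (∫ t in θ..(1:ℝ), r t ^ m) ≤ ∫ t in θ..(1:ℝ), (r θ * (1 + q * (1 - t / θ))) ^ m := by
      apply intervalIntegral.integral_mono_on h1.le
        (intervalIntegrable_pow_of_anti m hanti hnn h0.le h1.le le_rfl)
        (hcont.intervalIntegrable _ _)
      intro t ht
      exact pow_le_pow_left₀ (hnn t ⟨by linarith only [h0, ht.1], ht.2⟩) (hline t ht) m
    have hrθ : 0 ≤ r θ := hnn θ ⟨h0.le, h1.le⟩
    rw [hint] at h2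
    refine h2.trans ?_
    rw [div_self h0.ne', sub_self, mul_zero, add_zero, one_pow]
    rcases eq_or_lt_of_le hrθ with hz | hz
    · -- r θ = 0
      rcases Nat.eq_zero_or_pos m with rfl | hm
      · -- m = 0: the line is nonnegative ... use that the line value is arbitrary
        exfalso
        rw [← hz] at hlt
        have := hanti (show t0 ∈ Icc (0:ℝ) 1 from ⟨ht0.1, by linarith only [h1, ht0θ]⟩)
          (show θ ∈ Icc (0:ℝ) 1 from ⟨h0.le, h1.le⟩) ht0.2
        have hc := hline 1 ⟨h1.le, le_rfl⟩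
        -- concavity forces `r 1 < 0`
        have hd : 0 < 1 - t0 := by linarith only [h1, ht0θ]
        have hc := hcv t0 1 ((1 - θ) / (1 - t0)) ((θ - t0) / (1 - t0))
          ⟨ht0.1, by linarith only [h1, ht0θ]⟩ ⟨by linarith only [], le_rfl⟩
          (div_nonneg (by linarith only [h1]) hd.le) (div_nonneg (by linarith only [ht0θ]) hd.le)
          (by rw [← add_div, div_eq_one_iff_eq hd.ne']; ring)
        have e : (1 - θ) / (1 - t0) * t0 + (θ - t0) / (1 - t0) * 1 = θ := by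
          field_simp
          ring
        rw [e, div_mul_eq_mul_div, div_mul_eq_mul_div, ← add_div, div_le_iff₀ hd, ← hz] at hc
        have h6 := hnn 1 ⟨zero_le_one, le_rfl⟩
        have h7 : 0 ≤ (θ - t0) * r 1 := mul_nonneg (by linarith only [ht0θ]) h6
        have h8 : 0 < (1 - θ) * r t0 := mul_pos (by linarith only [h1]) (by linarith only [hlt])
        linarith only [hc, h7, h8]
      · rw [← hz, zero_pow hm.ne']
        simp only [mul_zero, zero_div, neg_zero, one_div, zero_mul, mul_one, sub_self, mul_inv_rev, Std.le_refl]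
    · have h3 : 0 ≤ 1 + q * (1 - 1 / θ) := by
        have h4 := hline 1 ⟨h1.le, le_rfl⟩
        have h5 := hnn 1 ⟨zero_le_one, le_rfl⟩
        by_contra hneg
        push Not at hneg
        have := mul_neg_of_pos_of_neg hz hneg
        linarith only [h4, h5, this]
      have h4 : 0 ≤ θ * r θ ^ m / (((m : ℝ) + 1) * q) := by (clear * - h0 hz hq; positivity)
      have h5 := mul_nonneg h4 (pow_nonneg h3 (m + 1))
      have h6 : θ * r θ ^ m * (1 / (((m : ℝ) + 1) * q)) = θ * r θ ^ m / (((m : ℝ) + 1) * q) := by ring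
      rw [h6]
      (clear * - h5; linarith)

/-- substitution `t = sin φ` -/
theorem integral_sqrt_pow (m : ℕ) {α β : ℝ} (h0 : 0 ≤ α) (h01 : α ≤ β) (h1 : β ≤ π / 2) :
    ∫ t in (sin α)..(sin β), √(1 - t ^ 2) ^ m = ∫ u in α..β, cos u ^ (m + 1) := by
  have h := intervalIntegral.integral_comp_mul_deriv (a := α) (b := β) (f := sin) (f' := cos)
    (g := fun t => √(1 - t ^ 2) ^ m) (fun x _ => hasDerivAt_sin x) continuous_cos.continuousOn
    (by fun_prop)
  rw [← h]
  apply intervalIntegral.integral_congr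
  intro t ht
  rw [uIcc_of_le h01] at ht
  have hc : 0 ≤ cos t := cos_nonneg_of_mem_Icc ⟨by linarith only [h0, h01, h1, ht.1], by linarith only [h1, ht.2]⟩
  simp only [Function.comp]
  rw [← abs_cos_eq_sqrt_one_sub_sin_sq, abs_of_nonneg hc, pow_succ]

theorem am_eq (m : ℕ) : am m = J (m + 1) 0 := by
  have h := integral_sqrt_pow m (α := 0) (β := π / 2) le_rfl (by positivity) le_rfl
  rw [sin_zero, sin_pi_div_two] at h
  unfold am J
  exact h

theorem am_pos (m : ℕ) : 0 < am m := by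
  rw [am_eq]; exact J_pos _ le_rfl (by positivity)

theorem slope_aux (m : ℕ) {r : ℝ → ℝ} (hconc : ConcaveOn ℝ (Icc 0 1) r)
    (hanti : AntitoneOn r (Icc 0 1)) (hnn : ∀ t ∈ Icc (0:ℝ) 1, 0 ≤ r t)
    {θ φ : ℝ} (h0 : 0 < θ) (h1 : θ < 1) (hx0 : 0 < φ) (hx1 : φ < π / 2)
    (hθ : (∫ t in (0:ℝ)..θ, r t ^ m) * am m =
      (∫ t in (0:ℝ)..(sin φ), √(1 - t ^ 2) ^ m) * ∫ t in (0:ℝ)..1, r t ^ m) :
    ((m : ℝ) + 1) * J (m + 1) φ * (1 - Gf m φ) * (∫ t in (0:ℝ)..1, r t ^ m) ≤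
      Gf m φ * (am m * θ * r θ ^ m) := by
  have hG := Gf_pos m hx0.le hx1
  have hQ := J_pos (m + 1) hx0.le hx1
  have ha := am_pos m
  have hGp := Gf_pow m hx0.le hx1
  rw [← am_eq] at hGp
  have hP : ∫ t in (0:ℝ)..(sin φ), √(1 - t ^ 2) ^ m = am m - J (m + 1) φ := by
    have h := integral_sqrt_pow m (α := 0) (β := φ) le_rfl hx0.le hx1.le
    rw [sin_zero] at h
    rw [h, am_eq]
    unfold J
    rw [eq_sub_iff_add_eq]
    have hc : Continuous fun u : ℝ => cos u ^ (m + 1) := by fun_prop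
    exact intervalIntegral.integral_add_adjacent_intervals (hc.intervalIntegrable _ _)
      (hc.intervalIntegrable _ _)
  have hJlt : J (m + 1) φ < am m := by
    have h2 : 0 < ∫ u in (0:ℝ)..φ, cos u ^ (m + 1) := by
      apply intervalIntegral.intervalIntegral_pos_of_pos_on
      · exact (by (clear * -; fun_prop) : Continuous fun t : ℝ => cos t ^ (m + 1)).intervalIntegrable _ _
      · intro t ht
        exact pow_pos (cos_pos_of_mem_Ioo ⟨by linarith only [hx0, hx1, ht.1], by (clear * - hx1 ht; linarith [ht.2])⟩) _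
      · exact hx0
    have h := integral_sqrt_pow m (α := 0) (β := φ) le_rfl hx0.le hx1.le
    rw [sin_zero, hP] at h
    linarith only [h2, h]
  have hG1 : Gf m φ < 1 := by
    by_contra hge
    push Not at hge
    have h2 := one_le_pow₀ hge (n := m + 1)
    rw [hGp, one_le_div ha] at h2
    linarith only [hJlt, h2]
  set I := ∫ t in (0:ℝ)..1, r t ^ m with hI
  have hI0 : 0 ≤ I := by
    rw [hI]
    apply intervalIntegral.integral_nonneg zero_le_one
    intro t ht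
    exact pow_nonneg (hnn t ht) m
  set q : ℝ := (1 - Gf m φ) / Gf m φ with hq
  have hq0 : 0 < q := div_pos (by linarith only [hG1]) hG
  have h1q : 1 + q = 1 / Gf m φ := by rw [hq]; field_simp; ring
  have hn : (0 : ℝ) < (m : ℝ) + 1 := by (clear * -; positivity)
  have hr : 0 ≤ θ * r θ ^ m := mul_nonneg h0.le (pow_nonneg (hnn θ ⟨h0.le, h1.le⟩) m)
  have hgoal : ((m : ℝ) + 1) * q * J (m + 1) φ * I ≤ am m * (θ * r θ ^ m) := by
    rcases slope_key m hconc hanti hnn h0 h1 hq0 with h | h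
    · have h2 := mul_le_mul_of_nonneg_right h ha.le
      rw [hθ, hP, h1q] at h2
      have h3 : (1 / Gf m φ) ^ (m + 1) = am m / J (m + 1) φ := by
        rw [one_div, inv_pow, hGp, inv_div]
      rw [h3] at h2
      have h4 : θ * r θ ^ m * ((am m / J (m + 1) φ - 1) / (((m : ℝ) + 1) * q)) * am m =
          (am m - J (m + 1) φ) * (am m * (θ * r θ ^ m) / (((m : ℝ) + 1) * q * J (m + 1) φ)) := by
        (clear * - hQ hq0 ha h0; field_simp)
      rw [h4] at h2
      have h5 := le_of_mul_le_mul_left h2 (by linarith only [hJlt])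
      rw [le_div_iff₀ (by (clear * - hG1 hG hQ; positivity))] at h5
      linarith only [h5]
    · have hsplit : (∫ t in (0:ℝ)..θ, r t ^ m) + (∫ t in θ..(1:ℝ), r t ^ m) = I :=
        intervalIntegral.integral_add_adjacent_intervals
          (intervalIntegrable_pow_of_anti m hanti hnn le_rfl h0.le h1.le)
          (intervalIntegrable_pow_of_anti m hanti hnn h0.le h1.le le_rfl)
      have h2 : (∫ t in θ..(1:ℝ), r t ^ m) * am m = J (m + 1) φ * I := by
        rw [hP] at hθ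
        have : (∫ t in θ..(1:ℝ), r t ^ m) = I - ∫ t in (0:ℝ)..θ, r t ^ m := by linarith only [hsplit]
        rw [this, sub_mul, hθ]
        ring
      have h3 := mul_le_mul_of_nonneg_right h ha.le
      rw [h2, mul_assoc (θ * r θ ^ m), one_div, inv_mul_eq_div, mul_div_assoc',
        le_div_iff₀ (by (clear * - hG1 hG; positivity))] at h3
      linarith only [h3]
  have h6 : ((m : ℝ) + 1) * J (m + 1) φ * (1 - Gf m φ) * I =
      Gf m φ * (((m : ℝ) + 1) * q * J (m + 1) φ * I) := by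
    rw [hq]
    (clear * - hG hQ; field_simp)
  rw [h6]
  calc Gf m φ * (((m : ℝ) + 1) * q * J (m + 1) φ * I) ≤ Gf m φ * (am m * (θ * r θ ^ m)) :=
        mul_le_mul_of_nonneg_left hgoal hG.le
    _ = _ := by ring

theorem slope_gen (m : ℕ) {r : ℝ → ℝ} (hconc : ConcaveOn ℝ (Icc 0 1) r)
    (hanti : AntitoneOn r (Icc 0 1)) (hnn : ∀ t ∈ Icc (0:ℝ) 1, 0 ≤ r t)
    {θ φ A : ℝ} (h0 : 0 < θ) (h1 : θ < 1) (hx0 : 0 < φ) (hx1 : φ < π / 2)
    (hθ : (∫ t in (0:ℝ)..θ, r t ^ m) * am m =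
      (∫ t in (0:ℝ)..(sin φ), √(1 - t ^ 2) ^ m) * ∫ t in (0:ℝ)..1, r t ^ m)
    (hA : Cf m φ * sin φ ≤ (1 - Gf m φ) * (cos φ * A)) :
    sin φ * cos φ ^ m * (∫ t in (0:ℝ)..1, r t ^ m) ≤ A * (am m * θ * r θ ^ m) := by
  have hG := Gf_pos m hx0.le hx1
  have hQ := J_pos (m + 1) hx0.le hx1
  have ha := am_pos m
  have hc : 0 < cos φ := cos_pos_of_mem_Ioo ⟨by linarith only [hx0, hx1], hx1⟩
  have hs : 0 < sin φ := sin_pos_of_pos_of_lt_pi hx0 (by linarith only [hx0, hx1])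
  have haux := slope_aux m hconc hanti hnn h0 h1 hx0 hx1 hθ
  set I := ∫ t in (0:ℝ)..1, r t ^ m with hI
  have hI0 : 0 ≤ I := by
    rw [hI]
    apply intervalIntegral.integral_nonneg zero_le_one
    intro t ht
    exact pow_nonneg (hnn t ht) m
  have hn : (0 : ℝ) < (m : ℝ) + 1 := by (clear * -; positivity)
  -- `Cf` in terms of the others
  have hC : Cf m φ * (((m : ℝ) + 1) * J (m + 1) φ) = cos φ ^ (m + 1) * Gf m φ := by
    unfold Cf
    (clear * - hQ hG hc; field_simp)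
  have hC0 := Cf_pos m hx0.le hx1
  -- positivity of `A`
  have hGA : 0 < (1 - Gf m φ) * (cos φ * A) := lt_of_lt_of_le (mul_pos hC0 hs) hA
  have h2 := mul_le_mul_of_nonneg_right hA (by (clear * - hQ; positivity) : 0 ≤ ((m : ℝ) + 1) * J (m + 1) φ)
  have h3 : sin φ * cos φ ^ m * Gf m φ ≤ (1 - Gf m φ) * A * (((m : ℝ) + 1) * J (m + 1) φ) := by
    have h4 : cos φ * (sin φ * cos φ ^ m * Gf m φ) ≤
        cos φ * ((1 - Gf m φ) * A * (((m : ℝ) + 1) * J (m + 1) φ)) := by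
      calc cos φ * (sin φ * cos φ ^ m * Gf m φ) = sin φ * (cos φ ^ (m + 1) * Gf m φ) := by ring
        _ = Cf m φ * sin φ * (((m : ℝ) + 1) * J (m + 1) φ) := by rw [← hC]; ring
        _ ≤ _ := h2
        _ = _ := by ring
    exact le_of_mul_le_mul_left h4 hc
  have hG1 : 0 < (1 - Gf m φ) := by
    -- since `Gf < 1`
    have h5 : Gf m φ < 1 := by
      have h6 := slope_G_one m hx0.le hx1
      by_contra hge
      push Not at hge
      have h7 : 0 < Cf m φ * sin φ := mul_pos hC0 hs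
      have h8 : (1 - Gf m φ) * (1 + cos φ) ≤ 0 :=
        mul_nonpos_of_nonpos_of_nonneg (by linarith only [hge]) (by linarith only [hc])
      linarith only [h6, h7, h8]
    linarith only [h5]
  have hA0 : 0 < A := by
    by_contra hneg
    push Not at hneg
    have : (1 - Gf m φ) * (cos φ * A) ≤ 0 :=
      mul_nonpos_of_nonneg_of_nonpos hG1.le (mul_nonpos_of_nonneg_of_nonpos hc.le hneg)
    linarith only [hGA, this]
  have h9 := mul_le_mul_of_nonneg_right h3 hI0
  have h10 := mul_le_mul_of_nonneg_left haux hA0.le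
  have h11 : Gf m φ * (sin φ * cos φ ^ m * I) ≤ Gf m φ * (A * (am m * θ * r θ ^ m)) := by
    calc Gf m φ * (sin φ * cos φ ^ m * I) = sin φ * cos φ ^ m * Gf m φ * I := by ring
      _ ≤ _ := h9
      _ = A * (((m : ℝ) + 1) * J (m + 1) φ * (1 - Gf m φ) * I) := by ring
      _ ≤ _ := h10
      _ = _ := by ring
  exact le_of_mul_le_mul_left h11 hG

/-- **slope bound 1** -/
theorem slope_one (m : ℕ) {r : ℝ → ℝ} (hconc : ConcaveOn ℝ (Icc 0 1) r)
    (hanti : AntitoneOn r (Icc 0 1)) (hnn : ∀ t ∈ Icc (0:ℝ) 1, 0 ≤ r t)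
    {θ x : ℝ} (h0 : 0 < θ) (h1 : θ < 1) (hx0 : 0 < x) (hx1 : x < 1)
    (hθ : (∫ t in (0:ℝ)..θ, r t ^ m) * am m =
      (∫ t in (0:ℝ)..x, √(1 - t ^ 2) ^ m) * ∫ t in (0:ℝ)..1, r t ^ m) :
    x * √(1 - x ^ 2) ^ m * (∫ t in (0:ℝ)..1, r t ^ m) ≤
      (1 + 1 / √(1 - x ^ 2)) * (am m * θ * r θ ^ m) := by
  have hsin : sin (arcsin x) = x := sin_arcsin (by linarith only [hx0]) hx1.le
  have hcos : cos (arcsin x) = √(1 - x ^ 2) := cos_arcsin x
  have hφ0 : 0 < arcsin x := arcsin_pos.2 hx0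
  have hφ1 : arcsin x < π / 2 := arcsin_lt_pi_div_two.2 hx1
  have hc : 0 < √(1 - x ^ 2) := sqrt_pos.2 (by nlinarith only [hx1, hx0])
  have h := slope_gen m hconc hanti hnn h0 h1 hφ0 hφ1 (A := 1 + 1 / cos (arcsin x))
    (by rw [hsin]; exact hθ) ?_
  · rw [hsin, hcos] at h
    exact h
  · have h2 := slope_G_one m hφ0.le hφ1
    have e : cos (arcsin x) * (1 + 1 / cos (arcsin x)) = 1 + cos (arcsin x) := by
      rw [hcos]
      field_simp
      ring
    rw [e]
    exact h2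

/-- **slope bound 2** -/
theorem slope_two (m : ℕ) (hm : 3 ≤ m) {r : ℝ → ℝ} (hconc : ConcaveOn ℝ (Icc 0 1) r)
    (hanti : AntitoneOn r (Icc 0 1)) (hnn : ∀ t ∈ Icc (0:ℝ) 1, 0 ≤ r t)
    {θ x : ℝ} (h0 : 0 < θ) (h1 : θ < 1) (hx0 : 0 < x) (hx1 : x < 1)
    (hθ : (∫ t in (0:ℝ)..θ, r t ^ m) * am m =
      (∫ t in (0:ℝ)..x, √(1 - t ^ 2) ^ m) * ∫ t in (0:ℝ)..1, r t ^ m) :
    x * √(1 - x ^ 2) ^ m * (∫ t in (0:ℝ)..1, r t ^ m) ≤
      (1 + (m : ℝ) / (2 * ((m : ℝ) + 1) * am m) * x / √(1 - x ^ 2)) * (am m * θ * r θ ^ m) := by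
  have hsin : sin (arcsin x) = x := sin_arcsin (by linarith only [hx0]) hx1.le
  have hcos : cos (arcsin x) = √(1 - x ^ 2) := cos_arcsin x
  have hφ0 : 0 < arcsin x := arcsin_pos.2 hx0
  have hφ1 : arcsin x < π / 2 := arcsin_lt_pi_div_two.2 hx1
  have hc : 0 < √(1 - x ^ 2) := sqrt_pos.2 (by nlinarith only [hx1, hx0])
  have h := slope_gen m hconc hanti hnn h0 h1 hφ0 hφ1
    (A := 1 + (m : ℝ) / (2 * ((m : ℝ) + 1) * am m) * sin (arcsin x) / cos (arcsin x))
    (by rw [hsin]; exact hθ) ?_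
  · rw [hsin, hcos] at h
    exact h
  · have h2 := slope_G_two m hm hφ0.le hφ1
    rw [← am_eq] at h2
    have e : cos (arcsin x) * (1 + (m : ℝ) / (2 * ((m : ℝ) + 1) * am m) * sin (arcsin x) /
        cos (arcsin x)) = cos (arcsin x) + (m : ℝ) / (2 * ((m : ℝ) + 1) * am m) * sin (arcsin x) := by
      rw [hcos]
      (clear * - hm hc; field_simp)
    rw [e]
    exact h2

end Vale.Agent.P237.AllN.Slope
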