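import Vale.Agent.P237.AllN.TransDefs
import Vale.Agent.P237.Alm.Prof

/-!
# P237, all dimensions: slope bounds for the transport
-/

open MeasureTheory Metric Set Module Filter Topology

namespace Vale.Agent.P237.AllN

open Alm

theorem sl_sq_cont : Continuous sq := by
  unfold sq
  fun_prop

theorem sl_sq_pos {x : ℝ} (hx : x ∈ Ioo (-1 : ℝ) 1) : 0 < sq x := by
  unfold sq
  apply Real.sqrt_pos.2
  nlinarith only [hx.1, hx.2]

theorem sl_sq_nonneg (x : ℝ) : 0 ≤ sq x := Real.sqrt_nonneg _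

theorem sl_sq_ii (m : ℕ) (a b : ℝ) : IntervalIntegrable (fun t => sq t ^ m) volume a b :=
  (sl_sq_cont.pow m).intervalIntegrable a b

theorem sl_q_pos (m : ℕ) {x : ℝ} (hx : x ∈ Ico (0 : ℝ) 1) : 0 < ∫ t in x..1, sq t ^ m := by
  apply intervalIntegral.intervalIntegral_pos_of_pos_on (sl_sq_ii m x 1) _ hx.2
  intro t ht
  exact pow_pos (sl_sq_pos ⟨by (clear * - hx ht; linarith [hx.1, ht.1]), ht.2⟩) m

theorem sl_V_pos (m : ℕ) {r : ℝ → ℝ} (hr : IsProf r) {y : ℝ} (hy : y ∈ Ico (0 : ℝ) 1) :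
    0 < ∫ t in y..1, r t ^ m := by
  apply intervalIntegral.intervalIntegral_pos_of_pos_on
    (prof_pow_ii hr m ⟨hy.1, hy.2.le⟩ ⟨zero_le_one, le_rfl⟩) _ hy.2
  intro t ht
  exact pow_pos (hr.pos t ⟨by linarith [hy.1, ht.1], ht.2⟩) m

/-- mass in terms of the tails -/
theorem IsTrans.sl_mass {m : ℕ} {r τ τ' T : ℝ → ℝ} (hr : IsProf r)
    (h : IsTrans m r τ τ' T) {x : ℝ} (hx : x ∈ Ioo (0 : ℝ) 1) :
    (∫ t in (τ x)..1, r t ^ m) * (∫ t in (0 : ℝ)..1, sq t ^ m) =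
      (∫ t in x..1, sq t ^ m) * ∫ t in (0 : ℝ)..1, r t ^ m := by
  have h1 := h.mass x hx
  have hτ := h.mem x hx
  have h01 : (1 : ℝ) ∈ Icc (0 : ℝ) 1 := ⟨zero_le_one, le_rfl⟩
  have h00 : (0 : ℝ) ∈ Icc (0 : ℝ) 1 := ⟨le_rfl, zero_le_one⟩
  have h2 : (∫ t in (0 : ℝ)..(τ x), r t ^ m) + ∫ t in (τ x)..1, r t ^ m =
      ∫ t in (0 : ℝ)..1, r t ^ m :=
    intervalIntegral.integral_add_adjacent_intervals
      (prof_pow_ii hr m h00 ⟨hτ.1.le, hτ.2.le⟩) (prof_pow_ii hr m ⟨hτ.1.le, hτ.2.le⟩ h01)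
  have h3 : (∫ t in (0 : ℝ)..x, sq t ^ m) + ∫ t in x..1, sq t ^ m =
      ∫ t in (0 : ℝ)..1, sq t ^ m :=
    intervalIntegral.integral_add_adjacent_intervals (sl_sq_ii m 0 x) (sl_sq_ii m x 1)
  rw [← h2, ← h3] at h1 ⊢
  linear_combination -h1

/-- `r` decreasing: the tail bound for the slope -/
theorem IsTrans.slope_tail {m : ℕ} (hm : 1 ≤ m) {r τ τ' T : ℝ → ℝ} (hr : IsProf r)
    (h : IsTrans m r τ τ' T) : ∀ x ∈ Ioo (0 : ℝ) 1,
      τ' x * (∫ t in x..1, sq t ^ m) ≤ (1 - τ x) * sq x ^ m := by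
  intro x hx
  have hτ := h.mem x hx
  have hZ := sl_V_pos m hr (y := 0) ⟨le_rfl, zero_lt_one⟩
  have hG := sl_q_pos m (x := 0) ⟨le_rfl, zero_lt_one⟩
  have h1 := h.sl_mass hr hx
  have h2 := h.eqn x hx
  have hV : (∫ t in (τ x)..1, r t ^ m) ≤ (1 - τ x) * r (τ x) ^ m := by
    have h3 : (∫ t in (τ x)..1, r t ^ m) ≤ ∫ t in (τ x)..1, r (τ x) ^ m := by
      apply intervalIntegral.integral_mono_on hτ.2.le
        (prof_pow_ii hr m ⟨hτ.1.le, hτ.2.le⟩ ⟨zero_le_one, le_rfl⟩) (by simp)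
      intro t ht
      have m1 : τ x ∈ Icc (0 : ℝ) 1 := ⟨hτ.1.le, hτ.2.le⟩
      have m2 : t ∈ Icc (0 : ℝ) 1 := ⟨hτ.1.le.trans ht.1, ht.2⟩
      exact pow_le_pow_left₀ (prof_nn hr m2) (prof_anti hr m1 m2 ht.1) m
    rwa [intervalIntegral.integral_const, smul_eq_mul] at h3
  have hp := h.pos x hx
  have h4 : (τ' x * (∫ t in x..1, sq t ^ m)) * (∫ t in (0 : ℝ)..1, r t ^ m) ≤
      ((1 - τ x) * sq x ^ m) * ∫ t in (0 : ℝ)..1, r t ^ m := by
    calc (τ' x * (∫ t in x..1, sq t ^ m)) * (∫ t in (0 : ℝ)..1, r t ^ m)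
        = (τ' x * ∫ t in (0 : ℝ)..1, sq t ^ m) * ∫ t in (τ x)..1, r t ^ m := by
          linear_combination (-(τ' x)) * h1
      _ ≤ (τ' x * ∫ t in (0 : ℝ)..1, sq t ^ m) * ((1 - τ x) * r (τ x) ^ m) :=
          mul_le_mul_of_nonneg_left hV (mul_pos hp hG).le
      _ = ((1 - τ x) * sq x ^ m) * ∫ t in (0 : ℝ)..1, r t ^ m := by
          linear_combination (1 - τ x) * h2
  exact le_of_mul_le_mul_right h4 hZ

/-- the supergradient inequality -/
theorem sl_super {r : ℝ → ℝ} (hr : IsProf r) {y : ℝ} (hy : y ∈ Ioo (0 : ℝ) 1) {t : ℝ}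
    (ht : t ∈ Icc (0 : ℝ) 1) : r t ≤ r y + rd r y * (t - y) := by
  have h1 := rd_has hr (y := y) ⟨by linarith only [hy.1], hy.2⟩
  rw [hasDerivWithinAt_iff_tendsto_slope' self_notMem_Ioi] at h1
  have my : y ∈ Icc (-1 : ℝ) 1 := ⟨by linarith only [hy.1], hy.2.le⟩
  have mt : t ∈ Icc (-1 : ℝ) 1 := ⟨by linarith [ht.1], ht.2⟩
  rcases lt_trichotomy t y with hlt | heq | hgt
  · -- `t < y`
    have h2 : rd r y ≤ (r y - r t) / (y - t) := by
      refine le_of_tendsto h1 ?_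
      filter_upwards [Ioo_mem_nhdsGT hy.2] with z hz
      rw [slope_def_field]
      exact hr.conc.slope_anti_adjacent mt ⟨by linarith only [hy.1, hz.1], hz.2.le⟩ hlt hz.1
    rw [le_div_iff₀ (by linarith only [hlt])] at h2
    linarith only [h2]
  · rw [heq]
    simp
  · -- `y < t`
    have h2 : (r t - r y) / (t - y) ≤ rd r y := by
      refine ge_of_tendsto h1 ?_
      filter_upwards [Ioo_mem_nhdsGT hgt] with z hz
      have mz : z ∈ Icc (-1 : ℝ) 1 := ⟨by linarith only [hy.1, hz.1], by linarith [hz.2, ht.2]⟩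
      have h3 := hr.conc.slope_anti_adjacent my mt hz.1 hz.2
      rw [slope_def_field]
      have hzy : 0 < z - y := by linarith only [hz.1]
      have htz : 0 < t - z := by linarith only [hz.2]
      rw [div_le_div_iff₀ htz hzy] at h3
      rw [div_le_div_iff₀ (by linarith only [hzy, htz]) hzy]
      linarith only [h3]
    rw [div_le_iff₀ (by linarith only [hgt])] at h2
    linarith only [h2]

/-- Brunn-Minkowski for the tail. -/
theorem sl_cone {m : ℕ} {r : ℝ → ℝ} (hr : IsProf r) {y : ℝ} (hy : y ∈ Ioo (0 : ℝ) 1) :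
    (∫ t in (0 : ℝ)..1, r t ^ m) ≤ (∫ t in y..1, r t ^ m) *
      (1 + y * r y ^ m / (((m : ℝ) + 1) * ∫ t in y..1, r t ^ m)) ^ (m + 1) := by
  set V := ∫ t in y..1, r t ^ m with hVdef
  set R := r y with hR
  have hV : 0 < V := sl_V_pos m hr ⟨hy.1.le, hy.2⟩
  have hRpos : 0 < R := hr.pos y ⟨by linarith only [hy.1], hy.2⟩
  have hm0 : (0 : ℝ) < (m : ℝ) + 1 := by (clear * -; positivity)
  have h01 : (1 : ℝ) ∈ Icc (0 : ℝ) 1 := ⟨zero_le_one, le_rfl⟩
  have h00 : (0 : ℝ) ∈ Icc (0 : ℝ) 1 := ⟨le_rfl, zero_le_one⟩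
  have hyI : y ∈ Icc (0 : ℝ) 1 := ⟨hy.1.le, hy.2.le⟩
  set k0 := -rd r y with hk0
  have hk0n : 0 ≤ k0 := by
    have := rd_nonpos hr (y := y) ⟨hy.1.le, hy.2⟩
    linarith only [this]
  set k1 := R ^ (m + 1) / (((m : ℝ) + 1) * V) with hk1
  have hk1pos : 0 < k1 := by (clear * - hRpos hV; positivity)
  have hsup : ∀ t ∈ Icc (0 : ℝ) 1, r t ≤ R - k0 * (t - y) := by
    intro t ht
    have := sl_super hr hy ht
    rw [hk0]
    (clear * - this; linarith)
  -- `k0 ≤ k1`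
  have hk01 : k0 ≤ k1 := by
    rw [hk1, le_div_iff₀ (by (clear * - hV; positivity))]
    have h1 : V ≤ ∫ t in y..1, (R - k0 * (t - y)) ^ m := by
      apply intervalIntegral.integral_mono_on hy.2.le
        (prof_pow_ii hr m hyI h01)
        ((by fun_prop : Continuous fun t => (R - k0 * (t - y)) ^ m).intervalIntegrable _ _)
      intro t ht
      have m2 : t ∈ Icc (0 : ℝ) 1 := ⟨hy.1.le.trans ht.1, ht.2⟩
      exact pow_le_pow_left₀ (prof_nn hr m2) (hsup t m2) m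
    have h2 : (∫ t in y..1, ((m : ℝ) + 1) * k0 * (R - k0 * (t - y)) ^ m) =
        -(R - k0 * (1 - y)) ^ (m + 1) - -(R - k0 * (y - y)) ^ (m + 1) := by
      apply intervalIntegral.integral_eq_sub_of_hasDerivAt
        (f := fun t => -(R - k0 * (t - y)) ^ (m + 1))
      · intro t _
        have h3 : HasDerivAt (fun t : ℝ => R - k0 * (t - y)) (-(k0 * 1)) t :=
          (((hasDerivAt_id t).sub_const y).const_mul k0).const_sub R
        have h4 := (h3.pow (m + 1)).neg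
        refine HasDerivAt.congr_deriv h4 ?_
        push_cast
        ring
      · exact (by fun_prop : Continuous fun t =>
          ((m : ℝ) + 1) * k0 * (R - k0 * (t - y)) ^ m).intervalIntegrable _ _
    rw [intervalIntegral.integral_const_mul] at h2
    have h5 : 0 ≤ (R - k0 * (1 - y)) ^ (m + 1) :=
      pow_nonneg ((prof_nn hr h01).trans (hsup 1 h01)) _
    have h6 : ((m : ℝ) + 1) * k0 * V ≤ ((m : ℝ) + 1) * k0 * ∫ t in y..1, (R - k0 * (t - y)) ^ m :=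
      mul_le_mul_of_nonneg_left h1 (by (clear * - hk0n; positivity))
    have h7 : (R - k0 * (y - y)) ^ (m + 1) = R ^ (m + 1) := by
      congr 1
      ring
    rw [h7] at h2
    linarith
  -- the left part
  have h8 : (∫ t in (0 : ℝ)..y, r t ^ m) ≤ ∫ t in (0 : ℝ)..y, (R + k1 * (y - t)) ^ m := by
    apply intervalIntegral.integral_mono_on hy.1.le
      (prof_pow_ii hr m h00 hyI)
      ((by fun_prop : Continuous fun t => (R + k1 * (y - t)) ^ m).intervalIntegrable _ _)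
    intro t ht
    have m2 : t ∈ Icc (0 : ℝ) 1 := ⟨ht.1, ht.2.trans hy.2.le⟩
    refine pow_le_pow_left₀ (prof_nn hr m2) ((hsup t m2).trans ?_) m
    have : k0 * (y - t) ≤ k1 * (y - t) :=
      mul_le_mul_of_nonneg_right hk01 (by linarith only [ht.2])
    linarith only [this]
  have h9 : (∫ t in (0 : ℝ)..y, ((m : ℝ) + 1) * k1 * (R + k1 * (y - t)) ^ m) =
      -(R + k1 * (y - y)) ^ (m + 1) - -(R + k1 * (y - 0)) ^ (m + 1) := by
    apply intervalIntegral.integral_eq_sub_of_hasDerivAt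
      (f := fun t => -(R + k1 * (y - t)) ^ (m + 1))
    · intro t _
      have h3 : HasDerivAt (fun t : ℝ => R + k1 * (y - t)) (k1 * -1) t :=
        (((hasDerivAt_id t).const_sub y).const_mul k1).const_add R
      have h4 := (h3.pow (m + 1)).neg
      refine HasDerivAt.congr_deriv h4 ?_
      push_cast
      ring
    · exact (by fun_prop : Continuous fun t =>
        ((m : ℝ) + 1) * k1 * (R + k1 * (y - t)) ^ m).intervalIntegrable _ _
  rw [intervalIntegral.integral_const_mul] at h9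
  have h10 : (∫ t in (0 : ℝ)..1, r t ^ m) = (∫ t in (0 : ℝ)..y, r t ^ m) + V :=
    (intervalIntegral.integral_add_adjacent_intervals
      (prof_pow_ii hr m h00 hyI) (prof_pow_ii hr m hyI h01)).symm
  have h11 : ((m : ℝ) + 1) * k1 * V = R ^ (m + 1) := by
    rw [hk1]
    (clear * - hV hRpos; field_simp)
  have h12 : 1 + y * R ^ m / (((m : ℝ) + 1) * V) = (R + k1 * y) / R := by
    rw [hk1, pow_succ]
    (clear * - hV hRpos; field_simp)
  rw [h12, div_pow, h10]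
  have h13 : 0 < R ^ (m + 1) := by positivity
  rw [mul_div_assoc', le_div_iff₀ h13]
  have h14 : (R + k1 * (y - y)) ^ (m + 1) = R ^ (m + 1) := by
    congr 1
    ring
  rw [h14, sub_zero] at h9
  have h15 : (∫ t in (0 : ℝ)..y, r t ^ m) * (((m : ℝ) + 1) * k1) ≤
      (R + k1 * y) ^ (m + 1) - R ^ (m + 1) := by
    have h16 := mul_le_mul_of_nonneg_left h8 (by (clear * - hRpos hV; positivity) : 0 ≤ ((m : ℝ) + 1) * k1)
    linarith only [h9, h16]
  have h17 := mul_le_mul_of_nonneg_right h15 hV.le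
  have h18 : (∫ t in (0 : ℝ)..y, r t ^ m) * (((m : ℝ) + 1) * k1) * V =
      (∫ t in (0 : ℝ)..y, r t ^ m) * R ^ (m + 1) := by
    rw [← h11]
    ring
  linarith only [h17, h18]

/-- concavity of `r` (Brunn-Minkowski): comparison of the slope with the slope of the cone.
`Q = ∫_x^1 s^m / ∫_0^1 s^m`: `τ'/τ ≤ Q^(1/(m+1)-1) s^m / ((m+1) (1 - Q^(1/(m+1))) ∫_0^1 s^m)`. -/
theorem IsTrans.slope_cone {m : ℕ} (hm : 1 ≤ m) {r τ τ' T : ℝ → ℝ} (hr : IsProf r)
    (h : IsTrans m r τ τ' T) : ∀ x ∈ Ioo (0 : ℝ) 1,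
      τ' x * ((m : ℝ) + 1) *
        (1 - ((∫ t in x..1, sq t ^ m) / ∫ t in (0 : ℝ)..1, sq t ^ m) ^ (1 / ((m : ℝ) + 1))) *
        (∫ t in x..1, sq t ^ m) ≤
      τ x * ((∫ t in x..1, sq t ^ m) / ∫ t in (0 : ℝ)..1, sq t ^ m) ^ (1 / ((m : ℝ) + 1)) *
        sq x ^ m := by
  intro x hx
  have hτ := h.mem x hx
  have hZ := sl_V_pos m hr (y := 0) ⟨le_rfl, zero_lt_one⟩
  have hG := sl_q_pos m (x := 0) ⟨le_rfl, zero_lt_one⟩
  have hV := sl_V_pos m hr (y := τ x) ⟨hτ.1.le, hτ.2⟩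
  have hq := sl_q_pos m (x := x) ⟨hx.1.le, hx.2⟩
  have h1 := h.sl_mass hr hx
  have h2 := h.eqn x hx
  have h3 := sl_cone (m := m) hr hτ
  have hRpos : 0 < r (τ x) := hr.pos (τ x) ⟨by linarith only [hτ.1], hτ.2⟩
  have hp := h.pos x hx
  set Z := ∫ t in (0 : ℝ)..1, r t ^ m
  set V := ∫ t in (τ x)..1, r t ^ m
  set G1 := ∫ t in (0 : ℝ)..1, sq t ^ m
  set q := ∫ t in x..1, sq t ^ m
  set R := r (τ x)
  set u := τ x * R ^ m / (((m : ℝ) + 1) * V) with hu
  have hm0 : (0 : ℝ) < (m : ℝ) + 1 := by positivity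
  have hτ0 : 0 < τ x := hτ.1
  have hupos : 0 < u := by positivity
  have hQ : q / G1 = V / Z := by
    rw [div_eq_div_iff hG.ne' hZ.ne']
    linarith only [h1]
  rw [hQ]
  set G := (V / Z) ^ (1 / ((m : ℝ) + 1)) with hGdef
  have hGpos : 0 < G := Real.rpow_pos_of_pos (by positivity) _
  have hGpow : G ^ (m + 1) = V / Z := by
    rw [hGdef, ← Real.rpow_natCast, ← Real.rpow_mul (by positivity)]
    push_cast
    rw [one_div, inv_mul_cancel₀ hm0.ne', Real.rpow_one]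
  -- `1 ≤ G (1 + u)`
  have h4 : 1 ≤ G * (1 + u) := by
    have h5 : 1 ≤ (G * (1 + u)) ^ (m + 1) := by
      rw [mul_pow, hGpow, div_mul_eq_mul_div, le_div_iff₀ hZ, one_mul]
      exact h3
    by_contra hlt
    push Not at hlt
    have h6 : (G * (1 + u)) ^ (m + 1) < 1 := pow_lt_one₀ (by positivity) hlt (by omega)
    (clear * - h5 h6; linarith)
  have h7 : 1 - G ≤ G * u := by linarith only [h4]
  have h8 : τ' x * ((m : ℝ) + 1) * (1 - G) * q ≤ τ' x * ((m : ℝ) + 1) * (G * u) * q :=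
    mul_le_mul_of_nonneg_right (mul_le_mul_of_nonneg_left h7 (by positivity)) hq.le
  refine h8.trans (le_of_eq ?_)
  have h9 : q * Z = V * G1 := h1.symm
  have h10 : τ' x * ((m : ℝ) + 1) * (G * u) * q * (V * Z) = τ x * G * sq x ^ m * (V * Z) := by
    have h11 : u * (((m : ℝ) + 1) * V) = τ x * R ^ m := by
      rw [hu]
      (clear * - hm hV hRpos hτ0; field_simp)
    calc τ' x * ((m : ℝ) + 1) * (G * u) * q * (V * Z)
        = τ' x * G * (u * (((m : ℝ) + 1) * V)) * (q * Z) := by ring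
      _ = τ x * G * V * (τ' x * R ^ m * G1) := by rw [h11, h9]; ring
      _ = τ x * G * sq x ^ m * (V * Z) := by rw [h2]; ring
  exact mul_right_cancel₀ (mul_pos hV hZ).ne' h10

end Vale.Agent.P237.AllN
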