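import Vale.Agent.P237.AllN.Brid3
import Vale.Agent.P237.AllN.Slope
import Vale.Agent.P237.AllN.SlopeN

/-!
# P237: elementary inputs of the pointwise inequality (bounds for `τ`, `l` and `u`)
-/

open MeasureTheory Set Finset

namespace Vale.Agent.P237.AllN

open Alm

section

variable {m : ℕ} {r τ τ' T : ℝ → ℝ} {x : ℝ}

theorem pin_E (τ τ' : ℝ → ℝ) (x : ℝ) : 1 + uf τ τ' x = x * τ' x / τ x := by
  unfold uf
  ring

theorem pin_exp (h : IsTrans m r τ τ' T) (hx : x ∈ Ioo (0 : ℝ) 1) :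
    x * Real.exp (lf τ x) = τ x := by
  have h1 := tr_pos h hx
  have h2 : 0 < x := hx.1
  unfold lf
  rw [Real.exp_log (by positivity)]
  (clear * - h2 h1; field_simp)

theorem pin_le_one (h : IsTrans m r τ τ' T) (hx : x ∈ Ioo (0 : ℝ) 1) :
    x * Real.exp (lf τ x) < 1 := by
  rw [pin_exp h hx]
  exact (h.mem x hx).2

/-- comparison with the cylinder: lower bound of the slope -/
theorem IsTrans.pin_cyl (hr : IsProf r) (h : IsTrans m r τ τ' T) (hx : x ∈ Ioo (0 : ℝ) 1) :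
    x * sq x ^ m ≤ (1 + uf τ τ' x) * ∫ t in (0 : ℝ)..x, sq t ^ m := by
  have hτ := h.mem x hx
  have hI := sl_V_pos m hr (y := 0) ⟨le_rfl, zero_lt_one⟩
  have hZ := sl_q_pos m (x := 0) ⟨le_rfl, zero_lt_one⟩
  have h1 := h.mass x hx
  have h2 := h.eqn x hx
  have hp := h.pos x hx
  have h3 : τ x * r (τ x) ^ m ≤ ∫ t in (0 : ℝ)..τ x, r t ^ m :=
    Slope.le_integral_left m (prof_anti hr) (fun t ht => prof_nn hr ht) hτ.1.le hτ.2.le
  set I := ∫ t in (0 : ℝ)..1, r t ^ m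
  set Z := ∫ t in (0 : ℝ)..1, sq t ^ m
  set P := ∫ t in (0 : ℝ)..x, sq t ^ m
  set F := ∫ t in (0 : ℝ)..τ x, r t ^ m
  have h4 : sq x ^ m * τ x ≤ τ' x * P := by
    have h5 : (sq x ^ m * τ x) * I ≤ (τ' x * P) * I := by
      calc (sq x ^ m * τ x) * I = τ' x * (τ x * r (τ x) ^ m) * Z := by
            linear_combination (-(τ x)) * h2
        _ ≤ τ' x * F * Z := by
            apply mul_le_mul_of_nonneg_right _ hZ.le
            exact mul_le_mul_of_nonneg_left h3 hp.le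
        _ = (τ' x * P) * I := by linear_combination (τ' x) * h1
    exact le_of_mul_le_mul_right h5 hI
  rw [pin_E, div_mul_eq_mul_div, le_div_iff₀ hτ.1]
  have := mul_le_mul_of_nonneg_left h4 hx.1.le
  linarith only [this]

theorem pin_P_pos (m : ℕ) (hx : x ∈ Ioo (0 : ℝ) 1) : 0 < ∫ t in (0 : ℝ)..x, sq t ^ m := by
  apply intervalIntegral.intervalIntegral_pos_of_pos_on (sl_sq_ii m 0 x) _ hx.1
  intro t ht
  exact pow_pos (sl_sq_pos ⟨by linarith only [ht.1], ht.2.trans hx.2⟩) m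

theorem pin_sq_le_one (t : ℝ) : sq t ≤ 1 := by
  unfold sq
  rw [Real.sqrt_le_left (by norm_num)]
  nlinarith [sq_nonneg t]

/-- **(h3)** -/
theorem IsTrans.pin_h3 (hr : IsProf r) (h : IsTrans m r τ τ' T) (hx : x ∈ Ioo (0 : ℝ) 1) :
    sq x ^ m ≤ 1 + uf τ τ' x := by
  have h1 := h.pin_cyl hr hx
  have h2 := uf_pos h hx
  have h3 : (∫ t in (0 : ℝ)..x, sq t ^ m) ≤ x := by
    have h4 := intervalIntegral.integral_mono_on hx.1.le (sl_sq_ii m 0 x)
      (intervalIntegrable_const (c := (1 : ℝ)))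
      (fun t _ => pow_le_one₀ (sl_sq_nonneg t) (pin_sq_le_one t))
    simpa only [ge_iff_le, intervalIntegral.integral_const, sub_zero, smul_eq_mul, mul_one] using h4
  have h4 := mul_le_mul_of_nonneg_left h3 h2.le
  have hx0 := hx.1
  nlinarith only [h1, h4, hx0]

theorem pin_sq_sq {t : ℝ} (ht : t ∈ Icc (0 : ℝ) 1) : sq t ^ 2 = 1 - t ^ 2 := trn_sq_sq ht

theorem pin_sq_le {t : ℝ} (ht : t ∈ Icc (0 : ℝ) 1) : sq t ≤ 1 - t ^ 2 / 2 := by
  have h1 := pin_sq_sq ht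
  have h2 := sl_sq_nonneg t
  have h3 : t ^ 2 ≤ 1 := by nlinarith only [h1]
  nlinarith only [h1]

theorem pin_int_poly (n : ℕ) (c : ℕ → ℝ) (x : ℝ) :
    ∫ t in (0 : ℝ)..x, ∑ i ∈ range n, c i * (t ^ 2) ^ i =
      x * ∑ i ∈ range n, c i * (x ^ 2) ^ i / (2 * i + 1) := by
  have h1 : ∀ t : ℝ, ∑ i ∈ range n, c i * (t ^ 2) ^ i = ∑ i ∈ range n, c i * t ^ (2 * i) := by
    intro t
    simp only [pow_mul]
  simp only [h1]
  rw [intervalIntegral.integral_finsetSum]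
  · rw [Finset.mul_sum]
    refine Finset.sum_congr rfl fun i _ => ?_
    rw [intervalIntegral.integral_const_mul, integral_pow]
    push_cast
    rw [pow_succ]
    ring
  · intro i _
    exact (by fun_prop : Continuous fun t : ℝ => c i * t ^ (2 * i)).intervalIntegrable _ _

theorem pin_P_ge (n : ℕ) (c : ℕ → ℝ) (hx0 : 0 ≤ x)
    (hle : ∀ t ∈ Icc 0 x, ∑ i ∈ range n, c i * (t ^ 2) ^ i ≤ sq t ^ m) :
    x * ∑ i ∈ range n, c i * (x ^ 2) ^ i / (2 * i + 1) ≤ ∫ t in (0 : ℝ)..x, sq t ^ m := by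
  rw [← pin_int_poly]
  exact intervalIntegral.integral_mono_on hx0
    ((by fun_prop : Continuous fun t : ℝ => ∑ i ∈ range n, c i * (t ^ 2) ^ i).intervalIntegrable _ _)
    (sl_sq_ii m 0 x) hle

theorem pin_P_le (n : ℕ) (c : ℕ → ℝ) (hx0 : 0 ≤ x)
    (hle : ∀ t ∈ Icc 0 x, sq t ^ m ≤ ∑ i ∈ range n, c i * (t ^ 2) ^ i) :
    (∫ t in (0 : ℝ)..x, sq t ^ m) ≤ x * ∑ i ∈ range n, c i * (x ^ 2) ^ i / (2 * i + 1) := by
  rw [← pin_int_poly]
  exact intervalIntegral.integral_mono_on hx0 (sl_sq_ii m 0 x)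
    ((by fun_prop : Continuous fun t : ℝ => ∑ i ∈ range n, c i * (t ^ 2) ^ i).intervalIntegrable _ _)
    hle

/-- **(h3)** for `m = 5` -/
theorem IsTrans.pin_h3_five (hr : IsProf r) (h : IsTrans 5 r τ τ' T) (hx : x ∈ Ioo (0 : ℝ) 1)
    (hz : x ^ 2 ≤ 14 / 25) : sq x ^ 4 ≤ 1 + uf τ τ' x := by
  have h1 := h.pin_cyl hr hx
  have h2 := uf_pos h hx
  have hs := sl_sq_pos (mem_neg hx)
  have h3 : (∫ t in (0 : ℝ)..x, sq t ^ 5) ≤ x * sq x := by
    have h4 := pin_P_le (m := 5) (x := x) 4 (fun i => ([1, -5 / 2, 2, -1 / 2] : List ℝ).getD i 0)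
      hx.1.le (by
        intro t ht
        have ht' : t ∈ Icc (0 : ℝ) 1 := ⟨ht.1, ht.2.trans hx.2.le⟩
        have e1 := pin_sq_sq ht'
        have e2 := pin_sq_le ht'
        have e3 : sq t ^ 5 = (1 - t ^ 2) ^ 2 * sq t := by rw [← e1]; ring
        rw [e3]
        simp only [Finset.sum_range_succ, Finset.sum_range_zero, List.getD_cons_zero,
          List.getD_cons_succ]
        have e4 := mul_le_mul_of_nonneg_left e2 (sq_nonneg (1 - t ^ 2))
        linarith)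
    simp only [Finset.sum_range_succ, Finset.sum_range_zero, List.getD_cons_zero,
      List.getD_cons_succ] at h4
    refine h4.trans (mul_le_mul_of_nonneg_left ?_ hx.1.le)
    have e1 := pin_sq_sq (Ioo_subset_Icc_self hx)
    have hz0 : 0 < x ^ 2 := by have := hx.1; positivity
    set z := x ^ 2
    refine (le_abs_self _).trans (abs_le_of_sq_le_sq ?_ hs.le)
    rw [e1]
    push_cast
    have g1 : 0 ≤ 2 / 3 - 269 / 180 * z + 17 / 21 * z ^ 2 - 293 / 1050 * z ^ 3 := by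
      nlinarith only [hz]
    have g2 : 0 ≤ z ^ 4 * (2 / 35 - z / 196) := by
      apply mul_nonneg (by (clear * - hz0; positivity))
      linarith only [hz]
    nlinarith only [hz0, g1, g2]
  have h4 := mul_le_mul_of_nonneg_left h3 h2.le
  have hx0 := hx.1
  have h5 : x * sq x ^ 5 ≤ (1 + uf τ τ' x) * (x * sq x) := h1.trans h4
  have h6 : (x * sq x) * sq x ^ 4 ≤ (x * sq x) * (1 + uf τ τ' x) := by linarith only [h1, h4]
  exact le_of_mul_le_mul_left h6 (by positivity)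

/-- the tail of the ball law -/
theorem pin_tail (m : ℕ) (hx : x ∈ Ioo (0 : ℝ) 1) :
    x * sq x ^ (m + 2) ≤ (((m : ℝ) + 1) * x ^ 2 + 1) * ∫ t in x..1, sq t ^ m := by
  have hD : ∀ t : ℝ, 0 < ((m : ℝ) + 1) * t ^ 2 + 1 := fun t => by positivity
  have hder : ∀ t ∈ Ioo x 1, HasDerivAt
      (fun t : ℝ => -(t * sq t ^ (m + 2) / (((m : ℝ) + 1) * t ^ 2 + 1)))
      (-(((1 * sq t ^ (m + 2) + t * (((m : ℝ) + 2) * sq t ^ (m + 1) * (-(t / sq t)))) *
        (((m : ℝ) + 1) * t ^ 2 + 1) - t * sq t ^ (m + 2) * (((m : ℝ) + 1) * (2 * t))) /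
        (((m : ℝ) + 1) * t ^ 2 + 1) ^ 2)) t := by
    intro t ht
    have ht1 : t ∈ Ioo (0 : ℝ) 1 := ⟨hx.1.trans ht.1, ht.2⟩
    have hs := sl_sq_pos (mem_neg ht1)
    have d1 : HasDerivAt sq (-(t / sq t)) t := by
      have h0 : 0 < 1 - t ^ 2 := by nlinarith only [ht1.1, ht1.2]
      have e2 : HasDerivAt (fun y : ℝ => 1 - y ^ 2) (-(2 * t)) t := by
        have := (hasDerivAt_pow 2 t).const_sub 1
        refine this.congr_deriv ?_
        simp only [Nat.cast_ofNat, Nat.add_one_sub_one, pow_one]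
      have e3 := e2.sqrt h0.ne'
      refine e3.congr_deriv ?_
      unfold sq
      (clear * - h0; field_simp)
    have d2 := d1.pow (m + 2)
    have d3 : HasDerivAt (fun t : ℝ => sq t ^ (m + 2))
        (((m : ℝ) + 2) * sq t ^ (m + 1) * (-(t / sq t))) t := by
      refine d2.congr_deriv ?_
      push_cast
      rfl
    have d4 := (hasDerivAt_id t).mul d3
    have d5 : HasDerivAt (fun t : ℝ => ((m : ℝ) + 1) * t ^ 2 + 1) (((m : ℝ) + 1) * (2 * t)) t := by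
      have := ((hasDerivAt_pow 2 t).const_mul ((m : ℝ) + 1)).add_const 1
      refine this.congr_deriv ?_
      simp only [Nat.cast_ofNat, Nat.add_one_sub_one, pow_one]
    exact (d4.div d5 (hD t).ne').neg
  have hcont : Continuous fun t : ℝ => -(t * sq t ^ (m + 2) / (((m : ℝ) + 1) * t ^ 2 + 1)) := by
    have := sl_sq_cont
    refine Continuous.neg (Continuous.div (by fun_prop) (by fun_prop) fun t => (hD t).ne')
  have hle : ∀ t ∈ Ioo x 1, -(((1 * sq t ^ (m + 2) + t * (((m : ℝ) + 2) * sq t ^ (m + 1) *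
      (-(t / sq t)))) * (((m : ℝ) + 1) * t ^ 2 + 1) - t * sq t ^ (m + 2) *
      (((m : ℝ) + 1) * (2 * t))) / (((m : ℝ) + 1) * t ^ 2 + 1) ^ 2) ≤ sq t ^ m := by
    intro t ht
    have ht1 : t ∈ Ioo (0 : ℝ) 1 := ⟨hx.1.trans ht.1, ht.2⟩
    have hs := sl_sq_pos (mem_neg ht1)
    have e1 := pin_sq_sq (Ioo_subset_Icc_self ht1)
    have e2 : sq t ^ (m + 1) * (-(t / sq t)) = -(t * sq t ^ m) := by
      rw [pow_succ]
      (clear * - hs; field_simp)
    have e3 : t * (((m : ℝ) + 2) * sq t ^ (m + 1) * (-(t / sq t))) =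
        -(((m : ℝ) + 2) * t ^ 2 * sq t ^ m) := by
      linear_combination (t * ((m : ℝ) + 2)) * e2
    rw [e3, ← neg_div, div_le_iff₀ (by (clear * -; positivity)), pow_add, e1]
    have hm0 : (0 : ℝ) ≤ m := Nat.cast_nonneg m
    have e4 : sq t ^ m * (((m : ℝ) + 1) * t ^ 2 + 1) ^ 2 -
        -((1 * (sq t ^ m * (1 - t ^ 2)) + -(((m : ℝ) + 2) * t ^ 2 * sq t ^ m)) *
        (((m : ℝ) + 1) * t ^ 2 + 1) - t * (sq t ^ m * (1 - t ^ 2)) * (((m : ℝ) + 1) * (2 * t))) =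
        sq t ^ m * (2 * (1 - t ^ 2)) := by ring
    have e5 : 0 ≤ sq t ^ m * (2 * (1 - t ^ 2)) := by
      rw [← e1]
      (clear * - hs; positivity)
    linarith only [e5]
  have key := intervalIntegral.sub_le_integral_of_hasDeriv_right_of_le hx.2.le hcont.continuousOn
    (fun t ht => (hder t ht).hasDerivWithinAt)
    (((sl_sq_cont.pow m : Continuous fun t => sq t ^ m)).continuousOn.integrableOn_Icc) hle
  have e1 : sq (1 : ℝ) = 0 := by unfold sq; simp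
  rw [e1] at key
  simp only [zero_pow (by omega : m + 2 ≠ 0), mul_zero, zero_div, neg_zero, zero_sub,
    neg_neg] at key
  rw [div_le_iff₀ (hD x)] at key
  simp only [Pi.pow_apply] at key
  linarith only [key]

/-- **(h5)** -/
theorem IsTrans.pin_h5 (hm : 1 ≤ m) (hr : IsProf r) (h : IsTrans m r τ τ' T)
    (hx : x ∈ Ioo (0 : ℝ) 1) :
    (1 + (1 + uf τ τ' x) * sq x ^ 2 / (((m : ℝ) + 2) - ((m : ℝ) + 1) * sq x ^ 2)) *
      (x * Real.exp (lf τ x)) ≤ 1 := by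
  rw [pin_exp h hx]
  have hτ := h.mem x hx
  have hp := h.pos x hx
  have hs := sl_sq_pos (mem_neg hx)
  have e1 := pin_sq_sq (Ioo_subset_Icc_self hx)
  have h1 := h.slope_tail hm hr x hx
  have h2 := pin_tail m hx
  have e2 : ((m : ℝ) + 2) - ((m : ℝ) + 1) * sq x ^ 2 = ((m : ℝ) + 1) * x ^ 2 + 1 := by
    rw [e1]; ring
  rw [e2]
  have hD : 0 < ((m : ℝ) + 1) * x ^ 2 + 1 := by (clear * - hm; positivity)
  set D := ((m : ℝ) + 1) * x ^ 2 + 1
  have h3 : τ' x * x * sq x ^ 2 ≤ D * (1 - τ x) := by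
    have h4 : (τ' x * x * sq x ^ 2) * sq x ^ m ≤ (D * (1 - τ x)) * sq x ^ m := by
      calc (τ' x * x * sq x ^ 2) * sq x ^ m = τ' x * (x * sq x ^ (m + 2)) := by ring
        _ ≤ τ' x * (D * ∫ t in x..1, sq t ^ m) := mul_le_mul_of_nonneg_left h2 hp.le
        _ = D * (τ' x * ∫ t in x..1, sq t ^ m) := by ring
        _ ≤ D * ((1 - τ x) * sq x ^ m) := mul_le_mul_of_nonneg_left h1 hD.le
        _ = _ := by ring
    exact le_of_mul_le_mul_right h4 (pow_pos hs m)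
  have h4 : (1 + (1 + uf τ τ' x) * sq x ^ 2 / D) * τ x = τ x + (τ' x * x * sq x ^ 2) / D := by
    rw [pin_E]
    have := hτ.1.ne'
    (clear * - hD this; field_simp)
  rw [h4]
  have h5 : (τ' x * x * sq x ^ 2) / D ≤ 1 - τ x := by
    rw [div_le_iff₀ hD]
    linarith only [h3]
  linarith only [h5]

/-- comparison with the cone -/
theorem IsTrans.pin_cone (hr : IsProf r) (h : IsTrans m r τ τ' T) (hx : x ∈ Ioo (0 : ℝ) 1) :
    (1 - τ x) ^ (m + 1) * (∫ t in (0 : ℝ)..1, sq t ^ m) ≤ ∫ t in x..1, sq t ^ m := by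
  have hτ := h.mem x hx
  have hI := sl_V_pos m hr (y := 0) ⟨le_rfl, zero_lt_one⟩
  have hZ := sl_q_pos m (x := 0) ⟨le_rfl, zero_lt_one⟩
  have h1 := h.sl_mass hr hx
  set a := τ x
  have ha : 0 < 1 - a := by linarith [hτ.2]
  have e1 : (1 - a) • (∫ v in (0 : ℝ)..1, r (a + (1 - a) * v) ^ m) = ∫ t in a..1, r t ^ m := by
    have := intervalIntegral.smul_integral_comp_add_mul (a := (0 : ℝ)) (b := 1)
      (fun t => r t ^ m) (1 - a) a
    rw [this]
    congr 1 <;> ring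
  have hmem : ∀ v ∈ Icc (0 : ℝ) 1, a + (1 - a) * v ∈ Icc (0 : ℝ) 1 := by
    intro v hv
    constructor
    · nlinarith only [ha, hτ.1, hv.1]
    · nlinarith only [ha, hv.2]
  have hanti : AntitoneOn (fun v => r (a + (1 - a) * v) ^ m) (Icc 0 1) := by
    intro v hv w hw hvw
    refine pow_le_pow_left₀ (prof_nn hr (hmem w hw)) ?_ m
    exact prof_anti hr (hmem v hv) (hmem w hw) (by nlinarith only [ha, hvw])
  have h2 : (1 - a) ^ m * (∫ v in (0 : ℝ)..1, r v ^ m) ≤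
      ∫ v in (0 : ℝ)..1, r (a + (1 - a) * v) ^ m := by
    rw [← intervalIntegral.integral_const_mul]
    apply intervalIntegral.integral_mono_on zero_le_one
    · exact (prof_pow_ii hr m ⟨le_rfl, zero_le_one⟩ ⟨zero_le_one, le_rfl⟩).const_mul _
    · exact AntitoneOn.intervalIntegrable (by rwa [Set.uIcc_of_le zero_le_one])
    · intro v hv
      rw [← mul_pow]
      refine pow_le_pow_left₀ (mul_nonneg ha.le (prof_nn hr hv)) ?_ m
      have m1 : v ∈ Icc (-1 : ℝ) 1 := ⟨by linarith [hv.1], hv.2⟩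
      have m2 : (1 : ℝ) ∈ Icc (-1 : ℝ) 1 := ⟨by norm_num, le_rfl⟩
      have hc := hr.conc.2 m1 m2 ha.le hτ.1.le (by ring)
      simp only [smul_eq_mul, mul_one] at hc
      have h3 := mul_nonneg hτ.1.le hr.nonneg
      have e : (1 - a) * v + a = a + (1 - a) * v := by ring
      rw [e] at hc
      linarith only [hc, h3]
  rw [smul_eq_mul] at e1
  have h4 : (1 - a) ^ (m + 1) * (∫ v in (0 : ℝ)..1, r v ^ m) ≤ ∫ t in a..1, r t ^ m := by
    rw [← e1, pow_succ']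
    have := mul_le_mul_of_nonneg_left h2 ha.le
    linarith only [this]
  have h5 := mul_le_mul_of_nonneg_right h4 hZ.le
  rw [h1] at h5
  have h6 : ((1 - a) ^ (m + 1) * (∫ t in (0 : ℝ)..1, sq t ^ m)) * (∫ v in (0 : ℝ)..1, r v ^ m) ≤
      (∫ t in x..1, sq t ^ m) * (∫ v in (0 : ℝ)..1, r v ^ m) := by linarith only [h5]
  exact le_of_mul_le_mul_right h6 hI

theorem pin_split (m : ℕ) (x : ℝ) : (∫ t in (0 : ℝ)..x, sq t ^ m) + ∫ t in x..1, sq t ^ m =
    ∫ t in (0 : ℝ)..1, sq t ^ m :=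
  intervalIntegral.integral_add_adjacent_intervals (sl_sq_ii m 0 x) (sl_sq_ii m x 1)

/-- `x ≤ (m+1) τ` -/
theorem IsTrans.pin_tau_ge (hr : IsProf r) (h : IsTrans m r τ τ' T) (hx : x ∈ Ioo (0 : ℝ) 1) :
    x ≤ ((m : ℝ) + 1) * τ x := by
  have hτ := h.mem x hx
  have hZ := sl_q_pos m (x := 0) ⟨le_rfl, zero_lt_one⟩
  have h1 := h.pin_cone hr hx
  have h2 := pin_split m x
  have h3 := one_add_mul_le_pow (a := -τ x) (by linarith [hτ.2]) (m + 1)
  have h4 := (trGood_sq m).avg (Ioo_subset_Icc_self hx)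
  have h5 : x * (∫ t in (0 : ℝ)..1, sq t ^ m) ≤ ∫ t in (0 : ℝ)..x, sq t ^ m := h4
  have h6 : (1 + ((m + 1 : ℕ) : ℝ) * -τ x) * (∫ t in (0 : ℝ)..1, sq t ^ m) ≤
      (1 - τ x) ^ (m + 1) * (∫ t in (0 : ℝ)..1, sq t ^ m) := by
    apply mul_le_mul_of_nonneg_right _ hZ.le
    have e : (1 - τ x) ^ (m + 1) = (1 + -τ x) ^ (m + 1) := by ring
    rw [e]
    exact h3
  push_cast at h6
  have h7 : x * (∫ t in (0 : ℝ)..1, sq t ^ m) ≤
      (((m : ℝ) + 1) * τ x) * ∫ t in (0 : ℝ)..1, sq t ^ m := by linarith only [h1, h2, h5, h6]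
  exact le_of_mul_le_mul_right h7 hZ

theorem pin_exp_ge (c : ℝ) (hc : 0 ≤ c) : 1 + c + c ^ 2 / 2 + c ^ 3 / 6 + c ^ 4 / 24 +
    c ^ 5 / 120 + c ^ 6 / 720 + c ^ 7 / 5040 ≤ Real.exp c := by
  have h := Real.sum_le_exp_of_nonneg hc 8
  simp only [Finset.sum_range_succ, Finset.sum_range_zero, Nat.factorial] at h
  norm_num at h
  linarith

/-- **(h6)** -/
theorem IsTrans.pin_h6 (hm : 5 ≤ m) (hr : IsProf r) (h : IsTrans m r τ τ' T)
    (hx : x ∈ Ioo (0 : ℝ) 1) : -(9 / 25 * (m : ℝ)) ≤ lf τ x := by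
  have hτ := h.mem x hx
  have h1 := h.pin_tau_ge hr hx
  have hm' : (5 : ℝ) ≤ m := by exact_mod_cast hm
  have h2 : 1 / ((m : ℝ) + 1) ≤ τ x / x := by
    rw [div_le_div_iff₀ (by positivity) hx.1]
    linarith only [h1]
  have h3 : Real.log (1 / ((m : ℝ) + 1)) ≤ lf τ x := by
    unfold lf
    exact Real.log_le_log (by positivity) h2
  rw [one_div, Real.log_inv] at h3
  have h4 : Real.log ((m : ℝ) + 1) ≤ 9 / 25 * m := by
    have e : (m : ℝ) + 1 = 6 * (((m : ℝ) + 1) / 6) := by ring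
    rw [e, Real.log_mul (by norm_num) (by positivity)]
    have h5 := Real.log_le_sub_one_of_pos (x := ((m : ℝ) + 1) / 6) (by positivity)
    have h6 : Real.log 6 ≤ 9 / 5 := by
      rw [Real.log_le_iff_le_exp (by norm_num)]
      have := pin_exp_ge (9 / 5) (by norm_num)
      norm_num at this
      linarith only [this]
    linarith only [hm', h5, h6]
  linarith only [h3, h4]

/-- lower bound for `l` at a point -/
theorem IsTrans.pin_ge_of (hr : IsProf r) (h : IsTrans m r τ τ' T) (hx : x ∈ Ioo (0 : ℝ) 1)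
    {c ρ Q : ℝ} (hρ : 0 ≤ ρ) (hQ : Q < ρ ^ (m + 1))
    (hP : (1 - Q) * (∫ t in (0 : ℝ)..1, sq t ^ m) ≤ ∫ t in (0 : ℝ)..x, sq t ^ m)
    (hc : x ≤ (1 - ρ) * Real.exp c) : -c ≤ lf τ x := by
  by_contra hcon
  push Not at hcon
  have hτ := h.mem x hx
  have hZ := sl_q_pos m (x := 0) ⟨le_rfl, zero_lt_one⟩
  have h1 := h.pin_cone hr hx
  have h2 := pin_split m x
  have h3 : τ x < 1 - ρ := by
    rw [← pin_exp h hx]
    have h4 : Real.exp (lf τ x) < Real.exp (-c) := Real.exp_lt_exp.2 hcon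
    calc x * Real.exp (lf τ x) < x * Real.exp (-c) := mul_lt_mul_of_pos_left h4 hx.1
      _ ≤ ((1 - ρ) * Real.exp c) * Real.exp (-c) :=
          mul_le_mul_of_nonneg_right hc (Real.exp_pos _).le
      _ = 1 - ρ := by rw [mul_assoc, ← Real.exp_add]; simp
  have h5 : ρ ^ (m + 1) ≤ (1 - τ x) ^ (m + 1) := pow_le_pow_left₀ hρ (by linarith only [h3]) _
  have h6 : Q * (∫ t in (0 : ℝ)..1, sq t ^ m) < (1 - τ x) ^ (m + 1) *
      ∫ t in (0 : ℝ)..1, sq t ^ m := mul_lt_mul_of_pos_right (hQ.trans_le h5) hZ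
  linarith only [hP, h1, h2, h6]

theorem pin_am (m : ℕ) : (∫ t in (0 : ℝ)..1, sq t ^ m) = Slope.am m := rfl

theorem pin_am_rec (m : ℕ) : Slope.am (m + 2) = ((m : ℝ) + 2) / ((m : ℝ) + 3) * Slope.am m := by
  rw [Slope.am_eq, Slope.am_eq, show m + 2 + 1 = (m + 1) + 2 by ring, Slope.J_zero_rec]
  push_cast
  ring_nf

theorem pin_am_zero : Slope.am 0 = 1 := by
  unfold Slope.am
  simp

theorem pin_am_one : Slope.am 1 = Real.pi / 4 := by
  have h := Slope.J_wallis 1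
  have e1 : Slope.J 1 0 = 1 := by
    rw [← Slope.am_eq 0, pin_am_zero]
  rw [e1] at h
  rw [Slope.am_eq 1]
  norm_num at h
  norm_num
  linarith

/-- slope bound, form `u s ≤ k x` -/
theorem IsTrans.pin_h4 (hm : 3 ≤ m) (hr : IsProf r) (h : IsTrans m r τ τ' T)
    (hx : x ∈ Ioo (0 : ℝ) 1) :
    uf τ τ' x * sq x ≤ (m : ℝ) / (2 * ((m : ℝ) + 1) * Slope.am m) * x := by
  have hτ := h.mem x hx
  have hs := sl_sq_pos (mem_neg hx)
  have hA := Slope.am_pos m
  have hI := sl_V_pos m hr (y := 0) ⟨le_rfl, zero_lt_one⟩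
  have hR : 0 < r (τ x) := hr.pos (τ x) ⟨by linarith only [hτ.1], hτ.2⟩
  have h1 := Slope.slope_two m hm (hr.conc.subset (Icc_subset_Icc (by norm_num) le_rfl)
    (convex_Icc 0 1)) (prof_anti hr) (fun t ht => prof_nn hr ht) hτ.1 hτ.2 hx.1 hx.2 (h.mass x hx)
  have h2 := h.eqn x hx
  rw [pin_am] at h2
  set k := (m : ℝ) / (2 * ((m : ℝ) + 1) * Slope.am m)
  change x * sq x ^ m * (∫ t in (0:ℝ)..1, r t ^ m) ≤ (1 + k * x / sq x) *
    (Slope.am m * τ x * r (τ x) ^ m) at h1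
  have h3 : (1 + uf τ τ' x) * (Slope.am m * τ x * r (τ x) ^ m) =
      x * sq x ^ m * (∫ t in (0:ℝ)..1, r t ^ m) := by
    rw [pin_E]
    have := hτ.1.ne'
    field_simp
    linear_combination x * h2
  rw [← h3] at h1
  have h4 := le_of_mul_le_mul_right h1 (by have := hτ.1; (clear * - hA this hR; positivity))
  have h5 : uf τ τ' x ≤ k * x / sq x := by linarith only [h4]
  rwa [le_div_iff₀ hs] at h5

/-- slope bound, form `u s ≤ 1` -/
theorem IsTrans.pin_slope_one (hr : IsProf r) (h : IsTrans m r τ τ' T)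
    (hx : x ∈ Ioo (0 : ℝ) 1) : uf τ τ' x * sq x ≤ 1 := by
  have hτ := h.mem x hx
  have hs := sl_sq_pos (mem_neg hx)
  have hA := Slope.am_pos m
  have hI := sl_V_pos m hr (y := 0) ⟨le_rfl, zero_lt_one⟩
  have hR : 0 < r (τ x) := hr.pos (τ x) ⟨by linarith [hτ.1], hτ.2⟩
  have h1 := Slope.slope_one m (hr.conc.subset (Icc_subset_Icc (by norm_num) le_rfl)
    (convex_Icc 0 1)) (prof_anti hr) (fun t ht => prof_nn hr ht) hτ.1 hτ.2 hx.1 hx.2 (h.mass x hx)
  have h2 := h.eqn x hx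
  rw [pin_am] at h2
  change x * sq x ^ m * (∫ t in (0:ℝ)..1, r t ^ m) ≤ (1 + 1 / sq x) *
    (Slope.am m * τ x * r (τ x) ^ m) at h1
  have h3 : (1 + uf τ τ' x) * (Slope.am m * τ x * r (τ x) ^ m) =
      x * sq x ^ m * (∫ t in (0:ℝ)..1, r t ^ m) := by
    rw [pin_E]
    have := hτ.1.ne'
    field_simp
    linear_combination x * h2
  rw [← h3] at h1
  have h4 := le_of_mul_le_mul_right h1 (by have := hτ.1; (clear * - hA this hR; positivity))
  have h5 : uf τ τ' x ≤ 1 / sq x := by linarith only [h4]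
  rwa [le_div_iff₀ hs] at h5

end

end Vale.Agent.P237.AllN
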