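import Vale.Agent.P237.AllN.Joint
import Vale.Agent.P237.AllN.KronEx
import Vale.Agent.P237.AllN.PcIn
import Vale.Agent.P237.AllN.PolyArith2

/-!
# P237, `m = 4`: joint line, kernel-checked
-/

open MeasureTheory Metric Set Module Filter Topology

namespace Vale.Agent.P237.AllN.M4

open PolyPos

/-- core of the joint line -/
theorem jl_core {r τ τ' T : ℝ → ℝ} (hr : IsProf r) (h : IsTrans 4 r τ τ' T)
    {x : ℝ} (hx : x ∈ Ioo (0 : ℝ) 1) {E ρ w k El om : ℝ} (hE : E * τ x = x * τ' x)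
    (hρ : τ x = x * ρ) (hom : om = 1 - τ x) (hk : 0 < k)
    (hA : 3 * k * (1 - x ^ 2) ^ 2 * (5 * om ^ 4 + 10 * (w * τ x) * om ^ 3 +
      10 * (w * τ x) ^ 2 * om ^ 2 + 5 * (w * τ x) ^ 3 * om + (w * τ x) ^ 4) ≤
      (15 - 10 * x ^ 2 + 3 * x ^ 4) * El * om ^ 4)
    (hB : 3 * k * (1 + x) ^ 2 * (om * (5 - 10 * w + 10 * w ^ 2 - 5 * w ^ 3 + w ^ 4)) ≤
      El * ρ * ((1 - x) * (8 + 9 * x + 3 * x ^ 2))) : k * E ≤ El := by
  have hτ := h.mem x hx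
  have hx0 := hx.1
  have hx1 : 0 < 1 - x := by linarith [hx.2]
  have hom0 : 0 < om := by rw [hom]; linarith only [hτ.2]
  have hρ0 : 0 < ρ := by
    have : 0 < x * ρ := by rw [← hρ]; exact hτ.1
    exact (mul_pos_iff_of_pos_left hx0).1 this
  rcases h.joint4 hr hx (w / om) hE with h1 | h1
  · have e1 : w / om * τ x = (w * τ x) / om := by ring
    rw [e1] at h1
    have h2 := mul_le_mul_of_nonneg_left h1 (by positivity : 0 ≤ k * om ^ 4)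
    have e2 : k * om ^ 4 * (3 * (1 - x ^ 2) ^ 2 * (5 + 10 * (w * τ x / om) +
        10 * (w * τ x / om) ^ 2 + 5 * (w * τ x / om) ^ 3 + (w * τ x / om) ^ 4)) =
        3 * k * (1 - x ^ 2) ^ 2 * (5 * om ^ 4 + 10 * (w * τ x) * om ^ 3 +
      10 * (w * τ x) ^ 2 * om ^ 2 + 5 * (w * τ x) ^ 3 * om + (w * τ x) ^ 4) := by
      (clear * - hom0 hk; field_simp)
    rw [e2] at h2
    have h3 := h2.trans hA
    have h4 : 0 < (15 - 10 * x ^ 2 + 3 * x ^ 4) * om ^ 4 := by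
      have : 0 < 15 - 10 * x ^ 2 + 3 * x ^ 4 := by nlinarith only [hx0, hx1]
      (clear * - this hom0; positivity)
    have h5 : (15 - 10 * x ^ 2 + 3 * x ^ 4) * om ^ 4 * (k * E) ≤
        (15 - 10 * x ^ 2 + 3 * x ^ 4) * om ^ 4 * El := by linarith only [hA, h2]
    exact le_of_mul_le_mul_left h5 h4
  · have e1 : w / om * (1 - τ x) = w := by rw [← hom]; (clear * - hom0; field_simp)
    rw [e1, ← hom, hρ] at h1
    have h2 : x * (E * ρ * ((1 - x) * (8 + 9 * x + 3 * x ^ 2))) ≤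
        x * (3 * (1 + x) ^ 2 * (om * (5 - 10 * w + 10 * w ^ 2 - 5 * w ^ 3 + w ^ 4))) := by
      linarith only [h1]
    have h3 := le_of_mul_le_mul_left h2 hx0
    have h4 := mul_le_mul_of_nonneg_left h3 hk.le
    have h5 : 0 < ρ * ((1 - x) * (8 + 9 * x + 3 * x ^ 2)) := by (clear * - hρ0 hx1 hx0; positivity)
    have h6 : ρ * ((1 - x) * (8 + 9 * x + 3 * x ^ 2)) * (k * E) ≤
        ρ * ((1 - x) * (8 + 9 * x + 3 * x ^ 2)) * El := by linarith only [hB, h4]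
    exact le_of_mul_le_mul_left h6 h5

/-! ### the polynomials -/

/-- integer constants -/
def en (n : ℤ) : Ex := Ex.c ⟨n, 0⟩

def jz : Ex := Ex.X * Ex.X
def jt : Ex := en 1 - jz
def jρ : Ex := en 1 + jt * Ex.Y
def jτ : Ex := Ex.X * jρ
def jom : Ex := en 1 - jτ
def jsq (a : Ex) : Ex := a * a
/-- `15 - 10 x² + 3 x⁴` -/
def jP : Ex := en 15 - en 10 * jz + en 3 * (jz * jz)
/-- `(1-x)(8+9x+3x²)` -/
def jQ : Ex := (en 1 - Ex.X) * (en 8 + en 9 * Ex.X + en 3 * jz)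

/-- inequality (A) -/
def jA (El k W : Ex) : Ex :=
  jP * (El * jsq (jsq jom)) -
    en 3 * (k * ((jt * jt) * (en 5 * jsq (jsq jom) + en 10 * ((W * jτ) * (jom * jsq jom)) +
      en 10 * (jsq (W * jτ) * jsq jom) + en 5 * ((W * jτ) * jsq (W * jτ) * jom) +
      jsq (jsq (W * jτ)))))

/-- inequality (B) -/
def jB (El k W : Ex) : Ex :=
  El * (jρ * jQ) - en 3 * (k * (jsq (en 1 + Ex.X) * (jom *
    (en 5 - en 10 * W + en 10 * jsq W - en 5 * (W * jsq W) + jsq (jsq W)))))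

/-- inequality (A) for `w = 0`, without the factor `(1-τ)⁴` -/
def jA0 (El k : Ex) : Ex := jP * El - en 15 * (k * (jt * jt))

theorem en_R (n : ℤ) (x y : ℝ) : (en n).R x y = n := by
  simp only [en, Ex.R, Fr.R, CharP.cast_eq_zero, zero_add, div_one]

section
variable (x y : ℝ)

theorem ev_jz : jz.R x y = x ^ 2 := by rw [jz, Ex.R_mul, Ex.R_X]; ring
theorem ev_jt : jt.R x y = 1 - x ^ 2 := by rw [jt, Ex.R_sub, en_R, ev_jz]; push_cast; ring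
theorem ev_jρ : jρ.R x y = 1 + (1 - x ^ 2) * y := by
  rw [jρ, Ex.R_add, en_R, Ex.R_mul, ev_jt, Ex.R_Y]; push_cast; ring
theorem ev_jτ : jτ.R x y = x * (1 + (1 - x ^ 2) * y) := by rw [jτ, Ex.R_mul, Ex.R_X, ev_jρ]
theorem ev_jom : jom.R x y = 1 - x * (1 + (1 - x ^ 2) * y) := by
  rw [jom, Ex.R_sub, en_R, ev_jτ]; push_cast; ring
theorem ev_jsq (a : Ex) : (jsq a).R x y = a.R x y ^ 2 := by rw [jsq, Ex.R_mul]; ring
theorem ev_jP : jP.R x y = 15 - 10 * x ^ 2 + 3 * x ^ 4 := by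
  simp only [jP, Ex.R_add, Ex.R_sub, Ex.R_mul, en_R, ev_jz]; push_cast; ring
theorem ev_jQ : jQ.R x y = (1 - x) * (8 + 9 * x + 3 * x ^ 2) := by
  simp only [jQ, Ex.R_add, Ex.R_sub, Ex.R_mul, en_R, ev_jz, Ex.R_X]; push_cast; ring

end

/-- conclusion from the polynomials -/
theorem jl_poly {r τ τ' T : ℝ → ℝ} (hr : IsProf r) (h : IsTrans 4 r τ τ' T)
    {x : ℝ} (hx : x ∈ Ioo (0 : ℝ) 1) {E y : ℝ} (hE : E * τ x = x * τ' x)
    (hρ : τ x = x * (1 + (1 - x ^ 2) * y)) {El k W : Ex} (hk : 0 < k.R x y)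
    (hA : 0 ≤ (jA El k W).R x y) (hB : 0 ≤ (jB El k W).R x y) :
    k.R x y * E ≤ El.R x y := by
  simp only [jA, Ex.R_sub, Ex.R_add, Ex.R_mul, ev_jsq, ev_jτ, ev_jom, ev_jt, ev_jP, en_R,
    ← hρ] at hA
  simp only [jB, Ex.R_sub, Ex.R_add, Ex.R_mul, ev_jsq, ev_jom, ev_jρ, ev_jQ, en_R,
    Ex.R_X, ← hρ] at hB
  push_cast at hA hB
  refine jl_core hr h hx hE hρ rfl hk (w := W.R x y) ?_ ?_
  · refine sub_nonneg.1 (hA.trans (le_of_eq ?_))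
    ring
  · refine sub_nonneg.1 (hB.trans (le_of_eq ?_))
    ring

/-- conclusion from the polynomials, `w = 0` -/
theorem jl_poly0 {r τ τ' T : ℝ → ℝ} (hr : IsProf r) (h : IsTrans 4 r τ τ' T)
    {x : ℝ} (hx : x ∈ Ioo (0 : ℝ) 1) {E y : ℝ} (hE : E * τ x = x * τ' x)
    (hρ : τ x = x * (1 + (1 - x ^ 2) * y)) {El k : Ex} (hk : 0 < k.R x y)
    (hA : 0 ≤ (jA0 El k).R x y) (hB : 0 ≤ (jB El k (en 0)).R x y) :
    k.R x y * E ≤ El.R x y := by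
  simp only [jA0, Ex.R_sub, Ex.R_mul, ev_jt, ev_jP, en_R] at hA
  simp only [jB, Ex.R_sub, Ex.R_add, Ex.R_mul, ev_jsq, ev_jom, ev_jρ, ev_jQ, en_R,
    Ex.R_X, ← hρ] at hB
  push_cast at hA hB
  refine jl_core hr h hx hE hρ rfl hk (w := 0) ?_ ?_
  · have := mul_nonneg hA (by (clear * -; positivity) : 0 ≤ (1 - τ x) ^ 4)
    refine sub_nonneg.1 (this.trans (le_of_eq ?_))
    ring
  · refine sub_nonneg.1 (hB.trans (le_of_eq ?_))
    ring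

/-! ### left -/

/-- `k` -/
def jkL : Ex := Ex.c ⟨18, 4⟩ - Ex.c ⟨107, 9⟩ * jz + Ex.c ⟨46, 4⟩ * (jz * jz)
/-- `k + j - t y` -/
def jEL : Ex := jkL + (Ex.c ⟨18, 24⟩ - Ex.c ⟨187, 199⟩ * jz) - jt * Ex.Y
/-- `w` -/
def jWL : Ex := Ex.c ⟨1, 499⟩ * (en 191 - en 319 * Ex.Y + en 175 * (Ex.Y * Ex.Y) -
  en 40 * Ex.X - en 40 * (Ex.X * Ex.Y))

/-! ### right -/

/-- `k` -/
def jkR : Ex := jt * (Ex.c ⟨15, 99⟩ + Ex.c ⟨3, 1⟩ * jt)
/-- `k + j - t y` -/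
def jER : Ex := jkR + jt * (Ex.c ⟨34, 99⟩ + Ex.c ⟨31, 99⟩ * jt) - jt * Ex.Y
/-- `w` -/
def jWR : Ex := Ex.c ⟨1, 99⟩ * (en 17 + en 62 * Ex.X - en 60 * jz -
  (en 40 + en 50 * Ex.X - en 40 * jz) * Ex.Y)

def jbs : ℕ := 2 ^ 512

theorem jL_low : tchkE jbs 14 4000 [[jA jEL jkL jWL, jB jEL jkL jWL]] (en 0) (.leaf 0)
    57 100 150 (-26) 0 100 = true := by (clear * -; decide +kernel)

theorem jL_high : tchkE jbs 14 4000 [[jA jEL jkL jWL, jB jEL jkL jWL]] (en 0)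
    (.sx (.sy (.leaf 0) (.leaf 0)) (.sy (.leaf 0) (.leaf 0)))
    57 100 150 0 83 100 = true := by (clear * -; decide +kernel)

theorem jR_low : tchkE jbs 14 4000 [[jA jER jkR jWR, jB jER jkR jWR],
    [jA0 jER jkR, jB jER jkR (en 0)]] (en 0)
    (.leaf 0) 20 27 30 (-29) 0 100 = true := by (clear * -; decide +kernel)

theorem jR_high : tchkE jbs 14 4000 [[jA jER jkR jWR, jB jER jkR jWR],
    [jA0 jER jkR, jB jER jkR (en 0)]] (en 0)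
    (.sx (.sy (.leaf 0) (.sx (.leaf 0) (.sy (.leaf 0) (.leaf 1)))) (.sy (.leaf 0) (.sx
      (.sy (.leaf 0) (.leaf 1)) (.sy (.sx (.leaf 0) (.sy (.leaf 0) (.leaf 1))) (.leaf 1)))))
    20 27 30 0 71 100 = true := by (clear * -; decide +kernel)

end Vale.Agent.P237.AllN.M4
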