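import Vale.Agent.P237.AllN.PcE

/-!
# P237, plain certificate (m ≥ 5): the checks of the five regions
-/

namespace Vale.Agent.P237.AllN

open PolyPos

/-- all data of the certificate -/
structure Dat where
  P : Pm
  /-- slope constant -/
  k : Fr
  /-- cubic constant of the bound of `ρ`, `u ≥ 0`, left -/
  cp : Fr
  /-- cubic constant of the bound of `ρ`, `u ≥ 0`, right -/
  q3 : Fr
  /-- linear constant of the bound of `ρ`, `u` large -/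
  q4 : Fr
  /-- bound of `-log x`, quadratic -/
  lx : Fr
  /-- bound of `-log x`, quartic -/
  c4 : Fr
  /-- tangent -/
  g0 : Fr
  g1 : Fr
  /-- exponent for the lower bound of `1 + u` on the left -/
  pp : ℕ
  /-- boxes: bounds of `x`, `v`, `s`, in thousandths -/
  X0 : ℕ
  V0 : ℕ
  S0 : ℕ
  K0 : ℕ
  /-- base of the encoding, width -/
  bs : ℕ
  wd : ℕ

/-- `r0`, `r1`, `r2`, `r1 + r2` -/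
def Dat.r0 (D : Dat) : Fr := ⟨(D.P.m : ℤ) - 1, 2 * D.P.m - 1⟩
def Dat.r1 (D : Dat) : Fr := ⟨(D.P.m : ℤ) ^ 2 - 1, 6 * D.P.m ^ 2 - 1⟩
def Dat.r2 (D : Dat) : Fr :=
  ⟨-(((D.P.m : ℤ) - 1) * (2 * D.P.m - 1) * (D.P.m + 1)), 24 * D.P.m ^ 3 - 1⟩

/-- powers -/
def expow (q : Ex) : ℕ → Ex
  | 0 => Ex.c ⟨1, 0⟩
  | n + 1 => q * expow q n

/-- equation lemmas of the match, generated once here -/
theorem expow_one286 (q : Ex) : expow q 1 = q * Ex.c ⟨1, 0⟩ := by simp only [expow]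

/-- `∑_{i<n} (1-z)^i` -/
def exgeo (z : Ex) : ℕ → Ex
  | 0 => Ex.c ⟨0, 0⟩
  | n + 1 => Ex.c ⟨1, 0⟩ + (Ex.c ⟨1, 0⟩ - z) * exgeo z n

/-- equation lemmas of the match, generated once here -/
theorem exgeo_one286 (z : Ex) : exgeo z 1 = Ex.c ⟨1, 0⟩ + (Ex.c ⟨1, 0⟩ - z) * Ex.c ⟨0, 0⟩ := by simp only [exgeo]

/-- lower bound of `1 - t/(1+s)` on the left -/
def qR (z : Ex) : Ex := Ex.c ⟨1, 1⟩ + Ex.c ⟨3, 7⟩ * z + Ex.c ⟨1, 15⟩ * (z * z)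

/-- constant of the correction on the left -/
def qC (z : Ex) : Ex := Ex.c ⟨2, 4⟩ + Ex.c ⟨13, 19⟩ * z + Ex.c ⟨22, 4⟩ * (z * (z * z))

/-- bound of `ρ`, region L+ -/
def Dat.rbLP (D : Dat) : Ex := Ex.c D.r0 + Ex.c D.r1 * (Ex.X * Ex.Y) -
  Ex.c D.cp * ((Ex.X * Ex.Y) * (Ex.X * Ex.Y))

/-- bound of `ρ`, region L- -/
def Dat.rbLM (D : Dat) : Ex := Ex.c D.r0 - Ex.c D.r1 * (Ex.X * Ex.Y) +
  Ex.c D.r2 * ((Ex.X * Ex.Y) * (Ex.X * Ex.Y))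

/-- bound of `ρ`, region R-, first piece -/
def Dat.rbT (D : Dat) : Ex := Ex.c D.r0 - Ex.c D.r1 * (Ex.c ⟨1, 0⟩ - Ex.Y) +
  Ex.c D.r2 * ((Ex.c ⟨1, 0⟩ - Ex.Y) * (Ex.c ⟨1, 0⟩ - Ex.Y))

/-- bound of `ρ`, region R-, tangent piece -/
def Dat.rbG (D : Dat) : Ex := Ex.c D.g0 + Ex.c D.g1 * Ex.Y

/-- bound of `ρ`, region R-, last piece -/
def Dat.rbC (D : Dat) : Ex := Ex.c D.P.c1 * Ex.Y

/-- bound of `ρ`, region R+, first piece -/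
def Dat.rbP (D : Dat) : Ex := Ex.c D.r0 + Ex.c D.r1 * (Ex.c ⟨1, 0⟩ - Ex.Y) +
  (Ex.c D.r1 + Ex.c D.r2) * ((Ex.c ⟨1, 0⟩ - Ex.Y) * (Ex.c ⟨1, 0⟩ - Ex.Y)) +
  Ex.c D.q3 * ((Ex.c ⟨1, 0⟩ - Ex.Y) * ((Ex.c ⟨1, 0⟩ - Ex.Y) * (Ex.c ⟨1, 0⟩ - Ex.Y)))

/-- bound of `ρ`, region R+, second piece -/
def Dat.rbQ (D : Dat) : Ex := Ex.c ⟨1, 0⟩ - Ex.c D.q4 * Ex.Y

/-- bound of `-log x / s²`, region R- -/
def Dat.ly (D : Dat) : Ex := Ex.c ⟨1, 1⟩ + Ex.c D.lx * (Ex.X * Ex.X)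

/-- bound of `-log x / s²`, region R+ -/
def Dat.lp (D : Dat) : Ex := Ex.c ⟨1, 1⟩ + Ex.c ⟨1, 3⟩ * (Ex.X * Ex.X) +
  Ex.c ⟨1, 5⟩ * ((Ex.X * Ex.X) * (Ex.X * Ex.X)) +
  Ex.c D.c4 * ((Ex.X * Ex.X) * ((Ex.X * Ex.X) * (Ex.X * Ex.X)))

/-- region polynomials (nonpositive on the region) -/
def Dat.loLP (D : Dat) : Ex :=
  (Ex.Y * Ex.Y * (Ex.c ⟨1, 0⟩ - Ex.X * Ex.X) - Ex.c D.k * Ex.c D.k)
def Dat.loLM (D : Dat) : Ex := (Ex.Y - exgeo Ex.X D.pp)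
def Dat.loRM (_D : Dat) (ex : ℕ) : Ex := (expow Ex.X ex - Ex.Y)
def Dat.loRP (D : Dat) : Ex :=
  ((Ex.c ⟨1, 0⟩ - Ex.Y) * (Ex.c ⟨1, 0⟩ - Ex.Y) * (Ex.X * Ex.X) -
    Ex.Y * Ex.Y * (Ex.c D.k * Ex.c D.k) * (Ex.c ⟨1, 0⟩ - Ex.X * Ex.X))

/-- checks -/
noncomputable def Dat.kLP (D : Dat) (t : PT) : Bool :=
  tchkE D.bs D.wd 4000 [psdE (entLP Ex.c D.P (qR (Ex.X * Ex.X)) (qC (Ex.X * Ex.X)) D.rbLP Ex.X Ex.Y)] D.loLP t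
    0 D.X0 1000 0 D.V0 1000

noncomputable def Dat.kLM (D : Dat) (t : PT) : Bool :=
  tchkE D.bs D.wd 4000 [psdE (entLM Ex.c D.P (Ex.c ⟨1, 0⟩) (qR Ex.X) (qC Ex.X) D.rbLM Ex.X Ex.Y)] D.loLM t
    0 3 (D.P.m + 2) 0 D.pp 1

noncomputable def Dat.kRM (D : Dat) (rb : Ex) (ex : ℕ) (s0 s1 e0 e1 : ℤ) (t : PT) : Bool :=
  tchkE D.bs D.wd 4000 [psdE (entRM Ex.c D.P (Ex.c ⟨1, 0⟩) D.ly (Ex.c ⟨2, 0⟩) rb Ex.X Ex.Y)] (D.loRM ex) t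
    s0 s1 1000 e0 e1 1000

noncomputable def Dat.kRP1 (D : Dat) (t : PT) : Bool :=
  tchkE D.bs D.wd 4000 [psdE (entRP Ex.c D.P (Ex.c ⟨3, 9⟩) D.lp (Ex.c ⟨3, 1⟩) D.rbP Ex.X Ex.Y),
    psdE (entRP Ex.c D.P (Ex.c ⟨9, 9⟩) D.lp (Ex.c ⟨3, 1⟩) D.rbP Ex.X Ex.Y)] D.loRP t
    200 D.S0 1000 35 100 100

noncomputable def Dat.kRP2 (D : Dat) (t : PT) : Bool :=
  tchkE D.bs D.wd 4000 [psdE (entRP Ex.c D.P (Ex.c ⟨9, 9⟩) D.lp (Ex.c ⟨3, 1⟩) D.rbQ Ex.X Ex.Y)] D.loRP t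
    200 D.S0 1000 0 35 100

noncomputable def Dat.kRS (D : Dat) (t : PT) : Bool :=
  tchkE D.bs D.wd 4000 [psdE (entRS Ex.c D.P (Ex.c ⟨9, 9⟩) D.lp (Ex.c ⟨3, 1⟩) (Ex.c D.r0) Ex.X Ex.Y),
    psdE (entRS Ex.c D.P (Ex.c ⟨6, 9⟩) D.lp (Ex.c ⟨3, 1⟩) (Ex.c D.r0) Ex.X Ex.Y)] (Ex.c ⟨0, 0⟩) t
    0 200 1000 0 D.K0 1000

end Vale.Agent.P237.AllN
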