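import Vale.Agent.P237.AllN.M4E
import Vale.Agent.P237.AllN.PcK

/-!
# P237, plain certificate for `m = 4`: the kernel checks
-/

namespace Vale.Agent.P237.AllN.M4

open PolyPos

/-- the constants -/
def P4 : Pm where
  m := 4
  k1 := ⟨42, 24⟩
  a1 := ⟨41, 99⟩
  a2 := ⟨11, 199⟩
  a3 := ⟨31, 99⟩
  a4 := ⟨7, 24⟩
  th := ⟨3, 19⟩
  c2 := ⟨13, 249⟩
  eps := ⟨1, 999⟩
  e0 := ⟨1, 999999⟩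

/-- the pole, `4/9` -/
def cx : Fr := ⟨4, 8⟩

/-- constant of the correction, as a function of `z` -/
def qC4 (z : Ex) : Ex := Ex.c ⟨9, 19⟩ + Ex.c ⟨11, 19⟩ * z + z * z

/-- bounds of `ρ` -/
def rbA : Ex := Ex.c ⟨3, 7⟩ + Ex.c ⟨5, 31⟩ * (Ex.X * Ex.Y) -
  Ex.c ⟨1, 19⟩ * ((Ex.X * Ex.Y) * (Ex.X * Ex.Y))
def rbL : Ex := Ex.c ⟨3, 7⟩ - Ex.c ⟨5, 31⟩ * (Ex.X * Ex.Y) -
  Ex.c ⟨35, 511⟩ * ((Ex.X * Ex.Y) * (Ex.X * Ex.Y))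
def rbR : Ex := Ex.c ⟨3, 7⟩ - Ex.c ⟨5, 31⟩ * (Ex.c ⟨1, 0⟩ - Ex.Y) -
  Ex.c ⟨35, 511⟩ * ((Ex.c ⟨1, 0⟩ - Ex.Y) * (Ex.c ⟨1, 0⟩ - Ex.Y))
def rbD : Ex := Ex.c ⟨3, 0⟩ * Ex.Y
def rbE : Ex := Ex.c ⟨3, 7⟩ + Ex.c ⟨5, 31⟩ * (Ex.c ⟨1, 0⟩ - Ex.Y) +
  Ex.c ⟨4, 24⟩ * ((Ex.c ⟨1, 0⟩ - Ex.Y) * (Ex.c ⟨1, 0⟩ - Ex.Y))
def rbG : Ex := Ex.c ⟨3, 7⟩ + Ex.c ⟨5, 7⟩ * (Ex.c ⟨1, 0⟩ - Ex.Y)

/-- joint bound on the left -/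
def lyJ : Ex := Ex.c ⟨18, 24⟩ - Ex.c ⟨187, 199⟩ * (Ex.X * Ex.X) -
  (Ex.c ⟨18, 4⟩ - Ex.c ⟨107, 9⟩ * (Ex.X * Ex.X) +
    Ex.c ⟨46, 4⟩ * ((Ex.X * Ex.X) * (Ex.X * Ex.X))) * (Ex.X * Ex.Y)

/-- window bound of `l / t` -/
def lyW : Ex := Ex.c ⟨1, 1⟩ + Ex.c ⟨1, 3⟩ * (Ex.X * Ex.X) -
  Ex.c ⟨1, 9⟩ * ((Ex.X * Ex.X) * (Ex.X * Ex.X))

/-- polynomial bound of `-log x / t` -/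
def lpW (c : Fr) : Ex := Ex.c ⟨1, 1⟩ + Ex.c ⟨1, 3⟩ * (Ex.X * Ex.X) +
  Ex.c ⟨1, 5⟩ * ((Ex.X * Ex.X) * (Ex.X * Ex.X)) +
  Ex.c c * ((Ex.X * Ex.X) * ((Ex.X * Ex.X) * (Ex.X * Ex.X)))

/-- joint bound on the right, `jj - kk u` -/
def jj4 : Ex := Ex.c ⟨34, 99⟩ + Ex.c ⟨31, 99⟩ * (Ex.X * Ex.X)
def kk4 : Ex := Ex.c ⟨15, 99⟩ + Ex.c ⟨3, 1⟩ * (Ex.X * Ex.X)

/-- region expressions -/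
def loLP : Ex := Ex.Y * Ex.Y * (Ex.c ⟨1, 0⟩ - Ex.X * Ex.X) - Ex.c ⟨9, 15⟩
def loRM : Ex := Ex.c ⟨15, 0⟩ * ((Ex.X * Ex.X) * (Ex.X * Ex.X)) -
  Ex.Y * (Ex.c ⟨8, 0⟩ + Ex.c ⟨4, 0⟩ * (Ex.X * Ex.X) +
    Ex.c ⟨3, 0⟩ * ((Ex.X * Ex.X) * (Ex.X * Ex.X)))
def loRP : Ex := (Ex.c ⟨1, 0⟩ - Ex.Y) * (Ex.c ⟨1, 0⟩ - Ex.Y) * (Ex.X * Ex.X) -
  Ex.Y * Ex.Y * Ex.c ⟨9, 15⟩ * (Ex.c ⟨1, 0⟩ - Ex.X * Ex.X)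

def fLP1 : List Ex :=
  psdE (entLP Ex.c P4 cx (Ex.c ⟨0, 0⟩) (Ex.c ⟨0, 0⟩) (qR (Ex.X * Ex.X)) (qC4 (Ex.X * Ex.X)) rbA
    Ex.X Ex.Y)
def fLP2 : List Ex :=
  psdE (entLP Ex.c P4 cx (Ex.c ⟨3, 9⟩) lyJ (qR (Ex.X * Ex.X)) (qC4 (Ex.X * Ex.X)) rbA Ex.X Ex.Y)
def fLM : List Ex := psdE (entLM Ex.c P4 cx (qR Ex.X) (qC4 Ex.X) rbL Ex.X Ex.Y)
def fRM (kap : Fr) (rb : Ex) : List Ex :=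
  psdE (entRM Ex.c P4 cx (Ex.c kap) lyW (qC4 (Ex.c ⟨1, 0⟩ - Ex.X * Ex.X)) rb Ex.X Ex.Y)
def fRJ (kap : Fr) (rb : Ex) : List Ex :=
  psdE (entRJ Ex.c P4 cx (Ex.c kap) jj4 kk4 (qC4 (Ex.c ⟨1, 0⟩ - Ex.X * Ex.X)) rb Ex.X Ex.Y)
def fRP (kap : Fr) (c : Fr) (rb : Ex) : List Ex :=
  psdE (entRP Ex.c P4 cx (Ex.c kap) (lpW c) (qC4 (Ex.c ⟨1, 0⟩ - Ex.X * Ex.X)) rb Ex.X Ex.Y)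
def fRS (kap : Fr) (c : Fr) : List Ex :=
  psdE (entRS Ex.c P4 cx (Ex.c kap) (lpW c) (qC4 (Ex.c ⟨1, 0⟩ - Ex.X * Ex.X)) (Ex.c ⟨3, 7⟩)
    Ex.X Ex.Y)

def bs : ℕ := 2 ^ 576

theorem kLP1 : tchkE bs 14 4000 [fLP1] loLP
    (.sx (.sy (.leaf 0) (.sx (.sy (.leaf 0) (.sx (.sy (.leaf 0) (.sx (.sy (.leaf 0) .out)
      (.leaf 0))) (.leaf 0))) (.leaf 0))) (.leaf 0)) 0 38 100 0 82 100 = true := by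
  decide +kernel

theorem kLP2 : tchkE bs 14 4000 [fLP2] loLP (.leaf 0) 57 100 150 0 101 100 = true := by
  decide +kernel

theorem kLM : tchkE bs 14 4000 [fLM] (Ex.c ⟨0, 0⟩) (.leaf 0) 0 4 9 0 135 100 = true := by
  decide +kernel

theorem kRM1 : tchkE bs 14 4000 [fRM ⟨1, 1⟩ rbR, fRM ⟨3, 3⟩ rbR, fRM ⟨1, 0⟩ rbR,
    fRM ⟨5, 3⟩ rbR, fRM ⟨3, 1⟩ rbR] loRM
    (.sx (.leaf 2) (.sy (.sx (.sy (.sx (.leaf 2) (.sy (.sx (.sy (.sx (.sy (.sx (.leaf 2) .out)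
      (.leaf 2)) (.sy .out (.leaf 2))) (.leaf 2)) (.sy .out (.leaf 2))) (.leaf 2))) (.leaf 2))
      (.sy (.sx (.sy (.sx (.sy .out (.sx (.sy .out (.leaf 2)) .out)) .out) (.leaf 2))
      (.sy .out (.sx (.sy .out (.leaf 2)) (.leaf 3)))) (.leaf 1))) (.leaf 0)))
    0 746 1000 1 20 20 = true := by
  decide +kernel

theorem kRM2 : tchkE bs 14 4000 [fRM ⟨1, 0⟩ rbD] loRM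
    (.sx (.leaf 0) (.sy .out (.sx (.sy (.leaf 0) (.sx (.leaf 0) .out)) .out)))
    0 746 1000 0 1 20 = true := by
  decide +kernel

theorem kRJ : tchkE bs 14 4000 [fRJ ⟨3, 9⟩ rbE, fRJ ⟨6, 9⟩ rbE, fRJ ⟨9, 9⟩ rbE] (Ex.c ⟨0, 0⟩)
    (.sx (.sy (.leaf 2) (.sx (.leaf 1) (.sy (.sx (.leaf 1) (.leaf 1)) (.leaf 0))))
      (.sy (.leaf 2) (.leaf 1)))
    435 746 1000 35 100 100 = true := by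
  decide +kernel

theorem kRO : tchkE bs 14 4000 [] loRP .out 435 746 1000 0 35 100 = true := by
  decide +kernel

theorem kRP1 : tchkE bs 14 4000 [fRP ⟨9, 9⟩ ⟨231, 999⟩ rbE] (Ex.c ⟨0, 0⟩) (.leaf 0)
    0 436 1000 35 100 100 = true := by
  decide +kernel

theorem kRP2 : tchkE bs 14 4000 [fRP ⟨9, 9⟩ ⟨231, 999⟩ rbG, fRP ⟨11, 9⟩ ⟨231, 999⟩ rbG] loRP
    (.sx (.sy .out (.leaf 0)) (.sy .out (.leaf 1)))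
    200 436 1000 0 35 100 = true := by
  decide +kernel

theorem kRS : tchkE bs 14 4000 [fRS ⟨6, 9⟩ ⟨231, 999⟩] (Ex.c ⟨0, 0⟩) (.leaf 0)
    0 2 10 0 75 100 = true := by
  decide +kernel

end Vale.Agent.P237.AllN.M4
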