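import Vale.Agent.P237.AllN.PcCorr
import Vale.Agent.P237.AllN.Brid1

/-!
# P237, all dimensions: the correction term in terms of `sq`, `bg` (input (h8))
-/

set_option linter.all false

namespace Vale.Agent.P237.AllN.Corr

open PolyPos Real

/-! ## the statements in terms of `sq`, `bg` -/

theorem Fc_bg {x l : ℝ} (hx0 : 0 < x) (hx1 : x < 1) :
    sq x * (bg (x * exp l) - bg x) + x ^ 2 * l / (1 + sq x) ^ 2 = Fc (sq x) (sq (x * exp l)) l := by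
  have h0 : 0 ≤ sq x := Real.sqrt_nonneg _
  have h1 : sq x ^ 2 = 1 - x ^ 2 := Real.sq_sqrt (by nlinarith)
  have h2 : x ^ 2 * l / (1 + sq x) ^ 2 = (1 - sq x) / (1 + sq x) * l := by
    have : x ^ 2 = (1 - sq x) * (1 + sq x) := by linarith
    rw [this]
    (clear * - h0; field_simp)
  rw [h2]
  rfl

theorem sq_facts {x l : ℝ} (hx0 : 0 < x) (hx1 : x < 1) (h : x * exp l ≤ 1) :
    0 < sq x ∧ sq x < 1 ∧ x ^ 2 = 1 - sq x ^ 2 ∧ 0 ≤ sq (x * exp l) ∧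
      sq (x * exp l) ^ 2 = 1 - x ^ 2 * exp (2 * l) := by
  have h1 : sq x ^ 2 = 1 - x ^ 2 := Real.sq_sqrt (by nlinarith)
  have h2 : 0 < sq x := Real.sqrt_pos.2 (by nlinarith only [hx1, hx0])
  have h3 : 0 < x * exp l := by positivity
  refine ⟨h2, ?_, by linarith only [h1], Real.sqrt_nonneg _, ?_⟩
  · nlinarith only [h1, hx0]
  · have e : exp (2 * l) = exp l ^ 2 := by rw [← exp_nat_mul]; norm_num
    rw [sq, Real.sq_sqrt (by nlinarith only [h, h3]), e]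
    ring

/-- **(A)** `x² ≤ 3/7`, `l ≤ s² (31/50 + 7/50 x²)` (also negative `l`) -/
theorem corr_A {x l : ℝ} (hx0 : 0 < x) (hx : x ^ 2 ≤ 3 / 7) (h1 : x * exp l ≤ 1)
    (hl : l ≤ sq x ^ 2 * (31 / 50 + 7 / 50 * x ^ 2)) :
    -((2 / 5 + 13 * x ^ 2 / 20 + 22 * (x ^ 2) ^ 3 / 5) * (x ^ 2 / sq x ^ 2)) * l ^ 2 ≤
      sq x * (bg (x * exp l) - bg x) + x ^ 2 * l / (1 + sq x) ^ 2 := by
  have hx1 : x < 1 := by nlinarith only [hx]
  obtain ⟨a1, a2, a3, a4, a5⟩ := sq_facts hx0 hx1 h1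
  have h := corrA a1 a2 a3 hx a4 a5 (l := l) (by rw [show (1 : ℝ) - x ^ 2 = sq x ^ 2 by linarith only [a3]]; exact hl)
  rw [Fc_bg hx0 hx1, neg_mul]
  exact h

/-- **(B)** `3/7 ≤ x²` -/
theorem corr_B {x l : ℝ} (hx0 : 0 < x) (hx1 : x < 1) (hx : 3 / 7 ≤ x ^ 2) (h1 : x * exp l ≤ 1) :
    -(2 * (x ^ 2 / sq x ^ 2)) * l ^ 2 ≤
      sq x * (bg (x * exp l) - bg x) + x ^ 2 * l / (1 + sq x) ^ 2 := by
  obtain ⟨a1, a2, a3, a4, a5⟩ := sq_facts hx0 hx1 h1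
  have h := corrB a1 a2 a3 hx a4 a5 (l := l)
  rw [Fc_bg hx0 hx1, neg_mul]
  exact h

/-- **(C)** `3/7 ≤ x²`, `(1 + s²/(16-15 s²)) x e^l ≤ 1` -/
theorem corr_C {x l : ℝ} (hx0 : 0 < x) (hx1 : x < 1) (hx : 3 / 7 ≤ x ^ 2)
    (hτ : (1 + sq x ^ 2 / (16 - 15 * sq x ^ 2)) * (x * exp l) ≤ 1) :
    -(3 / 2 * (x ^ 2 / sq x ^ 2)) * l ^ 2 ≤
      sq x * (bg (x * exp l) - bg x) + x ^ 2 * l / (1 + sq x) ^ 2 := by
  have hs1 : sq x ^ 2 = 1 - x ^ 2 := Real.sq_sqrt (by (clear * - hx1 hx0; nlinarith))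
  have hq : 0 ≤ sq x ^ 2 / (16 - 15 * sq x ^ 2) := by
    apply div_nonneg (by positivity); nlinarith only [hs1]
  have hxl : 0 < x * exp l := by positivity
  have h1 : x * exp l ≤ 1 := by nlinarith only [hτ, hq]
  obtain ⟨a1, a2, a3, a4, a5⟩ := sq_facts hx0 hx1 h1
  have h := corrC a1 a2 a3 hx a4 a5 (l := l) (by
    have e : exp (2 * l) = exp l ^ 2 := by rw [← exp_nat_mul]; norm_num
    rw [e]
    have h3 : 0 ≤ (1 + sq x ^ 2 / (16 - 15 * sq x ^ 2)) * (x * exp l) := by (clear * - hq hx0; positivity)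
    calc (1 + sq x ^ 2 / (16 - 15 * sq x ^ 2)) ^ 2 * (x ^ 2 * exp l ^ 2) =
          ((1 + sq x ^ 2 / (16 - 15 * sq x ^ 2)) * (x * exp l)) ^ 2 := by ring
      _ ≤ 1 := by nlinarith only [hτ, h3])
  rw [Fc_bg hx0 hx1, neg_mul]
  exact h

end Vale.Agent.P237.AllN.Corr
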