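import Vale.Agent.P237.AllN.Brid2

/-!
# P237, plain certificate (m ≥ 5): the inputs of the pointwise inequality
-/

open Set

namespace Vale.Agent.P237.AllN

/-- The information on `(x, l, u, λ)` used by the pointwise inequality; `l = log (τ x / x)`,
`u = x τ' x / τ x - 1`, `lam = l(x₀)`, `x₀² = 3/(m+2)`. -/
structure PcIn (m : ℕ) (k lamL x l u lam : ℝ) : Prop where
  hx : x ∈ Ioo (0 : ℝ) 1
  hu : 0 < 1 + u
  tau1 : x * Real.exp l ≤ 1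
  sgn : l ≤ (1 - x ^ 2) * (31 / 50 + 7 / 50 * x ^ 2)
  Es : sq x ^ m ≤ 1 + u
  E4 : m = 5 → x ^ 2 ≤ 14 / 25 → sq x ^ 4 ≤ 1 + u
  uk : u * sq x ≤ k * x
  tail : (1 + (1 + u) * (sq x ^ 2 / (((m : ℝ) + 2) - ((m : ℝ) + 1) * sq x ^ 2))) *
    (x * Real.exp l) ≤ 1
  llo : -(9 / 25) * (m : ℝ) ≤ l
  lamlo : lamL ≤ lam
  lamhi : lam ≤ (1 - 3 / ((m : ℝ) + 2)) * (31 / 50 + 7 / 50 * (3 / ((m : ℝ) + 2)))

end Vale.Agent.P237.AllN
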