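import Vale.Agent.P237.AllN.PcQ
import Vale.Agent.P237.AllN.KronEx

/-!
# P237, plain certificate (m ≥ 5): the matrix entries on the five regions, as functions of the
parameters, for polynomials and for reals
-/

namespace Vale.Agent.P237.AllN

open PolyPos

/-- parameters of the certificate -/
structure Pm where
  m : ℕ
  k1 : Fr
  a1 : Fr
  a2 : Fr
  a3 : Fr
  a4 : Fr
  th : Fr
  c2 : Fr
  eps : Fr
  e0 : Fr

/-- `m`, `m - 1`, `m - 3`, `1/m`, `(m-1)/(m+1)`, `3/(m+2)`, `(m-1)/(2m)` -/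
def Pm.cm (P : Pm) : Fr := ⟨P.m, 0⟩
def Pm.c1 (P : Pm) : Fr := ⟨(P.m : ℤ) - 1, 0⟩
def Pm.c3 (P : Pm) : Fr := ⟨(P.m : ℤ) - 3, 0⟩
def Pm.ci (P : Pm) : Fr := ⟨1, P.m - 1⟩
def Pm.cg (P : Pm) : Fr := ⟨(P.m : ℤ) - 1, P.m⟩
def Pm.cx (P : Pm) : Fr := ⟨3, P.m + 1⟩
def Pm.ch (P : Pm) : Fr := ⟨(P.m : ℤ) - 1, 2 * P.m - 1⟩

theorem Pm.cm_R (P : Pm) : P.cm.R = P.m := by simp [Pm.cm, Fr.R]
theorem Pm.c1_R (P : Pm) : P.c1.R = P.m - 1 := by simp [Pm.c1, Fr.R]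
theorem Pm.c3_R (P : Pm) : P.c3.R = P.m - 3 := by simp [Pm.c3, Fr.R]
theorem Pm.cg_R (P : Pm) : P.cg.R = ((P.m : ℝ) - 1) / (P.m + 1) := by simp [Pm.cg, Fr.R]
theorem Pm.cx_R (P : Pm) : P.cx.R = 3 / ((P.m : ℝ) + 2) := by
  simp only [Pm.cx, Fr.R]
  push_cast
  congr 1
  ring
theorem Pm.ci_R (P : Pm) (h : 0 < P.m) : P.ci.R = 1 / (P.m : ℝ) := by
  have h1 : ((P.m - 1 : ℕ) : ℝ) + 1 = P.m := by
    have : P.m - 1 + 1 = P.m := by omega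
    exact_mod_cast this
  simp only [Pm.ci, Fr.R, h1]
  push_cast
  rfl
theorem Pm.ch_R (P : Pm) (h : 0 < P.m) : P.ch.R = ((P.m : ℝ) - 1) / (2 * P.m) := by
  have h1 : ((2 * P.m - 1 : ℕ) : ℝ) + 1 = 2 * P.m := by
    have : 2 * P.m - 1 + 1 = 2 * P.m := by omega
    exact_mod_cast this
  simp only [Pm.ch, Fr.R, h1]
  push_cast
  rfl

theorem Fr.R1 : Fr.R ⟨1, 0⟩ = 1 := by simp [Fr.R]
theorem Fr.R2 : Fr.R ⟨2, 0⟩ = 2 := by simp [Fr.R]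
theorem Fr.R3 : Fr.R ⟨3, 0⟩ = 3 := by simp [Fr.R]
theorem Fr.R12 : Fr.R ⟨1, 1⟩ = 1 / 2 := by simp [Fr.R]; norm_num
theorem Fr.Rm12 : Fr.R ⟨-1, 1⟩ = -(1 / 2) := by simp [Fr.R]; norm_num
theorem Fr.R32 : Fr.R ⟨3, 1⟩ = 3 / 2 := by simp [Fr.R]; norm_num
theorem Fr.R92 : Fr.R ⟨9, 1⟩ = 9 / 2 := by simp [Fr.R]; norm_num

section

variable {α : Type} [Add α] [Sub α] [Mul α]

/-- entries on the left, `u ≥ 0`; variables `x`, `v = u/x` -/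
def entLP (k : Fr → α) (P : Pm) (R C rb x v : α) : Ent α :=
  let one := k ⟨1, 0⟩
  let z := x * x
  let t := one - z
  let t2 := t * t
  let E := one + x * v
  let de := k P.cx - z
  let a0 := k P.th * k P.ch - k ⟨9, 1⟩ * k P.cg - k P.cg * C
  let S := k ⟨3, 0⟩ * k P.cg * z + k P.ci * (rb * t)
  let Qll := E * (t * a0 + k ⟨3, 1⟩ * k P.cg * k P.c3 * z) - k P.c2 * (rb * (v * v) * t2)
  let Qlk := k P.c1 * k P.k1 * (t * E) - k P.k1 * k P.ci * (rb * (v * v) * t2)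
  let A := k P.a1 + k P.a2 * de
  { a := t2 * (k ⟨2, 0⟩ * k P.cg * R - rb - k P.eps)
    b := de * de * Qll + E * t2 * (k ⟨2, 0⟩ * k P.a1 * k P.cx + k ⟨2, 0⟩ * k P.a2 * (de * de)) +
      E * t * (t - k P.c1 * z) * (de * A)
    c := Qll + Qlk
    d := k ⟨1, 1⟩ * (k ⟨2, 0⟩ * x * t2 * E * A - de * (t * v * S))
    f := k ⟨1, 1⟩ * (k P.a3 * x * t2 * E - t * v * S - k P.k1 * (t2 * rb * v))
    g := k ⟨1, 1⟩ * (de * (k ⟨2, 0⟩ * Qll + Qlk) +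
      de * k P.a3 * E * t * (k ⟨3, 0⟩ * t - k P.c1 * z))
    W := one
    e := k P.e0 * t2 }

/-- entries on the left, `u ≤ 0`; variables `z = x²`, `n1 = -u/z` -/
def entLM (k : Fr → α) (P : Pm) (kap R C rb z n1 : α) : Ent α :=
  let one := k ⟨1, 0⟩
  let t := one - z
  let t2 := t * t
  let n := z * n1
  let E := one - n
  let de := k P.cx - z
  let a0 := k P.th * k P.ch - k ⟨9, 1⟩ * k P.cg - k P.cg * C
  let S := k ⟨3, 0⟩ * k P.cg * z + k P.ci * (rb * t)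
  let Qu := n1 * (one - kap * n) * (S * t)
  let Qll := E * (t * a0 + k ⟨3, 1⟩ * k P.cg * k P.c3 * z) - k P.c2 * (rb * (z * (n1 * n1)) * t2)
  let Qlk := k P.c1 * k P.k1 * (t * E) - k P.k1 * k P.ci * (rb * (z * (n1 * n1)) * t2)
  let A := k P.a1 + k P.a2 * de
  { a := t2 * (k ⟨2, 0⟩ * k P.cg * R - rb - k P.eps) -
      kap * (n * S) * t2 * (k ⟨31, 49⟩ + k ⟨7, 49⟩ * z)
    b := de * de * Qll + E * t2 * (k ⟨2, 0⟩ * k P.a1 * k P.cx + k ⟨2, 0⟩ * k P.a2 * (de * de)) +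
      E * t * (t - k P.c1 * z) * (de * A)
    c := Qll + Qlk
    d := k ⟨1, 1⟩ * (de * Qu + k ⟨2, 0⟩ * t2 * E * A)
    f := k ⟨1, 1⟩ * (Qu + k P.k1 * (t2 * rb * n1) + k P.a3 * t2 * E)
    g := k ⟨1, 1⟩ * (de * (k ⟨2, 0⟩ * Qll + Qlk) +
      de * k P.a3 * E * t * (k ⟨3, 0⟩ * t - k P.c1 * z))
    W := z
    e := k P.e0 * t2 }

/-- entries on the right, `u ≤ 0`; variables `s`, `E = 1 + u` -/
def entRM (k : Fr → α) (P : Pm) (kap ly C rh s E : α) : Ent α :=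
  let one := k ⟨1, 0⟩
  let t := s * s
  let z := one - t
  let n := one - E
  let de := z - k P.cx
  let a0 := k P.th * k P.ch - k ⟨9, 1⟩ * k P.cg - k P.cg * C
  let S := k ⟨3, 0⟩ * k P.cg * z + k P.ci * (rh * t)
  let Qu := n * (one - kap * n) * S
  let Qll := E * (z * t * a0 + k ⟨3, 1⟩ * k P.cg * k P.c3 * (z * z)) -
    k P.c2 * (rh * (n * n) * (t * t))
  let Qlk := E * (k P.c1 * k P.k1) * (z * t) - k P.k1 * k P.ci * (rh * (n * n) * (t * t))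
  { a := k ⟨2, 0⟩ * k P.cg * (one + s - t) - (one + s) * (rh + kap * (n * S) * ly + k P.eps)
    b := de * de * Qll + E * (k ⟨2, 0⟩ * k P.a4 * k P.cx * (z * (t * t)) -
      k P.a4 * (z * de) * t * (t - k P.c1 * z))
    c := Qll + Qlk
    d := k ⟨1, 1⟩ * (de * Qu - k ⟨2, 0⟩ * k P.a4 * (z * t) * E)
    f := k ⟨1, 1⟩ * (Qu + k P.k1 * (rh * n * t))
    g := k ⟨1, 1⟩ * de * (k ⟨2, 0⟩ * Qll + Qlk)
    W := one + s
    e := k P.e0 }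

/-- entries on the right, `u ≥ 0`; variables `s`, `β = 1/(1 + u)`; `lp` = polynomial bound of
`-log x / s²` -/
def entRP (k : Fr → α) (P : Pm) (kap lp C rh s be : α) : Ent α :=
  let one := k ⟨1, 0⟩
  let t := s * s
  let z := one - t
  let n := one - be
  let de := z - k P.cx
  let a0 := k P.th * k P.ch - k ⟨9, 1⟩ * k P.cg - k P.cg * C
  let S := k ⟨3, 0⟩ * k P.cg * z + k P.ci * (rh * t)
  let G := k P.cm + k ⟨2, 0⟩ - (k P.cm + one) * t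
  let D2 := k ⟨2, 0⟩ * be * G + t
  let lt := lp * D2 - k ⟨2, 0⟩
  let Qu := (one - kap) * n * S
  let Qll := be * (z * t * a0 + k ⟨3, 1⟩ * k P.cg * k P.c3 * (z * z)) -
    k P.c2 * (rh * (n * n) * (t * t))
  let Qlk := be * (k P.c1 * k P.k1) * (z * t) - k P.k1 * k P.ci * (rh * (n * n) * (t * t))
  { a := D2 * (k ⟨2, 0⟩ * k P.cg * (one + s - t) - (one + s) * (rh + k P.eps)) -
      (one + s) * kap * S * lt
    b := de * de * Qll + be * (k ⟨2, 0⟩ * k P.a4 * k P.cx * (z * (t * t)) -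
      k P.a4 * (z * de) * t * (t - k P.c1 * z))
    c := Qll + Qlk
    d := k ⟨-1, 1⟩ * (de * Qu + k ⟨2, 0⟩ * k P.a4 * (z * t))
    f := k ⟨-1, 1⟩ * (Qu + k P.k1 * (rh * n * t))
    g := k ⟨1, 1⟩ * de * (k ⟨2, 0⟩ * Qll + Qlk)
    W := D2 * (one + s)
    e := k P.e0 * D2 }

/-- entries on the right, `u ≥ 0`, near `x = 1`; variables `s`, `v = u s` (`q = s + v`),
`ρ` bounded by `(r0 s + v) / (s + v)` -/
def entRS (k : Fr → α) (P : Pm) (kap lp C r0 s v : α) : Ent α :=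
  let one := k ⟨1, 0⟩
  let t := s * s
  let z := one - t
  let de := z - k P.cx
  let q := s + v
  let rq := r0 * s + v
  let a0 := k P.th * k P.ch - k ⟨9, 1⟩ * k P.cg - k P.cg * C
  let Sq := k ⟨3, 0⟩ * k P.cg * (z * q) + k P.ci * (rq * t)
  let G := k P.cm + k ⟨2, 0⟩ - (k P.cm + one) * t
  let D2 := k ⟨2, 0⟩ * s * G + t * q
  let lt := lp * D2 - k ⟨2, 0⟩ * q
  let Qu := (one - kap) * v * Sq
  let Qll := s * (q * q) * (z * t * a0 + k ⟨3, 1⟩ * k P.cg * k P.c3 * (z * z)) -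
    k P.c2 * (rq * (v * v) * (t * t))
  let Qlk := s * (q * q) * (k P.c1 * k P.k1) * (z * t) -
    k P.k1 * k P.ci * (rq * (v * v) * (t * t))
  { a := D2 * (k ⟨2, 0⟩ * k P.cg * (one + s - t) * q - (one + s) * (rq + k P.eps * q)) -
      (one + s) * kap * Sq * lt
    b := de * de * Qll + s * (q * q) * (k ⟨2, 0⟩ * k P.a4 * k P.cx * (z * (t * t)) -
      k P.a4 * (z * de) * t * (t - k P.c1 * z))
    c := Qll + Qlk
    d := k ⟨-1, 1⟩ * (de * Qu + k ⟨2, 0⟩ * k P.a4 * (z * t) * (q * q))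
    f := k ⟨-1, 1⟩ * (Qu + k P.k1 * (rq * v * t))
    g := k ⟨1, 1⟩ * de * (k ⟨2, 0⟩ * Qll + Qlk)
    W := D2 * (one + s)
    e := k P.e0 * (s * s) }

end

/-- positivity of the form -/
def FormNN (E : Ent ℝ) : Prop := ∀ X Y Z : ℝ, 0 ≤ E.a * X ^ 2 + E.W * (E.b * Y ^ 2 + E.c * Z ^ 2 +
  2 * E.d * X * Y + 2 * E.f * X * Z + 2 * E.g * Y * Z)

theorem formNN_of {E : Ent Ex} {E' : Ent ℝ} {x y : ℝ} (h : ∀ p ∈ psdE E, 0 ≤ p.R x y)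
    (ha : E.a.R x y = E'.a) (hb : E.b.R x y = E'.b) (hc : E.c.R x y = E'.c)
    (hd : E.d.R x y = E'.d) (hf : E.f.R x y = E'.f) (hg : E.g.R x y = E'.g)
    (hW : E.W.R x y = E'.W) (he : E.e.R x y = E'.e) (h0 : 0 < E'.e) (hW0 : 0 < E'.W) :
    FormNN E' := by
  intro X Y Z
  obtain ⟨h1, h2, h3, h4⟩ := psdE_sound h
  rw [ha, hb, hc, hd, hf, hg, hW, he] at *
  exact psd3 hW0 (h0.trans_le h1) h2 h3 h4 X Y Z

theorem formLP {P : Pm} {R C rb : Ex} {x v : ℝ}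
    (h : ∀ p ∈ psdE (entLP Ex.c P R C rb Ex.X Ex.Y), 0 ≤ p.R x v) (he : 0 < P.e0.R)
    (ht : 0 < 1 - x * x) :
    FormNN (entLP Fr.R P (R.R x v) (C.R x v) (rb.R x v) x v) := by
  refine formNN_of h ?_ ?_ ?_ ?_ ?_ ?_ ?_ ?_ ?_ ?_
  any_goals simp only [entLP, Ex.R_add, Ex.R_sub, Ex.R_mul, Ex.R_c, Ex.R_X, Ex.R_Y]
  · rw [Fr.R1]
    positivity
  · rw [Fr.R1]
    norm_num

theorem formLM {P : Pm} {kap R C rb : Ex} {z n1 : ℝ}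
    (h : ∀ p ∈ psdE (entLM Ex.c P kap R C rb Ex.X Ex.Y), 0 ≤ p.R z n1) (he : 0 < P.e0.R)
    (hz : 0 < z) (ht : 0 < 1 - z) :
    FormNN (entLM Fr.R P (kap.R z n1) (R.R z n1) (C.R z n1) (rb.R z n1) z n1) := by
  refine formNN_of h ?_ ?_ ?_ ?_ ?_ ?_ ?_ ?_ ?_ ?_
  any_goals simp only [entLM, Ex.R_add, Ex.R_sub, Ex.R_mul, Ex.R_c, Ex.R_X, Ex.R_Y]
  · rw [Fr.R1]
    positivity
  · exact hz

theorem formRM {P : Pm} {kap ly C rh : Ex} {s E : ℝ}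
    (h : ∀ p ∈ psdE (entRM Ex.c P kap ly C rh Ex.X Ex.Y), 0 ≤ p.R s E) (he : 0 < P.e0.R)
    (hs : 0 < s) :
    FormNN (entRM Fr.R P (kap.R s E) (ly.R s E) (C.R s E) (rh.R s E) s E) := by
  refine formNN_of h ?_ ?_ ?_ ?_ ?_ ?_ ?_ ?_ ?_ ?_
  any_goals simp only [entRM, Ex.R_add, Ex.R_sub, Ex.R_mul, Ex.R_c, Ex.R_X, Ex.R_Y]
  · exact he
  · rw [Fr.R1]
    positivity

theorem formRP {P : Pm} {kap lp C rh : Ex} {s be : ℝ}
    (h : ∀ p ∈ psdE (entRP Ex.c P kap lp C rh Ex.X Ex.Y), 0 ≤ p.R s be) (he : 0 < P.e0.R)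
    (hs : 0 < s) (hD : 0 < 2 * be * ((P.m : ℝ) + 2 - (P.m + 1) * (s * s)) + s * s) :
    FormNN (entRP Fr.R P (kap.R s be) (lp.R s be) (C.R s be) (rh.R s be) s be) := by
  refine formNN_of h ?_ ?_ ?_ ?_ ?_ ?_ ?_ ?_ ?_ ?_
  any_goals simp only [entRP, Ex.R_add, Ex.R_sub, Ex.R_mul, Ex.R_c, Ex.R_X, Ex.R_Y]
  · rw [Fr.R1, Fr.R2, Pm.cm_R]
    exact mul_pos he hD
  · rw [Fr.R1, Fr.R2, Pm.cm_R]
    exact mul_pos hD (by linarith)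

theorem formRS {P : Pm} {kap lp C r0 : Ex} {s v : ℝ}
    (h : ∀ p ∈ psdE (entRS Ex.c P kap lp C r0 Ex.X Ex.Y), 0 ≤ p.R s v) (he : 0 < P.e0.R)
    (hs : 0 < s)
    (hD : 0 < 2 * s * ((P.m : ℝ) + 2 - (P.m + 1) * (s * s)) + s * s * (s + v)) :
    FormNN (entRS Fr.R P (kap.R s v) (lp.R s v) (C.R s v) (r0.R s v) s v) := by
  refine formNN_of h ?_ ?_ ?_ ?_ ?_ ?_ ?_ ?_ ?_ ?_
  any_goals simp only [entRS, Ex.R_add, Ex.R_sub, Ex.R_mul, Ex.R_c, Ex.R_X, Ex.R_Y]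
  · exact mul_pos he (mul_pos hs hs)
  · rw [Fr.R1, Fr.R2, Pm.cm_R]
    exact mul_pos hD (by linarith)

end Vale.Agent.P237.AllN
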