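import Vale.Agent.P237.AllN.PcE
import Vale.Agent.P237.AllN.PcR

/-!
# P237, plain certificate (m ≥ 5): from the quadratic forms to the pointwise inequality
-/

namespace Vale.Agent.P237.AllN

open PolyPos

theorem regLP {P : Pm} (hm : 0 < P.m) {R C rb x v t l lam : ℝ} (htx : t = 1 - x ^ 2) (ht : 0 < t)
    (hE : 0 < 1 + x * v) (hδ : 3 / ((P.m : ℝ) + 2) - x ^ 2 ≠ 0)
    (hF : FormNN (entLP Fr.R P R C rb x v)) :
    P.eps.R * ((x * v) ^ 2 / (1 + x * v)) ≤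
      pcLow P.m P.k1.R P.th.R P.c2.R R C (rb / (1 + x * v)) (x ^ 2 / t) l (x * v) lam +
      pcNL P.m P.a1.R P.a2.R P.a3.R (3 / ((P.m : ℝ) + 2)) (x ^ 2) (x ^ 2 / t) (l - lam)
        (x * v) lam := by
  have hm' : (P.m : ℝ) ≠ 0 := by exact_mod_cast hm.ne'
  have hm1 : (P.m : ℝ) + 1 ≠ 0 := by positivity
  set e := (l - lam) / (3 / ((P.m : ℝ) + 2) - x ^ 2) with hedef
  have h := hF (x * v) (x * e) (x * lam)
  simp only [entLP, Fr.R1, Fr.R2, Fr.R3, Fr.R12, Fr.R32, Fr.R92, Pm.cx_R, Pm.cg_R, Pm.c1_R,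
    Pm.c3_R, Pm.ci_R P hm, Pm.ch_R P hm] at h
  refine pc_left_ge (η := 0) (lm := 0) (e := e) hm' ht hE hδ ?_ le_rfl (Or.inl rfl) ?_
  · rw [hedef, mul_comm, div_mul_cancel₀ _ hδ]
    ring
  · refine h.trans (le_of_eq ?_)
    simp only
    rw [htx]
    clear_value e
    field_simp
    ring

theorem regLM {P : Pm} (hm : 0 < P.m) {kap R C rb x z n1 t l lam : ℝ} (hz : z = x ^ 2)
    (hx : 0 < x) (htx : t = 1 - x ^ 2) (ht : 0 < t) (hE : 0 < 1 - z * n1)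
    (hδ : 3 / ((P.m : ℝ) + 2) - x ^ 2 ≠ 0) (hn : 0 ≤ n1) (hrb : 0 ≤ rb) (hkap : 0 ≤ kap)
    (hm1 : 1 ≤ P.m) (hl : l ≤ t * (31 / 50 + 7 / 50 * z))
    (hF : FormNN (entLM Fr.R P kap R C rb z n1)) :
    P.eps.R * ((-(z * n1)) ^ 2 / (1 + -(z * n1))) ≤
      pcLow P.m P.k1.R P.th.R P.c2.R R C (rb / (1 + -(z * n1))) (x ^ 2 / t) l (-(z * n1)) lam +
      pcNL P.m P.a1.R P.a2.R P.a3.R (3 / ((P.m : ℝ) + 2)) (x ^ 2) (x ^ 2 / t) (l - lam)
        (-(z * n1)) lam := by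
  have hm' : (P.m : ℝ) ≠ 0 := by exact_mod_cast hm.ne'
  have hm2 : (1 : ℝ) ≤ P.m := by exact_mod_cast hm1
  have hm1 : (P.m : ℝ) + 1 ≠ 0 := by positivity
  set e := (l - lam) / (3 / ((P.m : ℝ) + 2) - x ^ 2) with hedef
  have h := hF (-(z * n1)) e lam
  have r31 : Fr.R ⟨31, 49⟩ = 31 / 50 := by simp [Fr.R]; norm_num
  have r7 : Fr.R ⟨7, 49⟩ = 7 / 50 := by simp [Fr.R]; norm_num
  simp only [entLM, Fr.R1, Fr.R2, Fr.R3, Fr.R12, Fr.R32, Fr.R92, Pm.cx_R, Pm.cg_R, Pm.c1_R,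
    Pm.c3_R, Pm.ci_R P hm, Pm.ch_R P hm, r31, r7] at h
  have hvz : x * (-(x * n1)) = -(z * n1) := by rw [hz]; ring
  have hS : 0 ≤ 3 * (((P.m : ℝ) - 1) / (P.m + 1)) * z + 1 / (P.m : ℝ) * (rb * t) := by
    have h1 : 0 ≤ ((P.m : ℝ) - 1) / (P.m + 1) := div_nonneg (by linarith only [hm2]) (by linarith only [])
    have h2 : 0 ≤ z := by rw [hz]; positivity
    (clear * - hm2 hm h2 hrb ht; positivity)
  have hη : 0 ≤ kap * (z * n1) *
      ((3 * (((P.m : ℝ) - 1) / (P.m + 1)) * z + 1 / (P.m : ℝ) * (rb * t)) / t) := by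
    have h2 : 0 ≤ z := by rw [hz]; positivity
    (clear * - hkap h2 hn hm2 hm hrb ht; positivity)
  rw [← hvz]
  refine pc_left_ge (η := kap * (z * n1) *
      ((3 * (((P.m : ℝ) - 1) / (P.m + 1)) * z + 1 / (P.m : ℝ) * (rb * t)) / t))
    (lm := t * (31 / 50 + 7 / 50 * z)) (e := e) hm' ht (by rw [hvz]; linarith only [hE]) hδ ?_ hη
    (Or.inr hl) ?_
  · rw [hedef, mul_comm, div_mul_cancel₀ _ hδ]
    ring
  · refine h.trans (le_of_eq ?_)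
    simp only
    have htne := ht.ne'
    have : (1 : ℝ) - z = t := by rw [htx, hz]
    rw [this]
    have hz2 : z = x ^ 2 := hz
    rw [hz2]
    clear_value e
    field_simp
    ring

end Vale.Agent.P237.AllN
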