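import Vale.Agent.P237.AllN.PcE
import Vale.Agent.P237.AllN.PcR

/-!
# P237, plain certificate (m ≥ 5): from the quadratic forms to the pointwise inequality (right, `u ≤ 0`)
-/

namespace Vale.Agent.P237.AllN

open PolyPos

theorem regRM {P : Pm} (hm : 0 < P.m) {kap ly C rh s E z t l lam : ℝ}
    (hs : 0 < s) (hts : t = s * s) (hz : z = 1 - t) (hz0 : 0 ≤ z) (hE : 0 < E) (hE1 : E ≤ 1)
    (hδ : z - 3 / ((P.m : ℝ) + 2) ≠ 0) (hrb : 0 ≤ rh) (hkap : 0 ≤ kap)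
    (hm1 : 1 ≤ P.m) (hl : l ≤ t * ly)
    (hF : FormNN (entRM Fr.R P kap ly C rh s E)) :
    P.eps.R * ((E - 1) ^ 2 / (1 + (E - 1))) ≤
      pcLow P.m P.k1.R P.th.R P.c2.R (1 - t / (1 + s)) C (rh / (1 + (E - 1))) (z / t) l
        (E - 1) lam +
      pcNR P.m P.a4.R (3 / ((P.m : ℝ) + 2)) z (z / t) (l - lam) (E - 1) := by
  have hm' : (P.m : ℝ) ≠ 0 := by exact_mod_cast hm.ne'
  have hm2 : (1 : ℝ) ≤ P.m := by exact_mod_cast hm1
  have hm1 : (P.m : ℝ) + 1 ≠ 0 := by positivity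
  have ht : 0 < t := by rw [hts]; positivity
  have htne := ht.ne'
  have hs1 : (1 : ℝ) + s ≠ 0 := by positivity
  set e := (l - lam) / (z - 3 / ((P.m : ℝ) + 2)) with hedef
  have h := hF (E - 1) (e / t) (lam / t)
  have h1 : 0 ≤ ((P.m : ℝ) - 1) / (P.m + 1) := div_nonneg (by linarith only [hm2]) (by linarith only [])
  have hS : 0 ≤ 3 * (((P.m : ℝ) - 1) / (P.m + 1)) * z + 1 / (P.m : ℝ) * (rh * t) := by
    (clear * - hm2 hm hz0 hrb ht; positivity)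
  have hn : 0 ≤ 1 - E := by linarith only [hE1]
  have hη : 0 ≤ kap * (1 - E) *
      ((3 * (((P.m : ℝ) - 1) / (P.m + 1)) * z + 1 / (P.m : ℝ) * (rh * t)) / t) := by
    (clear * - hkap hE1 hm2 hm hz0 hrb ht; positivity)
  refine pc_right_ge (η := kap * (1 - E) *
      ((3 * (((P.m : ℝ) - 1) / (P.m + 1)) * z + 1 / (P.m : ℝ) * (rh * t)) / t))
    (lm := t * ly) (e := e) hm' ht (by linarith only [hE]) hδ ?_ hη (Or.inr hl) ?_
  · rw [hedef, mul_comm, div_mul_cancel₀ _ hδ]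
    ring
  · refine nonneg_of_mul_nonneg_right (a := 1 + s) (h.trans (le_of_eq ?_)) (by linarith only [hs])
    simp only [entRM, Fr.R1, Fr.R2, Fr.R3, Fr.R12, Fr.R32, Fr.R92, Pm.cx_R, Pm.cg_R, Pm.c1_R,
      Pm.c3_R, Pm.ci_R P hm, Pm.ch_R P hm]
    rw [← hts, ← hz]
    clear_value e
    field_simp
    ring

end Vale.Agent.P237.AllN
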