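import Vale.Agent.P237.AllN.PcE
import Vale.Agent.P237.AllN.PcR

/-!
# P237, plain certificate (m ≥ 5): from the quadratic forms to the pointwise inequality (right, `u ≥ 0`, near `x = 1`)
-/

namespace Vale.Agent.P237.AllN

open PolyPos

theorem regRS {P : Pm} (hm : 0 < P.m) {kap lp C r0 s v z t u l lam : ℝ}
    (hs : 0 < s) (hts : t = s * s) (hz : z = 1 - t) (hz0 : 0 ≤ z) (hv : 0 ≤ v)
    (hu : v = u * s)
    (hδ : z - 3 / ((P.m : ℝ) + 2) ≠ 0) (hr0 : 0 ≤ r0) (hkap : 0 ≤ kap)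
    (hm1 : 1 ≤ P.m) (hD : 0 < 2 * s * ((P.m : ℝ) + 2 - (P.m + 1) * t) + t * (s + v))
    (hl : l ≤ t * (lp - 2 * (s + v) / (2 * s * ((P.m : ℝ) + 2 - (P.m + 1) * t) + t * (s + v))))
    (hF : FormNN (entRS Fr.R P kap lp C r0 s v)) :
    P.eps.R * (u ^ 2 / (1 + u)) ≤
      pcLow P.m P.k1.R P.th.R P.c2.R (1 - t / (1 + s)) C ((r0 * s + v) / (s + v) / (1 + u))
        (z / t) l u lam +
      pcNR P.m P.a4.R (3 / ((P.m : ℝ) + 2)) z (z / t) (l - lam) u := by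
  have hm' : (P.m : ℝ) ≠ 0 := by exact_mod_cast hm.ne'
  have hm2 : (1 : ℝ) ≤ P.m := by exact_mod_cast hm1
  have hm1 : (P.m : ℝ) + 1 ≠ 0 := by positivity
  have ht : 0 < t := by rw [hts]; positivity
  have htne := ht.ne'
  have hsne := hs.ne'
  have hs1 : (1 : ℝ) + s ≠ 0 := by positivity
  have hq : 0 < s + v := by positivity
  obtain ⟨q, hqd⟩ : ∃ q, q = s + v := ⟨_, rfl⟩
  rw [← hqd] at hq hD hl ⊢
  have hqne := hq.ne'
  have hE : 1 + u = q / s := by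
    rw [hqd, hu]
    (clear * - hsne; field_simp)
  have hE0 : 0 < 1 + u := by rw [hE]; positivity
  set e := (l - lam) / (z - 3 / ((P.m : ℝ) + 2)) with hedef
  set D := 2 * s * ((P.m : ℝ) + 2 - (P.m + 1) * t) + t * q with hDdef
  have hDne := hD.ne'
  have h := hF (u / q) (e / (t * s * q)) (lam / (t * s * q))
  have h1 : 0 ≤ ((P.m : ℝ) - 1) / (P.m + 1) := div_nonneg (by linarith only [hm2]) (by linarith only [])
  have hη : 0 ≤ kap *
      ((3 * (((P.m : ℝ) - 1) / (P.m + 1)) * z + 1 / (P.m : ℝ) * ((r0 * s + v) / q * t)) / t) := by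
    (clear * - hkap hm2 hm hz0 hr0 hs hv hq ht; positivity)
  refine pc_right_ge (η := kap *
      ((3 * (((P.m : ℝ) - 1) / (P.m + 1)) * z + 1 / (P.m : ℝ) * ((r0 * s + v) / q * t)) / t))
    (lm := t * (lp - 2 * q / D)) (e := e) hm' ht hE0 hδ ?_ hη (Or.inr hl) ?_
  · rw [hedef, mul_comm, div_mul_cancel₀ _ hδ]
    ring
  · refine nonneg_of_mul_nonneg_right (a := D / q * (1 + s)) (h.trans (le_of_eq ?_))
      (mul_pos (div_pos hD hq) (by linarith only [hs]))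
    simp only [entRS, Fr.R1, Fr.R2, Fr.R3, Fr.R12, Fr.Rm12, Fr.R32, Fr.R92, Pm.cx_R, Pm.cg_R,
      Pm.c1_R, Pm.c3_R, Pm.cm_R, Pm.ci_R P hm, Pm.ch_R P hm]
    rw [← hts, ← hz, ← hqd, ← hDdef, hE]
    obtain ⟨w, hw⟩ : ∃ w, w = r0 * s + v := ⟨_, rfl⟩
    rw [← hw, hu]
    clear_value D e
    field_simp
    ring

end Vale.Agent.P237.AllN
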