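import Vale.Agent.P237.AllN.PcPt

/-!
# P237, plain certificate (m ≥ 5): the inputs
-/

open Set

namespace Vale.Agent.P237.AllN

theorem inOK_of {m : ℕ} (h5 : 5 ≤ m) (h22 : m ≤ 22) {k lamL : ℝ}
    (hk : ∀ r τ τ' T : ℝ → ℝ, IsProf r → IsTrans m r τ τ' T → ∀ x ∈ Ioo (0 : ℝ) 1,
      uf τ τ' x * sq x ≤ k * x)
    (hlam : ∀ r τ τ' T : ℝ → ℝ, IsProf r → IsTrans m r τ τ' T → ∀ x ∈ Ioo (0 : ℝ) 1,
      x ^ 2 = 3 / ((m : ℝ) + 2) → lamL ≤ lf τ x) : InOK m k lamL := by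
  intro r τ τ' T hr hT hN x₀ hx0 hx0sq x hx
  refine
    { hx := hx
      hu := ?_
      tau1 := ?_
      sgn := ?_
      Es := ?_
      E4 := ?_
      uk := hk r τ τ' T hr hT x hx
      tail := ?_
      llo := ?_
      lamlo := hlam r τ τ' T hr hT x₀ hx0 hx0sq
      lamhi := ?_ }
  · exact uf_pos hT hx
  · exact (pin_le_one hT hx).le
  · exact hT.log_le_lstar (by omega) h22 hr hN hx
  · exact hT.pin_h3 hr hx
  · intro hm hx2
    subst hm
    exact IsTrans.pin_h3_five hr hT hx hx2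
  · have h := IsTrans.pin_h5 (by omega) hr hT hx
    rwa [mul_div_assoc] at h
  · have h := IsTrans.pin_h6 h5 hr hT hx
    linarith
  · rw [← hx0sq]
    exact hT.log_le_lstar (by omega) h22 hr hN hx0

end Vale.Agent.P237.AllN
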