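import Mathlib

/-!
# P237, plain certificate (m ≥ 5): one-variable facts
-/

open Set

namespace Vale.Agent.P237.AllN

/-- the bound of `R` on the left -/
theorem pcn_R {s : ℝ} (h0 : 0 ≤ s) (h1 : s ≤ 1) :
    1 / 2 + 3 / 8 * (1 - s ^ 2) + 1 / 16 * ((1 - s ^ 2) * (1 - s ^ 2)) ≤ 1 - s ^ 2 / (1 + s) := by
  rw [le_sub_iff_add_le, ← le_sub_iff_add_le', div_le_iff₀ (by linarith)]
  have h : 0 ≤ (1 - s) ^ 3 * (1 + 4 * s + s ^ 2) := by
    have : 0 ≤ 1 - s := by linarith
    positivity
  linarith

/-- `e^y ≥ 1 + y + (11/25) y²` for `y ≥ -9/25` -/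
theorem pcn_exp_ge {y : ℝ} (hy : -(9 / 25) ≤ y) : 1 + y + 11 / 25 * y ^ 2 ≤ Real.exp y := by
  rcases le_or_gt 0 y with h | h
  · have := Real.quadratic_le_exp_of_nonneg h
    nlinarith only [this]
  · have h1 := Real.exp_bound (x := y) (by rw [abs_le]; constructor <;> linarith only [h, hy]) (n := 5)
      (by norm_num)
    rw [abs_le] at h1
    have h2 := h1.1
    simp only [Finset.sum_range_succ, Finset.sum_range_zero, Nat.factorial] at h2
    norm_num at h2
    have h3 : |y| = -y := abs_of_neg h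
    rw [h3] at h2
    have h4 : 0 ≤ y ^ 2 * (3 / 50 + y / 6) := by
      apply mul_nonneg (sq_nonneg y)
      linarith only [hy]
    have h5 : 0 ≤ y ^ 4 * (1 / 24 + y / 100) := by
      apply mul_nonneg (by positivity)
      linarith only [hy]
    nlinarith only [h2, h4]

/-- `e^y ≤ 1 + y + (53/100) y²` for `-9/25 ≤ y ≤ 1/8` -/
theorem pcn_exp_le {y : ℝ} (hy : -(9 / 25) ≤ y) (hy1 : y ≤ 1 / 8) :
    Real.exp y ≤ 1 + y + 53 / 100 * y ^ 2 := by
  have h1 := Real.exp_bound (x := y) (by rw [abs_le]; constructor <;> linarith only [hy1, hy]) (n := 4)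
    (by norm_num)
  rw [abs_le] at h1
  have h2 := h1.2
  simp only [Finset.sum_range_succ, Finset.sum_range_zero, Nat.factorial] at h2
  norm_num at h2
  have h3 : |y| ^ 4 = y ^ 4 := by
    rw [show (4 : ℕ) = 2 * 2 from rfl, pow_mul, pow_mul, sq_abs]
  rw [h3] at h2
  have h4 : 0 ≤ y ^ 2 * (3 / 100 - y / 6 - 5 / 96 * y ^ 2) := by
    apply mul_nonneg (sq_nonneg y)
    nlinarith only [hy1, hy]
  nlinarith only [h2, h4]

/-- log bound, degree 2: `-log (1 - t) ≤ t + 2 c t²` on `[0, T]`, if true at `T` -/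
theorem pcn_log2 {c T : ℝ} (hT1 : T < 1) (hT : 0 ≤ T + 2 * c * T ^ 2 + Real.log (1 - T)) {t : ℝ}
    (h0 : 0 ≤ t) (h1 : t ≤ T) : 0 ≤ t + 2 * c * t ^ 2 + Real.log (1 - t) := by
  set F : ℝ → ℝ := fun t => t + 2 * c * t ^ 2 + Real.log (1 - t) with hF
  have hd : ∀ t, t < 1 → HasDerivAt F (1 + 4 * c * t - 1 / (1 - t)) t := by
    intro t ht
    have h1 : HasDerivAt (fun t : ℝ => 1 - t) (-1) t := by
      simpa using (hasDerivAt_id t).const_sub 1
    have h2 := h1.log (by linarith : (1 : ℝ) - t ≠ 0)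
    have h3 : HasDerivAt (fun t : ℝ => t + 2 * c * t ^ 2) (1 + 2 * c * (2 * t)) t := by
      have := (hasDerivAt_id' t).fun_add (((hasDerivAt_pow 2 t)).const_mul (2 * c))
      simpa only [Nat.cast_ofNat, Nat.add_one_sub_one, pow_one] using this
    refine (h3.add h2).congr_deriv ?_
    ring
  have hsg : ∀ t, t < 1 → 1 + 4 * c * t - 1 / (1 - t) = t * (4 * c - 1 / (1 - t)) := by
    intro t ht
    have : (1 : ℝ) - t ≠ 0 := by linarith
    field_simp
    ring
  have hcont : ContinuousOn F (Icc 0 T) := fun t ht =>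
    (hd t (ht.2.trans_lt hT1)).continuousAt.continuousWithinAt
  have ht1 : t < 1 := h1.trans_lt hT1
  rcases le_or_gt (1 / (1 - t)) (4 * c) with h | h
  · -- increasing on `[0, t]`
    have hmono : MonotoneOn F (Icc 0 t) := by
      apply monotoneOn_of_deriv_nonneg (convex_Icc 0 t) (hcont.mono (Icc_subset_Icc_right h1))
      · intro y hy
        rw [interior_Icc] at hy
        exact (hd y (hy.2.trans ht1)).differentiableAt.differentiableWithinAt
      · intro y hy
        rw [interior_Icc] at hy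
        have hy1 : y < 1 := hy.2.trans ht1
        rw [(hd y hy1).deriv, hsg y hy1]
        apply mul_nonneg hy.1.le
        have : 1 / (1 - y) ≤ 1 / (1 - t) :=
          one_div_le_one_div_of_le (by linarith) (by linarith [hy.2])
        linarith only [h, this]
    have := hmono (left_mem_Icc.2 h0) (right_mem_Icc.2 h0) h0
    simpa only [ge_iff_le, hF, ne_eq, OfNat.ofNat_ne_zero, not_false_eq_true, zero_pow, mul_zero, add_zero,     sub_zero, Real.log_one] using this
  · -- decreasing on `[t, T]`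
    have hanti : AntitoneOn F (Icc t T) := by
      apply antitoneOn_of_deriv_nonpos (convex_Icc t T) (hcont.mono (Icc_subset_Icc_left h0))
      · intro y hy
        rw [interior_Icc] at hy
        exact (hd y (hy.2.trans hT1)).differentiableAt.differentiableWithinAt
      · intro y hy
        rw [interior_Icc] at hy
        have hy1 : y < 1 := hy.2.trans hT1
        rw [(hd y hy1).deriv, hsg y hy1]
        apply mul_nonpos_of_nonneg_of_nonpos (h0.trans hy.1.le)
        have : 1 / (1 - t) ≤ 1 / (1 - y) :=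
          one_div_le_one_div_of_le (by linarith only [hy1]) (by linarith [hy.1])
        linarith
    have := hanti (left_mem_Icc.2 h1) (right_mem_Icc.2 h1) h1
    exact hT.trans this

/-- log bound, degree 4 -/
theorem pcn_log4 {c T : ℝ} (hT1 : T < 1)
    (hT : 0 ≤ T + T ^ 2 / 2 + T ^ 3 / 3 + 2 * c * T ^ 4 + Real.log (1 - T)) {t : ℝ}
    (h0 : 0 ≤ t) (h1 : t ≤ T) :
    0 ≤ t + t ^ 2 / 2 + t ^ 3 / 3 + 2 * c * t ^ 4 + Real.log (1 - t) := by
  set F : ℝ → ℝ := fun t => t + t ^ 2 / 2 + t ^ 3 / 3 + 2 * c * t ^ 4 + Real.log (1 - t) with hF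
  have hd : ∀ t, t < 1 → HasDerivAt F (1 + t + t ^ 2 + 8 * c * t ^ 3 - 1 / (1 - t)) t := by
    intro t ht
    have h1 : HasDerivAt (fun t : ℝ => 1 - t) (-1) t := by
      simpa only [id_eq] using (hasDerivAt_id t).const_sub 1
    have h2 := h1.log (by linarith only [ht] : (1 : ℝ) - t ≠ 0)
    have h3 : HasDerivAt (fun t : ℝ => t + t ^ 2 / 2 + t ^ 3 / 3 + 2 * c * t ^ 4)
        (1 + (2 * t) / 2 + (3 * t ^ 2) / 3 + 2 * c * (4 * t ^ 3)) t := by
      have := (((hasDerivAt_id' t).fun_add ((hasDerivAt_pow 2 t).div_const 2)).fun_add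
        ((hasDerivAt_pow 3 t).div_const 3)).fun_add ((hasDerivAt_pow 4 t).const_mul (2 * c))
      simpa only [ne_eq, OfNat.ofNat_ne_zero, not_false_eq_true, mul_div_cancel_left₀, Nat.cast_ofNat,     Nat.add_one_sub_one, pow_one] using this
    refine (h3.add h2).congr_deriv ?_
    ring
  have hsg : ∀ t, t < 1 → 1 + t + t ^ 2 + 8 * c * t ^ 3 - 1 / (1 - t) =
      t ^ 3 * (8 * c - 1 / (1 - t)) := by
    intro t ht
    have : (1 : ℝ) - t ≠ 0 := by linarith only [ht]
    field_simp
    ring
  have hcont : ContinuousOn F (Icc 0 T) := fun t ht =>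
    (hd t (ht.2.trans_lt hT1)).continuousAt.continuousWithinAt
  have ht1 : t < 1 := h1.trans_lt hT1
  rcases le_or_gt (1 / (1 - t)) (8 * c) with h | h
  · have hmono : MonotoneOn F (Icc 0 t) := by
      apply monotoneOn_of_deriv_nonneg (convex_Icc 0 t) (hcont.mono (Icc_subset_Icc_right h1))
      · intro y hy
        rw [interior_Icc] at hy
        exact (hd y (hy.2.trans ht1)).differentiableAt.differentiableWithinAt
      · intro y hy
        rw [interior_Icc] at hy
        have hy1 : y < 1 := hy.2.trans ht1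
        rw [(hd y hy1).deriv, hsg y hy1]
        apply mul_nonneg (pow_nonneg hy.1.le 3)
        have : 1 / (1 - y) ≤ 1 / (1 - t) :=
          one_div_le_one_div_of_le (by linarith only [hT1, h1]) (by linarith only [hy.2])
        linarith only [h, this]
    have := hmono (left_mem_Icc.2 h0) (right_mem_Icc.2 h0) h0
    simpa only [ge_iff_le, hF, ne_eq, OfNat.ofNat_ne_zero, not_false_eq_true, zero_pow, zero_div, add_zero,     mul_zero, sub_zero, Real.log_one] using this
  · have hanti : AntitoneOn F (Icc t T) := by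
      apply antitoneOn_of_deriv_nonpos (convex_Icc t T) (hcont.mono (Icc_subset_Icc_left h0))
      · intro y hy
        rw [interior_Icc] at hy
        exact (hd y (hy.2.trans hT1)).differentiableAt.differentiableWithinAt
      · intro y hy
        rw [interior_Icc] at hy
        have hy1 : y < 1 := hy.2.trans hT1
        rw [(hd y hy1).deriv, hsg y hy1]
        apply mul_nonpos_of_nonneg_of_nonpos (pow_nonneg (h0.trans hy.1.le) 3)
        have : 1 / (1 - t) ≤ 1 / (1 - y) :=
          one_div_le_one_div_of_le (by linarith only [hy1]) (by linarith only [hy.1])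
        linarith only [h, this]
    have := hanti (left_mem_Icc.2 h1) (right_mem_Icc.2 h1) h1
    exact hT.trans this

/-- lower bound of the logarithm by a rational certificate -/
theorem pcn_log_ge {q a : ℝ} (hq : 0 ≤ q) (ha : 0 < a)
    (h : 1 / a ≤ ∑ i ∈ Finset.range 12, q ^ i / (i.factorial : ℝ)) : 0 ≤ q + Real.log a := by
  have h1 : 1 / a ≤ Real.exp q := h.trans (Real.sum_le_exp_of_nonneg hq 12)
  have h2 : Real.log (1 / a) ≤ q := by
    rw [Real.log_le_iff_le_exp (by positivity)]
    exact h1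
  rw [one_div, Real.log_inv] at h2
  linarith only [h2]

/-- the tail bound of `l` -/
theorem pcn_tail {x l q t lp D2 : ℝ} (hx : 0 < x) (ht : t = 1 - x ^ 2)
    (hq : 0 < q) (hlp : 0 ≤ 2 * (t * lp) + Real.log (1 - t)) (hD : 2 * q / (2 + q) = t * (2 / D2))
    (h : (1 + q) * (x * Real.exp l) ≤ 1) : l ≤ t * (lp - 2 / D2) := by
  have h1 : Real.log ((1 + q) * (x * Real.exp l)) ≤ 0 := Real.log_nonpos (by positivity) h
  rw [Real.log_mul (by positivity) (by positivity), Real.log_mul hx.ne' (Real.exp_pos l).ne',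
    Real.log_exp] at h1
  have h2 : 2 * q / (q + 2) ≤ Real.log (1 + q) := Real.le_log_one_add_of_nonneg hq.le
  have h3 : Real.log (1 - t) = 2 * Real.log x := by
    rw [ht, show (1 : ℝ) - (1 - x ^ 2) = x ^ 2 by ring, Real.log_pow]
    norm_num
  rw [h3] at hlp
  rw [show q + 2 = 2 + q by ring, hD] at h2
  rw [mul_sub]
  linarith only [hlp, h1, h2]

end Vale.Agent.P237.AllN
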