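import Vale.Agent.P237.AllN.PcDefs
import Vale.Agent.P237.AllN.PcN
import Vale.Agent.P237.AllN.PcF
import Vale.Agent.P237.AllN.PcK
import Vale.Agent.P237.AllN.PcCorr2

/-!
# P237, plain certificate (m ≥ 5): the pointwise inequality on the left
-/

open Set

namespace Vale.Agent.P237.AllN

open PolyPos

/-- `u - m ((1+u)^(1/m) - 1)` -/
noncomputable def pmf (m : ℕ) (u : ℝ) : ℝ := u - m * ((1 + u) ^ (1 / (m : ℝ)) - 1)

/-- bounds of `pmf` -/
structure RhoOK (D : Dat) : Prop where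
  nn : ∀ u : ℝ, 0 < 1 + u → 0 ≤ pmf D.P.m u
  a : ∀ u : ℝ, 0 ≤ u → u ^ 2 * ((D.P.m : ℝ) - 1) ≤ 3 * D.k.R ^ 2 →
    pmf D.P.m u * (1 + u) ≤ (D.r0.R + D.r1.R * u - D.cp.R * (u * u)) * u ^ 2
  b : ∀ u : ℝ, 0 < 1 + u → u ≤ 0 →
    pmf D.P.m u * (1 + u) ≤ (D.r0.R + D.r1.R * u + D.r2.R * (u * u)) * u ^ 2
  c : ∀ u : ℝ, 3 / 500 ≤ 1 + u → 1 + u ≤ 1 / 4 →
    pmf D.P.m u * (1 + u) ≤ (D.g0.R + D.g1.R * (1 + u)) * u ^ 2
  d : ∀ u : ℝ, 0 < 1 + u → u ≤ 0 → pmf D.P.m u ≤ ((D.P.m : ℝ) - 1) * u ^ 2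
  e : ∀ u : ℝ, 0 ≤ u → ∀ n : ℝ, n * (1 + u) = u → n ≤ 13 / 20 →
    pmf D.P.m u * (1 + u) ≤ (D.r0.R + D.r1.R * n + (D.r1.R + D.r2.R) * (n * n) +
      D.q3.R * (n * (n * n))) * u ^ 2
  f : ∀ u : ℝ, 0 ≤ u → 13 / 20 * (1 + u) ≤ u →
    pmf D.P.m u * (1 + u) ^ 2 ≤ ((1 + u) - D.q4.R) * u ^ 2
  g : ∀ u : ℝ, 0 ≤ u → pmf D.P.m u * (1 + u) ^ 2 ≤ (D.r0.R + u) * u ^ 2

/-- numeric side conditions -/
structure Dat.Num (D : Dat) (lamL : ℝ) : Prop where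
  m5 : 5 ≤ D.P.m
  e0 : 0 < D.P.e0.R
  x0 : 3 / ((D.P.m : ℝ) + 2) ≤ ((D.X0 : ℝ) / 1000) ^ 2
  v0 : D.k.R ^ 2 ≤ ((D.V0 : ℝ) / 1000) ^ 2 * (1 - 3 / ((D.P.m : ℝ) + 2))
  s0 : 1 - 3 / ((D.P.m : ℝ) + 2) ≤ ((D.S0 : ℝ) / 1000) ^ 2
  k0 : D.k.R ≤ (D.K0 : ℝ) / 1000
  kpos : 0 ≤ D.k.R
  k1pos : 0 ≤ D.P.k1.R
  mu0 : 0 < 1 + D.P.k1.R * lamL
  th : D.P.th.R ≤ 22 / 25 * (1 + D.P.k1.R * lamL)
  c2 : (1 + D.P.k1.R * ((1 - 3 / ((D.P.m : ℝ) + 2)) * (31 / 50 + 7 / 50 *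
    (3 / ((D.P.m : ℝ) + 2))))) * (53 / 100) ≤ D.P.c2.R * (D.P.m : ℝ) ^ 2
  lx : 0 ≤ (1 - 3 / ((D.P.m : ℝ) + 2)) + 2 * D.lx.R * (1 - 3 / ((D.P.m : ℝ) + 2)) ^ 2 +
    Real.log (1 - (1 - 3 / ((D.P.m : ℝ) + 2)))
  c4 : 0 ≤ (1 - 3 / ((D.P.m : ℝ) + 2)) + (1 - 3 / ((D.P.m : ℝ) + 2)) ^ 2 / 2 +
    (1 - 3 / ((D.P.m : ℝ) + 2)) ^ 3 / 3 + 2 * D.c4.R * (1 - 3 / ((D.P.m : ℝ) + 2)) ^ 4 +
    Real.log (1 - (1 - 3 / ((D.P.m : ℝ) + 2)))
  pp : D.P.m ≤ 2 * D.pp ∨ (D.P.m = 5 ∧ D.pp = 2)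
  pp0 : 0 < D.pp
  g0 : 0 ≤ D.g0.R
  r0 : 0 ≤ D.r0.R
  V0pos : 0 < D.V0
  K0pos : 0 < D.K0
  S0pos : 200 < D.S0

theorem pc_sq_facts {x : ℝ} (hx : x ∈ Ioo (0 : ℝ) 1) :
    0 < sq x ∧ sq x < 1 ∧ sq x ^ 2 = 1 - x ^ 2 := by
  have h1 : sq x ^ 2 = 1 - x ^ 2 := Real.sq_sqrt (by nlinarith [hx.1, hx.2])
  have h2 : 0 < sq x := Real.sqrt_pos.2 (by nlinarith only [hx.1, hx.2])
  refine ⟨h2, ?_, h1⟩
  nlinarith only [h1, hx.1]

/-- the functional is bounded below by the quadratic form -/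
theorem pc_low_in {D : Dat} {lamL : ℝ} (hn : D.Num lamL) {x l u lam R C ρ : ℝ}
    (hin : PcIn D.P.m D.k.R lamL x l u lam) (hR : R ≤ 1 - sq x ^ 2 / (1 + sq x))
    (hC : -(C * (x ^ 2 / sq x ^ 2)) * l ^ 2 ≤
      sq x * (bg (x * Real.exp l) - bg x) + x ^ 2 * l / (1 + sq x) ^ 2)
    (hpm0 : 0 ≤ pmf D.P.m u) (hpm : pmf D.P.m u ≤ ρ * u ^ 2) :
    pcLow D.P.m D.P.k1.R D.P.th.R D.P.c2.R R C ρ (x ^ 2 / sq x ^ 2) l u lam ≤
      TR D.P.m x (sq x) l u 0 (1 + D.P.k1.R * lam) (Real.exp (l / D.P.m))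
        ((1 + u) ^ (1 / (D.P.m : ℝ))) (bg (x * Real.exp l)) (bg x) 0 0 := by
  obtain ⟨hs, hs1, hsx⟩ := pc_sq_facts hin.hx
  have hm5 : (5 : ℝ) ≤ D.P.m := by exact_mod_cast hn.m5
  have hmpos : (0 : ℝ) < D.P.m := by linarith only [hm5]
  have hmne := hmpos.ne'
  have hk1 := hn.k1pos
  have hmuL : 1 + D.P.k1.R * lamL ≤ 1 + D.P.k1.R * lam := by
    have := mul_le_mul_of_nonneg_left hin.lamlo hk1
    linarith only [this]
  have hmu : 0 < 1 + D.P.k1.R * lam := hn.mu0.trans_le hmuL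
  have hmuH : (1 + D.P.k1.R * lam) * (53 / 100) ≤ D.P.c2.R * (D.P.m : ℝ) ^ 2 := by
    have := mul_le_mul_of_nonneg_left hin.lamhi hk1
    have h2 := hn.c2
    linarith
  -- the exponential
  set y := l / (D.P.m : ℝ) with hy
  have hy1 : -(9 / 25) ≤ y := by
    rw [hy, le_div_iff₀ hmpos]
    exact hin.llo
  have hl1 : l ≤ 5 / 8 := by
    have h1 := hin.sgn
    have h2 : 0 < x ^ 2 := by have := hin.hx.1; positivity
    have h3 : x ^ 2 < 1 := by rw [← sub_pos, ← hsx]; positivity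
    nlinarith only [h1]
  have hy2 : y ≤ 1 / 8 := by
    rw [hy, div_le_iff₀ hmpos]
    linarith only [hm5, hl1]
  have hyl : l = y * D.P.m := by rw [hy]; (clear * - hmne; field_simp)
  have e1 := pcn_exp_ge hy1
  have e2 := pcn_exp_le hy1 hy2
  refine pc_lower (by linarith only [hm5]) hs hin.hu hR hC hpm0 hpm ?_ ?_ ?_
  · exact mul_nonneg hmu.le (Real.exp_pos _).le
  · have h1 := mul_le_mul_of_nonneg_left e2 hmu.le
    have h2 : (1 + D.P.k1.R * lam) * (53 / 100 * y ^ 2) ≤ D.P.c2.R * l ^ 2 := by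
      have := mul_le_mul_of_nonneg_right hmuH (sq_nonneg y)
      rw [hyl]
      nlinarith only [this]
    nlinarith only [h1, h2]
  · have h1 := mul_le_mul_of_nonneg_left e1 hmu.le
    have h2 : D.P.th.R / (2 * D.P.m) * l ^ 2 = D.P.th.R / 2 * y ^ 2 * D.P.m := by
      rw [hyl]
      (clear * - hmne; field_simp)
    have h3 : D.P.th.R / 2 ≤ 11 / 25 * (1 + D.P.k1.R * lam) := by
      have := hn.th
      nlinarith only [hmuL, this]
    have h4 : D.P.th.R / 2 * y ^ 2 * D.P.m ≤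
        11 / 25 * (1 + D.P.k1.R * lam) * y ^ 2 * D.P.m := by
      apply mul_le_mul_of_nonneg_right _ hmpos.le
      exact mul_le_mul_of_nonneg_right h3 (sq_nonneg y)
    rw [h2]
    have h5 : (1 + D.P.k1.R * lam) * D.P.m * (Real.exp y - 1) - (1 + D.P.k1.R * lam) * l =
        ((1 + D.P.k1.R * lam) * (Real.exp y - 1 - y)) * D.P.m := by
      rw [hyl]
      ring
    rw [h5]
    have h6 : (1 + D.P.k1.R * lam) * (11 / 25 * y ^ 2) ≤
        (1 + D.P.k1.R * lam) * (Real.exp y - 1 - y) :=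
      mul_le_mul_of_nonneg_left (by linarith only [e1]) hmu.le
    have h7 := mul_le_mul_of_nonneg_right h6 hmpos.le
    linarith only [h4, h7]

theorem pc_getD {F : List Ex} {x y : ℝ}
    (h : ∃ i, ∀ E ∈ [F].getD i [Ex.c ⟨-1, 0⟩], 0 ≤ E.R x y) : ∀ E ∈ F, 0 ≤ E.R x y := by
  obtain ⟨i, hi⟩ := h
  rcases i with _ | i
  · simpa only [Int.reduceNeg, List.getD_eq_getElem?_getD, List.length_cons, List.length_nil, zero_add,     Order.lt_one_iff, getElem?_pos, List.getElem_cons_zero, Option.getD_some] using hi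
  · exfalso
    have := hi (Ex.c ⟨-1, 0⟩) (by simp)
    rw [Ex.R_c] at this
    simp only [Fr.R, Int.reduceNeg, Int.cast_neg, Int.cast_one, CharP.cast_eq_zero, zero_add, div_one, Left.nonneg_neg_iff] at this
    linarith

theorem pc_getD2 {F G : List Ex} {x y : ℝ}
    (h : ∃ i, ∀ E ∈ [F, G].getD i [Ex.c ⟨-1, 0⟩], 0 ≤ E.R x y) :
    (∀ E ∈ F, 0 ≤ E.R x y) ∨ ∀ E ∈ G, 0 ≤ E.R x y := by
  obtain ⟨i, hi⟩ := h
  rcases i with _ | _ | i
  · left
    simpa only [Int.reduceNeg, List.getD_eq_getElem?_getD, List.length_cons, List.length_nil, zero_add,     Nat.reduceAdd, Order.lt_two_iff, zero_le, getElem?_pos, List.getElem_cons_zero, Option.getD_some] using hi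
  · right
    simpa only [zero_add, Int.reduceNeg, List.getD_eq_getElem?_getD, List.length_cons, List.length_nil,     Nat.reduceAdd, Order.lt_two_iff, Std.le_refl, getElem?_pos, List.getElem_cons_succ, List.getElem_cons_zero,     Option.getD_some] using hi
  · exfalso
    have := hi (Ex.c ⟨-1, 0⟩) (by simp only [Int.reduceNeg, List.getD_eq_getElem?_getD, List.length_cons, List.length_nil, zero_add, Nat.reduceAdd, Order.lt_two_iff, add_le_iff_nonpos_left, nonpos_iff_eq_zero, Nat.add_eq_zero_iff, one_ne_zero, and_false, not_false_eq_true, getElem?_neg, Option.getD_none, List.mem_cons, List.not_mem_nil, or_false])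
    rw [Ex.R_c] at this
    simp only [Fr.R, Int.reduceNeg, Int.cast_neg, Int.cast_one, CharP.cast_eq_zero, zero_add, div_one, Left.nonneg_neg_iff] at this
    linarith

theorem qR_R (z : Ex) (x y : ℝ) : (qR z).R x y =
    1 / 2 + 3 / 8 * z.R x y + 1 / 16 * (z.R x y * z.R x y) := by
  simp only [qR, Ex.R_add, Ex.R_mul, Ex.R_c, Fr.R]
  (clear * -; norm_num)

theorem qC_R (z : Ex) (x y : ℝ) : (qC z).R x y =
    2 / 5 + 13 / 20 * z.R x y + 22 / 5 * (z.R x y * (z.R x y * z.R x y)) := by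
  simp only [qC, Ex.R_add, Ex.R_mul, Ex.R_c, Fr.R]
  (clear * -; norm_num)

/-- **the pointwise inequality, `x < x₀`, `u ≥ 0`** -/
theorem point_LP {D : Dat} {lamL : ℝ} (hn : D.Num lamL) (hρ : RhoOK D) {t : PT}
    (hk : D.kLP t = true) {x l u lam : ℝ} (hin : PcIn D.P.m D.k.R lamL x l u lam)
    (hxx : x ^ 2 < 3 / ((D.P.m : ℝ) + 2)) (hu : 0 ≤ u) :
    D.P.eps.R * (u ^ 2 / (1 + u)) ≤
      TR D.P.m x (sq x) l u 0 (1 + D.P.k1.R * lam) (Real.exp (l / D.P.m))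
        ((1 + u) ^ (1 / (D.P.m : ℝ))) (bg (x * Real.exp l)) (bg x) 0 0 +
      pcNL D.P.m D.P.a1.R D.P.a2.R D.P.a3.R (3 / ((D.P.m : ℝ) + 2)) (x ^ 2) (x ^ 2 / sq x ^ 2)
        (l - lam) u lam := by
  obtain ⟨hs, hs1, hsx⟩ := pc_sq_facts hin.hx
  have hx0 := hin.hx.1
  have hm5 : (5 : ℝ) ≤ D.P.m := by exact_mod_cast hn.m5
  have hm0 : 0 < D.P.m := by have := hn.m5; omega
  have h37 : 3 / ((D.P.m : ℝ) + 2) ≤ 3 / 7 := by
    apply div_le_div_of_nonneg_left (by norm_num) (by norm_num) (by linarith only [hm5])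
  obtain ⟨v, hv⟩ : ∃ v, v = u / x := ⟨_, rfl⟩
  have huv : u = x * v := by rw [hv]; (clear * - hx0; field_simp)
  have hv0 : 0 ≤ v := by rw [hv]; (clear * - hu hx0; positivity)
  have ht : 0 < 1 - x * x := by nlinarith only [hxx, h37]
  have hvs : v * sq x ≤ D.k.R := by
    have h1 := hin.uk
    rw [huv] at h1
    have h2 : x * (v * sq x) ≤ x * D.k.R := by linarith only [h1]
    exact le_of_mul_le_mul_left h2 hx0
  have hvs2 : v ^ 2 * (1 - x ^ 2) ≤ D.k.R ^ 2 := by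
    rw [← hsx, ← mul_pow]
    exact pow_le_pow_left₀ (by (clear * - hv0 hs; positivity)) hvs 2
  have hLo : D.loLP.R x v ≤ 0 := by
    simp only [Dat.loLP, Ex.R_sub, Ex.R_mul, Ex.R_c, Ex.R_X, Ex.R_Y, Fr.R1]
    nlinarith only [hvs2]
  have hX : x ≤ (D.X0 : ℝ) / 1000 :=
    le_of_sq_le_sq (by (clear * - hxx hn; linarith [hn.x0])) (by (clear * -; positivity))
  have hV : v ≤ (D.V0 : ℝ) / 1000 := by
    have h1 : 0 < 1 - 3 / ((D.P.m : ℝ) + 2) := by linarith only [h37]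
    have h2 : v ^ 2 * (1 - 3 / ((D.P.m : ℝ) + 2)) ≤
        ((D.V0 : ℝ) / 1000) ^ 2 * (1 - 3 / ((D.P.m : ℝ) + 2)) := by
      have : v ^ 2 * (1 - 3 / ((D.P.m : ℝ) + 2)) ≤ v ^ 2 * (1 - x ^ 2) :=
        mul_le_mul_of_nonneg_left (by linarith only [hxx]) (sq_nonneg v)
      linarith only [hvs2, this, hn.v0]
    exact le_of_sq_le_sq (le_of_mul_le_mul_right h2 h1) (by (clear * -; positivity))
  have hX0 : (0 : ℤ) < (D.X0 : ℤ) := by
    have : (0 : ℝ) < D.X0 := by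
      have := hx0.trans_le hX
      linarith only [hx0, hX]
    exact_mod_cast this
  have hV0 : (0 : ℤ) < (D.V0 : ℤ) := by exact_mod_cast hn.V0pos
  have hpsd := pc_getD (tchkE_sound hLo t 0 D.X0 1000 0 D.V0 1000 (by norm_num) (by norm_num) hX0
    hV0 hk (by push_cast; linarith only [hx0]) (by push_cast; linarith only [hX]) (by push_cast; linarith only [hv0])
    (by push_cast; linarith only [hV]))
  have hF := formLP hpsd hn.e0 ht
  have hreg := regLP (t := sq x ^ 2) (l := l) (lam := lam) hm0 hsx (by positivity)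
    (by rw [← huv]; exact hin.hu) (by linarith only [hxx]) hF
  rw [← huv] at hreg
  refine hreg.trans (add_le_add_left (pc_low_in hn hin ?_ ?_ (hρ.nn u hin.hu) ?_) _)
  · rw [qR_R]
    simp only [Ex.R_mul, Ex.R_X]
    have h1 := pcn_R hs.le hs1.le
    have h2 : x * x = 1 - sq x ^ 2 := by rw [hsx]; ring
    rw [h2]
    exact h1
  · rw [qC_R]
    simp only [Ex.R_mul, Ex.R_X]
    have h1 := Corr.corr_A hx0 (by (clear * - hxx h37; linarith)) hin.tau1 (by rw [hsx]; exact hin.sgn)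
    refine (le_of_eq ?_).trans h1
    ring
  · have h1 := hρ.a u hu (by
      have h2 : v ^ 2 * (1 - 3 / ((D.P.m : ℝ) + 2)) ≤ D.k.R ^ 2 := by
        have : v ^ 2 * (1 - 3 / ((D.P.m : ℝ) + 2)) ≤ v ^ 2 * (1 - x ^ 2) :=
          mul_le_mul_of_nonneg_left (by linarith only [hxx]) (sq_nonneg v)
        linarith only [hvs2, this]
      have h3 : 1 - 3 / ((D.P.m : ℝ) + 2) = ((D.P.m : ℝ) - 1) / ((D.P.m : ℝ) + 2) := by
        field_simp
        ring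
      rw [h3, ← mul_div_assoc, div_le_iff₀ (by linarith only [])] at h2
      have h4 : x ^ 2 * ((D.P.m : ℝ) + 2) ≤ 3 := by
        rw [lt_div_iff₀ (by linarith only [])] at hxx
        exact hxx.le
      rw [huv, mul_pow]
      calc x ^ 2 * v ^ 2 * ((D.P.m : ℝ) - 1) = x ^ 2 * (v ^ 2 * ((D.P.m : ℝ) - 1)) := by ring
        _ ≤ x ^ 2 * (D.k.R ^ 2 * ((D.P.m : ℝ) + 2)) :=
            mul_le_mul_of_nonneg_left h2 (sq_nonneg x)
        _ = (x ^ 2 * ((D.P.m : ℝ) + 2)) * D.k.R ^ 2 := by ring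
        _ ≤ 3 * D.k.R ^ 2 := mul_le_mul_of_nonneg_right h4 (sq_nonneg _))
    rw [div_mul_eq_mul_div, le_div_iff₀ hin.hu]
    simp only [Dat.rbLP, Ex.R_sub, Ex.R_add, Ex.R_c, Ex.R_mul, Ex.R_X, Ex.R_Y]
    rw [← huv]
    exact h1

theorem exgeo_R (z n1 : ℝ) (n : ℕ) : (exgeo Ex.X n).R z n1 * z = 1 - (1 - z) ^ n := by
  induction n with
  | zero => simp only [exgeo, Ex.R_c, Fr.R, Int.cast_zero, CharP.cast_eq_zero, zero_add, div_one, zero_mul, pow_zero, sub_self]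
  | succ n ih =>
    simp only [exgeo, Ex.R_add, Ex.R_sub, Ex.R_mul, Ex.R_c, Ex.R_X, Fr.R1]
    have : (1 + (1 - z) * (exgeo Ex.X n).R z n1) * z =
        z + (1 - z) * ((exgeo Ex.X n).R z n1 * z) := by ring
    rw [this, ih, pow_succ]
    ring

theorem exgeo_le {z n1 : ℝ} (h0 : 0 ≤ z) (h1 : z ≤ 1) (n : ℕ) :
    0 ≤ (exgeo Ex.X n).R z n1 ∧ (exgeo Ex.X n).R z n1 ≤ n := by
  induction n with
  | zero => simp only [exgeo, Ex.R_c, Fr.R, Int.cast_zero, CharP.cast_eq_zero, zero_add, div_one, Std.le_refl, and_self]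
  | succ n ih =>
    simp only [exgeo, Ex.R_add, Ex.R_sub, Ex.R_mul, Ex.R_c, Ex.R_X, Fr.R1]
    push_cast
    have h2 : 0 ≤ 1 - z := by linarith only [h1]
    have h3 := mul_nonneg h2 ih.1
    refine ⟨by linarith only [h3], ?_⟩
    nlinarith only [ih, h0]

/-- **the pointwise inequality, `x < x₀`, `u ≤ 0`** -/
theorem point_LM {D : Dat} {lamL : ℝ} (hn : D.Num lamL) (hρ : RhoOK D) {t : PT}
    (hk : D.kLM t = true) {x l u lam : ℝ} (hin : PcIn D.P.m D.k.R lamL x l u lam)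
    (hxx : x ^ 2 < 3 / ((D.P.m : ℝ) + 2)) (hu : u ≤ 0) :
    D.P.eps.R * (u ^ 2 / (1 + u)) ≤
      TR D.P.m x (sq x) l u 0 (1 + D.P.k1.R * lam) (Real.exp (l / D.P.m))
        ((1 + u) ^ (1 / (D.P.m : ℝ))) (bg (x * Real.exp l)) (bg x) 0 0 +
      pcNL D.P.m D.P.a1.R D.P.a2.R D.P.a3.R (3 / ((D.P.m : ℝ) + 2)) (x ^ 2) (x ^ 2 / sq x ^ 2)
        (l - lam) u lam := by
  obtain ⟨hs, hs1, hsx⟩ := pc_sq_facts hin.hx
  have hx0 := hin.hx.1
  have hm5 : (5 : ℝ) ≤ D.P.m := by exact_mod_cast hn.m5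
  have hm0 : 0 < D.P.m := by have := hn.m5; omega
  have hm1 : 1 ≤ D.P.m := by omega
  have h37 : 3 / ((D.P.m : ℝ) + 2) ≤ 3 / 7 := by
    apply div_le_div_of_nonneg_left (by norm_num) (by norm_num) (by linarith only [hm5])
  obtain ⟨z, hz⟩ : ∃ z, z = x ^ 2 := ⟨_, rfl⟩
  have hz0 : 0 < z := by rw [hz]; positivity
  have hz1 : z < 1 := by rw [hz]; linarith
  obtain ⟨n1, hn1⟩ : ∃ n1, n1 = -u / z := ⟨_, rfl⟩
  have hun : u = -(z * n1) := by rw [hn1]; (clear * - hz0; field_simp)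
  have hn0 : 0 ≤ n1 := by rw [hn1]; apply div_nonneg (by linarith only [hu]) hz0.le
  -- the lower bound of `1 + u`
  have hE : (1 - z) ^ D.pp ≤ 1 + u := by
    rw [hz, ← hsx, ← pow_mul]
    rcases hn.pp with h | ⟨h1, h2⟩
    · exact (pow_le_pow_of_le_one hs.le hs1.le h).trans hin.Es
    · rw [h2]
      exact hin.E4 h1 (by linarith only [hxx, h37])
  have hgz := exgeo_R z n1 D.pp
  have hgl := exgeo_le (n1 := n1) hz0.le hz1.le D.pp
  have hn2 : n1 ≤ (exgeo Ex.X D.pp).R z n1 := by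
    have h1 : z * n1 ≤ z * (exgeo Ex.X D.pp).R z n1 := by
      have : z * n1 = -u := by rw [hun]; ring
      rw [this, mul_comm, hgz]
      linarith only [hE]
    exact le_of_mul_le_mul_left h1 hz0
  have hLo : D.loLM.R z n1 ≤ 0 := by
    simp only [Dat.loLM, Ex.R_sub, Ex.R_Y]
    linarith only [hn2]
  have hz3 : ((D.P.m + 2 : ℕ) : ℝ) * z ≤ 3 := by
    rw [lt_div_iff₀ (by linarith only []), ← hz] at hxx
    push_cast
    linarith only [hxx]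
  have hpsd := pc_getD (tchkE_sound hLo t 0 3 (D.P.m + 2) 0 D.pp 1 (by omega) (by norm_num)
    (by norm_num) (by exact_mod_cast hn.pp0) hk
    (by push_cast; exact mul_nonneg (by positivity) hz0.le) (by push_cast at hz3 ⊢; exact hz3) (by push_cast; linarith only [hn0])
    (by push_cast; linarith only [hgl, hn2]))
  have hF := formLM hpsd hn.e0 hz0 (by linarith only [hxx, h37, hz])
  have hb := hρ.b u hin.hu hu
  have hrb : (D.rbLM).R z n1 = D.r0.R + D.r1.R * u + D.r2.R * (u * u) := by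
    simp only [Dat.rbLM, Ex.R_add, Ex.R_sub, Ex.R_mul, Ex.R_c, Ex.R_X, Ex.R_Y]
    rw [hun]
    ring
  have hrb0 : 0 ≤ (D.rbLM).R z n1 := by
    rw [hrb]
    rcases hu.eq_or_lt with h | h
    · rw [h]
      simpa only [mul_zero, add_zero] using hn.r0
    · have h1 : 0 ≤ pmf D.P.m u * (1 + u) := mul_nonneg (hρ.nn u hin.hu) hin.hu.le
      have h2 : 0 < u ^ 2 := by
        have := h.ne
        (clear * - this; positivity)
      exact nonneg_of_mul_nonneg_left (h1.trans hb) h2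
  have hreg := regLM (x := x) (t := sq x ^ 2) (l := l) (lam := lam) hm0 hz hx0 hsx (by positivity)
    (by have := hin.hu; rw [hun] at this; linarith only [this]) (by (clear * - hxx; linarith)) hn0 hrb0
    (by rw [Ex.R_c, Fr.R1]; norm_num) hm1 (by rw [hsx, hz]; exact hin.sgn) hF
  rw [← hun] at hreg
  refine hreg.trans (add_le_add_left (pc_low_in hn hin ?_ ?_ (hρ.nn u hin.hu) ?_) _)
  · rw [qR_R]
    simp only [Ex.R_X]
    have h1 := pcn_R hs.le hs1.le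
    have h2 : z = 1 - sq x ^ 2 := by rw [hsx, hz]; ring
    rw [h2]
    exact h1
  · rw [qC_R]
    simp only [Ex.R_X]
    have h1 := Corr.corr_A hx0 (by (clear * - hxx h37; linarith)) hin.tau1 (by rw [hsx]; exact hin.sgn)
    refine (le_of_eq ?_).trans h1
    rw [hz]
    ring
  · rw [div_mul_eq_mul_div, le_div_iff₀ hin.hu, hrb]
    exact hb

end Vale.Agent.P237.AllN
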