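import Vale.Agent.P237.AllN.PcP
import Vale.Agent.P237.AllN.PcG
import Vale.Agent.P237.AllN.PcH
import Vale.Agent.P237.AllN.PcI

/-!
# P237, plain certificate (m ≥ 5): the pointwise inequality on the right
-/

open Set

namespace Vale.Agent.P237.AllN

open PolyPos

/-- the correction on the right, `u ≤ 0`: constant `2` -/
theorem corr_R2 {x l : ℝ} (hx : x ∈ Ioo (0 : ℝ) 1) (h1 : x * Real.exp l ≤ 1)
    (hl : l ≤ (1 - x ^ 2) * (31 / 50 + 7 / 50 * x ^ 2)) :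
    -(2 * (x ^ 2 / sq x ^ 2)) * l ^ 2 ≤
      sq x * (bg (x * Real.exp l) - bg x) + x ^ 2 * l / (1 + sq x) ^ 2 := by
  obtain ⟨hs, hs1, hsx⟩ := pc_sq_facts hx
  rcases le_or_gt (x ^ 2) (3 / 7) with h | h
  · have h2 := Corr.corr_A hx.1 h h1 (by rw [hsx]; exact hl)
    refine le_trans ?_ h2
    have h3 : 2 / 5 + 13 * x ^ 2 / 20 + 22 * (x ^ 2) ^ 3 / 5 ≤ 2 := by
      have h4 : (x ^ 2) ^ 3 ≤ (3 / 7) ^ 3 := pow_le_pow_left₀ (sq_nonneg x) h 3
      linarith only [h, h4]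
    have h5 : 0 ≤ x ^ 2 / sq x ^ 2 * l ^ 2 := by (clear * - hs; positivity)
    nlinarith only [h3, h5]
  · exact Corr.corr_B hx.1 hx.2 h.le h1

/-- the correction on the right, `u ≥ 0`: constant `3/2` -/
theorem corr_R3 {m : ℕ} {x l u : ℝ} (hx : x ∈ Ioo (0 : ℝ) 1) (hu : 0 ≤ u)
    (h1 : x * Real.exp l ≤ 1)
    (hl : l ≤ (1 - x ^ 2) * (31 / 50 + 7 / 50 * x ^ 2))
    (ht : (1 + (1 + u) * (sq x ^ 2 / (((m : ℝ) + 2) - ((m : ℝ) + 1) * sq x ^ 2))) *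
      (x * Real.exp l) ≤ 1) (hm15 : m ≤ 14) :
    -(3 / 2 * (x ^ 2 / sq x ^ 2)) * l ^ 2 ≤
      sq x * (bg (x * Real.exp l) - bg x) + x ^ 2 * l / (1 + sq x) ^ 2 := by
  obtain ⟨hs, hs1, hsx⟩ := pc_sq_facts hx
  rcases le_or_gt (x ^ 2) (3 / 7) with h | h
  · have h2 := Corr.corr_A hx.1 h h1 (by rw [hsx]; exact hl)
    refine le_trans ?_ h2
    have h3 : 2 / 5 + 13 * x ^ 2 / 20 + 22 * (x ^ 2) ^ 3 / 5 ≤ 3 / 2 := by
      have h4 : (x ^ 2) ^ 3 ≤ (3 / 7) ^ 3 := pow_le_pow_left₀ (sq_nonneg x) h 3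
      linarith only [h, h4]
    have h5 : 0 ≤ x ^ 2 / sq x ^ 2 * l ^ 2 := by (clear * - hs; positivity)
    nlinarith only [h3, h5]
  · refine Corr.corr_C hx.1 hx.2 h.le (le_trans ?_ ht)
    have hxl : 0 < x * Real.exp l := mul_pos hx.1 (Real.exp_pos l)
    apply mul_le_mul_of_nonneg_right _ hxl.le
    have hmr : (m : ℝ) ≤ 14 := by exact_mod_cast hm15
    have hs2 : sq x ^ 2 ≤ 1 := by nlinarith only [hsx]
    have hG : 0 < ((m : ℝ) + 2) - ((m : ℝ) + 1) * sq x ^ 2 := by nlinarith only [hsx]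
    have hG2 : ((m : ℝ) + 2) - ((m : ℝ) + 1) * sq x ^ 2 ≤ 16 - 15 * sq x ^ 2 := by nlinarith only [hsx, hmr]
    have h6 : sq x ^ 2 / (16 - 15 * sq x ^ 2) ≤
        sq x ^ 2 / (((m : ℝ) + 2) - ((m : ℝ) + 1) * sq x ^ 2) :=
      div_le_div_of_nonneg_left (sq_nonneg _) hG hG2
    have h7 : 0 ≤ sq x ^ 2 / (((m : ℝ) + 2) - ((m : ℝ) + 1) * sq x ^ 2) := by (clear * - hs hG; positivity)
    nlinarith only [h6, hu, h7]

theorem expow_R (x y : ℝ) (n : ℕ) : (expow Ex.X n).R x y = x ^ n := by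
  induction n with
  | zero => simp only [expow, Ex.R_c, Fr.R, Int.cast_one, CharP.cast_eq_zero, zero_add, ne_eq, one_ne_zero, not_false_eq_true, div_self, pow_zero]
  | succ n ih =>
    simp only [expow, Ex.R_mul, Ex.R_X, ih, pow_succ]
    ring

/-- **the pointwise inequality, `x > x₀`, `u ≤ 0`**, one piece -/
theorem point_RM {D : Dat} {lamL : ℝ} (hn : D.Num lamL) (hρ : RhoOK D) {rb : Ex} {ex : ℕ}
    {s0 s1 e0 e1 : ℤ} {t : PT} (hs01 : s0 < s1) (he01 : e0 < e1)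
    (hk : D.kRM rb ex s0 s1 e0 e1 t = true) {x l u lam : ℝ}
    (hin : PcIn D.P.m D.k.R lamL x l u lam)
    (hxx : 3 / ((D.P.m : ℝ) + 2) < x ^ 2) (hu : u ≤ 0)
    (hsl : (s0 : ℝ) ≤ 1000 * sq x) (hsr : 1000 * sq x ≤ s1)
    (hel : (e0 : ℝ) ≤ 1000 * (1 + u)) (her : 1000 * (1 + u) ≤ e1)
    (hex : sq x ^ ex ≤ 1 + u)
    (hpm : pmf D.P.m u * (1 + u) ≤ rb.R (sq x) (1 + u) * u ^ 2)
    (hrb0 : 0 ≤ rb.R (sq x) (1 + u)) :
    D.P.eps.R * (u ^ 2 / (1 + u)) ≤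
      TR D.P.m x (sq x) l u 0 (1 + D.P.k1.R * lam) (Real.exp (l / D.P.m))
        ((1 + u) ^ (1 / (D.P.m : ℝ))) (bg (x * Real.exp l)) (bg x) 0 0 +
      pcNR D.P.m D.P.a4.R (3 / ((D.P.m : ℝ) + 2)) (x ^ 2) (x ^ 2 / sq x ^ 2) (l - lam) u := by
  obtain ⟨hs, hs1, hsx⟩ := pc_sq_facts hin.hx
  have hx0 := hin.hx.1
  have hm5 : (5 : ℝ) ≤ D.P.m := by exact_mod_cast hn.m5
  have hm0 : 0 < D.P.m := by have := hn.m5; omega
  have hm1 : 1 ≤ D.P.m := by omega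
  have hLo : (D.loRM ex).R (sq x) (1 + u) ≤ 0 := by
    simp only [Dat.loRM, Ex.R_sub, Ex.R_Y, expow_R]
    linarith only [hex]
  have hpsd := pc_getD (tchkE_sound hLo t s0 s1 1000 e0 e1 1000 (by norm_num) (by norm_num) hs01
    he01 hk (by push_cast; exact hsl) (by push_cast; exact hsr) (by push_cast; exact hel)
    (by push_cast; exact her))
  have hF := formRM hpsd hn.e0 hs
  have hly : D.ly.R (sq x) (1 + u) = 1 / 2 + D.lx.R * sq x ^ 2 := by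
    simp only [Dat.ly, Ex.R_add, Ex.R_c, Fr.R12, Ex.R_mul, Ex.R_X]
    ring
  have ht1 : sq x ^ 2 ≤ 1 - 3 / ((D.P.m : ℝ) + 2) := by rw [hsx]; linarith only [hxx]
  have hl : l ≤ sq x ^ 2 * D.ly.R (sq x) (1 + u) := by
    have h1 := pcn_log2 (T := 1 - 3 / ((D.P.m : ℝ) + 2)) (by
      have : 0 < 3 / ((D.P.m : ℝ) + 2) := by (clear * - hm0; positivity)
      linarith only [this]) hn.lx (sq_nonneg (sq x)) ht1
    have h2 : Real.log (1 - sq x ^ 2) = 2 * Real.log x := by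
      rw [hsx, show (1 : ℝ) - (1 - x ^ 2) = x ^ 2 by ring, Real.log_pow]
      (clear * -; norm_num)
    have h3 : Real.log x + l ≤ 0 := by
      have := Real.log_nonpos (mul_pos hx0 (Real.exp_pos l)).le hin.tau1
      rwa [Real.log_mul hx0.ne' (Real.exp_pos l).ne', Real.log_exp] at this
    rw [hly]
    rw [h2] at h1
    nlinarith only [h1, h3]
  have hreg := regRM (l := l) (lam := lam) (z := x ^ 2) (t := sq x ^ 2) (E := 1 + u) hm0 hs
    (by ring) (by rw [hsx]; ring) (sq_nonneg x) hin.hu (by linarith only [hu]) (by linarith only [hxx]) hrb0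
    (by rw [Ex.R_c, Fr.R1]; norm_num) hm1 hl hF
  rw [show 1 + u - 1 = u by ring] at hreg
  refine hreg.trans (add_le_add_left (pc_low_in hn hin le_rfl ?_ (hρ.nn u hin.hu) ?_) _)
  · rw [Ex.R_c, Fr.R2]
    exact corr_R2 hin.hx hin.tau1 hin.sgn
  · rw [div_mul_eq_mul_div, le_div_iff₀ hin.hu]
    exact hpm

/-- the tail bound in the form used for `u ≥ 0` -/
theorem pc_tail_in {D : Dat} {lamL : ℝ} (hn : D.Num lamL) {x l u lam y : ℝ}
    (hin : PcIn D.P.m D.k.R lamL x l u lam)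
    (hxx : 3 / ((D.P.m : ℝ) + 2) < x ^ 2) {D2 : ℝ}
    (hD2 : D2 * (1 + u) = 2 * (((D.P.m : ℝ) + 2) - ((D.P.m : ℝ) + 1) * sq x ^ 2) +
      sq x ^ 2 * (1 + u)) :
    0 < D2 ∧ l ≤ sq x ^ 2 * (D.lp.R (sq x) y - 2 / D2) := by
  obtain ⟨hs, hs1, hsx⟩ := pc_sq_facts hin.hx
  have hx0 := hin.hx.1
  have hm5 : (5 : ℝ) ≤ D.P.m := by exact_mod_cast hn.m5
  have hu := hin.hu
  have hs2 : sq x ^ 2 < 1 := by nlinarith only [hs1, hs]
  have hs20 : 0 < sq x ^ 2 := by (clear * - hs; positivity)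
  have hG : 0 < ((D.P.m : ℝ) + 2) - ((D.P.m : ℝ) + 1) * sq x ^ 2 := by nlinarith only [hs2]
  have hD0 : 0 < D2 := by
    have h1 : 0 < D2 * (1 + u) := by
      rw [hD2]
      (clear * - hG hs hu; positivity)
    exact (pos_iff_pos_of_mul_pos h1).2 hu
  refine ⟨hD0, ?_⟩
  have hlp : D.lp.R (sq x) y = 1 / 2 + 1 / 4 * sq x ^ 2 + 1 / 6 * (sq x ^ 2) ^ 2 +
      D.c4.R * (sq x ^ 2) ^ 3 := by
    simp only [Dat.lp, Ex.R_add, Ex.R_mul, Ex.R_c, Ex.R_X, Fr.R12]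
    have r4 : Fr.R ⟨1, 3⟩ = 1 / 4 := by simp only [Fr.R, Int.cast_one, Nat.cast_ofNat, one_div, inv_inj]; norm_num
    have r6 : Fr.R ⟨1, 5⟩ = 1 / 6 := by simp only [Fr.R, Int.cast_one, Nat.cast_ofNat, one_div, inv_inj]; norm_num
    rw [r4, r6]
    ring
  have ht1 : sq x ^ 2 ≤ 1 - 3 / ((D.P.m : ℝ) + 2) := by rw [hsx]; linarith only [hxx]
  have h1 := pcn_log4 (T := 1 - 3 / ((D.P.m : ℝ) + 2)) (by
      have : 0 < 3 / ((D.P.m : ℝ) + 2) := by positivity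
      linarith only [this]) hn.c4 (sq_nonneg (sq x)) ht1
  refine pcn_tail (q := (1 + u) * (sq x ^ 2 / (((D.P.m : ℝ) + 2) -
    ((D.P.m : ℝ) + 1) * sq x ^ 2))) hx0 hsx (by (clear * - hu hs hG; positivity)) ?_ ?_ hin.tail
  · rw [hlp]
    refine h1.trans_eq ?_
    ring
  · have hDne := hD0.ne'
    have hGne := hG.ne'
    set G := ((D.P.m : ℝ) + 2) - ((D.P.m : ℝ) + 1) * sq x ^ 2 with hGdef
    have h2 : 2 + (1 + u) * (sq x ^ 2 / G) = D2 * (1 + u) / G := by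
      rw [hD2]
      (clear * - hGne hG hu hs; field_simp)
    rw [h2]
    have hune := hu.ne'
    field_simp

/-- **the pointwise inequality, `x > x₀`, `u ≥ 0`**, from the positivity of the form -/
theorem point_RP {D : Dat} {lamL : ℝ} (hn : D.Num lamL) (hρ : RhoOK D) (hm14 : D.P.m ≤ 14)
    {kap rb : Ex} {x l u lam be : ℝ}
    (hin : PcIn D.P.m D.k.R lamL x l u lam)
    (hxx : 3 / ((D.P.m : ℝ) + 2) < x ^ 2) (hu : 0 ≤ u) (hbe : be = 1 / (1 + u))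
    (hpsd : ∀ p ∈ psdE (entRP Ex.c D.P kap D.lp (Ex.c ⟨3, 1⟩) rb Ex.X Ex.Y), 0 ≤ p.R (sq x) be)
    (hkap : 0 ≤ kap.R (sq x) be)
    (hpm : pmf D.P.m u * (1 + u) ≤ rb.R (sq x) be * u ^ 2)
    (hrb0 : 0 ≤ rb.R (sq x) be) :
    D.P.eps.R * (u ^ 2 / (1 + u)) ≤
      TR D.P.m x (sq x) l u 0 (1 + D.P.k1.R * lam) (Real.exp (l / D.P.m))
        ((1 + u) ^ (1 / (D.P.m : ℝ))) (bg (x * Real.exp l)) (bg x) 0 0 +
      pcNR D.P.m D.P.a4.R (3 / ((D.P.m : ℝ) + 2)) (x ^ 2) (x ^ 2 / sq x ^ 2) (l - lam) u := by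
  obtain ⟨hs, hs1, hsx⟩ := pc_sq_facts hin.hx
  have hx0 := hin.hx.1
  have hm5 : (5 : ℝ) ≤ D.P.m := by exact_mod_cast hn.m5
  have hm0 : 0 < D.P.m := by have := hn.m5; omega
  have hm1 : 1 ≤ D.P.m := by omega
  have hu1 := hin.hu
  have hune := hu1.ne'
  have hbe0 : 0 < be := by rw [hbe]; (clear * - hu; positivity)
  have hbu : be * (1 + u) = 1 := by rw [hbe]; (clear * - hune; field_simp)
  obtain ⟨hD0, hl⟩ := pc_tail_in hn (y := be) hin hxx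
    (D2 := 2 * be * ((D.P.m : ℝ) + 2 - ((D.P.m : ℝ) + 1) * sq x ^ 2) + sq x ^ 2) (by
      have : (2 * be * ((D.P.m : ℝ) + 2 - ((D.P.m : ℝ) + 1) * sq x ^ 2) + sq x ^ 2) * (1 + u) =
        2 * ((D.P.m : ℝ) + 2 - ((D.P.m : ℝ) + 1) * sq x ^ 2) * (be * (1 + u)) +
          sq x ^ 2 * (1 + u) := by ring
      rw [this, hbu, mul_one])
  have hF := formRP hpsd hn.e0 hs (by rw [← pow_two]; exact hD0)
  have hreg := regRP (l := l) (lam := lam) (z := x ^ 2) (t := sq x ^ 2) (u := u) hm0 hs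
    (by ring) (by rw [hsx]; ring) (sq_nonneg x) hbe0 (by rw [hbe]; field_simp; ring)
    (by linarith only [hxx]) hrb0 hkap hm1 hD0 hl hF
  refine hreg.trans (add_le_add_left (pc_low_in hn hin le_rfl ?_ (hρ.nn u hin.hu) ?_) _)
  · rw [Ex.R_c, Fr.R32]
    exact corr_R3 hin.hx hu hin.tau1 hin.sgn hin.tail hm14
  · rw [div_mul_eq_mul_div, le_div_iff₀ hin.hu]
    exact hpm

theorem point_RP1 {D : Dat} {lamL : ℝ} (hn : D.Num lamL) (hρ : RhoOK D) (hm14 : D.P.m ≤ 14)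
    {t : PT} (hk : D.kRP1 t = true) {x l u lam : ℝ}
    (hin : PcIn D.P.m D.k.R lamL x l u lam)
    (hxx : 3 / ((D.P.m : ℝ) + 2) < x ^ 2) (hu : 0 ≤ u) (hsl : 200 ≤ 1000 * sq x)
    (hsr : 1000 * sq x ≤ D.S0) (hb : 7 * (1 + u) ≤ 20) :
    D.P.eps.R * (u ^ 2 / (1 + u)) ≤
      TR D.P.m x (sq x) l u 0 (1 + D.P.k1.R * lam) (Real.exp (l / D.P.m))
        ((1 + u) ^ (1 / (D.P.m : ℝ))) (bg (x * Real.exp l)) (bg x) 0 0 +
      pcNR D.P.m D.P.a4.R (3 / ((D.P.m : ℝ) + 2)) (x ^ 2) (x ^ 2 / sq x ^ 2) (l - lam) u := by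
  obtain ⟨hs, hs1, hsx⟩ := pc_sq_facts hin.hx
  have hx0 := hin.hx.1
  have hu1 := hin.hu
  have hune := hu1.ne'
  obtain ⟨be, hbe⟩ : ∃ be, be = 1 / (1 + u) := ⟨_, rfl⟩
  have hbe0 : 0 < be := by rw [hbe]; (clear * - hu; positivity)
  have hbu : be * (1 + u) = 1 := by rw [hbe]; field_simp
  have hbe1 : be ≤ 1 := by nlinarith only [hbu, hu]
  have hb35 : 35 ≤ 100 * be := by nlinarith only [hb, hbu, hu]
  have hk0 := hn.kpos
  have hLo : D.loRP.R (sq x) be ≤ 0 := by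
    simp only [Dat.loRP, Ex.R_sub, Ex.R_mul, Ex.R_c, Ex.R_X, Ex.R_Y, Fr.R1]
    have h1 : (1 - be) * sq x ≤ be * D.k.R * x := by
      have h2 := mul_le_mul_of_nonneg_left hin.uk hbe0.le
      have h3 : be * u = 1 - be := by linarith only [hbu]
      calc (1 - be) * sq x = be * (u * sq x) := by rw [← h3]; ring
        _ ≤ be * (D.k.R * x) := h2
        _ = be * D.k.R * x := by ring
    have h4 := pow_le_pow_left₀ (by have : 0 ≤ 1 - be := by linarith only [hbe1]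
                                    (clear * - hbe1 hs; positivity)) h1 2
    have h5 : (be * D.k.R * x) ^ 2 = be * be * (D.k.R * D.k.R) * (1 - sq x * sq x) := by
      have : x ^ 2 = 1 - sq x * sq x := by rw [← pow_two, hsx]; ring
      rw [mul_pow, this]
      ring
    rw [h5] at h4
    linarith only [h4]
  have hpm : pmf D.P.m u * (1 + u) ≤ D.rbP.R (sq x) be * u ^ 2 := by
    have h1 := hρ.e u hu (1 - be) (by linarith only [hbu]) (by linarith only [hb35])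
    refine h1.trans_eq ?_
    simp only [Dat.rbP, Ex.R_add, Ex.R_c, Ex.R_mul, Ex.R_sub, Fr.R1, Ex.R_Y]
  have hrb0 : 0 ≤ D.rbP.R (sq x) be := by
    rcases hu.eq_or_lt with h | h
    · have h1 : be = 1 := by rw [hbe, ← h]; norm_num
      simp only [Dat.rbP, Ex.R_add, Ex.R_sub, Ex.R_mul, Ex.R_c, Ex.R_Y, Fr.R1, h1]
      simpa only [sub_self, mul_zero, add_zero, ge_iff_le] using hn.r0
    · have h1 : 0 ≤ pmf D.P.m u * (1 + u) := mul_nonneg (hρ.nn u hin.hu) hin.hu.le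
      exact nonneg_of_mul_nonneg_left (h1.trans hpm) (by (clear * - h; positivity))
  have hor := pc_getD2 (tchkE_sound hLo t 200 D.S0 1000 35 100 100 (by norm_num) (by norm_num)
    (by exact_mod_cast hn.S0pos) (by norm_num) hk (by push_cast; linarith only [hsl])
    (by push_cast; exact hsr) (by push_cast; linarith only [hb35]) (by push_cast; linarith only [hbe1]))
  rcases hor with h | h
  · exact point_RP hn hρ hm14 hin hxx hu hbe h (by rw [Ex.R_c]; unfold Fr.R; norm_num) hpm hrb0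
  · exact point_RP hn hρ hm14 hin hxx hu hbe h (by rw [Ex.R_c]; unfold Fr.R; norm_num) hpm hrb0

theorem point_RP2 {D : Dat} {lamL : ℝ} (hn : D.Num lamL) (hρ : RhoOK D) (hm14 : D.P.m ≤ 14)
    {t : PT} (hk : D.kRP2 t = true) {x l u lam : ℝ}
    (hin : PcIn D.P.m D.k.R lamL x l u lam)
    (hxx : 3 / ((D.P.m : ℝ) + 2) < x ^ 2) (hu : 0 ≤ u) (hsl : 200 ≤ 1000 * sq x)
    (hsr : 1000 * sq x ≤ D.S0) (hb : 20 ≤ 7 * (1 + u)) :
    D.P.eps.R * (u ^ 2 / (1 + u)) ≤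
      TR D.P.m x (sq x) l u 0 (1 + D.P.k1.R * lam) (Real.exp (l / D.P.m))
        ((1 + u) ^ (1 / (D.P.m : ℝ))) (bg (x * Real.exp l)) (bg x) 0 0 +
      pcNR D.P.m D.P.a4.R (3 / ((D.P.m : ℝ) + 2)) (x ^ 2) (x ^ 2 / sq x ^ 2) (l - lam) u := by
  obtain ⟨hs, hs1, hsx⟩ := pc_sq_facts hin.hx
  have hx0 := hin.hx.1
  have hu1 := hin.hu
  have hune := hu1.ne'
  obtain ⟨be, hbe⟩ : ∃ be, be = 1 / (1 + u) := ⟨_, rfl⟩
  have hbe0 : 0 < be := by rw [hbe]; (clear * - hu; positivity)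
  have hbu : be * (1 + u) = 1 := by rw [hbe]; field_simp
  have hbe1 : be ≤ 1 := by nlinarith only [hbu, hu]
  have hb35 : 100 * be ≤ 35 := by nlinarith only [hb, hbu]
  have hk0 := hn.kpos
  have hLo : D.loRP.R (sq x) be ≤ 0 := by
    simp only [Dat.loRP, Ex.R_sub, Ex.R_mul, Ex.R_c, Ex.R_X, Ex.R_Y, Fr.R1]
    have h1 : (1 - be) * sq x ≤ be * D.k.R * x := by
      have h2 := mul_le_mul_of_nonneg_left hin.uk hbe0.le
      have h3 : be * u = 1 - be := by linarith only [hbu]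
      calc (1 - be) * sq x = be * (u * sq x) := by rw [← h3]; ring
        _ ≤ be * (D.k.R * x) := h2
        _ = be * D.k.R * x := by ring
    have h4 := pow_le_pow_left₀ (by have : 0 ≤ 1 - be := by linarith only [hbe1]
                                    (clear * - hbe1 hs; positivity)) h1 2
    have h5 : (be * D.k.R * x) ^ 2 = be * be * (D.k.R * D.k.R) * (1 - sq x * sq x) := by
      have : x ^ 2 = 1 - sq x * sq x := by rw [← pow_two, hsx]; ring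
      rw [mul_pow, this]
      ring
    rw [h5] at h4
    linarith only [h4]
  have hpm : pmf D.P.m u * (1 + u) ≤ D.rbQ.R (sq x) be * u ^ 2 := by
    have h1 := hρ.f u hu (by linarith only [hb])
    simp only [Dat.rbQ, Ex.R_sub, Ex.R_c, Fr.R1, Ex.R_mul, Ex.R_Y]
    have h2 := mul_le_mul_of_nonneg_left h1 hbe0.le
    have e1 : be * (pmf D.P.m u * (1 + u) ^ 2) = pmf D.P.m u * (1 + u) * (be * (1 + u)) := by ring
    have e2 : be * ((1 + u - D.q4.R) * u ^ 2) = (be * (1 + u) - D.q4.R * be) * u ^ 2 := by ring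
    rw [e1, e2, hbu, mul_one] at h2
    exact h2
  have hrb0 : 0 ≤ D.rbQ.R (sq x) be := by
    have h0 : 0 < u := by linarith only [hb]
    have h1 : 0 ≤ pmf D.P.m u * (1 + u) := mul_nonneg (hρ.nn u hin.hu) hin.hu.le
    exact nonneg_of_mul_nonneg_left (h1.trans hpm) (by (clear * - h0; positivity))
  have h := pc_getD (tchkE_sound hLo t 200 D.S0 1000 0 35 100 (by norm_num) (by norm_num)
    (by exact_mod_cast hn.S0pos) (by norm_num) hk (by push_cast; linarith only [hsl])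
    (by push_cast; exact hsr) (by push_cast; linarith only [hbe0]) (by push_cast; linarith only [hb35]))
  exact point_RP hn hρ hm14 hin hxx hu hbe h (by rw [Ex.R_c]; unfold Fr.R; norm_num) hpm hrb0

/-- **the pointwise inequality, `s ≤ 1/5`, `u ≥ 0`**, from the positivity of the form -/
theorem point_RSk {D : Dat} {lamL : ℝ} (hn : D.Num lamL) (hρ : RhoOK D) (hm14 : D.P.m ≤ 14)
    {kap : Ex} {x l u lam v : ℝ}
    (hin : PcIn D.P.m D.k.R lamL x l u lam)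
    (hxx : 3 / ((D.P.m : ℝ) + 2) < x ^ 2) (hu : 0 ≤ u) (hv : v = u * sq x)
    (hpsd : ∀ p ∈ psdE (entRS Ex.c D.P kap D.lp (Ex.c ⟨3, 1⟩) (Ex.c D.r0) Ex.X Ex.Y),
      0 ≤ p.R (sq x) v)
    (hkap : 0 ≤ kap.R (sq x) v) :
    D.P.eps.R * (u ^ 2 / (1 + u)) ≤
      TR D.P.m x (sq x) l u 0 (1 + D.P.k1.R * lam) (Real.exp (l / D.P.m))
        ((1 + u) ^ (1 / (D.P.m : ℝ))) (bg (x * Real.exp l)) (bg x) 0 0 +
      pcNR D.P.m D.P.a4.R (3 / ((D.P.m : ℝ) + 2)) (x ^ 2) (x ^ 2 / sq x ^ 2) (l - lam) u := by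
  obtain ⟨hs, hs1, hsx⟩ := pc_sq_facts hin.hx
  have hx0 := hin.hx.1
  have hm5 : (5 : ℝ) ≤ D.P.m := by exact_mod_cast hn.m5
  have hm0 : 0 < D.P.m := by have := hn.m5; omega
  have hm1 : 1 ≤ D.P.m := by omega
  have hu1 := hin.hu
  have hune := hu1.ne'
  have hv0 : 0 ≤ v := by rw [hv]; (clear * - hu hs; positivity)
  have hq : sq x + v = sq x * (1 + u) := by rw [hv]; ring
  have hq0 : 0 < sq x + v := by (clear * - hs hv0; positivity)
  obtain ⟨hD0, hl⟩ := pc_tail_in hn (y := v) hin hxx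
    (D2 := (2 * sq x * ((D.P.m : ℝ) + 2 - ((D.P.m : ℝ) + 1) * sq x ^ 2) +
      sq x ^ 2 * (sq x + v)) / (sq x + v)) (by
      rw [hq]
      field_simp)
  have hD1 : 0 < 2 * sq x * ((D.P.m : ℝ) + 2 - ((D.P.m : ℝ) + 1) * sq x ^ 2) +
      sq x ^ 2 * (sq x + v) := by
    rw [div_pos_iff_of_pos_right hq0] at hD0
    exact hD0
  have hF := formRS hpsd hn.e0 hs (by
    have : sq x * sq x = sq x ^ 2 := by ring
    rw [this]
    exact hD1)
  have hreg := regRS (l := l) (lam := lam) (z := x ^ 2) (t := sq x ^ 2) (u := u) hm0 hs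
    (by ring) (by rw [hsx]; ring) (sq_nonneg x) hv0 hv
    (by linarith only [hxx]) (by rw [Ex.R_c]; exact hn.r0) hkap hm1 hD1 (by
      refine hl.trans_eq ?_
      rw [div_div_eq_mul_div]) hF
  refine hreg.trans (add_le_add_left (pc_low_in hn hin le_rfl ?_ (hρ.nn u hin.hu) ?_) _)
  · rw [Ex.R_c, Fr.R32]
    exact corr_R3 hin.hx hu hin.tau1 hin.sgn hin.tail hm14
  · have h1 := hρ.g u hu
    have e1 : ((Ex.c D.r0).R (sq x) v * sq x + v) / (sq x + v) / (1 + u) =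
        (D.r0.R + u) / (1 + u) ^ 2 := by
      rw [Ex.R_c, hq, hv]
      (clear * - hs hune; field_simp)
    rw [e1, div_mul_eq_mul_div, le_div_iff₀ (by (clear * - hu; positivity))]
    exact h1

theorem point_RS {D : Dat} {lamL : ℝ} (hn : D.Num lamL) (hρ : RhoOK D) (hm14 : D.P.m ≤ 14)
    {t : PT} (hk : D.kRS t = true) {x l u lam : ℝ}
    (hin : PcIn D.P.m D.k.R lamL x l u lam)
    (hxx : 3 / ((D.P.m : ℝ) + 2) < x ^ 2) (hu : 0 ≤ u) (hsr : 1000 * sq x ≤ 200) :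
    D.P.eps.R * (u ^ 2 / (1 + u)) ≤
      TR D.P.m x (sq x) l u 0 (1 + D.P.k1.R * lam) (Real.exp (l / D.P.m))
        ((1 + u) ^ (1 / (D.P.m : ℝ))) (bg (x * Real.exp l)) (bg x) 0 0 +
      pcNR D.P.m D.P.a4.R (3 / ((D.P.m : ℝ) + 2)) (x ^ 2) (x ^ 2 / sq x ^ 2) (l - lam) u := by
  obtain ⟨hs, hs1, hsx⟩ := pc_sq_facts hin.hx
  have hx0 := hin.hx.1
  obtain ⟨v, hv⟩ : ∃ v, v = u * sq x := ⟨_, rfl⟩
  have hv0 : 0 ≤ v := by rw [hv]; (clear * - hu hs; positivity)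
  have hv1 : v ≤ (D.K0 : ℝ) / 1000 := by
    have h1 := hin.uk
    have h2 : D.k.R * x ≤ D.k.R * 1 := mul_le_mul_of_nonneg_left hin.hx.2.le hn.kpos
    rw [hv]
    linarith only [h1, h2, hn.k0]
  have hLo : (Ex.c ⟨0, 0⟩).R (sq x) v ≤ 0 := by
    rw [Ex.R_c]
    simp [Fr.R]
  have hor := pc_getD2 (tchkE_sound hLo t 0 200 1000 0 D.K0 1000 (by norm_num) (by norm_num)
    (by norm_num) (by exact_mod_cast hn.K0pos) hk (by push_cast; linarith only [hs])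
    (by push_cast; exact hsr) (by push_cast; linarith only [hv0]) (by push_cast; linarith only [hv1]))
  rcases hor with h | h
  · exact point_RSk hn hρ hm14 hin hxx hu hv h (by rw [Ex.R_c]; unfold Fr.R; norm_num)
  · exact point_RSk hn hρ hm14 hin hxx hu hv h (by rw [Ex.R_c]; unfold Fr.R; norm_num)

end Vale.Agent.P237.AllN
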