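import Vale.Agent.P237.AllN.PcPr
import Vale.Agent.P237.AllN.Brid9
import Vale.Agent.P237.AllN.PcIn2
import Vale.Agent.P237.AllN.LStarFin
import Vale.Agent.P237.AllN.Brid8

/-!
# P237, plain certificate (m ≥ 5): the pointwise inequality and `OneD`
-/

open Set

namespace Vale.Agent.P237.AllN

open PolyPos

/-- the check of one piece of the region `x > x₀`, `u ≤ 0` -/
def Dat.RMok (D : Dat) (rb : Ex) (e0 e1 : ℤ) : Prop :=
  (∃ t, D.kRM rb D.P.m 0 D.S0 e0 e1 t = true) ∨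
  (D.P.m = 5 ∧ 664 < D.S0 ∧ (∃ t, D.kRM rb 5 0 664 e0 e1 t = true) ∧
    ∃ t, D.kRM rb 4 664 D.S0 e0 e1 t = true)

/-- all the checks -/
structure Dat.Chk (D : Dat) : Prop where
  lp : ∃ t, D.kLP t = true
  lm : ∃ t, D.kLM t = true
  rmT : D.RMok D.rbT 250 1000
  rmG : D.RMok D.rbG 6 250
  rmC : D.RMok D.rbC 0 6
  rp1 : ∃ t, D.kRP1 t = true
  rp2 : ∃ t, D.kRP2 t = true
  rs : ∃ t, D.kRS t = true

theorem point_L {D : Dat} {lamL : ℝ} (hn : D.Num lamL) (hρ : RhoOK D) (hc : D.Chk)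
    {x l u lam : ℝ} (hin : PcIn D.P.m D.k.R lamL x l u lam)
    (hxx : x ^ 2 < 3 / ((D.P.m : ℝ) + 2)) :
    D.P.eps.R * (u ^ 2 / (1 + u)) ≤
      TR D.P.m x (sq x) l u 0 (1 + D.P.k1.R * lam) (Real.exp (l / D.P.m))
        ((1 + u) ^ (1 / (D.P.m : ℝ))) (bg (x * Real.exp l)) (bg x) 0 0 +
      pcNL D.P.m D.P.a1.R D.P.a2.R D.P.a3.R (3 / ((D.P.m : ℝ) + 2)) (x ^ 2) (x ^ 2 / sq x ^ 2)
        (l - lam) u lam := by
  rcases le_total 0 u with hu | hu
  · obtain ⟨t, ht⟩ := hc.lp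
    exact point_LP hn hρ ht hin hxx hu
  · obtain ⟨t, ht⟩ := hc.lm
    exact point_LM hn hρ ht hin hxx hu

theorem point_RMp {D : Dat} {lamL : ℝ} (hn : D.Num lamL) (hρ : RhoOK D)
    {rb : Ex} {e0 e1 : ℤ} (he01 : e0 < e1) (hc : D.RMok rb e0 e1)
    {x l u lam : ℝ} (hin : PcIn D.P.m D.k.R lamL x l u lam)
    (hxx : 3 / ((D.P.m : ℝ) + 2) < x ^ 2) (hu : u ≤ 0) (hS : 1000 * sq x ≤ D.S0)
    (hel : (e0 : ℝ) ≤ 1000 * (1 + u)) (her : 1000 * (1 + u) ≤ e1)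
    (hpm : pmf D.P.m u * (1 + u) ≤ rb.R (sq x) (1 + u) * u ^ 2)
    (hrb0 : 0 ≤ rb.R (sq x) (1 + u)) :
    D.P.eps.R * (u ^ 2 / (1 + u)) ≤
      TR D.P.m x (sq x) l u 0 (1 + D.P.k1.R * lam) (Real.exp (l / D.P.m))
        ((1 + u) ^ (1 / (D.P.m : ℝ))) (bg (x * Real.exp l)) (bg x) 0 0 +
      pcNR D.P.m D.P.a4.R (3 / ((D.P.m : ℝ) + 2)) (x ^ 2) (x ^ 2 / sq x ^ 2) (l - lam) u := by
  obtain ⟨hs, hs1, hsx⟩ := pc_sq_facts hin.hx
  rcases hc with ⟨t, ht⟩ | ⟨h5, hS5, ⟨t1, ht1⟩, ⟨t2, ht2⟩⟩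
  · exact point_RM hn hρ (by have := hn.S0pos; omega) he01 ht hin hxx hu
      (by push_cast; positivity) (by push_cast; exact hS) hel her hin.Es hpm hrb0
  · rcases le_total (1000 * sq x) 664 with h | h
    · exact point_RM hn hρ (by norm_num) he01 ht1 hin hxx hu
        (by push_cast; positivity) (by push_cast; exact h) hel her (by rw [← h5]; exact hin.Es)
        hpm hrb0
    · exact point_RM hn hρ (by omega) he01 ht2 hin hxx hu
        (by push_cast; exact h) (by push_cast; exact hS) hel her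
        (hin.E4 h5 (by nlinarith only [hsx, h])) hpm hrb0

theorem point_R {D : Dat} {lamL : ℝ} (hn : D.Num lamL) (hρ : RhoOK D) (hc : D.Chk)
    (hm14 : D.P.m ≤ 14) {x l u lam : ℝ} (hin : PcIn D.P.m D.k.R lamL x l u lam)
    (hxx : 3 / ((D.P.m : ℝ) + 2) < x ^ 2) :
    D.P.eps.R * (u ^ 2 / (1 + u)) ≤
      TR D.P.m x (sq x) l u 0 (1 + D.P.k1.R * lam) (Real.exp (l / D.P.m))
        ((1 + u) ^ (1 / (D.P.m : ℝ))) (bg (x * Real.exp l)) (bg x) 0 0 +
      pcNR D.P.m D.P.a4.R (3 / ((D.P.m : ℝ) + 2)) (x ^ 2) (x ^ 2 / sq x ^ 2) (l - lam) u := by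
  obtain ⟨hs, hs1, hsx⟩ := pc_sq_facts hin.hx
  have hu1 := hin.hu
  have hS : 1000 * sq x ≤ D.S0 := by
    have h1 : sq x ^ 2 ≤ ((D.S0 : ℝ) / 1000) ^ 2 := by rw [hsx]; linarith only [hxx, hn.s0]
    have := le_of_sq_le_sq h1 (by (clear * -; positivity))
    linarith only [this]
  rcases le_total 0 u with hu | hu
  · rcases le_total (1000 * sq x) 200 with h | h
    · obtain ⟨t, ht⟩ := hc.rs
      exact point_RS hn hρ hm14 ht hin hxx hu h
    · rcases le_total (7 * (1 + u)) 20 with h2 | h2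
      · obtain ⟨t, ht⟩ := hc.rp1
        exact point_RP1 hn hρ hm14 ht hin hxx hu h hS h2
      · obtain ⟨t, ht⟩ := hc.rp2
        exact point_RP2 hn hρ hm14 ht hin hxx hu h hS h2
  · rcases le_total (1 / 4) (1 + u) with h | h
    · have hpm : pmf D.P.m u * (1 + u) ≤ D.rbT.R (sq x) (1 + u) * u ^ 2 := by
        refine (hρ.b u hu1 hu).trans_eq ?_
        simp only [Dat.rbT, Ex.R_add, Ex.R_sub, Ex.R_mul, Ex.R_c, Ex.R_Y, Fr.R1]
        ring
      refine point_RMp hn hρ (by norm_num) hc.rmT hin hxx hu hS (by push_cast; linarith only [h])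
        (by push_cast; linarith only [hu]) hpm ?_
      rcases hu.eq_or_lt with h0 | h0
      · simp only [Dat.rbT, Ex.R_add, Ex.R_sub, Ex.R_mul, Ex.R_c, Ex.R_Y, Fr.R1, h0]
        simpa only [add_zero, sub_self, mul_zero, sub_zero] using hn.r0
      · have h1 : 0 ≤ pmf D.P.m u * (1 + u) := mul_nonneg (hρ.nn u hu1) hu1.le
        have h2 : 0 < u ^ 2 := by
          have := h0.ne
          positivity
        exact nonneg_of_mul_nonneg_left (h1.trans hpm) h2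
    · have h0 : u < 0 := by linarith only [h]
      have h2 : 0 < u ^ 2 := by
        have := h0.ne
        positivity
      rcases le_total (3 / 500) (1 + u) with h3 | h3
      · have hpm : pmf D.P.m u * (1 + u) ≤ D.rbG.R (sq x) (1 + u) * u ^ 2 := by
          refine (hρ.c u h3 h).trans_eq ?_
          simp only [Dat.rbG, Ex.R_add, Ex.R_mul, Ex.R_c, Ex.R_Y]
        refine point_RMp hn hρ (by norm_num) hc.rmG hin hxx hu hS (by push_cast; linarith only [h3])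
          (by push_cast; linarith only [h]) hpm ?_
        have h1 : 0 ≤ pmf D.P.m u * (1 + u) := mul_nonneg (hρ.nn u hu1) hu1.le
        exact nonneg_of_mul_nonneg_left (h1.trans hpm) h2
      · have hpm : pmf D.P.m u * (1 + u) ≤ D.rbC.R (sq x) (1 + u) * u ^ 2 := by
          have h4 := mul_le_mul_of_nonneg_right (hρ.d u hu1 hu) hu1.le
          refine h4.trans_eq ?_
          simp only [Dat.rbC, Ex.R_mul, Ex.R_c, Ex.R_Y, Pm.c1_R]
          ring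
        refine point_RMp hn hρ (by norm_num) hc.rmC hin hxx hu hS (by push_cast; linarith only [hu1])
          (by push_cast; linarith only [h3]) hpm ?_
        have h1 : 0 ≤ pmf D.P.m u * (1 + u) := mul_nonneg (hρ.nn u hu1) hu1.le
        exact nonneg_of_mul_nonneg_left (h1.trans hpm) h2

/-- the inputs for a given dimension -/
def InOK (m : ℕ) (k lamL : ℝ) : Prop :=
  ∀ r τ τ' T : ℝ → ℝ, IsProf r → IsTrans m r τ τ' T →
    (∫ y in (-1 : ℝ)..1, r y ^ (m - 1)) ^ m * aInt m ^ (m - 1) ≤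
      aInt (m - 1) ^ m * (∫ y in (-1 : ℝ)..1, r y ^ m) ^ (m - 1) →
    ∀ x₀ : ℝ, x₀ ∈ Ioo (0 : ℝ) 1 → x₀ ^ 2 = 3 / ((m : ℝ) + 2) →
    ∀ x ∈ Ioo (0 : ℝ) 1, PcIn m k lamL x (lf τ x) (uf τ τ' x) (lf τ x₀)

/-- **`OneD` from the certificate.** -/
theorem oneD_of_dat {D : Dat} {lamL : ℝ} (hn : D.Num lamL) (hρ : RhoOK D) (hc : D.Chk)
    (hm14 : D.P.m ≤ 14) (heps : 0 < D.P.eps.R) (hin : InOK D.P.m D.k.R lamL) : OneD D.P.m := by
  have hm5 := hn.m5
  have hm5r : (5 : ℝ) ≤ D.P.m := by exact_mod_cast hm5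
  refine oneD_of_cert (by omega) kA_kern2 (fun x hx b hb => kA_line_ball hx hb) ?_
  intro r τ τ' T hr hT hN
  set x₀ := Real.sqrt (3 / ((D.P.m : ℝ) + 2)) with hx0def
  have hpos : 0 < 3 / ((D.P.m : ℝ) + 2) := by positivity
  have hlt1 : 3 / ((D.P.m : ℝ) + 2) < 1 := by
    rw [div_lt_one (by positivity)]
    linarith only [hm5r]
  have hx0sq : x₀ ^ 2 = 3 / ((D.P.m : ℝ) + 2) := Real.sq_sqrt hpos.le
  have hx0 : x₀ ∈ Ioo (0 : ℝ) 1 := by
    refine ⟨Real.sqrt_pos.2 hpos, ?_⟩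
    have h0 : 0 ≤ x₀ := Real.sqrt_nonneg _
    nlinarith only [hx0sq, hlt1]
  have hIn := hin r τ τ' T hr hT hN x₀ hx0 hx0sq
  have hd2 : ∀ (c : ℝ), ∀ x ∈ Ioo (0 : ℝ) 1, HasDerivAt (fun x : ℝ => c * x ^ 2) (c * (2 * x)) x := by
    intro c x _
    simpa only [Nat.cast_ofNat, Nat.add_one_sub_one, pow_one] using (hasDerivAt_pow 2 x).const_mul c
  have hc2 : ∀ (c : ℝ), ContinuousOn (fun x : ℝ => c * x ^ 2) (Icc 0 1) := fun c => by fun_prop
  have hd0 : ∀ x ∈ Ioo (0 : ℝ) 1, HasDerivAt (fun _ : ℝ => (0 : ℝ)) 0 x :=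
    fun x _ => hasDerivAt_const x 0
  refine cert_pole (by omega) kA_kern2 hr hT hN (XPair.zero _ _ _) ?_ (μ := 1 + D.P.k1.R * lf τ x₀) ?_ hx0
    D.P.a1.R D.P.a4.R (hd2 D.P.a2.R) (hc2 _) hd0 continuousOn_const (hd2 D.P.a3.R) (hc2 _)
    hd0 continuousOn_const hd0 continuousOn_const heps ?_ ?_
  · intro x hx b hb
    have h1 := hT.kA_plain_le_all (by omega) (by omega) hr hN hx hb
    have e : Real.log (τ x / x) = lf τ x := rfl
    rw [e, kAc_bc0 hx, kAp_bM0, ← tau_eq_exp hT hx] at h1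
    simpa using h1
  · have h1 := (hIn x₀ hx0).lamlo
    have h2 := mul_le_mul_of_nonneg_left h1 hn.k1pos
    linarith only [h2, hn.mu0]
  · intro x hx hxx
    have hxx2 : x ^ 2 < 3 / ((D.P.m : ℝ) + 2) := by
      rw [← hx0sq]
      exact pow_lt_pow_left₀ hxx hx.1.le two_ne_zero
    have h1 := point_L hn hρ hc (hIn x hx) hxx2
    rw [← tau_eq_exp hT hx] at h1
    refine h1.trans (le_of_eq ?_)
    unfold brT pcNL
    rw [hx0sq]
    ring
  · intro x hx hxx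
    have hxx2 : 3 / ((D.P.m : ℝ) + 2) < x ^ 2 := by
      rw [← hx0sq]
      exact pow_lt_pow_left₀ hxx hx0.1.le two_ne_zero
    have h1 := point_R hn hρ hc hm14 (hIn x hx) hxx2
    rw [← tau_eq_exp hT hx] at h1
    refine h1.trans (le_of_eq ?_)
    unfold brT pcNR
    rw [hx0sq]
    ring

end Vale.Agent.P237.AllN
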