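import Vale.Agent.P237.AllN.Brid2

/-!
# P237, plain certificate (m ≥ 5): reduction of the pointwise inequality to quadratic forms
-/

namespace Vale.Agent.P237.AllN

/-- positivity of a quadratic form in three variables from minors -/
theorem psd3 {a b c d f g W : ℝ} (hW : 0 < W) (ha : 0 < a) (hab : 0 ≤ a * b - W * d ^ 2)
    (hac : 0 ≤ a * c - W * f ^ 2)
    (hdet : 0 ≤ a * (b * c - g ^ 2) - W * (c * d ^ 2 - 2 * g * d * f + b * f ^ 2)) (X Y Z : ℝ) :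
    0 ≤ a * X ^ 2 + W * (b * Y ^ 2 + c * Z ^ 2 + 2 * d * X * Y + 2 * f * X * Z + 2 * g * Y * Z) := by
  set P := a * b - W * d ^ 2 with hP
  set S := a * c - W * f ^ 2 with hS
  set Q := a * g - W * d * f with hQ
  have hPS : 0 ≤ P * S - Q ^ 2 := by
    have e : P * S - Q ^ 2 =
        a * (a * (b * c - g ^ 2) - W * (c * d ^ 2 - 2 * g * d * f + b * f ^ 2)) := by
      rw [hP, hS, hQ]
      ring
    rw [e]
    exact mul_nonneg ha.le hdet
  have h2 : 0 ≤ P * Y ^ 2 + S * Z ^ 2 + 2 * Q * Y * Z := by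
    rcases hab.eq_or_lt with h0 | h0
    · -- P = 0
      have hQ0 : Q = 0 := by
        have : Q ^ 2 ≤ 0 := by nlinarith only [hPS, hac, h0]
        exact pow_eq_zero_iff (two_ne_zero) |>.1 (le_antisymm this (sq_nonneg Q))
      rw [← h0, hQ0]
      have := mul_nonneg hac (sq_nonneg Z)
      linarith
    · have h3 : 0 ≤ P * (P * Y ^ 2 + S * Z ^ 2 + 2 * Q * Y * Z) := by
        have e : P * (P * Y ^ 2 + S * Z ^ 2 + 2 * Q * Y * Z) =
            (P * Y + Q * Z) ^ 2 + (P * S - Q ^ 2) * Z ^ 2 := by ring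
        rw [e]
        exact add_nonneg (sq_nonneg _) (mul_nonneg hPS (sq_nonneg _))
      exact nonneg_of_mul_nonneg_right h3 h0
  have h4 : 0 ≤ a * (a * X ^ 2 + W * (b * Y ^ 2 + c * Z ^ 2 + 2 * d * X * Y + 2 * f * X * Z +
      2 * g * Y * Z)) := by
    have e : a * (a * X ^ 2 + W * (b * Y ^ 2 + c * Z ^ 2 + 2 * d * X * Y + 2 * f * X * Z +
        2 * g * Y * Z)) = (a * X + W * (d * Y + f * Z)) ^ 2 +
          W * (P * Y ^ 2 + S * Z ^ 2 + 2 * Q * Y * Z) := by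
      rw [hP, hS, hQ]
      ring
    rw [e]
    exact add_nonneg (sq_nonneg _) (mul_nonneg hW.le h2)
  exact nonneg_of_mul_nonneg_right h4 ha

/-- the lower bound of the pointwise functional: `R`, `C`, `ρ` are values of bounding functions -/
noncomputable def pcLow (m k1 th c2 R C ρ y l u lam : ℝ) : ℝ :=
  (m - 1) / (m + 1) * (2 * R - 3 * y * l) * (u ^ 2 / (1 + u))
    - ρ * u ^ 2 * (1 + k1 * lam + l / m + k1 * lam * (l / m) + c2 * l ^ 2)
    + (m - 1) * y * (th / (2 * m) * l ^ 2 + k1 * lam * l)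
    - 3 / 2 * ((m - 1) / (m + 1)) * y * (3 - (m - 3) * y) * l ^ 2
    - (m - 1) / (m + 1) * C * y * l ^ 2

theorem pc_lower {m x s l u lam k1 th c2 R C ρ E V gτ gx : ℝ} (hm : 3 ≤ m) (hs : 0 < s)
    (hu : 0 < 1 + u) (hR : R ≤ 1 - s ^ 2 / (1 + s))
    (hC : -(C * (x ^ 2 / s ^ 2)) * l ^ 2 ≤ s * (gτ - gx) + x ^ 2 * l / (1 + s) ^ 2)
    (hpm0 : 0 ≤ u - m * (V - 1)) (hpm : u - m * (V - 1) ≤ ρ * u ^ 2)
    (hB0 : 0 ≤ (1 + k1 * lam) * E)
    (hB : (1 + k1 * lam) * E ≤ 1 + k1 * lam + l / m + k1 * lam * (l / m) + c2 * l ^ 2)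
    (hTh : th / (2 * m) * l ^ 2 ≤ (1 + k1 * lam) * m * (E - 1) - (1 + k1 * lam) * l) :
    pcLow m k1 th c2 R C ρ (x ^ 2 / s ^ 2) l u lam ≤
      TR m x s l u 0 (1 + k1 * lam) E V gτ gx 0 0 := by
  unfold pcLow TR
  set y := x ^ 2 / s ^ 2 with hy
  have hy0 : 0 ≤ y := by positivity
  have hγ : 0 ≤ (m - 1) / (m + 1) := div_nonneg (by linarith only [hm]) (by linarith only [hm])
  have hU : 0 ≤ u ^ 2 / (1 + u) := by positivity
  have h1 : (m - 1) / (m + 1) * (2 * R - 3 * y * l) * (u ^ 2 / (1 + u)) ≤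
      (m - 1) / (m + 1) * (2 * (1 - s ^ 2 / (1 + s)) - 3 * y * l) * (u ^ 2 / (1 + u)) := by
    apply mul_le_mul_of_nonneg_right _ hU
    apply mul_le_mul_of_nonneg_left _ hγ
    linarith only [hR]
  have h2 : (1 + k1 * lam) * E * (u - m * (V - 1)) ≤
      ρ * u ^ 2 * (1 + k1 * lam + l / m + k1 * lam * (l / m) + c2 * l ^ 2) := by
    have h3 := mul_le_mul hB hpm hpm0 (hB0.trans hB)
    linarith only [h3]
  have h3 : (m - 1) * y * (th / (2 * m) * l ^ 2 + k1 * lam * l) ≤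
      (m - 1) * y * ((1 + k1 * lam) * m * (E - 1) - l) := by
    apply mul_le_mul_of_nonneg_left _ (mul_nonneg (by linarith only [hm]) hy0)
    linarith only [hTh]
  have h4 : -((m - 1) / (m + 1) * C * y * l ^ 2) ≤
      (m - 1) / (m + 1) * (s * (gτ - gx) + x ^ 2 * l / (1 + s) ^ 2) := by
    have := mul_le_mul_of_nonneg_left hC hγ
    linarith only [this]
  linarith

/-- the null term on the left of `x₀`: `z = x²`, `x02 = x₀²` -/
noncomputable def pcNL (m a1 a2 a3 x02 z y L u lam : ℝ) : ℝ :=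
  (2 * a1 * z * x02 / (x02 - z) ^ 2 + 2 * a2 * z) * L ^ 2 + 2 * (a1 * z / (x02 - z) + a2 * z) * L * u
    + 2 * a3 * z * lam * L + a3 * z * lam * u
    + (1 - (m - 1) * y) * ((a1 * z / (x02 - z) + a2 * z) * L ^ 2 + a3 * z * lam * L)

/-- the null term on the right of `x₀` -/
noncomputable def pcNR (m a4 x02 z y L u : ℝ) : ℝ :=
  2 * a4 * z * x02 / (z - x02) ^ 2 * L ^ 2 - 2 * (a4 * z / (z - x02)) * L * u
    - (1 - (m - 1) * y) * (a4 * z / (z - x02)) * L ^ 2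

/-- The matrix entries on the left, variables `x`, `v = u/x`, extra multiplier `η`. -/
theorem pc_left {m k1 a1 a2 a3 th c2 x02 eps R C rb η lm x v t lam e : ℝ} (hm : m ≠ 0)
    (ht : t ≠ 0) (hE : 1 + x * v ≠ 0) (hδ : x02 - x ^ 2 ≠ 0) :
    (1 + x * v) * t ^ 2 * (pcLow m k1 th c2 R C (rb / (1 + x * v)) (x ^ 2 / t)
        (lam + (x02 - x ^ 2) * e) (x * v) lam +
      pcNL m a1 a2 a3 x02 (x ^ 2) (x ^ 2 / t) ((x02 - x ^ 2) * e) (x * v) lam -
      eps * ((x * v) ^ 2 / (1 + x * v)) -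
      η / (1 + x * v) * (x * v) ^ 2 * (lm - (lam + (x02 - x ^ 2) * e))) =
    let γ := (m - 1) / (m + 1)
    let δ := x02 - x ^ 2
    let E := 1 + x * v
    let a0 := th * (m - 1) / (2 * m) - 9 / 2 * γ - γ * C
    let Qul := -3 * γ * x ^ 2 * t * v - t ^ 2 * rb * v / m + η * t ^ 2 * v
    let Qll := E * (t * a0 + 3 / 2 * γ * (m - 3) * x ^ 2) - c2 * rb * v ^ 2 * t ^ 2
    let Qlk := (m - 1) * k1 * t * E - k1 / m * rb * v ^ 2 * t ^ 2
    let a := t ^ 2 * (2 * γ * R - rb - eps) - η * lm * t ^ 2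
    let d := 1 / 2 * (δ * Qul + 2 * x * t ^ 2 * E * (a1 + a2 * δ))
    let f := 1 / 2 * (Qul - k1 * t ^ 2 * rb * v + a3 * x * t ^ 2 * E)
    let b := δ ^ 2 * Qll + E * t ^ 2 * (2 * a1 * x02 + 2 * a2 * δ ^ 2) +
      E * t * (t - (m - 1) * x ^ 2) * δ * (a1 + a2 * δ)
    let g := 1 / 2 * (2 * δ * Qll + δ * Qlk + δ * a3 * E * t * (3 * t - (m - 1) * x ^ 2))
    let c := Qll + Qlk
    a * (x * v) ^ 2 + (b * (x * e) ^ 2 + c * (x * lam) ^ 2 + 2 * d * (x * v) * (x * e) +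
      2 * f * (x * v) * (x * lam) + 2 * g * (x * e) * (x * lam)) := by
  unfold pcLow pcNL
  simp only
  field_simp
  ring

end Vale.Agent.P237.AllN
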