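import Vale.Agent.P237.AllN.PolyArith

/-!
# Bounds for `u - m ((1+u)^(1/m) - 1)` by polynomial multiples of `u²/(1+u)`

Throughout `w > 0`, `w ^ m = 1 + u`, that is `w = (1+u)^(1/m)`.
-/

namespace Vale.Agent.P237.AllN.PcRho
open PolyPos

/-- `1 + w + ... + w^(m-1)` -/
def Sl : ℕ → List ℤ
  | 0 => []
  | n + 1 => 1 :: Sl n

/-- `∑ (m-1-j) w^j` -/
def Ql : ℕ → List ℤ
  | 0 => []
  | n + 1 => (n : ℤ) :: Ql n

/-- `∑_{j<n} (a+j) v^j` -/
def Up (a : ℤ) : ℕ → List ℤ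
  | 0 => []
  | n + 1 => a :: Up (a + 1) n

/-- composition of coefficient lists -/
def pcomp : List ℤ → List ℤ → List ℤ
  | [], _ => []
  | [a], _ => [a]
  | a :: b :: p, q => padd [a] (pmul q (pcomp (b :: p) q))

theorem ev1_pcomp (p q : List ℤ) (x : ℝ) : ev1 (pcomp p q) x = ev1 p (ev1 q x) := by
  induction p with
  | nil => simp only [pcomp, ev1_nil]
  | cons a p ih =>
    cases p with
    | nil => simp only [pcomp, ev1_cons, ev1_nil, mul_zero, add_zero]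
    | cons b p =>
      rw [pcomp, ev1_padd, ev1_pmul, ih, ev1_cons, ev1_cons a, ev1_nil]
      ring

theorem ev1_X (m : ℕ) (x : ℝ) : ev1 (ppow [0, 1] m) x = x ^ m := by
  rw [ev1_ppow, ev1_cons, ev1_cons, ev1_nil]
  (clear * -; norm_num)

theorem Sl_eq (m : ℕ) (w : ℝ) : (w - 1) * ev1 (Sl m) w = w ^ m - 1 := by
  induction m with
  | zero => simp only [Sl, ev1_nil, mul_zero, pow_zero, sub_self]
  | succ n ih =>
    rw [Sl, ev1_cons, mul_add, ← mul_assoc, mul_comm (w - 1) w, mul_assoc, ih, pow_succ]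
    push_cast
    ring

theorem Ql_eq (m : ℕ) (w : ℝ) : (w - 1) ^ 2 * ev1 (Ql m) w = w ^ m - 1 - m * (w - 1) := by
  induction m with
  | zero => simp only [Ql, ev1_nil, mul_zero, pow_zero, sub_self, CharP.cast_eq_zero, zero_mul]
  | succ n ih =>
    rw [Ql, ev1_cons]
    have : (w - 1) ^ 2 * (((n : ℤ) : ℝ) + w * ev1 (Ql n) w) =
        (w - 1) ^ 2 * (n : ℝ) + w * ((w - 1) ^ 2 * ev1 (Ql n) w) := by
      push_cast
      ring
    rw [this, ih, pow_succ]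
    push_cast
    ring

theorem Up_eq (n : ℕ) : ∀ (a : ℤ) (v : ℝ), (1 - v) ^ 2 * ev1 (Up a n) v =
    a + (1 - a) * v - (a + n) * v ^ n + (a + n - 1) * v ^ (n + 1) := by
  induction n with
  | zero =>
    intro a v
    simp only [Up, ev1_nil, mul_zero, CharP.cast_eq_zero, add_zero, pow_zero, mul_one, add_sub_cancel_left, zero_add, pow_one]
    ring
  | succ n ih =>
    intro a v
    rw [Up, ev1_cons]
    have : (1 - v) ^ 2 * ((a : ℝ) + v * ev1 (Up (a + 1) n) v) =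
        (1 - v) ^ 2 * (a : ℝ) + v * ((1 - v) ^ 2 * ev1 (Up (a + 1) n) v) := by ring
    rw [this, ih]
    push_cast
    ring

/-- the polynomial of the check in the variable `w`: `R(u) S² N - N w^m Q`, `c = N R` in `u` -/
def PW (m : ℕ) (c : List ℤ) (N : ℤ) : List ℤ :=
  padd (pmul (pcomp c (padd (ppow [0, 1] m) [-1])) (pmul (Sl m) (Sl m)))
    (psm (-N) (pmul (ppow [0, 1] m) (Ql m)))

/-- the polynomial of the check in the variable `v = 1/w`: `N R(n) S² - N Q'`, `c = N R` in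
`n = 1 - v^m` -/
def PV (m : ℕ) (c : List ℤ) (N : ℤ) : List ℤ :=
  padd (pmul (pcomp c (padd [1] (psm (-1) (ppow [0, 1] m)))) (pmul (Sl m) (Sl m)))
    (psm (-N) (Up 1 (m - 1)))

theorem of_PW {m : ℕ} {c : List ℤ} {N : ℤ} (hN : 0 < N) {w u : ℝ} (hw : 0 < w)
    (hu : w ^ m = 1 + u) (h : 0 ≤ ev1 (PW m c N) w) :
    u - m * (w - 1) ≤ ev1 c u / N * (u ^ 2 / (1 + u)) := by
  have hN' : (0 : ℝ) < N := by exact_mod_cast hN
  have h1u : 0 < 1 + u := by rw [← hu]; positivity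
  have he : ev1 (padd (ppow [0, 1] m) [-1]) w = u := by
    rw [ev1_padd, ev1_X, ev1_cons, ev1_nil, hu]
    push_cast
    ring
  rw [PW, ev1_padd, ev1_pmul, ev1_pcomp, he, ev1_pmul, ev1_psm, ev1_pmul, ev1_X, hu] at h
  have hS := Sl_eq m w
  have hQ := Ql_eq m w
  rw [hu] at hS hQ
  have h2 := mul_nonneg (sq_nonneg (w - 1)) h
  have h3 : (w - 1) ^ 2 * (ev1 c u * (ev1 (Sl m) w * ev1 (Sl m) w) +
      ((-N : ℤ) : ℝ) * ((1 + u) * ev1 (Ql m) w)) =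
      ev1 c u * ((w - 1) * ev1 (Sl m) w) ^ 2 - N * ((1 + u) * ((w - 1) ^ 2 * ev1 (Ql m) w)) := by
    push_cast
    ring
  rw [h3, hS, hQ] at h2
  rw [div_mul_div_comm, le_div_iff₀ (by (clear * - hN h1u; positivity))]
  linarith

theorem of_PV {m : ℕ} (hm : 1 ≤ m) {c : List ℤ} {N : ℤ} (hN : 0 < N) {w u : ℝ} (hw : 0 < w)
    (hu : w ^ m = 1 + u) (h : 0 ≤ ev1 (PV m c N) w⁻¹) :
    u - m * (w - 1) ≤ ev1 c (u / (1 + u)) / N * (u ^ 2 / (1 + u)) := by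
  have hN' : (0 : ℝ) < N := by exact_mod_cast hN
  have h1u : 0 < 1 + u := by rw [← hu]; (clear * - hw; positivity)
  obtain ⟨k, rfl⟩ : ∃ k, m = k + 1 := ⟨m - 1, by omega⟩
  have hv : (w⁻¹) ^ (k + 1) = (1 + u)⁻¹ := by rw [inv_pow, hu]
  have hvk : (w⁻¹) ^ k = w * (1 + u)⁻¹ := by
    rw [← hv, pow_succ]
    (clear * - hw; field_simp)
  have he : ev1 (padd [1] (psm (-1) (ppow [0, 1] (k + 1)))) w⁻¹ = u / (1 + u) := by
    rw [ev1_padd, ev1_psm, ev1_X, ev1_cons, ev1_nil, hv]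
    push_cast
    field_simp
    ring
  rw [PV, ev1_padd, ev1_pmul, ev1_pcomp, he, ev1_pmul, ev1_psm] at h
  have hS := Sl_eq (k + 1) w⁻¹
  have hQ := Up_eq k 1 w⁻¹
  rw [hv] at hS hQ
  rw [hvk] at hQ
  have h2 := mul_nonneg (sq_nonneg (w⁻¹ - 1)) h
  set S := ev1 (Sl (k + 1)) w⁻¹ with hSdef
  have h3 : (w⁻¹ - 1) ^ 2 * (ev1 c (u / (1 + u)) * (S * S) +
      ((-N : ℤ) : ℝ) * ev1 (Up 1 (k + 1 - 1)) w⁻¹) =
      ev1 c (u / (1 + u)) * ((w⁻¹ - 1) * S) ^ 2 -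
        N * ((1 - w⁻¹) ^ 2 * ev1 (Up 1 k) w⁻¹) := by
    rw [Nat.add_sub_cancel]
    push_cast
    ring
  rw [h3, hS, hQ] at h2
  have h4 : ev1 c (u / (1 + u)) * ((1 + u)⁻¹ - 1) ^ 2 =
      (ev1 c (u / (1 + u)) * (u ^ 2 / (1 + u))) / (1 + u) := by
    field_simp
    ring
  have h5 : ((1 : ℤ) : ℝ) + (1 - ((1 : ℤ) : ℝ)) * w⁻¹ - (((1 : ℤ) : ℝ) + (k : ℝ)) *
      (w * (1 + u)⁻¹) + (((1 : ℤ) : ℝ) + (k : ℝ) - 1) * (1 + u)⁻¹ =
      (u - ((k + 1 : ℕ) : ℝ) * (w - 1)) / (1 + u) := by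
    push_cast
    field_simp
    ring
  have h6 : ev1 c (u / (1 + u)) * (u ^ 2 / (1 + u)) / (1 + u) -
      N * ((u - ((k + 1 : ℕ) : ℝ) * (w - 1)) / (1 + u)) =
      (ev1 c (u / (1 + u)) * (u ^ 2 / (1 + u)) - N * (u - ((k + 1 : ℕ) : ℝ) * (w - 1))) /
        (1 + u) := by ring
  rw [h5, h4, h6] at h2
  have h7 := (le_div_iff₀ h1u).1 h2
  rw [div_mul_eq_mul_div, le_div_iff₀ hN']
  (clear * - h7; linarith)

/-- range of `w` from a range of `u`: upper end -/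
theorem w_lt {m : ℕ} {B D Un Ud : ℤ} (hD : 0 < D) (hB : 0 < B) (hUd : 0 < Ud)
    (h : (Ud + Un) * D ^ m < Ud * B ^ m) {w u : ℝ}
    (hu : w ^ m = 1 + u) (hU : (Ud : ℝ) * u ≤ Un) : (D : ℝ) * w < B := by
  have hD' : (0 : ℝ) < D := by exact_mod_cast hD
  have hB' : (0 : ℝ) < B := by exact_mod_cast hB
  have hUd' : (0 : ℝ) < Ud := by exact_mod_cast hUd
  have h' : ((Ud : ℝ) + Un) * (D : ℝ) ^ m < Ud * (B : ℝ) ^ m := by exact_mod_cast h
  by_contra hcon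
  rw [not_lt] at hcon
  have h1 : (B : ℝ) ^ m ≤ ((D : ℝ) * w) ^ m := pow_le_pow_left₀ hB'.le hcon m
  rw [mul_pow, hu] at h1
  have h2 : (0 : ℝ) < (D : ℝ) ^ m := by positivity
  have h3 : (Ud : ℝ) * (B : ℝ) ^ m ≤ Ud * ((D : ℝ) ^ m * (1 + u)) :=
    mul_le_mul_of_nonneg_left h1 hUd'.le
  have h4 : (Ud : ℝ) * ((D : ℝ) ^ m * (1 + u)) = (Ud + Ud * u) * (D : ℝ) ^ m := by ring
  have h5 : ((Ud : ℝ) + Ud * u) * (D : ℝ) ^ m ≤ (Ud + Un) * (D : ℝ) ^ m :=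
    mul_le_mul_of_nonneg_right (by linarith only [hU]) h2.le
  linarith only [h', h3, h5]

/-- range of `w` from a range of `u`: lower end -/
theorem le_w {m : ℕ} {A D Un Ud : ℤ} (hD : 0 < D) (hm : m ≠ 0) (hUd : 0 < Ud)
    (h : Ud * A ^ m ≤ (Ud + Un) * D ^ m) {w u : ℝ} (hw : 0 < w)
    (hu : w ^ m = 1 + u) (hU : (Un : ℝ) ≤ Ud * u) : (A : ℝ) ≤ D * w := by
  have hD' : (0 : ℝ) < D := by exact_mod_cast hD
  have hUd' : (0 : ℝ) < Ud := by exact_mod_cast hUd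
  have h' : (Ud : ℝ) * (A : ℝ) ^ m ≤ (Ud + Un) * (D : ℝ) ^ m := by exact_mod_cast h
  by_contra hcon
  rw [not_le] at hcon
  have h1 : ((D : ℝ) * w) ^ m < (A : ℝ) ^ m := pow_lt_pow_left₀ hcon (by positivity) hm
  rw [mul_pow, hu] at h1
  have h2 : (0 : ℝ) < (D : ℝ) ^ m := by positivity
  have h3 : (Ud : ℝ) * ((D : ℝ) ^ m * (1 + u)) < Ud * (A : ℝ) ^ m :=
    mul_lt_mul_of_pos_left h1 hUd'
  have h4 : (Ud : ℝ) * ((D : ℝ) ^ m * (1 + u)) = (Ud + Ud * u) * (D : ℝ) ^ m := by ring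
  have h5 : ((Ud : ℝ) + Un) * (D : ℝ) ^ m ≤ (Ud + Ud * u) * (D : ℝ) ^ m :=
    mul_le_mul_of_nonneg_right (by linarith only [hU]) h2.le
  linarith only [h', h3, h5]

/-! ## constants for `5 ≤ m ≤ 15` -/

/-- `10^4 c` -/
def cT : ℕ → ℤ
  | 5 => 514
  | 6 => 530
  | 7 => 541
  | 8 => 546
  | 9 => 553
  | 10 => 559
  | 11 => 564
  | 12 => 563
  | 13 => 562
  | 14 => 565
  | 15 => 560
  | _ => 0

theorem cT_v5 : cT 5 = 514 := rfl
theorem cT_v6 : cT 6 = 530 := rfl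
theorem cT_v7 : cT 7 = 541 := rfl
theorem cT_v8 : cT 8 = 546 := rfl
theorem cT_v9 : cT 9 = 553 := rfl
theorem cT_v10 : cT 10 = 559 := rfl
theorem cT_v11 : cT 11 = 564 := rfl
theorem cT_v12 : cT 12 = 563 := rfl
theorem cT_v13 : cT 13 = 562 := rfl
theorem cT_v14 : cT 14 = 565 := rfl
theorem cT_v15 : cT 15 = 560 := rfl

/-- `10^3` × the end of the range of `u` for the constant `c` -/
def UT : ℕ → ℤ
  | 5 => 743
  | 6 => 734
  | 7 => 725
  | 8 => 736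
  | 9 => 725
  | 10 => 717
  | 11 => 710
  | 12 => 725
  | 13 => 738
  | 14 => 731
  | 15 => 761
  | _ => 0

theorem UT_v5 : UT 5 = 743 := rfl
theorem UT_v6 : UT 6 = 734 := rfl
theorem UT_v7 : UT 7 = 725 := rfl
theorem UT_v8 : UT 8 = 736 := rfl
theorem UT_v9 : UT 9 = 725 := rfl
theorem UT_v10 : UT 10 = 717 := rfl
theorem UT_v11 : UT 11 = 710 := rfl
theorem UT_v12 : UT 12 = 725 := rfl
theorem UT_v13 : UT 13 = 738 := rfl
theorem UT_v14 : UT 14 = 731 := rfl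
theorem UT_v15 : UT 15 = 761 := rfl

/-- `10^4 q₃` -/
def q3T : ℕ → ℤ
  | 5 => 1080
  | 6 => 1060
  | 7 => 1050
  | 8 => 1030
  | 9 => 1020
  | 10 => 1010
  | 11 => 1000
  | 12 => 1000
  | 13 => 1000
  | 14 => 1000
  | 15 => 1000
  | _ => 0

theorem q3T_v5 : q3T 5 = 1080 := rfl
theorem q3T_v6 : q3T 6 = 1060 := rfl
theorem q3T_v7 : q3T 7 = 1050 := rfl
theorem q3T_v8 : q3T 8 = 1030 := rfl
theorem q3T_v9 : q3T 9 = 1020 := rfl
theorem q3T_v10 : q3T 10 = 1010 := rfl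
theorem q3T_v11 : q3T 11 = 1000 := rfl
theorem q3T_v12 : q3T 12 = 1000 := rfl
theorem q3T_v13 : q3T 13 = 1000 := rfl
theorem q3T_v14 : q3T 14 = 1000 := rfl
theorem q3T_v15 : q3T 15 = 1000 := rfl

/-- `10^4 q₄` -/
def q4T : ℕ → ℤ
  | 5 => 12260
  | 6 => 11760
  | 7 => 11420
  | 8 => 11160
  | 9 => 10960
  | 10 => 10810
  | 11 => 10680
  | 12 => 10580
  | 13 => 10490
  | 14 => 10410
  | 15 => 10350
  | _ => 0

theorem q4T_v5 : q4T 5 = 12260 := rfl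
theorem q4T_v6 : q4T 6 = 11760 := rfl
theorem q4T_v7 : q4T 7 = 11420 := rfl
theorem q4T_v8 : q4T 8 = 11160 := rfl
theorem q4T_v9 : q4T 9 = 10960 := rfl
theorem q4T_v10 : q4T 10 = 10810 := rfl
theorem q4T_v11 : q4T 11 = 10680 := rfl
theorem q4T_v12 : q4T 12 = 10580 := rfl
theorem q4T_v13 : q4T 13 = 10490 := rfl
theorem q4T_v14 : q4T 14 = 10410 := rfl
theorem q4T_v15 : q4T 15 = 10350 := rfl

/-- `10^4` × the constant term of the line at `E = .09` -/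
def al9 : ℕ → ℤ
  | 5 => 359
  | 6 => 400
  | 7 => 431
  | 8 => 456
  | 9 => 476
  | 10 => 493
  | 11 => 507
  | 12 => 519
  | 13 => 529
  | 14 => 538
  | 15 => 546
  | _ => 0

theorem al9_v5 : al9 5 = 359 := rfl
theorem al9_v6 : al9 6 = 400 := rfl
theorem al9_v7 : al9 7 = 431 := rfl
theorem al9_v8 : al9 8 = 456 := rfl
theorem al9_v9 : al9 9 = 476 := rfl
theorem al9_v10 : al9 10 = 493 := rfl
theorem al9_v11 : al9 11 = 507 := rfl
theorem al9_v12 : al9 12 = 519 := rfl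
theorem al9_v13 : al9 13 = 529 := rfl
theorem al9_v14 : al9 14 = 538 := rfl
theorem al9_v15 : al9 15 = 546 := rfl

/-- `10^4` × the slope of the line at `E = .09` -/
def be9 : ℕ → ℤ
  | 5 => 8106
  | 6 => 8530
  | 7 => 8834
  | 8 => 9064
  | 9 => 9243
  | 10 => 9387
  | 11 => 9504
  | 12 => 9602
  | 13 => 9685
  | 14 => 9756
  | 15 => 9818
  | _ => 0

theorem be9_v5 : be9 5 = 8106 := rfl
theorem be9_v6 : be9 6 = 8530 := rfl
theorem be9_v7 : be9 7 = 8834 := rfl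
theorem be9_v8 : be9 8 = 9064 := rfl
theorem be9_v9 : be9 9 = 9243 := rfl
theorem be9_v10 : be9 10 = 9387 := rfl
theorem be9_v11 : be9 11 = 9504 := rfl
theorem be9_v12 : be9 12 = 9602 := rfl
theorem be9_v13 : be9 13 = 9685 := rfl
theorem be9_v14 : be9 14 = 9756 := rfl
theorem be9_v15 : be9 15 = 9818 := rfl

/-- `10^4` × the constant term of the line at `E = .1` -/
def al10 : ℕ → ℤ
  | 5 => 397
  | 6 => 440
  | 7 => 474
  | 8 => 501
  | 9 => 523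
  | 10 => 540
  | 11 => 555
  | 12 => 568
  | 13 => 579
  | 14 => 589
  | 15 => 597
  | _ => 0

theorem al10_v5 : al10 5 = 397 := rfl
theorem al10_v6 : al10 6 = 440 := rfl
theorem al10_v7 : al10 7 = 474 := rfl
theorem al10_v8 : al10 8 = 501 := rfl
theorem al10_v9 : al10 9 = 523 := rfl
theorem al10_v10 : al10 10 = 540 := rfl
theorem al10_v11 : al10 11 = 555 := rfl
theorem al10_v12 : al10 12 = 568 := rfl
theorem al10_v13 : al10 13 = 579 := rfl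
theorem al10_v14 : al10 14 = 589 := rfl
theorem al10_v15 : al10 15 = 597 := rfl

/-- `10^4` × the slope of the line at `E = .1` -/
def be10 : ℕ → ℤ
  | 5 => 7708
  | 6 => 8098
  | 7 => 8378
  | 8 => 8588
  | 9 => 8752
  | 10 => 8882
  | 11 => 8990
  | 12 => 9079
  | 13 => 9154
  | 14 => 9219
  | 15 => 9275
  | _ => 0

theorem be10_v5 : be10 5 = 7708 := rfl
theorem be10_v6 : be10 6 = 8098 := rfl
theorem be10_v7 : be10 7 = 8378 := rfl
theorem be10_v8 : be10 8 = 8588 := rfl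
theorem be10_v9 : be10 9 = 8752 := rfl
theorem be10_v10 : be10 10 = 8882 := rfl
theorem be10_v11 : be10 11 = 8990 := rfl
theorem be10_v12 : be10 12 = 9079 := rfl
theorem be10_v13 : be10 13 = 9154 := rfl
theorem be10_v14 : be10 14 = 9219 := rfl
theorem be10_v15 : be10 15 = 9275 := rfl

/-- Taylor coefficients of `(1+u) (u - m((1+u)^(1/m) - 1)) / u²` at `u = 0` -/
noncomputable def r0 (m : ℕ) : ℝ := (1 - 1 / (m : ℝ)) / 2

/-- second coefficient -/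
noncomputable def r1 (m : ℕ) : ℝ := (1 - 1 / (m : ℝ) ^ 2) / 6

/-- third coefficient -/
noncomputable def r2 (m : ℕ) : ℝ :=
  -((1 - 1 / (m : ℝ)) * (2 - 1 / (m : ℝ)) * (1 + 1 / (m : ℝ))) / 24

/-- common denominator -/
def NN (m : ℕ) : ℤ := 24 * (m : ℤ) ^ 3 * 10000

/-- `r0 * NN` -/
def z0 (m : ℕ) : ℤ := 12 * (m : ℤ) ^ 2 * (m - 1) * 10000

/-- `r1 * NN` -/
def z1 (m : ℕ) : ℤ := 4 * (m : ℤ) * (m ^ 2 - 1) * 10000

/-- `r2 * NN` -/
def z2 (m : ℕ) : ℤ := -((m - 1) * (2 * m - 1) * (m + 1)) * 10000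

theorem z0_eq {m : ℕ} (hm : m ≠ 0) : (z0 m : ℝ) = r0 m * NN m := by
  have : (m : ℝ) ≠ 0 := by exact_mod_cast hm
  rw [z0, r0, NN]
  push_cast
  field_simp
  ring

theorem z1_eq {m : ℕ} (hm : m ≠ 0) : (z1 m : ℝ) = r1 m * NN m := by
  have : (m : ℝ) ≠ 0 := by exact_mod_cast hm
  rw [z1, r1, NN]
  push_cast
  field_simp
  ring

theorem z2_eq {m : ℕ} (hm : m ≠ 0) : (z2 m : ℝ) = r2 m * NN m := by
  have : (m : ℝ) ≠ 0 := by exact_mod_cast hm
  rw [z2, r2, NN]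
  push_cast
  field_simp

/-- `NN / 10000` -/
def MM (m : ℕ) : ℤ := 24 * (m : ℤ) ^ 3

theorem MM_eq (m : ℕ) : (MM m : ℝ) = (1 / 10000) * NN m := by
  rw [MM, NN]
  push_cast
  ring

theorem NN_pos {m : ℕ} (hm : m ≠ 0) : 0 < NN m := by
  rw [NN]
  positivity

/-! ## the seven statements -/

/-- `(r(u) ≤ r₀ + r₁u - cu²` for `0 ≤ u ≤ U`) -/
def OkC (m : ℕ) : Prop := ∀ u w : ℝ, 0 < w → w ^ m = 1 + u → 0 ≤ u → u ≤ (UT m : ℝ) / 1000 →
  u - m * (w - 1) ≤ (r0 m + r1 m * u - (cT m : ℝ) / 10000 * u ^ 2) * (u ^ 2 / (1 + u))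

/-- `r(u) ≤ r₀ + r₁u + r₂u²` for `u ≤ 0` -/
def OkNeg (m : ℕ) : Prop := ∀ u w : ℝ, 0 < w → w ^ m = 1 + u → u ≤ 0 →
  u - m * (w - 1) ≤ (r0 m + r1 m * u + r2 m * u ^ 2) * (u ^ 2 / (1 + u))

/-- `r ≤ α + β E` on `3/500 ≤ E ≤ 1/4`, `E = 1 + u` (line at `.09`) -/
def Ok9 (m : ℕ) : Prop := ∀ u w : ℝ, 0 < w → w ^ m = 1 + u → 3 / 500 ≤ 1 + u → 1 + u ≤ 1 / 4 →
  u - m * (w - 1) ≤ ((al9 m : ℝ) / 10000 + (be9 m : ℝ) / 10000 * (1 + u)) * (u ^ 2 / (1 + u))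

/-- `r ≤ α + β E` on `3/500 ≤ E ≤ 1/4`, `E = 1 + u` (line at `.1`) -/
def Ok10 (m : ℕ) : Prop := ∀ u w : ℝ, 0 < w → w ^ m = 1 + u → 3 / 500 ≤ 1 + u → 1 + u ≤ 1 / 4 →
  u - m * (w - 1) ≤ ((al10 m : ℝ) / 10000 + (be10 m : ℝ) / 10000 * (1 + u)) * (u ^ 2 / (1 + u))

/-- `r ≤ r₀ + r₁n + (r₁+r₂)n² + q₃n³` for `0 ≤ n ≤ 13/20`, `n = u/(1+u)` -/
def OkN3 (m : ℕ) : Prop := ∀ u w : ℝ, 0 < w → w ^ m = 1 + u → 0 ≤ u → u / (1 + u) ≤ 13 / 20 →
  u - m * (w - 1) ≤ (r0 m + r1 m * (u / (1 + u)) + (r1 m + r2 m) * (u / (1 + u)) ^ 2 +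
    (q3T m : ℝ) / 10000 * (u / (1 + u)) ^ 3) * (u ^ 2 / (1 + u))

/-- `r ≤ 1 - q₄/E` for `n ≥ 13/20` -/
def OkN1 (m : ℕ) : Prop := ∀ u w : ℝ, 0 < w → w ^ m = 1 + u → 13 / 20 ≤ u / (1 + u) →
  u - m * (w - 1) ≤ (1 - (q4T m : ℝ) / 10000 / (1 + u)) * (u ^ 2 / (1 + u))

/-- `r ≤ r₀ + (1-r₀)n` for `u ≥ 0` -/
def OkN0 (m : ℕ) : Prop := ∀ u w : ℝ, 0 < w → w ^ m = 1 + u → 0 ≤ u →
  u - m * (w - 1) ≤ (r0 m + (1 - r0 m) * (u / (1 + u))) * (u ^ 2 / (1 + u))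

theorem w_eq_one {m : ℕ} (hm : m ≠ 0) {w : ℝ} (hw : 0 < w) (h : w ^ m = 1 + 0) : w = 1 := by
  rw [add_zero] at h
  exact (pow_eq_one_iff_of_nonneg hw.le hm).1 h

theorem w_lt_one {m : ℕ} {w u : ℝ} (h : w ^ m = 1 + u) (hu : u < 0) : w < 1 := by
  by_contra hcon
  have := one_le_pow₀ (not_lt.1 hcon) (n := m)
  linarith

theorem one_lt_w {m : ℕ} {w u : ℝ} (hw : 0 < w) (h : w ^ m = 1 + u) (hu : 0 < u) : 1 < w := by
  by_contra hcon
  have := pow_le_one₀ hw.le (not_lt.1 hcon) (n := m)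
  linarith only [h, hu, this]

theorem okC_of {m : ℕ} (hm : m ≠ 0) {B D : ℤ}
    (h : 0 < D ∧ 0 < B ∧ (1000 + UT m) * D ^ m < 1000 * B ^ m)
    (h2 : auto1 0 D B D (PW m [z0 m, z1 m, -cT m * MM m] (NN m)) = true) : OkC m := by
  intro u w hw hu h0 h1
  obtain ⟨hD, hB, h3⟩ := h
  have hN : (NN m : ℝ) ≠ 0 := by
    have := NN_pos hm
    exact_mod_cast this.ne'
  have h4 := of_PW (NN_pos hm) hw hu (auto1_sound hD h2
    (le_w (Un := 0) (Ud := 1) hD hm (by norm_num) (by simp) hw hu (by simpa only [Int.cast_zero, Int.cast_one, one_mul] using h0))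
    (w_lt (Un := UT m) (Ud := 1000) hD hB (by norm_num) h3 hu (by push_cast; linarith)))
  refine h4.trans_eq ?_
  congr 1
  simp only [ev1_cons, ev1_nil, Int.cast_mul, Int.cast_neg]
  rw [z0_eq hm, z1_eq hm, MM_eq]
  field_simp
  ring

theorem okNeg_of {m : ℕ} (hm : m ≠ 0)
    (h2 : auto1 0 0 1 1 (PW m [z0 m, z1 m, z2 m] (NN m)) = true) : OkNeg m := by
  intro u w hw hu h0
  rcases h0.lt_or_eq with h0 | h0
  · have hN : (NN m : ℝ) ≠ 0 := by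
      have := NN_pos hm
      exact_mod_cast this.ne'
    have h4 := of_PW (NN_pos hm) hw hu (auto1_sound one_pos h2 (by simpa only [Int.cast_zero, Int.cast_one, one_mul] using hw.le)
      (by simpa only [Int.cast_one, one_mul] using w_lt_one hu h0))
    refine h4.trans_eq ?_
    congr 1
    simp only [ev1_cons, ev1_nil]
    rw [z0_eq hm, z1_eq hm, z2_eq hm]
    field_simp
    ring
  · subst h0
    rw [w_eq_one hm hw hu]
    simp only [sub_self, mul_zero, add_zero, ne_eq, OfNat.ofNat_ne_zero, not_false_eq_true, zero_pow, div_one, Std.le_refl]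

theorem okLine_of {m : ℕ} (hm : m ≠ 0) {a b A T B D A' B' D' : ℤ}
    (h : 0 < D ∧ 0 < B ∧ 0 < D' ∧ 500 * A ^ m ≤ 3 * D ^ m ∧ D' ^ m < 4 * B' ^ m ∧ 0 < B' ∧
      T * D' = A' * D ∧ B = T)
    (h2 : auto1 0 A B D (PW m [(a + b) * MM m, b * MM m] (NN m)) = true)
    (h3 : auto1 0 A' B' D' (PW m [(a + b) * MM m, b * MM m] (NN m)) = true) :
    ∀ u w : ℝ, 0 < w → w ^ m = 1 + u → 3 / 500 ≤ 1 + u → 1 + u ≤ 1 / 4 →
    u - m * (w - 1) ≤ ((a : ℝ) / 10000 + (b : ℝ) / 10000 * (1 + u)) * (u ^ 2 / (1 + u)) := by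
  intro u w hw hu h0 h1
  obtain ⟨hD, hB, hD', hA, hB', hB'', hT, rfl⟩ := h
  have hN : (NN m : ℝ) ≠ 0 := by
    have := NN_pos hm
    exact_mod_cast this.ne'
  have hP : 0 ≤ ev1 (PW m [(a + b) * MM m, b * MM m] (NN m)) w := by
    rcases lt_or_ge ((D : ℝ) * w) B with hlt | hge
    · exact auto1_sound hD h2 (le_w (Un := -497) (Ud := 500) hD hm (by norm_num)
        (by linarith only [hA]) hw hu (by push_cast; linarith only [h0])) hlt
    · refine auto1_sound hD' h3 ?_ (w_lt (Un := -3) (Ud := 4) hD' hB'' (by norm_num)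
        (by linarith only [hB']) hu (by push_cast; linarith only [h1]))
      have h5 : ((B : ℝ) * D') = A' * D := by exact_mod_cast hT
      have hDr : (0 : ℝ) < D := by exact_mod_cast hD
      have hDr' : (0 : ℝ) < D' := by exact_mod_cast hD'
      have h6 : (A' : ℝ) * D ≤ (D' * w) * D := by
        rw [← h5]
        calc (B : ℝ) * D' ≤ (D * w) * D' := mul_le_mul_of_nonneg_right hge hDr'.le
          _ = (D' * w) * D := by ring
      exact le_of_mul_le_mul_right h6 hDr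
  have h4 := of_PW (NN_pos hm) hw hu hP
  refine h4.trans_eq ?_
  congr 1
  simp only [ev1_cons, ev1_nil, Int.cast_mul, Int.cast_add]
  rw [MM_eq]
  field_simp
  ring

theorem okN3_of {m : ℕ} (hm : m ≠ 0) {A D : ℤ} (h : 0 < D ∧ 20 * A ^ m ≤ 7 * D ^ m)
    (h2 : auto1 0 A D D (PV m [z0 m, z1 m, z1 m + z2 m, q3T m * MM m] (NN m)) = true) :
    OkN3 m := by
  intro u w hw hu h0 h1
  obtain ⟨hD, hA⟩ := h
  rcases h0.lt_or_eq with h0 | h0
  · have hN : (NN m : ℝ) ≠ 0 := by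
      have := NN_pos hm
      exact_mod_cast this.ne'
    have h1u : 0 < 1 + u := by linarith only [h0]
    have hw1 := one_lt_w hw hu h0
    have hv : (w⁻¹) ^ m = 1 + (-(u / (1 + u))) := by
      rw [inv_pow, hu]
      field_simp
      ring
    have h4 := of_PV (by omega) (NN_pos hm) hw hu (auto1_sound hD h2
      (le_w (Un := -13) (Ud := 20) hD hm (by norm_num) (by linarith only [hA]) (by (clear * - hw; positivity)) hv
        (by push_cast; linarith only [h1]))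
      (by
        have hDr : (0 : ℝ) < D := by exact_mod_cast hD
        have : w⁻¹ < 1 := inv_lt_one_of_one_lt₀ hw1
        nlinarith only [hDr, this]))
    refine h4.trans_eq ?_
    congr 1
    simp only [ev1_cons, ev1_nil, Int.cast_mul, Int.cast_add]
    rw [z0_eq hm, z1_eq hm, z2_eq hm, MM_eq]
    generalize u / (1 + u) = n
    field_simp
    ring
  · subst h0
    rw [w_eq_one hm hw hu]
    simp only [sub_self, mul_zero, add_zero, div_one, ne_eq, OfNat.ofNat_ne_zero, not_false_eq_true, zero_pow, Std.le_refl]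

theorem okN1_of {m : ℕ} (hm : m ≠ 0) {B D : ℤ} (h : 0 < D ∧ 0 < B ∧ 7 * D ^ m < 20 * B ^ m)
    (h2 : auto1 0 0 B D (PV m [NN m - q4T m * MM m, q4T m * MM m] (NN m)) = true) :
    OkN1 m := by
  intro u w hw hu h1
  obtain ⟨hD, hB, h3⟩ := h
  have hN : (NN m : ℝ) ≠ 0 := by
    have := NN_pos hm
    exact_mod_cast this.ne'
  have h1u : 0 < 1 + u := by rw [← hu]; positivity
  have hv : (w⁻¹) ^ m = 1 + (-(u / (1 + u))) := by
    rw [inv_pow, hu]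
    field_simp
    ring
  have hDr : (0 : ℝ) < D := by exact_mod_cast hD
  have h4 := of_PV (by omega) (NN_pos hm) hw hu (auto1_sound hD h2
    (by push_cast; positivity)
    (w_lt (Un := -13) (Ud := 20) hD hB (by norm_num) (by linarith only [h3]) hv (by push_cast; linarith only [h1])))
  refine h4.trans_eq ?_
  congr 1
  simp only [ev1_cons, ev1_nil, Int.cast_mul, Int.cast_sub]
  rw [MM_eq]
  field_simp
  ring

theorem okN0_of {m : ℕ} (hm : m ≠ 0)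
    (h2 : auto1 0 0 1 1 (PV m [z0 m, NN m - z0 m] (NN m)) = true) :
    OkN0 m := by
  intro u w hw hu h0
  rcases h0.lt_or_eq with h0 | h0
  · have hN : (NN m : ℝ) ≠ 0 := by
      have := NN_pos hm
      exact_mod_cast this.ne'
    have h1u : 0 < 1 + u := by linarith only [h0]
    have hw1 := one_lt_w hw hu h0
    have h4 := of_PV (by omega) (NN_pos hm) hw hu (auto1_sound one_pos h2
      (by simpa only [Int.cast_zero, Int.cast_one, one_mul, inv_nonneg] using hw.le) (by simpa only [Int.cast_one, one_mul] using inv_lt_one_of_one_lt₀ hw1))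
    refine h4.trans_eq ?_
    congr 1
    simp only [ev1_cons, ev1_nil, Int.cast_sub]
    rw [z0_eq hm]
    generalize u / (1 + u) = n
    field_simp
    ring
  · subst h0
    rw [w_eq_one hm hw hu]
    simp only [sub_self, mul_zero, add_zero, div_one, ne_eq, OfNat.ofNat_ne_zero, not_false_eq_true, zero_pow, Std.le_refl]

theorem Sl_nonneg {w : ℝ} (hw : 0 ≤ w) (n : ℕ) : 0 ≤ ev1 (Sl n) w := by
  induction n with
  | zero => simp [Sl, ev1_nil]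
  | succ n ih =>
    rw [Sl, ev1_cons]
    push_cast
    positivity

theorem Ql_le {w : ℝ} (hw : 0 ≤ w) (n : ℕ) :
    ev1 (Ql (n + 1)) w ≤ n * ev1 (Sl (n + 1)) w := by
  induction n with
  | zero => simp [Ql, ev1_cons, ev1_nil]
  | succ n ih =>
    rw [Ql, Sl, ev1_cons, ev1_cons]
    have h1 := mul_le_mul_of_nonneg_left ih hw
    have h2 := mul_nonneg hw (Sl_nonneg hw (n + 1))
    push_cast
    linarith

/-- crude bound, all `m` -/
theorem pm_le {m : ℕ} (hm : 1 ≤ m) {u w : ℝ} (hw : 0 < w) (hu : w ^ m = 1 + u) :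
    u - m * (w - 1) ≤ (m - 1) * u ^ 2 := by
  obtain ⟨n, rfl⟩ : ∃ n, m = n + 1 := ⟨m - 1, by omega⟩
  have hS := Sl_eq (n + 1) w
  have hQ := Ql_eq (n + 1) w
  have hQS := Ql_le hw.le n
  have hS0 := Sl_nonneg hw.le n
  have hS1 : 1 ≤ ev1 (Sl (n + 1)) w := by
    rw [Sl, ev1_cons]
    push_cast
    nlinarith only [hw, hS0]
  rw [hu] at hS hQ
  have hSS : ev1 (Sl (n + 1)) w ≤ ev1 (Sl (n + 1)) w ^ 2 := by nlinarith only [hS1]
  have h1 : ev1 (Ql (n + 1)) w ≤ n * ev1 (Sl (n + 1)) w ^ 2 :=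
    hQS.trans (mul_le_mul_of_nonneg_left hSS (Nat.cast_nonneg n))
  have h2 := mul_le_mul_of_nonneg_left h1 (sq_nonneg (w - 1))
  rw [hQ] at h2
  have h3 : (w - 1) ^ 2 * (n * ev1 (Sl (n + 1)) w ^ 2) =
      n * ((w - 1) * ev1 (Sl (n + 1)) w) ^ 2 := by ring
  rw [h3, hS] at h2
  have h4 : 1 + u - 1 = u := by ring
  rw [h4] at h2
  push_cast at h2 ⊢
  linarith only [h2]

end Vale.Agent.P237.AllN.PcRho
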