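import Vale.Agent.P237.AllN.PcF
import Vale.Agent.P237.AllN.PcG
import Vale.Agent.P237.AllN.PcH
import Vale.Agent.P237.AllN.PcI
import Vale.Agent.P237.AllN.PcK
import Vale.Agent.P237.AllN.PcRhoAll
import Vale.Agent.P237.AllN.PcCorr2
import Vale.Agent.P237.AllN.PcIn2
import Vale.Agent.P237.AllN.Brid9

/-!
# P237, plain certificate, `5 ≤ m ≤ 14`: assembly, values of the expressions and elementary bounds
-/

open MeasureTheory Metric Set Module Filter Topology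

namespace Vale.Agent.P237.AllN.Pl

open PolyPos Alm

theorem fam_cases {F : List (List Ex)} {x y : ℝ}
    (h : ∃ i, ∀ p ∈ F.getD i [Ex.c ⟨-1, 0⟩], 0 ≤ p.R x y) : ∃ L ∈ F, ∀ p ∈ L, 0 ≤ p.R x y := by
  obtain ⟨i, hi⟩ := h
  by_cases hl : i < F.length
  · refine ⟨F[i], List.getElem_mem hl, fun p hp => hi p ?_⟩
    rw [List.getD_eq_getElem _ _ hl]
    exact hp
  · exfalso
    have := hi (Ex.c ⟨-1, 0⟩) (by rw [List.getD_eq_default _ _ (by omega)]; simp)
    simp [Ex.R, Fr.R] at this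
    linarith

theorem frR (n : ℤ) (d : ℕ) : Fr.R ⟨n, d⟩ = n / ((d : ℝ) + 1) := rfl

theorem qR_R (z : Ex) (x y : ℝ) : (qR z).R x y =
    1 / 2 + 3 / 8 * z.R x y + 1 / 16 * z.R x y ^ 2 := by
  simp only [qR, Ex.R_add, Ex.R_mul, Ex.R_c, frR]; norm_num; ring

theorem qC_R (z : Ex) (x y : ℝ) : (qC z).R x y =
    2 / 5 + 13 / 20 * z.R x y + 22 / 5 * z.R x y ^ 3 := by
  simp only [qC, Ex.R_add, Ex.R_mul, Ex.R_c, frR]; norm_num; ring

theorem one_R (x y : ℝ) : (Ex.c ⟨1, 0⟩).R x y = 1 := by simp [Ex.R, Fr.R]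
theorem two_R (x y : ℝ) : (Ex.c ⟨2, 0⟩).R x y = 2 := by simp [Ex.R, Fr.R]
theorem th_R (x y : ℝ) : (Ex.c ⟨3, 1⟩).R x y = 3 / 2 := by simp [Ex.R, Fr.R]; norm_num

section

variable (D : Dat)

theorem r0_R (hm : 1 ≤ D.P.m) : D.r0.R = PcRho.r0 D.P.m := by
  have h0 : (D.P.m : ℝ) ≠ 0 := by
    have : (1 : ℝ) ≤ D.P.m := by exact_mod_cast hm
    linarith
  have h1 : ((2 * D.P.m - 1 : ℕ) : ℝ) + 1 = 2 * D.P.m := by
    have : 2 * D.P.m - 1 + 1 = 2 * D.P.m := by omega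
    exact_mod_cast this
  unfold Dat.r0 PcRho.r0
  rw [frR, h1]
  push_cast
  field_simp

theorem r1_R (hm : 1 ≤ D.P.m) : D.r1.R = PcRho.r1 D.P.m := by
  have h0 : (D.P.m : ℝ) ≠ 0 := by
    have : (1 : ℝ) ≤ D.P.m := by exact_mod_cast hm
    linarith
  have h1 : ((6 * D.P.m ^ 2 - 1 : ℕ) : ℝ) + 1 = 6 * (D.P.m : ℝ) ^ 2 := by
    have h2 : 1 ≤ D.P.m ^ 2 := Nat.one_le_pow _ _ (by omega)
    have : 6 * D.P.m ^ 2 - 1 + 1 = 6 * D.P.m ^ 2 := by omega
    exact_mod_cast this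
  unfold Dat.r1 PcRho.r1
  rw [frR, h1]
  push_cast
  field_simp

theorem r2_R (hm : 1 ≤ D.P.m) : D.r2.R = PcRho.r2 D.P.m := by
  have h0 : (D.P.m : ℝ) ≠ 0 := by
    have : (1 : ℝ) ≤ D.P.m := by exact_mod_cast hm
    linarith
  have h1 : ((24 * D.P.m ^ 3 - 1 : ℕ) : ℝ) + 1 = 24 * (D.P.m : ℝ) ^ 3 := by
    have h2 : 1 ≤ D.P.m ^ 3 := Nat.one_le_pow _ _ (by omega)
    have : 24 * D.P.m ^ 3 - 1 + 1 = 24 * D.P.m ^ 3 := by omega
    exact_mod_cast this
  unfold Dat.r2 PcRho.r2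
  rw [frR, h1]
  push_cast
  field_simp

theorem rbLP_R (x y : ℝ) : D.rbLP.R x y =
    D.r0.R + D.r1.R * (x * y) - D.cp.R * (x * y) ^ 2 := by
  simp only [Dat.rbLP, Ex.R_add, Ex.R_sub, Ex.R_mul, Ex.R_c, Ex.R_X, Ex.R_Y]; ring

theorem rbLM_R (x y : ℝ) : D.rbLM.R x y =
    D.r0.R - D.r1.R * (x * y) + D.r2.R * (x * y) ^ 2 := by
  simp only [Dat.rbLM, Ex.R_add, Ex.R_sub, Ex.R_mul, Ex.R_c, Ex.R_X, Ex.R_Y]; ring

theorem rbT_R (x y : ℝ) : D.rbT.R x y =
    D.r0.R - D.r1.R * (1 - y) + D.r2.R * (1 - y) ^ 2 := by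
  simp only [Dat.rbT, Ex.R_add, Ex.R_sub, Ex.R_mul, Ex.R_c, Ex.R_Y, Fr.R1]; ring

theorem rbG_R (x y : ℝ) : D.rbG.R x y = D.g0.R + D.g1.R * y := by
  simp only [Dat.rbG, Ex.R_add, Ex.R_mul, Ex.R_c, Ex.R_Y]

theorem rbC_R (x y : ℝ) : D.rbC.R x y = ((D.P.m : ℝ) - 1) * y := by
  simp only [Dat.rbC, Ex.R_mul, Ex.R_c, Ex.R_Y, Pm.c1_R]

theorem rbP_R (x y : ℝ) : D.rbP.R x y =
    D.r0.R + D.r1.R * (1 - y) + (D.r1.R + D.r2.R) * (1 - y) ^ 2 + D.q3.R * (1 - y) ^ 3 := by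
  simp only [Dat.rbP, Ex.R_add, Ex.R_sub, Ex.R_mul, Ex.R_c, Ex.R_Y, Fr.R1]; ring

theorem rbQ_R (x y : ℝ) : D.rbQ.R x y = 1 - D.q4.R * y := by
  simp only [Dat.rbQ, Ex.R_sub, Ex.R_mul, Ex.R_c, Ex.R_Y, Fr.R1]

theorem ly_R (x y : ℝ) : D.ly.R x y = 1 / 2 + D.lx.R * (x * x) := by
  simp only [Dat.ly, Ex.R_add, Ex.R_mul, Ex.R_c, Ex.R_X, Fr.R12]

theorem lp_R (x y : ℝ) : D.lp.R x y = 1 / 2 + 1 / 4 * (x * x) + 1 / 6 * (x * x) ^ 2 +
    D.c4.R * (x * x) ^ 3 := by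
  simp only [Dat.lp, Ex.R_add, Ex.R_mul, Ex.R_c, Ex.R_X, frR]; norm_num; ring

theorem loLP_R (x y : ℝ) : D.loLP.R x y = y ^ 2 * (1 - x ^ 2) - D.k.R ^ 2 := by
  simp only [Dat.loLP, Ex.R_sub, Ex.R_mul, Ex.R_c, Ex.R_X, Ex.R_Y, Fr.R1]; ring

theorem exgeo_R (z : Ex) (x y : ℝ) : ∀ n : ℕ, z.R x y * (exgeo z n).R x y =
    1 - (1 - z.R x y) ^ n
  | 0 => by simp [exgeo, Ex.R, Fr.R]
  | n + 1 => by
    have h := exgeo_R z x y n
    rw [exgeo, Ex.R_add, Ex.R_mul, Ex.R_sub, one_R, pow_succ]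
    linear_combination (1 - z.R x y) * h

theorem loLM_R (x y : ℝ) : D.loLM.R x y = y - (exgeo Ex.X D.pp).R x y := by
  simp only [Dat.loLM, Ex.R_sub, Ex.R_Y]

theorem expow_R (q : Ex) (x y : ℝ) : ∀ n : ℕ, (expow q n).R x y = q.R x y ^ n
  | 0 => by simp [expow, Ex.R, Fr.R]
  | n + 1 => by rw [expow, Ex.R_mul, expow_R q x y n, pow_succ]; ring

theorem loRM_R (n : ℕ) (x y : ℝ) : (D.loRM n).R x y = x ^ n - y := by
  simp only [Dat.loRM, Ex.R_sub, expow_R, Ex.R_X, Ex.R_Y]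

theorem loRP_R (x y : ℝ) : D.loRP.R x y =
    (1 - y) ^ 2 * (x * x) - y ^ 2 * D.k.R ^ 2 * (1 - x * x) := by
  simp only [Dat.loRP, Ex.R_sub, Ex.R_mul, Ex.R_c, Ex.R_X, Ex.R_Y, Fr.R1]; ring

theorem zero_R (x y : ℝ) : (Ex.c ⟨0, 0⟩).R x y ≤ 0 := by
  simp only [Ex.R_c, frR]; norm_num

end

theorem qR_le {s : ℝ} (hs0 : 0 < s) (hs1 : s ≤ 1) {z : ℝ} (hz : z = 1 - s ^ 2) :
    1 / 2 + 3 / 8 * z + 1 / 16 * z ^ 2 ≤ 1 - s ^ 2 / (1 + s) := by
  rw [← sub_nonneg]
  have e : 1 - s ^ 2 / (1 + s) - (1 / 2 + 3 / 8 * z + 1 / 16 * z ^ 2) =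
      (1 - s) ^ 3 * (1 + 4 * s + s ^ 2) / (16 * (1 + s)) := by
    rw [hz]
    field_simp
    ring
  rw [e]
  have : 0 ≤ 1 - s := by linarith
  positivity

theorem exp_bd {v : ℝ} (h : |v| ≤ 1) : |Real.exp v - (1 + v + v ^ 2 / 2 + v ^ 3 / 6)| ≤
    5 / 96 * v ^ 4 := by
  have h1 := Real.exp_bound h (n := 4) (by norm_num)
  have e : ∑ m ∈ Finset.range 4, v ^ m / (m.factorial : ℝ) = 1 + v + v ^ 2 / 2 + v ^ 3 / 6 := by
    simp [Finset.sum_range_succ, Nat.factorial]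
  rw [e] at h1
  have e2 : |v| ^ 4 = v ^ 4 := by
    rw [show (4 : ℕ) = 2 * 2 by norm_num, pow_mul, sq_abs, pow_mul]
  rw [e2] at h1
  refine h1.trans (le_of_eq ?_)
  norm_num [Nat.factorial]
  ring

/-- `-log (1-t) ≤ t + c t²` on `[0, t₀]` from the value at `t₀` -/
theorem log_two {c t t0 : ℝ} (ht : 0 < t) (h0 : t ≤ t0) (h1 : t0 < 1)
    (h : -Real.log (1 - t0) ≤ t0 + c * t0 ^ 2) : -Real.log (1 - t) ≤ t + c * t ^ 2 := by
  set f : ℝ → ℝ := fun s => s + c * s ^ 2 + Real.log (1 - s) with hf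
  have hd : ∀ s, s < 1 → HasDerivAt f (s * (2 * c - 1 / (1 - s))) s := by
    intro s hs
    have hs' : 1 - s ≠ 0 := by linarith
    have e1 : HasDerivAt (fun s : ℝ => 1 - s) (-1) s := by
      simpa using (hasDerivAt_id' s).const_sub (1 : ℝ)
    have e2 := (((hasDerivAt_id s).add ((hasDerivAt_pow 2 s).const_mul c)).add (e1.log hs'))
    refine e2.congr_deriv ?_
    field_simp
    ring
  have hf0 : f 0 = 0 := by simp [hf]
  have hft : 0 ≤ f t0 := by rw [hf]; simp only; linarith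
  suffices 0 ≤ f t by
    rw [hf] at this
    simp only at this
    linarith
  rcases le_or_gt (1 / (1 - t)) (2 * c) with hc | hc
  · -- increasing up to `t`
    have hmono : MonotoneOn f (Icc 0 t) := by
      apply monotoneOn_of_deriv_nonneg (convex_Icc 0 t)
      · intro s hs
        exact (hd s (by linarith [hs.2])).continuousAt.continuousWithinAt
      · intro s hs
        rw [interior_Icc] at hs
        exact (hd s (by linarith [hs.2])).differentiableAt.differentiableWithinAt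
      · intro s hs
        rw [interior_Icc] at hs
        rw [(hd s (by linarith [hs.2])).deriv]
        have : 1 / (1 - s) ≤ 1 / (1 - t) :=
          one_div_le_one_div_of_le (by linarith) (by linarith [hs.2])
        exact mul_nonneg hs.1.le (by linarith)
    have := hmono (left_mem_Icc.2 ht.le) (right_mem_Icc.2 ht.le) ht.le
    rwa [hf0] at this
  · -- decreasing from `t` to `t0`
    have hanti : AntitoneOn f (Icc t t0) := by
      apply antitoneOn_of_deriv_nonpos (convex_Icc t t0)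
      · intro s hs
        exact (hd s (by linarith [hs.2])).continuousAt.continuousWithinAt
      · intro s hs
        rw [interior_Icc] at hs
        exact (hd s (by linarith [hs.2])).differentiableAt.differentiableWithinAt
      · intro s hs
        rw [interior_Icc] at hs
        rw [(hd s (by linarith [hs.2])).deriv]
        have : 1 / (1 - t) ≤ 1 / (1 - s) :=
          one_div_le_one_div_of_le (by linarith [hs.2]) (by linarith [hs.1])
        exact mul_nonpos_of_nonneg_of_nonpos (by linarith [hs.1]) (by linarith)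
    have := hanti (left_mem_Icc.2 h0) (right_mem_Icc.2 h0) h0
    linarith

/-- `-log (1-t) ≤ t + t²/2 + t³/3 + c t⁴` on `[0, t₀]` from the value at `t₀` -/
theorem log_four {c t t0 : ℝ} (ht : 0 < t) (h0 : t ≤ t0) (h1 : t0 < 1)
    (h : -Real.log (1 - t0) ≤ t0 + t0 ^ 2 / 2 + t0 ^ 3 / 3 + c * t0 ^ 4) :
    -Real.log (1 - t) ≤ t + t ^ 2 / 2 + t ^ 3 / 3 + c * t ^ 4 := by
  set f : ℝ → ℝ := fun s => s + s ^ 2 / 2 + s ^ 3 / 3 + c * s ^ 4 + Real.log (1 - s) with hf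
  have hd : ∀ s, s < 1 → HasDerivAt f (s ^ 3 * (4 * c - 1 / (1 - s))) s := by
    intro s hs
    have hs' : 1 - s ≠ 0 := by linarith
    have e1 : HasDerivAt (fun s : ℝ => 1 - s) (-1) s := by
      simpa using (hasDerivAt_id' s).const_sub (1 : ℝ)
    have e2 := (((((hasDerivAt_id s).add ((hasDerivAt_pow 2 s).div_const 2)).add
      ((hasDerivAt_pow 3 s).div_const 3)).add ((hasDerivAt_pow 4 s).const_mul c)).add (e1.log hs'))
    refine e2.congr_deriv ?_
    field_simp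
    ring
  have hf0 : f 0 = 0 := by simp [hf]
  have hft : 0 ≤ f t0 := by rw [hf]; simp only; linarith
  suffices 0 ≤ f t by
    rw [hf] at this
    simp only at this
    linarith
  rcases le_or_gt (1 / (1 - t)) (4 * c) with hc | hc
  · have hmono : MonotoneOn f (Icc 0 t) := by
      apply monotoneOn_of_deriv_nonneg (convex_Icc 0 t)
      · intro s hs
        exact (hd s (by linarith [hs.2])).continuousAt.continuousWithinAt
      · intro s hs
        rw [interior_Icc] at hs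
        exact (hd s (by linarith [hs.2])).differentiableAt.differentiableWithinAt
      · intro s hs
        rw [interior_Icc] at hs
        rw [(hd s (by linarith [hs.2])).deriv]
        have : 1 / (1 - s) ≤ 1 / (1 - t) :=
          one_div_le_one_div_of_le (by linarith) (by linarith [hs.2])
        exact mul_nonneg (pow_nonneg hs.1.le 3) (by linarith)
    have := hmono (left_mem_Icc.2 ht.le) (right_mem_Icc.2 ht.le) ht.le
    rwa [hf0] at this
  · have hanti : AntitoneOn f (Icc t t0) := by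
      apply antitoneOn_of_deriv_nonpos (convex_Icc t t0)
      · intro s hs
        exact (hd s (by linarith [hs.2])).continuousAt.continuousWithinAt
      · intro s hs
        rw [interior_Icc] at hs
        exact (hd s (by linarith [hs.2])).differentiableAt.differentiableWithinAt
      · intro s hs
        rw [interior_Icc] at hs
        rw [(hd s (by linarith [hs.2])).deriv]
        have : 1 / (1 - t) ≤ 1 / (1 - s) :=
          one_div_le_one_div_of_le (by linarith [hs.2]) (by linarith [hs.1])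
        exact mul_nonpos_of_nonneg_of_nonpos (pow_nonneg (by linarith [hs.1]) 3) (by linarith)
    have := hanti (left_mem_Icc.2 h0) (right_mem_Icc.2 h0) h0
    linarith

theorem v_le {v z c k z1 : ℝ} (hc : 0 ≤ c) (hz : z ≤ z1) (hz1 : z1 < 1)
    (h : v ^ 2 * (1 - z) ≤ k) (h1 : k ≤ c ^ 2 * (1 - z1)) : v ≤ c := by
  by_contra hcon
  push Not at hcon
  have h2 : c ^ 2 < v ^ 2 := pow_lt_pow_left₀ hcon hc (by norm_num)
  have h3 : c ^ 2 * (1 - z1) < v ^ 2 * (1 - z1) :=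
    mul_lt_mul_of_pos_right h2 (by linarith)
  have h4 : v ^ 2 * (1 - z1) ≤ v ^ 2 * (1 - z) :=
    mul_le_mul_of_nonneg_left (by linarith) (sq_nonneg v)
  linarith

end Vale.Agent.P237.AllN.Pl
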