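import Vale.Agent.P237.AllN.PlA

/-!
# P237, plain certificate, `5 ≤ m ≤ 14`: side conditions
-/

open MeasureTheory Metric Set Module Filter Topology

namespace Vale.Agent.P237.AllN.Pl

open PolyPos Alm

/-- numerical side conditions -/
structure NumOK (D : Dat) (L : ℝ) : Prop where
  h5 : 5 ≤ D.P.m
  h14 : D.P.m ≤ 14
  e0 : 0 < D.P.e0.R
  eps : 0 < D.P.eps.R
  k0 : 0 < D.k.R
  k1 : 0 ≤ D.P.k1.R
  hk : (D.P.m : ℝ) ≤ D.k.R * (2 * ((D.P.m : ℝ) + 1) * Slope.am D.P.m)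
  cp : D.cp.R = (PcRho.cT D.P.m : ℝ) / 10000
  q3 : D.q3.R = (PcRho.q3T D.P.m : ℝ) / 10000
  q4 : D.q4.R = (PcRho.q4T D.P.m : ℝ) / 10000
  g0 : D.g0.R = (PcRho.al9 D.P.m : ℝ) / 10000
  g1 : D.g1.R = (PcRho.be9 D.P.m : ℝ) / 10000
  U0 : 0 ≤ (PcRho.UT D.P.m : ℝ)
  U : D.k.R ^ 2 * (3 / ((D.P.m : ℝ) - 1)) ≤ ((PcRho.UT D.P.m : ℝ) / 1000) ^ 2
  cpos : (PcRho.cT D.P.m : ℝ) / 10000 * ((PcRho.UT D.P.m : ℝ) / 1000) ^ 2 ≤ PcRho.r0 D.P.m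
  X0 : 3 / ((D.P.m : ℝ) + 2) ≤ ((D.X0 : ℝ) / 1000) ^ 2
  V0 : D.k.R ^ 2 * (((D.P.m : ℝ) + 2) / ((D.P.m : ℝ) - 1)) ≤ ((D.V0 : ℝ) / 1000) ^ 2
  S0 : ((D.P.m : ℝ) - 1) / ((D.P.m : ℝ) + 2) ≤ ((D.S0 : ℝ) / 1000) ^ 2
  K0 : D.k.R ≤ (D.K0 : ℝ) / 1000
  lam : 0 ≤ 1 - D.P.k1.R * L
  th : D.P.th.R ≤ (1 - D.P.k1.R * L) * (1 - 3 / 25 - 27 / 2000)
  c2 : (1 + D.P.k1.R * ((1 - 3 / ((D.P.m : ℝ) + 2)) * (31 / 50 + 7 / 50 *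
    (3 / ((D.P.m : ℝ) + 2))))) / 2 * (1 + 31 / 50 / (D.P.m : ℝ) / 3 +
    5 / 48 * (31 / 50 / (D.P.m : ℝ)) ^ 2) ≤ D.P.c2.R * (D.P.m : ℝ) ^ 2
  lx : Real.log (((D.P.m : ℝ) + 2) / 3) ≤ ((D.P.m : ℝ) - 1) / ((D.P.m : ℝ) + 2) +
    2 * D.lx.R * (((D.P.m : ℝ) - 1) / ((D.P.m : ℝ) + 2)) ^ 2
  c4 : Real.log (((D.P.m : ℝ) + 2) / 3) ≤ ((D.P.m : ℝ) - 1) / ((D.P.m : ℝ) + 2) +
    (((D.P.m : ℝ) - 1) / ((D.P.m : ℝ) + 2)) ^ 2 / 2 +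
    (((D.P.m : ℝ) - 1) / ((D.P.m : ℝ) + 2)) ^ 3 / 3 +
    2 * D.c4.R * (((D.P.m : ℝ) - 1) / ((D.P.m : ℝ) + 2)) ^ 4
  hpp : D.P.m ≤ 2 * D.pp ∨ (D.P.m = 5 ∧ D.pp = 2)
  hL : ∀ r τ τ' T : ℝ → ℝ, IsProf r → IsTrans D.P.m r τ τ' T → ∀ x ∈ Ioo (0 : ℝ) 1,
    x ^ 2 = 3 / ((D.P.m : ℝ) + 2) → -L ≤ lf τ x

/-- the family for the region on the right, `u ≤ 0` -/
def fRM (D : Dat) (rb : Ex) : List Ex :=
  psdE (entRM Ex.c D.P (Ex.c ⟨1, 0⟩) D.ly (Ex.c ⟨2, 0⟩) rb Ex.X Ex.Y)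

/-- the kernel checks -/
structure ChkOK (D : Dat) : Prop where
  LP : ∃ t, D.kLP t = true
  LM : ∃ t, D.kLM t = true
  RM : ∀ s E : ℝ, 0 < s → 1000 * s ≤ (D.S0 : ℝ) → 0 < E → E ≤ 1 → s ^ D.P.m ≤ E →
    (D.P.m = 5 → 11 / 25 ≤ s ^ 2 → s ^ 4 ≤ E) →
    (1 / 4 ≤ E ∧ ∀ p ∈ fRM D D.rbT, 0 ≤ p.R s E) ∨
    (3 / 500 ≤ E ∧ E ≤ 1 / 4 ∧ ∀ p ∈ fRM D D.rbG, 0 ≤ p.R s E) ∨
    (∀ p ∈ fRM D D.rbC, 0 ≤ p.R s E)
  RP1 : ∃ t, D.kRP1 t = true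
  RP2 : ∃ t, D.kRP2 t = true
  RS : ∃ t, D.kRS t = true

/-- the checks of the region on the right, `u ≤ 0`, `m ≥ 6` -/
theorem RM_of {D : Dat} {t1 t2 t3 : PT} (hS : 0 < D.S0)
    (h1 : D.kRM D.rbT D.P.m 0 D.S0 250 1000 t1 = true)
    (h2 : D.kRM D.rbG D.P.m 0 D.S0 6 250 t2 = true)
    (h3 : D.kRM D.rbC D.P.m 0 D.S0 0 6 t3 = true) :
    ∀ s E : ℝ, 0 < s → 1000 * s ≤ (D.S0 : ℝ) → 0 < E → E ≤ 1 → s ^ D.P.m ≤ E →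
    (D.P.m = 5 → 11 / 25 ≤ s ^ 2 → s ^ 4 ≤ E) →
    (1 / 4 ≤ E ∧ ∀ p ∈ fRM D D.rbT, 0 ≤ p.R s E) ∨
    (3 / 500 ≤ E ∧ E ≤ 1 / 4 ∧ ∀ p ∈ fRM D D.rbG, 0 ≤ p.R s E) ∨
    (∀ p ∈ fRM D D.rbC, 0 ≤ p.R s E) := by
  intro s E hs hs1 hE hE1 hlo _
  have hLo : (D.loRM D.P.m).R s E ≤ 0 := by rw [loRM_R]; linarith
  have hS' : (0 : ℤ) < D.S0 := by exact_mod_cast hS
  rcases le_or_gt (1 / 4) E with hE2 | hE2
  · left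
    refine ⟨hE2, ?_⟩
    obtain ⟨L, hL, hp⟩ := fam_cases (tchkE_sound hLo _ _ _ _ _ _ _ (by norm_num) (by norm_num)
      hS' (by norm_num) h1 (by push_cast; linarith) (by push_cast; linarith)
      (by push_cast; linarith) (by push_cast; linarith))
    simp only [List.mem_cons, List.not_mem_nil, or_false] at hL
    subst hL
    exact hp
  · right
    rcases le_or_gt (3 / 500) E with hE3 | hE3
    · left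
      refine ⟨hE3, hE2.le, ?_⟩
      obtain ⟨L, hL, hp⟩ := fam_cases (tchkE_sound hLo _ _ _ _ _ _ _ (by norm_num) (by norm_num)
        hS' (by norm_num) h2 (by push_cast; linarith) (by push_cast; linarith)
        (by push_cast; linarith) (by push_cast; linarith))
      simp only [List.mem_cons, List.not_mem_nil, or_false] at hL
      subst hL
      exact hp
    · right
      obtain ⟨L, hL, hp⟩ := fam_cases (tchkE_sound hLo _ _ _ _ _ _ _ (by norm_num) (by norm_num)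
        hS' (by norm_num) h3 (by push_cast; linarith) (by push_cast; linarith)
        (by push_cast; linarith) (by push_cast; linarith))
      simp only [List.mem_cons, List.not_mem_nil, or_false] at hL
      subst hL
      exact hp

/-- an upper bound of a logarithm -/
theorem log_le_of {a q : ℝ} (ha : 0 < a) (hq : 0 ≤ q)
    (h : a ≤ (1 + q / 8 + (q / 8) ^ 2 / 2 + (q / 8) ^ 3 / 6 + (q / 8) ^ 4 / 24) ^ 8) :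
    Real.log a ≤ q := by
  rw [Real.log_le_iff_le_exp ha]
  have h1 := Real.sum_le_exp_of_nonneg (x := q / 8) (by positivity) 5
  simp only [Finset.sum_range_succ, Finset.sum_range_zero, Nat.factorial] at h1
  norm_num at h1
  have h2 : 0 ≤ 1 + q / 8 + (q / 8) ^ 2 / 2 + (q / 8) ^ 3 / 6 + (q / 8) ^ 4 / 24 := by positivity
  have h3 : (1 + q / 8 + (q / 8) ^ 2 / 2 + (q / 8) ^ 3 / 6 + (q / 8) ^ 4 / 24) ^ 8 ≤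
      Real.exp (q / 8) ^ 8 := pow_le_pow_left₀ h2 (by linarith) 8
  have h4 : Real.exp (q / 8) ^ 8 = Real.exp q := by
    rw [← Real.exp_nat_mul]
    congr 1
    push_cast
    ring
  linarith

end Vale.Agent.P237.AllN.Pl
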