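import Vale.Agent.P237.AllN.PlB

/-!
# P237, plain certificate: data and kernel checks for `m = 10`
-/

namespace Vale.Agent.P237.AllN.Pl

open PolyPos

/-- data for `m = 10` -/
def D10 : Dat where
  P := ⟨10, ⟨5, 7⟩, ⟨161, 499⟩, ⟨427, 999⟩, ⟨6, 4⟩, ⟨133, 999⟩, ⟨99, 249⟩, ⟨67, 9999⟩, ⟨1, 999⟩, ⟨1, 999999⟩⟩
  k := ⟨315, 255⟩
  cp := ⟨559, 9999⟩
  q3 := ⟨101, 999⟩
  q4 := ⟨1081, 999⟩
  lx := ⟨567, 999⟩
  c4 := ⟨17, 49⟩
  g0 := ⟨493, 9999⟩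
  g1 := ⟨9387, 9999⟩
  pp := 5
  X0 := 501
  V0 := 1421
  S0 := 867
  K0 := 1231
  bs := 2 ^ 1024
  wd := 40

theorem kLP_10 : D10.kLP (.leaf 0) = true := by
  decide +kernel

theorem kLM_10 : D10.kLM (.sx (.leaf 0) (.sy (.leaf 0) (.sx (.leaf 0) (.sy (.leaf 0) .out)))) =
      true := by
  decide +kernel

theorem kRP1_10 : D10.kRP1 (.sx (.leaf 0) (.sy (.sx (.leaf 0) (.sy (.sx (.sy .out (.leaf 0))
      (.sy .out (.sx (.leaf 0) .out))) (.leaf 0))) (.leaf 0))) = true := by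
  decide +kernel

theorem kRP2_10 : D10.kRP2 (.sx (.sy (.sx (.sy .out (.leaf 0)) .out) (.leaf 0)) (.sy .out (.sx
      (.leaf 0) .out))) = true := by
  decide +kernel

theorem kRS_10 : D10.kRS (.leaf 1) = true := by
  decide +kernel

theorem kRMT_10 : D10.kRM D10.rbT D10.P.m 0 D10.S0 250 1000 (.leaf 0) = true := by
  decide +kernel

theorem kRMG_10 : D10.kRM D10.rbG D10.P.m 0 D10.S0 6 250 (.sx (.leaf 0) (.leaf 0)) = true := by
  decide +kernel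

theorem kRMC_10 : D10.kRM D10.rbC D10.P.m 0 D10.S0 0 6 (.sx (.leaf 0) (.leaf 0)) = true := by
  decide +kernel

end Vale.Agent.P237.AllN.Pl
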