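import Vale.Agent.P237.AllN.PlB

/-!
# P237, plain certificate: data and kernel checks for `m = 11`
-/

namespace Vale.Agent.P237.AllN.Pl

open PolyPos

/-- data for `m = 11` -/
def D11 : Dat where
  P := ⟨11, ⟨61, 99⟩, ⟨29, 99⟩, ⟨1, 1⟩, ⟨6, 4⟩, ⟨13, 99⟩, ⟨48, 124⟩, ⟨7, 1249⟩, ⟨1, 999⟩, ⟨1, 999999⟩⟩
  k := ⟨2587, 1999⟩
  cp := ⟨141, 2499⟩
  q3 := ⟨1, 9⟩
  q4 := ⟨267, 249⟩
  lx := ⟨59, 99⟩
  c4 := ⟨357, 999⟩
  g0 := ⟨507, 9999⟩
  g1 := ⟨594, 624⟩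
  pp := 6
  X0 := 481
  V0 := 1475
  S0 := 878
  K0 := 1294
  bs := 2 ^ 1024
  wd := 40

theorem kLP_11 : D11.kLP (.leaf 0) = true := by
  decide +kernel

theorem kLM_11 : D11.kLM (.sx (.leaf 0) (.sy (.leaf 0) (.sx (.sy (.leaf 0) (.sx (.leaf 0) .out))
      (.sy (.sx (.leaf 0) (.sy (.leaf 0) .out)) .out)))) = true := by
  decide +kernel

theorem kRP1_11 : D11.kRP1 (.sx (.leaf 0) (.sy (.sx (.leaf 0) (.sy (.sx (.sy .out (.leaf 0))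
      (.sy .out (.leaf 0))) (.leaf 0))) (.leaf 0))) = true := by
  decide +kernel

theorem kRP2_11 : D11.kRP2 (.sx (.sy (.sx (.sy .out (.leaf 0)) .out) (.leaf 0)) (.sy .out (.sx
      (.leaf 0) .out))) = true := by
  decide +kernel

theorem kRS_11 : D11.kRS (.leaf 1) = true := by
  decide +kernel

theorem kRMT_11 : D11.kRM D11.rbT D11.P.m 0 D11.S0 250 1000 (.sx (.leaf 0) (.leaf 0)) = true :=
      by
  decide +kernel

theorem kRMG_11 : D11.kRM D11.rbG D11.P.m 0 D11.S0 6 250 (.sx (.leaf 0) (.leaf 0)) = true := by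
  decide +kernel

theorem kRMC_11 : D11.kRM D11.rbC D11.P.m 0 D11.S0 0 6 (.sx (.leaf 0) (.leaf 0)) = true := by
  decide +kernel

end Vale.Agent.P237.AllN.Pl
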