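import Vale.Agent.P237.AllN.PlB

/-!
# P237, plain certificate: data and kernel checks for `m = 12`
-/

namespace Vale.Agent.P237.AllN.Pl

open PolyPos

/-- data for `m = 12` -/
def D12 : Dat where
  P := ⟨12, ⟨3, 4⟩, ⟨51, 199⟩, ⟨509, 999⟩, ⟨6, 4⟩, ⟨16, 124⟩, ⟨93, 249⟩, ⟨47, 9999⟩, ⟨1, 999⟩, ⟨1, 999999⟩⟩
  k := ⟨693, 511⟩
  cp := ⟨563, 9999⟩
  q3 := ⟨1, 9⟩
  q4 := ⟨529, 499⟩
  lx := ⟨153, 249⟩
  c4 := ⟨187, 499⟩
  g0 := ⟨519, 9999⟩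
  g1 := ⟨4801, 4999⟩
  pp := 6
  X0 := 463
  V0 := 1527
  S0 := 887
  K0 := 1354
  bs := 2 ^ 1024
  wd := 40

theorem kLP_12 : D12.kLP (.leaf 0) = true := by
  decide +kernel

theorem kLM_12 : D12.kLM (.sx (.leaf 0) (.sy (.leaf 0) (.sx (.leaf 0) (.sy (.leaf 0) .out)))) =
      true := by
  decide +kernel

theorem kRP1_12 : D12.kRP1 (.sx (.leaf 0) (.sy (.sx (.leaf 0) (.sy (.sx (.sy (.sx (.leaf 0)
      .out) (.leaf 0)) (.sy .out (.leaf 0))) (.leaf 0))) (.leaf 0))) = true := by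
  decide +kernel

theorem kRP2_12 : D12.kRP2 (.sx (.sy (.sx (.sy .out (.leaf 0)) .out) (.leaf 0)) (.sy .out (.sx
      (.leaf 0) .out))) = true := by
  decide +kernel

theorem kRS_12 : D12.kRS (.leaf 1) = true := by
  decide +kernel

theorem kRMT_12 : D12.kRM D12.rbT D12.P.m 0 D12.S0 250 1000 (.sx (.leaf 0) (.leaf 0)) = true :=
      by
  decide +kernel

theorem kRMG_12 : D12.kRM D12.rbG D12.P.m 0 D12.S0 6 250 (.sx (.leaf 0) (.leaf 0)) = true := by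
  decide +kernel

theorem kRMC_12 : D12.kRM D12.rbC D12.P.m 0 D12.S0 0 6 (.sx (.leaf 0) (.leaf 0)) = true := by
  decide +kernel

end Vale.Agent.P237.AllN.Pl
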