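import Vale.Agent.P237.AllN.PlB

/-!
# P237, plain certificate: data and kernel checks for `m = 13`
-/

namespace Vale.Agent.P237.AllN.Pl

open PolyPos

/-- data for `m = 13` -/
def D13 : Dat where
  P := ⟨13, ⟨3, 4⟩, ⟨1, 3⟩, ⟨1, 1⟩, ⟨6, 4⟩, ⟨13, 99⟩, ⟨44, 124⟩, ⟨1, 249⟩, ⟨1, 999⟩, ⟨1, 999999⟩⟩
  k := ⟨14111, 9999⟩
  cp := ⟨281, 4999⟩
  q3 := ⟨1, 9⟩
  q4 := ⟨1049, 999⟩
  lx := ⟨633, 999⟩
  c4 := ⟨39, 99⟩
  g0 := ⟨529, 9999⟩
  g1 := ⟨1937, 1999⟩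
  pp := 7
  X0 := 448
  V0 := 1578
  S0 := 895
  K0 := 1412
  bs := 2 ^ 1024
  wd := 40

theorem kLP_13 : D13.kLP (.leaf 0) = true := by
  decide +kernel

theorem kLM_13 : D13.kLM (.sx (.leaf 0) (.sy (.leaf 0) (.sx (.sy (.leaf 0) .out) (.sy (.sx
      (.leaf 0) (.sy (.leaf 0) .out)) .out)))) = true := by
  decide +kernel

theorem kRP1_13 : D13.kRP1 (.sx (.leaf 0) (.sy (.sx (.leaf 0) (.sy (.sx (.leaf 0) (.sy .out
      (.leaf 0))) (.leaf 0))) (.leaf 0))) = true := by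
  decide +kernel

theorem kRP2_13 : D13.kRP2 (.sx (.sy (.sx (.sy .out (.leaf 0)) .out) (.leaf 0)) (.sy .out (.sx
      (.leaf 0) .out))) = true := by
  decide +kernel

theorem kRS_13 : D13.kRS (.leaf 1) = true := by
  decide +kernel

theorem kRMT_13 : D13.kRM D13.rbT D13.P.m 0 D13.S0 250 1000 (.sx (.leaf 0) (.leaf 0)) = true :=
      by
  decide +kernel

theorem kRMG_13 : D13.kRM D13.rbG D13.P.m 0 D13.S0 6 250 (.sx (.leaf 0) (.leaf 0)) = true := by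
  decide +kernel

theorem kRMC_13 : D13.kRM D13.rbC D13.P.m 0 D13.S0 0 6 (.sx (.leaf 0) (.leaf 0)) = true := by
  decide +kernel

end Vale.Agent.P237.AllN.Pl
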