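import Vale.Agent.P237.AllN.PlB

/-!
# P237, plain certificate: data and kernel checks for `m = 14`
-/

namespace Vale.Agent.P237.AllN.Pl

open PolyPos

/-- data for `m = 14` -/
def D14 : Dat where
  P := ⟨14, ⟨3, 4⟩, ⟨1, 3⟩, ⟨1, 1⟩, ⟨6, 4⟩, ⟨13, 99⟩, ⟨167, 499⟩, ⟨7, 1999⟩, ⟨1, 999⟩, ⟨1, 999999⟩⟩
  k := ⟨3003, 2047⟩
  cp := ⟨113, 1999⟩
  q3 := ⟨1, 9⟩
  q4 := ⟨1041, 999⟩
  lx := ⟨653, 999⟩
  c4 := ⟨203, 499⟩
  g0 := ⟨269, 4999⟩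
  g1 := ⟨2439, 2499⟩
  pp := 7
  X0 := 434
  V0 := 1627
  S0 := 902
  K0 := 1467
  bs := 2 ^ 1024
  wd := 40

theorem kLP_14 : D14.kLP (.leaf 0) = true := by
  decide +kernel

theorem kLM_14 : D14.kLM (.sx (.leaf 0) (.sy (.leaf 0) (.sx (.sy (.leaf 0) (.sx (.leaf 0) .out))
      (.sy (.leaf 0) .out)))) = true := by
  decide +kernel

theorem kRP1_14 : D14.kRP1 (.sx (.leaf 0) (.sy (.sx (.leaf 0) (.sy (.sx (.leaf 0) (.sy .out
      (.leaf 0))) (.leaf 0))) (.leaf 0))) = true := by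
  decide +kernel

theorem kRP2_14 : D14.kRP2 (.sx (.sy (.sx (.sy .out (.leaf 0)) .out) (.leaf 0)) (.sy .out (.sx
      (.leaf 0) .out))) = true := by
  decide +kernel

theorem kRS_14 : D14.kRS (.leaf 1) = true := by
  decide +kernel

theorem kRMT_14 : D14.kRM D14.rbT D14.P.m 0 D14.S0 250 1000 (.sx (.leaf 0) (.leaf 0)) = true :=
      by
  decide +kernel

theorem kRMG_14 : D14.kRM D14.rbG D14.P.m 0 D14.S0 6 250 (.sx (.leaf 0) (.leaf 0)) = true := by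
  decide +kernel

theorem kRMC_14 : D14.kRM D14.rbC D14.P.m 0 D14.S0 0 6 (.sx (.leaf 0) (.leaf 0)) = true := by
  decide +kernel

end Vale.Agent.P237.AllN.Pl
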