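import Vale.Agent.P237.AllN.PlB

/-!
# P237, plain certificate: data and kernel checks for `m = 5`
-/

namespace Vale.Agent.P237.AllN.Pl

open PolyPos

/-- data for `m = 5` -/
def D5 : Dat where
  P := ⟨5, ⟨269, 199⟩, ⟨667, 1999⟩, ⟨411, 999⟩, ⟨127, 199⟩, ⟨53, 399⟩, ⟨203, 999⟩, ⟨159, 4999⟩, ⟨1, 999⟩, ⟨1, 999999⟩⟩
  k := ⟨8489, 9999⟩
  cp := ⟨257, 4999⟩
  q3 := ⟨27, 249⟩
  q4 := ⟨613, 499⟩
  lx := ⟨423, 999⟩
  c4 := ⟨237, 999⟩
  g0 := ⟨359, 9999⟩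
  g1 := ⟨4053, 4999⟩
  pp := 2
  X0 := 655
  V0 := 1123
  S0 := 756
  K0 := 849
  bs := 2 ^ 1024
  wd := 40

theorem kLP_5 : D5.kLP (.sx (.leaf 0) (.leaf 0)) = true := by
  decide +kernel

theorem kLM_5 : D5.kLM (.sx (.leaf 0) (.sy (.leaf 0) (.sx (.leaf 0) (.sy (.leaf 0) (.sx (.leaf
      0) (.sy (.leaf 0) .out)))))) = true := by
  decide +kernel

theorem kRP1_5 : D5.kRP1 (.sx (.leaf 1) (.sy (.sx (.leaf 1) (.sy (.sx (.leaf 1) .out) (.sx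
      (.leaf 1) (.sy (.sx (.leaf 1) (.sy (.sx (.leaf 1) .out) (.leaf 0))) (.leaf 0))))) (.leaf
      0))) = true := by
  decide +kernel

theorem kRP2_5 : D5.kRP2 (.sx (.sy .out (.leaf 0)) .out) = true := by
  decide +kernel

theorem kRS_5 : D5.kRS (.leaf 1) = true := by
  decide +kernel

theorem kRMT1_5 : D5.kRM D5.rbT 5 0 664 250 1000 (.leaf 0) = true := by
  decide +kernel

theorem kRMG1_5 : D5.kRM D5.rbG 5 0 664 6 250 (.leaf 0) = true := by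
  decide +kernel

theorem kRMC1_5 : D5.kRM D5.rbC 5 0 664 0 6 (.leaf 0) = true := by
  decide +kernel

theorem kRMT2_5 : D5.kRM D5.rbT 4 663 756 250 1000 (.sx (.leaf 0) (.sy (.sx (.leaf 0) (.sy (.sx
      (.leaf 0) (.sy (.sx (.sy .out (.leaf 0)) (.sy .out (.leaf 0))) (.leaf 0))) (.leaf 0)))
      (.leaf 0))) = true := by
  decide +kernel

theorem kRMG2_5 : D5.kRM D5.rbG 4 663 756 6 250 (.sx (.leaf 0) .out) = true := by
  decide +kernel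

theorem kRMC2_5 : D5.kRM D5.rbC 4 663 756 0 6 (.leaf 0) = true := by
  decide +kernel

end Vale.Agent.P237.AllN.Pl
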