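import Vale.Agent.P237.AllN.PlB

/-!
# P237, plain certificate: data and kernel checks for `m = 6`
-/

namespace Vale.Agent.P237.AllN.Pl

open PolyPos

/-- data for `m = 6` -/
def D6 : Dat where
  P := ⟨6, ⟨43, 39⟩, ⟨187, 499⟩, ⟨551, 999⟩, ⟨1, 0⟩, ⟨13, 124⟩, ⟨133, 499⟩, ⟨209, 9999⟩, ⟨1, 999⟩, ⟨1, 999999⟩⟩
  k := ⟨15, 15⟩
  cp := ⟨53, 999⟩
  q3 := ⟨53, 499⟩
  q4 := ⟨147, 124⟩
  lx := ⟨57, 124⟩
  c4 := ⟨13, 49⟩
  g0 := ⟨1, 24⟩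
  g1 := ⟨853, 999⟩
  pp := 3
  X0 := 613
  V0 := 1186
  S0 := 791
  K0 := 938
  bs := 2 ^ 1024
  wd := 40

theorem kLP_6 : D6.kLP (.leaf 0) = true := by
  decide +kernel

theorem kLM_6 : D6.kLM (.sx (.leaf 0) (.sy (.leaf 0) (.sx (.leaf 0) (.sy (.leaf 0) .out)))) =
      true := by
  decide +kernel

theorem kRP1_6 : D6.kRP1 (.sx (.leaf 1) (.sy (.sx (.leaf 1) (.sy (.sx (.leaf 1) .out) (.leaf
      1))) (.leaf 0))) = true := by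
  decide +kernel

theorem kRP2_6 : D6.kRP2 (.sx (.sy .out (.leaf 0)) .out) = true := by
  decide +kernel

theorem kRS_6 : D6.kRS (.leaf 1) = true := by
  decide +kernel

theorem kRMT_6 : D6.kRM D6.rbT D6.P.m 0 D6.S0 250 1000 (.sx (.leaf 0) (.leaf 0)) = true := by
  decide +kernel

theorem kRMG_6 : D6.kRM D6.rbG D6.P.m 0 D6.S0 6 250 (.sx (.leaf 0) (.sy (.sx (.leaf 0) (.sy (.sx
      (.leaf 0) .out) (.leaf 0))) (.leaf 0))) = true := by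
  decide +kernel

theorem kRMC_6 : D6.kRM D6.rbC D6.P.m 0 D6.S0 0 6 (.sx (.leaf 0) (.leaf 0)) = true := by
  decide +kernel

end Vale.Agent.P237.AllN.Pl
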