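import Vale.Agent.P237.AllN.PlB

/-!
# P237, plain certificate: data and kernel checks for `m = 7`
-/

namespace Vale.Agent.P237.AllN.Pl

open PolyPos

/-- data for `m = 7` -/
def D7 : Dat where
  P := ⟨7, ⟨87, 99⟩, ⟨93, 249⟩, ⟨299, 499⟩, ⟨6, 4⟩, ⟨12, 124⟩, ⟨331, 999⟩, ⟨73, 4999⟩, ⟨1, 999⟩, ⟨1, 999999⟩⟩
  k := ⟨5093, 4999⟩
  cp := ⟨541, 9999⟩
  q3 := ⟨21, 199⟩
  q4 := ⟨571, 499⟩
  lx := ⟨487, 999⟩
  c4 := ⟨141, 499⟩
  g0 := ⟨431, 9999⟩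
  g1 := ⟨4417, 4999⟩
  pp := 4
  X0 := 578
  V0 := 1248
  S0 := 817
  K0 := 1019
  bs := 2 ^ 1024
  wd := 40

theorem kLP_7 : D7.kLP (.leaf 0) = true := by
  decide +kernel

theorem kLM_7 : D7.kLM (.sx (.leaf 0) (.sy (.leaf 0) (.sx (.sy (.leaf 0) (.sx (.leaf 0) .out))
      (.sy (.sx (.leaf 0) (.sy (.leaf 0) (.sx (.leaf 0) .out))) .out)))) = true := by
  decide +kernel

theorem kRP1_7 : D7.kRP1 (.sx (.leaf 0) (.sy (.sx (.leaf 1) (.sy (.sx (.leaf 1) .out) (.leaf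
      0))) (.leaf 0))) = true := by
  decide +kernel

theorem kRP2_7 : D7.kRP2 (.sx (.sy (.sx (.sy .out (.leaf 0)) .out) (.leaf 0)) .out) = true := by
  decide +kernel

theorem kRS_7 : D7.kRS (.leaf 1) = true := by
  decide +kernel

theorem kRMT_7 : D7.kRM D7.rbT D7.P.m 0 D7.S0 250 1000 (.leaf 0) = true := by
  decide +kernel

theorem kRMG_7 : D7.kRM D7.rbG D7.P.m 0 D7.S0 6 250 (.sx (.leaf 0) (.sy (.sx (.leaf 0) (.sy (.sx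
      (.leaf 0) .out) (.leaf 0))) (.leaf 0))) = true := by
  decide +kernel

theorem kRMC_7 : D7.kRM D7.rbC D7.P.m 0 D7.S0 0 6 (.sx (.leaf 0) (.leaf 0)) = true := by
  decide +kernel

end Vale.Agent.P237.AllN.Pl
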