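import Vale.Agent.P237.AllN.PlB

/-!
# P237, plain certificate: data and kernel checks for `m = 8`
-/

namespace Vale.Agent.P237.AllN.Pl

open PolyPos

/-- data for `m = 8` -/
def D8 : Dat where
  P := ⟨8, ⟨18, 24⟩, ⟨17, 49⟩, ⟨29, 49⟩, ⟨91, 99⟩, ⟨14, 124⟩, ⟨193, 499⟩, ⟨107, 9999⟩, ⟨1, 999⟩, ⟨1, 999999⟩⟩
  k := ⟨35, 31⟩
  cp := ⟨273, 4999⟩
  q3 := ⟨103, 999⟩
  q4 := ⟨279, 249⟩
  lx := ⟨103, 199⟩
  c4 := ⟨151, 499⟩
  g0 := ⟨57, 1249⟩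
  g1 := ⟨1133, 1249⟩
  pp := 4
  X0 := 548
  V0 := 1308
  S0 := 837
  K0 := 1094
  bs := 2 ^ 1024
  wd := 40

theorem kLP_8 : D8.kLP (.leaf 0) = true := by
  decide +kernel

theorem kLM_8 : D8.kLM (.sx (.leaf 0) (.sy (.leaf 0) (.sx (.leaf 0) (.sy (.leaf 0) .out)))) =
      true := by
  decide +kernel

theorem kRP1_8 : D8.kRP1 (.sx (.leaf 0) (.sy (.sx (.leaf 1) (.sy (.sx (.leaf 1) .out) (.leaf
      0))) (.leaf 0))) = true := by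
  decide +kernel

theorem kRP2_8 : D8.kRP2 (.sx (.sy (.sx (.sy .out (.leaf 0)) .out) (.leaf 0)) .out) = true := by
  decide +kernel

theorem kRS_8 : D8.kRS (.leaf 1) = true := by
  decide +kernel

theorem kRMT_8 : D8.kRM D8.rbT D8.P.m 0 D8.S0 250 1000 (.leaf 0) = true := by
  decide +kernel

theorem kRMG_8 : D8.kRM D8.rbG D8.P.m 0 D8.S0 6 250 (.sx (.leaf 0) (.leaf 0)) = true := by
  decide +kernel

theorem kRMC_8 : D8.kRM D8.rbC D8.P.m 0 D8.S0 0 6 (.sx (.leaf 0) (.leaf 0)) = true := by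
  decide +kernel

end Vale.Agent.P237.AllN.Pl
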