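import Vale.Agent.P237.AllN.PlB

/-!
# P237, plain certificate: data and kernel checks for `m = 9`
-/

namespace Vale.Agent.P237.AllN.Pl

open PolyPos

/-- data for `m = 9` -/
def D9 : Dat where
  P := ⟨9, ⟨13, 19⟩, ⟨41, 124⟩, ⟨543, 999⟩, ⟨1, 0⟩, ⟨121, 999⟩, ⟨101, 249⟩, ⟨83, 9999⟩, ⟨1, 999⟩, ⟨1, 999999⟩⟩
  k := ⟨5821, 4999⟩
  cp := ⟨553, 9999⟩
  q3 := ⟨51, 499⟩
  q4 := ⟨137, 124⟩
  lx := ⟨271, 499⟩
  c4 := ⟨321, 999⟩
  g0 := ⟨119, 2499⟩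
  g1 := ⟨9243, 9999⟩
  pp := 5
  X0 := 523
  V0 := 1366
  S0 := 853
  K0 := 1165
  bs := 2 ^ 1024
  wd := 40

theorem kLP_9 : D9.kLP (.leaf 0) = true := by
  decide +kernel

theorem kLM_9 : D9.kLM (.sx (.leaf 0) (.sy (.leaf 0) (.sx (.sy (.leaf 0) (.sx (.leaf 0) .out))
      (.sy (.sx (.leaf 0) (.sy (.leaf 0) .out)) .out)))) = true := by
  decide +kernel

theorem kRP1_9 : D9.kRP1 (.sx (.leaf 0) (.sy (.sx (.leaf 0) (.sy (.sx (.leaf 1) (.sy .out (.sx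
      (.sy .out (.leaf 0)) .out))) (.leaf 0))) (.leaf 0))) = true := by
  decide +kernel

theorem kRP2_9 : D9.kRP2 (.sx (.sy (.sx (.sy .out (.leaf 0)) .out) (.leaf 0)) (.sy .out (.sx
      (.leaf 0) .out))) = true := by
  decide +kernel

theorem kRS_9 : D9.kRS (.leaf 1) = true := by
  decide +kernel

theorem kRMT_9 : D9.kRM D9.rbT D9.P.m 0 D9.S0 250 1000 (.leaf 0) = true := by
  decide +kernel

theorem kRMG_9 : D9.kRM D9.rbG D9.P.m 0 D9.S0 6 250 (.sx (.leaf 0) (.leaf 0)) = true := by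
  decide +kernel

theorem kRMC_9 : D9.kRM D9.rbC D9.P.m 0 D9.S0 0 6 (.sx (.leaf 0) (.leaf 0)) = true := by
  decide +kernel

end Vale.Agent.P237.AllN.Pl
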