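import Vale.Agent.P237.AllN.PlB

/-!
# P237, plain certificate, `5 ≤ m ≤ 14`: lower bound of `T` and the region left of the pole
-/

open MeasureTheory Metric Set Module Filter Topology

namespace Vale.Agent.P237.AllN.Pl

open PolyPos Alm

theorem le_of_sq {a b : ℝ} (hb : 0 ≤ b) (h : a ^ 2 ≤ b ^ 2) : a ≤ b := by
  by_contra hc
  push Not at hc
  have := pow_lt_pow_left₀ hc hb (n := 2) (by norm_num)
  linarith

theorem rb_nonneg {m : ℕ} (hm : 5 ≤ m) {n : ℝ} (h0 : 0 ≤ n) (h1 : n ≤ 1) :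
    0 ≤ PcRho.r0 m - PcRho.r1 m * n + PcRho.r2 m * n ^ 2 := by
  have hm' : (5 : ℝ) ≤ m := by exact_mod_cast hm
  obtain ⟨q, hq⟩ : ∃ q, q = 1 / (m : ℝ) := ⟨_, rfl⟩
  have hq0 : 0 < q := by rw [hq]; positivity
  have hq1 : q ≤ 1 / 5 := by
    rw [hq]
    exact one_div_le_one_div_of_le (by norm_num) hm'
  have e2 : 1 / (m : ℝ) ^ 2 = q ^ 2 := by rw [hq]; ring
  unfold PcRho.r0 PcRho.r1 PcRho.r2
  rw [e2, ← hq]
  have e : (1 - q) / 2 - (1 - q ^ 2) / 6 * n + -((1 - q) * (2 - q) * (1 + q)) / 24 * n ^ 2 =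
      (1 - q) * (1 / 2 - (1 + q) / 6 * n - (2 - q) * (1 + q) / 24 * n ^ 2) := by ring
  rw [e]
  apply mul_nonneg (by linarith)
  have h2 : n ^ 2 ≤ 1 := by nlinarith
  have h3 : (1 + q) / 6 * n ≤ 1 / 5 := by nlinarith
  have h4 : (2 - q) * (1 + q) ≤ 12 / 5 := by nlinarith
  have h5 : 0 ≤ (2 - q) * (1 + q) := by nlinarith
  nlinarith

theorem r0_pos {m : ℕ} (hm : 5 ≤ m) : 0 < PcRho.r0 m ∧ PcRho.r0 m ≤ 1 / 2 := by
  have hm' : (5 : ℝ) ≤ m := by exact_mod_cast hm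
  have h1 : 1 / (m : ℝ) ≤ 1 / 5 := one_div_le_one_div_of_le (by norm_num) hm'
  have h2 : 0 < 1 / (m : ℝ) := by positivity
  unfold PcRho.r0
  constructor <;> linarith

theorem r1_pos {m : ℕ} (hm : 5 ≤ m) : 0 < PcRho.r1 m ∧ 0 < PcRho.r1 m + PcRho.r2 m := by
  have hm' : (5 : ℝ) ≤ m := by exact_mod_cast hm
  obtain ⟨q, hq⟩ : ∃ q, q = 1 / (m : ℝ) := ⟨_, rfl⟩
  have hq0 : 0 < q := by rw [hq]; positivity
  have hq1 : q ≤ 1 / 5 := by
    rw [hq]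
    exact one_div_le_one_div_of_le (by norm_num) hm'
  have e2 : 1 / (m : ℝ) ^ 2 = q ^ 2 := by rw [hq]; ring
  unfold PcRho.r1 PcRho.r2
  rw [e2, ← hq]
  constructor
  · nlinarith
  · have e : (1 - q ^ 2) / 6 + -((1 - q) * (2 - q) * (1 + q)) / 24 =
      (1 - q) * (1 + q) * (2 + q) / 24 := by ring
    rw [e]
    have : 0 < 1 - q := by linarith
    positivity

variable {r τ τ' T : ℝ → ℝ} {x x0 : ℝ} {D : Dat} {L : ℝ}

/-- upper bound of `l` -/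
def LS (τ : ℝ → ℝ) : Prop := ∀ y ∈ Ioo (0 : ℝ) 1, lf τ y ≤ (1 - y ^ 2) * (31 / 50 + 7 / 50 * y ^ 2)

theorem LS.le (h : LS τ) (hx : x ∈ Ioo (0 : ℝ) 1) : lf τ x ≤ 31 / 50 := by
  have h1 := h x hx
  nlinarith [sq_nonneg x, sq_nonneg (x ^ 2)]

theorem bB {μ v vm mu1 c2 m : ℝ} (hμ : 0 ≤ μ) (hμ1 : μ ≤ mu1) (hv1 : -(9 / 25) ≤ v)
    (hv2 : v ≤ vm) (hvm0 : 0 < vm) (hvm1 : vm ≤ 1 / 5)
    (hc2 : mu1 / 2 * (1 + vm / 3 + 5 / 48 * vm ^ 2) ≤ c2 * m ^ 2) :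
    μ * (Real.exp v - 1 - v) ≤ c2 * (v * m) ^ 2 := by
  have hE := (abs_le.1 (exp_bd (v := v) (by rw [abs_le]; constructor <;> linarith))).2
  have hvv : 0 ≤ v ^ 2 := sq_nonneg v
  have h2 : v / 3 + 5 / 48 * v ^ 2 ≤ vm / 3 + 5 / 48 * vm ^ 2 := by nlinarith
  have h3 := mul_le_mul_of_nonneg_left h2 hvv
  have h1 : Real.exp v - 1 - v ≤ v ^ 2 / 2 * (1 + vm / 3 + 5 / 48 * vm ^ 2) := by
    have e : v ^ 2 / 2 * (1 + vm / 3 + 5 / 48 * vm ^ 2) =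
      v ^ 2 / 2 + 1 / 2 * (v ^ 2 * (vm / 3 + 5 / 48 * vm ^ 2)) := by ring
    have e2 : v ^ 2 / 2 + v ^ 3 / 6 + 5 / 96 * v ^ 4 =
      v ^ 2 / 2 + 1 / 2 * (v ^ 2 * (v / 3 + 5 / 48 * v ^ 2)) := by ring
    linarith
  have h4 : μ * (Real.exp v - 1 - v) ≤
      mu1 * (v ^ 2 / 2 * (1 + vm / 3 + 5 / 48 * vm ^ 2)) := by
    refine (mul_le_mul_of_nonneg_left h1 hμ).trans ?_
    exact mul_le_mul_of_nonneg_right hμ1 (by positivity)
  have h5 := mul_le_mul_of_nonneg_left hc2 hvv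
  have e3 : mu1 * (v ^ 2 / 2 * (1 + vm / 3 + 5 / 48 * vm ^ 2)) =
      v ^ 2 * (mu1 / 2 * (1 + vm / 3 + 5 / 48 * vm ^ 2)) := by ring
  have e4 : c2 * (v * m) ^ 2 = v ^ 2 * (c2 * m ^ 2) := by ring
  linarith

theorem bT {μ v th μ0 m : ℝ} (hμ0 : μ0 ≤ μ) (hμ : 0 ≤ μ) (hv1 : -(9 / 25) ≤ v)
    (hv2 : v ≤ 1 / 5) (hth : th ≤ μ0 * (1 - 3 / 25 - 27 / 2000)) (hm : 0 < m) :
    th / (2 * m) * (v * m) ^ 2 ≤ μ * m * (Real.exp v - 1) - μ * (v * m) := by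
  have hE := (abs_le.1 (exp_bd (v := v) (by rw [abs_le]; constructor <;> linarith))).1
  have hvv : 0 ≤ v ^ 2 := sq_nonneg v
  have h2 : -(3 / 25) - 27 / 2000 ≤ v / 3 - 5 / 48 * v ^ 2 := by nlinarith
  have h3 := mul_le_mul_of_nonneg_left h2 hvv
  have h1 : v ^ 2 / 2 * (1 - 3 / 25 - 27 / 2000) ≤ Real.exp v - 1 - v := by
    have e : v ^ 2 / 2 * (1 - 3 / 25 - 27 / 2000) =
      v ^ 2 / 2 + 1 / 2 * (v ^ 2 * (-(3 / 25) - 27 / 2000)) := by ring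
    have e2 : v ^ 2 / 2 + v ^ 3 / 6 - 5 / 96 * v ^ 4 =
      v ^ 2 / 2 + 1 / 2 * (v ^ 2 * (v / 3 - 5 / 48 * v ^ 2)) := by ring
    linarith
  have h4 : μ0 * (v ^ 2 / 2 * (1 - 3 / 25 - 27 / 2000)) ≤
      μ * (v ^ 2 / 2 * (1 - 3 / 25 - 27 / 2000)) :=
    mul_le_mul_of_nonneg_right hμ0 (by positivity)
  have h5 := mul_le_mul_of_nonneg_left h1 hμ
  have h6 : th * (v ^ 2 / 2) ≤ μ0 * (1 - 3 / 25 - 27 / 2000) * (v ^ 2 / 2) :=
    mul_le_mul_of_nonneg_right hth (by positivity)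
  have h7 : th * (v ^ 2 / 2) * m ≤ μ * (Real.exp v - 1 - v) * m :=
    mul_le_mul_of_nonneg_right (by linarith) hm.le
  have e1 : th / (2 * m) * (v * m) ^ 2 = th * (v ^ 2 / 2) * m := by
    field_simp
  rw [e1]
  refine h7.trans (le_of_eq ?_)
  ring

/-- the lower bound of `T` -/
theorem low_m (N : NumOK D L) (hr : IsProf r) (h : IsTrans D.P.m r τ τ' T)
    (hx : x ∈ Ioo (0 : ℝ) 1) (hx0 : x0 ∈ Ioo (0 : ℝ) 1)
    (hx02 : x0 ^ 2 = 3 / ((D.P.m : ℝ) + 2)) (hls : LS τ) {R C rb : ℝ}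
    (hR : R ≤ 1 - sq x ^ 2 / (1 + sq x))
    (hC : -(C * (x ^ 2 / sq x ^ 2)) * lf τ x ^ 2 ≤
      sq x * (bg (x * Real.exp (lf τ x)) - bg x) + x ^ 2 * lf τ x / (1 + sq x) ^ 2)
    (hrb : ∀ V : ℝ, 0 < V → V ^ D.P.m = 1 + uf τ τ' x →
      uf τ τ' x - D.P.m * (V - 1) ≤ rb * (uf τ τ' x ^ 2 / (1 + uf τ τ' x))) :
    pcLow (D.P.m : ℝ) D.P.k1.R D.P.th.R D.P.c2.R R C
      (rb / (1 + uf τ τ' x)) (x ^ 2 / sq x ^ 2) (lf τ x) (uf τ τ' x) (lf τ x0) ≤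
      brT D.P.m τ τ' (1 + D.P.k1.R * lf τ x0) x := by
  have h5 := N.h5
  have hm5 : (5 : ℝ) ≤ D.P.m := by exact_mod_cast h5
  have hu := uf_pos h hx
  have hs := sqx_pos hx
  have hlo := h.pin_h6 h5 hr hx
  have hhi := hls.le hx
  have hl1 := N.hL r τ τ' T hr h x0 hx0 hx02
  have hl2 := hls x0 hx0
  rw [hx02] at hl2
  have hk1 := N.k1
  have hth := N.th
  have hc2 := N.c2
  have hlam := N.lam
  obtain ⟨m, hm⟩ : ∃ m : ℝ, m = (D.P.m : ℝ) := ⟨_, rfl⟩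
  obtain ⟨k1, hk1d⟩ : ∃ k1 : ℝ, k1 = D.P.k1.R := ⟨_, rfl⟩
  obtain ⟨th, hthd⟩ : ∃ th : ℝ, th = D.P.th.R := ⟨_, rfl⟩
  obtain ⟨c2, hc2d⟩ : ∃ c2 : ℝ, c2 = D.P.c2.R := ⟨_, rfl⟩
  set l := lf τ x with hl
  set u := uf τ τ' x with hu'
  set lam := lf τ x0 with hlamd
  obtain ⟨v, hv⟩ : ∃ v, v = l / (D.P.m : ℝ) := ⟨_, rfl⟩
  have hm0 : (0 : ℝ) < D.P.m := by linarith
  have hvl : l = v * D.P.m := by rw [hv]; field_simp
  have hv1 : -(9 / 25) ≤ v := by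
    rw [hv, le_div_iff₀ hm0]; linarith
  obtain ⟨vm, hvm⟩ : ∃ vm, vm = 31 / 50 / (D.P.m : ℝ) := ⟨_, rfl⟩
  rw [← hvm] at hc2
  have hv2 : v ≤ vm := by
    rw [hv, hvm]; exact div_le_div_of_nonneg_right hhi hm0.le
  have hvm1 : vm ≤ 1 / 5 := by
    rw [hvm, div_le_iff₀ hm0]; linarith
  have hvm0 : 0 < vm := by rw [hvm]; positivity
  have hV0 : 0 < (1 + u) ^ (1 / (D.P.m : ℝ)) := Real.rpow_pos_of_pos hu _
  have hVm : ((1 + u) ^ (1 / (D.P.m : ℝ))) ^ D.P.m = 1 + u := by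
    rw [← Real.rpow_natCast, ← Real.rpow_mul hu.le, one_div_mul_cancel hm0.ne', Real.rpow_one]
  have hmu0 : 1 - k1 * L ≤ 1 + k1 * lam := by
    have := mul_le_mul_of_nonneg_left hl1 hk1
    rw [hk1d]; linarith
  have hmu : 0 ≤ 1 + k1 * lam := by rw [hk1d] at *; linarith
  obtain ⟨mu1, hmu1⟩ : ∃ mu1, mu1 = 1 + D.P.k1.R * ((1 - 3 / ((D.P.m : ℝ) + 2)) * (31 / 50 +
    7 / 50 * (3 / ((D.P.m : ℝ) + 2)))) := ⟨_, rfl⟩
  rw [← hmu1] at hc2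
  have hmu2 : 1 + k1 * lam ≤ mu1 := by
    have := mul_le_mul_of_nonneg_left hl2 hk1
    rw [hmu1, hk1d]; linarith
  unfold brT
  rw [← hl, ← hu', ← hk1d, ← hthd, ← hc2d]
  rw [← hc2d] at hc2
  rw [← hthd, ← hk1d] at hth
  refine pc_lower (m := (D.P.m : ℝ)) (by linarith) hs hu hR ?_ ?_ ?_ ?_ ?_ ?_
  · rw [pin_exp h hx] at hC
    exact hC
  · have h1 := one_add_mul_le_pow (a := (1 + u) ^ (1 / (D.P.m : ℝ)) - 1) (by linarith) D.P.m
    have e : 1 + ((1 + u) ^ (1 / (D.P.m : ℝ)) - 1) = (1 + u) ^ (1 / (D.P.m : ℝ)) := by ring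
    rw [e, hVm] at h1
    linarith
  · have h1 := hrb _ hV0 hVm
    refine h1.trans (le_of_eq ?_)
    ring
  · have := Real.exp_pos (l / (D.P.m : ℝ))
    positivity
  · rw [← hv]
    have h1 := bB hmu hmu2 hv1 hv2 hvm0 hvm1 hc2
    rw [← hvl] at h1
    have e : k1 * lam * v = k1 * lam * (l / (D.P.m : ℝ)) := by rw [hv]
    linarith
  · rw [← hv]
    have h1 := bT hmu0 hmu hv1 (hv2.trans hvm1) hth hm0
    rw [← hvl] at h1
    exact h1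

/-- window, squared -/
theorem win2 (N : NumOK D L) (hr : IsProf r) (h : IsTrans D.P.m r τ τ' T)
    (hx : x ∈ Ioo (0 : ℝ) 1) (hu : 0 ≤ uf τ τ' x) :
    uf τ τ' x ^ 2 * (1 - x ^ 2) ≤ D.k.R ^ 2 * x ^ 2 := by
  have h5 := N.h5
  have h1 := h.pin_h4_of (by omega) hr hx N.hk
  have h2 := mul_nonneg hu (sl_sq_nonneg x)
  have h3 := pow_le_pow_left₀ h2 h1 2
  rw [mul_pow, mul_pow, pin_sq_sq (Ioo_subset_Icc_self hx)] at h3
  exact h3

theorem exgeo_le {z : ℝ} {y : ℝ} (h0 : 0 ≤ z) (h1 : z ≤ 1) : ∀ n : ℕ,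
    0 ≤ (exgeo Ex.X n).R z y ∧ (exgeo Ex.X n).R z y ≤ n
  | 0 => by simp [exgeo, Ex.R, Fr.R]
  | n + 1 => by
    obtain ⟨h2, h3⟩ := exgeo_le h0 h1 n (y := y)
    rw [exgeo, Ex.R_add, Ex.R_mul, Ex.R_sub, one_R, Ex.R_X]
    push_cast
    have h4 : 0 ≤ 1 - z := by linarith
    constructor
    · positivity
    · nlinarith [mul_nonneg h0 h2]

/-- lower bound of `1 + u`, left -/
theorem lo_pp (N : NumOK D L) (hr : IsProf r) (h : IsTrans D.P.m r τ τ' T)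
    (hx : x ∈ Ioo (0 : ℝ) 1) (hxx : x ^ 2 < 3 / ((D.P.m : ℝ) + 2)) :
    (1 - x ^ 2) ^ D.pp ≤ 1 + uf τ τ' x := by
  have hsq : sq x ^ 2 = 1 - x ^ 2 := pin_sq_sq (Ioo_subset_Icc_self hx)
  rw [← hsq, ← pow_mul]
  rcases N.hpp with h1 | ⟨h1, h2⟩
  · exact (pow_le_pow_of_le_one (sl_sq_nonneg x) (pin_sq_le_one x) h1).trans (h.pin_h3 hr hx)
  · rw [h2]
    rw [h1] at h hxx
    refine h.pin_h3_five hr hx ?_
    norm_num at hxx
    linarith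

/-- **left of the pole** -/
theorem ptL (N : NumOK D L) (K : ChkOK D) (hr : IsProf r) (h : IsTrans D.P.m r τ τ' T)
    (hx : x ∈ Ioo (0 : ℝ) 1) (hx0 : x0 ∈ Ioo (0 : ℝ) 1)
    (hx02 : x0 ^ 2 = 3 / ((D.P.m : ℝ) + 2)) (hls : LS τ)
    (hxx : x ^ 2 < 3 / ((D.P.m : ℝ) + 2)) :
    D.P.eps.R * (uf τ τ' x ^ 2 / (1 + uf τ τ' x)) ≤
      brT D.P.m τ τ' (1 + D.P.k1.R * lf τ x0) x +
      pcNL (D.P.m : ℝ) D.P.a1.R D.P.a2.R D.P.a3.R (3 / ((D.P.m : ℝ) + 2)) (x ^ 2)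
        (x ^ 2 / sq x ^ 2) (lf τ x - lf τ x0) (uf τ τ' x) (lf τ x0) := by
  have h5 := N.h5
  have h14 := N.h14
  have hm5 : (5 : ℝ) ≤ D.P.m := by exact_mod_cast h5
  have hu := uf_pos h hx
  have hs := sqx_pos hx
  have hs1 : sq x ≤ 1 := pin_sq_le_one x
  have hsq : sq x ^ 2 = 1 - x ^ 2 := pin_sq_sq (Ioo_subset_Icc_self hx)
  have hx1 := hx.1
  have hz0 : 0 < x ^ 2 := pow_pos hx1 2
  have h37 : 3 / ((D.P.m : ℝ) + 2) ≤ 3 / 7 := by
    apply div_le_div_of_nonneg_left (by norm_num) (by norm_num) (by linarith)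
  have ht : 0 < 1 - x ^ 2 := by linarith
  have hR := qR_le hs hs1 (z := x ^ 2) (by rw [hsq]; ring)
  have hδ : 3 / ((D.P.m : ℝ) + 2) - x ^ 2 ≠ 0 := by linarith
  have hl := hls x hx
  have hC := Corr.corr_A hx1 (by linarith) (pin_le_one h hx).le (by rw [hsq]; exact hl)
  have eC : (2 / 5 + 13 * x ^ 2 / 20 + 22 * (x ^ 2) ^ 3 / 5) =
      2 / 5 + 13 / 20 * x ^ 2 + 22 / 5 * (x ^ 2) ^ 3 := by ring
  rw [eC] at hC
  have e0 := N.e0
  rcases le_or_gt 0 (uf τ τ' x) with hu0 | hu0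
  · obtain ⟨v, hv⟩ : ∃ v, uf τ τ' x = x * v := ⟨uf τ τ' x / x, by field_simp⟩
    have hv0 : 0 ≤ v := by
      by_contra hc
      push Not at hc
      have := mul_neg_of_pos_of_neg hx1 hc
      linarith
    have hwin := win2 N hr h hx hu0
    have hwin' := hwin
    rw [hv] at hwin'
    have hv2 : v ^ 2 * (1 - x ^ 2) ≤ D.k.R ^ 2 := by
      have : x ^ 2 * (v ^ 2 * (1 - x ^ 2)) ≤ x ^ 2 * D.k.R ^ 2 := by linarith
      exact le_of_mul_le_mul_left this hz0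
    have hmm : 0 < (D.P.m : ℝ) - 1 := by linarith
    have hmm2 : 0 < (D.P.m : ℝ) + 2 := by linarith
    have hv3 : v ^ 2 ≤ D.k.R ^ 2 * (((D.P.m : ℝ) + 2) / ((D.P.m : ℝ) - 1)) := by
      have h1 : v ^ 2 * (1 - 3 / ((D.P.m : ℝ) + 2)) ≤ D.k.R ^ 2 :=
        (mul_le_mul_of_nonneg_left (by linarith) (sq_nonneg v)).trans hv2
      have e : 1 - 3 / ((D.P.m : ℝ) + 2) = ((D.P.m : ℝ) - 1) / ((D.P.m : ℝ) + 2) := by
        field_simp
        ring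
      rw [e] at h1
      have h2 := mul_le_mul_of_nonneg_right h1
        (by positivity : 0 ≤ ((D.P.m : ℝ) + 2) / ((D.P.m : ℝ) - 1))
      have e2 : v ^ 2 * (((D.P.m : ℝ) - 1) / ((D.P.m : ℝ) + 2)) *
          (((D.P.m : ℝ) + 2) / ((D.P.m : ℝ) - 1)) = v ^ 2 := by
        field_simp
      rw [e2] at h2
      exact h2
    have hvV : v ≤ (D.V0 : ℝ) / 1000 := le_of_sq (by positivity) (hv3.trans N.V0)
    have huU : uf τ τ' x ≤ (PcRho.UT D.P.m : ℝ) / 1000 := by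
      apply le_of_sq (by have := N.U0; positivity)
      refine le_trans ?_ N.U
      rw [hv, mul_pow]
      have h1 := mul_le_mul_of_nonneg_left hv3 hz0.le
      have h2 : x ^ 2 * (D.k.R ^ 2 * (((D.P.m : ℝ) + 2) / ((D.P.m : ℝ) - 1))) ≤
          3 / ((D.P.m : ℝ) + 2) * (D.k.R ^ 2 * (((D.P.m : ℝ) + 2) / ((D.P.m : ℝ) - 1))) :=
        mul_le_mul_of_nonneg_right hxx.le (by positivity)
      have e : 3 / ((D.P.m : ℝ) + 2) * (D.k.R ^ 2 * (((D.P.m : ℝ) + 2) / ((D.P.m : ℝ) - 1))) =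
          D.k.R ^ 2 * (3 / ((D.P.m : ℝ) - 1)) := by
        field_simp
      linarith
    have hxX : x ≤ (D.X0 : ℝ) / 1000 := le_of_sq (by positivity) (hxx.le.trans N.X0)
    have hX0 : (0 : ℤ) < D.X0 := by
      have : (0 : ℝ) < D.X0 := by
        by_contra hc
        push Not at hc
        linarith
      exact_mod_cast this
    have hV0 : (0 : ℤ) < D.V0 := by
      have h1 : (0 : ℝ) < (D.V0 : ℝ) / 1000 := by
        by_contra hc
        push Not at hc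
        have h2 : (D.V0 : ℝ) / 1000 = 0 := le_antisymm hc (by positivity)
        have h3 := N.V0
        rw [h2] at h3
        have h4 := N.k0
        have : 0 < D.k.R ^ 2 * (((D.P.m : ℝ) + 2) / ((D.P.m : ℝ) - 1)) := by positivity
        linarith
      have : (0 : ℝ) < D.V0 := by linarith
      exact_mod_cast this
    have hlow := low_m N hr h hx hx0 hx02 hls hR hC (rb := PcRho.r0 D.P.m +
      PcRho.r1 D.P.m * uf τ τ' x - (PcRho.cT D.P.m : ℝ) / 10000 * uf τ τ' x ^ 2)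
      (fun V hV0 hV => PcRho.okC h5 (by omega) _ V hV0 hV hu0 huU)
    obtain ⟨t, hk⟩ := K.LP
    obtain ⟨F, hF, hp⟩ := fam_cases (tchkE_sound (x := x) (y := v) (by rw [loLP_R]; linarith)
        _ _ _ _ _ _ _ (by norm_num) (by norm_num) hX0 hV0 hk
        (by push_cast; linarith) (by push_cast; linarith) (by push_cast; linarith)
        (by push_cast; linarith))
    simp only [List.mem_cons, List.not_mem_nil, or_false] at hF
    subst hF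
    have hF := formLP hp e0 (by nlinarith)
    rw [qR_R, qC_R, rbLP_R, Ex.R_mul, Ex.R_X, ← pow_two, r0_R D (by omega), r1_R D (by omega),
      N.cp] at hF
    have key := regLP (P := D.P) (by omega) (l := lf τ x)
      (lam := lf τ x0) (t := 1 - x ^ 2) rfl ht (by rw [← hv]; exact hu) hδ hF
    rw [← hv, ← hsq] at key
    linarith
  · obtain ⟨n, hn⟩ : ∃ n, uf τ τ' x = -(x ^ 2 * n) := ⟨-uf τ τ' x / x ^ 2, by field_simp⟩
    have hn0 : 0 ≤ n := by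
      by_contra hc
      push Not at hc
      have := mul_neg_of_pos_of_neg hz0 hc
      linarith
    have hlo := lo_pp N hr h hx hxx
    have hx2 : x ^ 2 ≤ 1 := by linarith
    have hg := exgeo_R Ex.X (x ^ 2) n D.pp
    rw [Ex.R_X] at hg
    have hn1 : n ≤ (exgeo Ex.X D.pp).R (x ^ 2) n := by
      have : x ^ 2 * n ≤ x ^ 2 * (exgeo Ex.X D.pp).R (x ^ 2) n := by
        rw [hg]; linarith
      exact le_of_mul_le_mul_left this hz0
    have hn2 : n ≤ D.pp := hn1.trans (exgeo_le hz0.le hx2 D.pp).2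
    have hpp : (0 : ℤ) < D.pp := by
      have : 0 < D.pp := by
        rcases N.hpp with h1 | ⟨_, h2⟩ <;> omega
      exact_mod_cast this
    have hlow := low_m N hr h hx hx0 hx02 hls hR hC (rb := PcRho.r0 D.P.m +
      PcRho.r1 D.P.m * uf τ τ' x + PcRho.r2 D.P.m * uf τ τ' x ^ 2)
      (fun V hV0 hV => PcRho.okNeg h5 (by omega) _ V hV0 hV hu0.le)
    obtain ⟨t, hk⟩ := K.LM
    obtain ⟨F, hF, hp⟩ := fam_cases (tchkE_sound (x := x ^ 2) (y := n) (by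
          rw [loLM_R]; linarith)
        _ _ _ _ _ _ _ (by omega) (by norm_num) (by norm_num) hpp hk
        (by push_cast; positivity) (by
          rw [lt_div_iff₀ (by linarith)] at hxx
          push_cast
          linarith) (by push_cast; linarith)
        (by push_cast; linarith))
    simp only [List.mem_cons, List.not_mem_nil, or_false] at hF
    subst hF
    have hF := formLM hp e0 hz0 ht
    rw [qR_R, qC_R, rbLM_R, Ex.R_X, one_R, r0_R D (by omega), r1_R D (by omega),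
      r2_R D (by omega)] at hF
    have hnn : x ^ 2 * n ≤ 1 := by linarith
    have key := regLM (P := D.P) (by omega) (l := lf τ x) (x := x)
      (lam := lf τ x0) (t := 1 - x ^ 2) rfl hx1 rfl ht (by linarith) hδ hn0
      (rb_nonneg h5 (by positivity) hnn) (by norm_num) (by omega) hl hF
    rw [← hn, ← hsq] at key
    have e : PcRho.r0 D.P.m - PcRho.r1 D.P.m * (x ^ 2 * n) + PcRho.r2 D.P.m * (x ^ 2 * n) ^ 2 =
        PcRho.r0 D.P.m + PcRho.r1 D.P.m * uf τ τ' x + PcRho.r2 D.P.m * uf τ τ' x ^ 2 := by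
      rw [hn]; ring
    rw [e] at key
    linarith

end Vale.Agent.P237.AllN.Pl
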