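import Vale.Agent.P237.AllN.PolyArith2

/-!
# Two-variable polynomials with rational coefficients (common denominators), for kernel computation
-/

namespace Vale.Agent.P237.AllN.PolyPos

/-- fractions `n / (d + 1)` -/
structure Fr where
  n : ℤ
  d : ℕ

/-- value of a fraction -/
noncomputable def Fr.R (a : Fr) : ℝ := a.n / ((a.d : ℝ) + 1)

/-- polynomials in two variables with common denominator `d + 1` -/
structure Q2 where
  p : P2
  d : ℕ

/-- evaluation -/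
noncomputable def evQ (q : Q2) (x y : ℝ) : ℝ := ev2 q.p x y / ((q.d : ℝ) + 1)

/-- constants -/
def Q2.c (a : Fr) : Q2 := ⟨[[a.n]], a.d⟩

/-- first variable -/
def Q2.X : Q2 := ⟨[[], [1]], 0⟩

/-- second variable -/
def Q2.Y : Q2 := ⟨[[0, 1]], 0⟩

/-- sum -/
def Q2.add (q r : Q2) : Q2 :=
  ⟨p2add (p2sm ((Nat.lcm (q.d + 1) (r.d + 1) / (q.d + 1) : ℕ) : ℤ) q.p)
    (p2sm ((Nat.lcm (q.d + 1) (r.d + 1) / (r.d + 1) : ℕ) : ℤ) r.p),
    Nat.lcm (q.d + 1) (r.d + 1) - 1⟩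

/-- difference -/
def Q2.sub (q r : Q2) : Q2 :=
  ⟨p2add (p2sm ((Nat.lcm (q.d + 1) (r.d + 1) / (q.d + 1) : ℕ) : ℤ) q.p)
    (p2sm (-((Nat.lcm (q.d + 1) (r.d + 1) / (r.d + 1) : ℕ) : ℤ)) r.p),
    Nat.lcm (q.d + 1) (r.d + 1) - 1⟩

/-- product -/
def Q2.mul (q r : Q2) : Q2 := ⟨p2mul q.p r.p, (q.d + 1) * (r.d + 1) - 1⟩

instance : Add Q2 := ⟨Q2.add⟩
instance : Sub Q2 := ⟨Q2.sub⟩
instance : Mul Q2 := ⟨Q2.mul⟩

theorem evQ_c (a : Fr) (x y : ℝ) : evQ (Q2.c a) x y = a.R := by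
  simp only [evQ, ev2, ev1, Q2.c, evL, mul_zero, add_zero, Fr.R]

theorem evQ_X (x y : ℝ) : evQ Q2.X x y = x := by
  simp only [evQ, ev2, ev1, Q2.X, evL, Int.cast_one, mul_zero, add_zero, mul_one, zero_add, CharP.cast_eq_zero, div_one]

theorem evQ_Y (x y : ℝ) : evQ Q2.Y x y = y := by
  simp only [evQ, ev2, ev1, Q2.Y, evL, Int.cast_zero, Int.cast_one, mul_zero, add_zero, mul_one, zero_add, CharP.cast_eq_zero, div_one]

theorem evQ_lcm1 (a b : ℕ) : (((Nat.lcm (a + 1) (b + 1) / (a + 1) : ℕ) : ℝ)) /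
    (((Nat.lcm (a + 1) (b + 1) - 1 : ℕ) : ℝ) + 1) = 1 / ((a : ℝ) + 1) := by
  obtain ⟨k, hk⟩ := Nat.dvd_lcm_left (a + 1) (b + 1)
  have hpos : 0 < Nat.lcm (a + 1) (b + 1) := Nat.lcm_pos (by omega) (by omega)
  have h1 : Nat.lcm (a + 1) (b + 1) / (a + 1) = k := by
    rw [hk]
    exact Nat.mul_div_cancel_left _ (by omega)
  have h2 : (((Nat.lcm (a + 1) (b + 1) - 1 : ℕ) : ℝ) + 1) = ((a : ℝ) + 1) * k := by
    have : Nat.lcm (a + 1) (b + 1) - 1 + 1 = (a + 1) * k := by omega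
    exact_mod_cast this
  have hk0 : (k : ℝ) ≠ 0 := by
    intro h
    have : k = 0 := by exact_mod_cast h
    rw [this] at hk
    omega
  rw [h1, h2]
  (clear * - hk0; field_simp)

theorem evQ_lcm2 (a b : ℕ) : (((Nat.lcm (a + 1) (b + 1) / (b + 1) : ℕ) : ℝ)) /
    (((Nat.lcm (a + 1) (b + 1) - 1 : ℕ) : ℝ) + 1) = 1 / ((b : ℝ) + 1) := by
  rw [Nat.lcm_comm]
  exact evQ_lcm1 b a

theorem evQ_add (q r : Q2) (x y : ℝ) : evQ (q + r) x y = evQ q x y + evQ r x y := by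
  show evQ (Q2.add q r) x y = _
  unfold evQ Q2.add
  simp only
  rw [ev2_add, ev2_sm, ev2_sm, add_div, mul_div_right_comm, mul_div_right_comm, Int.cast_natCast,
    Int.cast_natCast, evQ_lcm1, evQ_lcm2]
  ring

theorem evQ_sub (q r : Q2) (x y : ℝ) : evQ (q - r) x y = evQ q x y - evQ r x y := by
  show evQ (Q2.sub q r) x y = _
  unfold evQ Q2.sub
  simp only
  rw [ev2_add, ev2_sm, ev2_sm, add_div, mul_div_right_comm, mul_div_right_comm, Int.cast_neg,
    Int.cast_natCast, Int.cast_natCast, neg_div, evQ_lcm1, evQ_lcm2]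
  ring

theorem evQ_mul (q r : Q2) (x y : ℝ) : evQ (q * r) x y = evQ q x y * evQ r x y := by
  show evQ (Q2.mul q r) x y = _
  unfold evQ Q2.mul
  simp only
  rw [ev2_mul]
  have h : (((q.d + 1) * (r.d + 1) - 1 : ℕ) : ℝ) + 1 = ((q.d : ℝ) + 1) * ((r.d : ℝ) + 1) := by
    have : (q.d + 1) * (r.d + 1) - 1 + 1 = (q.d + 1) * (r.d + 1) :=
      Nat.sub_add_cancel (Nat.mul_pos (by omega) (by omega))
    exact_mod_cast this
  rw [h]
  (clear * -; field_simp)

theorem evQ_nonneg {q : Q2} {x y : ℝ} (h : 0 ≤ ev2 q.p x y) : 0 ≤ evQ q x y := by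
  unfold evQ
  positivity

/-- the entries of a quadratic form, weight `W`, lower bound `e` of `a` -/
structure Ent (α : Type) where
  a : α
  b : α
  c : α
  d : α
  f : α
  g : α
  W : α
  e : α

/-- the four polynomials of the psd test: `a - e`, `ab - Wd²`, `ac - Wf²`, determinant -/
def psdQ (E : Ent Q2) : List P2 :=
  let dd := E.d * E.d
  let ff := E.f * E.f
  [(E.a - E.e).p, (E.a * E.b - E.W * dd).p, (E.a * E.c - E.W * ff).p,
    (E.a * (E.b * E.c - E.g * E.g) -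
      E.W * (E.c * dd - Q2.c ⟨2, 0⟩ * (E.g * (E.d * E.f)) + E.b * ff)).p]

theorem psdQ_sound {E : Ent Q2} {x y : ℝ} (h : ∀ p ∈ psdQ E, 0 ≤ ev2 p x y) :
    evQ E.e x y ≤ evQ E.a x y ∧
    0 ≤ evQ E.a x y * evQ E.b x y - evQ E.W x y * evQ E.d x y ^ 2 ∧
    0 ≤ evQ E.a x y * evQ E.c x y - evQ E.W x y * evQ E.f x y ^ 2 ∧
    0 ≤ evQ E.a x y * (evQ E.b x y * evQ E.c x y - evQ E.g x y ^ 2) - evQ E.W x y *
      (evQ E.c x y * evQ E.d x y ^ 2 - 2 * evQ E.g x y * evQ E.d x y * evQ E.f x y +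
        evQ E.b x y * evQ E.f x y ^ 2) := by
  simp only [psdQ, List.mem_cons, List.not_mem_nil, or_false, forall_eq_or_imp, forall_eq] at h
  obtain ⟨h1, h2, h3, h4⟩ := h
  have h1 := evQ_nonneg h1
  have h2 := evQ_nonneg h2
  have h3 := evQ_nonneg h3
  have h4 := evQ_nonneg h4
  simp only [evQ_sub, evQ_add, evQ_mul, evQ_c] at h1 h2 h3 h4
  have e2 : Fr.R ⟨2, 0⟩ = 2 := by simp [Fr.R]
  rw [e2] at h4
  refine ⟨by linarith only [h1], by linarith only [h2], by linarith only [h3], by linarith only [h4]⟩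

/-- closed boxes -/
theorem check2_closed {A B D A' B' D' : ℤ} (hD : 0 < D) (hD' : 0 < D') (hAB : A < B)
    (hAB' : A' < B') {p : P2} (h : check2 A B D A' B' D' p = true) {x y : ℝ}
    (h0 : (A : ℝ) ≤ D * x) (h1 : (D : ℝ) * x ≤ B) (h2 : (A' : ℝ) ≤ D' * y)
    (h3 : (D' : ℝ) * y ≤ B') : 0 ≤ ev2 p x y := by
  have hDr : (0 : ℝ) < D := by exact_mod_cast hD
  have hDr' : (0 : ℝ) < D' := by exact_mod_cast hD'
  have hABr : (A : ℝ) < B := by exact_mod_cast hAB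
  have hABr' : (A' : ℝ) < B' := by exact_mod_cast hAB'
  refine ev2_closed (a := A / D) (b := B / D) (c := A' / D') (d := B' / D')
    (div_lt_div_of_pos_right hABr hDr) (div_lt_div_of_pos_right hABr' hDr') ?_ ?_ ?_ ?_ ?_
  · intro x y k0 k1 k2 k3
    refine check2_sound hD hD' h ?_ ?_ ?_ ?_
    · rw [div_le_iff₀ hDr] at k0
      linarith only [k0]
    · rw [lt_div_iff₀ hDr] at k1
      linarith only [k1]
    · rw [div_le_iff₀ hDr'] at k2
      linarith only [k2]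
    · rw [lt_div_iff₀ hDr'] at k3
      linarith only [k3]
  · rw [div_le_iff₀ hDr]
    linarith only [h0]
  · rw [le_div_iff₀ hDr]
    linarith only [h1]
  · rw [div_le_iff₀ hDr']
    linarith only [h2]
  · rw [le_div_iff₀ hDr']
    linarith only [h3]

theorem tchk_closed {F : List (List P2)} {Lo : P2} {x y : ℝ} (hLo : ev2 Lo x y ≤ 0) :
    ∀ (t : PT) (A B D A' B' D' : ℤ), 0 < D → 0 < D' → A < B → A' < B' →
      tchk F Lo t A B D A' B' D' = true →
      (A : ℝ) ≤ D * x → (D : ℝ) * x ≤ B → (A' : ℝ) ≤ D' * y → (D' : ℝ) * y ≤ B' →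
      ∃ i, ∀ p ∈ F.getD i [[[-1]]], 0 ≤ ev2 p x y
  | .leaf i, A, B, D, A', B', D', hD, hD', hA, hA', h, h0, h1, h2, h3 => by
    refine ⟨i, fun p hp => ?_⟩
    simp only [tchk, List.all_eq_true] at h
    exact check2_closed hD hD' hA hA' (h p hp) h0 h1 h2 h3
  | .out, A, B, D, A', B', D', hD, hD', hA, hA', h, h0, h1, h2, h3 => by
    exfalso
    have h4 := check2_closed hD hD' hA hA' (by simpa [tchk] using h) h0 h1 h2 h3
    rw [ev2_sub] at h4
    simp only [ev2, ev1, evL] at h4 hLo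
    norm_num at h4
    linarith
  | .sx l r, A, B, D, A', B', D', hD, hD', hA, hA', h, h0, h1, h2, h3 => by
    simp only [tchk, Bool.and_eq_true] at h
    rcases lt_or_ge (((2 * D : ℤ) : ℝ) * x) ((A + B : ℤ) : ℝ) with h4 | h4
    · exact tchk_closed hLo l _ _ _ _ _ _ (by omega) hD' (by omega) hA' h.1
        (by push_cast at *; linarith only [h0]) h4.le h2 h3
    · exact tchk_closed hLo r _ _ _ _ _ _ (by omega) hD' (by omega) hA' h.2 h4
        (by push_cast at *; linarith only [h1]) h2 h3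
  | .sy l r, A, B, D, A', B', D', hD, hD', hA, hA', h, h0, h1, h2, h3 => by
    simp only [tchk, Bool.and_eq_true] at h
    rcases lt_or_ge (((2 * D' : ℤ) : ℝ) * y) ((A' + B' : ℤ) : ℝ) with h4 | h4
    · exact tchk_closed hLo l _ _ _ _ _ _ hD (by omega) hA (by omega) h.1 h0 h1
        (by push_cast at *; linarith only [h2]) h4.le
    · exact tchk_closed hLo r _ _ _ _ _ _ hD (by omega) hA (by omega) h.2 h0 h1 h4
        (by push_cast at *; linarith only [h3])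

end Vale.Agent.P237.AllN.PolyPos
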