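import Vale.Agent.P237.AllN.AllN0
import Vale.Agent.P237.AllN.Body

/-!
# P237, all dimensions: the induction step, part 1: the inequality in every direction
-/

open MeasureTheory Metric Set Module
open scoped Pointwise

namespace Vale.Agent.P237.AllN

/-- Bounded measurable antisymmetric kernels on `[-1,1]²`. -/
structure Kern (A : ℝ → ℝ → ℝ) : Prop where
  meas : Measurable (Function.uncurry A)
  bdd : ∃ C : ℝ, ∀ a ∈ Icc (-1 : ℝ) 1, ∀ b ∈ Icc (-1 : ℝ) 1, |A a b| ≤ C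
  anti : ∀ a ∈ Icc (-1 : ℝ) 1, ∀ b ∈ Icc (-1 : ℝ) 1, A a b = -A b a

/-- Even concave profiles on `[-1,1]`. -/
structure IsProf (r : ℝ → ℝ) : Prop where
  conc : ConcaveOn ℝ (Icc (-1) 1) r
  even : ∀ y, r (-y) = r y
  pos : ∀ y ∈ Ioo (-1 : ℝ) 1, 0 < r y
  nonneg : 0 ≤ r 1

/-- The one-dimensional statement needed for the step from dimension `m` to `m + 1`. -/
def OneD (m : ℕ) : Prop := ∃ A : ℝ → ℝ → ℝ, Kern A ∧
  (∀ ε > (0 : ℝ), ∃ c c' p p' : ℝ → ℝ, Adm A c c' p p' ∧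
    -ε ≤ ∫ y in (-1 : ℝ)..1, (((m : ℝ) + 1) * c y + y * c' y + p' y) * Real.sqrt (1 - y ^ 2) ^ m) ∧
  ∀ r : ℝ → ℝ, IsProf r →
    (∫ y in (-1 : ℝ)..1, r y ^ (m - 1)) ^ m * aInt m ^ (m - 1) ≤
      aInt (m - 1) ^ m * (∫ y in (-1 : ℝ)..1, r y ^ m) ^ (m - 1) →
    (∃ k : ℝ, ∀ y ∈ Ioo (-1 : ℝ) 1, r y = k * Real.sqrt (1 - y ^ 2)) ∨
    ∃ c c' p p' : ℝ → ℝ, Adm A c c' p p' ∧
      0 < ∫ y in (-1 : ℝ)..1, (((m : ℝ) + 1) * c y + y * c' y + p' y) * r y ^ m

section

variable {V : Type*} [NormedAddCommGroup V] [InnerProductSpace ℝ V] [FiniteDimensional ℝ V]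
  [MeasurableSpace V] [BorelSpace V]

/-- the profile scaled to `[-1,1]` -/
noncomputable def rprof (K : Set V) (u : V) (m : ℕ) (t : ℝ) : ℝ := prof K u m (supp K u * t)

theorem rprof_isProf {m : ℕ} (hm : 1 ≤ m) (hd : finrank ℝ V = m + 1) {K : Set V}
    (hK : IsSymBody K) {u : V} (hu : ‖u‖ = 1) : IsProf (rprof K u m) := by
  have hpos := supp_pos hK hu
  refine ⟨⟨convex_Icc _ _, ?_⟩, ?_, ?_, prof_nonneg _ _ _ _⟩
  · intro y hy z hz a b ha hb hab
    have hc := prof_concave hm hd hK hu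
    have hmem : ∀ t ∈ Icc (-1 : ℝ) 1, supp K u * t ∈ Icc (-supp K u) (supp K u) := by
      intro t ht
      constructor
      · nlinarith [ht.1]
      · nlinarith [ht.2]
    have h := hc.2 (hmem y hy) (hmem z hz) ha hb hab
    simp only [smul_eq_mul] at h ⊢
    unfold rprof
    have e : supp K u * (a * y + b * z) = a * (supp K u * y) + b * (supp K u * z) := by ring
    rw [e]
    exact h
  · intro y
    unfold rprof
    rw [mul_neg, prof_even hK hu]
  · intro y hy
    refine prof_pos hm hd hK hu ⟨?_, ?_⟩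
    · nlinarith [hy.1]
    · nlinarith [hy.2]

theorem integral_prof_eq {m : ℕ} (hm : 1 ≤ m) {K : Set V}
    (hK : IsSymBody K) {u : V} (hu : ‖u‖ = 1) {k : ℕ} (hk : 1 ≤ k) :
    ∫ y : ℝ, prof K u m y ^ k = supp K u * ∫ t in (-1 : ℝ)..1, rprof K u m t ^ k := by
  have hpos := supp_pos hK hu
  rw [integral_prof_pow hm hK hu hk]
  unfold rprof
  have h := intervalIntegral.integral_comp_mul_left (a := -1) (b := 1)
    (fun y => prof K u m y ^ k) hpos.ne'
  simp only [smul_eq_mul, mul_neg, mul_one] at h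
  rw [h, ← mul_assoc, mul_inv_cancel₀ hpos.ne', one_mul]

theorem vol_eq_rprof {m : ℕ} (hm : 1 ≤ m) {K : Set V}
    (hK : IsSymBody K) {u : V} (hu : ‖u‖ = 1) :
    vol K = supp K u * ∫ t in (-1 : ℝ)..1, rprof K u m t ^ m := by
  rw [vol_eq_integral_prof hm hK hu, integral_prof_eq hm hK hu hm]

omit [FiniteDimensional ℝ V] [MeasurableSpace V] [BorelSpace V] in
theorem supp_smul_set {K : Set V} {μ : ℝ} (hμ0 : 0 ≤ μ) (u : V) :
    supp (μ • K) u = μ * supp K u := by
  unfold supp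
  have h4 : (fun x : V => inner ℝ x u) '' (μ • K) = μ • ((fun x : V => inner ℝ x u) '' K) := by
    rw [← Set.image_smul, ← Set.image_smul, image_image, image_image]
    simp only [real_inner_smul_left, smul_eq_mul]
  rw [h4, Real.sSup_smul_of_nonneg hμ0, smul_eq_mul]

/-- **(★)** For a symmetric body with `Π² K = r K`, Petty's inequality in dimension `m` gives a
lower bound for the ratio in every direction. -/
theorem ratio_ge_dir {m : ℕ} (hm : 2 ≤ m) (hd : finrank ℝ V = m + 1) {K : Set V}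
    (hK : IsSymBody K) {R : ℝ} (hR : 0 ≤ R) {u : V} (hu : ‖u‖ = 1)
    (hP : ∀ S : Set ((ℝ ∙ u)ᗮ : Submodule ℝ V), IsBody S →
      R * vol S ^ (m - 1) ≤ vol (projBody S))
    {r : ℝ} (hr : 0 < r) (hM : projBody (projBody K) = r • K)
    (hv : vol (projBody K) = r * vol K) :
    R * (∫ t in (-1 : ℝ)..1, rprof K u m t ^ (m - 1)) ^ m ≤
      ratio K * (∫ t in (-1 : ℝ)..1, rprof K u m t ^ m) ^ (m - 1) := by
  have hpos := supp_pos hK hu
  have hPi := projBody_isSymBody hK.toIsBody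
  have h1 : shadow (projBody K) u = r * supp K u := by
    have h2 : supp (projBody (projBody K)) u = beta (projBody K) u :=
      supp_projBody hPi.toIsBody u
    rw [beta_unit hPi.compact hPi.convex hu, hM, supp_smul_set hr.le] at h2
    exact h2.symm
  have h3 := shadow_projBody_ge_gen hm hd hK hu hR hP
  rw [h1, integral_prof_eq (by omega) hK hu (by omega : 1 ≤ m - 1)] at h3
  have hvK := vol_eq_rprof (m := m) (by omega) hK hu
  have p1 := Main.vol_pos hK.toIsBody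
  set I1 := ∫ t in (-1 : ℝ)..1, rprof K u m t ^ (m - 1) with hI1
  set I2 := ∫ t in (-1 : ℝ)..1, rprof K u m t ^ m with hI2
  have hI2pos : 0 < I2 := by
    rw [hvK] at p1
    exact (mul_pos_iff_of_pos_left hpos).1 p1
  obtain ⟨k, rfl⟩ : ∃ k, m = k + 2 := ⟨m - 2, by omega⟩
  simp only [show k + 2 - 1 = k + 1 by omega] at h3 ⊢
  have hrat : ratio K * I2 ^ (k + 1) * supp K u ^ (k + 1) = r := by
    unfold ratio
    rw [hv, hd]
    simp only [show k + 2 + 1 - 1 = k + 2 by omega]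
    rw [hvK]
    have hne : supp K u ≠ 0 := hpos.ne'
    have hne2 : I2 ≠ 0 := hI2pos.ne'
    field_simp
    ring
  rw [mul_pow] at h3
  have h5 : supp K u ^ (k + 2) * (R * I1 ^ (k + 2)) ≤
      supp K u ^ (k + 2) * (ratio K * I2 ^ (k + 1)) := by
    calc supp K u ^ (k + 2) * (R * I1 ^ (k + 2)) = R * (supp K u ^ (k + 2) * I1 ^ (k + 2)) := by
          ring
      _ ≤ r * supp K u := h3
      _ = (ratio K * I2 ^ (k + 1) * supp K u ^ (k + 1)) * supp K u := by rw [hrat]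
      _ = _ := by ring
  exact le_of_mul_le_mul_left h5 (by positivity)

end

end Vale.Agent.P237.AllN
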