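import Mathlib
import Vale.Agent.P237.AllN.StepN

/-!
# P237, all dimensions: definitions for the transport proof of the one-dimensional statement
-/

open MeasureTheory Metric Set Module Filter Topology

namespace Vale.Agent.P237.AllN

/-- `√(1-x²)` -/
noncomputable def sq (x : ℝ) : ℝ := Real.sqrt (1 - x ^ 2)

/-- Monotone transport `τ` of the ball law `s^m` to `r^m` on `(0,1)`, with inverse `T`. -/
structure IsTrans (m : ℕ) (r τ τ' T : ℝ → ℝ) : Prop where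
  mem : ∀ x ∈ Ioo (0 : ℝ) 1, τ x ∈ Ioo (0 : ℝ) 1
  der : ∀ x ∈ Ioo (0 : ℝ) 1, HasDerivAt τ (τ' x) x
  pos : ∀ x ∈ Ioo (0 : ℝ) 1, 0 < τ' x
  cont : ContinuousOn τ' (Ioo 0 1)
  Tmem : ∀ y ∈ Ioo (0 : ℝ) 1, T y ∈ Ioo (0 : ℝ) 1
  left : ∀ x ∈ Ioo (0 : ℝ) 1, T (τ x) = x
  right : ∀ y ∈ Ioo (0 : ℝ) 1, τ (T y) = y
  Tder : ∀ y ∈ Ioo (0 : ℝ) 1, HasDerivAt T (τ' (T y))⁻¹ y
  mass : ∀ x ∈ Ioo (0 : ℝ) 1, (∫ t in (0 : ℝ)..τ x, r t ^ m) * (∫ t in (0 : ℝ)..1, sq t ^ m) =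
    (∫ t in (0 : ℝ)..x, sq t ^ m) * ∫ t in (0 : ℝ)..1, r t ^ m
  eqn : ∀ x ∈ Ioo (0 : ℝ) 1, τ' x * r (τ x) ^ m * (∫ t in (0 : ℝ)..1, sq t ^ m) =
    sq x ^ m * ∫ t in (0 : ℝ)..1, r t ^ m

/-- the kernel `A` has value at least `v` on the profile `r` -/
def AdmGe (m : ℕ) (A : ℝ → ℝ → ℝ) (r : ℝ → ℝ) (v : ℝ) : Prop :=
  ∀ ε > (0 : ℝ), ∃ c c' p p' : ℝ → ℝ, Adm A c c' p p' ∧
    v - ε ≤ ∫ y in (-1 : ℝ)..1, (((m : ℝ) + 1) * c y + y * c' y + p' y) * r y ^ m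

/-- kernels used: even in `(a,b)`, continuous at the corner -/
structure Kern2 (A : ℝ → ℝ → ℝ) : Prop extends Kern A where
  symm : ∀ a b, A (-a) (-b) = A a b
  corner : ∀ η > (0 : ℝ), ∃ δ > (0 : ℝ), ∀ a ∈ Icc (1 - δ) 1, ∀ b ∈ Icc (1 - δ) 1, |A a b| ≤ η

end Vale.Agent.P237.AllN
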