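import Vale.Agent.P237.AllN.KerL0
import Vale.Agent.P237.AllN.PolyArith
import Vale.Agent.P237.AllN.TransDefs

/-!
# P237, all dimensions: the plain tangent pair of the logarithmic kernel on `-1 ≤ b ≤ 0`,
weaker bound

If `l ≤ (1 - x²)(127/200 + 33/200 x²)` then the line `kAc x l + kAp x l * b` is below the kernel
`kA` for `-1 ≤ b ≤ 0`.
-/

open MeasureTheory Metric Set Module Filter Topology

namespace Vale.Agent.P237.AllN

open PolyPos

/-- criterion for `-1 ≤ b ≤ 0` -/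
theorem kA_neg2 {a c p b : ℝ} (ha : 0 < a)
    (h : c + a ^ 2 / 16 + 25 / 7 * (min p 0) ^ 2 + 3 / 400 ≤ 0) (hb : b ≤ 0) (hb1 : -1 ≤ b) :
    c + p * b ≤ kA a b := by
  have hk : kA a b = 1 / 16 * (b ^ 2 - a ^ 2) := by
    unfold kA kL
    rw [if_neg (not_lt.2 (mul_nonpos_of_nonneg_of_nonpos ha.le hb))]
  rw [hk]
  have h1 : p * b ≤ min p 0 * b := mul_le_mul_of_nonpos_right (min_le_left _ _) hb
  set q := min p 0
  nlinarith only [h, h1, hb1, hb, sq_nonneg (50 * q - 7 * b)]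

/-- bound of the exponential -/
theorem sh_exp {w : ℝ} (h0 : 0 ≤ w) (h1 : w ≤ 1) :
    Real.exp w ≤ 1 + w + w ^ 2 / 2 + w ^ 3 / 6 + 5 * w ^ 4 / 96 := by
  have h := Real.exp_bound' h0 h1 (n := 4) (by norm_num)
  simp only [Finset.sum_range_succ, Finset.range_one, Finset.sum_singleton, pow_zero, Nat.factorial, Nat.cast_one, ne_eq, one_ne_zero, not_false_eq_true, div_self, pow_one, Nat.succ_eq_add_one, zero_add, mul_one, div_one, Nat.reduceAdd, Nat.cast_ofNat, Nat.reduceMul] at h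
  linarith

/-- `160 - 33 s²` -/
def shV : List ℤ := [160, 0, -33]

/-- `s²(160 - 33 s²)` -/
def shW : List ℤ := [0, 0, 160, 0, -33]

/-- the exponential bound times `96 * 200⁴` -/
def shE : List ℤ :=
  padd [153600000000] (padd (psm 768000000 shW) (padd (psm 1920000 (ppow shW 2))
    (padd (psm 3200 (ppow shW 3)) (psm 5 (ppow shW 4)))))

/-- `200 (1 - V(1-s)(1+2s))` -/
def shB1 : List ℤ := padd [200] (psm (-1) (pmul shV [1, 1, -2]))

/-- the exponential bound -/
noncomputable def shX (s : ℝ) : ℝ := 1 + (s ^ 2 * (160 - 33 * s ^ 2) / 200) +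
    (s ^ 2 * (160 - 33 * s ^ 2) / 200) ^ 2 / 2 + (s ^ 2 * (160 - 33 * s ^ 2) / 200) ^ 3 / 6 +
    5 * (s ^ 2 * (160 - 33 * s ^ 2) / 200) ^ 4 / 96

theorem ev_shW (s : ℝ) : ev1 shW s = s ^ 2 * (160 - 33 * s ^ 2) := by
  simp only [ev1, shW, Int.reduceNeg, evL, Int.cast_zero, Int.cast_ofNat, Int.cast_neg, mul_zero, add_zero, mul_neg, zero_add]; ring

theorem ev_shE (s : ℝ) : ev1 shE s = 153600000000 * shX s := by
  simp only [shE, ev1_padd, ev1_cons, ev1_nil, ev1_psm, ev_shW, ev1_ppow, shX]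
  push_cast
  ring

theorem ev_shB1 (s : ℝ) : ev1 shB1 s = 200 - (160 - 33 * s ^ 2) * ((1 - s) * (1 + 2 * s)) := by
  simp only [shB1, shV, ev1_padd, ev1_psm, ev1_pmul, ev1_cons, ev1_nil]
  push_cast
  ring

theorem ev_shV (s : ℝ) : ev1 shV s = 160 - 33 * s ^ 2 := by
  simp only [shV, ev1_cons, ev1_nil]
  push_cast
  ring

/-- case A -/
theorem sh_A {s : ℝ} (h0 : 0 < s) (h1 : s < 1) :
    0 ≤ 1 - (160 - 33 * s ^ 2) / 200 * ((1 - s) * (1 + 2 * s)) - s * (1 + s) / 16 * shX s ^ 2 := by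
  have h := auto1_sound (n := 4) (A := 0) (B := 1) (D := 1) (by norm_num)
    (p := padd (psm (153600000000 ^ 2 * 16) shB1) (psm (-200) (pmul [0, 1, 1] (ppow shE 2))))
    (by (clear * -; decide +kernel)) (x := s) (by simpa only [Int.cast_zero, Int.cast_one, one_mul] using h0.le) (by simpa only [Int.cast_one, one_mul] using h1)
  simp only [ev1_padd, ev1_psm, ev1_pmul, ev1_ppow, ev_shB1, ev_shE, ev1_cons, ev1_nil] at h
  push_cast at h
  linarith

/-- case B1 -/
theorem sh_B1 {s : ℝ} (h0 : 7 / 8 ≤ s) (h1 : s < 1) :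
    0 ≤ s * (1 + s) * (1 - (160 - 33 * s ^ 2) / 200 * ((1 - s) * (1 + 2 * s))) -
      s ^ 2 * (1 + s) ^ 2 / 16 * shX s ^ 2 -
      4 * shX s ^ 2 * ((160 - 33 * s ^ 2) / 200 * (1 + s) - 1) ^ 2 := by
  have h := auto1_sound (n := 6) (A := 7) (B := 8) (D := 8) (by norm_num)
    (p := padd (psm (153600000000 ^ 2 * 3200) (pmul [0, 1, 1] shB1))
      (padd (psm (-40000) (pmul (ppow [0, 1, 1] 2) (ppow shE 2)))
        (psm (-64) (pmul (ppow shE 2) (ppow (padd (pmul shV [1, 1]) [-200]) 2)))))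
    (by (clear * -; decide +kernel)) (x := s) (by push_cast; linarith) (by push_cast; linarith only [h1])
  simp only [ev1_padd, ev1_psm, ev1_pmul, ev1_ppow, ev_shB1, ev_shE, ev1_cons, ev1_nil,
    ev_shV] at h
  push_cast at h
  linarith

/-- case B2 -/
theorem sh_B2 {s : ℝ} (h0 : 1 / 4 ≤ s) (h1 : s < 7 / 8) :
    0 ≤ (1 - s) * (s * (1 + s) * (1 - (160 - 33 * s ^ 2) / 200 * ((1 - s) * (1 + 2 * s))) -
      s ^ 2 * (1 + s) ^ 2 / 16 * shX s ^ 2 -
      25 / 7 * shX s ^ 2 * ((160 - 33 * s ^ 2) / 200 * (1 + s) - 1) ^ 2) -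
      3 / 400 * (s ^ 2 * (1 + s)) := by
  have h := auto1_sound (n := 6) (A := 2) (B := 7) (D := 8) (by norm_num)
    (p := padd (pmul [1, -1] (padd (psm (153600000000 ^ 2 * 22400) (pmul [0, 1, 1] shB1))
      (padd (psm (-280000) (pmul (ppow [0, 1, 1] 2) (ppow shE 2)))
        (psm (-400) (pmul (ppow shE 2) (ppow (padd (pmul shV [1, 1]) [-200]) 2))))))
        (psm (-(153600000000 ^ 2 * 33600)) [0, 0, 1, 1]))
    (by (clear * -; decide +kernel)) (x := s) (by push_cast; linarith only [h0]) (by push_cast; linarith only [h1])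
  simp only [ev1_padd, ev1_psm, ev1_pmul, ev1_ppow, ev_shB1, ev_shE, ev1_cons, ev1_nil,
    ev_shV] at h
  push_cast at h
  linarith

/-- case `l ≤ 0` -/
theorem sh_neg {s l Y : ℝ} (hs0 : 0 < s) (hs1 : s < 1) (hl0 : l ≤ 0) (hY : Y ≤ 1) :
    -(1 + 2 * l) * (1 / s - 1) + l * (1 - s ^ 2) / s ^ 3 + (1 - s ^ 2) * Y / 16 ≤ 0 := by
  have e : -(1 + 2 * l) * (1 / s - 1) + l * (1 - s ^ 2) / s ^ 3 =
      (1 - s) / s * (-1 + l * ((1 + s - 2 * s ^ 2) / s ^ 2)) := by
    field_simp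
    ring
  rw [e]
  have h3 : 0 ≤ (1 + s - 2 * s ^ 2) / s ^ 2 := div_nonneg (by nlinarith only [hs1, hs0]) (by positivity)
  have h4 : l * ((1 + s - 2 * s ^ 2) / s ^ 2) ≤ 0 := mul_nonpos_of_nonpos_of_nonneg hl0 h3
  have h5 : 0 < (1 - s) / s := div_pos (by linarith only [hs1]) hs0
  have h6 : (1 - s) / s * (-1 + l * ((1 + s - 2 * s ^ 2) / s ^ 2)) ≤ (1 - s) / s * (-1) :=
    mul_le_mul_of_nonneg_left (by linarith only [h4]) h5.le
  have h7 : (1 - s ^ 2) * Y ≤ (1 - s ^ 2) * 1 :=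
    mul_le_mul_of_nonneg_left hY (by nlinarith only [hs1, hs0])
  have h8 : (1 - s) / s * (-1) + (1 - s ^ 2) / 16 =
      -((1 - s) * (16 - s * (1 + s)) / (16 * s)) := by
    field_simp
    ring
  have h9 : 0 ≤ (1 - s) * (16 - s * (1 + s)) / (16 * s) :=
    div_nonneg (mul_nonneg (by linarith only [hs1]) (by nlinarith only [hs0, hs1])) (by positivity)
  linarith only [h6, h7, h8, h9]

/-- **The plain line is below the kernel** for `l ≤ l**`. -/
theorem kA_neg_plain2 {x l : ℝ} (hx : x ∈ Ioo (0 : ℝ) 1)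
    (hl : l ≤ (1 - x ^ 2) * (127 / 200 + 33 / 200 * x ^ 2)) {b : ℝ} (hb : b ≤ 0) (hb1 : -1 ≤ b) :
    kAc x l + kAp x l * b ≤ kA (x * Real.exp l) b := by
  obtain ⟨hs0, hs1, hxs⟩ := sq_facts hx
  have hx0 := hx.1
  have ha : 0 < x * Real.exp l := by positivity
  suffices H : kAc x l + (x * Real.exp l) ^ 2 / 16 + 4 * (min (kAp x l) 0) ^ 2 ≤ 0 ∨
      kAc x l + (x * Real.exp l) ^ 2 / 16 + 25 / 7 * (min (kAp x l) 0) ^ 2 + 3 / 400 ≤ 0 by
    rcases H with H | H
    · exact kA_neg ha H hb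
    · exact kA_neg2 ha H hb hb1
  unfold kAc kAp
  rw [hxs] at hl
  rw [mul_pow, hxs]
  set s := sq x with hs
  rcases le_or_gt l 0 with hl0 | hl0
  · left
    have hp : 0 ≤ x * Real.exp l * (1 / (s * (1 + s)) - l / s ^ 3) := by
      apply mul_nonneg (by positivity)
      have h1 : 0 ≤ 1 / (s * (1 + s)) := by positivity
      have h2 : l / s ^ 3 ≤ 0 := div_nonpos_of_nonpos_of_nonneg hl0 (by (clear * - hs0; positivity))
      linarith only [h1, h2]
    rw [min_eq_right hp]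
    have he : Real.exp l ≤ 1 := Real.exp_le_one_iff.2 hl0
    have he2 : Real.exp l ^ 2 ≤ 1 := pow_le_one₀ (Real.exp_pos l).le he
    have := sh_neg hs0 hs1 hl0 he2
    simpa only [neg_add_rev, one_div, ne_eq, OfNat.ofNat_ne_zero, not_false_eq_true, zero_pow, mul_zero, add_zero,     ge_iff_le] using this
  · obtain ⟨v, hv⟩ : ∃ v, l = v * s ^ 2 := ⟨l / s ^ 2, by (clear * - hs0 hl0; field_simp)⟩
    have hV : v ≤ (160 - 33 * s ^ 2) / 200 := by
      have h1 : v * s ^ 2 ≤ (160 - 33 * s ^ 2) / 200 * s ^ 2 := by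
        rw [← hv]
        refine hl.trans (le_of_eq ?_)
        ring
      exact le_of_mul_le_mul_right h1 (by positivity)
    have hlw : l ≤ s ^ 2 * (160 - 33 * s ^ 2) / 200 := by
      refine hl.trans (le_of_eq ?_)
      ring
    have hw0 : 0 ≤ s ^ 2 * (160 - 33 * s ^ 2) / 200 := hl0.le.trans hlw
    have hw1 : s ^ 2 * (160 - 33 * s ^ 2) / 200 ≤ 1 := by
      have : s ^ 2 ≤ 1 := by nlinarith only [hxs]
      nlinarith only [hxs]
    have hlE : Real.exp l ≤ shX s := (Real.exp_le_exp.2 hlw).trans (sh_exp hw0 hw1)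
    have hY0 : 0 ≤ Real.exp l ^ 2 := by positivity
    have hE2 : Real.exp l ^ 2 ≤ shX s ^ 2 := pow_le_pow_left₀ (Real.exp_pos l).le hlE 2
    have hA := sh_A hs0 hs1
    have hB1 := fun h0 => sh_B1 (s := s) h0 hs1
    have hB2 := fun h0 h1 => sh_B2 (s := s) h0 h1
    generalize hE : shX s = E at *
    set Y := Real.exp l ^ 2 with hYd
    have e : -(1 + 2 * l) * (1 / s - 1) + l * (1 - s ^ 2) / s ^ 3 =
        (1 - s) / s * (-1 + v * ((1 - s) * (1 + 2 * s))) := by
      rw [hv]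
      field_simp
      ring
    rw [e]
    have h5 : 0 < (1 - s) / s := div_pos (by linarith only [hs1]) hs0
    have h12 : (1 - s ^ 2) * Y / 16 = (1 - s) / s * (s * (1 + s) / 16 * Y) := by
      field_simp
      ring
    rw [h12]
    have ep : 1 / (s * (1 + s)) - l / s ^ 3 = (1 - v * (1 + s)) / (s * (1 + s)) := by
      rw [hv]
      (clear * - hs0; field_simp)
    rw [ep]
    have h10 : 0 ≤ (1 - s) * (1 + 2 * s) := mul_nonneg (by linarith only [hs1]) (by linarith only [hs0])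
    have h11 := mul_le_mul_of_nonneg_right hV h10
    have h13 : s * (1 + s) / 16 * Y ≤ s * (1 + s) / 16 * E ^ 2 :=
      mul_le_mul_of_nonneg_left hE2 (by positivity)
    rcases le_or_gt (v * (1 + s)) 1 with hc | hc
    · left
      have hp : 0 ≤ x * Real.exp l * ((1 - v * (1 + s)) / (s * (1 + s))) :=
        mul_nonneg (by positivity) (div_nonneg (by linarith only [hc]) (by positivity))
      rw [min_eq_right hp]
      have h15 : (1 - s) / s * (-1 + v * ((1 - s) * (1 + 2 * s))) +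
          (1 - s) / s * (s * (1 + s) / 16 * Y) ≤ 0 := by
        rw [← mul_add]
        exact mul_nonpos_of_nonneg_of_nonpos h5.le (by linarith only [hA, h11, h13])
      linarith only [h15]
    · have hp : x * Real.exp l * ((1 - v * (1 + s)) / (s * (1 + s))) ≤ 0 :=
        mul_nonpos_of_nonneg_of_nonpos (by positivity)
          (div_nonpos_of_nonpos_of_nonneg (by linarith only [hc]) (by (clear * - hs0; positivity)))
      rw [min_eq_left hp]
      have hs3 : 1 / 4 ≤ s := by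
        have hVc : 1 < (160 - 33 * s ^ 2) / 200 * (1 + s) :=
          hc.trans_le (mul_le_mul_of_nonneg_right hV (by linarith only [hs0]))
        by_contra h
        push Not at h
        nlinarith only [hl, hv, h11, hc, h, hs0]
      set V := (160 - 33 * s ^ 2) / 200 with hVd
      have h4 : (v * (1 + s) - 1) ^ 2 ≤ (V * (1 + s) - 1) ^ 2 := by
        apply pow_le_pow_left₀ (by linarith only [hc])
        have := mul_le_mul_of_nonneg_right hV (by linarith only [hs0] : 0 ≤ 1 + s)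
        linarith only [this]
      have h6 : Y * (v * (1 + s) - 1) ^ 2 ≤ E ^ 2 * (V * (1 + s) - 1) ^ 2 :=
        mul_le_mul hE2 h4 (sq_nonneg _) (by (clear * -; positivity))
      have h17 : (x * Real.exp l * ((1 - v * (1 + s)) / (s * (1 + s)))) ^ 2 =
          (1 - s) / s * (Y * (v * (1 + s) - 1) ^ 2 / (s * (1 + s))) := by
        have : (x * Real.exp l * ((1 - v * (1 + s)) / (s * (1 + s)))) ^ 2 =
            x ^ 2 * Y * (v * (1 + s) - 1) ^ 2 / (s * (1 + s)) ^ 2 := by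
          rw [mul_pow, mul_pow, div_pow, ← hYd]
          ring
        rw [this, hxs]
        field_simp
        ring
      have hss : 0 < s * (1 + s) := by positivity
      have h18 : Y * (v * (1 + s) - 1) ^ 2 / (s * (1 + s)) ≤
          E ^ 2 * (V * (1 + s) - 1) ^ 2 / (s * (1 + s)) := by (clear * - h6 hs0; gcongr)
      rw [h17]
      rcases lt_or_ge s (7 / 8) with h7 | h7
      · right
        have hB := hB2 hs3 h7
        have h20 : (1 - s) / s * (-1 + V * ((1 - s) * (1 + 2 * s)) + s * (1 + s) / 16 * E ^ 2 +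
            25 / 7 * (E ^ 2 * (V * (1 + s) - 1) ^ 2 / (s * (1 + s)))) + 3 / 400 ≤ 0 := by
          have h21 : ((1 - s) / s * (-1 + V * ((1 - s) * (1 + 2 * s)) +
            s * (1 + s) / 16 * E ^ 2 +
            25 / 7 * (E ^ 2 * (V * (1 + s) - 1) ^ 2 / (s * (1 + s)))) + 3 / 400) =
            -((1 - s) * (s * (1 + s) * (1 - V * ((1 - s) * (1 + 2 * s))) -
            s ^ 2 * (1 + s) ^ 2 / 16 * E ^ 2 -
            25 / 7 * E ^ 2 * (V * (1 + s) - 1) ^ 2) -
            3 / 400 * (s ^ 2 * (1 + s))) / (s ^ 2 * (1 + s)) := by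
            field_simp
            ring
          rw [h21]
          exact div_nonpos_of_nonpos_of_nonneg (by linarith only [hB]) (by positivity)
        have h22 : (1 - s) / s * (-1 + v * ((1 - s) * (1 + 2 * s)) + s * (1 + s) / 16 * Y +
            25 / 7 * (Y * (v * (1 + s) - 1) ^ 2 / (s * (1 + s)))) ≤
            (1 - s) / s * (-1 + V * ((1 - s) * (1 + 2 * s)) + s * (1 + s) / 16 * E ^ 2 +
            25 / 7 * (E ^ 2 * (V * (1 + s) - 1) ^ 2 / (s * (1 + s)))) :=
          mul_le_mul_of_nonneg_left (by linarith only [h13, h11, h18]) h5.le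
        linarith only [h20, h22]
      · left
        have hB := hB1 h7
        have h20 : (-1 + V * ((1 - s) * (1 + 2 * s)) + s * (1 + s) / 16 * E ^ 2 +
            4 * (E ^ 2 * (V * (1 + s) - 1) ^ 2 / (s * (1 + s)))) ≤ 0 := by
          have h21 : (-1 + V * ((1 - s) * (1 + 2 * s)) +
            s * (1 + s) / 16 * E ^ 2 +
            4 * (E ^ 2 * (V * (1 + s) - 1) ^ 2 / (s * (1 + s)))) =
            -(s * (1 + s) * (1 - V * ((1 - s) * (1 + 2 * s))) -
            s ^ 2 * (1 + s) ^ 2 / 16 * E ^ 2 -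
            4 * E ^ 2 * (V * (1 + s) - 1) ^ 2) / (s * (1 + s)) := by
            field_simp
            ring
          rw [h21]
          exact div_nonpos_of_nonpos_of_nonneg (by linarith only [hB]) (by positivity)
        have h22 : (1 - s) / s * (-1 + v * ((1 - s) * (1 + 2 * s)) + s * (1 + s) / 16 * Y +
            4 * (Y * (v * (1 + s) - 1) ^ 2 / (s * (1 + s)))) ≤ 0 :=
          mul_nonpos_of_nonneg_of_nonpos h5.le (by linarith only [h13, h11, h18, h20])
        linarith only [h22]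

/-- the plain line is below the kernel on `[-1, 1]`, for a number `a = x e^l < 1` -/
theorem kA_plain_line2 {x l : ℝ} (hx : x ∈ Ioo (0 : ℝ) 1)
    (hl : l ≤ (1 - x ^ 2) * (127 / 200 + 33 / 200 * x ^ 2)) (hτ : x * Real.exp l < 1)
    {b : ℝ} (hb : b ∈ Icc (-1 : ℝ) 1) : kAc x l + kAp x l * b ≤ kA (x * Real.exp l) b := by
  rcases lt_or_ge 0 b with hb0 | hb0
  · exact kA_plain_pos hx hτ hb0 hb.2
  · exact kA_neg_plain2 hx hl hb0 hb.1

/-- **Admissibility of the plain tangent pair** of `kA` at a point where `l ≤ l**`. -/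
theorem IsTrans.kA_plain_le2 {m : ℕ} {r τ τ' T : ℝ → ℝ} (h : IsTrans m r τ τ' T)
    {x : ℝ} (hx : x ∈ Ioo (0 : ℝ) 1)
    (hl : Real.log (τ x / x) ≤ (1 - x ^ 2) * (127 / 200 + 33 / 200 * x ^ 2))
    {b : ℝ} (hb : b ∈ Icc (-1 : ℝ) 1) :
    kAc x (Real.log (τ x / x)) + kAp x (Real.log (τ x / x)) * b ≤ kA (τ x) b := by
  have hτ := h.mem x hx
  have hx0 := hx.1
  have e : x * Real.exp (Real.log (τ x / x)) = τ x := by
    rw [Real.exp_log (div_pos hτ.1 hx0)]
    (clear * - hx0; field_simp)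
  have h1 := kA_plain_line2 hx hl (by rw [e]; exact hτ.2) hb
  rwa [e] at h1

end Vale.Agent.P237.AllN
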