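import Vale.Agent.P237.AllN.Slope1

/-!
# P237, all dimensions: the second hazard bound
-/

open Real Set MeasureTheory intervalIntegral

namespace Vale.Agent.P237.AllN.Slope

/-- the quartic which decides the sign of the derivative in the second hazard bound
(`N = m + 1`, `k = (N - 1) H / N`) -/
noncomputable def Pq (N H p : ℝ) : ℝ :=
  (4 * H ^ 2 + H * ((N - 1) / N * H) - N) + 4 * H ^ 2 * ((N - 1) / N * H) * p
    + (H ^ 2 * ((N - 1) / N * H) ^ 2 + (3 * N + 1) * H ^ 2 - (N - 1) * (H * ((N - 1) / N * H)) - N) * p ^ 2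
    + ((N + 1) * H ^ 2 * ((N - 1) / N * H) - N * H) * p ^ 3 + H ^ 2 * p ^ 4

/-- coefficients estimate -/
theorem Pq_deriv_pos {N H p : ℝ} (hN : 4 ≤ N) (hH : 0 < H) (h1 : N / (2 * π) ≤ H ^ 2)
    (hp : 0 ≤ p) :
    0 ≤ 4 * H ^ 2 * ((N - 1) / N * H)
      + (H ^ 2 * ((N - 1) / N * H) ^ 2 + (3 * N + 1) * H ^ 2 - (N - 1) * (H * ((N - 1) / N * H)) - N) * (2 * p)
      + ((N + 1) * H ^ 2 * ((N - 1) / N * H) - N * H) * (3 * p ^ 2) + H ^ 2 * (4 * p ^ 3) := by
  have hN0 : 0 < N := by linarith only [hN]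
  have hz : 0.159 * N ≤ H ^ 2 := by
    refine le_trans ?_ h1
    rw [le_div_iff₀ (by positivity)]
    have := pi_lt_d4
    nlinarith only [hN, this]
  set z : ℝ := H ^ 2 with hzdef
  have hz0 : 0 < z := by positivity
  set g : ℝ := (N - 1) / N with hg
  have hg1 : g ≤ 1 := by rw [hg, div_le_one hN0]; linarith only []
  have hg0 : 3 / 4 ≤ g := by rw [hg, le_div_iff₀ hN0]; linarith only [hN]
  have hgN : g * N = N - 1 := by rw [hg]; (clear * - hN; field_simp)
  -- c2
  have hc2 : 3 ≤ z * (g * H) ^ 2 + (3 * N + 1) * z - (N - 1) * (H * (g * H)) - N := by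
    have e1 : z * (g * H) ^ 2 = g ^ 2 * z ^ 2 := by rw [hzdef]; ring
    have e2 : (N - 1) * (H * (g * H)) = (N - 1) * g * z := by rw [hzdef]; ring
    rw [e1, e2]
    have h3 : (N - 1) * g * z ≤ (N - 1) * z := by
      have : 0 ≤ (N - 1) * z := mul_nonneg (by linarith only [hN]) hz0.le
      nlinarith only [hz0, hg0, hgN]
    have h4 : 0 ≤ g ^ 2 * z ^ 2 := by (clear * - hg0 hH; positivity)
    nlinarith
  -- c3 in terms of e
  set e : ℝ := N - z * g * (N + 1) with he
  have hc3 : (N + 1) * z * (g * H) - N * H = -(H * e) := by rw [he]; ring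
  rw [hc3]
  have hH4 : 0 ≤ 4 * z * (g * H) := by (clear * - hH hg0; positivity)
  have he2 : e ≤ 1.7 := by
    rw [he]
    have h5 : z * g * (N + 1) ≥ 0.159 * N * g * (N + 1) := by
      have : 0 ≤ g * (N + 1) := by (clear * - hg0 hN; positivity)
      nlinarith only [hz, hgN, hN, hg0]
    have h6 : 0.159 * N * g * (N + 1) = 0.159 * (N - 1) * (N + 1) := by
      rw [← hgN]; ring
    nlinarith only [h5, hN, hgN]
  have hkey : 0 ≤ 2 * (z * (g * H) ^ 2 + (3 * N + 1) * z - (N - 1) * (H * (g * H)) - N) - 3 * (H * e) * p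
      + 4 * z * p ^ 2 := by
    rcases le_or_gt e 0 with h0 | h0
    · have : 0 ≤ -(3 * (H * e) * p) := by
        have : H * e ≤ 0 := mul_nonpos_of_nonneg_of_nonpos hH.le h0
        nlinarith only [hp, this]
      have h7 : 0 ≤ 4 * z * p ^ 2 := by (clear * - hH; positivity)
      linarith only [hc2, this, h7]
    · have h8 : 0 ≤ (2 * H * p - 3 / 4 * e) ^ 2 := sq_nonneg _
      have h9 : e ^ 2 ≤ 3 := by nlinarith only [he2, h0]
      have h10 : z * p ^ 2 = H ^ 2 * p ^ 2 := by rw [hzdef]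
      linarith
  nlinarith only [hH4, hp, hkey]

theorem Pq_mono {N H : ℝ} (hN : 4 ≤ N) (hH : 0 < H) (h1 : N / (2 * π) ≤ H ^ 2) :
    MonotoneOn (Pq N H) (Ici 0) := by
  have hder : ∀ p : ℝ, HasDerivAt (Pq N H) (4 * H ^ 2 * ((N - 1) / N * H)
      + (H ^ 2 * ((N - 1) / N * H) ^ 2 + (3 * N + 1) * H ^ 2 - (N - 1) * (H * ((N - 1) / N * H)) - N) * (2 * p)
      + ((N + 1) * H ^ 2 * ((N - 1) / N * H) - N * H) * (3 * p ^ 2) + H ^ 2 * (4 * p ^ 3)) p := by
    intro p
    have h1 := hasDerivAt_id p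
    have h2 : HasDerivAt (fun p : ℝ => p ^ 2) (2 * p) p := by simpa only [Nat.cast_ofNat, Nat.add_one_sub_one, pow_one] using hasDerivAt_pow 2 p
    have h3 : HasDerivAt (fun p : ℝ => p ^ 3) (3 * p ^ 2) p := by simpa only [Nat.cast_ofNat, Nat.add_one_sub_one] using hasDerivAt_pow 3 p
    have h4 : HasDerivAt (fun p : ℝ => p ^ 4) (4 * p ^ 3) p := by simpa using hasDerivAt_pow 4 p
    have := ((((h1.const_mul (4 * H ^ 2 * ((N - 1) / N * H))).const_add
      (4 * H ^ 2 + H * ((N - 1) / N * H) - N)).add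
      (h2.const_mul (H ^ 2 * ((N - 1) / N * H) ^ 2 + (3 * N + 1) * H ^ 2 -
        (N - 1) * (H * ((N - 1) / N * H)) - N))).add
      (h3.const_mul ((N + 1) * H ^ 2 * ((N - 1) / N * H) - N * H))).add (h4.const_mul (H ^ 2))
    refine this.congr_deriv ?_
    ring
  apply monotoneOn_of_deriv_nonneg (convex_Ici _)
  · exact fun t _ => (hder t).continuousAt.continuousWithinAt
  · exact fun t _ => (hder t).differentiableAt.differentiableWithinAt
  · intro t ht
    rw [interior_Ici] at ht
    rw [(hder t).deriv]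
    exact Pq_deriv_pos hN hH h1 (le_of_lt ht)

/-- denominator of the second hazard bound -/
noncomputable def Wd (N H φ : ℝ) : ℝ :=
  H * (1 + cos φ ^ 2 + (N - 1) / N * H * cos φ * sin φ)
    + N * sin φ * (cos φ + (N - 1) / N * H * sin φ)

theorem Wd_pos {N H φ : ℝ} (hN : 1 ≤ N) (hH : 0 < H) (h0 : 0 ≤ φ) (h1 : φ ≤ π / 2) :
    0 < Wd N H φ := by
  have hc : 0 ≤ cos φ := cos_nonneg_of_mem_Icc ⟨by linarith only [h0, h1], h1⟩
  have hs : 0 ≤ sin φ := sin_nonneg_of_nonneg_of_le_pi h0 (by linarith [pi_pos])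
  have hg : 0 ≤ (N - 1) / N := div_nonneg (by linarith only [hN]) (by linarith only [hN])
  have hN0 : 0 < N := by linarith only [hN]
  unfold Wd
  have h2 : 0 ≤ (N - 1) / N * H * cos φ * sin φ := by (clear * - hN hH hc hs; positivity)
  have h3 : 0 ≤ N * sin φ * (cos φ + (N - 1) / N * H * sin φ) := by positivity
  have h4 : 0 ≤ cos φ ^ 2 := by positivity
  nlinarith only [hH, h3, h2]

theorem hasDerivAt_Wd (N H φ : ℝ) : HasDerivAt (Wd N H)
    (H * (-(2 * cos φ * sin φ) + (N - 1) / N * H * (cos φ ^ 2 - sin φ ^ 2))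
      + N * (cos φ ^ 2 - sin φ ^ 2 + 2 * ((N - 1) / N * H) * sin φ * cos φ)) φ := by
  have hs := hasDerivAt_sin φ
  have hc := hasDerivAt_cos φ
  have e1 := (((hc.pow 2).const_add 1).add ((hc.const_mul ((N - 1) / N * H)).mul hs)).const_mul H
  have e2 := (hs.const_mul N).mul (hc.add (hs.const_mul ((N - 1) / N * H)))
  refine (e1.add e2).congr_deriv ?_
  simp only [Nat.cast_ofNat, Pi.add_apply]
  ring

/-- second hazard bound -/
theorem hazard_two (m : ℕ) (hm : 3 ≤ m) {φ : ℝ} (h0 : 0 ≤ φ) (h1 : φ < π / 2) {H : ℝ}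
    (hH : H = 1 / (2 * J (m + 1) 0)) :
    cos φ ^ (m + 2) * (cos φ + (((m : ℝ) + 1) - 1) / ((m : ℝ) + 1) * H * sin φ) ≤
      Wd ((m : ℝ) + 1) H φ * J (m + 1) φ := by
  have ha : 0 < J (m + 1) 0 := J_pos (m + 1) le_rfl (by positivity)
  have hH0 : 0 < H := by rw [hH]; (clear * - ha; positivity)
  have hHa : 2 * H * J (m + 1) 0 = 1 := by rw [hH]; field_simp
  have hHsq : ((m : ℝ) + 1) / (2 * π) ≤ H ^ 2 := by
    have h2 := J_sq_le m
    rw [hH, div_pow, one_pow, mul_pow, div_le_div_iff₀ (by positivity) (by positivity)]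
    rw [le_div_iff₀ (by (clear * - hm; positivity))] at h2
    linarith
  have hm3 : (3 : ℝ) ≤ m := by exact_mod_cast hm
  set N : ℝ := (m : ℝ) + 1 with hN
  have hN4 : 4 ≤ N := by rw [hN]; linarith only [hm3]
  have hN0 : 0 < N := by linarith only [hm3]
  set k : ℝ := (N - 1) / N * H with hk
  have hNk : N * k = (N - 1) * H := by rw [hk]; (clear * - hN4 hH0; field_simp)
  have hk0 : 0 < k := by
    rw [hk]
    have : 0 < (N - 1) / N := div_pos (by linarith only [hm3]) hN0
    (clear * - this hH0; positivity)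
  set D : ℝ → ℝ := fun t => J (m + 1) t - (cos t ^ (m + 2) * (cos t + k * sin t)) / Wd N H t with hD
  set W' : ℝ → ℝ := fun t => H * (-(2 * cos t * sin t) + k * (cos t ^ 2 - sin t ^ 2))
      + N * (cos t ^ 2 - sin t ^ 2 + 2 * k * sin t * cos t) with hW'
  have hder : ∀ t : ℝ, 0 ≤ t → t ≤ π / 2 → HasDerivAt D (-(cos t ^ (m + 1)) -
      ((((m + 2 : ℕ) : ℝ) * cos t ^ (m + 1) * (-sin t) * (cos t + k * sin t) +
        cos t ^ (m + 2) * (-sin t + k * cos t)) * Wd N H t -
        (cos t ^ (m + 2) * (cos t + k * sin t)) * W' t) / Wd N H t ^ 2) t := by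
    intro t ht0 ht1
    have hs := hasDerivAt_sin t
    have hc := hasDerivAt_cos t
    have e1 := (hc.pow (m + 2)).mul (hc.add (hs.const_mul k))
    have e2 := hasDerivAt_Wd N H t
    have e3 := e1.div e2 (Wd_pos (by linarith only [hm3]) hH0 ht0 ht1).ne'
    exact (hasDerivAt_J (m + 1) t).sub e3
  have hval : ∀ t : ℝ, 0 < t → t < π / 2 → (-(cos t ^ (m + 1)) -
      ((((m + 2 : ℕ) : ℝ) * cos t ^ (m + 1) * (-sin t) * (cos t + k * sin t) +
        cos t ^ (m + 2) * (-sin t + k * cos t)) * Wd N H t -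
        (cos t ^ (m + 2) * (cos t + k * sin t)) * W' t) / Wd N H t ^ 2) =
      -(cos t ^ (m + 1) * cos t ^ 4 * Pq N H (tan t)) / Wd N H t ^ 2 := by
    intro t ht0 ht1
    have hct : 0 < cos t := cos_pos_of_mem_Ioo ⟨by linarith only [ht0, ht1], ht1⟩
    have hW := Wd_pos (N := N) (by linarith only [hm3]) hH0 ht0.le ht1.le
    have hW2 : Wd N H t = H * (2 * cos t ^ 2 + sin t ^ 2 + k * cos t * sin t)
        + N * sin t * cos t + (N - 1) * H * sin t ^ 2 := by
      unfold Wd
      rw [← hNk, ← hk]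
      have := sin_sq_add_cos_sq t
      linear_combination (-H) * this
    have htan : cos t ^ 4 * Pq N H (tan t) =
        (4 * H ^ 2 + H * k - N) * cos t ^ 4 + 4 * H ^ 2 * k * cos t ^ 3 * sin t
        + (H ^ 2 * k ^ 2 + (3 * N + 1) * H ^ 2 - (N - 1) * (H * k) - N) * cos t ^ 2 * sin t ^ 2
        + ((N + 1) * H ^ 2 * k - N * H) * cos t * sin t ^ 3 + H ^ 2 * sin t ^ 4 := by
      unfold Pq
      rw [tan_eq_sin_div_cos, ← hk]
      (clear * - hct; field_simp)
    have hid : Wd N H t ^ 2 + Wd N H t * (k * cos t ^ 2 - (N + 2) * sin t * cos t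
        - (N + 1) * k * sin t ^ 2) - cos t * (cos t + k * sin t) * W' t =
        cos t ^ 4 * Pq N H (tan t) := by
      rw [htan, hW2, hW']
      have hH' : N * k = (N - 1) * H := hNk
      have hkH : k = (N - 1) / N * H := hk
      simp only
      rw [hkH]
      field_simp
      ring
    rw [eq_div_iff (by (clear * - hW; positivity)), sub_mul, div_mul_cancel₀ _ (by (clear * - hW; positivity))]
    have hp : cos t ^ (m + 2) = cos t ^ (m + 1) * cos t := by ring
    have hc2 : ((m + 2 : ℕ) : ℝ) = N + 1 := by push_cast; rw [hN]; ring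
    rw [hp, hc2]
    linear_combination (-(cos t ^ (m + 1))) * hid
  have hD0 : D 0 = 0 := by
    simp only [hD, Wd]
    simp only [cos_zero, sin_zero]
    have : J (m + 1) 0 - 1 / (2 * H) = 0 := by
      rw [sub_eq_zero, eq_div_iff (by positivity)]
      linarith only [hHa]
    norm_num
    have e : (1 : ℝ) / (2 * H) = 1 / 2 * H⁻¹ := by rw [one_div, mul_inv]; norm_num
    linarith only [this, e]
  have hDpi : D (π / 2) = 0 := by
    simp only [hD]
    rw [J_pi_div_two]
    simp
  have hDφ : 0 ≤ D φ := by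
    have hmono := Pq_mono hN4 hH0 hHsq
    have htanφ : 0 ≤ tan φ := tan_nonneg_of_nonneg_of_le_pi_div_two h0 h1.le
    have hcontD : ContinuousOn D (Icc 0 (π / 2)) :=
      fun t ht => (hder t ht.1 ht.2).continuousAt.continuousWithinAt
    rcases le_or_gt (Pq N H (tan φ)) 0 with hs | hs
    · have hmon : MonotoneOn D (Icc 0 φ) := by
        apply monotoneOn_of_deriv_nonneg (convex_Icc _ _)
        · exact hcontD.mono (Icc_subset_Icc le_rfl h1.le)
        · intro t ht
          rw [interior_Icc] at ht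
          exact (hder t ht.1.le (by linarith only [h1, ht.2])).differentiableAt.differentiableWithinAt
        · intro t ht
          rw [interior_Icc] at ht
          have ht1 : t < π / 2 := by linarith only [h1, ht.2]
          rw [(hder t ht.1.le ht1.le).deriv, hval t ht.1 ht1]
          have htt : tan t ≤ tan φ := (tan_lt_tan_of_lt_of_lt_pi_div_two (by linarith only [h0, h1, ht.1]) h1 ht.2).le
          have ht0 : 0 ≤ tan t := tan_nonneg_of_nonneg_of_le_pi_div_two ht.1.le ht1.le
          have hle := hmono ht0 htanφ htt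
          have hct : 0 < cos t := cos_pos_of_mem_Ioo ⟨by linarith only [h0, h1, ht.1], ht1⟩
          apply div_nonneg _ (by (clear * -; positivity))
          rw [neg_nonneg]
          exact mul_nonpos_of_nonneg_of_nonpos (by (clear * - hct; positivity)) (by linarith only [hs, hle])
      have := hmon ⟨le_rfl, h0⟩ ⟨h0, le_rfl⟩ h0
      rw [hD0] at this
      exact this
    · have hanti : AntitoneOn D (Icc φ (π / 2)) := by
        apply antitoneOn_of_deriv_nonpos (convex_Icc _ _)
        · exact hcontD.mono (Icc_subset_Icc h0 le_rfl)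
        · intro t ht
          rw [interior_Icc] at ht
          exact (hder t (by linarith only [h0, ht.1]) ht.2.le).differentiableAt.differentiableWithinAt
        · intro t ht
          rw [interior_Icc] at ht
          have ht0 : 0 < t := by linarith only [h0, ht.1]
          rw [(hder t ht0.le ht.2.le).deriv, hval t ht0 ht.2]
          have htt : tan φ ≤ tan t := (tan_lt_tan_of_lt_of_lt_pi_div_two (by linarith only [h0, h1]) ht.2 ht.1).le
          have ht0' : 0 ≤ tan t := tan_nonneg_of_nonneg_of_le_pi_div_two ht0.le ht.2.le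
          have hle := hmono htanφ ht0' htt
          have hct : 0 < cos t := cos_pos_of_mem_Ioo ⟨by linarith only [h0, h1, ht0], ht.2⟩
          apply div_nonpos_of_nonpos_of_nonneg _ (by (clear * -; positivity))
          rw [neg_nonpos]
          exact mul_nonneg (by (clear * - hct; positivity)) (by linarith only [hs, hle])
      have := hanti ⟨le_rfl, h1.le⟩ ⟨h1.le, le_rfl⟩ h1.le
      rw [hDpi] at this
      exact this
  simp only [hD] at hDφ
  have hW := Wd_pos (N := N) (by linarith only [hm3]) hH0 h0 h1.le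
  rw [sub_nonneg, div_le_iff₀ hW] at hDφ
  rw [mul_comm (Wd N H φ)]
  exact hDφ

end Vale.Agent.P237.AllN.Slope
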