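import Vale.Agent.P237.AllN.Slope2

/-!
# P237, all dimensions: the root of the tail function of the ball and its logarithmic slope
-/

open Real Set MeasureTheory intervalIntegral

namespace Vale.Agent.P237.AllN.Slope

/-- `(m+1)`-st root of the normalized tail -/
noncomputable def Gf (m : ℕ) (φ : ℝ) : ℝ := (J (m + 1) φ / J (m + 1) 0) ^ (1 / ((m : ℝ) + 1))

/-- `-Gf'` -/
noncomputable def Cf (m : ℕ) (φ : ℝ) : ℝ :=
  1 / ((m : ℝ) + 1) * (cos φ ^ (m + 1) / J (m + 1) φ) * Gf m φ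

theorem Gf_pos (m : ℕ) {φ : ℝ} (h0 : 0 ≤ φ) (h1 : φ < π / 2) : 0 < Gf m φ :=
  rpow_pos_of_pos (div_pos (J_pos _ h0 h1) (J_pos _ le_rfl (by positivity))) _

theorem Cf_pos (m : ℕ) {φ : ℝ} (h0 : 0 ≤ φ) (h1 : φ < π / 2) : 0 < Cf m φ := by
  have h2 := Gf_pos m h0 h1
  have h3 := J_pos (m + 1) h0 h1
  have h4 : 0 < cos φ := cos_pos_of_mem_Ioo ⟨by linarith only [h0, h1], h1⟩
  unfold Cf
  positivity

theorem Gf_zero (m : ℕ) : Gf m 0 = 1 := by
  unfold Gf
  rw [div_self (J_pos _ le_rfl (by positivity)).ne', one_rpow]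

theorem Gf_pow (m : ℕ) {φ : ℝ} (h0 : 0 ≤ φ) (h1 : φ < π / 2) :
    Gf m φ ^ (m + 1) = J (m + 1) φ / J (m + 1) 0 := by
  unfold Gf
  rw [← rpow_natCast, ← rpow_mul (div_pos (J_pos _ h0 h1) (J_pos _ le_rfl (by positivity))).le]
  push_cast
  rw [one_div, inv_mul_cancel₀ (by positivity), rpow_one]

theorem hasDerivAt_Gf (m : ℕ) {φ : ℝ} (h0 : 0 ≤ φ) (h1 : φ < π / 2) :
    HasDerivAt (Gf m) (-(Cf m φ)) φ := by
  have hJ := J_pos (m + 1) h0 h1
  have ha : 0 < J (m + 1) 0 := J_pos _ le_rfl (by positivity)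
  have hq : 0 < J (m + 1) φ / J (m + 1) 0 := div_pos hJ ha
  have e := ((hasDerivAt_J (m + 1) φ).div_const (J (m + 1) 0)).rpow_const
    (p := 1 / ((m : ℝ) + 1)) (Or.inl hq.ne')
  refine e.congr_deriv ?_
  unfold Cf Gf
  rw [rpow_sub hq, rpow_one]
  field_simp

theorem hasDerivAt_Cf (m : ℕ) {φ : ℝ} (h0 : 0 ≤ φ) (h1 : φ < π / 2) :
    HasDerivAt (Cf m) (Cf m φ * ((m : ℝ) / ((m : ℝ) + 1) * (cos φ ^ (m + 1) / J (m + 1) φ)
      - ((m : ℝ) + 1) * (sin φ / cos φ))) φ := by
  have hJ := J_pos (m + 1) h0 h1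
  have hc : 0 < cos φ := cos_pos_of_mem_Ioo ⟨by linarith only [h0, h1], h1⟩
  have e1 := (((hasDerivAt_cos φ).pow (m + 1)).div (hasDerivAt_J (m + 1) φ) hJ.ne').const_mul
    (1 / ((m : ℝ) + 1))
  have e2 := e1.mul (hasDerivAt_Gf m h0 h1)
  refine e2.congr_deriv ?_
  unfold Cf
  have hn : ((m : ℝ) + 1) ≠ 0 := by positivity
  simp only [Pi.div_apply, Pi.pow_apply]
  push_cast
  field_simp
  ring

theorem G_step (m : ℕ) {T T' : ℝ → ℝ} (hT0 : T 0 = 0)
    (hT : ∀ t, 0 ≤ t → t < π / 2 → HasDerivAt T (T' t) t)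
    (hc : ∀ t, 0 < t → t < π / 2 →
      T' t + T t * ((m : ℝ) / ((m : ℝ) + 1) * (cos t ^ (m + 1) / J (m + 1) t)
        - ((m : ℝ) + 1) * (sin t / cos t)) ≤ 1)
    {φ : ℝ} (h0 : 0 ≤ φ) (h1 : φ < π / 2) : Cf m φ * T φ ≤ 1 - Gf m φ := by
  have hder : ∀ t, 0 ≤ t → t < π / 2 → HasDerivAt (fun t => (1 - Gf m t) - Cf m t * T t)
      (-(-(Cf m t)) - (Cf m t * ((m : ℝ) / ((m : ℝ) + 1) * (cos t ^ (m + 1) / J (m + 1) t)
      - ((m : ℝ) + 1) * (sin t / cos t)) * T t + Cf m t * T' t)) t := by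
    intro t ht0 ht1
    exact ((hasDerivAt_Gf m ht0 ht1).const_sub 1).sub ((hasDerivAt_Cf m ht0 ht1).mul (hT t ht0 ht1))
  have hmon : MonotoneOn (fun t => (1 - Gf m t) - Cf m t * T t) (Icc 0 φ) := by
    apply monotoneOn_of_deriv_nonneg (convex_Icc _ _)
    · exact fun t ht => (hder t ht.1 (by (clear * - h1 ht; linarith [ht.2]))).continuousAt.continuousWithinAt
    · intro t ht
      rw [interior_Icc] at ht
      exact (hder t ht.1.le (by linarith [ht.2])).differentiableAt.differentiableWithinAt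
    · intro t ht
      rw [interior_Icc] at ht
      have ht1 : t < π / 2 := by linarith [ht.2]
      rw [(hder t ht.1.le ht1).deriv]
      have h2 := hc t ht.1 ht1
      have h3 := Cf_pos m ht.1.le ht1
      have h4 := mul_le_mul_of_nonneg_left h2 h3.le
      linarith
  have h := hmon ⟨le_rfl, h0⟩ ⟨h0, le_rfl⟩ h0
  simp only [Gf_zero, hT0] at h
  linarith only [h]

theorem slope_G_one (m : ℕ) {φ : ℝ} (h0 : 0 ≤ φ) (h1 : φ < π / 2) :
    Cf m φ * sin φ ≤ (1 - Gf m φ) * (1 + cos φ) := by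
  have hpos : ∀ t : ℝ, 0 ≤ t → t < π / 2 → 0 < 1 + cos t := fun t ht0 ht1 => by
    have : 0 < cos t := cos_pos_of_mem_Ioo ⟨by linarith only [h0, h1, ht0], ht1⟩
    linarith only [this]
  have h := G_step m (T := fun t => sin t / (1 + cos t)) (T' := fun t => 1 / (1 + cos t))
    (by simp) ?_ ?_ h0 h1
  · have h2 := hpos φ h0 h1
    rw [← mul_div_assoc, div_le_iff₀ h2] at h
    exact h
  · intro t ht0 ht1
    have h2 := hpos t ht0 ht1
    refine ((hasDerivAt_sin t).div ((hasDerivAt_cos t).const_add 1) h2.ne').congr_deriv ?_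
    field_simp
    have := sin_sq_add_cos_sq t
    linarith only [this]
  · intro t ht0 ht1
    have h2 := hpos t ht0.le ht1
    have hct : 0 < cos t := cos_pos_of_mem_Ioo ⟨by linarith only [ht0, ht1], ht1⟩
    have hJ := J_pos (m + 1) ht0.le ht1
    have hz := hazard_one m ht0.le ht1.le
    have h3 : (m : ℝ) / ((m : ℝ) + 1) * (cos t ^ (m + 1) / J (m + 1) t) * sin t ≤
        (1 + m * sin t ^ 2) / cos t := by
      rw [div_mul_div_comm, div_mul_eq_mul_div, div_le_div_iff₀ (by (clear * - hJ; positivity)) hct]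
      calc (m : ℝ) * cos t ^ (m + 1) * sin t * cos t = (m : ℝ) * (sin t * cos t ^ (m + 2)) := by ring
        _ ≤ _ := hz
        _ = _ := by ring
    have h4 : (1 + m * sin t ^ 2) / cos t = cos t + (m + 1) * (sin t / cos t) * sin t := by
      have := sin_sq_add_cos_sq t
      field_simp
      linear_combination (-1 : ℝ) * this
    have h5 : sin t * ((m : ℝ) / ((m : ℝ) + 1) * (cos t ^ (m + 1) / J (m + 1) t)
        - ((m : ℝ) + 1) * (sin t / cos t)) ≤ cos t := by
      rw [h4] at h3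
      linarith only [h3]
    have h6 : 1 / (1 + cos t) + sin t / (1 + cos t) * ((m : ℝ) / ((m : ℝ) + 1) * (cos t ^ (m + 1) / J (m + 1) t)
        - ((m : ℝ) + 1) * (sin t / cos t)) = (1 + sin t * ((m : ℝ) / ((m : ℝ) + 1) * (cos t ^ (m + 1) / J (m + 1) t)
        - ((m : ℝ) + 1) * (sin t / cos t))) / (1 + cos t) := by
      ring
    rw [h6, div_le_one h2]
    linarith only [h3, h4]

theorem slope_G_two (m : ℕ) (hm : 3 ≤ m) {φ : ℝ} (h0 : 0 ≤ φ) (h1 : φ < π / 2) :
    Cf m φ * sin φ ≤ (1 - Gf m φ) *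
      (cos φ + (m : ℝ) / (2 * ((m : ℝ) + 1) * J (m + 1) 0) * sin φ) := by
  have ha : 0 < J (m + 1) 0 := J_pos _ le_rfl (by positivity)
  obtain ⟨H, hH⟩ : ∃ H : ℝ, H = 1 / (2 * J (m + 1) 0) := ⟨_, rfl⟩
  obtain ⟨k, hk⟩ : ∃ k : ℝ, k = (m : ℝ) / (2 * ((m : ℝ) + 1) * J (m + 1) 0) := ⟨_, rfl⟩
  have hkH : k = (((m : ℝ) + 1) - 1) / ((m : ℝ) + 1) * H := by
    rw [hk, hH, add_sub_cancel_right]
    field_simp
  have hk0 : 0 ≤ k := by rw [hk]; positivity
  rw [← hk]
  have hpos : ∀ t : ℝ, 0 ≤ t → t < π / 2 → 0 < cos t + k * sin t := fun t ht0 ht1 => by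
    have h2 : 0 < cos t := cos_pos_of_mem_Ioo ⟨by linarith only [h0, h1, ht0], ht1⟩
    have h3 : 0 ≤ sin t := sin_nonneg_of_nonneg_of_le_pi ht0 (by linarith only [h0, h1, ht1])
    (clear * - h2 hk0 h3; positivity)
  have h := G_step m (T := fun t => sin t / (cos t + k * sin t))
    (T' := fun t => 1 / (cos t + k * sin t) ^ 2) (by simp) ?_ ?_ h0 h1
  · have h2 := hpos φ h0 h1
    rw [← mul_div_assoc, div_le_iff₀ h2] at h
    exact h
  · intro t ht0 ht1
    have h2 := hpos t ht0 ht1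
    refine ((hasDerivAt_sin t).div ((hasDerivAt_cos t).add ((hasDerivAt_sin t).const_mul k))
      h2.ne').congr_deriv ?_
    simp only [Pi.add_apply]
    congr 1
    have := sin_sq_add_cos_sq t
    linear_combination this
  · intro t ht0 ht1
    have h2 := hpos t ht0.le ht1
    have hct : 0 < cos t := cos_pos_of_mem_Ioo ⟨by linarith only [ht0, ht1], ht1⟩
    have hst : 0 ≤ sin t := sin_nonneg_of_nonneg_of_le_pi ht0.le (by linarith only [ht0, ht1])
    have hJ := J_pos (m + 1) ht0.le ht1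
    have hz := hazard_two m hm ht0.le ht1 hH
    rw [← hkH] at hz
    have hmW : (m : ℝ) / ((m : ℝ) + 1) * Wd ((m : ℝ) + 1) H t =
        k + (k * cos t + m * sin t) * (cos t + k * sin t) := by
      unfold Wd
      rw [← hkH]
      have hkH' : (m : ℝ) / ((m : ℝ) + 1) * H = k := by rw [hkH]; ring
      have hn : ((m : ℝ) + 1) ≠ 0 := by positivity
      have e : (m : ℝ) / ((m : ℝ) + 1) * (H * (1 + cos t ^ 2 + k * cos t * sin t) +
          ((m : ℝ) + 1) * sin t * (cos t + k * sin t)) =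
          ((m : ℝ) / ((m : ℝ) + 1) * H) * (1 + cos t ^ 2 + k * cos t * sin t) +
          m * sin t * (cos t + k * sin t) := by
        (clear * - hn hm; field_simp)
      rw [e, hkH']
      ring
    have h3 : (m : ℝ) / ((m : ℝ) + 1) * (cos t ^ (m + 1) / J (m + 1) t) ≤
        (k + (k * cos t + m * sin t) * (cos t + k * sin t)) / (cos t * (cos t + k * sin t)) := by
      rw [← hmW, ← mul_div_assoc, ← mul_div_assoc', ← mul_div_assoc']
      apply mul_le_mul_of_nonneg_left _ (by positivity)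
      rw [div_le_div_iff₀ hJ (by (clear * - hct hk0 hst; positivity))]
      calc cos t ^ (m + 1) * (cos t * (cos t + k * sin t)) = cos t ^ (m + 2) * (cos t + k * sin t) := by
            ring
        _ ≤ _ := hz
    have h4 : (k + (k * cos t + m * sin t) * (cos t + k * sin t)) / (cos t * (cos t + k * sin t))
        - ((m : ℝ) + 1) * (sin t / cos t) =
        (k + (k * cos t - sin t) * (cos t + k * sin t)) / (cos t * (cos t + k * sin t)) := by
      field_simp
      ring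
    have h5 : (m : ℝ) / ((m : ℝ) + 1) * (cos t ^ (m + 1) / J (m + 1) t)
        - ((m : ℝ) + 1) * (sin t / cos t) ≤
        (k + (k * cos t - sin t) * (cos t + k * sin t)) / (cos t * (cos t + k * sin t)) := by
      rw [← h4]
      linarith only [h3]
    have h6 : sin t / (cos t + k * sin t) * ((m : ℝ) / ((m : ℝ) + 1) * (cos t ^ (m + 1) / J (m + 1) t)
        - ((m : ℝ) + 1) * (sin t / cos t)) ≤ sin t / (cos t + k * sin t) *
        ((k + (k * cos t - sin t) * (cos t + k * sin t)) / (cos t * (cos t + k * sin t))) :=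
      mul_le_mul_of_nonneg_left h5 (by (clear * - hst hct hk0; positivity))
    have h7 : 1 / (cos t + k * sin t) ^ 2 + sin t / (cos t + k * sin t) *
        ((k + (k * cos t - sin t) * (cos t + k * sin t)) / (cos t * (cos t + k * sin t))) = 1 := by
      have := sin_sq_add_cos_sq t
      have h2' := h2.ne'
      have hct' := hct.ne'
      rw [← sub_eq_zero]
      have e : 1 / (cos t + k * sin t) ^ 2 + sin t / (cos t + k * sin t) *
        ((k + (k * cos t - sin t) * (cos t + k * sin t)) / (cos t * (cos t + k * sin t))) - 1 =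
        (cos t + sin t * (k + (k * cos t - sin t) * (cos t + k * sin t)) -
          cos t * (cos t + k * sin t) ^ 2) / (cos t * (cos t + k * sin t) ^ 2) := by
        (clear * - hct' h2'; field_simp)
      rw [e]
      apply div_eq_zero_iff.2
      left
      linear_combination (-(cos t + k * sin t)) * this
    linarith only [h6, h7]

end Vale.Agent.P237.AllN.Slope
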