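import Vale.Agent.P237.AllN.ConsN
import Vale.Agent.P237.Alm.Prof

/-!
# P237, all dimensions: truncated linear comparison

For an even concave profile `r` and `τ ∈ (0,1)` there is a truncated linear profile
`R = (A - B y) 1_[0,κ]`, `κ ≤ 1`, with the same `∫₀^τ R^(k+1)`, the same total `∫ R^(k+1)` and a
smaller `∫ R^k`.
-/

open MeasureTheory Metric Set Module Filter Topology

namespace Vale.Agent.P237.AllN

/-- weighted AM-GM -/
theorem tc_amgm (k : ℕ) {a b : ℝ} (ha : 0 ≤ a) (hb : 0 ≤ b) :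
    ((k : ℝ) + 1) * a * b ^ k ≤ a ^ (k + 1) + k * b ^ (k + 1) := by
  induction k with
  | zero => simp
  | succ k ih =>
    have h1 := mul_le_mul_of_nonneg_left ih ha
    have h2 : 0 ≤ b ^ k := pow_nonneg hb k
    have h3 : 0 ≤ ((k : ℝ) + 1) * b ^ k * (a - b) ^ 2 := by (clear * - hb; positivity)
    have e1 : a ^ (k + 1 + 1) = a * a ^ (k + 1) := by ring
    have e2 : b ^ (k + 1 + 1) = b ^ k * b ^ 2 := by ring
    have e3 : b ^ (k + 1) = b ^ k * b := by ring
    rw [e3] at h1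
    rw [e1, e2, e3]
    push_cast
    linarith

theorem tc_point (k : ℕ) {f R ρ : ℝ} (hf : 0 ≤ f) (hR : 0 ≤ R)
    (h : (ρ ≤ f ∧ f ≤ R) ∨ (R ≤ f ∧ f ≤ ρ)) :
    (k : ℝ) * (f ^ (k + 1) - R ^ (k + 1)) ≤ ((k : ℝ) + 1) * ρ * (f ^ k - R ^ k) := by
  have h1 := tc_amgm k hf hR
  have hk : (0 : ℝ) < (k : ℝ) + 1 := by positivity
  have e1 : f ^ (k + 1) = f * f ^ k := by ring
  have h2 : (k : ℝ) * (f ^ (k + 1) - R ^ (k + 1)) ≤ ((k : ℝ) + 1) * f * (f ^ k - R ^ k) := by
    rw [e1] at h1 ⊢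
    linarith
  refine h2.trans ?_
  rcases h with ⟨h3, h4⟩ | ⟨h3, h4⟩
  · have h5 : f ^ k ≤ R ^ k := pow_le_pow_left₀ hf h4 k
    have h6 : 0 ≤ (f - ρ) * (R ^ k - f ^ k) := mul_nonneg (by linarith only [h3]) (by linarith only [h5])
    nlinarith only [h6]
  · have h5 : R ^ k ≤ f ^ k := pow_le_pow_left₀ hR h3 k
    have h6 : 0 ≤ (ρ - f) * (f ^ k - R ^ k) := mul_nonneg (by linarith) (by linarith)
    nlinarith only [h6]

/-- single crossing comparison -/
theorem tc_cross (k : ℕ) {f R : ℝ → ℝ} {a b ρ : ℝ} (hab : a ≤ b) (hρ : 0 < ρ)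
    (hf : ∀ y ∈ Icc a b, 0 ≤ f y) (hR : ∀ y ∈ Icc a b, 0 ≤ R y)
    (h : ∀ y ∈ Icc a b, (ρ ≤ f y ∧ f y ≤ R y) ∨ (R y ≤ f y ∧ f y ≤ ρ))
    (i1 : IntervalIntegrable (fun y => f y ^ (k + 1)) volume a b)
    (i2 : IntervalIntegrable (fun y => R y ^ (k + 1)) volume a b)
    (i3 : IntervalIntegrable (fun y => f y ^ k) volume a b)
    (i4 : IntervalIntegrable (fun y => R y ^ k) volume a b)
    (hI : ∫ y in a..b, R y ^ (k + 1) ≤ ∫ y in a..b, f y ^ (k + 1)) :
    ∫ y in a..b, R y ^ k ≤ ∫ y in a..b, f y ^ k := by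
  have h1 : ∫ y in a..b, (k : ℝ) * (f y ^ (k + 1) - R y ^ (k + 1)) ≤
      ∫ y in a..b, ((k : ℝ) + 1) * ρ * (f y ^ k - R y ^ k) := by
    apply intervalIntegral.integral_mono_on hab ((i1.sub i2).const_mul _) ((i3.sub i4).const_mul _)
    intro y hy
    exact tc_point k (hf y hy) (hR y hy) (h y hy)
  rw [intervalIntegral.integral_const_mul, intervalIntegral.integral_const_mul,
    intervalIntegral.integral_sub i1 i2, intervalIntegral.integral_sub i3 i4] at h1
  have hk : (0 : ℝ) ≤ (k : ℝ) := by (clear * -; positivity)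
  have h2 : 0 ≤ (k : ℝ) * ((∫ y in a..b, f y ^ (k + 1)) - ∫ y in a..b, R y ^ (k + 1)) :=
    mul_nonneg hk (by linarith only [hI])
  have h3 : 0 < ((k : ℝ) + 1) * ρ := by positivity
  have h4 := h2.trans h1
  have h5 := nonneg_of_mul_nonneg_right h4 h3
  linarith only [h5]

/-- three point concavity -/
theorem tc_conc {r : ℝ → ℝ} (hr : IsProf r) {x y z : ℝ} (hx : 0 ≤ x) (hxy : x ≤ y) (hyz : y ≤ z)
    (hz : z ≤ 1) : (z - y) * r x + (y - x) * r z ≤ (z - x) * r y := by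
  rcases eq_or_lt_of_le (hxy.trans hyz) with h | h
  · have e1 : y = x := le_antisymm (hyz.trans h.symm.le) hxy
    rw [e1, ← h]
    simp
  · have h1 : 0 < z - x := by linarith only [h]
    have ha : 0 ≤ (z - y) / (z - x) := div_nonneg (by linarith) h1.le
    have hb : 0 ≤ (y - x) / (z - x) := div_nonneg (by linarith) h1.le
    have hc := hr.conc.2 (show x ∈ Icc (-1 : ℝ) 1 from ⟨by linarith only [hx], by linarith only [hz, h]⟩)
      (show z ∈ Icc (-1 : ℝ) 1 from ⟨by linarith only [hx, h], by linarith only [hz]⟩) ha hb (by field_simp; ring)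
    simp only [smul_eq_mul] at hc
    have e : (z - y) / (z - x) * x + (y - x) / (z - x) * z = y := by
      field_simp
      ring
    rw [e] at hc
    have h2 := mul_le_mul_of_nonneg_left hc h1.le
    have e2 : (z - x) * ((z - y) / (z - x) * r x + (y - x) / (z - x) * r z) =
        (z - y) * r x + (y - x) * r z := by
      (clear * - h; field_simp)
    rw [e2] at h2
    exact h2

theorem tc_lin_ii (a B τ : ℝ) (k : ℕ) (c d : ℝ) :
    IntervalIntegrable (fun y => (a + B * (τ - y)) ^ k) volume c d :=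
  (by fun_prop : Continuous fun y : ℝ => (a + B * (τ - y)) ^ k).intervalIntegrable _ _

/-- the profile is below the comparison line to the right of `τ` -/
theorem tc_right (k : ℕ) {r : ℝ → ℝ} (hr : IsProf r) {τ : ℝ} (hτ : τ ∈ Ioo (0 : ℝ) 1) {B : ℝ}
    (hI : ∫ y in (0 : ℝ)..τ, (r τ + B * (τ - y)) ^ (k + 1) ≤ ∫ y in (0 : ℝ)..τ, r y ^ (k + 1))
    {y : ℝ} (hy : y ∈ Icc τ 1) : r y ≤ r τ + B * (τ - y) := by
  by_contra hcon
  push Not at hcon
  have hτ1 : τ ∈ Icc (0 : ℝ) 1 := ⟨hτ.1.le, hτ.2.le⟩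
  have ha : 0 < r τ := hr.pos τ ⟨by linarith only [hτ.1], hτ.2⟩
  have hlt : τ < y := by
    rcases eq_or_lt_of_le hy.1 with h | h
    · rw [← h] at hcon
      simp at hcon
    · exact h
  have key : ∀ z ∈ Ico (0 : ℝ) τ, r z < r τ + B * (τ - z) := by
    intro z hz
    have h1 := tc_conc hr hz.1 hz.2.le hlt.le hy.2
    have h2 : 0 < τ - z := by linarith [hz.2]
    have h3 : 0 < y - τ := by linarith
    have h4 := mul_lt_mul_of_pos_left hcon h2
    have h5 : (y - τ) * r z < (y - τ) * (r τ + B * (τ - z)) := by linarith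
    exact lt_of_mul_lt_mul_left h5 h3.le
  have h6 : ∫ y in (0 : ℝ)..τ, r y ^ (k + 1) <
      ∫ y in (0 : ℝ)..τ, (r τ + B * (τ - y)) ^ (k + 1) := by
    apply intervalIntegral.integral_lt_integral_of_continuousOn_of_le_of_exists_lt hτ.1
    · apply ContinuousOn.pow
      apply (Alm.prof_cont hr).mono
      intro z hz
      exact ⟨by linarith only [hz.1], by linarith [hz.2, hτ.2]⟩
    · exact (by fun_prop : Continuous fun y : ℝ => (r τ + B * (τ - y)) ^ (k + 1)).continuousOn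
    · intro z hz
      have hz1 : z ∈ Icc (0 : ℝ) 1 := ⟨hz.1.le, hz.2.trans hτ.2.le⟩
      apply pow_le_pow_left₀ (Alm.prof_nn hr hz1)
      rcases eq_or_lt_of_le hz.2 with h | h
      · rw [h]; simp
      · exact (key z ⟨hz.1.le, h⟩).le
    · refine ⟨0, ⟨le_rfl, hτ.1.le⟩, ?_⟩
      exact pow_lt_pow_left₀ (key 0 ⟨le_rfl, hτ.1⟩)
        (Alm.prof_nn hr ⟨le_rfl, zero_le_one⟩) (by omega)
  linarith

/-- first comparison, on `[0, τ]` -/
theorem tc_first (k : ℕ) {r : ℝ → ℝ} (hr : IsProf r) {τ : ℝ} (hτ : τ ∈ Ioo (0 : ℝ) 1) {B : ℝ}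
    (hB : 0 ≤ B)
    (hI : ∫ y in (0 : ℝ)..τ, (r τ + B * (τ - y)) ^ (k + 1) ≤ ∫ y in (0 : ℝ)..τ, r y ^ (k + 1)) :
    ∫ y in (0 : ℝ)..τ, (r τ + B * (τ - y)) ^ k ≤ ∫ y in (0 : ℝ)..τ, r y ^ k := by
  have h01 : (0 : ℝ) ∈ Icc (0 : ℝ) 1 := ⟨le_rfl, zero_le_one⟩
  have hτ1 : τ ∈ Icc (0 : ℝ) 1 := ⟨hτ.1.le, hτ.2.le⟩
  have hanti := Alm.prof_anti hr
  have ha : 0 < r τ := hr.pos τ ⟨by linarith [hτ.1], hτ.2⟩
  have hmem : ∀ y ∈ Icc (0 : ℝ) τ, y ∈ Icc (0 : ℝ) 1 := fun y hy => ⟨hy.1, hy.2.trans hτ.2.le⟩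
  have hRpos : ∀ y ∈ Icc (0 : ℝ) τ, 0 < r τ + B * (τ - y) := fun y hy => by
    have := mul_nonneg hB (show 0 ≤ τ - y by linarith [hy.2])
    linarith
  rcases le_total (r τ + B * τ) (r 0) with hc | hc
  · apply intervalIntegral.integral_mono_on hτ.1.le (tc_lin_ii _ _ _ _ _ _)
      (Alm.prof_pow_ii hr k h01 hτ1)
    intro y hy
    apply pow_le_pow_left₀ (hRpos y hy).le
    have h1 := tc_conc hr le_rfl hy.1 hy.2 hτ.2.le
    have h2 : 0 ≤ τ - y := by linarith [hy.2]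
    have h3 := mul_le_mul_of_nonneg_left hc h2
    have h4 : τ * (r τ + B * (τ - y)) ≤ τ * r y := by linarith
    exact le_of_mul_le_mul_left h4 hτ.1
  · set S : Set ℝ := {y ∈ Icc (0 : ℝ) τ | r τ + B * (τ - y) ≤ r y} with hS
    have hSτ : τ ∈ S := ⟨⟨hτ.1.le, le_rfl⟩, by simp⟩
    have hSb : BddBelow S := ⟨0, fun y hy => hy.1.1⟩
    set ys := sInf S with hys
    have hys0 : 0 ≤ ys := le_csInf ⟨τ, hSτ⟩ fun y hy => hy.1.1
    have hysτ : ys ≤ τ := csInf_le hSb hSτ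
    have hysm : ys ∈ Icc (0 : ℝ) τ := ⟨hys0, hysτ⟩
    have hB1 : 0 < B + 1 := by linarith only [hB]
    -- left of `ys`
    have F1 : ∀ y ∈ Icc (0 : ℝ) τ, y ≤ ys → r τ + B * (τ - ys) ≤ r y := by
      intro y hy hyy
      apply le_of_forall_pos_le_add
      intro ε hε
      have hε1 : 0 < ε / (B + 1) := div_pos hε hB1
      obtain ⟨z, hz, hzz⟩ := exists_lt_of_csInf_lt ⟨τ, hSτ⟩
        (show sInf S < ys + ε / (B + 1) by rw [← hys]; linarith only [hε1])
      have h1 : ys ≤ z := csInf_le hSb hz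
      have h2 : r z ≤ r y := hanti (hmem y hy) (hmem z hz.1) (hyy.trans h1)
      have h3 : ε / (B + 1) * (B + 1) = ε := div_mul_cancel₀ _ hB1.ne'
      have h4 := hz.2
      have h5 : B * (z - ys) ≤ B * (ε / (B + 1)) := mul_le_mul_of_nonneg_left (by linarith only [hzz]) hB
      linarith
    have F2 : ∀ y ∈ Icc (0 : ℝ) τ, ys ≤ y → r y ≤ r τ + B * (τ - ys) := by
      intro y hy hyy
      apply le_of_forall_pos_le_add
      intro ε hε
      have hε1 : 0 < ε / (B + 1) := div_pos hε hB1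
      have h3 : ε / (B + 1) * (B + 1) = ε := div_mul_cancel₀ _ hB1.ne'
      set z := max 0 (ys - ε / (B + 1)) with hz
      have hz0 : 0 ≤ z := le_max_left _ _
      have hz1 : ys - ε / (B + 1) ≤ z := le_max_right _ _
      have hz2 : z ≤ ys := max_le hys0 (by linarith only [hε1])
      have h4 : r z ≤ r τ + B * (τ - z) := by
        rcases eq_or_lt_of_le hz2 with h | h
        · -- `z = ys`, so `ys = 0`
          have h5 : ys = 0 := by
            rcases le_total 0 (ys - ε / (B + 1)) with h6 | h6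
            · rw [hz, max_eq_right h6] at h
              linarith only [hε1, h]
            · rw [hz, max_eq_left h6] at h
              exact h.symm
          rw [h, h5, sub_zero]
          exact hc
        · by_contra hcon
          push Not at hcon
          have : z ∈ S := ⟨⟨hz0, hz2.trans hysτ⟩, hcon.le⟩
          have := csInf_le hSb this
          linarith only [h, this]
      have h5 : r y ≤ r z := hanti (hmem z ⟨hz0, hz2.trans hysτ⟩) (hmem y hy) (hz2.trans hyy)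
      have h6 : B * (ys - z) ≤ B * (ε / (B + 1)) := mul_le_mul_of_nonneg_left (by linarith only [hz1]) hB
      linarith
    have hρ : 0 < r τ + B * (τ - ys) := hRpos ys hysm
    apply tc_cross k hτ.1.le hρ (fun y hy => Alm.prof_nn hr (hmem y hy))
      (fun y hy => (hRpos y hy).le) _ (Alm.prof_pow_ii hr _ h01 hτ1) (tc_lin_ii _ _ _ _ _ _)
      (Alm.prof_pow_ii hr _ h01 hτ1) (tc_lin_ii _ _ _ _ _ _) hI
    intro y hy
    rcases lt_trichotomy y ys with h | h | h
    · left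
      refine ⟨F1 y hy h.le, ?_⟩
      by_contra hcon
      push Not at hcon
      have : y ∈ S := ⟨hy, hcon.le⟩
      have := csInf_le hSb this
      linarith
    · left
      refine ⟨F1 y hy h.le, ?_⟩
      have h1 := F2 y hy h.symm.le
      rw [h] at h1 ⊢
      exact h1
    · right
      refine ⟨?_, F2 y hy h.le⟩
      obtain ⟨z, hz, hzz⟩ := exists_lt_of_csInf_lt ⟨τ, hSτ⟩ (show sInf S < y from h)
      have h1 := tc_conc hr hz.1.1 hzz.le hy.2 hτ.2.le
      have h2 := hz.2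
      have h3 : 0 ≤ τ - y := by linarith only [hy.2]
      have h4 := mul_le_mul_of_nonneg_left h2 h3
      have h5 : 0 < τ - z := by linarith only [hzz, h3]
      have h6 : (τ - z) * (r τ + B * (τ - y)) ≤ (τ - z) * r y := by linarith
      exact le_of_mul_le_mul_left h6 h5

/-- second comparison, on `[τ, 1]` -/
theorem tc_second (k : ℕ) {f R : ℝ → ℝ} {a κ M : ℝ} (haκ : a ≤ κ) (hκ : κ ≤ 1)
    (hf : ∀ y ∈ Icc a 1, 0 ≤ f y) (hfR : ∀ y ∈ Icc a 1, f y ≤ R y)
    (hanti : AntitoneOn R (Icc a 1)) (hpos : ∀ y ∈ Ico a 1, 0 < R y) (hM : ∀ y ∈ Icc a 1, R y ≤ M)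
    (i1 : ∀ j : ℕ, ∀ c ∈ Icc a 1, ∀ d ∈ Icc a 1, IntervalIntegrable (fun y => f y ^ j) volume c d)
    (i2 : ∀ j : ℕ, ∀ c ∈ Icc a 1, ∀ d ∈ Icc a 1, IntervalIntegrable (fun y => R y ^ j) volume c d)
    (hI : ∫ y in a..κ, R y ^ (k + 1) = ∫ y in a..1, f y ^ (k + 1)) :
    ∫ y in a..κ, R y ^ k ≤ ∫ y in a..1, f y ^ k := by
  have ha1 : a ≤ 1 := haκ.trans hκ
  have hma : a ∈ Icc a 1 := ⟨le_rfl, ha1⟩
  have hmκ : κ ∈ Icc a 1 := ⟨haκ, hκ⟩
  have hm1 : (1 : ℝ) ∈ Icc a 1 := ⟨ha1, le_rfl⟩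
  rcases eq_or_lt_of_le hκ with hκ1 | hκ1
  · -- `κ = 1`
    subst hκ1
    rcases eq_or_lt_of_le ha1 with ha2 | ha2
    · subst ha2; simp
    have hMp : 0 ≤ M := by
      have h1 := hf a hma
      have h2 := hfR a hma
      have h3 := hM a hma
      linarith
    have key : ∀ c ∈ Ico a 1, ∫ y in a..c, R y ^ k ≤ ∫ y in a..c, f y ^ k := by
      intro c hc
      have hmc : c ∈ Icc a 1 := ⟨hc.1, hc.2.le⟩
      have hρ := hpos c hc
      have h1 : ∫ y in a..c, R c * (R y ^ k - f y ^ k) ≤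
          ∫ y in a..c, (R y ^ (k + 1) - f y ^ (k + 1)) := by
        apply intervalIntegral.integral_mono_on hc.1
          (((i2 k a hma c hmc).sub (i1 k a hma c hmc)).const_mul _)
          ((i2 _ a hma c hmc).sub (i1 _ a hma c hmc))
        intro y hy
        have hmy : y ∈ Icc a 1 := ⟨hy.1, hy.2.trans hc.2.le⟩
        have h2 := hanti hmy hmc hy.2
        have h3 := hf y hmy
        have h4 := hfR y hmy
        have h5 : f y ^ k ≤ R y ^ k := pow_le_pow_left₀ h3 h4 k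
        have h6 : 0 ≤ f y ^ k := pow_nonneg h3 k
        have h7 : R c * (R y ^ k - f y ^ k) ≤ R y * (R y ^ k - f y ^ k) :=
          mul_le_mul_of_nonneg_right h2 (by linarith only [h5])
        have h8 : f y * f y ^ k ≤ R y * f y ^ k := mul_le_mul_of_nonneg_right h4 h6
        rw [pow_succ, pow_succ]
        linarith
      rw [intervalIntegral.integral_const_mul,
        intervalIntegral.integral_sub (i2 k a hma c hmc) (i1 k a hma c hmc),
        intervalIntegral.integral_sub (i2 _ a hma c hmc) (i1 _ a hma c hmc)] at h1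
      have h2 : ∫ y in c..1, f y ^ (k + 1) ≤ ∫ y in c..1, R y ^ (k + 1) := by
        apply intervalIntegral.integral_mono_on hc.2.le (i1 _ c hmc 1 hm1) (i2 _ c hmc 1 hm1)
        intro y hy
        have hmy : y ∈ Icc a 1 := ⟨hc.1.trans hy.1, hy.2⟩
        exact pow_le_pow_left₀ (hf y hmy) (hfR y hmy) _
      rw [← intervalIntegral.integral_add_adjacent_intervals (i2 (k + 1) a hma c hmc)
        (i2 (k + 1) c hmc 1 hm1), ← intervalIntegral.integral_add_adjacent_intervals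
        (i1 (k + 1) a hma c hmc) (i1 (k + 1) c hmc 1 hm1)] at hI
      have h3 : R c * ((∫ y in a..c, R y ^ k) - ∫ y in a..c, f y ^ k) ≤ 0 := by linarith only [hI, h1, h2]
      by_contra hcon
      push Not at hcon
      have := mul_pos hρ (show 0 < (∫ y in a..c, R y ^ k) - ∫ y in a..c, f y ^ k by linarith only [hcon])
      linarith only [hI, h1, h2, this]
    apply le_of_forall_pos_le_add
    intro ε hε
    set δ : ℝ := min (1 - a) (ε / (M ^ k + 1)) with hδ
    have hMk : 0 ≤ M ^ k := pow_nonneg hMp k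
    have hδ0 : 0 < δ := lt_min (by linarith only [ha2]) (by (clear * - hε hMp; positivity))
    have hδ1 : δ ≤ 1 - a := min_le_left _ _
    have hδ2 : δ * (M ^ k + 1) ≤ ε := by
      have := min_le_right (1 - a) (ε / (M ^ k + 1))
      rw [← hδ, le_div_iff₀ (by (clear * - hMp; positivity))] at this
      exact this
    have hc : 1 - δ ∈ Ico a 1 := ⟨by linarith only [hδ1], by linarith only [hδ0]⟩
    have hmc : 1 - δ ∈ Icc a 1 := ⟨hc.1, hc.2.le⟩
    have h1 := key (1 - δ) hc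
    rw [← intervalIntegral.integral_add_adjacent_intervals (i2 k a hma (1 - δ) hmc)
        (i2 k (1 - δ) hmc 1 hm1), ← intervalIntegral.integral_add_adjacent_intervals
        (i1 k a hma (1 - δ) hmc) (i1 k (1 - δ) hmc 1 hm1)]
    have h2 : ∫ y in (1 - δ)..1, R y ^ k ≤ ∫ y in (1 - δ)..1, M ^ k := by
      apply intervalIntegral.integral_mono_on hc.2.le (i2 _ _ hmc 1 hm1) (by simp)
      intro y hy
      have hmy : y ∈ Icc a 1 := ⟨hc.1.trans hy.1, hy.2⟩
      exact pow_le_pow_left₀ ((hf y hmy).trans (hfR y hmy)) (hM y hmy) _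
    rw [intervalIntegral.integral_const, smul_eq_mul] at h2
    have h3 : 0 ≤ ∫ y in (1 - δ)..1, f y ^ k := by
      apply intervalIntegral.integral_nonneg hc.2.le
      intro y hy
      exact pow_nonneg (hf y ⟨hc.1.trans hy.1, hy.2⟩) k
    have h4 : (1 - (1 - δ)) * M ^ k = δ * M ^ k := by ring
    rw [h4] at h2
    linarith
  · have hρ := hpos κ ⟨haκ, hκ1⟩
    have h1 : ∫ y in a..κ, R κ * (R y ^ k - f y ^ k) ≤
        ∫ y in a..κ, (R y ^ (k + 1) - f y ^ (k + 1)) := by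
      apply intervalIntegral.integral_mono_on haκ
        (((i2 k a hma κ hmκ).sub (i1 k a hma κ hmκ)).const_mul _)
        ((i2 _ a hma κ hmκ).sub (i1 _ a hma κ hmκ))
      intro y hy
      have hmy : y ∈ Icc a 1 := ⟨hy.1, hy.2.trans hκ⟩
      have h2 := hanti hmy hmκ hy.2
      have h3 := hf y hmy
      have h4 := hfR y hmy
      have h5 : f y ^ k ≤ R y ^ k := pow_le_pow_left₀ h3 h4 k
      have h6 : 0 ≤ f y ^ k := pow_nonneg h3 k
      have h7 : R κ * (R y ^ k - f y ^ k) ≤ R y * (R y ^ k - f y ^ k) :=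
        mul_le_mul_of_nonneg_right h2 (by linarith)
      have h8 : f y * f y ^ k ≤ R y * f y ^ k := mul_le_mul_of_nonneg_right h4 h6
      rw [pow_succ, pow_succ]
      linarith
    have h2 : ∫ y in κ..1, f y ^ (k + 1) ≤ ∫ y in κ..1, R κ * f y ^ k := by
      apply intervalIntegral.integral_mono_on hκ (i1 _ κ hmκ 1 hm1)
        ((i1 _ κ hmκ 1 hm1).const_mul _)
      intro y hy
      have hmy : y ∈ Icc a 1 := ⟨haκ.trans hy.1, hy.2⟩
      have h3 := hf y hmy
      have h4 := (hfR y hmy).trans (hanti hmκ hmy hy.1)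
      rw [pow_succ, mul_comm]
      exact mul_le_mul_of_nonneg_right h4 (pow_nonneg h3 k)
    rw [intervalIntegral.integral_const_mul] at h2
    rw [intervalIntegral.integral_const_mul,
      intervalIntegral.integral_sub (i2 k a hma κ hmκ) (i1 k a hma κ hmκ),
      intervalIntegral.integral_sub (i2 _ a hma κ hmκ) (i1 _ a hma κ hmκ)] at h1
    have e1 := intervalIntegral.integral_add_adjacent_intervals
        (i1 (k + 1) a hma κ hmκ) (i1 (k + 1) κ hmκ 1 hm1)
    have e2 := intervalIntegral.integral_add_adjacent_intervals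
        (i1 k a hma κ hmκ) (i1 k κ hmκ 1 hm1)
    rw [← e2]
    by_contra hcon
    push Not at hcon
    have h5 := mul_lt_mul_of_pos_left hcon hρ
    linarith

/-- existence of the slope -/
theorem tc_slope (k : ℕ) {r : ℝ → ℝ} (hr : IsProf r) {τ : ℝ} (hτ : τ ∈ Ioo (0 : ℝ) 1) :
    ∃ B : ℝ, 0 ≤ B ∧
      ∫ y in (0 : ℝ)..τ, (r τ + B * (τ - y)) ^ (k + 1) = ∫ y in (0 : ℝ)..τ, r y ^ (k + 1) := by
  have h01 : (0 : ℝ) ∈ Icc (0 : ℝ) 1 := ⟨le_rfl, zero_le_one⟩
  have hτ1 : τ ∈ Icc (0 : ℝ) 1 := ⟨hτ.1.le, hτ.2.le⟩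
  have hanti := Alm.prof_anti hr
  have ha : 0 < r τ := hr.pos τ ⟨by linarith [hτ.1], hτ.2⟩
  have hr0 : 0 < r 0 := hr.pos 0 ⟨by norm_num, by norm_num⟩
  have hτ0 := hτ.1
  set F : ℝ → ℝ := fun B => ∫ y in (0 : ℝ)..τ, (r τ + B * (τ - y)) ^ (k + 1) with hF
  have hFc : Continuous F := by
    apply intervalIntegral.continuous_parametric_intervalIntegral_of_continuous'
    fun_prop
  have hJ0 : F 0 ≤ ∫ y in (0 : ℝ)..τ, r y ^ (k + 1) := by
    rw [hF]
    apply intervalIntegral.integral_mono_on hτ.1.le (tc_lin_ii _ _ _ _ _ _)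
      (Alm.prof_pow_ii hr (k + 1) h01 hτ1)
    intro y hy
    have h1 := hanti (show y ∈ Icc (0 : ℝ) 1 from ⟨hy.1, hy.2.trans hτ.2.le⟩) hτ1 hy.2
    have h2 : r τ + 0 * (τ - y) = r τ := by ring
    rw [h2]
    exact pow_le_pow_left₀ ha.le h1 _
  set B1 : ℝ := ((k : ℝ) + 2) * r 0 / τ with hB1
  have hB10 : 0 < B1 := by positivity
  have hJ1 : ∫ y in (0 : ℝ)..τ, r y ^ (k + 1) ≤ F B1 := by
    have h1 : ∫ y in (0 : ℝ)..τ, r y ^ (k + 1) ≤ ∫ y in (0 : ℝ)..τ, r 0 ^ (k + 1) := by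
      apply intervalIntegral.integral_mono_on hτ.1.le (Alm.prof_pow_ii hr (k + 1) h01 hτ1)
        (by simp)
      intro y hy
      have hy1 : y ∈ Icc (0 : ℝ) 1 := ⟨hy.1, hy.2.trans hτ.2.le⟩
      exact pow_le_pow_left₀ (Alm.prof_nn hr hy1) (Alm.prof_le_zero hr hy1) _
    have h2 : ∫ y in (0 : ℝ)..τ, (B1 * (τ - y)) ^ (k + 1) ≤ F B1 := by
      rw [hF]
      apply intervalIntegral.integral_mono_on hτ.1.le
        ((by fun_prop : Continuous fun y : ℝ => (B1 * (τ - y)) ^ (k + 1)).intervalIntegrable _ _)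
        (tc_lin_ii _ _ _ _ _ _)
      intro y hy
      apply pow_le_pow_left₀ (mul_nonneg hB10.le (by linarith only [hy.2]))
      linarith only [ha]
    have h3 : ∫ y in (0 : ℝ)..τ, (B1 * (τ - y)) ^ (k + 1) =
        B1 ^ (k + 1) * (τ ^ (k + 2) / ((k : ℝ) + 2)) := by
      have e : (fun y : ℝ => (B1 * (τ - y)) ^ (k + 1)) =
          fun y => (fun t => B1 ^ (k + 1) * t ^ (k + 1)) (τ - y) := by
        funext y
        rw [mul_pow]
      rw [e, intervalIntegral.integral_comp_sub_left (fun t => B1 ^ (k + 1) * t ^ (k + 1)) τ,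
        intervalIntegral.integral_const_mul, integral_pow]
      have e2 : k + 1 + 1 = k + 2 := rfl
      simp only [sub_self, sub_zero, e2]
      push_cast
      rw [zero_pow (by omega)]
      ring
    rw [intervalIntegral.integral_const, smul_eq_mul, sub_zero] at h1
    refine h1.trans (le_trans ?_ h2)
    rw [h3]
    have e : B1 ^ (k + 1) * (τ ^ (k + 2) / ((k : ℝ) + 2)) =
        τ * (((k : ℝ) + 2) ^ k * r 0 ^ (k + 1)) := by
      rw [hB1, div_pow, mul_pow]
      have h4 : ((k : ℝ) + 2) ≠ 0 := by (clear * -; positivity)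
      field_simp
      ring
    rw [e]
    have h5 : (1 : ℝ) ≤ ((k : ℝ) + 2) ^ k := one_le_pow₀ (by
      have : (0 : ℝ) ≤ (k : ℝ) := by (clear * -; positivity)
      linarith only [])
    have h6 : 0 ≤ r 0 ^ (k + 1) := by positivity
    have h7 := mul_le_mul_of_nonneg_right h5 h6
    rw [one_mul] at h7
    exact mul_le_mul_of_nonneg_left h7 hτ.1.le
  obtain ⟨B, hB, hFB⟩ := intermediate_value_Icc hB10.le hFc.continuousOn ⟨hJ0, hJ1⟩
  exact ⟨B, hB.1, hFB⟩

/-- **Truncated linear comparison.** -/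
theorem trunc_lin (k : ℕ) {r : ℝ → ℝ} (hr : IsProf r) {τ : ℝ} (hτ : τ ∈ Ioo (0 : ℝ) 1) :
    ∃ A B κ : ℝ, 0 < A ∧ 0 ≤ B ∧ B ≤ A ∧ τ ≤ κ ∧ κ ≤ 1 ∧
      (∫ y in (0 : ℝ)..τ, (A - B * y) ^ (k + 1)) = (∫ y in (0 : ℝ)..τ, r y ^ (k + 1)) ∧
      (∫ y in (0 : ℝ)..κ, (A - B * y) ^ (k + 1)) = (∫ y in (0 : ℝ)..1, r y ^ (k + 1)) ∧
      (∫ y in (0 : ℝ)..κ, (A - B * y) ^ k) ≤ ∫ y in (0 : ℝ)..1, r y ^ k := by
  have h01 : (0 : ℝ) ∈ Icc (0 : ℝ) 1 := ⟨le_rfl, zero_le_one⟩
  have h11 : (1 : ℝ) ∈ Icc (0 : ℝ) 1 := ⟨zero_le_one, le_rfl⟩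
  have hτ1 : τ ∈ Icc (0 : ℝ) 1 := ⟨hτ.1.le, hτ.2.le⟩
  have ha : 0 < r τ := hr.pos τ ⟨by linarith [hτ.1], hτ.2⟩
  obtain ⟨B, hB, hI⟩ := tc_slope k hr hτ
  have hfirst := tc_first k hr hτ hB hI.le
  have hright : ∀ y ∈ Icc τ 1, r y ≤ r τ + B * (τ - y) := fun y hy => tc_right k hr hτ hI.le hy
  have hRA : ∀ y : ℝ, r τ + B * (τ - y) = r τ + B * τ - B * y := fun y => by ring
  set A : ℝ := r τ + B * τ with hA
  have hA0 : 0 < A := by
    have := mul_nonneg hB hτ.1.le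
    linarith
  simp only [hRA] at hI hfirst hright
  have hBA : B ≤ A := by
    have h1 := hright 1 ⟨hτ.2.le, le_rfl⟩
    have h2 := hr.nonneg
    linarith
  have hcont : ∀ j : ℕ, Continuous fun y : ℝ => (A - B * y) ^ j := fun j => by fun_prop
  have hii : ∀ (j : ℕ) (c d : ℝ), IntervalIntegrable (fun y : ℝ => (A - B * y) ^ j) volume c d :=
    fun j c d => (hcont j).intervalIntegrable _ _
  have hri := Alm.prof_pow_ii hr
  -- the truncation point
  set G : ℝ → ℝ := fun c => ∫ y in (0 : ℝ)..c, (A - B * y) ^ (k + 1) with hG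
  have hGc : Continuous G := intervalIntegral.continuous_primitive (fun c d => hii (k + 1) c d) 0
  have hspl := intervalIntegral.integral_add_adjacent_intervals
    (hri (k + 1) h01 hτ1) (hri (k + 1) hτ1 h11)
  have hspl0 := intervalIntegral.integral_add_adjacent_intervals (hri k h01 hτ1) (hri k hτ1 h11)
  have hG1 : G τ ≤ ∫ y in (0 : ℝ)..1, r y ^ (k + 1) := by
    have h1 : 0 ≤ ∫ y in τ..1, r y ^ (k + 1) := by
      apply intervalIntegral.integral_nonneg hτ.2.le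
      intro y hy
      exact pow_nonneg (Alm.prof_nn hr ⟨hτ.1.le.trans hy.1, hy.2⟩) _
    rw [hG]
    simp only
    rw [hI, ← hspl]
    linarith
  have hG2 : ∫ y in (0 : ℝ)..1, r y ^ (k + 1) ≤ G 1 := by
    have h1 : ∫ y in τ..1, r y ^ (k + 1) ≤ ∫ y in τ..1, (A - B * y) ^ (k + 1) := by
      apply intervalIntegral.integral_mono_on hτ.2.le (hri _ hτ1 h11) (hii _ _ _)
      intro y hy
      exact pow_le_pow_left₀ (Alm.prof_nn hr ⟨hτ.1.le.trans hy.1, hy.2⟩) (hright y hy) _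
    have h2 := intervalIntegral.integral_add_adjacent_intervals
      (hii (k + 1) 0 τ) (hii (k + 1) τ 1)
    rw [hG]
    simp only
    rw [← hspl, ← h2, hI]
    linarith only [h1]
  obtain ⟨κ, hκ, hGκ⟩ := intermediate_value_Icc hτ.2.le hGc.continuousOn ⟨hG1, hG2⟩
  refine ⟨A, B, κ, hA0, hB, hBA, hκ.1, hκ.2, hI, hGκ, ?_⟩
  have hGκ' : ∫ y in (0 : ℝ)..κ, (A - B * y) ^ (k + 1) = ∫ y in (0 : ℝ)..1, r y ^ (k + 1) := hGκ
  have hR1 := intervalIntegral.integral_add_adjacent_intervals (hii (k + 1) 0 τ) (hii (k + 1) τ κ)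
  have hR0 := intervalIntegral.integral_add_adjacent_intervals (hii k 0 τ) (hii k τ κ)
  have hsub : ∀ c ∈ Icc τ 1, c ∈ Icc (0 : ℝ) 1 := fun c hc => ⟨hτ.1.le.trans hc.1, hc.2⟩
  have hsec := tc_second k (f := r) (R := fun y => A - B * y) (M := A) hκ.1 hκ.2
    (fun y hy => Alm.prof_nn hr (hsub y hy)) hright
    (fun x _ y _ hxy => by
      have := mul_le_mul_of_nonneg_left hxy hB
      linarith only [this])
    (fun y hy => by
      have h1 := hright y ⟨hy.1, hy.2.le⟩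
      have h2 := hr.pos y ⟨by linarith only [hτ.1, hy.1], hy.2⟩
      linarith only [h1, h2])
    (fun y hy => by
      have := mul_nonneg hB (hτ.1.le.trans hy.1)
      linarith only [this])
    (fun j c hc d hd => hri j (hsub c hc) (hsub d hd)) (fun j c _ d _ => hii j c d)
    (by linarith only [hI, hspl, hGκ, hR1])
  rw [← hR0, ← hspl0]
  linarith only [hfirst, hsec]

end Vale.Agent.P237.AllN
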