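import Vale.Agent.P237.AllN.TruncA

/-!
# P237, all dimensions: the transport bound from the truncated linear comparison
-/

open MeasureTheory Metric Set Module Filter Topology

namespace Vale.Agent.P237.AllN

/-- `∫₀^y (1 - (1 - E) t)^k dt` -/
noncomputable def LE (k : ℕ) (E y : ℝ) : ℝ := ∫ t in (0 : ℝ)..y, (1 - (1 - E) * t) ^ k

theorem LE_cont (k : ℕ) (E : ℝ) : Continuous fun t : ℝ => (1 - (1 - E) * t) ^ k := by fun_prop

theorem LE_ii (k : ℕ) (E c d : ℝ) :
    IntervalIntegrable (fun t : ℝ => (1 - (1 - E) * t) ^ k) volume c d :=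
  (LE_cont k E).intervalIntegrable _ _

theorem LE_mul (k : ℕ) (E y : ℝ) :
    ((k : ℝ) + 1) * (1 - E) * LE k E y = 1 - (1 - (1 - E) * y) ^ (k + 1) := by
  have h : ∀ t : ℝ, HasDerivAt (fun t => -(1 - (1 - E) * t) ^ (k + 1))
      (((k : ℝ) + 1) * (1 - E) * (1 - (1 - E) * t) ^ k) t := by
    intro t
    have h1 : HasDerivAt (fun t : ℝ => 1 - (1 - E) * t) (-(1 - E)) t := by
      have := ((hasDerivAt_id t).const_mul (1 - E)).const_sub 1
      simpa using this
    have h2 := (h1.pow (k + 1)).neg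
    refine h2.congr_deriv ?_
    have e : k + 1 - 1 = k := by omega
    rw [e]
    push_cast
    ring
  unfold LE
  rw [← intervalIntegral.integral_const_mul,
    intervalIntegral.integral_eq_sub_of_hasDerivAt (fun t _ => h t)
      (((LE_cont k E).const_mul _).intervalIntegrable _ _)]
  simp only [mul_zero, sub_zero, one_pow, sub_neg_eq_add]
  ring

theorem LE_one (k : ℕ) (y : ℝ) : LE k 1 y = y := by
  unfold LE
  simp

theorem LE_base {E t : ℝ} (hE0 : 0 ≤ E) (hE1 : E ≤ 1) (_ht0 : 0 ≤ t) (ht1 : t ≤ 1) :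
    0 ≤ 1 - (1 - E) * t := by
  nlinarith only [hE0, ht1, hE1]

theorem LE_pos (k : ℕ) {E y : ℝ} (hE0 : 0 ≤ E) (_hE1 : E ≤ 1) (hy0 : 0 < y) (hy1 : y ≤ 1) :
    0 < LE k E y := by
  unfold LE
  apply intervalIntegral.intervalIntegral_pos_of_pos_on (LE_ii k E _ _) _ hy0
  intro t ht
  apply pow_pos
  have h1 : (1 - E) * t ≤ 1 * t := mul_le_mul_of_nonneg_right (by linarith only [hE0]) ht.1.le
  linarith only [hy1, h1, ht.2]

theorem LE_mono (k : ℕ) {E y z : ℝ} (hE0 : 0 ≤ E) (hE1 : E ≤ 1) (hy0 : 0 ≤ y) (hyz : y ≤ z)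
    (hz1 : z ≤ 1) : LE k E y ≤ LE k E z := by
  unfold LE
  rw [← intervalIntegral.integral_add_adjacent_intervals (LE_ii k E 0 y) (LE_ii k E y z)]
  have : 0 ≤ ∫ t in y..z, (1 - (1 - E) * t) ^ k := by
    apply intervalIntegral.integral_nonneg hyz
    intro t ht
    exact pow_nonneg (LE_base hE0 hE1 (hy0.trans ht.1) (ht.2.trans hz1)) k
  linarith

theorem LE_monoE (k : ℕ) {E F y : ℝ} (hE0 : 0 ≤ E) (hEF : E ≤ F) (hF : F ≤ 1) (hy0 : 0 ≤ y)
    (hy1 : y ≤ 1) : LE k E y ≤ LE k F y := by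
  unfold LE
  apply intervalIntegral.integral_mono_on hy0 (LE_ii _ _ _ _) (LE_ii _ _ _ _)
  intro t ht
  apply pow_le_pow_left₀ (LE_base hE0 (hEF.trans hF) ht.1 (ht.2.trans hy1))
  have := mul_le_mul_of_nonneg_right hEF ht.1
  linarith only [this]

/-- monotone likelihood ratio -/
theorem LE_mlr (k : ℕ) {E F y : ℝ} (hE0 : 0 ≤ E) (hEF : E ≤ F) (hF : F ≤ 1) (hy0 : 0 ≤ y)
    (hy1 : y ≤ 1) : LE k F y * LE k E 1 ≤ LE k E y * LE k F 1 := by
  have hE1 : E ≤ 1 := hEF.trans hF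
  have hF0 : 0 ≤ F := hE0.trans hEF
  rcases eq_or_lt_of_le (LE_base hE0 hE1 hy0 hy1) with h0 | h0
  · -- `1 - (1-E) y = 0`, so `y = 1`
    have h1 : y = 1 := by
      by_contra hcon
      have h2 : y < 1 := lt_of_le_of_ne hy1 hcon
      nlinarith only [h0, h2, hE0, hy0]
    rw [h1]
    linarith only []
  · set u : ℝ → ℝ := fun t => (1 - (1 - E) * t) ^ k with hu
    set v : ℝ → ℝ := fun t => (1 - (1 - F) * t) ^ k with hv
    have hu0 : 0 < u y := pow_pos h0 k
    have hbase : ∀ s t : ℝ, 0 ≤ s → s ≤ t → t ≤ 1 → v s * u t ≤ v t * u s := by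
      intro s t hs hst ht
      rw [hu, hv]
      simp only
      rw [← mul_pow, ← mul_pow]
      apply pow_le_pow_left₀
      · exact mul_nonneg (LE_base hF0 hF hs (hst.trans ht))
          (LE_base hE0 hE1 (hs.trans hst) ht)
      · have := mul_nonneg (show 0 ≤ F - E by linarith only [hEF]) (show 0 ≤ t - s by linarith only [hst])
        linarith
    have h1 : (∫ t in (0 : ℝ)..y, v t * u y) ≤ ∫ t in (0 : ℝ)..y, v y * u t := by
      apply intervalIntegral.integral_mono_on hy0 ((LE_ii k F _ _).mul_const _)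
        ((LE_ii k E _ _).const_mul _)
      intro t ht
      exact hbase t y ht.1 ht.2 hy1
    have h2 : (∫ t in y..1, v y * u t) ≤ ∫ t in y..1, v t * u y := by
      apply intervalIntegral.integral_mono_on hy1 ((LE_ii k E _ _).const_mul _)
        ((LE_ii k F _ _).mul_const _)
      intro t ht
      exact hbase y t hy0 ht.1 ht.2
    rw [intervalIntegral.integral_mul_const, intervalIntegral.integral_const_mul] at h1 h2
    have e1 := intervalIntegral.integral_add_adjacent_intervals (LE_ii k E 0 y) (LE_ii k E y 1)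
    have e2 := intervalIntegral.integral_add_adjacent_intervals (LE_ii k F 0 y) (LE_ii k F y 1)
    have hU1 : 0 ≤ ∫ t in (0 : ℝ)..y, u t := by
      apply intervalIntegral.integral_nonneg hy0
      intro t ht
      exact pow_nonneg (LE_base hE0 hE1 ht.1 (ht.2.trans hy1)) k
    have hU2 : 0 ≤ ∫ t in y..1, u t := by
      apply intervalIntegral.integral_nonneg hy1
      intro t ht
      exact pow_nonneg (LE_base hE0 hE1 (hy0.trans ht.1) ht.2) k
    unfold LE
    rw [← e1, ← e2]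
    have h3 := mul_le_mul_of_nonneg_right h1 hU2
    have h4 := mul_le_mul_of_nonneg_left h2 hU1
    have h5 : u y * ((∫ t in (0 : ℝ)..y, v t) * ∫ t in y..1, u t) ≤
        u y * ((∫ t in (0 : ℝ)..y, u t) * ∫ t in y..1, v t) := by
      rw [hu, hv] at *
      linarith
    have h6 := le_of_mul_le_mul_left h5 hu0
    rw [hu, hv] at h6
    nlinarith only [h6]

/-- the normalised constraint is monotone -/
theorem LE_nmono (k : ℕ) {E F : ℝ} (hE0 : 0 ≤ E) (hEF : E ≤ F) (hF : F ≤ 1) :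
    LE (k + 1) F 1 ^ k * LE k E 1 ^ (k + 1) ≤ LE (k + 1) E 1 ^ k * LE k F 1 ^ (k + 1) := by
  have hE1 : E ≤ 1 := hEF.trans hF
  have hF0 : 0 ≤ F := hE0.trans hEF
  have pE := LE_pos (k + 1) hE0 hE1 zero_lt_one le_rfl
  have pF := LE_pos (k + 1) hF0 hF zero_lt_one le_rfl
  have pE' := LE_pos k hE0 hE1 zero_lt_one le_rfl
  have pF' := LE_pos k hF0 hF zero_lt_one le_rfl
  set q : ℝ := LE (k + 1) F 1 / LE (k + 1) E 1 with hq
  have hq0 : 0 < q := div_pos pF pE
  set lam : ℝ := q ^ (1 / ((k + 1 : ℕ) : ℝ)) with hlam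
  have hl0 : 0 < lam := Real.rpow_pos_of_pos hq0 _
  have hlp : lam ^ (k + 1) = q := cn_root_pow (by omega) hq0.le
  have hqe : q * LE (k + 1) E 1 = LE (k + 1) F 1 := div_mul_cancel₀ _ pE.ne'
  have hq1 : 1 ≤ q := by
    rw [hq, one_le_div pE]
    exact LE_monoE _ hE0 hEF hF zero_le_one le_rfl
  have hl1 : 1 ≤ lam := by
    by_contra hcon
    push Not at hcon
    have := pow_lt_one₀ hl0.le hcon (show k + 1 ≠ 0 by omega)
    linarith only [hlp, hq1, this]
  have hRint : ∀ j : ℕ, ∫ y in (0 : ℝ)..1, (lam * (1 - (1 - E) * y)) ^ j = lam ^ j * LE j E 1 := by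
    intro j
    unfold LE
    rw [← intervalIntegral.integral_const_mul]
    congr 1
    funext y
    rw [mul_pow]
  have hRii : ∀ j : ℕ, IntervalIntegrable (fun y : ℝ => (lam * (1 - (1 - E) * y)) ^ j)
      volume 0 1 := fun j =>
    (by fun_prop : Continuous fun y : ℝ => (lam * (1 - (1 - E) * y)) ^ j).intervalIntegrable _ _
  have hIeq : ∫ y in (0 : ℝ)..1, (lam * (1 - (1 - E) * y)) ^ (k + 1) =
      ∫ y in (0 : ℝ)..1, (1 - (1 - F) * y) ^ (k + 1) := by
    rw [hRint, hlp, hqe]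
    rfl
  have hend : lam * E ≤ F := by
    by_contra hcon
    push Not at hcon
    have h1 : ∫ y in (0 : ℝ)..1, (1 - (1 - F) * y) ^ (k + 1) <
        ∫ y in (0 : ℝ)..1, (lam * (1 - (1 - E) * y)) ^ (k + 1) := by
      have hle : ∀ y ∈ Icc (0 : ℝ) 1, 1 - (1 - F) * y ≤ lam * (1 - (1 - E) * y) := by
        intro y hy
        have h2 := mul_le_mul_of_nonneg_left hcon.le hy.1
        have h3 := mul_le_mul_of_nonneg_left hl1 (show 0 ≤ 1 - y by linarith only [hy.2])
        nlinarith only [h2, h3]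
      apply intervalIntegral.integral_lt_integral_of_continuousOn_of_le_of_exists_lt zero_lt_one
        (LE_cont _ _).continuousOn
        (by fun_prop : Continuous fun y : ℝ => (lam * (1 - (1 - E) * y)) ^ (k + 1)).continuousOn
      · intro y hy
        exact pow_le_pow_left₀ (LE_base hF0 hF hy.1.le hy.2) (hle y ⟨hy.1.le, hy.2⟩) _
      · refine ⟨1, ⟨zero_le_one, le_rfl⟩, ?_⟩
        apply pow_lt_pow_left₀ _ (LE_base hF0 hF zero_le_one le_rfl) (by omega)
        linarith only [hcon]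
    linarith only [hIeq, h1]
  -- the crossing
  have hcross : ∃ ρ : ℝ, 0 < ρ ∧ ∀ y ∈ Icc (0 : ℝ) 1,
      (ρ ≤ 1 - (1 - F) * y ∧ 1 - (1 - F) * y ≤ lam * (1 - (1 - E) * y)) ∨
      (lam * (1 - (1 - E) * y) ≤ 1 - (1 - F) * y ∧ 1 - (1 - F) * y ≤ ρ) := by
    set D : ℝ := (lam - 1) + (F - lam * E) with hD
    have hD0 : 0 ≤ D := by linarith only [hl1, hend]
    have hid : ∀ y : ℝ, 1 - (1 - F) * y - lam * (1 - (1 - E) * y) = (1 - lam) + y * D := by
      intro y
      rw [hD]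
      ring
    rcases eq_or_lt_of_le hD0 with h | h
    · refine ⟨1, one_pos, ?_⟩
      intro y hy
      right
      have h1 : lam = 1 := by linarith only [hl1, hend, h]
      have h2 := hid y
      rw [← h, h1] at h2
      constructor
      · rw [h1]
        linarith only [h2]
      · have := mul_nonneg (show 0 ≤ 1 - F by linarith only [hF]) hy.1
        linarith only [this]
    · set ys : ℝ := (lam - 1) / D with hys
      have hys0 : 0 ≤ ys := div_nonneg (by linarith only [hl1]) h.le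
      have hys1 : ys ≤ 1 := by
        rw [hys, div_le_one h]
        linarith only [hend]
      have hysD : ys * D = lam - 1 := div_mul_cancel₀ _ h.ne'
      have hF00 : 0 < F ∨ F = 0 := (eq_or_lt_of_le hF0).symm.imp id Eq.symm
      have hρ : 0 < 1 - (1 - F) * ys ∨ (F = 0 ∧ ys = 1) := by
        rcases eq_or_lt_of_le (LE_base hF0 hF hys0 hys1) with h3 | h3
        · right
          have h4 : ys = 1 := by
            by_contra hcon
            have h5 : ys < 1 := lt_of_le_of_ne hys1 hcon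
            nlinarith only [h3, h5, hF0, hys0]
          refine ⟨?_, h4⟩
          rw [h4] at h3
          linarith only [h3]
        · exact Or.inl h3
      rcases hρ with hρ | ⟨h5, h6⟩
      · refine ⟨1 - (1 - F) * ys, hρ, ?_⟩
        intro y hy
        rcases le_total y ys with h7 | h7
        · left
          have h8 := mul_le_mul_of_nonneg_left h7 (show 0 ≤ 1 - F by linarith only [hF])
          have h9 := mul_le_mul_of_nonneg_right h7 h.le
          have h10 := hid y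
          constructor
          · linarith only [h8]
          · linarith only [hysD, h9]
        · right
          have h8 := mul_le_mul_of_nonneg_left h7 (show 0 ≤ 1 - F by linarith only [hF])
          have h9 := mul_le_mul_of_nonneg_right h7 h.le
          have h10 := hid y
          constructor
          · linarith only [hysD, h9]
          · linarith only [h8]
      · -- `F = 0`, `E = 0`
        exfalso
        have h7 : E = 0 := le_antisymm (hEF.trans h5.le) hE0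
        have h8 : lam = 1 := by
          have : q = 1 := by rw [hq, h7, h5, div_self]; rw [h7] at pE; exact pE.ne'
          rw [hlam, this, Real.one_rpow]
        rw [hys, h8] at h6
        simp at h6
  obtain ⟨ρ, hρ, hcr⟩ := hcross
  have h1 := tc_cross k (f := fun y => 1 - (1 - F) * y) (R := fun y => lam * (1 - (1 - E) * y))
    zero_le_one hρ (fun y hy => LE_base hF0 hF hy.1 hy.2)
    (fun y hy => mul_nonneg hl0.le (LE_base hE0 hE1 hy.1 hy.2)) hcr (LE_ii _ _ _ _) (hRii _)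
    (LE_ii _ _ _ _) (hRii _) hIeq.le
  rw [hRint] at h1
  have h2 : lam ^ k * LE k E 1 ≤ LE k F 1 := h1
  have h3 := pow_le_pow_left₀ (by positivity) h2 (k + 1)
  have e : (lam ^ k * LE k E 1) ^ (k + 1) = q ^ k * LE k E 1 ^ (k + 1) := by
    rw [mul_pow, ← hlp]
    ring
  rw [e] at h3
  have h4 := mul_le_mul_of_nonneg_left h3 (show 0 ≤ LE (k + 1) E 1 ^ k by positivity)
  have e2 : LE (k + 1) E 1 ^ k * (q ^ k * LE k E 1 ^ (k + 1)) =
      LE (k + 1) F 1 ^ k * LE k E 1 ^ (k + 1) := by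
    rw [← hqe]
    ring
  rw [e2] at h4
  exact h4

/-- **The transport of a profile with `N ≤ N_B` in terms of a truncated linear profile.** -/
theorem IsTrans.truncLE {m : ℕ} (hm : 1 ≤ m) {r τ τ' T : ℝ → ℝ} (hr : IsProf r)
    (h : IsTrans m r τ τ' T)
    (hN : (∫ y in (-1 : ℝ)..1, r y ^ (m - 1)) ^ m * aInt m ^ (m - 1) ≤
      aInt (m - 1) ^ m * (∫ y in (-1 : ℝ)..1, r y ^ m) ^ (m - 1)) {x : ℝ}
    (hx : x ∈ Ioo (0 : ℝ) 1) :
    ∃ E κ : ℝ, 0 ≤ E ∧ E ≤ 1 ∧ τ x ≤ κ ∧ κ ≤ 1 ∧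
      (∫ t in (0 : ℝ)..x, sq t ^ m) * LE m E 1 =
        (∫ t in (0 : ℝ)..1, sq t ^ m) * LE m E (τ x / κ) ∧
      κ * (LE (m - 1) E 1 ^ m * (∫ t in (0 : ℝ)..1, sq t ^ m) ^ (m - 1)) ≤
        (∫ t in (0 : ℝ)..1, sq t ^ (m - 1)) ^ m * LE m E 1 ^ (m - 1) := by
  obtain ⟨k, rfl⟩ : ∃ k, m = k + 1 := ⟨m - 1, by (clear * - hm; omega)⟩
  have e1 : k + 1 - 1 = k := by omega
  have hN2 := cn_half hm hr hN
  rw [e1] at hN2 ⊢
  have hτ := h.mem x hx
  obtain ⟨A, B, κ, hA, hB, hBA, hτκ, hκ1, hI1, hI2, hI3⟩ := trunc_lin k hr hτ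
  have hκ0 : 0 < κ := hτ.1.trans_le hτκ
  have hBκ : B * κ ≤ A := by nlinarith only [hBA, hB, hκ1]
  set E : ℝ := (A - B * κ) / A with hE
  have hE0 : 0 ≤ E := div_nonneg (by linarith only [hBκ]) hA.le
  have hE1 : E ≤ 1 := by
    rw [hE, div_le_one hA]
    have := mul_nonneg hB hκ0.le
    linarith only [this]
  have hEA : A * (1 - E) = B * κ := by
    rw [hE]
    field_simp
    ring
  have hscale : ∀ (j : ℕ) (y : ℝ),
      ∫ t in (0 : ℝ)..y, (A - B * t) ^ j = κ * A ^ j * LE j E (y / κ) := by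
    intro j y
    unfold LE
    have h1 := intervalIntegral.integral_comp_mul_left (a := 0) (b := y / κ)
      (fun t => (A - B * t) ^ j) hκ0.ne'
    simp only [smul_eq_mul, mul_zero] at h1
    rw [mul_div_cancel₀ y hκ0.ne'] at h1
    have h2 : ∫ t in (0 : ℝ)..y, (A - B * t) ^ j =
        κ * ∫ t in (0 : ℝ)..(y / κ), (A - B * (κ * t)) ^ j := by
      rw [h1, ← mul_assoc, mul_inv_cancel₀ hκ0.ne', one_mul]
    have h3 : ∫ t in (0 : ℝ)..(y / κ), (A - B * (κ * t)) ^ j =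
        A ^ j * ∫ t in (0 : ℝ)..(y / κ), (1 - (1 - E) * t) ^ j := by
      rw [← intervalIntegral.integral_const_mul]
      congr 1
      funext t
      rw [← mul_pow]
      congr 1
      linear_combination t * hEA
    rw [h2, h3]
    ring
  have hκκ : κ / κ = 1 := div_self hκ0.ne'
  refine ⟨E, κ, hE0, hE1, hτκ, hκ1, ?_, ?_⟩
  · have h1 := h.mass x hx
    rw [hscale] at hI1 hI2
    rw [hκκ] at hI2
    rw [← hI1, ← hI2] at h1
    have h2 : 0 < κ * A ^ (k + 1) := by (clear * - hκ0 hA; positivity)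
    have h3 : κ * A ^ (k + 1) * ((∫ t in (0 : ℝ)..x, sq t ^ (k + 1)) * LE (k + 1) E 1) =
        κ * A ^ (k + 1) * ((∫ t in (0 : ℝ)..1, sq t ^ (k + 1)) * LE (k + 1) E (τ x / κ)) := by
      linear_combination (-1 : ℝ) * h1
    exact mul_left_cancel₀ h2.ne' h3
  · rw [hscale, hκκ] at hI2 hI3
    rw [← hI2] at hN2
    have pE' := LE_pos k hE0 hE1 zero_lt_one le_rfl
    have hZ := cn_Z_pos (k + 1)
    have h3 := pow_le_pow_left₀ (by (clear * - hκ0 hA pE'; positivity)) hI3 (k + 1)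
    have h4 := mul_le_mul_of_nonneg_right h3
      (show 0 ≤ (∫ t in (0 : ℝ)..1, sq t ^ (k + 1)) ^ k by (clear * - hZ; positivity))
    have h5 := h4.trans hN2
    have h6 : 0 < κ ^ k * A ^ (k * (k + 1)) := by positivity
    have e2 : (κ * A ^ k * LE k E 1) ^ (k + 1) * (∫ t in (0 : ℝ)..1, sq t ^ (k + 1)) ^ k =
        κ ^ k * A ^ (k * (k + 1)) *
          (κ * (LE k E 1 ^ (k + 1) * (∫ t in (0 : ℝ)..1, sq t ^ (k + 1)) ^ k)) := by
      ring
    have e3 : (∫ t in (0 : ℝ)..1, sq t ^ k) ^ (k + 1) *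
        (κ * A ^ (k + 1) * LE (k + 1) E 1) ^ k = κ ^ k * A ^ (k * (k + 1)) *
          ((∫ t in (0 : ℝ)..1, sq t ^ k) ^ (k + 1) * LE (k + 1) E 1 ^ k) := by
      ring
    rw [e2, e3] at h5
    exact le_of_mul_le_mul_left h5 h6

/-- Cell test: `E₀ ≤ E ≤ F`, `κ ≤ κ₁`. -/
theorem LE_cell {m : ℕ} {E F κ κ₁ τ X P Z : ℝ} (hE0 : 0 ≤ E) (hEF : E ≤ F) (hF : F ≤ 1)
    (hτ0 : 0 < τ) (hτκ : τ ≤ κ) (hκ : κ ≤ κ₁) (hX : 0 < X) (hZ : 0 < Z)
    (hP : P * LE m E 1 = Z * LE m E (τ / κ))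
    (htest : X < κ₁ → P * LE m F 1 < Z * LE m F (X / κ₁)) : τ ≤ X := by
  by_contra hcon
  push Not at hcon
  have hκ0 : 0 < κ := hτ0.trans_le hτκ
  have hκ₁ : 0 < κ₁ := hκ0.trans_le hκ
  have hX1 : X < κ₁ := hcon.trans_le (hτκ.trans hκ)
  have h1 := htest hX1
  have hy0 : 0 ≤ τ / κ := by positivity
  have hy1 : τ / κ ≤ 1 := (div_le_one hκ0).2 hτκ
  have h2 := LE_mlr m hE0 hEF hF hy0 hy1
  have pE := LE_pos m hE0 (hEF.trans hF) zero_lt_one le_rfl
  have h3 : LE m F (X / κ₁) ≤ LE m F (τ / κ) := by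
    apply LE_mono m (hE0.trans hEF) hF (by (clear * - hX hκ₁; positivity)) _ hy1
    calc X / κ₁ ≤ τ / κ₁ := by (clear * - hcon hκ₁; gcongr)
      _ ≤ τ / κ := by gcongr
  have h4 := mul_le_mul_of_nonneg_left h2 hZ.le
  have h5 : Z * LE m F (τ / κ) * LE m E 1 ≤ P * LE m F 1 * LE m E 1 := by
    calc Z * LE m F (τ / κ) * LE m E 1 = Z * (LE m F (τ / κ) * LE m E 1) := by ring
      _ ≤ Z * (LE m E (τ / κ) * LE m F 1) := h4
      _ = P * LE m E 1 * LE m F 1 := by rw [hP]; ring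
      _ = _ := by ring
  have h6 := le_of_mul_le_mul_right h5 pE
  have h7 := mul_le_mul_of_nonneg_left h3 hZ.le
  linarith only [h1, h6, h7]

/-- The constraint bounds the truncation point. -/
theorem LE_kap {m : ℕ} (hm : 1 ≤ m) {E E₀ κ κ₁ Z Z' : ℝ} (hE0 : 0 ≤ E₀) (hEE : E₀ ≤ E)
    (hE : E ≤ 1) (hZ : 0 < Z) (hZ' : 0 < Z')
    (hκ : κ * (LE (m - 1) E 1 ^ m * Z ^ (m - 1)) ≤ Z' ^ m * LE m E 1 ^ (m - 1))
    (hκ₁ : Z' ^ m * LE m E₀ 1 ^ (m - 1) ≤ κ₁ * (LE (m - 1) E₀ 1 ^ m * Z ^ (m - 1))) :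
    κ ≤ κ₁ := by
  obtain ⟨k, rfl⟩ : ∃ k, m = k + 1 := ⟨m - 1, by omega⟩
  have e1 : k + 1 - 1 = k := by omega
  rw [e1] at hκ hκ₁
  have h1 := LE_nmono k hE0 hEE hE
  have p1 := LE_pos (k + 1) (hE0.trans hEE) hE zero_lt_one le_rfl
  have p2 := LE_pos k (hE0.trans hEE) hE zero_lt_one le_rfl
  have p3 := LE_pos (k + 1) hE0 (hEE.trans hE) zero_lt_one le_rfl
  have p4 := LE_pos k hE0 (hEE.trans hE) zero_lt_one le_rfl
  have h2 : κ * (LE k E 1 ^ (k + 1) * Z ^ k * LE k E₀ 1 ^ (k + 1)) ≤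
      κ₁ * (LE k E 1 ^ (k + 1) * Z ^ k * LE k E₀ 1 ^ (k + 1)) := by
    calc κ * (LE k E 1 ^ (k + 1) * Z ^ k * LE k E₀ 1 ^ (k + 1))
        = κ * (LE k E 1 ^ (k + 1) * Z ^ k) * LE k E₀ 1 ^ (k + 1) := by ring
      _ ≤ Z' ^ (k + 1) * LE (k + 1) E 1 ^ k * LE k E₀ 1 ^ (k + 1) :=
          mul_le_mul_of_nonneg_right hκ (by positivity)
      _ = Z' ^ (k + 1) * (LE (k + 1) E 1 ^ k * LE k E₀ 1 ^ (k + 1)) := by ring
      _ ≤ Z' ^ (k + 1) * (LE (k + 1) E₀ 1 ^ k * LE k E 1 ^ (k + 1)) :=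
          mul_le_mul_of_nonneg_left h1 (by positivity)
      _ = Z' ^ (k + 1) * LE (k + 1) E₀ 1 ^ k * LE k E 1 ^ (k + 1) := by ring
      _ ≤ κ₁ * (LE k E₀ 1 ^ (k + 1) * Z ^ k) * LE k E 1 ^ (k + 1) :=
          mul_le_mul_of_nonneg_right hκ₁ (by (clear * - p2; positivity))
      _ = _ := by ring
  exact le_of_mul_le_mul_right h2 (by (clear * - p2 hZ p4; positivity))

end Vale.Agent.P237.AllN
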