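import Vale.Agent.P237.AllN.U15In
import Vale.Agent.P237.AllN.Brid10

/-!
# P237, uniform plain certificate (`m ≥ 15`): assembly
-/

open MeasureTheory Metric Set Module Filter Topology

namespace Vale.Agent.P237.AllN

/-- the normalized pointwise functional without the potential: `Y = (m-1) x²/s²`, `v = log (1+u)`,
`c` = correction term divided by `x²/s²` -/
noncomputable def u15F (m s Y l u lam v c : ℝ) : ℝ :=
  (m + 1) / Y * (v - u / (1 + u)) + (s ^ 2 * (1 + 2 * s) / (1 + s) ^ 2 - 2 / Y) * (u ^ 2 / (1 + u)) -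
    9 / Y * lam * (u - v) - 3 * l * (u ^ 2 / (1 + u)) + 9 / 2 * (lam ^ 2 - (l - lam) ^ 2) +
    3 / 2 * ((m - 3) / (m - 1)) * Y * l ^ 2 + c

/-- the normalized potential term for `Y < 2` -/
noncomputable def u15HL (m Y l u lam : ℝ) : ℝ :=
  8 * u * (l - lam) / (2 - Y) +
    (4 * (1 - Y) / (2 - Y) + 16 * (1 + Y / (m - 1)) / (2 - Y) ^ 2) * (l - lam) ^ 2

/-- the normalized potential term for `Y > 2` -/
noncomputable def u15HR (m Y l u lam : ℝ) : ℝ :=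
  -(4 * (Y + 2) * u * (l - lam) / (Y * (Y - 2))) +
    (2 * (Y + 2) * (Y - 1) / (Y * (Y - 2)) + 16 * (1 + Y / (m - 1)) / (Y - 2) ^ 2) * (l - lam) ^ 2

/-- algebra of the normalization (without potential) -/
theorem u15_normT {m x s l u lam v F : ℝ} (hm : 3 < m) (_hx : 0 < x) (hs : 0 < s)
    (hxs : x ^ 2 + s ^ 2 = 1) (hu : 0 < 1 + u) :
    (m - 1) / (m + 1) * (2 * (1 - s ^ 2 / (1 + s)) - 3 * (x ^ 2 / s ^ 2) * l) * (u ^ 2 / (1 + u)) -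
      (1 + 9 * lam / (m + 1)) * (u - v) +
      (m - 1) * (x ^ 2 / s ^ 2) * ((1 + 9 * lam / (m + 1)) - 1) * l -
      3 / 2 * ((m - 1) / (m + 1)) * (x ^ 2 / s ^ 2) * (3 - (m - 3) * (x ^ 2 / s ^ 2)) * l ^ 2 +
      (m - 1) / (m + 1) * F =
    ((m - 1) * (x ^ 2 / s ^ 2)) / (m + 1) *
      u15F m s ((m - 1) * (x ^ 2 / s ^ 2)) l u lam v (F / (x ^ 2 / s ^ 2)) := by
  have h1 : m - 1 ≠ 0 := by linarith only [hm]
  have h2 : m + 1 ≠ 0 := by linarith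
  have h3 : 1 + s ≠ 0 := by positivity
  have h4 : 1 + u ≠ 0 := hu.ne'
  have e1 : 1 - s ^ 2 / (1 + s) = 1 / 2 + x ^ 2 * (1 + 2 * s) / (2 * (1 + s) ^ 2) := by
    rw [show x ^ 2 = 1 - s ^ 2 by linarith]
    field_simp
    ring
  rw [e1]
  unfold u15F
  field_simp
  ring

theorem u15_normHL {m x s l u lam Y x₀ : ℝ} (hm : 3 < m) (_hx : 0 < x) (hs : 0 < s)
    (hxs : x ^ 2 + s ^ 2 = 1) (h0 : x₀ ^ 2 = 2 / (m + 1)) (hY : Y = (m - 1) * (x ^ 2 / s ^ 2))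
    (h : x ^ 2 < x₀ ^ 2) :
    ((2 * (4 * (m - 1) / (m + 1) ^ 2) * (x ^ 2 * x₀ ^ 2 / (x₀ ^ 2 - x ^ 2) ^ 2) + x * 0) *
          (l - lam) ^ 2 +
        2 * ((4 * (m - 1) / (m + 1) ^ 2) * (x ^ 2 / (x₀ ^ 2 - x ^ 2)) + 0) * (l - lam) * u +
        x * 0 * lam * (l - lam) + 0 * lam * u +
        x * 0 * lam ^ 2 + (1 - (m - 1) * (x ^ 2 / s ^ 2)) *
          (((4 * (m - 1) / (m + 1) ^ 2) * (x ^ 2 / (x₀ ^ 2 - x ^ 2)) + 0) * (l - lam) ^ 2 +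
            0 * lam * (l - lam) + 0 * lam ^ 2)) = Y / (m + 1) * u15HL m Y l u lam := by
  have h1 : m - 1 ≠ 0 := by linarith only [hm]
  have h2 : m + 1 ≠ 0 := by linarith only [hm]
  have hs2 : s ^ 2 = 1 - x ^ 2 := by linarith only [hxs]
  have hx1 : 1 - x ^ 2 ≠ 0 := by rw [← hs2]; positivity
  have h3 : 2 - (m + 1) * x ^ 2 ≠ 0 := by
    rw [h0, lt_div_iff₀ (by linarith only [hm])] at h
    linarith only [h]
  have e2 : x₀ ^ 2 - x ^ 2 = (2 - (m + 1) * x ^ 2) / (m + 1) := by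
    rw [h0]; field_simp
  have e3 : 2 - Y = (2 - (m + 1) * x ^ 2) / (1 - x ^ 2) := by
    rw [hY, hs2]; field_simp; ring
  unfold u15HL
  rw [e3, e2, h0, hY, hs2]
  field_simp
  ring

theorem u15_normHR {m x s l u lam Y x₀ : ℝ} (hm : 3 < m) (hx : 0 < x) (hs : 0 < s)
    (hxs : x ^ 2 + s ^ 2 = 1) (h0 : x₀ ^ 2 = 2 / (m + 1)) (hY : Y = (m - 1) * (x ^ 2 / s ^ 2))
    (h : x₀ ^ 2 < x ^ 2) :
    ((2 * (4 * (m - 1) / (m + 1) ^ 2) * (x ^ 2 * x₀ ^ 2 / (x ^ 2 - x₀ ^ 2) ^ 2) + x * 0) *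
          (l - lam) ^ 2 +
        2 * (-((4 * (m - 1) / (m + 1) ^ 2) * (x ^ 2 / (x ^ 2 - x₀ ^ 2))) + 2 / (m + 1)) *
          (l - lam) * u +
        x * 0 * lam * (l - lam) + 0 * lam * u +
        x * 0 * lam ^ 2 + (1 - (m - 1) * (x ^ 2 / s ^ 2)) *
          ((-((4 * (m - 1) / (m + 1) ^ 2) * (x ^ 2 / (x ^ 2 - x₀ ^ 2))) + 2 / (m + 1)) *
            (l - lam) ^ 2 + 0 * lam * (l - lam) + 0 * lam ^ 2)) =
      Y / (m + 1) * u15HR m Y l u lam := by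
  have h1 : m - 1 ≠ 0 := by linarith only [hm]
  have h2 : m + 1 ≠ 0 := by linarith only [hm]
  have hs2 : s ^ 2 = 1 - x ^ 2 := by linarith only [hxs]
  have hx1 : 1 - x ^ 2 ≠ 0 := by rw [← hs2]; positivity
  have h3 : (m + 1) * x ^ 2 - 2 ≠ 0 := by
    rw [h0, div_lt_iff₀ (by linarith only [hm])] at h
    (clear * - h; linarith)
  have e2 : x ^ 2 - x₀ ^ 2 = ((m + 1) * x ^ 2 - 2) / (m + 1) := by
    rw [h0]; (clear * - h2; field_simp)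
  have e3 : Y - 2 = ((m + 1) * x ^ 2 - 2) / (1 - x ^ 2) := by
    rw [hY, hs2]; field_simp; ring
  unfold u15HR
  rw [e3, e2, h0, hY, hs2]
  field_simp
  ring

/-- value of the correction term divided by `x²/s²` -/
noncomputable def u15c (x l : ℝ) : ℝ :=
  (sq x * (bg (x * Real.exp l) - bg x) + x ^ 2 * l / (1 + sq x) ^ 2) / (x ^ 2 / sq x ^ 2)

/-- the left inequality, `Y = (m-1) x²/s² < 2` -/
def U15Left (m : ℕ) : Prop := ∀ x l u lam : ℝ, U15In m x l u lam → ((m : ℝ) + 1) * x ^ 2 < 2 →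
  1 / 10 * (u ^ 2 / (1 + u)) / (((m : ℝ) - 1) * (x ^ 2 / sq x ^ 2)) ≤
    u15F m (sq x) (((m : ℝ) - 1) * (x ^ 2 / sq x ^ 2)) l u lam (Real.log (1 + u)) (u15c x l) +
      u15HL m (((m : ℝ) - 1) * (x ^ 2 / sq x ^ 2)) l u lam

/-- the right inequality, `Y = (m-1) x²/s² > 2` -/
def U15Right (m : ℕ) : Prop := ∀ x l u lam : ℝ, U15In m x l u lam → 2 < ((m : ℝ) + 1) * x ^ 2 →
  1 / 10 * (u ^ 2 / (1 + u)) / (((m : ℝ) - 1) * (x ^ 2 / sq x ^ 2)) ≤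
    u15F m (sq x) (((m : ℝ) - 1) * (x ^ 2 / sq x ^ 2)) l u lam (Real.log (1 + u)) (u15c x l) +
      u15HR m (((m : ℝ) - 1) * (x ^ 2 / sq x ^ 2)) l u lam

/-- the plain tangent pair of `kA`, form used by the certificate -/
theorem u15_line {m : ℕ} {r τ τ' T : ℝ → ℝ} (h : IsTrans m r τ τ' T) {x : ℝ}
    (hx : x ∈ Ioo (0 : ℝ) 1) {b : ℝ}
    (hs : kAc x (lf τ x) + kAp x (lf τ x) * b ≤ kA (τ x) b) :
    bc0 (sq x) (lf τ x) + τ x * bM0 (sq x) (lf τ x) * b ≤ kA (τ x) b := by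
  rw [kAc_bc0 hx, kAp_bM0, pin_exp h hx] at hs
  exact hs

/-- **`OneD m` from the two pointwise inequalities, the sign bounds and the tangent pair**,
`15 ≤ m ≤ 26`: `l ≤ l** = (1-x²)(127/200+33/200x²)` and, for `m ≤ 22`,
`l ≤ l* = (1-x²)(31/50+7/50x²)`. -/
theorem oneD_u15 {m : ℕ} (hm : 15 ≤ m) (hm' : m ≤ 26)
    (hsgn : ∀ r τ τ' T : ℝ → ℝ, IsProf r → IsTrans m r τ τ' T →
      (∫ y in (-1 : ℝ)..1, r y ^ (m - 1)) ^ m * aInt m ^ (m - 1) ≤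
        aInt (m - 1) ^ m * (∫ y in (-1 : ℝ)..1, r y ^ m) ^ (m - 1) →
      ∀ x ∈ Ioo (0 : ℝ) 1, lf τ x ≤ (1 - x ^ 2) * (127 / 200 + 33 / 200 * x ^ 2) ∧
        (m ≤ 22 → lf τ x ≤ (1 - x ^ 2) * (31 / 50 + 7 / 50 * x ^ 2)) ∧
        ∀ b ∈ Icc (-1 : ℝ) 1, kAc x (lf τ x) + kAp x (lf τ x) * b ≤ kA (τ x) b)
    (hL : U15Left m) (hR : U15Right m) : OneD m := by
  have hmr : (15 : ℝ) ≤ m := by exact_mod_cast hm
  have hm1 : (m : ℝ) + 1 ≠ 0 := by positivity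
  refine oneD_of_cert (by omega) kA_kern2 (fun x hx b hb => kA_line_ball hx hb) ?_
  intro r τ τ' T hr hT hN
  set x₀ : ℝ := Real.sqrt (2 / ((m : ℝ) + 1)) with hx₀d
  have h0 : x₀ ^ 2 = 2 / ((m : ℝ) + 1) := Real.sq_sqrt (by positivity)
  have hx₀ : x₀ ∈ Ioo (0 : ℝ) 1 := by
    refine ⟨Real.sqrt_pos.2 (by positivity), ?_⟩
    rw [hx₀d, Real.sqrt_lt' one_pos, one_pow, div_lt_one (by positivity)]
    linarith only [hmr]
  have hs := hsgn r τ τ' T hr hT hN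
  have hin : ∀ x ∈ Ioo (0 : ℝ) 1, U15In m x (lf τ x) (uf τ τ' x) (lf τ x₀) := fun x hx =>
    hT.u15In hm hm' hr hx₀ h0 (fun x hx => (hs x hx).1) (fun h22 x hx => (hs x hx).2.1 h22) hx
  have hμ : 0 ≤ 1 + 9 * lf τ x₀ / ((m : ℝ) + 1) := by
    have := (hin x₀ hx₀).lamlo
    rw [← neg_le_iff_add_nonneg', le_div_iff₀ (by positivity)]
    linarith only [this]
  have hfin : ∀ x ∈ Ioo (0 : ℝ) 1, ∀ H : ℝ,
      1 / 10 * (uf τ τ' x ^ 2 / (1 + uf τ τ' x)) / (((m : ℝ) - 1) * (x ^ 2 / sq x ^ 2)) ≤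
        u15F m (sq x) (((m : ℝ) - 1) * (x ^ 2 / sq x ^ 2)) (lf τ x) (uf τ τ' x) (lf τ x₀)
          (Real.log (1 + uf τ τ' x)) (u15c x (lf τ x)) + H →
      1 / (10 * ((m : ℝ) + 1)) * (uf τ τ' x ^ 2 / (1 + uf τ τ' x)) ≤
        brTlog m τ τ' (1 + 9 * lf τ x₀ / ((m : ℝ) + 1)) x + 0 +
          ((m : ℝ) - 1) * (x ^ 2 / sq x ^ 2) / ((m : ℝ) + 1) * H := by
    intro x hx H hH
    have hs0 : 0 < sq x := sqx_pos hx
    have hxs : x ^ 2 + sq x ^ 2 = 1 := by rw [sqx_sq hx]; ring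
    have hu : 0 < 1 + uf τ τ' x := uf_pos hT hx
    have hY : 0 < ((m : ℝ) - 1) * (x ^ 2 / sq x ^ 2) := by
      have := hx.1
      have h3 : 0 < (m : ℝ) - 1 := by linarith only [hmr]
      (clear * - h3 this hs0; positivity)
    have e := u15_normT (m := m) (x := x) (s := sq x) (l := lf τ x) (u := uf τ τ' x)
      (lam := lf τ x₀) (v := Real.log (1 + uf τ τ' x))
      (F := sq x * (bg (x * Real.exp (lf τ x)) - bg x) + x ^ 2 * lf τ x / (1 + sq x) ^ 2)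
      (by linarith only [hmr]) hx.1 hs0 hxs hu
    have e' : brTlog m τ τ' (1 + 9 * lf τ x₀ / ((m : ℝ) + 1)) x =
        ((m : ℝ) - 1) * (x ^ 2 / sq x ^ 2) / ((m : ℝ) + 1) *
          u15F m (sq x) (((m : ℝ) - 1) * (x ^ 2 / sq x ^ 2)) (lf τ x) (uf τ τ' x) (lf τ x₀)
            (Real.log (1 + uf τ τ' x)) (u15c x (lf τ x)) := by
      unfold u15c
      rw [← e]
      unfold brTlog bγ
      rw [pin_exp hT hx]
    rw [e', add_zero, ← mul_add]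
    have h4 : 1 / (10 * ((m : ℝ) + 1)) * (uf τ τ' x ^ 2 / (1 + uf τ τ' x)) =
        ((m : ℝ) - 1) * (x ^ 2 / sq x ^ 2) / ((m : ℝ) + 1) *
          (1 / 10 * (uf τ τ' x ^ 2 / (1 + uf τ τ' x)) / (((m : ℝ) - 1) * (x ^ 2 / sq x ^ 2))) := by
      generalize ((m : ℝ) - 1) * (x ^ 2 / sq x ^ 2) = Y at hY
      generalize uf τ τ' x ^ 2 / (1 + uf τ τ' x) = U
      (clear * - hY hm1; field_simp)
    rw [h4]
    exact mul_le_mul_of_nonneg_left hH (by (clear * - hY hm; positivity))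
  refine cert_pole_log (by omega) kA_kern2 hr hT hN (XPair.zero m τ τ')
    (fun x hx b hb => by
      rw [add_zero, add_zero]
      exact u15_line hT hx ((hs x hx).2.2 b hb))
    hμ hx₀ (4 * ((m : ℝ) - 1) / ((m : ℝ) + 1) ^ 2) (4 * ((m : ℝ) - 1) / ((m : ℝ) + 1) ^ 2)
    (gL := fun _ => 0) (gL' := fun _ => 0) (gR := fun _ => 2 / ((m : ℝ) + 1)) (gR' := fun _ => 0)
    (eL := fun _ => 0) (eL' := fun _ => 0) (eR := fun _ => 0) (eR' := fun _ => 0)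
    (f := fun _ => 0) (f' := fun _ => 0)
    (fun x _ => hasDerivAt_const x _) continuousOn_const (fun x _ => hasDerivAt_const x _)
    continuousOn_const (fun x _ => hasDerivAt_const x _) continuousOn_const
    (fun x _ => hasDerivAt_const x _) continuousOn_const (fun x _ => hasDerivAt_const x _)
    continuousOn_const (ε := 1 / (10 * ((m : ℝ) + 1))) (by positivity) ?_ ?_
  · intro x hx hlt
    have hs0 : 0 < sq x := sqx_pos hx
    have hxs : x ^ 2 + sq x ^ 2 = 1 := by rw [sqx_sq hx]; ring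
    have h2 : x ^ 2 < x₀ ^ 2 := pow_lt_pow_left₀ hlt hx.1.le two_ne_zero
    rw [u15_normHL (by linarith only [hmr]) hx.1 hs0 hxs h0 rfl h2]
    refine hfin x hx _ (hL x _ _ _ (hin x hx) ?_)
    rw [h0, lt_div_iff₀ (by positivity)] at h2
    linarith only [h2]
  · intro x hx hlt
    have hs0 : 0 < sq x := sqx_pos hx
    have hxs : x ^ 2 + sq x ^ 2 = 1 := by rw [sqx_sq hx]; ring
    have h2 : x₀ ^ 2 < x ^ 2 := pow_lt_pow_left₀ hlt hx₀.1.le two_ne_zero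
    rw [u15_normHR (by linarith only [hmr]) hx.1 hs0 hxs h0 rfl h2]
    refine hfin x hx _ (hR x _ _ _ (hin x hx) ?_)
    rw [h0, div_lt_iff₀ (by positivity)] at h2
    linarith only [h2]

end Vale.Agent.P237.AllN
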