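import Vale.Agent.P237.AllN.U15LB
import Vale.Agent.P237.AllN.LStar2
import Vale.Agent.P237.AllN.SgnLL

/-!
# P237, block C: `OneD m` for `15 ≤ m ≤ 26` from the right inequality
-/

open MeasureTheory Metric Set Module Filter Topology

namespace Vale.Agent.P237.AllN

theorem oneD_u15_of_right {m : ℕ} (hm : 15 ≤ m) (hm' : m ≤ 26) (hR : U15Right m) : OneD m := by
  refine oneD_u15 hm hm' ?_ (u15_left_ok hm) hR
  intro r τ τ' T hr h hN x hx
  have h2 := h.log_le_lstar2 (by omega) hm' hr hN hx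
  exact ⟨h2, fun h22 => h.log_le_lstar (by omega) h22 hr hN hx,
    fun b hb => h.kA_plain_le2 hx h2 hb⟩

end Vale.Agent.P237.AllN
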