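import Vale.Agent.P237.AllN.PcIn
import Vale.Agent.P237.AllN.CorrU

/-!
# P237, uniform plain certificate (`m ≥ 15`): the inputs of the pointwise inequality
-/

open MeasureTheory Set Finset

namespace Vale.Agent.P237.AllN

section

variable {m : ℕ} {r τ τ' T : ℝ → ℝ} {x : ℝ}

/-! ### the correction term -/

/-- near `0` the correction is at least `-(1/2) y l²` -/
theorem u15_corr_half {l : ℝ} (hx : x ∈ Ioo (0 : ℝ) 1) (h1 : x * Real.exp l ≤ 1)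
    (hs : l ≤ sq x ^ 2 * (31 / 50 + 7 / 50 * x ^ 2)) (h8 : x ^ 2 ≤ 1 / 8) :
    -(1 / 2 * (x ^ 2 / sq x ^ 2)) * l ^ 2 ≤
      sq x * (bg (x * Real.exp l) - bg x) + x ^ 2 * l / (1 + sq x) ^ 2 := by
  refine le_trans ?_ (Vale.Agent.P237.AllN.Corr.corr_A hx.1 (by linarith only [h8]) h1 hs)
  have h2 : 0 ≤ x ^ 2 / sq x ^ 2 := by (clear * -; positivity)
  have h3 : 0 ≤ x ^ 2 := by positivity
  have h4 : (x ^ 2) ^ 3 ≤ (1 / 8) ^ 3 := pow_le_pow_left₀ h3 h8 3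
  have h5 : (2 / 5 + 13 * x ^ 2 / 20 + 22 * (x ^ 2) ^ 3 / 5) * (x ^ 2 / sq x ^ 2) ≤
      1 / 2 * (x ^ 2 / sq x ^ 2) := by
    apply mul_le_mul_of_nonneg_right _ h2
    linarith only [h8, h4]
  nlinarith only [h5]

/-! ### the slope constant -/

theorem u15_am_ge (m : ℕ) : Real.pi / (2 * ((m : ℝ) + 2)) ≤ Slope.am m ^ 2 := by
  rw [Slope.am_eq]
  have h := Slope.J_sq_ge (m + 1)
  push_cast at h
  refine le_trans (le_of_eq ?_) h
  ring_nf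

theorem u15_am_le (m : ℕ) : Slope.am m ^ 2 ≤ Real.pi / (2 * ((m : ℝ) + 1)) := by
  rw [Slope.am_eq]
  exact Slope.J_sq_le m

/-- `k² ≤ (17/100) (m-1)` -/
theorem u15_k_sq (hm : 15 ≤ m) :
    ((m : ℝ) / (2 * ((m : ℝ) + 1) * Slope.am m)) ^ 2 ≤ 17 / 100 * ((m : ℝ) - 1) := by
  have hm' : (15 : ℝ) ≤ m := by exact_mod_cast hm
  have hA := Slope.am_pos m
  have h1 := u15_am_ge m
  rw [div_le_iff₀ (by positivity)] at h1
  have hπ := Real.pi_gt_d4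
  rw [div_pow, div_le_iff₀ (by (clear * - hm hA; positivity))]
  -- m² ≤ .17 (m-1) 4 (m+1)² am²
  have h2 : (m : ℝ) ^ 2 * (2 * ((m : ℝ) + 2)) ≤
      17 / 100 * ((m : ℝ) - 1) * (4 * ((m : ℝ) + 1) ^ 2) * 3.1415 := by
    nlinarith only [hm']
  have h3 : 0 ≤ 17 / 100 * ((m : ℝ) - 1) * (4 * ((m : ℝ) + 1) ^ 2) := by
    have : 0 ≤ (m : ℝ) - 1 := by linarith only [hm']
    (clear * - this hm; positivity)
  have h4 : (m : ℝ) ^ 2 * (2 * ((m : ℝ) + 2)) ≤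
      (17 / 100 * ((m : ℝ) - 1) * (2 * ((m : ℝ) + 1) * Slope.am m) ^ 2) * (2 * ((m : ℝ) + 2)) := by
    calc (m : ℝ) ^ 2 * (2 * ((m : ℝ) + 2))
        ≤ 17 / 100 * ((m : ℝ) - 1) * (4 * ((m : ℝ) + 1) ^ 2) * 3.1415 := h2
      _ ≤ 17 / 100 * ((m : ℝ) - 1) * (4 * ((m : ℝ) + 1) ^ 2) *
          (Slope.am m ^ 2 * (2 * ((m : ℝ) + 2))) :=
          mul_le_mul_of_nonneg_left (hπ.le.trans h1) h3
      _ = _ := by ring
  exact le_of_mul_le_mul_right h4 (by positivity)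

/-- `u² ≤ (17/100) (m-1) x²/s²` for `u ≥ 0` -/
theorem IsTrans.u15_uk (hm : 15 ≤ m) (hr : IsProf r) (h : IsTrans m r τ τ' T)
    (hx : x ∈ Ioo (0 : ℝ) 1) (hu : 0 ≤ uf τ τ' x) :
    uf τ τ' x ^ 2 ≤ 17 / 100 * (((m : ℝ) - 1) * (x ^ 2 / sq x ^ 2)) := by
  have h1 := h.pin_h4 (by omega) hr hx
  have h2 := u15_k_sq hm
  have hs := sl_sq_pos (mem_neg hx)
  have h3 : (uf τ τ' x * sq x) ^ 2 ≤ ((m : ℝ) / (2 * ((m : ℝ) + 1) * Slope.am m) * x) ^ 2 :=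
    pow_le_pow_left₀ (mul_nonneg hu hs.le) h1 2
  have h4 : uf τ τ' x ^ 2 * sq x ^ 2 ≤ 17 / 100 * ((m : ℝ) - 1) * x ^ 2 := by
    calc uf τ τ' x ^ 2 * sq x ^ 2 = (uf τ τ' x * sq x) ^ 2 := by ring
      _ ≤ _ := h3
      _ = ((m : ℝ) / (2 * ((m : ℝ) + 1) * Slope.am m)) ^ 2 * x ^ 2 := by ring
      _ ≤ _ := mul_le_mul_of_nonneg_right h2 (sq_nonneg x)
  have h5 : 17 / 100 * (((m : ℝ) - 1) * (x ^ 2 / sq x ^ 2)) =
      (17 / 100 * ((m : ℝ) - 1) * x ^ 2) / sq x ^ 2 := by ring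
  rw [h5, le_div_iff₀ (by positivity)]
  exact h4

/-! ### bounds for `lam = l(x₀)`, `x₀² = 2/(m+1)` -/

/-- `s^m ≥ 1 - (m/2) t²` -/
theorem u15_bern (hm : 2 ≤ m) {t : ℝ} (ht : t ∈ Icc (0 : ℝ) 1) :
    1 - (m : ℝ) / 2 * t ^ 2 ≤ sq t ^ m := by
  have h1 := pin_sq_sq ht
  have h0 := sl_sq_nonneg t
  have hm' : (2 : ℝ) ≤ m := by exact_mod_cast hm
  have h2 : (1 : ℝ) + (m : ℝ) / 2 * (-t ^ 2) ≤ (1 + -t ^ 2) ^ ((m : ℝ) / 2) :=
    one_add_mul_self_le_rpow_one_add (by nlinarith only [h1]) (by linarith only [hm'])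
  have h3 : (1 + -t ^ 2) ^ ((m : ℝ) / 2) = sq t ^ m := by
    rw [show (1 : ℝ) + -t ^ 2 = sq t ^ (2 : ℝ) by rw [Real.rpow_two, h1]; ring,
      ← Real.rpow_mul h0, show (2 : ℝ) * ((m : ℝ) / 2) = m by ring, Real.rpow_natCast]
  linarith only [h2, h3]

theorem u15_P (hm : 15 ≤ m) {x₀ : ℝ} (hx : x₀ ∈ Ioo (0 : ℝ) 1) (h0 : x₀ ^ 2 = 2 / ((m : ℝ) + 1)) :
    (1 - 1 / 4) * (∫ t in (0 : ℝ)..1, sq t ^ m) ≤ ∫ t in (0 : ℝ)..x₀, sq t ^ m := by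
  have hm' : (15 : ℝ) ≤ m := by exact_mod_cast hm
  have h1 := pin_P_ge (m := m) (x := x₀) 2 (fun i => if i = 0 then 1 else -((m : ℝ) / 2)) hx.1.le
    (by
      intro t ht
      have := u15_bern (m := m) (by omega) (t := t) ⟨ht.1, ht.2.trans hx.2.le⟩
      simp only [Finset.sum_range_succ, Finset.sum_range_zero]
      norm_num
      linarith only [this])
  simp only [Finset.sum_range_succ, Finset.sum_range_zero] at h1
  norm_num at h1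
  refine le_trans ?_ h1
  have hA := Slope.am_pos m
  have h2 := u15_am_le m
  rw [pin_am, h0]
  -- (3/4) am ≤ x₀ * (1 - m/(3(m+1)))
  have h3 : Slope.am m ^ 2 ≤ (Real.pi / 4) * x₀ ^ 2 := by
    rw [h0]; refine h2.trans (le_of_eq ?_); field_simp; ring
  have h4 : (3 / 4 * Slope.am m) ^ 2 ≤ (2 / 3 * x₀) ^ 2 := by
    have hπ := Real.pi_lt_d4
    nlinarith only [h3, hπ]
  have h5 : 3 / 4 * Slope.am m ≤ 2 / 3 * x₀ :=
    le_of_sq_le_sq h4 (by have := hx.1; positivity)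
  have h6 : (2 : ℝ) / 3 ≤ 1 + -((m : ℝ) / 2 * (2 / ((m : ℝ) + 1))) / 3 := by
    rw [show (1 : ℝ) + -((m : ℝ) / 2 * (2 / ((m : ℝ) + 1))) / 3 = 1 - (m : ℝ) / (3 * ((m : ℝ) + 1)) by
      field_simp; ring]
    rw [le_sub_iff_add_le, ← le_sub_iff_add_le', div_le_iff₀ (by positivity)]
    linarith only []
  have h7 := mul_le_mul_of_nonneg_left h6 hx.1.le
  linarith only [h5, h7]

theorem u15_exp_lin {v : ℝ} (hv : 16 ≤ v) : 2 * v ≤ Real.exp (2 * v / 9) := by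
  have h1 : (32 : ℝ) ≤ Real.exp (32 / 9) := by
    have h2 : (1.559 : ℝ) ≤ Real.exp (4 / 9) := by
      have := Real.sum_le_exp_of_nonneg (x := 4 / 9) (by norm_num) 5
      simp only [Finset.sum_range_succ, Finset.sum_range_zero, Nat.factorial] at this
      norm_num at this
      linarith only [this]
    have h3 : Real.exp (32 / 9) = Real.exp (4 / 9) ^ 8 := by
      rw [← Real.exp_nat_mul]; norm_num
    rw [h3]
    calc (32 : ℝ) ≤ 1.559 ^ 8 := by norm_num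
      _ ≤ _ := pow_le_pow_left₀ (by norm_num) h2 8
  have h4 := Real.add_one_le_exp (2 * v / 9 - 32 / 9)
  have h5 : Real.exp (2 * v / 9) = Real.exp (32 / 9) * Real.exp (2 * v / 9 - 32 / 9) := by
    rw [← Real.exp_add]; ring_nf
  rw [h5]
  calc 2 * v ≤ 32 * (2 * v / 9 - 32 / 9 + 1) := by linarith only [hv]
    _ ≤ Real.exp (32 / 9) * Real.exp (2 * v / 9 - 32 / 9) :=
      mul_le_mul h1 h4 (by linarith only [hv]) (Real.exp_pos _).le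

theorem u15_exp_four : Real.exp (4 / 3) < 4 := by
  have h1 : Real.exp (4 / 3) ^ 3 < 4 ^ 3 := by
    rw [← Real.exp_nat_mul]
    have h2 : Real.exp ((3 : ℕ) * (4 / 3)) = Real.exp 1 ^ 4 := by
      rw [← Real.exp_nat_mul]; norm_num
    rw [h2]
    calc Real.exp 1 ^ 4 < 2.8 ^ 4 := by
          apply pow_lt_pow_left₀ _ (Real.exp_pos _).le (by norm_num)
          linarith only [Real.exp_one_lt_d9]
      _ < 4 ^ 3 := by norm_num
  exact lt_of_pow_lt_pow_left₀ 3 (by norm_num) h1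

/-- `lam ≥ -(m+1)/9`, i.e. the multiplier `1 + 9 lam/(m+1)` is nonnegative -/
theorem IsTrans.u15_lam_ge (hm : 15 ≤ m) (hr : IsProf r) (h : IsTrans m r τ τ' T) {x₀ : ℝ}
    (hx : x₀ ∈ Ioo (0 : ℝ) 1) (h0 : x₀ ^ 2 = 2 / ((m : ℝ) + 1)) :
    -(((m : ℝ) + 1) / 9) ≤ lf τ x₀ := by
  have hm' : (15 : ℝ) ≤ m := by exact_mod_cast hm
  set c := ((m : ℝ) + 1) / 9 with hc
  set t := x₀ * Real.exp (-c) with ht
  have ht0 : 0 < t := mul_pos hx.1 (Real.exp_pos _)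
  have h1 : ((m : ℝ) + 1) * t ≤ 1 := by
    have h2 := u15_exp_lin (v := (m : ℝ) + 1) (by linarith only [hm'])
    have h3 : (((m : ℝ) + 1) * t) ^ 2 ≤ 1 ^ 2 := by
      have e1 : Real.exp (-c) ^ 2 = (Real.exp (2 * ((m : ℝ) + 1) / 9))⁻¹ := by
        rw [← Real.exp_neg, ← Real.exp_nat_mul, hc]
        congr 1
        push_cast
        ring
      have e2 : (((m : ℝ) + 1) * t) ^ 2 =
          (2 * ((m : ℝ) + 1)) * (Real.exp (2 * ((m : ℝ) + 1) / 9))⁻¹ := by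
        rw [ht, mul_pow, mul_pow, h0, e1]
        (clear * - hm; field_simp)
      rw [e2, one_pow, ← div_eq_mul_inv, div_le_one (Real.exp_pos _)]
      exact h2
    exact le_of_sq_le_sq h3 zero_le_one
  have h4 : t ≤ 1 / 16 := by
    rw [le_div_iff₀ (by norm_num)]
    nlinarith only [hm', h1]
  refine h.pin_ge_of hr hx (c := c) (ρ := 1 - t) (Q := 1 / 4) (by linarith only [h4]) ?_ (u15_P hm hx h0) ?_
  · have h5 : 1 - (1 - t)⁻¹ ≤ Real.log (1 - t) := Real.one_sub_inv_le_log_of_pos (by linarith only [h4])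
    have h6 : -(4 / 3) ≤ ((m : ℝ) + 1) * Real.log (1 - t) := by
      have h7 : (1 - (1 - t)⁻¹) = -(t / (1 - t)) := by
        have : 1 - t ≠ 0 := by linarith only [h4]
        field_simp
        ring
      rw [h7] at h5
      have h8 : ((m : ℝ) + 1) * (t / (1 - t)) ≤ 4 / 3 := by
        rw [← mul_div_assoc, div_le_iff₀ (by linarith only [h4])]
        linarith only [h1, h4]
      nlinarith only [h8, h5]
    have h9 : (1 - t) ^ (m + 1) = Real.exp (((m : ℝ) + 1) * Real.log (1 - t)) := by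
      rw [← Real.rpow_natCast, Real.rpow_def_of_pos (by linarith only [h4])]
      push_cast
      ring_nf
    rw [h9]
    calc (1 : ℝ) / 4 < (Real.exp (4 / 3))⁻¹ := by
          rw [one_div]
          exact inv_strictAnti₀ (Real.exp_pos _) u15_exp_four
      _ = Real.exp (-(4 / 3)) := (Real.exp_neg _).symm
      _ ≤ _ := Real.exp_le_exp.2 h6
  · have : Real.exp (-c) * Real.exp c = 1 := by rw [← Real.exp_add]; simp
    rw [sub_sub_cancel, ht, mul_assoc, this, mul_one]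

/-- `lam ≤ 3/5` from the sign bound at `x₀` (`m ≤ 26`) -/
theorem u15_lam_le (hm' : m ≤ 26) {x₀ lam : ℝ} (h0 : x₀ ^ 2 = 2 / ((m : ℝ) + 1))
    (hs : lam ≤ (1 - x₀ ^ 2) * (127 / 200 + 33 / 200 * x₀ ^ 2)) : lam ≤ 3 / 5 := by
  have h1 : (m : ℝ) ≤ 26 := by exact_mod_cast hm'
  have h2 : (2 : ℝ) / 27 ≤ x₀ ^ 2 := by
    rw [h0]
    exact div_le_div_of_nonneg_left (by norm_num) (by (clear * -; positivity)) (by linarith only [h1])
  have h3 := cu_mono (z := x₀ ^ 2) (z0 := 2 / 27) (by norm_num) h2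
  norm_num at h3
  (clear * - hs h3; linarith)

/-! ### the inputs -/

/-- The information on `(x, l, u, lam)`; `l = log (τ x / x)`, `u = x τ' x / τ x - 1`, `lam = l(x₀)`,
`x₀² = 2/(m+1)`. -/
structure U15In (m : ℕ) (x l u lam : ℝ) : Prop where
  hm : 15 ≤ m
  hx : x ∈ Ioo (0 : ℝ) 1
  hu : 0 < 1 + u
  tau1 : x * Real.exp l ≤ 1
  Es : sq x ^ m ≤ 1 + u
  us : u * sq x ≤ 1
  uk : 0 ≤ u → u ^ 2 ≤ 17 / 100 * (((m : ℝ) - 1) * (x ^ 2 / sq x ^ 2))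
  tail : (1 + (1 + u) * sq x ^ 2 / (((m : ℝ) + 2) - ((m : ℝ) + 1) * sq x ^ 2)) *
    (x * Real.exp l) ≤ 1
  sgn : l ≤ (1 - x ^ 2) * (127 / 200 + 33 / 200 * x ^ 2)
  corr2 : -(2 * (x ^ 2 / sq x ^ 2)) * l ^ 2 ≤
    sq x * (bg (x * Real.exp l) - bg x) + x ^ 2 * l / (1 + sq x) ^ 2
  corrL : ((m : ℝ) + 1) * x ^ 2 < 2 → -(1 / 2 * (x ^ 2 / sq x ^ 2)) * l ^ 2 ≤
    sq x * (bg (x * Real.exp l) - bg x) + x ^ 2 * l / (1 + sq x) ^ 2
  lamlo : -(((m : ℝ) + 1) / 9) ≤ lam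
  lamhi : lam ≤ 3 / 5

/-- all inputs for a transport which satisfies the sign bounds: `l ≤ l**`, and `l ≤ l*` if
`m ≤ 22` -/
theorem IsTrans.u15In (hm : 15 ≤ m) (hm' : m ≤ 26) (hr : IsProf r) (h : IsTrans m r τ τ' T)
    {x₀ : ℝ} (hx₀ : x₀ ∈ Ioo (0 : ℝ) 1) (h0 : x₀ ^ 2 = 2 / ((m : ℝ) + 1))
    (hsgn : ∀ x ∈ Ioo (0 : ℝ) 1, lf τ x ≤ (1 - x ^ 2) * (127 / 200 + 33 / 200 * x ^ 2))
    (hsgn' : m ≤ 22 → ∀ x ∈ Ioo (0 : ℝ) 1, lf τ x ≤ (1 - x ^ 2) * (31 / 50 + 7 / 50 * x ^ 2))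
    (hx : x ∈ Ioo (0 : ℝ) 1) :
    U15In m x (lf τ x) (uf τ τ' x) (lf τ x₀) := by
  have hs2 : sq x ^ 2 = 1 - x ^ 2 := pin_sq_sq (Ioo_subset_Icc_self hx)
  have h1 : x * Real.exp (lf τ x) ≤ 1 := (pin_le_one h hx).le
  have hmr : (15 : ℝ) ≤ m := by exact_mod_cast hm
  refine ⟨hm, hx, uf_pos h hx, h1, h.pin_h3 hr hx, h.pin_slope_one hr hx, h.u15_uk hm hr hx,
    h.pin_h5 (by omega) hr hx, hsgn x hx, cu_corr_two hx h1 (fun _ => hsgn x hx), ?_,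
    h.u15_lam_ge hm hr hx₀ h0, u15_lam_le hm' h0 (hsgn x₀ hx₀)⟩
  intro h8
  rcases le_or_gt m 22 with h22 | h22
  · refine u15_corr_half hx h1 ?_ ?_
    · rw [hs2]
      exact hsgn' h22 x hx
    · nlinarith only [h8, hmr]
  · refine cu_corr_half hx h1 (hsgn x hx) ?_
    have h23 : (23 : ℝ) ≤ m := by exact_mod_cast h22
    nlinarith only [h8, h23]

end

end Vale.Agent.P237.AllN
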