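import Vale.Agent.P237.AllN.U15A
import Vale.Agent.P237.AllN.U15L

/-!
# P237, uniform plain certificate (`m ≥ 15`): the left region in the form of `U15Left`
-/

open Set

namespace Vale.Agent.P237.AllN

/-- **The left inequality of the uniform plain certificate, `m ≥ 15`.** -/
theorem u15_left_ok {m : ℕ} (hm : 15 ≤ m) : U15Left m := by
  intro x l u lam h hlt
  have hmr : (15 : ℝ) ≤ m := by exact_mod_cast hm
  have hx := h.hx
  have hs0 : 0 < sq x := sqx_pos hx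
  have hxs : x ^ 2 + sq x ^ 2 = 1 := by rw [sqx_sq hx]; ring
  have hm1 : (0 : ℝ) < (m : ℝ) + 1 := by linarith
  have hl : l ≤ 127 / 200 := by
    have h1 := h.sgn
    have h2 : 0 ≤ x ^ 2 := sq_nonneg x
    have h3 : 0 ≤ (x ^ 2) ^ 2 := sq_nonneg _
    nlinarith
  have hx0 : x ^ 2 < 2 / ((m : ℝ) + 1) := by
    rw [lt_div_iff₀ hm1]
    linarith
  have key := u15_left (m := (m : ℝ)) (x := x) (s := sq x) (l := l) (u := u) (lam := lam)
    (F := sq x * (bg (x * Real.exp l) - bg x) + x ^ 2 * l / (1 + sq x) ^ 2)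
    (x0s := 2 / ((m : ℝ) + 1)) hmr hx.1 hs0 hxs rfl hx0 h.hu h.uk hl h.lamhi (h.corrL hlt)
  have h0 : (Real.sqrt (2 / ((m : ℝ) + 1))) ^ 2 = 2 / ((m : ℝ) + 1) :=
    Real.sq_sqrt (by positivity)
  have e1 := u15_normT (m := (m : ℝ)) (x := x) (s := sq x) (l := l) (u := u)
    (lam := lam) (v := Real.log (1 + u))
    (F := sq x * (bg (x * Real.exp l) - bg x) + x ^ 2 * l / (1 + sq x) ^ 2)
    (by linarith) hx.1 hs0 hxs h.hu
  have e2 := u15_normHL (m := (m : ℝ)) (x := x) (s := sq x) (l := l) (u := u) (lam := lam)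
    (Y := ((m : ℝ) - 1) * (x ^ 2 / sq x ^ 2)) (x₀ := Real.sqrt (2 / ((m : ℝ) + 1)))
    (by linarith) hx.1 hs0 hxs h0 rfl (by rw [h0]; exact hx0)
  rw [h0] at e2
  have hY : 0 < ((m : ℝ) - 1) * (x ^ 2 / sq x ^ 2) := by
    have := hx.1
    have h3 : 0 < (m : ℝ) - 1 := by linarith
    positivity
  have hfin : 1 / (10 * ((m : ℝ) + 1)) * (u ^ 2 / (1 + u)) ≤
      ((m : ℝ) - 1) * (x ^ 2 / sq x ^ 2) / ((m : ℝ) + 1) *
        (u15F m (sq x) (((m : ℝ) - 1) * (x ^ 2 / sq x ^ 2)) l u lam (Real.log (1 + u))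
          (u15c x l) + u15HL m (((m : ℝ) - 1) * (x ^ 2 / sq x ^ 2)) l u lam) := by
    unfold u15c
    rw [mul_add (((m : ℝ) - 1) * (x ^ 2 / sq x ^ 2) / ((m : ℝ) + 1)), ← e1, ← e2]
    refine key.trans (le_of_eq ?_)
    ring
  generalize ((m : ℝ) - 1) * (x ^ 2 / sq x ^ 2) = Y at hY hfin ⊢
  generalize u ^ 2 / (1 + u) = U at hfin ⊢
  generalize u15F m (sq x) Y l u lam (Real.log (1 + u)) (u15c x l) + u15HL m Y l u lam = G at hfin ⊢
  rw [div_le_iff₀ hY]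
  have h5 : 1 / (10 * ((m : ℝ) + 1)) * U = 1 / 10 * U / ((m : ℝ) + 1) := by field_simp
  have h6 : Y / ((m : ℝ) + 1) * G = G * Y / ((m : ℝ) + 1) := by ring
  rw [h5, h6] at hfin
  exact (div_le_div_iff_of_pos_right hm1).1 hfin

end Vale.Agent.P237.AllN
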